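import Vale.Agent.P062.Checker

namespace Vale.Agent.P062.PB.N0D0

open Vale.Agent.P062

noncomputable def t0 : T := .cons 342 (.leaf 247 1973 (.cons 295 (.leaf 366 2165 (.cons 292 (.leaf 293 2145 (.cons 341 (.leaf 365 2158 (.cons 343 (.leaf 344 2537 (.leaf 367 2164 .nil)) .nil)) .nil)) .nil)) .nil)) (.cons 342 (.cons 295 (.leaf 366 2165 (.cons 292 (.leaf 293 2145 (.cons 341 (.leaf 365 2158 (.cons 343 (.leaf 344 2537 (.leaf 367 2164 .nil)) .nil)) .nil)) .nil)) (.cons 366 (.leaf 295 2165 (.cons 367 (.leaf 343 2164 (.leaf 391 2356 .nil)) .nil)) (.cons 341 (.leaf 365 2158 (.cons 343 (.leaf 344 2537 (.leaf 367 2164 .nil)) .nil)) (.cons 295 (.leaf 366 2165 (.cons 292 (.leaf 293 2145 (.cons 341 (.leaf 365 2158 (.cons 246 (.leaf 317 1966 (.cons 221 (.leaf 245 1775 (.cons 222 (.leaf 197 1583 (.leaf 198 1588 .nil)) .nil)) .nil)) .nil)) .nil)) .nil)) .nil)))) (.cons 246 (.cons 245 (.leaf 221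 1775 (.cons 244 (.leaf 247 1952 (.leaf 243 1944 .nil)) .nil)) (.cons 221 (.leaf 245 1775 (.cons 222 (.leaf 197 1583 (.cons 317 (.leaf 341 1966 (.leaf 293 1774 .nil)) .nil)) .nil)) (.cons 223 (.leaf 247 1781 (.cons 222 (.leaf 199 1589 (.cons 317 (.leaf 341 1966 (.leaf 293 1774 .nil)) .nil)) .nil)) .nil))) (.cons 342 (.leaf 247 1973 (.cons 366 (.leaf 295 2165 (.cons 367 (.leaf 343 2164 (.leaf 391 2356 .nil)) .nil)) .nil)) .nil)))
noncomputable def t1 : T := .cons 291 (.leaf 292 2137 (.cons 317 (.leaf 222 1774 (.cons 315 (.cons 316 (.leaf 290 2323 (.leaf 295 2329 .nil)) (.cons 267 (.cons 177 (.leaf 201 1414 (.cons 220 (.leaf 243 1757 (.cons 268 (.leaf 196 1566 (.leaf 339 1949 .nil)) .nil)) .nil)) (.cons 243 (.leaf 220 1757 (.cons 218 (.leaf 242 1751 (.cons 219 (.leaf 194 1559 (.cons 314 (.leaf 290 1750 (.leaf 338 1942 .nil)) .nil)) .nil)) .nil)) (.cons 339 (.leaf 268 1949 (.cons 266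 (.leaf 242 1943 (.cons 362 (.leaf 338 2134 (.cons 363 (.leaf 290 2135 (.leaf 386 2326 .nil)) .nil)) .nil)) .nil)) .nil))) (.cons 316 (.leaf 295 2329 (.leaf 314 2321 .nil)) .nil))) .nil)) .nil)) (.cons 222 (.leaf 317 1774 (.cons 198 (.leaf 295 1588 (.leaf 174 1396 .nil)) .nil)) (.cons 292 (.leaf 295 2145 (.leaf 291 2137 .nil)) (.cons 291 (.leaf 292 2137 (.cons 317 (.leaf 222 1774 (.cons 315 (.cons 316 (.leaf 290 2323 (.leaf 314 2321 .nil)) (.cons 267 (.cons 177 (.leaf 201 1414 (.cons 220 (.leaf 243 1757 (.cons 268 (.leaf 196 1566 (.leaf 339 1949 .nil)) .nil)) .nil)) (.cons 243 (.leaf 220 1757 (.cons 218 (.leaf 242 1751 (.cons 219 (.leaf 194 1559 (.cons 314 (.leaf 290 1750 (.leaf 338 1942 .nil)) .nil)) .nil)) .nil)) (.cons 339 (.leaf 268 1949 (.cons 266 (.leaf 242 1943 (.cons 362 (.leaf 338 2134 (.cons 363 (.leaf 290 2135 (.leaf 386 2326 .nil)) .nil)) .nil)) .nil)) .nil))) (.cons 316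 (.leaf 290 2323 (.cons 339 (.leaf 338 2514 (.cons 267 (.leaf 268 1949 (.cons 243 (.leaf 220 1757 (.leaf 340 1948 .nil)) .nil)) .nil)) .nil)) (.cons 316 (.leaf 314 2321 (.cons 339 (.leaf 338 2514 (.cons 267 (.leaf 268 1949 (.cons 243 (.leaf 220 1757 (.leaf 340 1948 .nil)) .nil)) .nil)) .nil)) .nil)))) .nil)) .nil)) .nil)))
noncomputable def t2 : T := .cons 344 (.leaf 297 2373 (.cons 345 (.leaf 416 2565 (.cons 346 (.leaf 347 2746 (.leaf 369 2737 .nil)) .nil)) .nil)) (.cons 369 (.cons 345 (.leaf 297 2374 (.leaf 346 2737 .nil)) (.cons 390 (.leaf 389 2922 (.cons 293 (.leaf 317 2351 (.cons 370 (.cons 347 (.leaf 346 2745 (.cons 394 (.leaf 393 2928 (.leaf 395 2936 .nil)) .nil)) (.cons 347 (.leaf 346 2745 (.cons 371 (.leaf 348 2753 (.cons 291 (.leaf 292 2137 (.cons 372 (.leaf 393 2946 (.cons 396 (.leaf 395 2944 (.leaf 397 2952 .nil)) .nil)) .nil)) .nil)) .nil)) (.cons 291 (.leaf 292 2137 (.cons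 347 (.leaf 346 2745 (.cons 371 (.leaf 348 2753 (.cons 395 (.leaf 394 2936 (.leaf 396 2944 .nil)) .nil)) .nil)) .nil)) (.cons 291 (.leaf 292 2137 (.cons 347 (.leaf 346 2745 (.cons 371 (.leaf 348 2753 (.cons 393 (.leaf 394 2928 (.leaf 372 2946 .nil)) .nil)) .nil)) .nil)) (.cons 394 (.leaf 393 2928 (.leaf 395 2936 .nil)) .nil))))) .nil)) .nil)) (.cons 393 (.leaf 394 2928 (.cons 345 (.leaf 297 2374 (.leaf 416 2566 .nil)) .nil)) .nil))) (.cons 344 (.leaf 297 2373 (.cons 416 (.leaf 345 2565 (.cons 417 (.leaf 393 2564 (.leaf 441 2756 .nil)) .nil)) .nil)) (.cons 344 (.cons 345 (.leaf 416 2565 (.cons 346 (.leaf 347 2746 (.leaf 369 2737 .nil)) .nil)) (.cons 393 (.leaf 417 2564 (.cons 394 (.leaf 369 2928 (.leaf 395 2939 .nil)) .nil)) (.cons 416 (.leaf 345 2565 (.cons 417 (.leaf 393 2564 (.leaf 441 2756 .nil)) .nil)) .nil))) (.cons 344 (.leaf 297 2373 (.cons 393 (.leaf 417 2564 (.cons 394 (.leaf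 369 2928 (.leaf 395 2939 .nil)) .nil)) .nil)) .nil))))
noncomputable def t3 : T := .cons 366 (.cons 365 (.leaf 341 2158 (.leaf 389 2350 .nil)) (.cons 271 (.leaf 295 2165 (.cons 391 (.leaf 367 2356 (.cons 390 (.leaf 415 2548 (.cons 317 (.leaf 293 2351 (.cons 341 (.leaf 246 1966 (.leaf 414 2543 .nil)) .nil)) .nil)) .nil)) .nil)) (.cons 271 (.leaf 295 2165 (.cons 389 (.leaf 365 2350 (.cons 367 (.leaf 343 2164 (.leaf 391 2356 .nil)) .nil)) .nil)) .nil))) (.cons 367 (.leaf 343 2164 (.cons 366 (.leaf 391 2356 (.cons 271 (.leaf 295 2165 (.cons 368 (.cons 389 (.leaf 365 2350 (.cons 390 (.leaf 413 2542 (.leaf 369 2922 .nil)) .nil)) (.cons 392 t2 (.cons 345 (.cons 344 (.leaf 365 2729 (.cons 392 (.leaf 297 2373 (.leaf 416 2565 .nil)) .nil)) (.cons 369 (.leaf 346 2737 (.cons 297 (.leaf 392 2374 (.cons 394 (.leaf 370 2380 (.leaf 393 2928 .nil)) .nil)) .nil)) (.cons 344 (.leaf 365 2729 (.cons 346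 (.leaf 347 2746 (.leaf 369 2737 .nil)) .nil)) .nil))) (.cons 365 (.leaf 389 2350 (.cons 344 (.leaf 345 2729 (.cons 392 (.leaf 297 2373 (.leaf 393 2920 .nil)) .nil)) .nil)) .nil)))) .nil)) .nil)) .nil)) (.cons 343 (.leaf 367 2164 (.cons 344 (.leaf 341 2537 (.cons 345 (.leaf 317 2539 (.cons 370 (.leaf 369 2736 (.cons 346 (.leaf 371 2744 (.cons 347 (.leaf 348 2563 (.cons 323 (.leaf 299 2198 (.leaf 324 2561 .nil)) .nil)) .nil)) .nil)) .nil)) .nil)) .nil)) (.cons 366 (.cons 365 (.leaf 341 2158 (.leaf 389 2350 .nil)) (.cons 271 (.leaf 295 2165 (.cons 391 (.leaf 367 2356 (.cons 390 (.leaf 415 2548 (.cons 317 (.leaf 293 2351 (.cons 341 (.leaf 246 1966 (.leaf 414 2543 .nil)) .nil)) .nil)) .nil)) .nil)) (.cons 271 (.leaf 295 2165 (.cons 389 (.leaf 365 2350 (.cons 390 (.leaf 413 2542 (.cons 391 (.leaf 367 2356 (.leaf 415 2548 .nil)) .nil)) .nil)) .nil)) .nil))) (.cons 341 (.leaf 365 2158 (.cons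 317 (.leaf 246 1966 (.cons 343 (.leaf 344 2537 (.cons 340 (.cons 315 (.leaf 316 2520 (.cons 339 (.leaf 338 2513 (.leaf 314 2515 .nil)) .nil)) (.cons 339 (.leaf 338 2513 (.cons 363 (.leaf 362 2706 (.leaf 364 2714 .nil)) .nil)) (.cons 316 (.leaf 315 2520 (.cons 364 (.leaf 363 2714 (.cons 388 (.leaf 412 2533 (.leaf 293 2341 .nil)) .nil)) .nil)) .nil))) .nil)) .nil)) .nil)) (.cons 341 (.leaf 365 2158 (.cons 343 (.leaf 344 2537 (.leaf 367 2164 .nil)) .nil)) .nil)))))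
noncomputable def t4 : T := .cons 198 (.leaf 222 1581 (.cons 197 (.leaf 174 1389 (.cons 292 (.leaf 268 1574 (.leaf 316 1766 .nil)) .nil)) .nil)) (.cons 198 (.leaf 222 1581 (.cons 197 (.leaf 174 1389 (.cons 246 (.leaf 173 1388 (.cons 247 (.leaf 220 1763 (.leaf 268 1954 .nil)) .nil)) .nil)) .nil)) (.cons 292 (.leaf 316 1766 (.cons 196 (.leaf 220 1575 (.cons 268 (.leaf 197 1574 (.cons 246 (.leaf 247 1954 (.cons 267 (.leaf 266 1937 (.cons 291 (.leaf 290 2129 (.cons 243 (.leaf 242 1939 (.cons 219 (.leaf 195 1564 (.cons 218 (.leaf 244 1747 (.leaf 194 1559 .nil)) .nil)) .nil)) .nil)) .nil)) .nil)) .nil)) .nil)) .nil)) (.cons 198 (.leaf 222 1581 (.cons 197 (.leaf 174 1389 (.cons 246 (.leaf 173 1388 (.cons 247 (.leaf 220 1763 (.leaf 249 1962 .nil)) .nil)) .nil)) .nil)) (.cons 222 (.leaf 198 1581 (.cons 220 (.leaf 196 1575 (.cons 292 (.leaf 316 1766 (.cons 223 (.leaf 247 1760 (.cons 199 (.leaf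 200 1569 (.cons 243 (.leaf 244 1754 (.cons 219 (.leaf 242 1746 (.cons 195 (.leaf 194 1555 (.cons 218 (.leaf 246 1744 (.cons 267 (.leaf 268 1564 (.cons 290 (.leaf 291 2129 (.leaf 266 1558 .nil)) .nil)) .nil)) .nil)) .nil)) .nil)) .nil)) .nil)) .nil)) .nil)) .nil)) .nil))))
noncomputable def t5 : T := .cons 292 (.leaf 316 1766 (.cons 197 (.leaf 268 1574 (.cons 198 (.leaf 174 1389 (.leaf 222 1581 .nil)) .nil)) .nil)) (.cons 198 (.leaf 222 1581 (.cons 197 (.leaf 174 1389 (.cons 246 (.leaf 173 1388 (.cons 247 (.leaf 220 1763 (.leaf 268 1954 .nil)) .nil)) .nil)) .nil)) (.cons 292 (.leaf 316 1766 (.cons 197 (.leaf 268 1574 (.cons 173 (.leaf 246 1388 (.cons 148 (.leaf 172 1191 (.cons 149 (.leaf 124 999 (.cons 150 (.leaf 174 1197 (.leaf 126 1005 .nil)) .nil)) .nil)) .nil)) .nil)) .nil)) (.cons 198 (.leaf 222 1581 (.cons 197 (.leaf 174 1389 (.cons 246 (.leaf 173 1388 (.cons 247 (.leaf 220 1763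 (.leaf 249 1962 .nil)) .nil)) .nil)) .nil)) (.cons 222 (.leaf 198 1581 (.cons 292 (.leaf 316 1766 (.cons 291 (.leaf 290 2129 (.cons 220 (.cons 244 (.cons 243 (.leaf 242 1936 (.leaf 223 1754 .nil)) (.cons 268 (.leaf 315 1758 (.cons 219 (.leaf 195 1567 (.cons 218 (.leaf 217 1736 (.leaf 246 1744 .nil)) .nil)) .nil)) .nil)) (.cons 223 (.leaf 247 1760 (.cons 199 (.leaf 200 1569 (.cons 243 (.leaf 244 1754 (.cons 219 (.leaf 242 1746 (.cons 194 (.leaf 195 1555 (.cons 218 (.leaf 193 1547 (.leaf 267 1559 .nil)) .nil)) .nil)) .nil)) .nil)) .nil)) (.cons 246 (.leaf 247 1763 (.cons 219 (.leaf 218 1744 (.cons 195 (.leaf 194 1555 (.cons 243 (.leaf 242 1746 (.cons 268 (.leaf 244 1567 (.leaf 267 1564 .nil)) .nil)) .nil)) .nil)) .nil)) (.cons 247 (.leaf 223 1760 (.leaf 246 1763 .nil)) .nil)))) .nil)) .nil)) .nil)) .nil))))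
noncomputable def t6 : T := .cons 317 (.leaf 342 1964 (.cons 246 (.leaf 341 1965 (.leaf 222 1773 .nil)) .nil)) (.cons 221 (.cons 196 (.leaf 220 1575 (.cons 197 (.leaf 172 1383 (.cons 246 (.leaf 173 1388 (.cons 247 (.leaf 268 1954 (.leaf 249 1962 .nil)) .nil)) .nil)) .nil)) (.cons 198 (.leaf 222 1581 (.cons 197 (.leaf 174 1389 (.cons 172 (.leaf 196 1383 (.cons 173 (.leaf 246 1388 (.leaf 148 1191 .nil)) .nil)) .nil)) .nil)) (.cons 196 (.leaf 220 1575 (.cons 197 (.leaf 172 1383 (.cons 198 (.leaf 174 1389 (.leaf 222 1581 .nil)) .nil)) .nil)) (.cons 198 (.leaf 222 1581 (.cons 197 (.leaf 174 1389 (.cons 246 (.leaf 173 1388 (.cons 247 (.leaf 220 1763 (.leaf 268 1954 .nil)) .nil)) .nil)) .nil)) (.cons 220 (.leaf 196 1575 (.cons 222 (.leaf 198 1581 (.cons 247 (.leaf 223 1760 (.leaf 246 1763 .nil)) .nil)) .nil)) .nil))))) (.cons 317 (.leaf 342 1964 (.cons 221 (.cons 198 (.leaf 222 1581 (.cons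 197 (.leaf 174 1389 (.cons 172 (.leaf 196 1383 (.cons 173 (.leaf 148 1191 (.cons 268 (.leaf 292 1574 (.leaf 244 1382 .nil)) .nil)) .nil)) .nil)) .nil)) (.cons 196 (.leaf 220 1575 (.cons 197 (.leaf 172 1383 (.cons 198 (.leaf 174 1389 (.leaf 222 1581 .nil)) .nil)) .nil)) (.cons 244 (.leaf 220 1767 (.cons 198 (.leaf 222 1581 (.cons 197 (.leaf 174 1389 (.cons 268 (.leaf 292 1574 (.leaf 341 1959 .nil)) .nil)) .nil)) .nil)) (.cons 220 (.leaf 196 1575 (.leaf 244 1767 .nil)) .nil)))) .nil)) (.cons 317 (.leaf 342 1964 (.cons 220 (.leaf 244 1767 (.cons 196 (.leaf 221 1575 (.cons 246 (.leaf 341 1965 (.cons 247 (.leaf 268 1954 (.leaf 249 1962 .nil)) .nil)) .nil)) .nil)) .nil)) .nil)))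
noncomputable def t7 : T := .cons 221 (.cons 220 (.leaf 196 1575 (.cons 222 (.leaf 198 1581 (.cons 247 (.leaf 223 1760 (.leaf 246 1763 .nil)) .nil)) .nil)) (.cons 196 (.leaf 220 1575 (.cons 197 (.leaf 172 1383 (.cons 198 (.leaf 174 1389 (.leaf 222 1581 .nil)) .nil)) .nil)) (.cons 317 (.leaf 342 1964 (.cons 222 (.leaf 198 1581 (.leaf 246 1773 .nil)) .nil)) (.cons 317 (.leaf 342 1964 (.cons 220 (.leaf 196 1575 (.leaf 244 1767 .nil)) .nil)) .nil)))) (.cons 221 (.cons 220 (.leaf 196 1575 (.cons 222 (.leaf 198 1581 (.cons 247 (.leaf 223 1760 (.leaf 246 1763 .nil)) .nil)) .nil)) (.cons 198 (.leaf 222 1581 (.cons 197 (.leaf 174 1389 (.cons 172 (.leaf 196 1383 (.cons 173 (.leaf 246 1388 (.leaf 148 1191 .nil)) .nil)) .nil)) .nil)) (.cons 196 (.leaf 220 1575 (.cons 197 (.leaf 172 1383 (.cons 246 (.leaf 173 1388 (.cons 247 (.leaf 268 1954 (.leaf 249 1962 .nil)) .nil)) .nil)) .nil)) (.cons 196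 (.leaf 220 1575 (.cons 197 (.leaf 172 1383 (.cons 198 (.leaf 174 1389 (.leaf 222 1581 .nil)) .nil)) .nil)) (.cons 198 (.leaf 222 1581 (.cons 197 (.leaf 174 1389 (.cons 246 (.leaf 173 1388 (.cons 247 (.leaf 220 1763 (.leaf 268 1954 .nil)) .nil)) .nil)) .nil)) .nil))))) (.cons 317 (.leaf 342 1964 (.cons 244 (.leaf 220 1767 (.cons 242 (.leaf 243 1936 (.cons 340 (.leaf 316 1958 (.cons 341 (.leaf 268 1959 (.leaf 364 2150 .nil)) .nil)) .nil)) .nil)) .nil)) (.cons 317 (.leaf 342 1964 (.cons 246 (.leaf 341 1965 (.leaf 222 1773 .nil)) .nil)) .nil)))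
noncomputable def t8 : T := .cons 292 (.leaf 316 1766 (.cons 197 (.leaf 268 1574 (.cons 173 (.leaf 246 1388 (.cons 196 (.leaf 172 1383 (.leaf 220 1575 .nil)) .nil)) .nil)) .nil)) (.cons 292 (.leaf 316 1766 (.cons 197 (.leaf 268 1574 (.cons 173 (.leaf 246 1388 (.cons 172 (.leaf 196 1383 (.leaf 148 1191 .nil)) .nil)) .nil)) .nil)) (.cons 196 (.leaf 220 1575 (.cons 197 (.leaf 172 1383 (.cons 246 (.leaf 173 1388 (.cons 247 (.leaf 268 1954 (.leaf 249 1962 .nil)) .nil)) .nil)) .nil)) (.cons 292 (.leaf 316 1766 (.cons 197 (.leaf 268 1574 (.cons 173 (.leaf 246 1388 (.cons 148 (.leaf 172 1191 (.cons 149 (.leaf 124 999 (.cons 150 (.leaf 174 1197 (.leaf 126 1005 .nil)) .nil)) .nil)) .nil)) .nil)) .nil)) (.cons 292 (.leaf 316 1766 (.cons 196 (.leaf 220 1575 (.cons 197 (.leaf 172 1383 (.leaf 268 1574 .nil)) .nil)) .nil)) (.cons 292 (.leaf 316 1766 (.cons 291 (.leaf 290 2129 (.cons 197 (.cons 196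 (.leaf 172 1383 (.leaf 220 1575 .nil)) (.cons 173 (.leaf 246 1388 (.cons 148 (.leaf 172 1191 (.cons 149 (.leaf 124 999 (.cons 150 (.leaf 174 1197 (.leaf 126 1005 .nil)) .nil)) .nil)) .nil)) (.cons 173 (.leaf 246 1388 (.cons 220 (.leaf 196 1575 (.cons 149 (.leaf 244 1190 (.cons 150 (.leaf 174 1197 (.leaf 126 1005 .nil)) .nil)) .nil)) .nil)) .nil))) .nil)) .nil)) (.cons 220 (.leaf 196 1575 (.cons 247 (.leaf 246 1763 (.cons 292 (.leaf 316 1766 (.cons 222 (.leaf 223 1760 (.cons 219 (.cons 242 (.leaf 243 1746 (.cons 218 (.leaf 241 1738 (.cons 193 (.leaf 194 1547 (.cons 217 (.leaf 244 1736 (.leaf 192 1539 .nil)) .nil)) .nil)) .nil)) (.cons 195 (.leaf 194 1555 (.cons 268 (.leaf 244 1567 (.cons 267 (.leaf 243 1564 (.cons 290 (.leaf 291 2129 (.cons 266 (.leaf 289 2122 (.leaf 265 2120 .nil)) .nil)) .nil)) .nil)) .nil)) (.cons 195 (.leaf 194 1555 (.cons 244 (.leaf 268 1567 (.cons 147 (.leaf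 171 1180 (.cons 218 (.leaf 217 1736 (.cons 242 (.leaf 241 1738 (.cons 290 (.leaf 291 2129 (.leaf 266 1557 .nil)) .nil)) .nil)) .nil)) .nil)) .nil)) (.cons 242 (.leaf 243 1746 (.cons 218 (.leaf 241 1738 (.cons 217 (.leaf 244 1736 (.cons 193 (.leaf 192 1539 (.cons 290 (.leaf 291 2129 (.leaf 266 1551 .nil)) .nil)) .nil)) .nil)) .nil)) (.cons 242 (.leaf 243 1746 (.cons 194 (.leaf 195 1555 (.cons 218 (.leaf 193 1547 (.leaf 241 1738 .nil)) .nil)) .nil)) .nil))))) .nil)) .nil)) .nil)) .nil)) .nil))))))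
noncomputable def t9 : T := .cons 244 (.leaf 242 1936 (.cons 246 (.cons 222 (.leaf 198 1582 (.leaf 223 1753 .nil)) (.cons 247 (.leaf 268 1954 (.leaf 249 1962 .nil)) .nil)) .nil)) (.cons 267 (.cons 242 (.leaf 268 1939 (.cons 218 (.leaf 315 1751 (.cons 194 (.leaf 219 1559 (.leaf 266 1556 .nil)) .nil)) .nil)) (.cons 316 (.leaf 219 1756 (.cons 340 (.leaf 364 2149 (.leaf 315 1948 .nil)) .nil)) (.cons 242 (.leaf 268 1939 (.cons 218 (.leaf 315 1751 (.cons 194 (.leaf 266 1556 (.leaf 170 1364 .nil)) .nil)) .nil)) (.cons 219 (.leaf 316 1756 (.cons 194 (.leaf 218 1559 (.cons 195 (.leaf 268 1564 (.leaf 170 1367 .nil)) .nil)) .nil)) .nil)))) (.cons 246 (.cons 247 (.leaf 268 1954 (.leaf 249 1962 .nil)) (.cons 222 (.leaf 198 1582 (.cons 244 (.leaf 223 1753 (.cons 219 (.leaf 218 1747 (.cons 267 (.leaf 266 1938 (.leaf 316 1756 .nil)) .nil)) .nil)) .nil)) .nil)) (.cons 244 (.leaf 242 1936 (.cons 246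 (.cons 222 (.leaf 198 1582 (.leaf 223 1753 .nil)) (.cons 219 (.leaf 218 1747 (.cons 267 (.leaf 266 1938 (.leaf 316 1756 .nil)) .nil)) .nil)) .nil)) .nil)))
noncomputable def t10 : T := .cons 221 (.leaf 196 1575 (.cons 222 (.leaf 198 1581 (.cons 244 (.cons 243 (.leaf 242 1936 (.leaf 223 1754 .nil)) (.cons 268 (.leaf 315 1758 (.cons 219 (.leaf 195 1567 (.cons 218 (.leaf 217 1736 (.leaf 246 1744 .nil)) .nil)) .nil)) .nil)) .nil)) .nil)) (.cons 244 (.cons 243 (.leaf 242 1936 (.cons 315 (.leaf 268 1758 (.leaf 267 1757 .nil)) .nil)) (.cons 243 (.leaf 242 1936 (.cons 172 (.leaf 196 1380 (.cons 267 (.leaf 315 1757 (.cons 246 (.leaf 266 1938 (.cons 219 (.leaf 218 1747 (.leaf 247 1755 .nil)) .nil)) .nil)) .nil)) .nil)) (.cons 268 (.leaf 196 1572 (.leaf 315 1758 .nil)) (.cons 196 (.leaf 172 1380 (.leaf 268 1572 .nil)) .nil)))) (.cons 268 (.cons 244 (.leaf 315 1758 (.cons 243 (.leaf 242 1936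 (.cons 246 (.leaf 247 1954 (.cons 222 (.leaf 198 1582 (.leaf 223 1753 .nil)) .nil)) .nil)) .nil)) (.cons 244 (.leaf 315 1758 (.cons 219 (.leaf 195 1567 (.cons 218 (.leaf 217 1736 (.cons 243 (.leaf 242 1936 (.cons 194 (.leaf 267 1559 (.cons 221 (.leaf 193 1547 (.cons 222 (.leaf 198 1581 (.leaf 223 1754 .nil)) .nil)) .nil)) .nil)) .nil)) .nil)) .nil)) (.cons 246 (.leaf 247 1954 (.cons 198 (.leaf 222 1582 (.cons 267 (.leaf 266 1937 (.cons 243 (.leaf 242 1939 (.cons 219 (.leaf 195 1564 (.cons 218 (.leaf 221 1744 (.leaf 194 1559 .nil)) .nil)) .nil)) .nil)) .nil)) .nil)) (.cons 246 (.leaf 247 1954 (.cons 198 (.leaf 222 1582 (.cons 244 (.leaf 315 1758 (.cons 219 (.leaf 195 1567 (.cons 218 (.leaf 217 1736 (.leaf 221 1744 .nil)) .nil)) .nil)) .nil)) .nil)) (.cons 246 (.leaf 247 1954 (.cons 244 (.leaf 315 1758 (.cons 219 (.leaf 195 1567 (.cons 218 (.leaf 217 1736 (.leaf 221 1744 .nil)) .nil))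 .nil)) .nil)) .nil))))) (.cons 221 (.leaf 196 1575 (.cons 222 (.leaf 198 1581 (.cons 247 (.leaf 223 1760 (.leaf 246 1763 .nil)) .nil)) .nil)) (.cons 196 (.leaf 221 1575 (.cons 244 (.leaf 172 1380 (.leaf 268 1572 .nil)) .nil)) .nil))))
noncomputable def t11 : T := .cons 291 (.leaf 290 2129 (.cons 243 (.cons 221 (.leaf 316 1766 (.cons 198 (.leaf 222 1581 (.cons 242 (.leaf 244 1936 (.cons 267 (.leaf 268 1939 (.cons 218 (.leaf 315 1751 (.cons 194 (.leaf 219 1559 (.leaf 266 1556 .nil)) .nil)) .nil)) .nil)) .nil)) .nil)) (.cons 244 (.leaf 242 1936 (.cons 246 (.cons 222 (.leaf 198 1582 (.leaf 223 1753 .nil)) (.cons 247 (.leaf 268 1954 (.leaf 249 1962 .nil)) .nil)) .nil)) (.cons 316 (.leaf 221 1766 (.cons 340 (.leaf 268 1957 (.leaf 364 2149 .nil)) .nil)) (.cons 244 (.leaf 242 1936 (.cons 246 (.cons 222 (.leaf 198 1582 (.leaf 223 1753 .nil)) (.cons 219 (.leaf 218 1747 (.cons 267 (.leaf 266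 1938 (.leaf 316 1756 .nil)) .nil)) .nil)) .nil)) .nil)))) .nil)) (.cons 291 (.leaf 290 2129 (.cons 220 t10 .nil)) (.cons 291 (.leaf 290 2129 (.cons 243 t9 .nil)) (.cons 316 (.leaf 221 1766 (.cons 340 (.leaf 268 1957 (.leaf 364 2149 .nil)) .nil)) (.cons 221 (.leaf 316 1766 (.cons 220 (.leaf 196 1575 (.cons 222 (.leaf 198 1581 (.cons 223 (.leaf 247 1760 (.cons 199 (.leaf 200 1569 (.cons 243 (.leaf 244 1754 (.cons 219 (.leaf 242 1746 (.cons 194 (.leaf 195 1555 (.cons 218 (.leaf 246 1744 (.leaf 193 1547 .nil)) .nil)) .nil)) .nil)) .nil)) .nil)) .nil)) .nil)) .nil)) .nil))))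
noncomputable def t12 : T := .cons 221 (.leaf 197 1574 (.cons 316 (.leaf 293 1766 (.leaf 340 1957 .nil)) .nil)) (.cons 221 (.leaf 197 1574 (.cons 267 (.cons 242 (.leaf 243 1939 (.cons 266 (.leaf 241 1931 (.cons 290 (.leaf 291 2130 (.leaf 289 2122 .nil)) .nil)) .nil)) (.cons 242 (.leaf 243 1939 (.cons 266 (.leaf 241 1931 (.cons 265 (.leaf 244 1929 (.leaf 293 2120 .nil)) .nil)) .nil)) (.cons 290 (.leaf 291 2130 (.cons 266 (.leaf 289 2122 (.cons 265 (.leaf 244 1929 (.leaf 293 2120 .nil)) .nil)) .nil)) (.cons 291 (.leaf 290 2130 (.cons 243 (.leaf 242 1939 (.cons 219 (.leaf 195 1564 (.cons 194 (.leaf 218 1559 (.cons 220 (.leaf 196 1565 (.cons 315 (.leaf 244 1757 (.cons 338 (.leaf 314 1942 (.cons 339 (.leaf 363 2141 (.leaf 362 2134 .nil)) .nil)) .nil)) .nil)) .nil)) .nil)) .nil)) .nil)) .nil)))) .nil)) (.cons 316 (.leaf 340 1957 (.cons 243 (.cons 244 (.leaf 242 1936 (.leaf 219 1759 .nil))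 (.cons 267 (.leaf 242 1939 (.cons 219 (.leaf 195 1564 (.leaf 291 1756 .nil)) .nil)) (.cons 244 (.leaf 219 1759 (.cons 315 (.leaf 339 1950 (.cons 220 (.leaf 291 1758 (.cons 293 (.leaf 196 1572 (.leaf 317 1764 .nil)) .nil)) .nil)) .nil)) (.cons 242 (.leaf 244 1936 (.leaf 267 1939 .nil)) .nil)))) .nil)) (.cons 316 (.leaf 340 1957 (.cons 243 (.cons 242 (.leaf 244 1936 (.leaf 267 1939 .nil)) (.cons 267 (.leaf 242 1939 (.cons 219 (.leaf 195 1564 (.leaf 291 1756 .nil)) .nil)) (.cons 244 (.leaf 221 1765 (.leaf 219 1759 .nil)) .nil))) .nil)) .nil)))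
noncomputable def t13 : T := .cons 246 (.leaf 247 1954 (.cons 267 (.leaf 266 1937 (.cons 243 (.leaf 242 1939 (.cons 291 (.leaf 290 2130 (.cons 315 (.cons 220 (.leaf 244 1757 (.cons 196 (.leaf 219 1565 (.cons 221 (.leaf 293 1575 (.cons 172 (.leaf 197 1383 (.leaf 148 1188 .nil)) .nil)) .nil)) .nil)) (.cons 316 (.leaf 340 1948 (.cons 338 (.leaf 314 1942 (.cons 339 (.leaf 317 2514 (.leaf 362 2134 .nil)) .nil)) .nil)) .nil)) .nil)) .nil)) .nil)) .nil)) (.cons 292 t12 (.cons 246 (.leaf 247 1954 (.cons 221 (.cons 197 (.leaf 173 1388 (.leaf 292 1574 .nil)) (.cons 293 (.cons 317 (.leaf 342 1964 (.leaf 341 1965 .nil)) (.cons 220 (.leaf 196 1575 (.cons 219 (.leaf 218 1744 (.cons 292 (.leaf 316 1766 (.cons 244 (.leaf 195 1567 (.cons 291 (.leaf 290 2129 (.leaf 315 1758 .nil)) .nil)) .nil)) .nil)) .nil)) .nil)) (.cons 197 (.leaf 173 1388 (.cons 174 (.leaf 198 1389 (.cons 196 (.leaf 172 1383 (.cons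 293 (.leaf 220 1575 (.cons 317 (.leaf 342 1964 (.leaf 341 1965 .nil)) .nil)) .nil)) .nil)) .nil)) .nil))) .nil)) (.cons 246 (.leaf 247 1954 (.cons 267 (.leaf 266 1937 (.cons 291 (.leaf 290 2130 (.cons 243 (.leaf 242 1939 (.cons 292 (.cons 219 (.leaf 195 1564 (.leaf 316 1756 .nil)) (.cons 219 (.leaf 195 1564 (.cons 218 (.leaf 194 1559 (.cons 221 (.leaf 197 1574 (.leaf 220 1744 .nil)) .nil)) .nil)) (.cons 316 (.leaf 340 1957 (.cons 221 (.leaf 197 1574 (.leaf 293 1766 .nil)) .nil)) .nil))) .nil)) .nil)) .nil)) .nil)) (.cons 246 (.leaf 247 1954 (.cons 267 (.leaf 266 1937 (.cons 243 (.leaf 242 1939 (.cons 291 (.leaf 290 2130 (.cons 219 (.cons 194 (.leaf 218 1559 (.cons 195 (.leaf 292 1564 (.leaf 170 1367 .nil)) .nil)) (.cons 218 (.leaf 244 1747 (.leaf 194 1559 .nil)) (.cons 195 (.leaf 292 1564 (.cons 196 (.leaf 172 1373 (.leaf 220 1565 .nil)) .nil)) .nil))) .nil)) .nil)) .nil)) .nil))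 (.cons 246 (.leaf 247 1954 (.cons 267 (.leaf 266 1937 (.cons 243 (.leaf 242 1939 (.cons 292 (.cons 316 (.leaf 340 1957 (.cons 219 (.leaf 195 1564 (.leaf 244 1759 .nil)) .nil)) (.cons 219 (.leaf 195 1564 (.cons 218 (.leaf 244 1747 (.cons 221 (.leaf 197 1574 (.leaf 220 1744 .nil)) .nil)) .nil)) (.cons 316 (.leaf 340 1957 (.cons 221 (.leaf 197 1574 (.leaf 293 1766 .nil)) .nil)) .nil))) .nil)) .nil)) .nil)) (.cons 246 (.leaf 247 1954 (.cons 267 (.leaf 266 1937 (.cons 243 (.leaf 242 1939 (.cons 291 (.leaf 290 2130 (.cons 292 (.cons 316 (.leaf 340 1957 (.leaf 219 1756 .nil)) (.cons 197 (.leaf 221 1574 (.cons 219 (.leaf 195 1564 (.cons 218 (.leaf 244 1747 (.leaf 194 1559 .nil)) .nil)) .nil)) (.cons 316 (.leaf 340 1957 (.cons 221 (.leaf 197 1574 (.leaf 293 1766 .nil)) .nil)) .nil))) .nil)) .nil)) .nil)) .nil)) (.cons 246 (.leaf 247 1954 (.cons 267 (.leaf 266 1937 (.cons 243 (.leaf 242 1939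 (.cons 291 (.leaf 290 2130 (.cons 315 (.cons 244 (.leaf 339 1949 (.leaf 220 1757 .nil)) (.cons 316 (.leaf 340 1948 (.cons 338 (.leaf 314 1942 (.cons 339 (.leaf 317 2514 (.leaf 362 2134 .nil)) .nil)) .nil)) (.cons 244 (.leaf 220 1757 (.cons 314 (.leaf 338 1942 (.cons 316 (.leaf 340 1948 (.cons 292 (.leaf 221 1765 (.cons 313 (.leaf 312 2305 (.leaf 293 2313 .nil)) .nil)) .nil)) .nil)) .nil)) .nil))) .nil)) .nil)) .nil)) .nil)) .nil)))))))
noncomputable def t14 : T := .cons 222 (.leaf 223 1753 (.cons 174 (.leaf 198 1390 (.cons 247 (.leaf 249 1962 (.cons 267 (.leaf 266 1938 (.cons 170 (.leaf 194 1367 (.cons 171 (.leaf 146 1175 (.cons 172 (.leaf 148 1181 (.leaf 196 1373 .nil)) .nil)) .nil)) .nil)) .nil)) .nil)) .nil)) (.cons 222 (.leaf 223 1753 (.cons 198 (.leaf 174 1390 (.cons 197 (.leaf 173 1391 (.cons 249 (.leaf 247 1962 (.cons 199 (.leaf 175 1397 (.cons 171 (.cons 170 (.leaf 146 1175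 (.leaf 196 1363 .nil)) (.cons 146 (.leaf 170 1175 (.cons 147 (.leaf 122 983 (.cons 148 (.leaf 172 1181 (.leaf 124 989 .nil)) .nil)) .nil)) (.cons 172 (.leaf 148 1181 (.leaf 196 1371 .nil)) .nil))) .nil)) .nil)) .nil)) .nil)) .nil)) (.cons 267 (.leaf 266 1938 (.cons 170 (.leaf 194 1367 (.cons 171 (.leaf 146 1175 (.cons 172 (.leaf 148 1181 (.leaf 196 1373 .nil)) .nil)) .nil)) .nil)) (.cons 267 (.leaf 266 1938 (.cons 194 (.leaf 170 1367 (.cons 196 (.leaf 172 1373 (.cons 222 (.leaf 223 1753 (.cons 174 (.leaf 198 1390 (.cons 197 (.leaf 173 1361 (.leaf 221 1552 .nil)) .nil)) .nil)) .nil)) .nil)) .nil)) (.cons 267 (.leaf 266 1938 (.cons 170 (.leaf 194 1367 (.cons 171 (.leaf 146 1175 (.cons 222 (.leaf 223 1753 (.cons 198 (.leaf 174 1390 (.cons 197 (.leaf 173 1391 (.leaf 196 1363 .nil)) .nil)) .nil)) .nil)) .nil)) .nil)) (.cons 267 (.leaf 266 1938 (.cons 172 (.leaf 196 1373 (.cons 171 (.leaf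 148 1181 (.cons 247 (.leaf 249 1962 (.cons 173 (.cons 174 (.leaf 194 1362 (.cons 198 (.leaf 222 1390 (.leaf 199 1368 .nil)) .nil)) (.cons 197 (.leaf 221 1388 (.cons 222 (.leaf 198 1391 (.leaf 223 1753 .nil)) .nil)) (.cons 174 (.leaf 194 1362 (.cons 199 (.leaf 198 1368 (.cons 175 (.leaf 223 1404 (.leaf 200 1376 .nil)) .nil)) .nil)) (.cons 174 (.leaf 194 1362 (.cons 223 (.leaf 222 1753 (.cons 175 (.leaf 199 1404 (.cons 151 (.leaf 150 1177 (.leaf 152 1185 .nil)) .nil)) .nil)) .nil)) .nil)))) .nil)) .nil)) .nil)) .nil)) (.cons 222 (.leaf 223 1753 (.cons 174 (.leaf 198 1390 (.cons 171 (.cons 172 (.leaf 148 1181 (.cons 146 (.leaf 170 1175 (.cons 147 (.leaf 122 983 (.leaf 173 1171 .nil)) .nil)) .nil)) (.cons 170 (.leaf 146 1175 (.cons 267 (.leaf 266 1938 (.leaf 194 1367 .nil)) .nil)) (.cons 172 (.leaf 148 1181 (.cons 194 (.leaf 173 1362 (.cons 267 (.leaf 266 1938 (.leaf 170 1367 .nil)) .nil))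 .nil)) (.cons 148 (.leaf 172 1181 (.cons 147 (.leaf 124 989 (.cons 146 (.leaf 122 983 (.cons 149 (.leaf 173 1168 (.cons 126 (.leaf 125 977 (.cons 150 (.leaf 175 1176 (.leaf 127 985 .nil)) .nil)) .nil)) .nil)) .nil)) .nil)) .nil)))) .nil)) .nil)) .nil))))))
noncomputable def t15 : T := .leaf 249 1962 (.cons 219 (.leaf 218 1747 (.cons 267 (.leaf 266 1938 (.cons 291 (.cons 316 (.leaf 292 1756 (.cons 290 (.leaf 314 1750 (.cons 315 (.leaf 317 2323 (.leaf 340 1948 .nil)) .nil)) .nil)) (.cons 290 (.leaf 314 1750 (.cons 293 (.leaf 292 2129 (.cons 317 (.leaf 342 1964 (.leaf 341 1965 .nil)) .nil)) .nil)) (.cons 315 (.cons 314 (.leaf 290 1750 (.leaf 338 1942 .nil)) (.cons 316 (.leaf 340 1948 (.cons 317 (.leaf 290 2323 (.cons 293 (.leaf 342 1964 (.leaf 341 1965 .nil)) .nil)) .nil)) (.cons 316 (.leaf 340 1948 (.cons 338 (.leaf 314 1942 (.cons 339 (.leaf 317 2514 (.leaf 362 2134 .nil)) .nil)) .nil))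 .nil))) (.cons 316 (.leaf 292 1756 (.cons 315 (.leaf 340 1948 (.cons 338 (.leaf 314 1942 (.cons 339 (.leaf 317 2514 (.leaf 362 2134 .nil)) .nil)) .nil)) .nil)) (.cons 316 (.leaf 292 1756 (.cons 315 (.leaf 340 1948 (.cons 317 (.leaf 290 2323 (.cons 293 (.leaf 342 1964 (.leaf 341 1965 .nil)) .nil)) .nil)) .nil)) (.cons 292 (.leaf 316 1756 (.cons 290 (.leaf 293 2129 (.leaf 314 1750 .nil)) .nil)) .nil)))))) .nil)) .nil)) .nil)
noncomputable def t16 : T := .cons 315 (.leaf 218 1751 (.cons 266 (.leaf 339 1943 (.cons 314 (.leaf 338 1942 (.cons 316 (.leaf 340 1948 (.cons 292 (.leaf 219 1756 (.cons 293 (.leaf 290 2129 (.leaf 221 1766 .nil)) .nil)) .nil)) .nil)) .nil)) .nil)) (.cons 219 (.cons 290 (.leaf 314 1750 (.cons 292 (.leaf 293 2129 (.leaf 316 1756 .nil)) .nil)) (.cons 194 (.leaf 218 1559 (.cons 195 (.leaf 170 1367 (.cons 171 (.leaf 266 1366 (.cons 172 (.leaf 148 1181 (.leaf 196 1373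 .nil)) .nil)) .nil)) .nil)) .nil)) (.cons 315 (.cons 266 (.leaf 339 1943 (.cons 314 (.leaf 338 1942 (.cons 316 (.leaf 340 1948 (.cons 292 (.leaf 219 1756 (.cons 293 (.leaf 290 2129 (.leaf 221 1766 .nil)) .nil)) .nil)) .nil)) .nil)) (.cons 339 (.leaf 266 1943 (.cons 338 (.leaf 314 1942 (.leaf 362 2134 .nil)) .nil)) (.cons 316 (.leaf 340 1948 (.cons 219 (.leaf 292 1756 (.cons 290 (.leaf 317 2323 (.leaf 314 1750 .nil)) .nil)) .nil)) (.cons 316 (.leaf 340 1948 (.cons 219 (.leaf 292 1756 (.cons 266 (.leaf 339 1943 (.cons 195 (.leaf 171 1366 (.leaf 290 1558 .nil)) .nil)) .nil)) .nil)) .nil)))) (.cons 315 (.leaf 218 1751 (.cons 339 (.leaf 266 1943 (.cons 338 (.leaf 314 1942 (.leaf 362 2134 .nil)) .nil)) .nil)) (.cons 315 (.leaf 218 1751 (.cons 316 (.leaf 340 1948 (.cons 219 (.leaf 292 1756 (.cons 290 (.leaf 317 2323 (.leaf 314 1750 .nil)) .nil)) .nil)) .nil)) (.cons 218 (.leaf 315 1751 (.cons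 194 (.leaf 170 1364 (.leaf 219 1559 .nil)) .nil)) .nil)))))
noncomputable def t17 : T := .cons 292 (.leaf 290 2129 (.cons 221 (.leaf 316 1766 (.cons 198 (.leaf 222 1581 (.cons 197 (.leaf 174 1389 (.cons 172 (.leaf 196 1383 (.cons 173 (.leaf 246 1388 (.leaf 148 1191 .nil)) .nil)) .nil)) .nil)) .nil)) .nil)) (.cons 315 (.cons 314 (.leaf 338 1942 (.cons 290 (.leaf 219 1750 (.cons 218 (.leaf 242 1751 (.cons 340 (.leaf 316 1948 (.cons 339 (.leaf 364 2140 (.cons 363 (.leaf 266 2135 (.leaf 387 2327 .nil)) .nil)) .nil)) .nil)) .nil)) .nil)) (.cons 242 (.leaf 218 1751 (.cons 339 (.leaf 266 1943 (.cons 340 (.leaf 316 1948 (.leaf 364 2140 .nil)) .nil)) .nil)) (.cons 314 (.leaf 338 1942 (.cons 290 (.leaf 219 1750 (.cons 340 (.leaf 316 1948 (.cons 339 (.leaf 364 2140 (.cons 363 (.leaf 266 2135 (.leaf 387 2327 .nil)) .nil)) .nil)) .nil)) .nil)) (.cons 218 (.leaf 242 1751 (.cons 219 (.leaf 194 1559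 (.cons 314 (.leaf 290 1750 (.leaf 338 1942 .nil)) .nil)) .nil)) .nil)))) (.cons 315 (.cons 314 (.leaf 338 1942 (.cons 316 (.leaf 340 1948 (.cons 292 (.leaf 221 1766 (.leaf 219 1756 .nil)) .nil)) .nil)) (.cons 242 (.leaf 218 1751 (.cons 338 (.leaf 314 1942 (.cons 339 (.leaf 266 1943 (.leaf 362 2134 .nil)) .nil)) .nil)) (.cons 218 (.leaf 242 1751 (.cons 219 (.leaf 194 1559 (.cons 316 (.leaf 292 1756 (.leaf 340 1948 .nil)) .nil)) .nil)) .nil))) (.cons 290 (.leaf 292 2129 (.cons 219 (.leaf 314 1750 (.cons 194 (.leaf 218 1559 (.cons 195 (.leaf 170 1367 (.leaf 266 1558 .nil)) .nil)) .nil)) .nil)) .nil)))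
noncomputable def t18 : T := .cons 268 (.leaf 242 1939 (.cons 246 (.leaf 247 1945 (.leaf 266 1937 .nil)) .nil)) (.cons 291 t17 (.cons 268 (.leaf 242 1939 (.cons 290 (.leaf 291 2130 (.cons 266 (.leaf 289 2122 (.cons 195 (.leaf 219 1558 (.cons 292 (.leaf 265 2120 (.cons 316 (.leaf 221 1766 (.leaf 340 1957 .nil)) .nil)) .nil)) .nil)) .nil)) .nil)) (.cons 268 (.cons 246 (.leaf 247 1945 (.leaf 266 1937 .nil)) (.cons 290 (.leaf 291 2130 (.cons 266 (.leaf 289 2122 (.cons 195 (.leaf 219 1558 (.cons 292 (.leaf 265 2120 (.cons 316 (.leaf 221 1766 (.leaf 340 1957 .nil)) .nil)) .nil)) .nil)) .nil)) (.cons 246 (.leaf 247 1945 (.cons 291 (.leaf 290 2130 (.cons 315 (.cons 198 (.leaf 222 1582 (.cons 316 (.leaf 340 1948 (.cons 292 (.leaf 221 1766 (.leaf 219 1756 .nil)) .nil)) .nil)) (.cons 198 (.leaf 222 1582 (.cons 338 (.leaf 314 1942 (.cons 339 (.leaf 362 2134 (.cons 363 (.leaf 292 2141 (.cons 364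 (.leaf 340 2140 (.leaf 388 2332 .nil)) .nil)) .nil)) .nil)) .nil)) (.cons 338 (.leaf 314 1942 (.cons 339 (.leaf 362 2134 (.cons 292 (.leaf 363 2141 (.cons 219 (.leaf 195 1564 (.leaf 316 1756 .nil)) .nil)) .nil)) .nil)) (.cons 198 (.leaf 222 1582 (.cons 338 (.leaf 314 1942 (.cons 339 (.leaf 362 2134 (.cons 340 (.leaf 316 1948 (.leaf 364 2140 .nil)) .nil)) .nil)) .nil)) .nil)))) .nil)) .nil)) .nil))) (.cons 268 (.leaf 242 1939 (.cons 246 (.leaf 247 1945 (.cons 291 (.leaf 290 2130 (.cons 315 (.cons 338 (.leaf 314 1942 (.cons 339 (.leaf 362 2134 (.cons 292 (.leaf 363 2141 (.cons 219 (.leaf 195 1564 (.leaf 316 1756 .nil)) .nil)) .nil)) .nil)) (.cons 198 (.leaf 222 1582 (.cons 338 (.leaf 314 1942 (.cons 339 (.leaf 362 2134 (.cons 363 (.leaf 292 2141 (.cons 364 (.leaf 340 2140 (.leaf 388 2332 .nil)) .nil)) .nil)) .nil)) .nil)) (.cons 198 (.leaf 222 1582 (.cons 338 (.leaf 314 1942 (.cons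 339 (.leaf 362 2134 (.cons 340 (.leaf 316 1948 (.leaf 364 2140 .nil)) .nil)) .nil)) .nil)) (.cons 316 (.leaf 340 1948 (.cons 292 (.leaf 221 1766 (.leaf 219 1756 .nil)) .nil)) .nil)))) .nil)) .nil)) .nil)) .nil))))
noncomputable def t19 : T := .cons 198 (.leaf 293 1582 (.leaf 174 1390 .nil)) (.cons 244 (.leaf 223 1753 (.cons 219 (.leaf 218 1747 (.cons 267 (.leaf 266 1938 (.cons 291 (.cons 247 (.leaf 249 1962 (.cons 316 (.leaf 292 1756 (.cons 290 (.leaf 314 1750 (.cons 315 (.leaf 317 2323 (.leaf 340 1948 .nil)) .nil)) .nil)) .nil)) (.cons 249 (.leaf 247 1962 (.cons 290 (.leaf 314 1750 (.cons 292 (.leaf 293 2129 (.leaf 316 1756 .nil)) .nil)) .nil)) (.cons 293 (.leaf 317 1773 (.cons 290 (.leaf 292 2129 (.leaf 314 1750 .nil)) .nil)) (.cons 317 (.leaf 293 1773 (.cons 314 (.leaf 290 1750 (.cons 315 (.leaf 338 1942 (.cons 316 (.leaf 340 1948 (.cons 342 (.leaf 343 2520 (.leaf 341 2512 .nil))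 .nil)) .nil)) .nil)) .nil)) (.cons 317 (.leaf 293 1773 (.cons 316 (.leaf 292 1756 (.cons 315 (.leaf 340 1948 (.cons 338 (.leaf 339 2514 (.leaf 314 1942 .nil)) .nil)) .nil)) .nil)) (.cons 293 (.leaf 317 1773 (.cons 292 (.leaf 290 2129 (.leaf 316 1756 .nil)) .nil)) .nil)))))) .nil)) .nil)) .nil)) (.cons 198 (.leaf 174 1390 (.cons 197 (.leaf 173 1391 (.cons 199 (.leaf 175 1397 (.cons 223 (.leaf 244 1753 (.cons 196 (.leaf 195 1560 (.cons 172 (.leaf 221 1383 (.leaf 171 1371 .nil)) .nil)) .nil)) .nil)) .nil)) .nil)) .nil))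
noncomputable def t20 : T := .cons 222 (.cons 198 (.leaf 293 1582 (.leaf 174 1390 .nil)) (.cons 244 (.leaf 223 1753 (.cons 219 (.leaf 218 1747 (.cons 267 (.leaf 266 1938 (.cons 291 (.cons 247 (.leaf 268 1945 (.leaf 249 1962 .nil)) (.cons 247 (.leaf 249 1962 (.cons 316 (.leaf 292 1756 (.cons 290 (.leaf 314 1750 (.cons 315 (.leaf 317 2323 (.leaf 340 1948 .nil)) .nil)) .nil)) .nil)) (.cons 290 (.leaf 268 2130 (.leaf 314 1750 .nil)) .nil))) .nil)) .nil)) .nil)) .nil)) (.cons 293 (.cons 222 (.leaf 198 1582 (.leaf 317 1773 .nil)) (.cons 222 (.leaf 198 1582 (.cons 244 (.leaf 223 1753 (.cons 267 (.leaf 266 1938 (.cons 219 (.leaf 218 1747 (.cons 292 (.cons 316 (.leaf 221 1766 (.leaf 268 1759 .nil)) (.cons 195 (.leaf 268 1564 (.cons 170 (.leaf 194 1367 (.cons 171 (.leaf 146 1175 (.cons 172 (.leaf 148 1181 (.leaf 196 1373 .nil)) .nil)) .nil)) .nil)) (.cons 291 (.leaf 290 2129 (.leaf 316 1756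 .nil)) .nil))) .nil)) .nil)) .nil)) .nil)) (.cons 317 (.leaf 342 1964 (.leaf 341 1965 .nil)) .nil))) (.cons 222 t19 (.cons 247 (.leaf 268 1954 (.leaf 249 1962 .nil)) .nil)))
noncomputable def t21 : T := .cons 244 (.leaf 242 1936 (.cons 246 (.cons 247 (.leaf 268 1954 (.leaf 249 1962 .nil)) (.cons 267 (.leaf 266 1938 (.cons 218 (.leaf 219 1747 (.cons 222 (.leaf 223 1753 (.cons 198 (.leaf 293 1582 (.leaf 174 1390 .nil)) .nil)) .nil)) .nil)) .nil)) .nil)) (.cons 246 t20 (.cons 293 (.cons 317 (.leaf 342 1964 (.cons 246 (.leaf 341 1965 (.leaf 222 1773 .nil)) .nil)) (.cons 267 t18 (.cons 317 (.leaf 342 1964 (.cons 316 (.leaf 340 1958 (.cons 292 (.leaf 221 1766 (.cons 291 (.leaf 290 2320 (.cons 267 (.leaf 219 1756 (.cons 242 (.leaf 268 1939 (.cons 218 (.leaf 315 1751 (.cons 194 (.leaf 170 1364 (.leaf 266 1556 .nil)) .nil)) .nil)) .nil)) .nil)) .nil)) .nil)) .nil)) .nil))) (.cons 242 (.leaf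 244 1936 (.cons 267 (.leaf 268 1939 (.cons 291 t16 .nil)) .nil)) (.cons 244 (.leaf 242 1936 (.cons 246 (.cons 222 (.leaf 223 1753 (.cons 219 (.leaf 218 1747 (.cons 267 (.leaf 266 1938 (.cons 291 (.cons 317 (.leaf 293 1773 (.cons 247 (.leaf 249 1962 (.cons 290 (.leaf 314 1750 (.cons 316 (.leaf 315 2323 (.leaf 292 1756 .nil)) .nil)) .nil)) .nil)) (.cons 198 (.leaf 174 1390 (.cons 173 (.leaf 197 1391 (.cons 175 (.leaf 199 1397 (.cons 247 (.leaf 249 1962 (.cons 314 (.leaf 290 1750 (.cons 315 (.leaf 338 1942 (.cons 316 (.leaf 292 1756 (.leaf 340 1948 .nil)) .nil)) .nil)) .nil)) .nil)) .nil)) .nil)) (.cons 293 (.leaf 198 1582 (.leaf 317 1773 .nil)) .nil))) .nil)) .nil)) .nil)) (.cons 247 t15 (.cons 222 (.leaf 223 1753 (.cons 198 (.leaf 293 1582 (.leaf 174 1390 .nil)) .nil)) (.cons 219 (.leaf 218 1747 (.cons 195 t14 .nil)) .nil)))) .nil)) (.cons 244 (.leaf 242 1936 (.cons 246 (.cons 222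 (.leaf 223 1753 (.cons 198 (.leaf 293 1582 (.leaf 174 1390 .nil)) .nil)) (.cons 247 (.leaf 268 1954 (.leaf 249 1962 .nil)) .nil)) .nil)) (.cons 268 (.cons 244 (.leaf 242 1936 (.cons 246 (.leaf 247 1954 (.cons 219 (.leaf 218 1747 (.cons 222 (.leaf 223 1753 (.cons 198 (.leaf 174 1390 (.cons 175 (.leaf 199 1397 (.cons 197 (.leaf 173 1391 (.cons 292 (.leaf 221 1574 (.leaf 316 1759 .nil)) .nil)) .nil)) .nil)) .nil)) .nil)) .nil)) .nil)) (.cons 246 (.leaf 247 1954 (.cons 267 (.leaf 266 1937 (.cons 291 (.leaf 290 2130 (.cons 292 (.cons 197 (.leaf 221 1574 (.cons 219 (.leaf 195 1564 (.leaf 316 1756 .nil)) .nil)) (.cons 197 (.leaf 221 1574 (.cons 219 (.leaf 195 1564 (.cons 218 (.leaf 244 1747 (.leaf 194 1559 .nil)) .nil)) .nil)) (.cons 316 (.leaf 340 1957 (.cons 221 (.leaf 197 1574 (.leaf 244 1765 .nil)) .nil)) (.cons 316 (.leaf 340 1957 (.leaf 219 1756 .nil)) .nil)))) .nil)) .nil)) .nil))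 (.cons 242 (.leaf 244 1936 (.leaf 267 1939 .nil)) (.cons 267 (.leaf 242 1939 (.cons 246 (.leaf 247 1945 (.leaf 266 1937 .nil)) .nil)) .nil)))) .nil))))))
noncomputable def t22 : T := .cons 197 (.leaf 292 1574 (.cons 172 (.leaf 196 1383 (.cons 173 (.leaf 246 1388 (.leaf 148 1191 .nil)) .nil)) .nil)) (.cons 197 (.leaf 292 1574 (.cons 172 (.leaf 196 1383 (.cons 173 (.leaf 148 1191 (.leaf 244 1382 .nil)) .nil)) .nil)) (.cons 220 (.cons 247 (.leaf 246 1954 (.cons 196 (.leaf 293 1575 (.cons 172 (.leaf 244 1380 (.leaf 148 1188 .nil)) .nil)) .nil)) (.cons 196 (.leaf 293 1575 (.cons 172 (.leaf 244 1380 (.leaf 148 1188 .nil)) .nil)) (.cons 247 (.leaf 246 1954 (.cons 222 (.leaf 223 1760 (.cons 198 (.leaf 293 1581 (.cons 150 (.leaf 174 1198 (.cons 219 (.leaf 199 1561 (.cons 194 (.leaf 195 1555 (.cons 218 (.leaf 193 1547 (.cons 217 (.leaf 244 1736 (.cons 241 (.leaf 242 1738 (.leaf 240 1730 .nil))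 .nil)) .nil)) .nil)) .nil)) .nil)) .nil)) .nil)) .nil)) (.cons 246 (.leaf 247 1954 (.cons 218 (.leaf 219 1744 (.cons 267 (.leaf 266 1937 (.cons 291 (.leaf 290 2130 (.cons 244 (.leaf 196 1566 (.cons 292 (.leaf 316 1765 (.leaf 315 1758 .nil)) .nil)) .nil)) .nil)) .nil)) .nil)) (.cons 247 (.leaf 246 1954 (.cons 222 (.leaf 223 1760 (.cons 293 (.leaf 196 1575 (.leaf 198 1581 .nil)) .nil)) .nil)) .nil))))) (.cons 246 (.leaf 247 1954 (.cons 197 (.leaf 173 1388 (.cons 198 (.leaf 174 1389 (.cons 222 (.leaf 293 1581 (.cons 199 (.leaf 175 1397 (.cons 200 (.leaf 220 1570 (.leaf 201 1578 .nil)) .nil)) .nil)) .nil)) .nil)) .nil)) .nil)))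
noncomputable def t23 : T := .cons 246 (.leaf 247 1954 (.cons 316 (.leaf 340 1957 (.cons 244 (.leaf 221 1765 (.cons 315 (.leaf 339 1950 (.cons 220 (.leaf 291 1758 (.cons 195 (.leaf 219 1567 (.cons 196 (.leaf 172 1380 (.leaf 293 1572 .nil)) .nil)) .nil)) .nil)) .nil)) .nil)) .nil)) (.cons 246 (.leaf 247 1954 (.cons 316 (.leaf 340 1957 (.cons 244 (.cons 315 (.leaf 339 1950 (.cons 220 (.leaf 291 1758 (.cons 195 (.leaf 219 1567 (.cons 196 (.leaf 172 1380 (.leaf 293 1572 .nil)) .nil)) .nil)) .nil)) (.cons 243 (.leaf 242 1936 (.cons 222 (.leaf 223 1753 (.cons 198 (.leaf 293 1582 (.leaf 174 1390 .nil)) .nil)) .nil)) (.cons 243 (.leaf 242 1936 (.leaf 219 1759 .nil)) .nil))) .nil)) .nil)) (.cons 221 (.leaf 197 1574 (.cons 220 (.cons 246 (.leaf 247 1954 (.cons 219 (.leaf 218 1744 (.cons 195 (.leaf 244 1567 (.cons 194 (.leaf 222 1555 (.cons 193 (.leaf 196 1544 (.leaf 192 1536 .nil)) .nil)) .nil))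 .nil)) .nil)) (.cons 196 (.leaf 293 1575 (.cons 172 (.leaf 244 1380 (.leaf 148 1188 .nil)) .nil)) (.cons 246 (.leaf 247 1954 (.cons 219 (.leaf 218 1744 (.cons 195 (.leaf 244 1567 (.cons 222 (.leaf 194 1555 (.cons 198 (.leaf 293 1581 (.leaf 174 1390 .nil)) .nil)) .nil)) .nil)) .nil)) (.cons 247 (.leaf 246 1954 (.cons 222 (.leaf 223 1760 (.cons 293 (.leaf 196 1575 (.leaf 198 1581 .nil)) .nil)) .nil)) .nil)))) .nil)) (.cons 221 (.leaf 197 1574 (.cons 316 (.leaf 293 1766 (.leaf 340 1957 .nil)) .nil)) (.cons 221 (.leaf 197 1574 (.cons 316 (.leaf 340 1957 (.leaf 244 1765 .nil)) .nil)) .nil))))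
noncomputable def t24 : T := .cons 316 (.leaf 340 1957 (.cons 221 (.leaf 197 1574 (.leaf 293 1766 .nil)) .nil)) (.cons 316 (.leaf 340 1957 (.cons 243 (.cons 244 (.leaf 242 1936 (.leaf 219 1759 .nil)) (.cons 267 (.leaf 242 1939 (.cons 219 (.leaf 195 1564 (.leaf 291 1756 .nil)) .nil)) (.cons 219 (.leaf 244 1759 (.cons 267 (.leaf 195 1564 (.leaf 291 1756 .nil)) .nil)) (.cons 242 (.leaf 244 1936 (.leaf 267 1939 .nil)) .nil)))) .nil)) (.cons 221 (.leaf 197 1574 (.cons 267 (.cons 242 (.leaf 243 1939 (.cons 266 (.leaf 241 1931 (.cons 265 (.leaf 244 1929 (.leaf 293 2120 .nil)) .nil)) .nil)) (.cons 290 (.leaf 291 2130 (.cons 266 (.leaf 289 2122 (.cons 265 (.leaf 244 1929 (.leaf 293 2120 .nil)) .nil)) .nil)) (.cons 243 (.leaf 242 1939 (.cons 219 (.leaf 195 1564 (.cons 291 (.leaf 290 2130 (.cons 194 (.leaf 218 1559 (.cons 220 (.leaf 196 1565 (.cons 315 (.leaf 244 1757 (.cons 338 (.leaf 314 1942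 (.cons 339 (.leaf 363 2141 (.leaf 362 2134 .nil)) .nil)) .nil)) .nil)) .nil)) .nil)) .nil)) .nil)) (.cons 242 (.leaf 243 1939 (.cons 266 (.leaf 241 1931 (.cons 290 (.leaf 291 2130 (.leaf 289 2122 .nil)) .nil)) .nil)) .nil)))) .nil)) .nil))
noncomputable def t25 : T := .cons 246 (.leaf 247 1954 (.cons 267 (.leaf 266 1937 (.cons 291 (.leaf 290 2130 (.cons 243 (.leaf 242 1939 (.cons 292 (.cons 316 (.leaf 340 1957 (.leaf 219 1756 .nil)) (.cons 219 (.leaf 195 1564 (.cons 218 (.leaf 244 1747 (.leaf 194 1559 .nil)) .nil)) (.cons 316 (.leaf 340 1957 (.cons 221 (.leaf 197 1574 (.leaf 293 1766 .nil)) .nil)) .nil))) .nil)) .nil)) .nil)) .nil)) (.cons 292 t24 (.cons 292 t23 (.cons 246 (.leaf 247 1954 (.cons 267 (.leaf 266 1937 (.cons 243 (.leaf 242 1939 (.cons 291 (.leaf 290 2130 (.cons 219 (.cons 218 (.leaf 244 1747 (.leaf 194 1559 .nil)) (.cons 194 (.leaf 218 1559 (.cons 195 (.leaf 292 1564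 (.leaf 170 1367 .nil)) .nil)) (.cons 292 (.leaf 195 1564 (.leaf 316 1756 .nil)) .nil))) .nil)) .nil)) .nil)) .nil)) (.cons 246 (.leaf 247 1954 (.cons 267 (.leaf 266 1937 (.cons 291 (.leaf 290 2130 (.cons 243 (.leaf 242 1939 (.cons 292 (.cons 219 (.leaf 195 1564 (.leaf 316 1756 .nil)) (.cons 219 (.leaf 195 1564 (.cons 218 (.leaf 194 1559 (.cons 221 (.leaf 197 1574 (.leaf 220 1744 .nil)) .nil)) .nil)) (.cons 316 (.leaf 340 1957 (.cons 221 (.leaf 197 1574 (.leaf 293 1766 .nil)) .nil)) .nil))) .nil)) .nil)) .nil)) .nil)) (.cons 246 (.leaf 247 1954 (.cons 267 (.leaf 266 1937 (.cons 243 (.leaf 242 1939 (.cons 291 (.leaf 290 2130 (.cons 244 (.cons 218 (.leaf 219 1747 (.cons 222 (.leaf 223 1753 (.cons 198 (.leaf 293 1582 (.leaf 174 1390 .nil)) .nil)) .nil)) (.cons 315 (.leaf 339 1949 (.leaf 220 1757 .nil)) .nil)) .nil)) .nil)) .nil)) .nil)) (.cons 221 t22 (.cons 246 (.leaf 247 1954 (.cons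 267 (.leaf 266 1937 (.cons 291 (.leaf 290 2130 (.cons 221 (.cons 197 (.leaf 173 1388 (.leaf 292 1574 .nil)) (.cons 244 (.cons 315 (.leaf 339 1949 (.cons 316 (.leaf 292 1765 (.cons 243 (.leaf 220 1757 (.leaf 340 1948 .nil)) .nil)) .nil)) (.cons 315 (.leaf 339 1949 (.cons 316 (.leaf 292 1765 (.cons 243 (.leaf 340 1948 (.cons 218 (.leaf 219 1747 (.cons 222 (.leaf 223 1753 (.cons 198 (.leaf 293 1581 (.leaf 174 1390 .nil)) .nil)) .nil)) .nil)) .nil)) .nil)) (.cons 220 (.leaf 196 1566 (.cons 315 (.leaf 339 1949 (.leaf 243 1757 .nil)) .nil)) (.cons 220 (.leaf 196 1566 (.cons 219 (.leaf 218 1744 (.cons 292 (.leaf 316 1765 (.leaf 195 1567 .nil)) .nil)) .nil)) .nil)))) (.cons 197 (.leaf 173 1388 (.cons 198 (.leaf 174 1389 (.cons 222 (.leaf 293 1581 (.cons 199 (.leaf 175 1397 (.cons 200 (.leaf 220 1570 (.leaf 201 1578 .nil)) .nil)) .nil)) .nil)) .nil)) .nil))) .nil)) .nil)) .nil)) (.cons 246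 (.leaf 247 1954 (.cons 267 (.leaf 266 1937 (.cons 243 (.leaf 242 1939 (.cons 222 (.cons 198 (.leaf 293 1582 (.leaf 174 1390 .nil)) (.cons 244 (.leaf 223 1753 (.cons 219 (.leaf 218 1747 (.cons 195 (.leaf 171 1372 (.leaf 292 1564 .nil)) .nil)) .nil)) .nil)) .nil)) .nil)) .nil)) (.cons 246 (.leaf 247 1954 (.cons 267 (.leaf 266 1937 (.cons 243 (.leaf 242 1939 (.cons 291 (.leaf 290 2130 (.cons 244 (.cons 222 (.leaf 223 1753 (.cons 220 (.leaf 196 1566 (.leaf 315 1757 .nil)) .nil)) (.cons 222 (.leaf 223 1753 (.cons 198 (.leaf 293 1582 (.leaf 174 1390 .nil)) .nil)) (.cons 220 (.leaf 196 1566 (.leaf 315 1757 .nil)) .nil))) .nil)) .nil)) .nil)) .nil)) .nil)))))))))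
noncomputable def t26 : T := .cons 267 (.leaf 266 1937 (.cons 291 (.leaf 290 2130 (.cons 244 (.leaf 339 1949 (.cons 220 (.leaf 196 1566 (.leaf 292 1758 .nil)) .nil)) .nil)) .nil)) (.cons 316 (.cons 292 (.leaf 340 1957 (.cons 244 (.leaf 339 1950 (.leaf 341 1956 .nil)) .nil)) (.cons 290 (.leaf 291 2323 (.cons 314 (.leaf 289 2315 (.cons 338 (.leaf 339 2514 (.leaf 337 2506 .nil)) .nil)) .nil)) (.cons 290 (.leaf 291 2323 (.cons 314 (.leaf 289 2315 (.cons 342 (.leaf 343 2520 (.leaf 341 2512 .nil)) .nil)) .nil)) .nil))) (.cons 266 (.leaf 267 1937 (.cons 316 (.cons 292 (.leaf 340 1957 (.cons 339 (.leaf 338 2514 (.leaf 244 1950 .nil)) .nil)) (.cons 342 (.leaf 343 2520 (.cons 292 (.leaf 340 1957 (.cons 341 (.leaf 244 1956 (.leaf 314 2512 .nil)) .nil)) .nil)) (.cons 342 (.leaf 343 2520 (.cons 314 (.leaf 341 2512 (.cons 338 (.leaf 339 2514 (.leaf 337 2506 .nil)) .nil)) .nil)) .nil))) .nil)) (.cons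 266 (.leaf 267 1937 (.cons 316 (.cons 342 (.leaf 343 2520 (.cons 290 (.leaf 291 2323 (.cons 314 (.leaf 289 2315 (.leaf 341 2512 .nil)) .nil)) .nil)) (.cons 342 (.leaf 343 2520 (.cons 292 (.leaf 340 1957 (.cons 341 (.leaf 244 1956 (.leaf 314 2512 .nil)) .nil)) .nil)) (.cons 292 (.leaf 340 1957 (.cons 244 (.leaf 341 1956 (.cons 291 (.leaf 290 2323 (.leaf 220 1758 .nil)) .nil)) .nil)) (.cons 290 (.leaf 291 2323 (.cons 292 (.leaf 340 1957 (.cons 314 (.leaf 289 2315 (.cons 337 (.leaf 338 2506 (.cons 313 (.leaf 336 2498 (.leaf 242 1934 .nil)) .nil)) .nil)) .nil)) .nil)) .nil)))) .nil)) (.cons 267 (.leaf 266 1937 (.cons 291 (.leaf 290 2130 (.cons 339 (.leaf 244 1949 (.cons 338 (.leaf 316 2514 (.leaf 362 2134 .nil)) .nil)) .nil)) .nil)) (.cons 267 (.leaf 266 1937 (.cons 291 (.leaf 290 2130 (.cons 339 (.cons 338 (.leaf 316 2514 (.leaf 362 2134 .nil)) (.cons 292 (.leaf 363 2141 (.cons 340 (.leaf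 316 1957 (.leaf 364 2140 .nil)) .nil)) (.cons 292 (.leaf 363 2141 (.cons 338 (.leaf 362 2134 (.cons 340 (.leaf 341 2513 (.leaf 364 2140 .nil)) .nil)) .nil)) .nil))) .nil)) .nil)) .nil)))))
noncomputable def t27 : T := .cons 174 (.leaf 198 1390 (.cons 267 (.leaf 266 1937 (.cons 291 (.leaf 290 2130 (.cons 244 (.leaf 339 1949 (.cons 220 (.leaf 196 1566 (.leaf 292 1758 .nil)) .nil)) .nil)) .nil)) .nil)) (.cons 266 (.leaf 267 1937 (.cons 316 (.cons 290 (.leaf 291 2323 (.cons 314 (.leaf 289 2315 (.cons 338 (.leaf 339 2514 (.leaf 337 2506 .nil)) .nil)) .nil)) (.cons 290 (.leaf 291 2323 (.cons 314 (.leaf 289 2315 (.cons 342 (.leaf 343 2520 (.leaf 341 2512 .nil)) .nil)) .nil)) (.cons 292 (.leaf 340 1957 (.cons 339 (.leaf 338 2514 (.leaf 244 1950 .nil)) .nil)) .nil))) .nil)) (.cons 198 (.leaf 174 1390 (.cons 197 (.leaf 173 1391 (.cons 199 (.leaf 175 1397 (.cons 316 (.cons 292 (.leaf 340 1957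 (.cons 244 (.leaf 339 1950 (.leaf 341 1956 .nil)) .nil)) (.cons 290 (.leaf 291 2323 (.cons 314 (.leaf 289 2315 (.cons 338 (.leaf 339 2514 (.leaf 337 2506 .nil)) .nil)) .nil)) (.cons 290 (.leaf 291 2323 (.cons 292 (.leaf 340 1957 (.cons 314 (.leaf 289 2315 (.cons 341 (.leaf 244 1956 (.leaf 342 2512 .nil)) .nil)) .nil)) .nil)) .nil))) .nil)) .nil)) .nil)) (.cons 198 (.leaf 174 1390 (.cons 266 (.leaf 267 1937 (.cons 197 (.leaf 173 1391 (.cons 199 (.leaf 175 1397 (.cons 196 (.cons 171 (.leaf 172 1371 (.cons 195 (.leaf 223 1560 (.leaf 170 1363 .nil)) .nil)) (.cons 172 (.leaf 171 1371 (.cons 220 (.leaf 244 1380 (.leaf 219 1562 .nil)) .nil)) (.cons 195 (.leaf 223 1560 (.cons 219 (.leaf 218 1554 (.leaf 220 1562 .nil)) .nil)) .nil))) .nil)) .nil)) .nil)) .nil)) (.cons 198 (.leaf 174 1390 (.cons 267 (.leaf 266 1937 (.cons 291 (.leaf 290 2130 (.cons 199 (.leaf 175 1397 (.cons 197 (.leaf 173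 1391 (.cons 339 (.cons 338 (.leaf 316 2514 (.leaf 362 2134 .nil)) (.cons 292 (.leaf 363 2141 (.cons 340 (.leaf 316 1957 (.leaf 364 2140 .nil)) .nil)) (.cons 292 (.leaf 363 2141 (.cons 338 (.leaf 362 2134 (.cons 340 (.leaf 341 2513 (.leaf 364 2140 .nil)) .nil)) .nil)) .nil))) .nil)) .nil)) .nil)) .nil)) .nil)) .nil))))
noncomputable def t28 : T := .cons 244 (.cons 243 (.leaf 242 1936 (.leaf 223 1753 .nil)) (.cons 292 (.cons 293 (.leaf 198 1582 (.leaf 317 1773 .nil)) (.cons 316 (.leaf 340 1957 (.cons 315 (.leaf 339 1950 (.cons 220 (.leaf 291 1758 (.cons 195 (.leaf 219 1567 (.cons 196 (.leaf 172 1380 (.leaf 171 1375 .nil)) .nil)) .nil)) .nil)) .nil)) .nil)) .nil)) (.cons 198 (.leaf 174 1390 (.cons 197 (.leaf 173 1391 (.cons 199 (.leaf 175 1397 (.cons 196 (.cons 171 (.leaf 172 1371 (.cons 195 (.leaf 223 1560 (.leaf 170 1363 .nil)) .nil)) (.cons 172 (.leaf 171 1371 (.cons 220 (.leaf 244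 1380 (.leaf 219 1562 .nil)) .nil)) (.cons 195 (.leaf 223 1560 (.cons 219 (.leaf 218 1554 (.leaf 220 1562 .nil)) .nil)) .nil))) .nil)) .nil)) .nil)) (.cons 244 (.cons 243 (.leaf 242 1936 (.leaf 223 1753 .nil)) (.cons 292 (.cons 293 (.leaf 317 1773 (.cons 220 (.leaf 196 1572 (.cons 291 (.leaf 290 2129 (.leaf 315 1758 .nil)) .nil)) .nil)) (.cons 316 (.leaf 340 1957 (.cons 315 (.leaf 339 1950 (.cons 220 (.leaf 291 1758 (.cons 195 (.leaf 219 1567 (.cons 196 (.leaf 172 1380 (.leaf 171 1375 .nil)) .nil)) .nil)) .nil)) .nil)) (.cons 316 (.leaf 340 1957 (.cons 317 (.leaf 293 1773 (.leaf 341 1956 .nil)) .nil)) .nil))) .nil)) (.cons 293 (.leaf 198 1582 (.leaf 317 1773 .nil)) .nil)))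
noncomputable def t29 : T := .cons 290 (.leaf 291 2130 (.cons 266 (.leaf 289 2122 (.cons 265 (.leaf 244 1929 (.cons 241 (.leaf 242 1931 (.leaf 240 1923 .nil)) .nil)) .nil)) .nil)) (.cons 290 (.leaf 291 2130 (.cons 266 (.leaf 289 2122 (.cons 265 (.leaf 244 1929 (.cons 241 (.leaf 240 1923 (.cons 193 (.leaf 217 1548 (.cons 293 (.leaf 292 2120 (.cons 317 (.leaf 342 1964 (.cons 340 (.leaf 316 1958 (.cons 338 (.leaf 314 1935 (.cons 341 (.leaf 339 2513 (.leaf 364 2150 .nil)) .nil)) .nil)) .nil)) .nil)) .nil)) .nil)) .nil)) .nil)) .nil)) (.cons 242 (.leaf 243 1939 (.cons 266 (.leaf 241 1931 (.cons 293 (.cons 265 (.leaf 244 1929 (.leaf 292 2120 .nil)) (.cons 317 (.leaf 342 1964 (.cons 244 (.leaf 220 1767 (.leaf 341 1959 .nil)) .nil)) (.cons 317 (.leaf 342 1964 (.cons 265 (.leaf 292 2120 (.cons 289 (.leaf 290 2122 (.leaf 288 2114 .nil)) .nil)) .nil)) .nil))) .nil)) .nil)) (.cons 242 (.leaf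 243 1939 (.cons 266 (.leaf 241 1931 (.cons 293 (.cons 265 (.leaf 244 1929 (.leaf 292 2120 .nil)) (.cons 317 (.leaf 342 1964 (.cons 244 (.leaf 220 1767 (.leaf 341 1959 .nil)) .nil)) (.cons 317 (.leaf 342 1964 (.cons 292 (.leaf 265 2120 (.cons 340 (.leaf 316 1957 (.cons 341 (.leaf 364 2150 (.leaf 365 2151 .nil)) .nil)) .nil)) .nil)) .nil))) .nil)) .nil)) (.cons 290 (.leaf 291 2130 (.cons 242 (.leaf 243 1939 (.cons 266 (.leaf 241 1931 (.leaf 289 2122 .nil)) .nil)) .nil)) (.cons 243 (.leaf 242 1939 (.cons 291 (.leaf 290 2130 (.cons 315 (.cons 314 (.leaf 338 1942 (.cons 316 (.leaf 340 1948 (.cons 219 (.leaf 292 1756 (.cons 194 (.leaf 218 1559 (.cons 195 (.leaf 170 1367 (.cons 244 (.leaf 171 1372 (.leaf 339 1949 .nil)) .nil)) .nil)) .nil)) .nil)) .nil)) (.cons 314 (.leaf 338 1942 (.cons 316 (.leaf 340 1948 (.cons 219 (.leaf 292 1756 (.cons 194 (.leaf 218 1559 (.cons 195 (.leaf 170 1367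 (.cons 196 (.leaf 172 1373 (.leaf 220 1565 .nil)) .nil)) .nil)) .nil)) .nil)) .nil)) (.cons 244 (.leaf 339 1949 (.leaf 220 1757 .nil)) .nil))) .nil)) .nil)) .nil)))))
noncomputable def t30 : T := .cons 246 (.leaf 247 1954 (.cons 267 (.leaf 266 1937 (.cons 243 (.leaf 242 1939 (.cons 291 (.leaf 290 2130 (.cons 219 (.cons 218 (.leaf 244 1747 (.leaf 194 1559 .nil)) (.cons 194 (.leaf 218 1559 (.cons 195 (.leaf 292 1564 (.leaf 170 1367 .nil)) .nil)) (.cons 292 (.leaf 195 1564 (.leaf 316 1756 .nil)) .nil))) .nil)) .nil)) .nil)) .nil)) (.cons 267 t29 (.cons 246 (.leaf 247 1954 (.cons 222 t28 .nil)) (.cons 246 (.leaf 247 1954 (.cons 267 (.leaf 266 1937 (.cons 291 (.leaf 290 2130 (.cons 243 (.leaf 242 1939 (.cons 219 (.cons 194 (.leaf 218 1559 (.cons 195 (.leaf 292 1564 (.leaf 170 1367 .nil)) .nil)) (.cons 194 (.leaf 218 1559 (.cons 195 (.leaf 170 1367 (.cons 196 (.leaf 172 1373 (.leaf 220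 1565 .nil)) .nil)) .nil)) (.cons 194 (.leaf 218 1559 (.cons 316 (.leaf 292 1756 (.cons 315 (.leaf 340 1948 (.cons 338 (.leaf 314 1942 (.cons 339 (.leaf 317 2514 (.leaf 362 2134 .nil)) .nil)) .nil)) .nil)) .nil)) (.cons 292 (.leaf 195 1564 (.leaf 316 1756 .nil)) .nil)))) .nil)) .nil)) .nil)) .nil)) (.cons 246 (.leaf 247 1954 (.cons 222 (.cons 317 (.leaf 293 1773 (.cons 315 t27 .nil)) (.cons 198 (.leaf 174 1390 (.cons 197 (.leaf 173 1391 (.cons 199 (.leaf 175 1397 (.cons 196 (.cons 171 (.leaf 172 1371 (.cons 195 (.leaf 223 1560 (.leaf 170 1363 .nil)) .nil)) (.cons 172 (.leaf 171 1371 (.cons 220 (.leaf 244 1380 (.leaf 219 1562 .nil)) .nil)) (.cons 195 (.leaf 223 1560 (.cons 219 (.leaf 218 1554 (.leaf 220 1562 .nil)) .nil)) .nil))) .nil)) .nil)) .nil)) (.cons 317 (.leaf 293 1773 (.cons 315 t26 .nil)) (.cons 293 (.leaf 198 1582 (.leaf 317 1773 .nil)) .nil)))) .nil)) (.cons 246 (.leaf 247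 1954 (.cons 267 (.leaf 266 1937 (.cons 291 (.leaf 290 2130 (.cons 293 (.cons 317 (.leaf 342 1964 (.leaf 341 1965 .nil)) (.cons 222 (.leaf 198 1582 (.cons 244 (.cons 220 (.leaf 196 1572 (.cons 315 (.leaf 292 1758 (.leaf 339 1949 .nil)) .nil)) (.cons 243 (.leaf 223 1753 (.cons 219 (.leaf 218 1747 (.cons 292 (.leaf 195 1564 (.leaf 316 1756 .nil)) .nil)) .nil)) (.cons 220 (.leaf 196 1572 (.cons 243 (.leaf 223 1753 (.leaf 315 1757 .nil)) .nil)) .nil))) .nil)) .nil)) .nil)) .nil)) .nil)) (.cons 246 (.leaf 247 1954 (.cons 267 (.leaf 266 1937 (.cons 243 (.leaf 242 1939 (.cons 291 (.leaf 290 2130 (.cons 244 (.cons 218 (.leaf 219 1747 (.cons 222 (.leaf 223 1753 (.cons 293 (.leaf 198 1582 (.leaf 317 1773 .nil)) .nil)) .nil)) (.cons 315 (.leaf 339 1949 (.leaf 220 1757 .nil)) .nil)) .nil)) .nil)) .nil)) .nil)) (.cons 246 (.leaf 247 1954 (.cons 267 (.leaf 266 1937 (.cons 243 (.leaf 242 1939 (.cons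 222 (.cons 198 (.leaf 293 1582 (.leaf 174 1390 .nil)) (.cons 174 (.leaf 198 1390 (.cons 244 (.leaf 223 1753 (.cons 219 (.leaf 218 1747 (.cons 195 (.leaf 171 1372 (.leaf 292 1564 .nil)) .nil)) .nil)) .nil)) (.cons 244 (.leaf 223 1753 (.cons 219 (.leaf 218 1747 (.cons 195 (.leaf 171 1372 (.leaf 292 1564 .nil)) .nil)) .nil)) .nil))) .nil)) .nil)) .nil)) (.cons 246 (.leaf 247 1954 (.cons 267 (.leaf 266 1937 (.cons 243 (.leaf 242 1939 (.cons 291 (.leaf 290 2130 (.cons 222 (.cons 244 (.leaf 223 1753 (.cons 220 (.leaf 196 1566 (.leaf 315 1757 .nil)) .nil)) (.cons 198 (.leaf 293 1582 (.leaf 174 1390 .nil)) .nil)) .nil)) .nil)) .nil)) .nil)) .nil))))))))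
noncomputable def t31 : T := .cons 221 (.cons 222 (.leaf 198 1581 (.cons 220 (.leaf 196 1575 (.cons 247 (.leaf 223 1760 (.leaf 246 1763 .nil)) .nil)) .nil)) (.cons 317 (.leaf 342 1964 (.cons 220 (.leaf 196 1575 (.leaf 244 1767 .nil)) .nil)) (.cons 317 (.leaf 342 1964 (.cons 222 (.leaf 198 1581 (.leaf 246 1773 .nil)) .nil)) .nil))) (.cons 221 (.cons 222 (.leaf 198 1581 (.cons 220 (.leaf 196 1575 (.cons 247 (.leaf 223 1760 (.leaf 246 1763 .nil)) .nil)) .nil)) (.cons 292 (.leaf 316 1766 (.cons 291 (.leaf 290 2129 (.cons 197 (.cons 196 (.leaf 172 1383 (.leaf 220 1575 .nil)) (.cons 173 (.leaf 246 1388 (.cons 148 (.leaf 172 1191 (.cons 149 (.leaf 124 999 (.cons 150 (.leaf 174 1197 (.leaf 126 1005 .nil)) .nil)) .nil)) .nil)) (.cons 173 (.leaf 246 1388 (.cons 220 (.leaf 196 1575 (.cons 149 (.leaf 244 1190 (.cons 150 (.leaf 174 1197 (.leaf 126 1005 .nil)) .nil)) .nil)) .nil)) .nil))) .nil))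 .nil)) (.cons 198 (.leaf 222 1581 (.cons 197 (.leaf 174 1389 (.cons 172 (.leaf 196 1383 (.cons 173 (.leaf 246 1388 (.leaf 148 1191 .nil)) .nil)) .nil)) .nil)) (.cons 198 (.leaf 222 1581 (.cons 197 (.leaf 174 1389 (.cons 246 (.leaf 173 1388 (.cons 247 (.leaf 220 1763 (.leaf 249 1962 .nil)) .nil)) .nil)) .nil)) (.cons 196 (.leaf 220 1575 (.cons 197 (.leaf 172 1383 (.cons 198 (.leaf 174 1389 (.leaf 222 1581 .nil)) .nil)) .nil)) .nil))))) (.cons 317 (.leaf 342 1964 (.cons 220 (.leaf 244 1767 (.cons 221 (.leaf 196 1575 (.cons 316 (.leaf 292 1766 (.leaf 340 1958 .nil)) .nil)) .nil)) .nil)) (.cons 317 (.leaf 342 1964 (.cons 246 (.leaf 341 1965 (.leaf 222 1773 .nil)) .nil)) .nil)))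
noncomputable def t32 : T := .cons 222 (.leaf 198 1581 (.cons 220 (.leaf 196 1575 (.cons 292 (.leaf 316 1766 (.cons 291 (.leaf 290 2129 (.cons 268 (.leaf 197 1574 (.cons 244 (.leaf 315 1758 (.cons 242 (.leaf 243 1936 (.cons 219 (.leaf 195 1567 (.cons 218 (.leaf 217 1736 (.leaf 246 1744 .nil)) .nil)) .nil)) .nil)) .nil)) .nil)) .nil)) .nil)) .nil)) (.cons 198 (.leaf 222 1581 (.cons 197 (.leaf 174 1389 (.cons 172 (.leaf 196 1383 (.cons 173 (.leaf 246 1388 (.leaf 148 1191 .nil)) .nil)) .nil)) .nil)) (.cons 292 (.leaf 316 1766 (.cons 196 (.leaf 220 1575 (.cons 197 (.leaf 172 1383 (.leaf 268 1574 .nil)) .nil)) .nil)) (.cons 292 (.leaf 316 1766 (.cons 197 (.leaf 268 1574 (.cons 198 (.leaf 174 1389 (.leaf 222 1581 .nil)) .nil)) .nil)) (.cons 222 (.leaf 198 1581 (.cons 220 (.leaf 196 1575 (.cons 292 (.leaf 316 1766 (.cons 291 (.leaf 290 2129 (.cons 244 (.cons 243 (.leaf 242 1936 (.leaf 223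 1754 .nil)) (.cons 268 (.leaf 315 1758 (.cons 219 (.leaf 195 1567 (.cons 218 (.leaf 217 1736 (.leaf 246 1744 .nil)) .nil)) .nil)) .nil)) .nil)) .nil)) .nil)) .nil)) .nil))))
noncomputable def t33 : T := .cons 220 (.leaf 196 1566 (.cons 221 (.cons 197 (.leaf 173 1388 (.leaf 292 1573 .nil)) (.cons 197 (.leaf 173 1388 (.cons 315 (.leaf 339 1949 (.leaf 243 1757 .nil)) .nil)) (.cons 292 (.leaf 316 1765 (.leaf 315 1758 .nil)) .nil))) .nil)) (.cons 315 (.leaf 339 1949 (.cons 222 (.cons 243 (.leaf 223 1753 (.cons 219 (.leaf 218 1747 (.cons 292 (.leaf 195 1564 (.leaf 316 1756 .nil)) .nil)) .nil)) (.cons 198 (.leaf 174 1390 (.cons 197 (.leaf 173 1391 (.cons 221 (.leaf 292 1574 (.cons 196 (.leaf 172 1383 (.cons 195 (.leaf 194 1552 (.leaf 223 1560 .nil)) .nil)) .nil)) .nil)) .nil)) (.cons 243 (.leaf 223 1753 (.cons 174 (.leaf 198 1390 (.cons 219 (.leaf 218 1747 (.cons 195 (.leaf 171 1372 (.cons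 194 (.leaf 170 1367 (.cons 196 (.leaf 172 1373 (.cons 197 (.leaf 221 1552 (.leaf 173 1361 .nil)) .nil)) .nil)) .nil)) .nil)) .nil)) .nil)) (.cons 198 (.leaf 174 1390 (.cons 197 (.leaf 173 1391 (.cons 221 (.leaf 292 1574 (.cons 196 (.leaf 172 1383 (.cons 195 (.leaf 194 1552 (.cons 171 (.leaf 170 1363 (.cons 219 (.leaf 243 1372 (.leaf 218 1554 .nil)) .nil)) .nil)) .nil)) .nil)) .nil)) .nil)) (.cons 243 (.leaf 223 1753 (.cons 174 (.leaf 198 1390 (.cons 219 (.leaf 218 1747 (.cons 316 (.leaf 292 1756 (.leaf 340 1948 .nil)) .nil)) .nil)) .nil)) .nil))))) .nil)) (.cons 220 (.leaf 196 1566 (.cons 221 (.cons 197 (.leaf 173 1388 (.leaf 292 1573 .nil)) (.cons 219 (.leaf 218 1744 (.cons 292 (.leaf 316 1765 (.leaf 195 1567 .nil)) .nil)) (.cons 197 (.leaf 173 1388 (.cons 219 (.leaf 218 1744 (.cons 198 (.leaf 174 1389 (.cons 199 (.leaf 200 1570 (.leaf 222 1561 .nil)) .nil)) .nil)) .nil)) .nil)))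 .nil)) (.cons 315 (.leaf 339 1949 (.cons 292 (.leaf 220 1758 (.cons 221 (.leaf 197 1574 (.leaf 316 1765 .nil)) .nil)) .nil)) (.cons 220 (.leaf 196 1566 (.cons 315 (.leaf 339 1949 (.leaf 243 1757 .nil)) .nil)) .nil))))
noncomputable def t34 : T := .cons 244 (.cons 292 (.leaf 316 1765 (.cons 195 (.leaf 219 1567 (.cons 291 (.leaf 315 1758 (.cons 290 (.leaf 267 2130 (.leaf 289 2121 .nil)) .nil)) .nil)) .nil)) (.cons 246 (.leaf 247 1954 (.cons 196 (.leaf 172 1380 (.cons 267 (.leaf 266 1937 (.leaf 291 1566 .nil)) .nil)) .nil)) (.cons 246 (.leaf 247 1954 (.cons 172 (.leaf 196 1380 (.cons 219 (.leaf 218 1744 (.cons 292 (.leaf 316 1765 (.leaf 195 1567 .nil)) .nil)) .nil)) .nil)) .nil))) (.cons 244 (.cons 292 (.leaf 316 1765 (.cons 195 (.leaf 219 1567 (.cons 291 (.leaf 315 1758 (.cons 290 (.leaf 267 2130 (.leaf 289 2121 .nil)) .nil)) .nil)) .nil)) (.cons 196 (.leaf 172 1380 (.cons 195 (.leaf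 171 1375 (.cons 193 (.leaf 194 1544 (.cons 267 (.leaf 291 1566 (.cons 266 (.leaf 265 1929 (.cons 242 (.leaf 241 1931 (.cons 290 (.leaf 289 2122 (.cons 218 (.leaf 219 1557 (.leaf 217 1551 .nil)) .nil)) .nil)) .nil)) .nil)) .nil)) .nil)) .nil)) (.cons 292 (.leaf 316 1765 (.cons 195 (.leaf 219 1567 (.cons 196 (.leaf 172 1380 (.leaf 171 1375 .nil)) .nil)) .nil)) (.cons 196 (.leaf 172 1380 (.cons 171 (.leaf 195 1375 (.cons 291 (.leaf 267 1566 (.cons 292 (.leaf 316 1765 (.leaf 315 1758 .nil)) .nil)) .nil)) .nil)) (.cons 292 (.leaf 316 1765 (.cons 172 (.leaf 196 1380 (.cons 291 (.leaf 315 1758 (.cons 290 (.leaf 267 2130 (.leaf 289 2121 .nil)) .nil)) .nil)) .nil)) .nil))))) (.cons 222 (.cons 223 (.leaf 247 1760 (.cons 195 (.leaf 196 1563 (.cons 199 (.leaf 200 1569 (.cons 219 (.leaf 194 1555 (.leaf 198 1561 .nil)) .nil)) .nil)) .nil)) (.cons 196 (.cons 172 (.leaf 244 1380 (.leaf 148 1188 .nil))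 (.cons 195 (.leaf 223 1563 (.cons 194 (.leaf 193 1544 (.leaf 219 1555 .nil)) .nil)) .nil)) (.cons 246 (.leaf 247 1954 (.cons 198 (.leaf 174 1390 (.cons 199 (.leaf 175 1397 (.leaf 219 1561 .nil)) .nil)) .nil)) (.cons 247 (.leaf 223 1760 (.leaf 246 1954 .nil)) .nil)))) (.cons 222 (.cons 246 (.leaf 247 1954 (.cons 198 (.leaf 174 1390 (.cons 199 (.leaf 175 1397 (.leaf 219 1561 .nil)) .nil)) .nil)) (.cons 198 (.cons 174 (.leaf 246 1390 (.leaf 150 1198 .nil)) (.cons 199 (.leaf 219 1561 (.cons 200 (.leaf 201 1578 (.leaf 223 1569 .nil)) .nil)) .nil)) (.cons 223 (.leaf 247 1760 (.cons 195 (.leaf 196 1563 (.cons 199 (.leaf 200 1569 (.cons 219 (.leaf 194 1555 (.leaf 198 1561 .nil)) .nil)) .nil)) .nil)) (.cons 247 (.leaf 223 1760 (.leaf 246 1954 .nil)) .nil)))) (.cons 219 (.cons 246 (.leaf 247 1954 (.leaf 218 1744 .nil)) (.cons 218 (.cons 217 (.leaf 244 1736 (.cons 241 (.leaf 242 1738 (.leaf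 240 1730 .nil)) .nil)) (.cons 193 (.leaf 194 1547 (.cons 217 (.leaf 192 1539 (.cons 241 (.leaf 242 1738 (.leaf 240 1730 .nil)) .nil)) .nil)) (.cons 194 (.leaf 193 1547 (.cons 195 (.leaf 222 1555 (.cons 242 (.leaf 241 1738 (.cons 171 (.leaf 147 1174 (.leaf 266 1365 .nil)) .nil)) .nil)) .nil)) (.cons 193 (.leaf 194 1547 (.cons 217 (.leaf 244 1736 (.leaf 192 1539 .nil)) .nil)) .nil)))) (.cons 222 (.cons 247 (.leaf 223 1760 (.leaf 246 1752 .nil)) (.cons 194 (.leaf 195 1555 (.cons 198 (.leaf 199 1561 (.cons 174 (.leaf 246 1390 (.leaf 150 1198 .nil)) .nil)) .nil)) (.cons 194 (.leaf 195 1555 (.cons 199 (.leaf 198 1561 (.cons 223 (.leaf 247 1760 (.leaf 200 1569 .nil)) .nil)) .nil)) .nil))) .nil))) (.cons 246 (.leaf 247 1954 (.cons 267 (.leaf 266 1937 (.cons 291 (.leaf 290 2130 (.cons 244 (.leaf 196 1566 (.cons 292 (.leaf 316 1765 (.leaf 315 1758 .nil)) .nil)) .nil)) .nil)) .nil)) .nil)))))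
noncomputable def t35 : T := .cons 243 (.leaf 242 1936 (.cons 219 (.leaf 218 1747 (.cons 222 (.leaf 223 1753 (.cons 198 (.leaf 174 1390 (.cons 175 (.leaf 199 1397 (.cons 197 (.leaf 173 1391 (.cons 292 (.leaf 221 1574 (.leaf 316 1759 .nil)) .nil)) .nil)) .nil)) .nil)) .nil)) .nil)) (.cons 292 (.cons 316 (.leaf 340 1957 (.leaf 221 1765 .nil)) (.cons 316 (.leaf 340 1957 (.cons 315 (.leaf 339 1950 (.cons 220 (.leaf 291 1758 (.cons 195 (.leaf 219 1567 (.cons 196 (.leaf 172 1380 (.leaf 171 1375 .nil)) .nil)) .nil)) .nil)) .nil)) (.cons 220 (.cons 197 (.leaf 221 1573 (.cons 196 (.leaf 172 1380 (.leaf 173 1381 .nil)) .nil)) (.cons 195 (.leaf 219 1567 (.cons 196 (.leaf 172 1380 (.leaf 171 1375 .nil)) .nil)) (.cons 221 (.leaf 197 1573 (.cons 219 (.leaf 218 1744 (.leaf 195 1567 .nil)) .nil)) .nil))) .nil))) (.cons 243 (.leaf 242 1936 (.cons 219 (.leaf 218 1747 (.cons 171 (.leaf 195 1372 (.cons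 222 (.leaf 223 1753 (.cons 198 (.leaf 174 1390 (.cons 197 (.leaf 173 1391 (.cons 199 (.leaf 175 1397 (.cons 196 (.leaf 220 1562 (.leaf 172 1371 .nil)) .nil)) .nil)) .nil)) .nil)) .nil)) .nil)) .nil)) (.cons 243 (.leaf 242 1936 (.cons 219 (.leaf 218 1747 (.cons 195 (.leaf 171 1372 (.cons 292 (.leaf 220 1567 (.leaf 316 1759 .nil)) .nil)) .nil)) .nil)) (.cons 243 (.leaf 242 1936 (.cons 222 (.leaf 223 1753 (.cons 198 (.leaf 174 1390 (.cons 197 (.leaf 173 1391 (.cons 175 (.leaf 199 1397 (.cons 292 (.leaf 221 1574 (.cons 316 (.leaf 340 1957 (.cons 315 (.leaf 339 1950 (.cons 317 (.leaf 341 1956 (.cons 291 (.leaf 290 2323 (.leaf 220 1758 .nil)) .nil)) .nil)) .nil)) .nil)) .nil)) .nil)) .nil)) .nil)) .nil)) .nil))))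
noncomputable def t36 : T := .cons 196 (.leaf 172 1380 (.cons 197 (.leaf 173 1381 (.cons 221 (.leaf 292 1573 (.cons 171 (.leaf 195 1375 (.cons 198 (.leaf 174 1389 (.cons 199 (.leaf 219 1562 (.leaf 200 1570 .nil)) .nil)) .nil)) .nil)) .nil)) .nil)) (.cons 221 (.cons 197 (.leaf 292 1573 (.leaf 173 1382 .nil)) (.cons 292 (.leaf 316 1765 (.cons 219 (.leaf 195 1567 (.cons 218 (.leaf 217 1736 (.leaf 241 1738 .nil)) .nil)) .nil)) (.cons 197 (.leaf 173 1382 (.cons 198 (.leaf 174 1389 (.cons 199 (.leaf 200 1570 (.cons 219 (.leaf 218 1553 (.leaf 222 1561 .nil)) .nil)) .nil)) .nil)) .nil))) (.cons 196 (.leaf 172 1380 (.cons 173 (.leaf 197 1381 (.cons 195 (.leaf 171 1375 (.cons 219 (.leaf 292 1567 (.cons 218 (.leaf 217 1736 (.cons 266 (.leaf 290 1557 (.cons 267 (.leaf 241 1931 (.leaf 265 1929 .nil)) .nil)) .nil)) .nil)) .nil)) .nil)) .nil)) (.cons 196 (.leaf 172 1380 (.cons 197 (.leaf 173 1381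 (.cons 195 (.leaf 171 1375 (.cons 198 (.cons 174 (.leaf 221 1389 (.leaf 175 1369 .nil)) (.cons 219 (.leaf 199 1562 (.leaf 218 1554 .nil)) .nil)) .nil)) .nil)) .nil)) (.cons 196 (.leaf 172 1380 (.cons 195 (.leaf 171 1375 (.cons 219 (.leaf 292 1567 (.cons 218 (.leaf 217 1736 (.cons 221 (.leaf 241 1738 (.cons 194 (.leaf 193 1544 (.leaf 222 1555 .nil)) .nil)) .nil)) .nil)) .nil)) .nil)) (.cons 196 (.leaf 172 1380 (.cons 195 (.leaf 171 1375 (.cons 197 (.leaf 173 1381 (.cons 221 (.leaf 292 1573 (.cons 194 (.leaf 193 1544 (.leaf 222 1552 .nil)) .nil)) .nil)) .nil)) .nil)) (.cons 196 (.leaf 172 1380 (.cons 197 (.leaf 173 1381 (.cons 221 (.leaf 292 1573 (.cons 198 (.leaf 174 1389 (.cons 199 (.leaf 219 1562 (.leaf 200 1570 .nil)) .nil)) .nil)) .nil)) .nil)) .nil))))))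
noncomputable def t37 : T := .cons 267 (.cons 243 (.leaf 242 1936 (.cons 291 (.leaf 290 2130 (.cons 220 (.leaf 196 1566 (.leaf 315 1757 .nil)) .nil)) .nil)) (.cons 266 (.leaf 265 1929 (.cons 290 (.leaf 291 2130 (.leaf 289 2122 .nil)) .nil)) (.cons 242 (.leaf 243 1936 (.cons 266 (.leaf 241 1931 (.leaf 265 1929 .nil)) .nil)) .nil))) (.cons 292 (.cons 197 (.leaf 221 1574 (.cons 220 (.cons 196 (.leaf 172 1380 (.leaf 173 1381 .nil)) (.cons 195 (.leaf 219 1567 (.cons 291 (.leaf 315 1758 (.cons 290 (.leaf 267 2130 (.leaf 289 2121 .nil)) .nil)) .nil)) .nil)) .nil)) (.cons 316 (.leaf 340 1957 (.cons 315 (.leaf 339 1950 (.cons 220 (.leaf 291 1758 (.cons 195 (.leaf 219 1567 (.cons 196 (.leaf 172 1380 (.leaf 171 1375 .nil)) .nil)) .nil)) .nil)) .nil)) (.cons 221 (.leaf 197 1574 (.leaf 316 1765 .nil)) .nil))) (.cons 242 (.leaf 243 1936 (.cons 292 (.cons 221 (.leaf 197 1574 (.leaf 316 1765 .nil))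 (.cons 220 (.cons 197 (.leaf 221 1573 (.cons 196 (.leaf 172 1380 (.leaf 173 1381 .nil)) .nil)) (.cons 195 (.leaf 219 1567 (.cons 196 (.leaf 172 1380 (.leaf 171 1375 .nil)) .nil)) (.cons 221 (.leaf 197 1573 (.cons 219 (.leaf 195 1567 (.cons 218 (.leaf 217 1736 (.leaf 241 1738 .nil)) .nil)) .nil)) .nil))) (.cons 316 (.leaf 340 1957 (.cons 315 (.leaf 339 1950 (.cons 220 (.leaf 291 1758 (.cons 195 (.leaf 219 1567 (.cons 196 (.leaf 172 1380 (.leaf 171 1375 .nil)) .nil)) .nil)) .nil)) .nil)) .nil))) .nil)) (.cons 267 (.cons 243 (.leaf 242 1936 (.cons 291 (.leaf 290 2130 (.cons 315 (.leaf 339 1949 (.cons 314 (.leaf 338 1942 (.cons 316 (.leaf 340 1948 (.cons 292 (.leaf 221 1765 (.leaf 219 1756 .nil)) .nil)) .nil)) .nil)) .nil)) .nil)) (.cons 266 (.leaf 265 1929 (.cons 290 (.leaf 291 2130 (.leaf 289 2122 .nil)) .nil)) (.cons 242 (.leaf 243 1936 (.cons 266 (.leaf 241 1931 (.leaf 265 1929 .nil))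 .nil)) .nil))) (.cons 242 (.leaf 243 1936 (.cons 220 t36 .nil)) .nil))))
noncomputable def t38 : T := .cons 246 (.leaf 247 1954 (.cons 267 (.leaf 266 1937 (.cons 243 (.leaf 242 1939 (.cons 222 (.cons 244 (.leaf 223 1753 (.cons 291 (.leaf 290 2130 (.cons 220 (.leaf 196 1566 (.leaf 315 1757 .nil)) .nil)) .nil)) (.cons 198 (.leaf 174 1390 (.cons 175 (.leaf 199 1397 (.cons 197 (.leaf 173 1391 (.cons 221 (.leaf 292 1574 (.cons 196 (.leaf 172 1383 (.cons 195 (.leaf 194 1552 (.leaf 223 1560 .nil)) .nil)) .nil)) .nil)) .nil)) .nil)) (.cons 198 (.leaf 174 1390 (.cons 197 (.leaf 173 1391 (.cons 199 (.leaf 175 1397 (.cons 221 (.leaf 292 1574 (.cons 200 (.leaf 201 1578 (.leaf 220 1570 .nil)) .nil)) .nil)) .nil)) .nil)) .nil))) .nil)) .nil)) .nil)) (.cons 244 t37 (.cons 246 (.leaf 247 1954 (.cons 244 t35 .nil)) (.cons 246 (.leaf 247 1954 (.cons 267 (.leaf 266 1937 (.cons 243 (.leaf 242 1939 (.cons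 291 (.leaf 290 2130 (.cons 219 (.cons 195 (.leaf 292 1564 (.cons 196 (.leaf 172 1373 (.leaf 220 1565 .nil)) .nil)) (.cons 194 (.leaf 218 1559 (.cons 195 (.leaf 170 1367 (.cons 196 (.leaf 172 1373 (.leaf 220 1565 .nil)) .nil)) .nil)) (.cons 194 (.leaf 218 1559 (.cons 316 (.leaf 292 1756 (.cons 315 (.leaf 340 1948 (.cons 338 (.leaf 314 1942 (.cons 339 (.leaf 317 2514 (.leaf 362 2134 .nil)) .nil)) .nil)) .nil)) .nil)) .nil))) .nil)) .nil)) .nil)) .nil)) (.cons 221 (.cons 246 (.leaf 247 1954 (.cons 197 (.leaf 173 1388 (.leaf 292 1574 .nil)) .nil)) (.cons 197 (.leaf 292 1574 (.cons 172 (.leaf 196 1383 (.cons 173 (.leaf 148 1191 (.leaf 244 1382 .nil)) .nil)) .nil)) (.cons 220 t34 (.cons 246 (.leaf 247 1954 (.cons 197 (.leaf 173 1388 (.cons 196 (.leaf 172 1383 (.cons 198 (.leaf 174 1389 (.cons 267 (.leaf 266 1937 (.cons 291 (.leaf 290 2130 (.cons 220 (.leaf 244 1566 (.cons 219 (.leaf 218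 1744 (.leaf 199 1562 .nil)) .nil)) .nil)) .nil)) .nil)) .nil)) .nil)) .nil)) .nil)))) (.cons 246 (.leaf 247 1954 (.cons 267 (.leaf 266 1937 (.cons 243 (.leaf 242 1939 (.cons 291 (.leaf 290 2130 (.cons 244 (.cons 220 (.leaf 196 1566 (.leaf 315 1757 .nil)) (.cons 219 (.leaf 218 1747 (.cons 195 (.leaf 171 1372 (.cons 194 (.leaf 170 1367 (.cons 196 (.leaf 172 1373 (.cons 222 (.leaf 223 1753 (.cons 197 (.leaf 221 1552 (.cons 173 (.leaf 198 1391 (.leaf 174 1361 .nil)) .nil)) .nil)) .nil)) .nil)) .nil)) .nil)) (.cons 315 (.leaf 339 1949 (.leaf 220 1757 .nil)) .nil))) .nil)) .nil)) .nil)) .nil)) (.cons 246 (.leaf 247 1954 (.cons 267 (.leaf 266 1937 (.cons 291 (.leaf 290 2130 (.cons 244 t33 .nil)) .nil)) .nil)) (.cons 246 (.leaf 247 1954 (.cons 267 (.leaf 266 1937 (.cons 243 (.leaf 242 1939 (.cons 292 (.cons 316 (.leaf 340 1957 (.cons 219 (.leaf 195 1564 (.leaf 244 1759 .nil)) .nil)) (.cons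 197 (.leaf 221 1574 (.cons 219 (.leaf 195 1564 (.cons 244 (.leaf 218 1747 (.cons 222 (.leaf 223 1753 (.cons 198 (.leaf 173 1391 (.leaf 174 1390 .nil)) .nil)) .nil)) .nil)) .nil)) (.cons 316 (.leaf 340 1957 (.cons 221 (.leaf 197 1574 (.leaf 244 1765 .nil)) .nil)) (.cons 316 (.leaf 340 1957 (.cons 219 (.leaf 195 1564 (.leaf 291 1756 .nil)) .nil)) .nil)))) .nil)) .nil)) .nil)) (.cons 246 (.leaf 247 1954 (.cons 267 (.leaf 266 1937 (.cons 243 (.leaf 242 1939 (.cons 219 (.cons 218 (.leaf 244 1747 (.cons 221 (.leaf 220 1744 (.cons 197 (.leaf 173 1388 (.leaf 292 1574 .nil)) .nil)) .nil)) (.cons 195 (.leaf 292 1564 (.cons 170 (.leaf 194 1367 (.cons 171 (.leaf 146 1175 (.cons 172 (.leaf 196 1373 (.leaf 148 1181 .nil)) .nil)) .nil)) .nil)) (.cons 218 (.leaf 244 1747 (.cons 221 (.leaf 220 1744 (.cons 197 (.leaf 173 1388 (.cons 196 (.leaf 172 1383 (.cons 198 (.leaf 174 1389 (.leaf 195 1554 .nil))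 .nil)) .nil)) .nil)) .nil)) .nil))) .nil)) .nil)) .nil)) (.cons 246 (.leaf 247 1954 (.cons 267 (.leaf 266 1937 (.cons 243 (.leaf 242 1939 (.cons 291 (.leaf 290 2130 (.cons 244 (.cons 220 (.leaf 196 1566 (.leaf 315 1757 .nil)) (.cons 219 (.leaf 218 1747 (.cons 292 (.leaf 316 1756 (.cons 197 (.leaf 221 1574 (.cons 222 (.leaf 223 1753 (.cons 198 (.leaf 173 1391 (.leaf 174 1390 .nil)) .nil)) .nil)) .nil)) .nil)) .nil)) .nil)) .nil)) .nil)) .nil)) .nil)))))))))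
noncomputable def t39 : T := .cons 317 (.leaf 342 1964 (.cons 316 (.leaf 340 1958 (.cons 221 (.leaf 292 1766 (.cons 220 (.leaf 196 1575 (.leaf 244 1767 .nil)) .nil)) .nil)) .nil)) (.cons 221 (.cons 220 (.leaf 196 1575 (.cons 222 (.leaf 198 1581 (.cons 292 (.leaf 316 1766 (.cons 223 (.leaf 247 1760 (.cons 199 (.leaf 200 1569 (.cons 243 (.leaf 244 1754 (.cons 268 (.leaf 197 1574 (.cons 242 (.leaf 267 1939 (.leaf 219 1746 .nil)) .nil)) .nil)) .nil)) .nil)) .nil)) .nil)) .nil)) (.cons 196 (.leaf 220 1575 (.cons 197 (.leaf 172 1383 (.cons 198 (.leaf 174 1389 (.leaf 222 1581 .nil)) .nil)) .nil)) (.cons 198 (.leaf 222 1581 (.cons 197 (.leaf 174 1389 (.cons 292 (.leaf 268 1574 (.leaf 316 1766 .nil)) .nil)) .nil)) (.cons 292 (.leaf 316 1766 (.cons 196 (.leaf 220 1575 (.cons 197 (.leaf 172 1383 (.leaf 268 1574 .nil)) .nil)) .nil)) (.cons 220 (.leaf 196 1575 (.cons 222 (.leaf 198 1581 (.cons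 292 (.leaf 316 1766 (.cons 223 (.leaf 247 1760 (.cons 199 (.leaf 200 1569 (.cons 243 (.leaf 244 1754 (.cons 219 (.leaf 242 1746 (.cons 195 (.leaf 194 1555 (.cons 267 (.leaf 268 1564 (.cons 290 (.leaf 291 2129 (.leaf 266 1558 .nil)) .nil)) .nil)) .nil)) .nil)) .nil)) .nil)) .nil)) .nil)) .nil)) .nil))))) (.cons 317 (.leaf 342 1964 (.cons 244 (.leaf 220 1767 (.cons 242 (.leaf 243 1936 (.cons 340 (.leaf 316 1958 (.cons 341 (.leaf 268 1959 (.leaf 364 2150 .nil)) .nil)) .nil)) .nil)) .nil)) (.cons 317 (.leaf 342 1964 (.cons 316 (.leaf 340 1958 (.cons 221 (.leaf 292 1766 (.cons 198 (.leaf 222 1581 (.cons 196 (.leaf 220 1575 (.cons 197 (.leaf 172 1383 (.leaf 174 1389 .nil)) .nil)) .nil)) .nil)) .nil)) .nil)) (.cons 317 (.leaf 342 1964 (.cons 221 (.cons 220 (.leaf 196 1575 (.leaf 244 1767 .nil)) (.cons 198 (.leaf 222 1581 (.cons 197 (.leaf 174 1389 (.cons 172 (.leaf 196 1383 (.cons 173 (.leaf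 148 1191 (.cons 268 (.leaf 292 1574 (.leaf 244 1382 .nil)) .nil)) .nil)) .nil)) .nil)) (.cons 198 (.leaf 222 1581 (.cons 196 (.leaf 220 1575 (.cons 197 (.leaf 172 1383 (.leaf 174 1389 .nil)) .nil)) .nil)) (.cons 244 (.leaf 220 1767 (.cons 198 (.leaf 222 1581 (.cons 197 (.leaf 174 1389 (.cons 268 (.leaf 292 1574 (.leaf 341 1959 .nil)) .nil)) .nil)) .nil)) .nil)))) .nil)) (.cons 317 (.leaf 342 1964 (.cons 316 (.leaf 340 1958 (.cons 292 (.leaf 221 1766 (.cons 315 (.cons 291 (.leaf 290 2320 (.cons 339 (.leaf 338 2514 (.cons 268 (.leaf 244 1950 (.leaf 363 2141 .nil)) .nil)) .nil)) (.cons 313 (.leaf 314 2313 (.cons 339 (.leaf 338 2514 (.cons 268 (.leaf 244 1950 (.cons 363 (.leaf 387 2333 (.leaf 291 2141 .nil)) .nil)) .nil)) .nil)) (.cons 314 (.leaf 313 2313 (.cons 338 (.leaf 339 2514 (.leaf 337 2506 .nil)) .nil)) (.cons 290 (.leaf 291 2320 (.cons 314 (.leaf 313 2313 (.leaf 289 2315 .nil))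 .nil)) .nil)))) .nil)) .nil)) .nil)) .nil)))))
noncomputable def t40 : T := .cons 317 (.leaf 342 1964 (.cons 220 (.leaf 244 1767 (.cons 196 (.leaf 221 1575 (.cons 246 (.leaf 341 1965 (.leaf 222 1773 .nil)) .nil)) .nil)) .nil)) (.cons 221 (.cons 292 (.leaf 316 1766 (.cons 197 (.leaf 268 1574 (.cons 198 (.leaf 174 1389 (.leaf 222 1581 .nil)) .nil)) .nil)) (.cons 198 (.leaf 222 1581 (.cons 197 (.leaf 174 1389 (.cons 172 (.leaf 196 1383 (.cons 173 (.leaf 246 1388 (.leaf 148 1191 .nil)) .nil)) .nil)) .nil)) (.cons 292 (.leaf 316 1766 (.cons 197 (.leaf 268 1574 (.cons 173 (.leaf 246 1388 (.cons 196 (.leaf 172 1383 (.leaf 220 1575 .nil)) .nil)) .nil)) .nil)) (.cons 220 (.leaf 196 1575 (.cons 222 (.leaf 198 1581 (.cons 292 (.leaf 316 1766 (.cons 223 (.leaf 247 1760 (.cons 199 (.leaf 200 1569 (.cons 243 (.leaf 244 1754 (.cons 219 (.leaf 242 1746 (.cons 195 (.leaf 194 1555 (.cons 218 (.leaf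 246 1744 (.cons 267 (.leaf 268 1564 (.cons 290 (.leaf 291 2129 (.leaf 266 1558 .nil)) .nil)) .nil)) .nil)) .nil)) .nil)) .nil)) .nil)) .nil)) .nil)) .nil)) .nil)))) (.cons 317 (.leaf 342 1964 (.cons 244 (.leaf 220 1767 (.cons 242 (.leaf 243 1936 (.cons 340 (.leaf 316 1958 (.cons 341 (.leaf 268 1959 (.leaf 364 2150 .nil)) .nil)) .nil)) .nil)) .nil)) (.cons 317 (.leaf 342 1964 (.cons 246 (.leaf 341 1965 (.leaf 222 1773 .nil)) .nil)) .nil)))
noncomputable def t41 : T := .cons 293 t40 (.cons 293 t39 (.cons 268 t38 (.cons 293 (.cons 317 (.leaf 342 1964 (.cons 316 (.leaf 340 1958 (.cons 221 (.leaf 292 1766 (.cons 220 (.leaf 196 1575 (.leaf 244 1767 .nil)) .nil)) .nil)) .nil)) (.cons 221 t32 (.cons 317 (.leaf 342 1964 (.cons 246 (.leaf 341 1965 (.leaf 222 1773 .nil)) .nil)) .nil))) (.cons 293 t31 (.cons 268 t30 (.cons 268 t25 (.cons 293 (.cons 317 (.leaf 342 1964 (.cons 316 (.leaf 340 1958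 (.cons 221 (.leaf 292 1766 (.cons 198 (.leaf 222 1581 (.cons 196 (.leaf 220 1575 (.cons 197 (.leaf 172 1383 (.leaf 174 1389 .nil)) .nil)) .nil)) .nil)) .nil)) .nil)) (.cons 221 (.cons 220 (.leaf 196 1575 (.cons 222 (.leaf 198 1581 (.cons 247 (.leaf 223 1760 (.leaf 246 1763 .nil)) .nil)) .nil)) (.cons 196 (.leaf 220 1575 (.cons 197 (.leaf 172 1383 (.cons 292 (.leaf 268 1574 (.leaf 316 1766 .nil)) .nil)) .nil)) (.cons 198 (.leaf 222 1581 (.cons 197 (.leaf 174 1389 (.cons 292 (.leaf 268 1574 (.leaf 316 1766 .nil)) .nil)) .nil)) .nil))) (.cons 317 (.leaf 342 1964 (.cons 246 (.leaf 341 1965 (.leaf 222 1773 .nil)) .nil)) (.cons 317 (.leaf 342 1964 (.cons 246 (.leaf 341 1965 (.cons 247 (.leaf 268 1954 (.leaf 249 1962 .nil)) .nil)) .nil)) .nil)))) (.cons 243 t21 (.cons 268 t13 (.cons 293 (.cons 317 (.leaf 342 1964 (.cons 246 (.leaf 341 1965 (.leaf 222 1773 .nil)) .nil)) (.cons 292 t11 (.cons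 317 (.leaf 342 1964 (.cons 220 (.leaf 244 1767 (.cons 221 (.leaf 196 1575 (.cons 316 (.leaf 292 1766 (.leaf 340 1958 .nil)) .nil)) .nil)) .nil)) .nil))) (.cons 293 (.cons 317 (.leaf 342 1964 (.cons 246 (.leaf 341 1965 (.leaf 222 1773 .nil)) .nil)) (.cons 221 t8 (.cons 317 (.leaf 342 1964 (.cons 220 (.leaf 244 1767 (.cons 221 (.leaf 196 1575 (.cons 316 (.leaf 292 1766 (.leaf 340 1958 .nil)) .nil)) .nil)) .nil)) .nil))) (.cons 293 t7 (.cons 293 t6 (.cons 293 (.cons 221 (.cons 292 (.leaf 316 1766 (.cons 197 (.leaf 268 1574 (.cons 198 (.leaf 174 1389 (.leaf 222 1581 .nil)) .nil)) .nil)) (.cons 292 (.leaf 316 1766 (.cons 317 (.leaf 342 1964 (.cons 290 (.leaf 291 2320 (.cons 197 (.leaf 268 1574 (.cons 246 (.leaf 173 1388 (.leaf 341 1965 .nil)) .nil)) .nil)) .nil)) .nil)) (.cons 317 (.leaf 342 1964 (.cons 222 (.leaf 198 1581 (.leaf 246 1773 .nil)) .nil)) .nil))) (.cons 221 t5 (.cons 317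 (.leaf 342 1964 (.cons 244 (.leaf 220 1767 (.cons 242 (.leaf 243 1936 (.cons 340 (.leaf 316 1958 (.cons 341 (.leaf 268 1959 (.leaf 364 2150 .nil)) .nil)) .nil)) .nil)) .nil)) (.cons 317 (.leaf 342 1964 (.cons 246 (.leaf 341 1965 (.leaf 222 1773 .nil)) .nil)) .nil)))) (.cons 293 (.cons 221 (.cons 198 (.leaf 222 1581 (.cons 197 (.leaf 174 1389 (.cons 292 (.leaf 268 1574 (.leaf 316 1766 .nil)) .nil)) .nil)) (.cons 196 (.leaf 220 1575 (.cons 292 (.leaf 316 1766 (.cons 268 (.leaf 197 1574 (.cons 246 (.leaf 247 1954 (.cons 267 (.leaf 266 1937 (.cons 291 (.leaf 290 2129 (.cons 243 (.leaf 242 1939 (.cons 219 (.leaf 195 1564 (.cons 218 (.leaf 244 1747 (.leaf 194 1559 .nil)) .nil)) .nil)) .nil)) .nil)) .nil)) .nil)) .nil)) .nil)) (.cons 317 (.leaf 342 1964 (.cons 222 (.leaf 198 1581 (.leaf 246 1773 .nil)) .nil)) .nil))) (.cons 221 t4 (.cons 317 (.leaf 342 1964 (.cons 244 (.leaf 220 1767 (.cons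 242 (.leaf 243 1936 (.cons 340 (.leaf 316 1958 (.cons 341 (.leaf 268 1959 (.leaf 364 2150 .nil)) .nil)) .nil)) .nil)) .nil)) (.cons 317 (.leaf 342 1964 (.cons 246 (.leaf 341 1965 (.leaf 222 1773 .nil)) .nil)) .nil)))) .nil)))))))))))))))
noncomputable def t42 : T := .cons 243 (.leaf 242 1936 (.cons 218 (.leaf 219 1747 (.cons 267 (.leaf 266 1938 (.cons 268 (.leaf 295 2136 (.cons 291 (.leaf 290 2130 (.cons 220 (.leaf 293 1767 (.leaf 196 1566 .nil)) .nil)) .nil)) .nil)) .nil)) .nil)) (.cons 293 (.leaf 220 1767 (.cons 316 (.leaf 340 1958 (.cons 315 (.leaf 295 2329 (.leaf 314 2321 .nil)) .nil)) .nil)) (.cons 243 (.leaf 242 1936 (.cons 218 (.leaf 219 1747 (.cons 267 (.leaf 266 1938 (.cons 268 (.leaf 295 2136 (.cons 291 (.leaf 290 2130 (.cons 220 (.leaf 196 1566 (.leaf 315 1757 .nil)) .nil)) .nil)) .nil)) .nil)) .nil)) (.cons 243 (.leaf 242 1936 (.cons 218 (.leaf 219 1747 (.cons 267 (.leaf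 266 1938 (.cons 268 (.leaf 295 2136 (.cons 291 (.leaf 290 2130 (.cons 315 (.leaf 339 1949 (.cons 314 (.leaf 338 1942 (.cons 293 (.leaf 292 2322 (.leaf 316 2321 .nil)) .nil)) .nil)) .nil)) .nil)) .nil)) .nil)) .nil)) (.cons 243 (.leaf 242 1936 (.cons 218 (.leaf 219 1747 (.cons 220 (.leaf 293 1767 (.cons 196 (.leaf 172 1380 (.cons 267 (.leaf 266 1938 (.cons 291 (.leaf 268 1566 (.leaf 315 1757 .nil)) .nil)) .nil)) .nil)) .nil)) .nil)) .nil))))
noncomputable def t43 : T := .cons 245 (.leaf 221 1775 (.cons 317 (.leaf 341 1966 (.cons 222 (.leaf 293 1773 (.cons 198 (.leaf 174 1390 (.cons 199 (.leaf 175 1397 (.leaf 223 1589 .nil)) .nil)) .nil)) .nil)) .nil)) (.cons 317 (.leaf 341 1966 (.cons 222 (.leaf 293 1774 (.cons 197 (.leaf 221 1583 (.cons 198 (.leaf 173 1391 (.cons 199 (.leaf 175 1397 (.leaf 223 1589 .nil)) .nil)) .nil)) .nil)) .nil)) (.cons 317 (.leaf 341 1966 (.cons 222 (.leaf 293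 1774 (.cons 199 (.leaf 223 1589 (.cons 198 (.leaf 175 1397 (.cons 173 (.leaf 197 1391 (.cons 174 (.leaf 245 1390 (.leaf 149 1199 .nil)) .nil)) .nil)) .nil)) .nil)) .nil)) (.cons 221 (.leaf 245 1775 (.cons 222 (.leaf 197 1583 (.cons 198 (.leaf 293 1582 (.cons 199 (.leaf 175 1397 (.leaf 223 1589 .nil)) .nil)) .nil)) .nil)) (.cons 317 (.leaf 341 1966 (.cons 222 (.cons 221 (.leaf 245 1775 (.leaf 197 1583 .nil)) (.cons 199 (.leaf 223 1589 (.cons 198 (.leaf 175 1397 (.cons 173 (.leaf 197 1391 (.cons 174 (.leaf 245 1390 (.leaf 149 1199 .nil)) .nil)) .nil)) .nil)) (.cons 197 (.leaf 221 1583 (.cons 198 (.leaf 173 1391 (.cons 199 (.leaf 175 1397 (.leaf 223 1589 .nil)) .nil)) .nil)) (.cons 245 (.leaf 221 1775 (.cons 198 (.leaf 174 1390 (.cons 199 (.leaf 175 1397 (.leaf 223 1589 .nil)) .nil)) .nil)) .nil)))) .nil)) (.cons 245 (.leaf 221 1775 (.cons 317 (.leaf 341 1966 (.cons 244 t42 .nil)) .nil))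 .nil)))))
noncomputable def t44 : T := .cons 342 (.leaf 245 1967 (.cons 293 (.leaf 366 2159 (.cons 341 (.leaf 365 2158 (.cons 317 (.leaf 246 1965 (.cons 244 (.leaf 268 1959 (.cons 340 (.leaf 364 2150 (.cons 339 (.leaf 338 2513 (.cons 315 (.leaf 314 2515 (.cons 316 (.leaf 295 2329 (.leaf 343 2520 .nil)) .nil)) .nil)) .nil)) .nil)) .nil)) .nil)) .nil)) .nil)) (.cons 246 t43 (.cons 342 (.cons 293 (.leaf 366 2159 (.cons 341 (.leaf 365 2158 (.cons 317 (.leaf 246 1965 (.cons 244 (.leaf 268 1959 (.cons 340 (.leaf 364 2150 (.cons 339 (.leaf 338 2513 (.cons 315 (.leaf 314 2515 (.cons 316 (.leaf 295 2329 (.leaf 343 2520 .nil)) .nil)) .nil)) .nil)) .nil)) .nil)) .nil)) .nil)) (.cons 366 (.leaf 293 2159 (.cons 367 (.leaf 343 2164 (.leaf 391 2356 .nil)) .nil)) (.cons 341 (.leaf 365 2158 (.cons 343 (.leaf 344 2537 (.leaf 367 2164 .nil)) .nil)) (.cons 293 (.leaf 366 2159 (.cons 341 (.leaf 365 2158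 (.cons 317 (.leaf 246 1965 (.cons 244 (.leaf 268 1959 (.cons 340 (.leaf 364 2150 (.cons 339 (.leaf 338 2513 (.cons 315 (.leaf 314 2515 (.cons 316 (.leaf 295 2329 (.cons 291 (.leaf 290 2323 (.cons 267 (.leaf 243 1948 (.cons 266 (.leaf 292 2131 (.leaf 242 1943 .nil)) .nil)) .nil)) .nil)) .nil)) .nil)) .nil)) .nil)) .nil)) .nil)) .nil)) .nil)))) (.cons 342 (.leaf 245 1967 (.cons 341 (.leaf 365 2158 (.cons 343 (.leaf 344 2537 (.leaf 367 2164 .nil)) .nil)) .nil)) (.cons 245 (.leaf 342 1967 (.cons 221 (.leaf 246 1775 (.leaf 293 1772 .nil)) .nil)) .nil))))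
noncomputable def t45 : T := .cons 245 (.leaf 221 1775 (.cons 317 (.leaf 341 1966 (.cons 222 (.leaf 293 1773 (.cons 198 (.leaf 174 1390 (.cons 199 (.leaf 175 1397 (.leaf 223 1589 .nil)) .nil)) .nil)) .nil)) .nil)) (.cons 317 (.leaf 341 1966 (.cons 222 (.leaf 293 1774 (.cons 197 (.leaf 221 1583 (.cons 198 (.leaf 173 1391 (.cons 199 (.leaf 175 1397 (.leaf 223 1589 .nil)) .nil)) .nil)) .nil)) .nil)) (.cons 317 (.leaf 341 1966 (.cons 222 (.leaf 293 1774 (.cons 199 (.leaf 223 1589 (.cons 198 (.leaf 175 1397 (.cons 173 (.leaf 197 1391 (.cons 174 (.leaf 245 1390 (.leaf 149 1199 .nil)) .nil)) .nil)) .nil)) .nil)) .nil)) (.cons 221 (.leaf 245 1775 (.cons 222 (.leaf 197 1583 (.cons 198 (.leaf 293 1582 (.cons 199 (.leaf 175 1397 (.leaf 223 1589 .nil)) .nil)) .nil)) .nil)) (.cons 317 (.leaf 341 1966 (.cons 222 (.cons 245 (.leaf 221 1775 (.cons 198 (.leaf 174 1390 (.cons 199 (.leaf 175 1397 (.leaf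 223 1589 .nil)) .nil)) .nil)) (.cons 199 (.leaf 223 1589 (.cons 198 (.leaf 175 1397 (.cons 173 (.leaf 197 1391 (.cons 174 (.leaf 245 1390 (.leaf 149 1199 .nil)) .nil)) .nil)) .nil)) (.cons 197 (.leaf 221 1583 (.cons 198 (.leaf 173 1391 (.cons 199 (.leaf 175 1397 (.leaf 223 1589 .nil)) .nil)) .nil)) (.cons 221 (.leaf 245 1775 (.leaf 197 1583 .nil)) .nil)))) .nil)) (.cons 245 (.leaf 221 1775 (.cons 317 (.leaf 341 1966 (.cons 244 t42 .nil)) .nil)) .nil)))))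
noncomputable def t46 : T := .cons 291 (.leaf 290 2129 (.cons 267 (.leaf 266 2131 (.cons 268 (.leaf 295 2136 (.cons 242 (.leaf 243 1939 (.cons 315 (.leaf 314 2322 (.cons 244 (.leaf 220 1758 (.leaf 339 1949 .nil)) .nil)) .nil)) .nil)) .nil)) .nil)) (.cons 268 (.cons 267 (.leaf 295 2136 (.leaf 266 2128 .nil)) (.cons 316 (.leaf 340 1957 (.cons 315 (.leaf 295 2330 (.cons 244 (.leaf 339 1950 (.cons 243 (.leaf 242 1936 (.leaf 219 1759 .nil)) .nil)) .nil)) .nil)) (.cons 267 (.leaf 266 2128 (.cons 243 (.leaf 242 1939 (.cons 316 (.leaf 340 1957 (.cons 219 (.leaf 195 1564 (.leaf 244 1759 .nil)) .nil)) .nil)) .nil)) .nil))) (.cons 291 (.leaf 290 2129 (.cons 267 (.leaf 266 2131 (.cons 315 (.leaf 314 2322 (.cons 316 (.leaf 295 2330 (.cons 340 (.leaf 364 2149 (.leaf 243 1948 .nil)) .nil)) .nil)) .nil)) .nil)) (.cons 291 (.leaf 290 2129 (.cons 315 (.leaf 314 2322 (.cons 316 (.leaf 295 2330 (.cons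 340 (.leaf 268 1957 (.leaf 364 2149 .nil)) .nil)) .nil)) .nil)) (.cons 291 (.leaf 290 2129 (.cons 267 (.leaf 266 2131 (.cons 315 (.leaf 314 2322 (.cons 243 (.cons 242 (.leaf 244 1936 (.leaf 268 1939 .nil)) (.cons 316 (.leaf 219 1756 (.leaf 340 1948 .nil)) .nil)) .nil)) .nil)) .nil)) (.cons 291 (.leaf 290 2129 (.cons 267 (.leaf 266 2131 (.cons 268 (.leaf 295 2136 (.cons 243 (.leaf 242 1939 (.cons 316 (.leaf 340 1957 (.leaf 219 1756 .nil)) .nil)) .nil)) .nil)) .nil)) .nil)))))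
noncomputable def t47 : T := .cons 317 (.leaf 342 1964 (.cons 316 (.leaf 340 1958 (.cons 221 (.leaf 292 1766 (.cons 220 (.leaf 196 1575 (.leaf 244 1767 .nil)) .nil)) .nil)) .nil)) (.cons 221 (.cons 196 (.leaf 220 1575 (.cons 197 (.leaf 172 1383 (.cons 292 (.leaf 268 1574 (.leaf 316 1766 .nil)) .nil)) .nil)) (.cons 196 (.leaf 220 1575 (.cons 197 (.leaf 172 1383 (.cons 198 (.leaf 174 1389 (.leaf 222 1581 .nil)) .nil)) .nil)) (.cons 198 (.leaf 222 1581 (.cons 197 (.leaf 174 1389 (.cons 292 (.leaf 268 1574 (.leaf 316 1766 .nil)) .nil)) .nil)) (.cons 220 (.leaf 196 1575 (.cons 222 (.leaf 198 1581 (.cons 292 (.leaf 316 1766 (.cons 223 (.leaf 247 1760 (.cons 199 (.leaf 200 1569 (.cons 243 (.leaf 244 1754 (.cons 219 (.leaf 242 1746 (.cons 195 (.leaf 194 1555 (.cons 267 (.leaf 268 1564 (.cons 290 (.leaf 291 2129 (.leaf 266 1558 .nil)) .nil)) .nil)) .nil)) .nil)) .nil)) .nil)) .nil)) .nil))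 .nil)) .nil)))) (.cons 317 (.leaf 342 1964 (.cons 244 (.leaf 220 1767 (.cons 242 (.leaf 243 1936 (.cons 340 (.leaf 316 1958 (.cons 341 (.leaf 268 1959 (.leaf 364 2150 .nil)) .nil)) .nil)) .nil)) .nil)) (.cons 317 (.leaf 342 1964 (.cons 316 (.leaf 340 1958 (.cons 221 (.leaf 292 1766 (.cons 198 (.leaf 222 1581 (.cons 196 (.leaf 220 1575 (.cons 197 (.leaf 172 1383 (.leaf 174 1389 .nil)) .nil)) .nil)) .nil)) .nil)) .nil)) (.cons 317 (.leaf 342 1964 (.cons 221 (.cons 198 (.leaf 222 1581 (.cons 197 (.leaf 174 1389 (.cons 172 (.leaf 196 1383 (.cons 173 (.leaf 148 1191 (.cons 268 (.leaf 292 1574 (.leaf 244 1382 .nil)) .nil)) .nil)) .nil)) .nil)) (.cons 196 (.leaf 220 1575 (.cons 197 (.leaf 172 1383 (.cons 198 (.leaf 174 1389 (.leaf 222 1581 .nil)) .nil)) .nil)) (.cons 198 (.leaf 222 1581 (.cons 197 (.leaf 174 1389 (.cons 244 (.leaf 220 1767 (.cons 268 (.leaf 292 1574 (.leaf 341 1959 .nil))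 .nil)) .nil)) .nil)) (.cons 220 (.leaf 196 1575 (.leaf 244 1767 .nil)) .nil)))) .nil)) (.cons 317 (.leaf 342 1964 (.cons 316 (.leaf 340 1958 (.cons 292 (.leaf 221 1766 (.cons 315 (.cons 291 (.leaf 290 2320 (.cons 339 (.leaf 338 2514 (.cons 268 (.leaf 244 1950 (.leaf 363 2141 .nil)) .nil)) .nil)) (.cons 314 (.leaf 313 2313 (.cons 338 (.leaf 339 2514 (.leaf 337 2506 .nil)) .nil)) (.cons 290 (.leaf 291 2320 (.cons 314 (.leaf 313 2313 (.leaf 289 2315 .nil)) .nil)) .nil))) .nil)) .nil)) .nil)) .nil)))))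
noncomputable def t48 : T := .cons 198 (.leaf 222 1581 (.cons 197 (.leaf 174 1389 (.cons 292 (.leaf 268 1574 (.leaf 316 1766 .nil)) .nil)) .nil)) (.cons 220 (.leaf 196 1575 (.cons 198 (.leaf 222 1581 (.cons 197 (.leaf 174 1389 (.cons 199 (.leaf 200 1570 (.cons 218 (.leaf 219 1553 (.cons 244 (.leaf 317 1767 (.cons 173 (.leaf 268 1382 (.leaf 149 1190 .nil)) .nil)) .nil)) .nil)) .nil)) .nil)) .nil)) (.cons 196 (.leaf 220 1575 (.cons 197 (.leaf 172 1383 (.cons 292 (.leaf 268 1574 (.leaf 316 1766 .nil)) .nil)) .nil)) (.cons 198 (.leaf 222 1581 (.cons 220 (.leaf 196 1575 (.cons 244 (.leaf 317 1767 (.cons 242 (.leaf 243 1936 (.cons 292 (.leaf 316 1766 (.cons 291 (.leaf 290 2129 (.cons 268 (.leaf 315 1758 (.cons 219 (.leaf 195 1567 (.cons 218 (.leaf 217 1736 (.leaf 241 1738 .nil)) .nil)) .nil)) .nil)) .nil)) .nil)) .nil)) .nil)) .nil)) (.cons 220 (.leaf 196 1575 (.cons 222 (.leaf 198 1581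 (.cons 223 (.leaf 247 1760 (.cons 199 (.leaf 200 1569 (.cons 243 (.leaf 244 1754 (.cons 219 (.leaf 242 1746 (.cons 194 (.leaf 195 1555 (.cons 218 (.leaf 193 1547 (.cons 146 (.leaf 170 1172 (.cons 291 (.leaf 267 1559 (.cons 292 (.leaf 290 2129 (.leaf 316 1766 .nil)) .nil)) .nil)) .nil)) .nil)) .nil)) .nil)) .nil)) .nil)) .nil)) .nil)) .nil))))
noncomputable def t49 : T := .cons 244 (.leaf 220 1767 (.cons 316 (.leaf 340 1958 (.cons 243 (.leaf 242 1936 (.cons 315 (.cons 294 (.leaf 295 2329 (.leaf 314 2321 .nil)) (.cons 290 (.leaf 291 2323 (.cons 314 (.leaf 289 2315 (.cons 338 (.leaf 339 2514 (.leaf 337 2506 .nil)) .nil)) .nil)) (.cons 291 (.leaf 290 2323 (.cons 294 (.leaf 295 2329 (.cons 339 (.leaf 338 2514 (.cons 268 (.leaf 341 1959 (.leaf 267 1949 .nil)) .nil)) .nil)) .nil)) .nil))) .nil)) .nil)) .nil)) (.cons 341 (.cons 340 (.leaf 316 1958 (.leaf 364 2150 .nil)) (.cons 365 (.leaf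 294 2157 (.cons 268 (.leaf 292 2151 (.cons 388 (.leaf 364 2342 (.cons 389 (.leaf 412 2534 (.cons 390 (.leaf 366 2348 (.leaf 414 2540 .nil)) .nil)) .nil)) .nil)) .nil)) (.cons 294 (.leaf 365 2157 (.cons 316 (.leaf 340 1958 (.cons 315 (.leaf 295 2329 (.leaf 314 2321 .nil)) .nil)) .nil)) .nil))) (.cons 244 (.leaf 220 1767 (.cons 242 (.leaf 243 1936 (.cons 341 (.leaf 268 1959 (.cons 365 (.leaf 294 2157 (.cons 388 (.leaf 364 2342 (.cons 389 (.leaf 412 2534 (.cons 390 (.leaf 366 2348 (.leaf 414 2540 .nil)) .nil)) .nil)) .nil)) .nil)) .nil)) .nil)) (.cons 244 (.leaf 220 1767 (.cons 316 (.leaf 340 1958 (.cons 243 (.leaf 242 1936 (.cons 315 (.cons 294 (.leaf 295 2329 (.leaf 314 2321 .nil)) (.cons 290 (.leaf 291 2323 (.cons 314 (.leaf 289 2315 (.cons 338 (.leaf 339 2514 (.leaf 337 2506 .nil)) .nil)) .nil)) (.cons 291 (.leaf 290 2323 (.cons 294 (.leaf 295 2329 (.cons 339 (.leaf 338 2514 (.cons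 268 (.leaf 267 1949 (.leaf 292 1950 .nil)) .nil)) .nil)) .nil)) .nil))) .nil)) .nil)) .nil)) (.cons 244 (.leaf 220 1767 (.cons 243 (.leaf 242 1936 (.cons 341 (.cons 340 (.leaf 316 1958 (.leaf 364 2150 .nil)) (.cons 365 (.leaf 294 2157 (.cons 388 (.leaf 364 2342 (.cons 389 (.leaf 412 2534 (.cons 390 (.leaf 366 2348 (.leaf 414 2540 .nil)) .nil)) .nil)) .nil)) (.cons 294 (.leaf 365 2157 (.cons 316 (.leaf 340 1958 (.cons 315 (.leaf 295 2329 (.leaf 314 2321 .nil)) .nil)) .nil)) .nil))) .nil)) .nil)) (.cons 244 (.leaf 220 1767 (.cons 242 (.leaf 243 1936 (.cons 340 (.leaf 316 1958 (.cons 341 (.leaf 268 1959 (.leaf 364 2150 .nil)) .nil)) .nil)) .nil)) .nil)))))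
noncomputable def t50 : T := .cons 244 (.leaf 220 1767 (.cons 316 (.leaf 340 1958 (.cons 243 (.leaf 242 1936 (.cons 315 (.cons 294 (.leaf 221 1772 (.leaf 295 2329 .nil)) (.cons 290 (.leaf 291 2323 (.cons 314 (.leaf 289 2315 (.cons 338 (.leaf 339 2514 (.leaf 337 2506 .nil)) .nil)) .nil)) .nil)) .nil)) .nil)) .nil)) (.cons 244 (.leaf 220 1767 (.cons 316 (.leaf 340 1958 (.cons 243 (.leaf 242 1936 (.cons 315 (.cons 294 (.leaf 295 2329 (.leaf 314 2321 .nil)) (.cons 290 (.leaf 291 2323 (.cons 314 (.leaf 289 2315 (.cons 338 (.leaf 339 2514 (.leaf 337 2506 .nil)) .nil)) .nil)) (.cons 291 (.leaf 290 2323 (.cons 294 (.leaf 295 2329 (.cons 339 (.leaf 338 2514 (.cons 268 (.leaf 341 1959 (.leaf 267 1949 .nil)) .nil)) .nil)) .nil)) .nil))) .nil)) .nil)) .nil)) (.cons 221 (.leaf 294 1772 (.cons 196 (.leaf 220 1575 (.cons 197 (.leaf 172 1383 (.cons 198 (.leaf 174 1389 (.leaf 222 1581 .nil)) .nil))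 .nil)) .nil)) (.cons 244 (.leaf 220 1767 (.cons 242 (.leaf 243 1936 (.cons 340 (.leaf 316 1958 (.cons 341 (.leaf 268 1959 (.leaf 364 2150 .nil)) .nil)) .nil)) .nil)) (.cons 221 (.leaf 294 1772 (.cons 316 (.leaf 292 1766 (.leaf 340 1958 .nil)) .nil)) .nil))))
noncomputable def t51 : T := .cons 317 t50 (.cons 317 t49 (.cons 221 t48 (.cons 221 (.leaf 294 1772 (.cons 220 (.leaf 196 1575 (.cons 198 (.leaf 222 1581 (.cons 197 (.leaf 174 1389 (.cons 199 (.leaf 200 1570 (.cons 218 (.leaf 219 1553 (.cons 244 (.leaf 317 1767 (.cons 173 (.leaf 268 1382 (.leaf 149 1190 .nil)) .nil)) .nil)) .nil)) .nil)) .nil)) .nil)) .nil)) (.cons 221 (.leaf 294 1772 (.cons 220 (.leaf 196 1575 (.cons 222 (.leaf 198 1581 (.cons 292 (.leaf 316 1766 (.cons 223 (.leaf 247 1760 (.cons 199 (.leaf 200 1569 (.cons 243 (.leaf 244 1754 (.cons 268 (.leaf 197 1574 (.cons 242 (.leaf 267 1939 (.leaf 219 1746 .nil)) .nil))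 .nil)) .nil)) .nil)) .nil)) .nil)) .nil)) .nil)) (.cons 221 (.leaf 294 1772 (.cons 292 (.leaf 316 1766 (.cons 196 (.leaf 220 1575 (.cons 197 (.leaf 172 1383 (.leaf 268 1574 .nil)) .nil)) .nil)) .nil)) (.cons 221 (.leaf 294 1772 (.cons 292 (.leaf 316 1766 (.cons 197 (.leaf 268 1574 (.cons 198 (.leaf 174 1389 (.leaf 222 1581 .nil)) .nil)) .nil)) .nil)) (.cons 221 (.leaf 294 1772 (.cons 292 (.leaf 316 1766 (.cons 196 (.leaf 220 1575 (.cons 197 (.leaf 172 1383 (.cons 198 (.leaf 174 1389 (.leaf 222 1581 .nil)) .nil)) .nil)) .nil)) .nil)) .nil)))))))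
noncomputable def t52 : T := .cons 343 (.leaf 344 2537 (.cons 340 (.cons 315 (.leaf 316 2523 (.cons 339 (.leaf 314 2515 (.cons 317 (.leaf 338 2513 (.leaf 364 2150 .nil)) .nil)) .nil)) (.cons 316 (.leaf 315 2523 (.cons 364 (.leaf 292 2149 (.leaf 363 2714 .nil)) .nil)) (.cons 317 (.leaf 366 2156 (.cons 315 (.leaf 316 2520 (.cons 339 (.leaf 338 2513 (.leaf 314 2515 .nil)) .nil)) .nil)) (.cons 317 (.leaf 364 2150 (.leaf 366 2156 .nil)) .nil)))) .nil)) (.cons 343 (.leaf 344 2537 (.cons 340 (.cons 315 (.leaf 316 2523 (.cons 339 (.leaf 314 2515 (.cons 363 (.leaf 362 2706 (.leaf 364 2714 .nil)) .nil)) .nil)) (.cons 315 (.leaf 316 2523 (.cons 339 (.leaf 314 2515 (.cons 367 (.leaf 366 2712 (.leaf 368 2720 .nil)) .nil)) .nil)) (.cons 363 (.leaf 364 2714 (.cons 339 (.leaf 362 2706 (.cons 367 (.leaf 366 2712 (.leaf 368 2720 .nil)) .nil)) .nil)) (.cons 364 (.leaf 363 2714 (.cons 316 (.leaf 292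 2149 (.leaf 315 2523 .nil)) .nil)) .nil)))) .nil)) (.cons 343 (.leaf 344 2537 (.cons 340 (.cons 315 (.leaf 316 2523 (.cons 339 (.leaf 314 2515 (.cons 317 (.leaf 338 2513 (.leaf 364 2150 .nil)) .nil)) .nil)) (.cons 315 (.leaf 316 2523 (.cons 339 (.leaf 314 2515 (.cons 317 (.leaf 338 2513 (.cons 268 (.leaf 244 1959 (.cons 292 (.leaf 365 2151 (.cons 291 (.leaf 290 2320 (.leaf 363 2141 .nil)) .nil)) .nil)) .nil)) .nil)) .nil)) (.cons 316 (.leaf 315 2523 (.cons 364 (.leaf 292 2149 (.leaf 363 2714 .nil)) .nil)) (.cons 364 (.leaf 317 2150 (.leaf 363 2714 .nil)) .nil)))) .nil)) (.cons 317 (.leaf 366 2156 (.cons 268 (.leaf 244 1959 (.cons 292 (.leaf 365 2151 (.cons 290 (.leaf 291 2320 (.cons 340 (.leaf 364 2150 (.cons 339 (.leaf 338 2513 (.cons 363 (.leaf 362 2706 (.leaf 316 2142 .nil)) .nil)) .nil)) .nil)) .nil)) .nil)) .nil)) (.cons 317 (.leaf 366 2156 (.cons 268 (.leaf 244 1959 (.cons 343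 (.leaf 344 2537 (.cons 315 (.leaf 316 2520 (.cons 365 (.leaf 292 2151 (.cons 388 (.leaf 364 2342 (.cons 389 (.leaf 413 2541 (.leaf 412 2534 .nil)) .nil)) .nil)) .nil)) .nil)) .nil)) .nil)) (.cons 317 (.leaf 366 2156 (.cons 268 (.leaf 244 1959 (.cons 292 (.leaf 365 2151 (.cons 291 (.leaf 290 2320 (.cons 343 (.leaf 344 2537 (.cons 315 (.leaf 316 2520 (.cons 339 (.leaf 363 2141 (.cons 340 (.leaf 338 2513 (.leaf 314 2515 .nil)) .nil)) .nil)) .nil)) .nil)) .nil)) .nil)) .nil)) (.cons 317 (.leaf 366 2156 (.cons 244 (.leaf 268 1959 (.cons 340 (.leaf 364 2150 (.cons 339 (.leaf 338 2513 (.cons 315 (.leaf 314 2515 (.cons 343 (.leaf 344 2537 (.leaf 316 2520 .nil)) .nil)) .nil)) .nil)) .nil)) .nil)) (.cons 317 (.leaf 366 2156 (.cons 244 (.leaf 268 1959 (.cons 344 (.leaf 343 2537 (.cons 364 (.leaf 340 2150 (.cons 365 (.leaf 388 2342 (.cons 362 (.leaf 363 2705 (.cons 389 (.leaf 413 2541 (.cons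 390 (.leaf 414 2540 (.cons 392 (.leaf 391 2915 (.cons 368 (.leaf 297 2373 (.cons 416 (.leaf 345 2565 (.cons 417 (.leaf 393 2564 (.leaf 441 2756 .nil)) .nil)) .nil)) .nil)) .nil)) .nil)) .nil)) .nil)) .nil)) .nil)) .nil)) .nil)) .nil)))))))
noncomputable def t53 : T := .cons 366 (.leaf 294 2159 (.cons 317 (.leaf 390 2351 (.leaf 341 2156 .nil)) .nil)) (.cons 341 (.cons 343 (.leaf 344 2537 (.cons 367 (.leaf 294 2164 (.cons 340 (.leaf 368 2720 (.cons 364 (.leaf 317 2150 (.leaf 363 2714 .nil)) .nil)) .nil)) .nil)) (.cons 365 (.leaf 294 2158 (.cons 389 (.leaf 413 2541 (.cons 317 (.cons 268 (.leaf 244 1959 (.leaf 292 2151 .nil)) (.cons 364 (.leaf 340 2150 (.leaf 388 2342 .nil)) .nil)) .nil)) .nil)) (.cons 343 (.leaf 344 2537 (.cons 340 (.cons 315 (.leaf 316 2523 (.cons 339 (.leaf 314 2515 (.cons 317 (.leaf 338 2513 (.leaf 364 2150 .nil)) .nil)) .nil)) (.cons 315 (.leaf 316 2523 (.cons 339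 (.leaf 314 2515 (.cons 317 (.leaf 338 2513 (.cons 268 (.leaf 244 1959 (.cons 292 (.leaf 365 2151 (.cons 291 (.leaf 290 2320 (.leaf 363 2141 .nil)) .nil)) .nil)) .nil)) .nil)) .nil)) (.cons 316 (.leaf 315 2523 (.cons 364 (.leaf 292 2149 (.leaf 363 2714 .nil)) .nil)) (.cons 364 (.leaf 317 2150 (.leaf 363 2714 .nil)) .nil)))) .nil)) (.cons 343 (.leaf 344 2537 (.cons 294 (.leaf 365 2158 (.leaf 367 2164 .nil)) .nil)) .nil)))) (.cons 341 t52 (.cons 366 (.leaf 294 2159 (.cons 390 (.leaf 317 2351 (.cons 413 (.leaf 389 2542 (.cons 414 (.leaf 437 2734 (.cons 415 (.leaf 391 2548 (.leaf 439 2740 .nil)) .nil)) .nil)) .nil)) .nil)) (.cons 294 (.leaf 366 2159 (.cons 341 (.leaf 365 2158 (.cons 343 (.leaf 344 2537 (.leaf 367 2164 .nil)) .nil)) .nil)) .nil))))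
noncomputable def t54 : T := .cons 245 (.cons 317 (.leaf 342 1964 (.cons 244 (.leaf 220 1767 (.cons 243 (.leaf 242 1936 (.cons 268 (.leaf 341 1959 (.cons 316 (.leaf 340 1958 (.cons 292 (.leaf 221 1765 (.leaf 219 1759 .nil)) .nil)) .nil)) .nil)) .nil)) .nil)) (.cons 221 (.leaf 294 1772 (.cons 196 (.leaf 220 1575 (.cons 197 (.leaf 172 1383 (.cons 292 (.leaf 268 1574 (.leaf 316 1766 .nil)) .nil)) .nil)) .nil)) (.cons 317 (.leaf 342 1964 (.cons 244 (.leaf 220 1767 (.cons 243 (.leaf 242 1936 (.cons 341 (.leaf 268 1959 (.cons 340 (.leaf 316 1958 (.leaf 364 2150 .nil)) .nil)) .nil)) .nil)) .nil)) (.cons 221 (.leaf 294 1772 (.cons 196 (.leaf 220 1575 (.cons 197 (.leaf 172 1383 (.cons 198 (.leaf 174 1389 (.leaf 222 1581 .nil)) .nil)) .nil)) .nil)) (.cons 294 (.leaf 221 1772 (.leaf 342 1967 .nil)) .nil))))) (.cons 342 t53 (.cons 245 t51 (.cons 245 t47 (.cons 294 (.cons 342 (.leaf 245 1967 (.leaf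 366 2159 .nil)) (.cons 245 (.leaf 221 1772 (.cons 292 t46 .nil)) (.cons 342 (.leaf 366 2159 (.cons 341 (.leaf 365 2158 (.cons 343 (.leaf 344 2537 (.leaf 367 2164 .nil)) .nil)) .nil)) .nil))) (.cons 245 (.cons 294 (.leaf 221 1772 (.leaf 342 1967 .nil)) (.cons 317 (.leaf 342 1964 (.cons 244 (.leaf 220 1767 (.cons 242 (.leaf 243 1936 (.cons 340 (.leaf 316 1958 (.cons 341 (.leaf 268 1959 (.leaf 364 2150 .nil)) .nil)) .nil)) .nil)) .nil)) (.cons 221 (.leaf 294 1772 (.cons 196 (.leaf 220 1575 (.cons 197 (.leaf 172 1383 (.cons 198 (.leaf 174 1389 (.leaf 222 1581 .nil)) .nil)) .nil)) .nil)) .nil))) (.cons 245 (.cons 317 (.leaf 342 1964 (.cons 220 (.leaf 244 1767 (.cons 221 (.leaf 294 1772 (.leaf 196 1575 .nil)) .nil)) .nil)) (.cons 317 (.leaf 342 1964 (.cons 220 (.leaf 244 1767 (.cons 221 (.leaf 196 1575 (.cons 316 (.leaf 292 1766 (.leaf 340 1958 .nil)) .nil)) .nil)) .nil)) (.cons 221 (.leaf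 294 1772 (.cons 196 (.leaf 220 1575 (.cons 197 (.leaf 172 1383 (.cons 198 (.leaf 174 1389 (.leaf 222 1581 .nil)) .nil)) .nil)) .nil)) (.cons 342 (.leaf 294 1967 (.leaf 317 1964 .nil)) .nil)))) (.cons 342 (.cons 317 (.leaf 245 1964 (.cons 366 (.leaf 294 2159 (.leaf 390 2351 .nil)) .nil)) (.cons 317 (.leaf 245 1964 (.cons 366 (.leaf 390 2351 (.leaf 341 2156 .nil)) .nil)) (.cons 294 (.leaf 366 2159 (.cons 341 (.leaf 365 2158 (.cons 343 (.leaf 344 2537 (.leaf 367 2164 .nil)) .nil)) .nil)) (.cons 245 (.leaf 294 1967 (.leaf 317 1964 .nil)) .nil)))) .nil)))))))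
noncomputable def t55 : T := .cons 221 (.leaf 245 1775 (.cons 222 (.leaf 197 1583 (.cons 293 (.leaf 317 1774 (.cons 198 (.leaf 269 1582 (.cons 175 (.leaf 199 1397 (.cons 174 (.leaf 151 1205 (.cons 271 (.leaf 295 1588 (.leaf 247 1396 .nil)) .nil)) .nil)) .nil)) .nil)) .nil)) .nil)) (.cons 247 (.leaf 223 1781 (.cons 271 (.leaf 342 1973 (.cons 269 (.leaf 268 1953 (.cons 293 (.leaf 292 2146 (.cons 222 (.leaf 198 1582 (.leaf 317 1774 .nil)) .nil)) .nil)) .nil)) .nil)) (.cons 245 (.leaf 221 1775 (.cons 269 (.leaf 342 1967 (.cons 244 (.leaf 271 1955 (.cons 243 (.leaf 242 1936 (.cons 218 (.leaf 219 1747 (.cons 222 (.leaf 223 1753 (.cons 174 (.leaf 198 1390 (.cons 267 (.leaf 266 1938 (.cons 268 (.leaf 295 2136 (.cons 291 (.leaf 290 2130 (.cons 220 (.leaf 196 1566 (.leaf 315 1757 .nil)) .nil)) .nil)) .nil)) .nil)) .nil)) .nil)) .nil)) .nil)) .nil)) .nil)) (.cons 247 (.leaf 223 1781 (.cons 221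 (.leaf 245 1775 (.cons 342 (.leaf 271 1973 (.cons 367 (.leaf 343 2164 (.cons 366 (.leaf 391 2356 (.cons 293 (.leaf 269 2159 (.cons 389 (.leaf 365 2350 (.cons 390 (.leaf 317 2351 (.leaf 413 2542 .nil)) .nil)) .nil)) .nil)) .nil)) .nil)) .nil)) .nil)) (.cons 247 (.leaf 223 1781 (.cons 221 (.leaf 245 1775 (.cons 222 (.leaf 197 1583 (.cons 219 (.leaf 220 1752 (.cons 271 (.leaf 342 1973 (.cons 198 (.leaf 295 1588 (.leaf 174 1396 .nil)) .nil)) .nil)) .nil)) .nil)) .nil)) (.cons 245 (.leaf 221 1775 (.cons 223 (.leaf 247 1781 (.cons 222 (.leaf 199 1589 (.cons 243 (.leaf 244 1753 (.cons 269 (.leaf 342 1967 (.cons 293 (.leaf 198 1582 (.leaf 317 1773 .nil)) .nil)) .nil)) .nil)) .nil)) .nil)) .nil)))))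
noncomputable def t56 : T := .cons 175 (.leaf 199 1397 (.cons 173 (.leaf 197 1391 (.cons 174 (.leaf 149 1199 (.leaf 151 1205 .nil)) .nil)) .nil)) (.cons 271 (.leaf 295 1588 (.cons 173 (.leaf 197 1391 (.cons 174 (.leaf 149 1199 (.leaf 247 1396 .nil)) .nil)) .nil)) (.cons 271 (.leaf 295 1588 (.cons 174 (.leaf 247 1396 (.cons 175 (.leaf 199 1397 (.leaf 151 1205 .nil)) .nil)) .nil)) (.cons 199 (.leaf 175 1397 (.cons 271 (.leaf 295 1588 (.cons 197 (.leaf 173 1391 (.cons 196 (.cons 195 (.leaf 223 1560 (.cons 219 (.leaf 218 1554 (.leaf 220 1562 .nil)) .nil)) (.cons 219 (.leaf 220 1562 (.cons 171 (.leaf 172 1371 (.cons 195 (.leaf 170 1363 (.leaf 218 1554 .nil)) .nil)) .nil)) (.cons 294 (.leaf 223 1589 (.cons 172 (.leaf 171 1371 (.cons 220 (.leaf 219 1562 (.cons 247 (.leaf 342 1973 (.cons 244 (.leaf 245 1952 (.cons 249 (.leaf 250 1970 (.cons 267 (.leaf 243 1374 (.cons 291 (.leaf 268 1566 (.cons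 293 (.leaf 317 1774 (.leaf 292 2137 .nil)) .nil)) .nil)) .nil)) .nil)) .nil)) .nil)) .nil)) .nil)) (.cons 223 (.leaf 294 1589 (.leaf 195 1560 .nil)) .nil)))) .nil)) .nil)) .nil)) .nil)))
noncomputable def t57 : T := .cons 199 (.leaf 175 1397 (.cons 173 (.leaf 197 1391 (.cons 174 (.leaf 149 1199 (.cons 171 (.leaf 172 1368 (.cons 200 (.leaf 201 1387 (.cons 223 (.leaf 294 1589 (.cons 150 (.leaf 247 1204 (.leaf 126 1012 .nil)) .nil)) .nil)) .nil)) .nil)) .nil)) .nil)) (.cons 271 (.leaf 295 1588 (.cons 173 (.leaf 197 1391 (.cons 174 (.leaf 149 1199 (.leaf 247 1396 .nil)) .nil)) .nil)) (.cons 199 (.leaf 175 1397 (.cons 223 (.leaf 294 1589 (.cons 271 (.leaf 295 1588 (.cons 174 (.leaf 247 1396 (.cons 149 (.leaf 173 1199 (.cons 150 (.leaf 125 1007 (.leaf 126 1012 .nil)) .nil)) .nil)) .nil)) .nil)) .nil)) (.cons 175 (.leaf 199 1397 (.cons 173 (.leaf 197 1391 (.cons 174 (.leaf 149 1199 (.leaf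 151 1205 .nil)) .nil)) .nil)) (.cons 199 (.leaf 175 1397 (.cons 223 (.leaf 294 1589 (.cons 271 (.leaf 295 1588 (.cons 174 (.leaf 247 1396 (.cons 150 (.leaf 126 1012 (.cons 125 (.leaf 149 1007 (.cons 127 (.leaf 151 1013 (.cons 221 (.leaf 245 1198 (.cons 200 (.leaf 201 1578 (.leaf 220 1569 .nil)) .nil)) .nil)) .nil)) .nil)) .nil)) .nil)) .nil)) .nil)) (.cons 199 (.leaf 175 1397 (.cons 173 (.leaf 197 1391 (.cons 271 (.leaf 295 1588 (.cons 294 (.leaf 223 1589 (.cons 221 (.leaf 245 1775 (.cons 247 (.leaf 249 1771 (.leaf 342 1973 .nil)) .nil)) .nil)) .nil)) .nil)) .nil)) .nil)))))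
noncomputable def t58 : T := .cons 198 t57 (.cons 198 (.cons 271 (.leaf 295 1588 (.cons 174 (.leaf 247 1396 (.cons 175 (.leaf 199 1397 (.leaf 151 1205 .nil)) .nil)) .nil)) (.cons 271 (.leaf 295 1588 (.cons 173 (.leaf 197 1391 (.cons 174 (.leaf 149 1199 (.leaf 247 1396 .nil)) .nil)) .nil)) (.cons 173 (.leaf 197 1391 (.cons 174 (.leaf 149 1199 (.cons 175 (.leaf 199 1397 (.leaf 151 1205 .nil)) .nil)) .nil)) (.cons 199 (.leaf 175 1397 (.cons 197 (.leaf 173 1391 (.cons 271 (.leaf 295 1588 (.cons 196 (.cons 220 (.leaf 219 1562 (.cons 171 (.leaf 172 1371 (.cons 200 (.leaf 221 1570 (.cons 177 (.leaf 176 1385 (.cons 201 (.leaf 178 1393 (.cons 225 (.leaf 249 1414 (.leaf 226 1584 .nil)) .nil)) .nil)) .nil)) .nil)) .nil)) (.cons 195 (.leaf 223 1560 (.cons 171 (.leaf 170 1363 (.leaf 172 1371 .nil)) .nil)) (.cons 220 (.leaf 219 1562 (.cons 195 (.leaf 223 1560 (.cons 221 (.leaf 194 1552 (.leaf 200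 1570 .nil)) .nil)) .nil)) .nil))) .nil)) .nil)) .nil)) .nil)))) (.cons 199 (.cons 175 (.leaf 198 1397 (.cons 223 (.leaf 294 1589 (.leaf 151 1206 .nil)) .nil)) (.cons 294 (.leaf 223 1589 (.cons 221 (.leaf 245 1775 (.leaf 197 1583 .nil)) .nil)) (.cons 198 (.leaf 175 1397 (.cons 197 (.leaf 173 1391 (.cons 271 (.leaf 295 1588 (.cons 196 (.cons 220 (.leaf 219 1562 (.cons 171 (.leaf 172 1371 (.cons 200 (.leaf 221 1570 (.cons 177 (.leaf 176 1385 (.cons 201 (.leaf 178 1393 (.cons 225 (.leaf 249 1414 (.leaf 226 1584 .nil)) .nil)) .nil)) .nil)) .nil)) .nil)) (.cons 195 (.leaf 223 1560 (.cons 171 (.leaf 172 1371 (.leaf 170 1363 .nil)) .nil)) (.cons 220 (.leaf 219 1562 (.cons 195 (.leaf 223 1560 (.cons 221 (.leaf 194 1552 (.leaf 200 1570 .nil)) .nil)) .nil)) .nil))) .nil)) .nil)) .nil)) (.cons 198 (.leaf 175 1397 (.cons 197 (.leaf 173 1391 (.cons 221 (.leaf 294 1583 (.cons 200 (.leaf 201 1578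 (.leaf 220 1570 .nil)) .nil)) .nil)) .nil)) .nil)))) (.cons 198 t56 (.cons 294 (.cons 223 (.leaf 247 1781 (.leaf 199 1589 .nil)) (.cons 221 (.leaf 245 1775 (.leaf 197 1583 .nil)) .nil)) (.cons 221 (.cons 247 (.leaf 249 1771 (.cons 220 (.leaf 245 1763 (.leaf 219 1752 .nil)) .nil)) (.cons 197 (.leaf 294 1583 (.cons 173 (.leaf 198 1391 (.leaf 149 1196 .nil)) .nil)) .nil)) (.cons 247 (.cons 294 (.leaf 223 1781 (.cons 221 (.leaf 249 1771 (.leaf 245 1775 .nil)) .nil)) (.cons 221 (.leaf 249 1771 (.cons 220 (.leaf 245 1763 (.leaf 219 1752 .nil)) .nil)) (.cons 294 (.leaf 223 1781 (.cons 221 (.leaf 245 1775 (.cons 219 (.leaf 220 1752 (.cons 271 (.leaf 342 1973 (.cons 198 (.leaf 295 1588 (.leaf 174 1396 .nil)) .nil)) .nil)) .nil)) .nil)) (.cons 223 (.leaf 294 1781 (.cons 199 (.leaf 175 1404 (.cons 249 (.leaf 250 1779 (.cons 225 (.leaf 226 1777 (.cons 201 (.leaf 177 1414 (.cons 200 (.leaf 202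 1586 (.cons 271 (.leaf 176 1405 (.cons 198 (.leaf 295 1588 (.leaf 174 1396 .nil)) .nil)) .nil)) .nil)) .nil)) .nil)) .nil)) .nil)) .nil)))) .nil))))))
noncomputable def t59 : T := .cons 269 (.leaf 249 1961 (.cons 245 (.leaf 244 1955 (.cons 294 (.leaf 221 1775 (.leaf 342 1967 .nil)) .nil)) .nil)) (.cons 294 (.cons 199 (.leaf 223 1589 (.cons 293 (.leaf 317 1774 (.cons 292 (.leaf 295 2145 (.leaf 291 2137 .nil)) .nil)) .nil)) (.cons 221 (.leaf 245 1775 (.leaf 197 1583 .nil)) .nil)) (.cons 269 (.leaf 249 1961 (.cons 244 (.leaf 245 1955 (.cons 268 (.leaf 243 1947 (.cons 292 (.leaf 293 2146 (.leaf 291 2138 .nil)) .nil)) .nil)) .nil)) (.cons 269 (.leaf 249 1961 (.cons 268 (.cons 243 (.leaf 244 1947 (.cons 267 (.leaf 242 1939 (.cons 290 (.leaf 291 2130 (.cons 266 (.leaf 289 2122 (.cons 294 (.leaf 295 2136 (.leaf 293 2128 .nil)) .nil)) .nil)) .nil)) .nil)) (.cons 243 (.leaf 244 1947 (.cons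 267 (.leaf 242 1939 (.cons 291 (.leaf 290 2130 (.leaf 292 2138 .nil)) .nil)) .nil)) (.cons 243 (.leaf 244 1947 (.cons 267 (.leaf 242 1939 (.cons 293 (.leaf 292 2146 (.cons 294 (.leaf 317 1774 (.leaf 295 2136 .nil)) .nil)) .nil)) .nil)) (.cons 292 (.leaf 293 2146 (.leaf 291 2138 .nil)) .nil)))) .nil)) .nil)))
noncomputable def t60 : T := .cons 269 (.cons 198 (.leaf 293 1582 (.cons 174 (.leaf 245 1390 (.cons 175 (.leaf 199 1397 (.leaf 151 1205 .nil)) .nil)) .nil)) (.cons 271 (.leaf 249 1961 (.cons 245 (.leaf 244 1955 (.cons 294 (.leaf 221 1775 (.leaf 342 1967 .nil)) .nil)) .nil)) (.cons 198 (.leaf 293 1582 (.cons 173 (.leaf 197 1391 (.cons 174 (.leaf 149 1199 (.cons 175 (.leaf 199 1397 (.leaf 151 1205 .nil)) .nil)) .nil)) .nil)) .nil))) (.cons 271 t59 (.cons 198 (.cons 173 (.leaf 197 1391 (.cons 149 (.leaf 174 1199 (.cons 175 (.leaf 199 1397 (.cons 269 (.leaf 293 1582 (.cons 271 (.leaf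 249 1961 (.leaf 295 1588 .nil)) .nil)) .nil)) .nil)) .nil)) (.cons 173 (.leaf 197 1391 (.cons 174 (.leaf 149 1199 (.cons 175 (.leaf 199 1397 (.leaf 151 1205 .nil)) .nil)) .nil)) (.cons 269 (.leaf 293 1582 (.cons 174 (.leaf 245 1390 (.cons 175 (.leaf 199 1397 (.leaf 151 1205 .nil)) .nil)) .nil)) (.cons 269 (.leaf 293 1582 (.cons 271 (.leaf 249 1961 (.leaf 295 1588 .nil)) .nil)) .nil)))) (.cons 199 (.cons 294 (.leaf 223 1589 (.cons 221 (.leaf 245 1775 (.leaf 197 1583 .nil)) .nil)) (.cons 198 (.leaf 175 1397 (.cons 197 (.leaf 173 1391 (.cons 271 (.leaf 295 1588 (.cons 196 (.cons 195 (.leaf 223 1560 (.cons 219 (.leaf 220 1562 (.leaf 218 1554 .nil)) .nil)) (.cons 220 (.leaf 219 1562 (.cons 171 (.leaf 172 1371 (.cons 200 (.leaf 221 1570 (.cons 177 (.leaf 176 1385 (.cons 201 (.leaf 178 1393 (.cons 225 (.leaf 249 1414 (.leaf 226 1584 .nil)) .nil)) .nil)) .nil)) .nil)) .nil)) (.cons 195 (.leaf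 223 1560 (.cons 171 (.leaf 172 1371 (.leaf 170 1363 .nil)) .nil)) .nil))) .nil)) .nil)) .nil)) (.cons 198 (.leaf 175 1397 (.cons 197 (.leaf 173 1391 (.cons 221 (.leaf 294 1583 (.cons 200 (.leaf 201 1578 (.leaf 220 1570 .nil)) .nil)) .nil)) .nil)) (.cons 175 (.leaf 198 1397 (.cons 223 (.leaf 294 1589 (.leaf 151 1206 .nil)) .nil)) .nil)))) (.cons 198 (.cons 269 (.leaf 293 1582 (.cons 173 (.leaf 197 1391 (.cons 174 (.leaf 149 1199 (.cons 175 (.leaf 199 1397 (.leaf 151 1205 .nil)) .nil)) .nil)) .nil)) (.cons 269 (.leaf 293 1582 (.cons 271 (.leaf 249 1961 (.leaf 295 1588 .nil)) .nil)) (.cons 173 (.leaf 197 1391 (.cons 174 (.leaf 149 1199 (.cons 175 (.leaf 199 1397 (.leaf 151 1205 .nil)) .nil)) .nil)) .nil))) (.cons 269 (.cons 198 (.leaf 293 1582 (.cons 174 (.leaf 245 1390 (.cons 175 (.leaf 199 1397 (.leaf 151 1205 .nil)) .nil)) .nil)) (.cons 271 (.leaf 249 1961 (.cons 245 (.leaf 244 1955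 (.cons 294 (.leaf 221 1775 (.leaf 342 1967 .nil)) .nil)) .nil)) (.cons 198 (.leaf 293 1582 (.cons 271 (.leaf 249 1961 (.leaf 295 1588 .nil)) .nil)) .nil))) (.cons 294 (.cons 221 (.leaf 245 1775 (.leaf 197 1583 .nil)) (.cons 199 (.leaf 223 1589 (.cons 198 (.leaf 175 1397 (.cons 293 (.leaf 269 1582 (.leaf 317 1774 .nil)) .nil)) .nil)) .nil)) (.cons 294 (.cons 221 (.leaf 245 1775 (.leaf 197 1583 .nil)) (.cons 293 (.leaf 317 1774 (.cons 269 (.leaf 198 1582 (.cons 271 (.leaf 249 1961 (.leaf 292 2146 .nil)) .nil)) .nil)) .nil)) .nil)))))))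
noncomputable def t61 : T := .cons 342 (.leaf 247 1973 (.cons 366 (.leaf 295 2165 (.cons 365 (.leaf 341 2158 (.leaf 389 2350 .nil)) .nil)) .nil)) (.cons 342 (.cons 366 (.leaf 295 2165 (.cons 365 (.leaf 341 2158 (.leaf 389 2350 .nil)) .nil)) (.cons 366 (.leaf 295 2165 (.cons 367 (.leaf 343 2164 (.leaf 391 2356 .nil)) .nil)) (.cons 341 (.leaf 365 2158 (.cons 343 (.leaf 344 2537 (.leaf 367 2164 .nil)) .nil)) .nil))) (.cons 246 (.cons 221 (.leaf 245 1775 (.cons 222 (.leaf 197 1583 (.cons 199 (.leaf 223 1589 (.cons 293 (.leaf 317 1774 (.cons 292 (.leaf 295 2145 (.leaf 291 2137 .nil)) .nil)) .nil)) .nil)) .nil)) (.cons 221 (.leaf 245 1775 (.cons 222 (.leaf 197 1583 (.cons 198 (.leaf 295 1588 (.cons 247 (.leaf 249 1771 (.leaf 174 1396 .nil)) .nil)) .nil)) .nil)) (.cons 247 (.leaf 223 1781 (.cons 249 (.leaf 250 1970 (.cons 222 (.leaf 221 1771 (.cons 198 (.leaf 295 1588 (.leaf 174 1396 .nil))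 .nil)) .nil)) .nil)) (.cons 247 (.leaf 223 1781 (.cons 244 (.leaf 245 1952 (.cons 249 (.leaf 250 1970 (.cons 317 (.leaf 341 1966 (.cons 222 (.leaf 293 1774 (.cons 198 (.leaf 295 1588 (.leaf 174 1396 .nil)) .nil)) .nil)) .nil)) .nil)) .nil)) (.cons 247 (.leaf 223 1781 (.cons 245 (.leaf 244 1952 (.leaf 221 1775 .nil)) .nil)) .nil))))) (.cons 246 (.cons 247 (.leaf 223 1781 (.leaf 342 1973 .nil)) (.cons 341 (.leaf 317 1966 (.cons 221 (.leaf 245 1775 (.cons 197 (.leaf 222 1583 (.cons 342 (.leaf 365 2158 (.cons 343 (.leaf 344 2537 (.leaf 367 2164 .nil)) .nil)) .nil)) .nil)) .nil)) (.cons 247 (.leaf 223 1781 (.cons 245 (.leaf 244 1952 (.leaf 221 1775 .nil)) .nil)) .nil))) (.cons 247 (.leaf 342 1973 (.cons 223 (.leaf 246 1781 (.leaf 295 1782 .nil)) .nil)) .nil))))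
noncomputable def t62 : T := .cons 342 (.leaf 247 1973 (.cons 366 (.leaf 295 2165 (.cons 365 (.leaf 341 2158 (.leaf 389 2350 .nil)) .nil)) .nil)) (.cons 246 (.cons 221 (.leaf 245 1775 (.cons 222 (.leaf 197 1583 (.cons 199 (.leaf 223 1589 (.cons 293 (.leaf 317 1774 (.cons 292 (.leaf 269 2146 (.leaf 295 2145 .nil)) .nil)) .nil)) .nil)) .nil)) (.cons 222 (.cons 199 (.leaf 223 1589 (.cons 293 (.leaf 317 1774 (.cons 292 (.leaf 269 2146 (.leaf 295 2145 .nil)) .nil)) .nil)) (.cons 317 (.leaf 341 1966 (.leaf 293 1774 .nil)) (.cons 223 (.leaf 247 1781 (.leaf 199 1589 .nil)) .nil))) (.cons 245 (.leaf 221 1775 (.cons 244 (.leaf 247 1952 (.leaf 269 1955 .nil)) .nil)) (.cons 221 (.leaf 245 1775 (.cons 222 (.leaf 197 1583 (.cons 199 (.leaf 223 1589 (.cons 293 (.leaf 317 1774 (.cons 292 (.leaf 295 2145 (.leaf 291 2137 .nil)) .nil)) .nil)) .nil)) .nil)) .nil)))) (.cons 342 (.cons 366 (.leaf 295 2165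 (.cons 365 (.leaf 341 2158 (.leaf 389 2350 .nil)) .nil)) (.cons 341 (.leaf 365 2158 (.cons 343 (.leaf 344 2537 (.leaf 367 2164 .nil)) .nil)) (.cons 366 (.leaf 295 2165 (.cons 367 (.leaf 343 2164 (.leaf 391 2356 .nil)) .nil)) .nil))) (.cons 246 (.cons 245 (.leaf 221 1775 (.cons 244 (.leaf 247 1952 (.leaf 269 1955 .nil)) .nil)) (.cons 245 (.leaf 221 1775 (.cons 244 (.leaf 269 1955 (.leaf 243 1944 .nil)) .nil)) (.cons 247 (.leaf 223 1781 (.leaf 342 1973 .nil)) .nil))) .nil)))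
noncomputable def t63 : T := .cons 247 (.leaf 249 1962 (.cons 267 (.leaf 268 1945 (.cons 294 (.leaf 223 1781 (.cons 245 (.leaf 342 1967 (.cons 317 (.leaf 341 1966 (.cons 293 (.leaf 222 1773 (.cons 220 (.leaf 244 1767 (.cons 316 (.leaf 340 1958 (.cons 315 (.leaf 295 2329 (.leaf 314 2321 .nil)) .nil)) .nil)) .nil)) .nil)) .nil)) .nil)) .nil)) .nil)) (.cons 294 (.cons 341 (.leaf 317 1966 (.cons 342 (.leaf 245 1967 (.leaf 365 2158 .nil)) .nil)) (.cons 317 (.leaf 341 1966 (.cons 222 (.leaf 293 1774 (.cons 199 (.leaf 223 1589 (.cons 198 (.leaf 175 1397 (.cons 173 (.leaf 197 1391 (.cons 174 (.leaf 245 1390 (.leaf 149 1199 .nil)) .nil)) .nil)) .nil)) .nil)) .nil)) (.cons 342 (.leaf 245 1967 (.cons 293 (.leaf 366 2159 (.cons 198 (.leaf 222 1582 (.cons 341 (.leaf 365 2158 (.cons 343 (.leaf 344 2537 (.leaf 367 2164 .nil)) .nil)) .nil)) .nil)) .nil)) (.cons 342 (.leaf 245 1967 (.cons 293 (.leaf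 366 2159 (.cons 222 (.leaf 198 1582 (.leaf 317 1774 .nil)) .nil)) .nil)) (.cons 341 (.leaf 317 1966 (.cons 342 (.leaf 365 2158 (.cons 343 (.leaf 344 2537 (.leaf 367 2164 .nil)) .nil)) .nil)) .nil))))) (.cons 247 (.leaf 249 1962 (.cons 268 (.leaf 245 1954 (.leaf 267 1945 .nil)) .nil)) (.cons 247 (.leaf 249 1962 (.cons 267 (.leaf 268 1945 (.cons 294 (.leaf 223 1781 (.cons 341 (.leaf 317 1966 (.cons 342 (.leaf 365 2158 (.cons 343 (.leaf 344 2537 (.leaf 367 2164 .nil)) .nil)) .nil)) .nil)) .nil)) .nil)) .nil)))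
noncomputable def t64 : T := .cons 342 (.leaf 247 1973 (.cons 366 (.leaf 295 2165 (.cons 365 (.leaf 341 2158 (.leaf 389 2350 .nil)) .nil)) .nil)) (.cons 246 (.cons 221 (.leaf 245 1775 (.cons 222 (.leaf 197 1583 (.cons 198 (.leaf 295 1588 (.cons 247 (.leaf 249 1771 (.leaf 174 1396 .nil)) .nil)) .nil)) .nil)) (.cons 317 (.leaf 341 1966 (.cons 222 (.leaf 293 1774 (.cons 197 (.leaf 221 1583 (.cons 198 (.leaf 173 1391 (.leaf 295 1588 .nil)) .nil)) .nil)) .nil)) (.cons 317 (.leaf 341 1966 (.cons 222 (.leaf 293 1774 (.cons 198 (.leaf 295 1588 (.cons 173 (.leaf 197 1391 (.cons 174 (.leaf 247 1396 (.leaf 149 1199 .nil)) .nil)) .nil)) .nil)) .nil)) (.cons 245 (.leaf 221 1775 (.cons 244 (.leaf 247 1952 (.leaf 243 1944 .nil)) .nil)) .nil)))) (.cons 342 (.cons 366 (.leaf 295 2165 (.cons 365 (.leaf 341 2158 (.leaf 389 2350 .nil)) .nil)) (.cons 366 (.leaf 295 2165 (.cons 367 (.leaf 343 2164 (.leaf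 391 2356 .nil)) .nil)) (.cons 341 (.leaf 365 2158 (.cons 343 (.leaf 344 2537 (.leaf 367 2164 .nil)) .nil)) .nil))) (.cons 342 (.leaf 247 1973 (.cons 366 (.leaf 295 2165 (.cons 367 (.leaf 343 2164 (.leaf 391 2356 .nil)) .nil)) .nil)) (.cons 342 (.leaf 247 1973 (.cons 341 (.leaf 365 2158 (.cons 343 (.leaf 344 2537 (.leaf 367 2164 .nil)) .nil)) .nil)) .nil))))
noncomputable def top0 : T := .cons 249 (.leaf 269 1961 (.cons 250 (.leaf 251 1978 (.leaf 247 1970 .nil)) .nil)) (.cons 294 t0 (.cons 269 (.leaf 249 1961 (.cons 244 (.leaf 245 1955 (.cons 268 (.leaf 243 1947 (.cons 292 (.leaf 293 2146 (.leaf 291 2138 .nil)) .nil)) .nil)) .nil)) .nil))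
noncomputable def top1 : T := .cons 342 (.cons 341 (.leaf 365 2158 (.cons 343 (.leaf 344 2537 (.leaf 367 2164 .nil)) .nil)) (.cons 271 (.leaf 247 1973 (.cons 366 (.leaf 295 2165 (.cons 389 (.leaf 365 2350 (.cons 367 (.leaf 343 2164 (.leaf 391 2356 .nil)) .nil)) .nil)) .nil)) (.cons 271 (.leaf 247 1973 (.cons 366 (.leaf 295 2165 (.cons 391 (.leaf 367 2356 (.cons 390 (.leaf 415 2548 (.cons 317 (.leaf 293 2351 (.cons 341 (.leaf 246 1966 (.leaf 414 2543 .nil)) .nil)) .nil)) .nil)) .nil)) .nil)) (.cons 271 (.leaf 247 1973 (.cons 365 (.leaf 341 2158 (.cons 366 (.leaf 295 2165 (.leaf 389 2350 .nil)) .nil)) .nil)) .nil)))) (.cons 246 (.cons 223 (.leaf 247 1781 (.cons 222 (.leaf 199 1589 (.cons 317 (.leaf 341 1966 (.leaf 293 1774 .nil)) .nil)) .nil)) (.cons 221 (.leaf 245 1775 (.cons 222 (.leaf 197 1583 (.cons 317 (.leaf 341 1966 (.leaf 293 1774 .nil)) .nil)) .nil)) (.cons 245 (.leaf 221 1775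 (.cons 247 (.leaf 223 1781 (.cons 244 (.leaf 271 1952 (.cons 219 (.leaf 220 1755 (.cons 243 (.leaf 218 1747 (.cons 267 (.leaf 266 1938 (.leaf 268 1946 .nil)) .nil)) .nil)) .nil)) .nil)) .nil)) .nil))) (.cons 342 (.cons 341 (.leaf 365 2158 (.cons 343 (.leaf 344 2537 (.leaf 367 2164 .nil)) .nil)) (.cons 271 (.leaf 247 1973 (.cons 366 (.leaf 295 2165 (.cons 389 (.leaf 365 2350 (.cons 367 (.leaf 343 2164 (.leaf 391 2356 .nil)) .nil)) .nil)) .nil)) (.cons 271 (.leaf 247 1973 (.cons 366 (.leaf 295 2165 (.cons 367 (.leaf 343 2164 (.leaf 391 2356 .nil)) .nil)) .nil)) (.cons 271 (.leaf 247 1973 (.cons 365 (.leaf 341 2158 (.cons 366 (.leaf 295 2165 (.leaf 389 2350 .nil)) .nil)) .nil)) .nil)))) (.cons 342 t3 (.cons 247 (.cons 246 (.leaf 223 1781 (.cons 221 (.leaf 245 1775 (.cons 222 (.leaf 249 1771 (.leaf 197 1583 .nil)) .nil)) .nil)) (.cons 271 (.leaf 342 1973 (.cons 249 (.leaf 250 1970 (.cons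 246 (.cons 244 (.leaf 245 1952 (.cons 225 (.leaf 226 1777 (.cons 293 (.cons 292 (.leaf 295 2145 (.leaf 291 2137 .nil)) (.cons 222 (.leaf 221 1771 (.leaf 317 1774 .nil)) .nil)) .nil)) .nil)) (.cons 222 (.leaf 221 1771 (.cons 198 (.leaf 295 1588 (.leaf 174 1396 .nil)) .nil)) (.cons 244 (.leaf 245 1952 (.cons 225 (.leaf 226 1777 (.cons 293 t1 .nil)) .nil)) (.cons 245 (.leaf 244 1952 (.leaf 221 1775 .nil)) .nil)))) .nil)) .nil)) (.cons 271 (.leaf 342 1973 (.cons 223 (.leaf 295 1782 (.leaf 199 1590 .nil)) .nil)) .nil))) (.cons 246 (.cons 221 (.leaf 245 1775 (.cons 222 (.leaf 197 1583 (.cons 223 (.leaf 247 1781 (.leaf 199 1589 .nil)) .nil)) .nil)) (.cons 317 (.leaf 341 1966 (.cons 222 (.leaf 293 1774 (.cons 223 (.leaf 247 1781 (.leaf 199 1589 .nil)) .nil)) .nil)) (.cons 221 (.leaf 245 1775 (.cons 222 (.leaf 197 1583 (.cons 317 (.leaf 341 1966 (.leaf 293 1774 .nil)) .nil)) .nil)) (.cons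 221 (.leaf 245 1775 (.cons 223 (.leaf 247 1781 (.cons 341 (.leaf 317 1966 (.cons 342 (.leaf 365 2158 (.cons 343 (.leaf 344 2537 (.leaf 367 2164 .nil)) .nil)) .nil)) .nil)) .nil)) .nil)))) .nil)))))
noncomputable def top2 : T := .cons 342 (.cons 269 (.leaf 245 1967 (.cons 365 (.leaf 341 2158 (.cons 366 (.leaf 293 2159 (.leaf 389 2350 .nil)) .nil)) .nil)) (.cons 269 (.leaf 245 1967 (.cons 366 (.leaf 293 2159 (.cons 367 (.leaf 343 2164 (.leaf 391 2356 .nil)) .nil)) .nil)) (.cons 341 (.leaf 365 2158 (.cons 343 (.leaf 344 2537 (.leaf 367 2164 .nil)) .nil)) .nil))) (.cons 246 (.cons 221 (.leaf 245 1775 (.cons 247 (.leaf 223 1781 (.cons 222 (.leaf 249 1771 (.leaf 197 1583 .nil)) .nil)) .nil)) (.cons 221 (.leaf 245 1775 (.cons 222 (.leaf 197 1583 (.cons 317 (.leaf 341 1966 (.leaf 293 1774 .nil)) .nil)) .nil)) (.cons 247 (.leaf 223 1781 (.cons 249 (.leaf 269 1962 (.cons 226 (.leaf 225 1777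 (.cons 250 (.leaf 274 1976 (.leaf 227 1785 .nil)) .nil)) .nil)) .nil)) .nil))) (.cons 246 (.cons 245 (.leaf 221 1775 (.cons 269 (.leaf 342 1967 (.cons 247 (.leaf 268 1954 (.leaf 249 1962 .nil)) .nil)) .nil)) (.cons 221 (.leaf 245 1775 (.cons 222 (.leaf 197 1583 (.cons 199 (.leaf 223 1589 (.cons 198 (.leaf 175 1397 (.cons 293 (.leaf 269 1582 (.leaf 317 1774 .nil)) .nil)) .nil)) .nil)) .nil)) (.cons 247 (.leaf 223 1781 (.cons 249 (.leaf 269 1962 (.cons 226 (.leaf 225 1777 (.cons 250 (.leaf 274 1976 (.leaf 227 1785 .nil)) .nil)) .nil)) .nil)) (.cons 221 (.leaf 245 1775 (.cons 222 (.leaf 197 1583 (.cons 223 (.leaf 247 1781 (.leaf 199 1589 .nil)) .nil)) .nil)) .nil)))) (.cons 246 (.cons 247 (.leaf 223 1781 (.cons 249 (.leaf 269 1962 (.cons 226 (.leaf 225 1777 (.cons 250 (.leaf 274 1976 (.leaf 227 1785 .nil)) .nil)) .nil)) .nil)) (.cons 317 (.leaf 341 1966 (.cons 222 (.leaf 293 1774 (.cons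 197 (.leaf 221 1583 (.cons 198 (.leaf 173 1391 (.cons 199 (.leaf 175 1397 (.leaf 223 1589 .nil)) .nil)) .nil)) .nil)) .nil)) (.cons 341 (.leaf 317 1966 (.cons 342 (.leaf 365 2158 (.cons 343 (.leaf 344 2537 (.leaf 367 2164 .nil)) .nil)) .nil)) .nil))) (.cons 246 (.cons 317 (.leaf 341 1966 (.cons 221 (.leaf 245 1775 (.cons 222 (.leaf 197 1583 (.leaf 293 1774 .nil)) .nil)) .nil)) (.cons 221 (.leaf 245 1775 (.cons 222 (.leaf 197 1583 (.cons 223 (.leaf 247 1781 (.leaf 199 1589 .nil)) .nil)) .nil)) (.cons 341 (.leaf 317 1966 (.cons 342 (.leaf 365 2158 (.cons 343 (.leaf 344 2537 (.leaf 367 2164 .nil)) .nil)) .nil)) .nil))) (.cons 246 (.cons 341 (.leaf 317 1966 (.cons 221 (.leaf 245 1775 (.cons 197 (.leaf 222 1583 (.cons 342 (.leaf 365 2158 (.cons 343 (.leaf 344 2537 (.leaf 367 2164 .nil)) .nil)) .nil)) .nil)) .nil)) (.cons 341 (.leaf 317 1966 (.cons 342 (.leaf 365 2158 (.cons 343 (.leaf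 344 2537 (.leaf 367 2164 .nil)) .nil)) .nil)) (.cons 221 (.leaf 245 1775 (.cons 247 (.leaf 223 1781 (.cons 222 (.leaf 249 1771 (.leaf 197 1583 .nil)) .nil)) .nil)) .nil))) .nil)))))
noncomputable def top3 : T := .cons 271 (.leaf 249 1961 (.cons 244 (.leaf 245 1955 (.cons 268 (.leaf 247 1953 (.leaf 243 1947 .nil)) .nil)) .nil)) (.cons 245 t41 (.cons 271 (.cons 244 (.leaf 245 1955 (.cons 268 (.leaf 247 1953 (.leaf 243 1947 .nil)) .nil)) (.cons 245 (.leaf 244 1955 (.cons 293 (.leaf 292 2146 (.cons 317 (.leaf 342 1964 (.cons 246 (.leaf 341 1965 (.leaf 222 1773 .nil)) .nil)) .nil)) .nil)) (.cons 268 (.leaf 247 1953 (.cons 292 (.leaf 293 2146 (.leaf 291 2138 .nil)) .nil)) .nil))) (.cons 271 (.leaf 249 1961 (.cons 245 (.leaf 244 1955 (.cons 293 (.leaf 292 2146 (.cons 317 (.leaf 342 1964 (.cons 246 (.leaf 341 1965 (.leaf 222 1773 .nil)) .nil)) .nil)) .nil)) .nil)) (.cons 271 (.leaf 249 1961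 (.cons 268 (.leaf 247 1953 (.cons 292 (.leaf 293 2146 (.leaf 291 2138 .nil)) .nil)) .nil)) .nil))))
noncomputable def top4 : T := .cons 342 (.cons 341 (.leaf 365 2158 (.cons 343 (.leaf 344 2537 (.leaf 367 2164 .nil)) .nil)) (.cons 245 (.leaf 269 1967 (.cons 246 (.leaf 221 1775 (.cons 247 (.leaf 223 1781 (.leaf 271 1973 .nil)) .nil)) .nil)) .nil)) (.cons 246 (.cons 221 (.leaf 245 1775 (.cons 222 (.leaf 197 1583 (.cons 223 (.leaf 247 1781 (.leaf 199 1589 .nil)) .nil)) .nil)) (.cons 223 (.leaf 247 1781 (.cons 222 (.leaf 199 1589 (.cons 317 (.leaf 341 1966 (.leaf 293 1774 .nil)) .nil)) .nil)) (.cons 221 (.leaf 245 1775 (.cons 222 (.leaf 197 1583 (.cons 317 (.leaf 341 1966 (.leaf 293 1774 .nil)) .nil)) .nil)) (.cons 245 (.leaf 221 1775 (.cons 247 (.leaf 223 1781 (.cons 244 (.leaf 271 1952 (.cons 268 (.leaf 269 1954 (.leaf 267 1946 .nil)) .nil)) .nil)) .nil)) .nil)))) (.cons 342 (.cons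 245 (.leaf 269 1967 (.cons 271 (.leaf 247 1973 (.cons 366 (.leaf 295 2165 (.cons 367 (.leaf 343 2164 (.leaf 391 2356 .nil)) .nil)) .nil)) .nil)) (.cons 341 (.leaf 365 2158 (.cons 343 (.leaf 344 2537 (.leaf 367 2164 .nil)) .nil)) (.cons 245 (.leaf 269 1967 (.cons 271 (.leaf 247 1973 (.cons 341 (.leaf 365 2158 (.cons 366 (.leaf 295 2165 (.cons 391 (.leaf 367 2356 (.cons 390 (.leaf 415 2548 (.cons 317 (.leaf 293 2351 (.leaf 414 2543 .nil)) .nil)) .nil)) .nil)) .nil)) .nil)) .nil)) (.cons 245 (.leaf 269 1967 (.cons 271 (.leaf 247 1973 (.cons 365 (.leaf 341 2158 (.cons 366 (.leaf 295 2165 (.leaf 389 2350 .nil)) .nil)) .nil)) .nil)) .nil)))) (.cons 342 (.cons 271 (.leaf 247 1973 (.cons 366 (.leaf 295 2165 (.cons 365 (.leaf 341 2158 (.leaf 389 2350 .nil)) .nil)) .nil)) (.cons 271 (.leaf 247 1973 (.cons 366 (.leaf 295 2165 (.cons 367 (.leaf 343 2164 (.leaf 391 2356 .nil)) .nil)) .nil)) (.cons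 341 (.leaf 365 2158 (.cons 343 (.leaf 344 2537 (.leaf 367 2164 .nil)) .nil)) .nil))) (.cons 342 (.cons 245 (.leaf 269 1967 (.cons 246 (.leaf 221 1775 (.cons 341 (.leaf 317 1966 (.leaf 365 2158 .nil)) .nil)) .nil)) (.cons 269 (.leaf 245 1967 (.cons 293 (.leaf 366 2159 (.cons 292 (.leaf 271 2146 (.cons 291 (.leaf 290 2129 (.cons 266 (.leaf 267 2131 (.cons 315 (.leaf 314 2322 (.cons 316 (.leaf 295 2330 (.cons 343 (.leaf 367 2164 (.leaf 317 2520 .nil)) .nil)) .nil)) .nil)) .nil)) .nil)) .nil)) .nil)) (.cons 341 (.leaf 365 2158 (.cons 343 (.leaf 344 2537 (.leaf 367 2164 .nil)) .nil)) .nil))) (.cons 342 (.cons 269 (.leaf 245 1967 (.cons 293 (.leaf 366 2159 (.cons 292 (.leaf 271 2146 (.cons 291 (.leaf 290 2129 (.cons 266 (.leaf 267 2131 (.cons 315 (.leaf 314 2322 (.cons 316 (.leaf 295 2330 (.cons 343 (.leaf 367 2164 (.leaf 317 2520 .nil)) .nil)) .nil)) .nil)) .nil)) .nil)) .nil)) .nil))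 (.cons 271 (.leaf 247 1973 (.cons 366 (.leaf 295 2165 (.cons 367 (.leaf 343 2164 (.leaf 391 2356 .nil)) .nil)) .nil)) (.cons 269 (.leaf 245 1967 (.cons 366 (.leaf 293 2159 (.cons 367 (.leaf 343 2164 (.leaf 391 2356 .nil)) .nil)) .nil)) (.cons 245 (.leaf 269 1967 (.cons 246 (.leaf 221 1775 (.cons 247 (.leaf 223 1781 (.leaf 271 1973 .nil)) .nil)) .nil)) .nil)))) (.cons 342 (.cons 245 (.leaf 269 1967 (.cons 246 (.leaf 221 1775 (.cons 341 (.leaf 317 1966 (.leaf 365 2158 .nil)) .nil)) .nil)) (.cons 269 (.leaf 245 1967 (.cons 366 (.leaf 293 2159 (.cons 367 (.leaf 343 2164 (.leaf 391 2356 .nil)) .nil)) .nil)) (.cons 341 (.leaf 365 2158 (.cons 343 (.leaf 344 2537 (.leaf 367 2164 .nil)) .nil)) .nil))) .nil))))))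
noncomputable def top5 : T := .cons 271 (.leaf 249 1961 (.cons 268 (.cons 243 (.leaf 244 1947 (.cons 267 (.leaf 242 1939 (.cons 290 (.leaf 291 2130 (.cons 266 (.leaf 289 2122 (.cons 294 (.leaf 295 2136 (.leaf 293 2128 .nil)) .nil)) .nil)) .nil)) .nil)) (.cons 292 (.leaf 293 2146 (.leaf 291 2138 .nil)) (.cons 243 (.leaf 244 1947 (.cons 267 (.leaf 242 1939 (.cons 291 (.leaf 290 2130 (.leaf 292 2138 .nil)) .nil)) .nil)) (.cons 243 (.leaf 244 1947 (.cons 267 (.leaf 242 1939 (.cons 293 (.leaf 292 2146 (.cons 294 (.leaf 295 2136 (.leaf 266 2128 .nil)) .nil)) .nil)) .nil)) .nil)))) .nil)) (.cons 294 t44 (.cons 271 (.leaf 249 1961 (.cons 245 (.leaf 244 1955 (.cons 294 (.leaf 342 1967 (.cons 221 (.leaf 246 1775 (.leaf 197 1580 .nil)) .nil)) .nil)) .nil)) (.cons 271 (.leaf 249 1961 (.cons 244 (.leaf 245 1955 (.cons 268 (.leaf 243 1947 (.cons 292 (.leaf 293 2146 (.leaf 291 2138 .nil)) .nil))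 .nil)) .nil)) (.cons 271 (.leaf 249 1961 (.cons 293 (.leaf 292 2146 (.cons 245 (.cons 317 (.leaf 342 1964 (.cons 246 (.leaf 341 1965 (.leaf 222 1773 .nil)) .nil)) (.cons 221 (.leaf 294 1772 (.cons 196 (.leaf 220 1575 (.cons 197 (.leaf 172 1383 (.cons 198 (.leaf 174 1389 (.leaf 222 1581 .nil)) .nil)) .nil)) .nil)) (.cons 294 (.leaf 221 1772 (.leaf 342 1967 .nil)) .nil))) .nil)) .nil)) .nil))))
noncomputable def top6 : T := .cons 271 (.leaf 249 1961 (.cons 268 (.leaf 247 1953 (.cons 243 (.leaf 244 1947 (.cons 267 (.leaf 242 1939 (.cons 290 (.leaf 291 2130 (.cons 266 (.leaf 289 2122 (.cons 294 (.leaf 295 2136 (.leaf 293 2128 .nil)) .nil)) .nil)) .nil)) .nil)) .nil)) .nil)) (.cons 246 (.cons 247 (.leaf 249 1962 (.cons 268 (.leaf 245 1954 (.leaf 267 1945 .nil)) .nil)) (.cons 294 t45 (.cons 247 (.leaf 249 1962 (.cons 268 (.leaf 267 1945 (.cons 222 (.cons 198 (.leaf 293 1582 (.cons 173 (.leaf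 197 1391 (.cons 174 (.leaf 149 1199 (.cons 175 (.leaf 199 1397 (.leaf 151 1205 .nil)) .nil)) .nil)) .nil)) (.cons 294 (.leaf 223 1781 (.cons 317 (.leaf 341 1966 (.leaf 293 1774 .nil)) .nil)) (.cons 223 (.leaf 294 1781 (.cons 220 (.leaf 221 1760 (.cons 198 (.cons 173 (.leaf 197 1391 (.cons 174 (.leaf 149 1199 (.leaf 150 1204 .nil)) .nil)) (.cons 199 (.leaf 175 1404 (.cons 197 (.leaf 173 1391 (.cons 196 (.leaf 195 1560 (.leaf 219 1562 .nil)) .nil)) .nil)) (.cons 175 (.leaf 199 1404 (.cons 174 (.leaf 151 1205 (.leaf 150 1204 .nil)) .nil)) .nil))) .nil)) .nil)) .nil))) .nil)) .nil)) (.cons 247 (.leaf 249 1962 (.cons 294 (.leaf 223 1781 (.cons 221 (.leaf 245 1775 (.cons 222 (.leaf 197 1583 (.cons 293 (.leaf 198 1582 (.leaf 317 1774 .nil)) .nil)) .nil)) .nil)) .nil)) .nil)))) (.cons 271 (.cons 268 (.leaf 247 1953 (.cons 243 (.leaf 244 1947 (.cons 267 (.leaf 242 1939 (.cons 290 (.leaf 291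 2130 (.cons 266 (.leaf 289 2122 (.cons 294 (.leaf 295 2136 (.leaf 293 2128 .nil)) .nil)) .nil)) .nil)) .nil)) .nil)) (.cons 245 (.leaf 244 1955 (.cons 293 (.leaf 292 2146 (.cons 221 (.leaf 294 1772 (.cons 196 (.leaf 220 1575 (.cons 197 (.leaf 172 1383 (.cons 198 (.leaf 174 1389 (.leaf 222 1581 .nil)) .nil)) .nil)) .nil)) .nil)) .nil)) (.cons 268 (.leaf 247 1953 (.cons 292 (.leaf 293 2146 (.leaf 291 2138 .nil)) .nil)) (.cons 244 (.leaf 245 1955 (.cons 268 (.leaf 247 1953 (.leaf 243 1947 .nil)) .nil)) .nil)))) (.cons 271 (.leaf 249 1961 (.cons 245 (.leaf 244 1955 (.cons 293 (.leaf 292 2146 (.cons 221 (.leaf 294 1772 (.cons 196 (.leaf 220 1575 (.cons 197 (.leaf 172 1383 (.cons 198 (.leaf 174 1389 (.leaf 222 1581 .nil)) .nil)) .nil)) .nil)) .nil)) .nil)) .nil)) (.cons 271 (.leaf 249 1961 (.cons 244 (.leaf 245 1955 (.cons 268 (.leaf 247 1953 (.leaf 243 1947 .nil)) .nil)) .nil)) (.cons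 271 (.leaf 249 1961 (.cons 268 (.leaf 247 1953 (.cons 292 (.leaf 293 2146 (.leaf 291 2138 .nil)) .nil)) .nil)) .nil)))))
noncomputable def top7 : T := .cons 271 (.leaf 249 1961 (.cons 268 (.leaf 247 1953 (.cons 243 (.leaf 244 1947 (.cons 267 (.leaf 242 1939 (.cons 290 (.leaf 291 2130 (.cons 266 (.leaf 289 2122 (.cons 294 (.leaf 295 2136 (.leaf 293 2128 .nil)) .nil)) .nil)) .nil)) .nil)) .nil)) .nil)) (.cons 293 t54 (.cons 271 (.leaf 249 1961 (.cons 268 (.leaf 247 1953 (.cons 292 (.leaf 293 2146 (.leaf 291 2138 .nil)) .nil)) .nil)) (.cons 271 (.leaf 249 1961 (.cons 245 (.leaf 244 1955 (.cons 293 (.leaf 292 2146 (.cons 221 (.leaf 294 1772 (.cons 196 (.leaf 220 1575 (.cons 197 (.leaf 172 1383 (.cons 198 (.leaf 174 1389 (.leaf 222 1581 .nil)) .nil)) .nil)) .nil)) .nil)) .nil)) .nil)) (.cons 271 (.leaf 249 1961 (.cons 244 (.leaf 245 1955 (.cons 268 (.leaf 247 1953 (.leaf 243 1947 .nil))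 .nil)) .nil)) .nil))))
noncomputable def top8 : T := .cons 294 (.cons 223 (.leaf 246 1781 (.cons 271 (.leaf 295 1782 (.leaf 342 1973 .nil)) .nil)) (.cons 246 (.leaf 223 1781 (.cons 341 (.leaf 317 1966 (.cons 342 (.leaf 365 2158 (.cons 343 (.leaf 344 2537 (.leaf 367 2164 .nil)) .nil)) .nil)) .nil)) (.cons 342 (.leaf 271 1973 (.cons 341 (.leaf 365 2158 (.cons 343 (.leaf 344 2537 (.leaf 367 2164 .nil)) .nil)) .nil)) (.cons 223 (.leaf 246 1781 (.cons 271 (.leaf 295 1782 (.leaf 199 1590 .nil)) .nil)) .nil)))) (.cons 246 (.cons 249 (.leaf 269 1962 (.cons 250 (.leaf 274 1976 (.cons 223 (.leaf 222 1779 (.leaf 294 1781 .nil)) .nil)) .nil)) (.cons 294 (.leaf 223 1781 (.cons 341 (.leaf 317 1966 (.cons 342 (.leaf 365 2158 (.cons 343 (.leaf 344 2537 (.leaf 367 2164 .nil)) .nil)) .nil)) .nil)) (.cons 249 (.leaf 269 1962 (.cons 221 (.leaf 222 1771 (.cons 226 (.leaf 225 1777 (.cons 250 (.leaf 274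 1976 (.leaf 227 1785 .nil)) .nil)) .nil)) .nil)) .nil))) (.cons 249 (.cons 246 (.leaf 269 1962 (.cons 250 (.leaf 274 1976 (.leaf 271 1970 .nil)) .nil)) (.cons 269 (.leaf 271 1961 (.leaf 246 1962 .nil)) (.cons 246 (.leaf 269 1962 (.cons 250 (.leaf 274 1976 (.cons 226 (.leaf 225 1777 (.leaf 227 1785 .nil)) .nil)) .nil)) (.cons 250 (.leaf 274 1976 (.leaf 271 1970 .nil)) .nil)))) (.cons 271 (.cons 249 (.leaf 269 1961 (.leaf 250 1970 .nil)) (.cons 268 (.leaf 269 1953 (.cons 294 (.leaf 342 1973 (.cons 223 (.leaf 295 1782 (.leaf 199 1590 .nil)) .nil)) .nil)) (.cons 249 (.leaf 250 1970 (.cons 294 (.leaf 342 1973 (.cons 223 (.leaf 295 1782 (.leaf 199 1590 .nil)) .nil)) .nil)) .nil))) .nil)))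
noncomputable def top9 : T := .cons 247 (.cons 249 (.leaf 269 1962 (.cons 250 (.leaf 274 1976 (.leaf 271 1970 .nil)) .nil)) (.cons 294 (.leaf 223 1781 (.cons 245 (.leaf 221 1775 (.cons 244 (.leaf 271 1952 (.cons 268 (.leaf 269 1954 (.leaf 267 1946 .nil)) .nil)) .nil)) .nil)) (.cons 294 (.leaf 223 1781 (.cons 221 (.leaf 245 1775 (.cons 222 (.leaf 249 1771 (.leaf 197 1583 .nil)) .nil)) .nil)) .nil))) (.cons 222 t60 (.cons 222 t58 (.cons 269 (.cons 247 (.leaf 249 1962 (.cons 268 (.leaf 245 1954 (.leaf 271 1953 .nil)) .nil)) (.cons 271 (.cons 244 (.leaf 245 1955 (.cons 268 (.leaf 247 1953 (.leaf 243 1947 .nil)) .nil)) (.cons 268 (.leaf 247 1953 (.cons 292 (.leaf 293 2146 (.leaf 291 2138 .nil)) .nil)) (.cons 245 (.leaf 244 1955 (.cons 293 (.leaf 292 2146 (.cons 317 (.leaf 342 1964 (.leaf 222 1773 .nil)) .nil)) .nil)) .nil))) (.cons 271 (.leaf 249 1961 (.cons 245 (.leaf 244 1955 (.cons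 293 (.leaf 292 2146 (.cons 317 (.leaf 342 1964 (.leaf 222 1773 .nil)) .nil)) .nil)) .nil)) (.cons 247 (.leaf 249 1962 (.cons 268 (.leaf 245 1954 (.leaf 267 1945 .nil)) .nil)) (.cons 249 (.leaf 271 1961 (.leaf 247 1962 .nil)) .nil))))) (.cons 247 (.cons 294 (.leaf 223 1781 (.cons 271 (.leaf 342 1973 (.cons 269 (.leaf 249 1961 (.leaf 268 1953 .nil)) .nil)) .nil)) (.cons 294 (.leaf 223 1781 (.cons 271 (.leaf 342 1973 (.cons 269 (.leaf 268 1953 (.cons 293 (.leaf 292 2146 (.cons 222 (.leaf 198 1582 (.leaf 317 1774 .nil)) .nil)) .nil)) .nil)) .nil)) (.cons 294 (.leaf 223 1781 (.cons 271 (.leaf 342 1973 (.cons 249 (.leaf 250 1970 (.cons 222 (.leaf 221 1771 (.cons 198 (.leaf 295 1588 (.leaf 174 1396 .nil)) .nil)) .nil)) .nil)) .nil)) (.cons 249 (.leaf 269 1962 (.cons 250 (.leaf 274 1976 (.leaf 271 1970 .nil)) .nil)) (.cons 223 (.leaf 294 1781 (.cons 175 (.leaf 199 1404 (.cons 249 (.leaf 269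 1962 (.cons 222 (.leaf 221 1771 (.leaf 250 1779 .nil)) .nil)) .nil)) .nil)) .nil))))) (.cons 294 t55 (.cons 247 (.cons 249 (.leaf 269 1962 (.cons 221 (.leaf 222 1771 (.cons 226 (.leaf 225 1777 (.cons 250 (.leaf 274 1976 (.leaf 227 1785 .nil)) .nil)) .nil)) .nil)) (.cons 294 (.leaf 223 1781 (.cons 245 (.leaf 221 1775 (.cons 269 (.leaf 268 1954 (.leaf 342 1967 .nil)) .nil)) .nil)) (.cons 294 (.leaf 223 1781 (.cons 221 (.leaf 245 1775 (.cons 222 (.leaf 249 1771 (.leaf 197 1583 .nil)) .nil)) .nil)) (.cons 223 (.leaf 294 1781 (.cons 175 (.leaf 199 1404 (.cons 249 (.leaf 269 1962 (.cons 250 (.leaf 274 1976 (.leaf 222 1779 .nil)) .nil)) .nil)) .nil)) .nil)))) (.cons 247 (.cons 294 (.leaf 223 1781 (.cons 245 (.leaf 221 1775 (.cons 244 (.leaf 271 1952 (.cons 268 (.leaf 269 1954 (.leaf 267 1946 .nil)) .nil)) .nil)) .nil)) (.cons 294 (.leaf 223 1781 (.cons 245 (.leaf 221 1775 (.cons 271 (.leaf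 244 1952 (.leaf 342 1973 .nil)) .nil)) .nil)) (.cons 249 (.leaf 269 1962 (.cons 250 (.leaf 274 1976 (.leaf 271 1970 .nil)) .nil)) (.cons 249 (.leaf 269 1962 (.cons 223 (.leaf 294 1781 (.cons 175 (.leaf 199 1404 (.cons 226 (.leaf 225 1777 (.cons 250 (.leaf 274 1976 (.leaf 227 1785 .nil)) .nil)) .nil)) .nil)) .nil)) .nil)))) (.cons 294 (.cons 245 (.leaf 221 1775 (.cons 223 (.leaf 247 1781 (.cons 222 (.leaf 199 1589 (.cons 243 (.leaf 244 1753 (.cons 269 (.leaf 342 1967 (.cons 293 (.leaf 198 1582 (.leaf 317 1773 .nil)) .nil)) .nil)) .nil)) .nil)) .nil)) (.cons 245 (.leaf 221 1775 (.cons 269 (.leaf 342 1967 (.cons 271 (.leaf 244 1955 (.leaf 249 1961 .nil)) .nil)) .nil)) (.cons 247 (.leaf 223 1781 (.cons 249 (.leaf 269 1962 (.cons 250 (.leaf 274 1976 (.leaf 271 1970 .nil)) .nil)) .nil)) (.cons 247 (.leaf 223 1781 (.cons 245 (.leaf 221 1775 (.cons 271 (.leaf 244 1952 (.leaf 342 1973 .nil))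 .nil)) .nil)) .nil)))) .nil))))))))
noncomputable def top10 : T := .cons 271 (.leaf 249 1961 (.cons 268 (.leaf 247 1953 (.cons 243 (.leaf 244 1947 (.cons 267 (.leaf 242 1939 (.cons 290 (.leaf 291 2130 (.cons 266 (.leaf 289 2122 (.cons 294 (.leaf 295 2136 (.leaf 293 2128 .nil)) .nil)) .nil)) .nil)) .nil)) .nil)) .nil)) (.cons 294 (.cons 246 (.cons 221 (.leaf 245 1775 (.cons 222 (.leaf 197 1583 (.cons 198 (.leaf 293 1582 (.cons 199 (.leaf 175 1397 (.leaf 223 1589 .nil)) .nil)) .nil)) .nil)) (.cons 247 (.leaf 249 1962 (.leaf 223 1781 .nil)) (.cons 245 (.leaf 221 1775 (.leaf 342 1967 .nil)) .nil))) (.cons 342 (.cons 365 (.leaf 341 2158 (.cons 366 (.leaf 293 2159 (.leaf 389 2350 .nil)) .nil)) (.cons 341 (.leaf 365 2158 (.cons 343 (.leaf 344 2537 (.leaf 367 2164 .nil)) .nil)) (.cons 366 (.leaf 293 2159 (.cons 367 (.leaf 343 2164 (.leaf 391 2356 .nil)) .nil)) .nil))) (.cons 246 (.cons 247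 (.leaf 249 1962 (.leaf 223 1781 .nil)) (.cons 221 (.leaf 245 1775 (.cons 222 (.leaf 197 1583 (.cons 198 (.leaf 293 1582 (.cons 199 (.leaf 175 1397 (.leaf 223 1589 .nil)) .nil)) .nil)) .nil)) (.cons 245 (.leaf 221 1775 (.cons 247 (.leaf 268 1954 (.leaf 249 1962 .nil)) .nil)) .nil))) (.cons 342 (.leaf 245 1967 (.cons 341 (.leaf 365 2158 (.cons 343 (.leaf 344 2537 (.leaf 367 2164 .nil)) .nil)) .nil)) .nil)))) (.cons 271 (.cons 268 (.leaf 247 1953 (.cons 243 (.leaf 244 1947 (.cons 267 (.leaf 242 1939 (.cons 290 (.leaf 291 2130 (.cons 266 (.leaf 289 2122 (.cons 294 (.leaf 295 2136 (.leaf 293 2128 .nil)) .nil)) .nil)) .nil)) .nil)) .nil)) (.cons 245 (.leaf 244 1955 (.cons 294 (.leaf 342 1967 (.cons 221 (.leaf 246 1775 (.leaf 293 1772 .nil)) .nil)) .nil)) (.cons 268 (.leaf 247 1953 (.cons 292 (.leaf 293 2146 (.leaf 291 2138 .nil)) .nil)) (.cons 244 (.leaf 245 1955 (.cons 268 (.leaf 247 1953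 (.leaf 243 1947 .nil)) .nil)) .nil)))) (.cons 271 (.leaf 249 1961 (.cons 245 (.leaf 244 1955 (.cons 294 (.leaf 342 1967 (.cons 221 (.leaf 246 1775 (.leaf 293 1772 .nil)) .nil)) .nil)) .nil)) (.cons 271 (.leaf 249 1961 (.cons 268 (.leaf 247 1953 (.cons 292 (.leaf 293 2146 (.leaf 291 2138 .nil)) .nil)) .nil)) (.cons 271 (.leaf 249 1961 (.cons 244 (.leaf 245 1955 (.cons 268 (.leaf 247 1953 (.leaf 243 1947 .nil)) .nil)) .nil)) .nil)))))
noncomputable def top11 : T := .cons 269 (.leaf 249 1961 (.cons 245 (.leaf 244 1955 (.cons 293 (.leaf 292 2146 (.cons 317 (.leaf 342 1964 (.cons 246 (.leaf 341 1965 (.leaf 222 1773 .nil)) .nil)) .nil)) .nil)) .nil)) (.cons 294 t62 (.cons 294 t61 (.cons 269 (.leaf 249 1961 (.cons 245 (.leaf 244 1955 (.cons 293 (.leaf 292 2146 (.cons 221 (.leaf 294 1772 (.cons 196 (.leaf 220 1575 (.cons 197 (.leaf 172 1383 (.cons 198 (.leaf 174 1389 (.leaf 222 1581 .nil))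 .nil)) .nil)) .nil)) .nil)) .nil)) .nil)) (.cons 249 (.leaf 269 1961 (.cons 250 (.leaf 251 1978 (.leaf 247 1970 .nil)) .nil)) .nil))))
noncomputable def top12 : T := .cons 271 (.leaf 249 1961 (.cons 245 (.leaf 244 1955 (.cons 293 (.leaf 292 2146 (.cons 317 (.leaf 342 1964 (.cons 246 (.leaf 341 1965 (.leaf 222 1773 .nil)) .nil)) .nil)) .nil)) .nil)) (.cons 246 t63 (.cons 271 (.cons 245 (.leaf 244 1955 (.cons 293 (.leaf 292 2146 (.cons 317 (.leaf 342 1964 (.cons 246 (.leaf 341 1965 (.leaf 222 1773 .nil)) .nil)) .nil)) .nil)) (.cons 247 (.leaf 268 1953 (.cons 292 (.leaf 293 2146 (.cons 294 (.leaf 342 1973 (.cons 223 (.leaf 246 1781 (.leaf 295 1782 .nil)) .nil)) .nil)) .nil)) (.cons 244 (.leaf 245 1955 (.cons 268 (.leaf 247 1953 (.leaf 243 1947 .nil)) .nil)) .nil))) (.cons 271 (.leaf 249 1961 (.cons 244 (.leaf 245 1955 (.cons 268 (.leaf 247 1953 (.leaf 243 1947 .nil)) .nil)) .nil)) (.cons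 271 (.leaf 249 1961 (.cons 247 (.leaf 268 1953 (.cons 292 (.leaf 293 2146 (.cons 294 (.leaf 342 1973 (.cons 223 (.leaf 246 1781 (.leaf 295 1782 .nil)) .nil)) .nil)) .nil)) .nil)) .nil))))
noncomputable def top13 : T := .cons 269 (.leaf 249 1961 (.cons 268 (.leaf 247 1953 (.cons 243 (.leaf 244 1947 (.cons 267 (.leaf 242 1939 (.cons 290 (.leaf 291 2130 (.cons 266 (.leaf 289 2122 (.cons 294 (.leaf 295 2136 (.leaf 293 2128 .nil)) .nil)) .nil)) .nil)) .nil)) .nil)) .nil)) (.cons 294 t64 (.cons 269 (.cons 268 (.leaf 247 1953 (.cons 243 (.leaf 244 1947 (.cons 267 (.leaf 242 1939 (.cons 290 (.leaf 291 2130 (.cons 266 (.leaf 289 2122 (.cons 294 (.leaf 295 2136 (.leaf 293 2128 .nil)) .nil)) .nil)) .nil)) .nil)) .nil)) (.cons 245 (.leaf 244 1955 (.cons 293 (.leaf 292 2146 (.cons 317 (.leaf 342 1964 (.cons 246 (.leaf 341 1965 (.leaf 222 1773 .nil)) .nil)) .nil)) .nil)) (.cons 268 (.leaf 247 1953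 (.cons 243 (.leaf 244 1947 (.cons 267 (.leaf 242 1939 (.cons 291 (.leaf 290 2130 (.leaf 292 2138 .nil)) .nil)) .nil)) .nil)) (.cons 247 (.leaf 268 1953 (.cons 293 (.leaf 292 2146 (.cons 342 (.leaf 294 1973 (.cons 317 (.leaf 245 1964 (.cons 366 (.leaf 390 2351 (.leaf 341 2156 .nil)) .nil)) .nil)) .nil)) .nil)) .nil)))) (.cons 269 (.leaf 249 1961 (.cons 245 (.leaf 244 1955 (.cons 293 (.leaf 292 2146 (.cons 317 (.leaf 342 1964 (.cons 246 (.leaf 341 1965 (.leaf 222 1773 .nil)) .nil)) .nil)) .nil)) .nil)) (.cons 269 (.leaf 249 1961 (.cons 268 (.leaf 247 1953 (.cons 243 (.leaf 244 1947 (.cons 267 (.leaf 242 1939 (.cons 291 (.leaf 290 2130 (.leaf 292 2138 .nil)) .nil)) .nil)) .nil)) .nil)) (.cons 269 (.leaf 249 1961 (.cons 247 (.leaf 268 1953 (.cons 293 (.leaf 292 2146 (.cons 342 (.leaf 294 1973 (.cons 317 (.leaf 245 1964 (.cons 366 (.leaf 390 2351 (.leaf 341 2156 .nil)) .nil)) .nil)) .nil))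 .nil)) .nil)) .nil)))))
noncomputable def top14 : T := .cons 342 (.cons 245 (.leaf 269 1967 (.cons 246 (.leaf 221 1775 (.cons 341 (.leaf 317 1966 (.leaf 365 2158 .nil)) .nil)) .nil)) (.cons 247 (.leaf 271 1973 (.cons 246 (.leaf 223 1781 (.cons 341 (.leaf 317 1966 (.leaf 365 2158 .nil)) .nil)) .nil)) (.cons 269 (.leaf 245 1967 (.cons 366 (.leaf 293 2159 (.cons 367 (.leaf 343 2164 (.leaf 391 2356 .nil)) .nil)) .nil)) .nil))) (.cons 247 (.cons 246 (.leaf 223 1781 (.cons 249 (.leaf 269 1962 (.cons 250 (.leaf 274 1976 (.leaf 271 1970 .nil)) .nil)) .nil)) (.cons 271 (.cons 249 (.leaf 269 1961 (.leaf 250 1970 .nil)) (.cons 223 (.leaf 295 1782 (.leaf 199 1590 .nil)) .nil)) (.cons 249 (.cons 250 (.leaf 274 1976 (.leaf 271 1970 .nil)) (.cons 246 (.leaf 269 1962 (.cons 221 (.leaf 245 1775 (.cons 226 (.leaf 225 1777 (.cons 250 (.leaf 274 1976 (.leaf 227 1785 .nil)) .nil)) .nil)) .nil)) (.cons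 269 (.leaf 271 1961 (.leaf 246 1962 .nil)) .nil))) (.cons 246 (.leaf 223 1781 (.cons 221 (.leaf 245 1775 (.cons 249 (.leaf 269 1962 (.cons 226 (.leaf 225 1777 (.cons 250 (.leaf 274 1976 (.leaf 227 1785 .nil)) .nil)) .nil)) .nil)) .nil)) (.cons 223 (.leaf 246 1781 (.cons 271 (.leaf 295 1782 (.leaf 199 1590 .nil)) .nil)) .nil))))) (.cons 342 (.cons 247 (.leaf 271 1973 (.cons 246 (.leaf 223 1781 (.cons 341 (.leaf 317 1966 (.leaf 365 2158 .nil)) .nil)) .nil)) (.cons 271 (.leaf 247 1973 (.cons 366 (.leaf 295 2165 (.cons 367 (.leaf 343 2164 (.leaf 391 2356 .nil)) .nil)) .nil)) (.cons 341 (.leaf 365 2158 (.cons 343 (.leaf 344 2537 (.leaf 367 2164 .nil)) .nil)) .nil))) (.cons 342 (.cons 245 (.leaf 269 1967 (.cons 246 (.leaf 221 1775 (.cons 341 (.leaf 317 1966 (.leaf 365 2158 .nil)) .nil)) .nil)) (.cons 269 (.leaf 245 1967 (.cons 366 (.leaf 293 2159 (.cons 367 (.leaf 343 2164 (.leaf 391 2356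 .nil)) .nil)) .nil)) (.cons 341 (.leaf 365 2158 (.cons 343 (.leaf 344 2537 (.leaf 367 2164 .nil)) .nil)) .nil))) (.cons 342 (.cons 269 (.leaf 245 1967 (.cons 341 (.leaf 365 2158 (.cons 343 (.leaf 344 2537 (.leaf 367 2164 .nil)) .nil)) .nil)) (.cons 341 (.leaf 365 2158 (.cons 343 (.leaf 344 2537 (.leaf 367 2164 .nil)) .nil)) (.cons 269 (.leaf 245 1967 (.cons 366 (.leaf 293 2159 (.cons 367 (.leaf 343 2164 (.leaf 391 2356 .nil)) .nil)) .nil)) (.cons 245 (.leaf 269 1967 (.cons 271 (.leaf 247 1973 (.cons 341 (.leaf 365 2158 (.cons 366 (.leaf 295 2165 (.cons 391 (.leaf 367 2356 (.cons 390 (.leaf 415 2548 (.cons 317 (.leaf 293 2351 (.leaf 414 2543 .nil)) .nil)) .nil)) .nil)) .nil)) .nil)) .nil)) (.cons 245 (.leaf 269 1967 (.cons 271 (.leaf 247 1973 (.cons 365 (.leaf 341 2158 (.cons 366 (.leaf 295 2165 (.leaf 389 2350 .nil)) .nil)) .nil)) .nil)) .nil))))) .nil))))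

end Vale.Agent.P062.PB.N0D0
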