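import Vale.Agent.P062.Checker

namespace Vale.Agent.P062.PB.N1D0

open Vale.Agent.P062

noncomputable def t0 : T := .cons 293 (.leaf 294 2347 (.cons 317 (.leaf 292 2339 (.cons 340 (.leaf 341 2530 (.cons 316 (.leaf 339 2522 (.cons 414 (.leaf 415 3122 (.cons 245 (.leaf 269 1958 (.cons 366 (.leaf 367 2931 (.cons 390 (.leaf 365 2923 (.leaf 413 3114 .nil)) .nil)) .nil)) .nil)) .nil)) .nil)) .nil)) .nil)) (.cons 414 (.leaf 415 3122 (.cons 366 (.leaf 367 2931 (.cons 390 (.leaf 365 2923 (.leaf 413 3114 .nil)) .nil)) .nil)) (.cons 294 (.leaf 293 2347 (.cons 367 (.leaf 343 2359 (.leaf 366 2931 .nil)) .nil)) (.cons 293 (.leaf 294 2347 (.cons 317 (.leaf 292 2339 (.cons 340 (.leaf 341 2530 (.cons 316 (.leaf 339 2522 (.cons 414 (.leaf 415 3122 (.cons 364 (.leaf 388 2341 (.cons 390 (.leaf 413 3114 (.cons 365 (.leaf 389 2915 (.leaf 366 2923 .nil)) .nil)) .nil)) .nil)) .nil)) .nil)) .nil)) .nil)) (.cons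 294 (.leaf 293 2347 (.cons 343 (.leaf 367 2359 (.cons 414 (.leaf 415 3122 (.cons 270 (.leaf 246 1972 (.cons 271 (.leaf 295 1981 (.cons 249 (.leaf 269 1961 (.cons 250 (.leaf 251 1978 (.leaf 247 1970 .nil)) .nil)) .nil)) .nil)) .nil)) .nil)) .nil)) .nil))))
noncomputable def t1 : T := .cons 369 (.leaf 416 2566 (.cons 394 (.leaf 370 2380 (.leaf 418 2572 .nil)) .nil)) (.cons 390 (.cons 413 (.leaf 414 3114 (.cons 389 (.leaf 412 3106 (.cons 417 (.leaf 416 3112 (.leaf 418 3120 .nil)) .nil)) .nil)) (.cons 417 (.leaf 418 3120 (.cons 365 (.leaf 366 2923 (.cons 389 (.leaf 364 2915 (.leaf 416 3112 .nil)) .nil)) .nil)) (.cons 414 (.leaf 413 3114 (.cons 365 (.leaf 366 2923 (.cons 389 (.leaf 364 2915 (.cons 317 (.leaf 341 2540 (.cons 415 (.leaf 394 3122 (.cons 388 (.leaf 416 3104 (.leaf 387 3096 .nil)) .nil)) .nil)) .nil)) .nil)) .nil)) (.cons 365 (.leaf 366 2923 (.cons 414 (.leaf 413 3114 (.cons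 394 (.leaf 415 3122 (.cons 418 (.leaf 417 3120 (.leaf 419 3128 .nil)) .nil)) .nil)) .nil)) .nil)))) (.cons 369 (.leaf 416 2566 (.cons 390 (.leaf 370 2929 (.cons 417 (.leaf 418 3120 (.cons 365 (.leaf 366 2923 (.cons 389 (.leaf 364 2915 (.cons 413 (.leaf 412 3106 (.leaf 414 3114 .nil)) .nil)) .nil)) .nil)) .nil)) .nil)) (.cons 394 (.cons 370 (.leaf 369 2380 (.leaf 371 2937 .nil)) (.cons 418 (.leaf 369 2572 (.leaf 419 3128 .nil)) (.cons 370 (.leaf 371 2937 (.cons 414 (.leaf 415 3122 (.cons 390 (.leaf 413 3114 (.cons 418 (.leaf 417 3120 (.leaf 419 3128 .nil)) .nil)) .nil)) .nil)) .nil))) (.cons 369 (.leaf 416 2566 (.cons 390 (.leaf 370 2929 (.cons 365 (.leaf 366 2923 (.cons 389 (.leaf 364 2915 (.cons 413 (.leaf 412 3106 (.leaf 414 3114 .nil)) .nil)) .nil)) .nil)) .nil)) .nil))))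
noncomputable def t2 : T := .cons 369 (.leaf 416 2566 (.cons 370 (.leaf 394 2380 (.leaf 390 2929 .nil)) .nil)) (.cons 390 (.cons 413 (.leaf 414 3114 (.cons 389 (.leaf 412 3106 (.cons 417 (.leaf 416 3112 (.leaf 418 3120 .nil)) .nil)) .nil)) (.cons 365 (.leaf 366 2923 (.cons 389 (.leaf 364 2915 (.cons 417 (.leaf 416 3112 (.leaf 418 3120 .nil)) .nil)) .nil)) (.cons 365 (.leaf 366 2923 (.cons 389 (.leaf 364 2915 (.cons 413 (.leaf 412 3106 (.leaf 414 3114 .nil)) .nil)) .nil)) (.cons 414 (.leaf 413 3114 (.cons 365 (.leaf 366 2923 (.cons 394 (.leaf 415 3122 (.cons 418 (.leaf 417 3120 (.leaf 419 3128 .nil)) .nil)) .nil)) .nil)) .nil)))) (.cons 369 (.leaf 416 2566 (.cons 390 (.leaf 370 2929 (.cons 365 (.leaf 366 2923 (.cons 389 (.leaf 364 2915 (.cons 413 (.leaf 412 3106 (.leaf 414 3114 .nil)) .nil)) .nil)) .nil)) .nil)) (.cons 394 (.cons 370 (.leaf 369 2380 (.leaf 371 2937 .nil)) (.cons 418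 (.leaf 369 2572 (.leaf 419 3128 .nil)) (.cons 370 (.leaf 371 2937 (.cons 414 (.leaf 415 3122 (.cons 390 (.leaf 413 3114 (.cons 418 (.leaf 417 3120 (.leaf 419 3128 .nil)) .nil)) .nil)) .nil)) .nil))) (.cons 369 (.leaf 416 2566 (.cons 394 (.leaf 370 2380 (.leaf 418 2572 .nil)) .nil)) .nil))))
noncomputable def t3 : T := .cons 369 (.leaf 368 2374 (.cons 293 (.leaf 294 2347 (.cons 292 (.leaf 317 2339 (.cons 393 (.leaf 416 2566 (.cons 394 (.leaf 370 2380 (.leaf 418 2572 .nil)) .nil)) .nil)) .nil)) .nil)) (.cons 317 (.cons 292 (.leaf 293 2339 (.cons 316 (.leaf 291 2331 (.cons 340 (.leaf 341 2530 (.leaf 339 2522 .nil)) .nil)) .nil)) (.cons 340 (.leaf 341 2530 (.cons 316 (.leaf 339 2522 (.cons 291 (.leaf 292 2331 (.cons 315 (.leaf 290 2323 (.cons 243 (.leaf 267 1948 (.cons 295 (.leaf 294 2329 (.cons 343 (.leaf 271 1981 (.cons 367 (.leaf 368 2364 (.cons 391 (.leaf 416 2556 (.cons 390 (.leaf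 366 2358 (.leaf 414 2550 .nil)) .nil)) .nil)) .nil)) .nil)) .nil)) .nil)) .nil)) .nil)) .nil)) (.cons 340 (.leaf 341 2530 (.cons 294 (.leaf 293 2347 (.cons 316 (.leaf 339 2522 (.cons 295 (.leaf 315 2329 (.cons 271 (.leaf 343 1981 (.cons 247 (.leaf 223 1782 (.cons 246 (.leaf 222 1783 (.cons 245 (.leaf 244 1952 (.cons 221 (.leaf 220 1763 (.leaf 270 1775 .nil)) .nil)) .nil)) .nil)) .nil)) .nil)) .nil)) .nil)) .nil)) (.cons 293 (.leaf 292 2339 (.leaf 294 2347 .nil)) .nil)))) (.cons 369 (.leaf 368 2374 (.cons 393 (.leaf 416 2566 (.cons 394 (.leaf 370 2380 (.leaf 418 2572 .nil)) .nil)) .nil)) (.cons 294 (.leaf 293 2347 (.cons 343 (.cons 367 (.leaf 391 2359 (.cons 295 (.leaf 271 1981 (.leaf 270 2167 .nil)) .nil)) (.cons 391 (.leaf 367 2359 (.cons 271 (.leaf 295 1981 (.cons 393 t2 .nil)) .nil)) (.cons 270 (.leaf 246 1972 (.cons 271 (.leaf 295 1981 (.cons 249 (.leaf 269 1961 (.cons 250 (.leaf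 251 1978 (.leaf 247 1970 .nil)) .nil)) .nil)) .nil)) (.cons 391 (.leaf 367 2359 (.cons 270 (.leaf 246 1972 (.cons 393 t1 .nil)) .nil)) .nil)))) .nil)) (.cons 369 (.leaf 368 2374 (.cons 394 (.leaf 370 2380 (.cons 393 (.leaf 418 2572 (.cons 391 t0 .nil)) .nil)) .nil)) .nil))))
noncomputable def t4 : T := .leaf 394 2380 (.cons 343 (.cons 246 (.leaf 270 1972 (.cons 271 (.leaf 295 1981 (.cons 367 (.leaf 391 2359 (.cons 371 (.leaf 344 2747 (.cons 348 (.leaf 347 2753 (.cons 372 (.leaf 349 2761 (.cons 396 (.leaf 395 2944 (.leaf 397 2952 .nil)) .nil)) .nil)) .nil)) .nil)) .nil)) .nil)) (.cons 367 (.leaf 391 2359 (.cons 270 (.leaf 246 1972 (.leaf 295 2167 .nil)) .nil)) (.cons 371 (.leaf 344 2747 (.cons 246 (.leaf 270 1972 (.cons 271 (.leaf 295 1981 (.cons 348 (.leaf 347 2753 (.cons 372 (.leaf 349 2761 (.cons 396 (.leaf 395 2944 (.leaf 397 2952 .nil)) .nil)) .nil)) .nil)) .nil)) .nil)) (.cons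 371 (.leaf 344 2747 (.cons 246 (.leaf 270 1972 (.cons 348 (.leaf 347 2753 (.cons 367 (.leaf 391 2359 (.cons 372 (.leaf 349 2761 (.cons 396 (.leaf 395 2944 (.leaf 397 2952 .nil)) .nil)) .nil)) .nil)) .nil)) .nil)) (.cons 371 (.leaf 344 2747 (.cons 271 (.leaf 295 1981 (.cons 348 (.leaf 347 2753 (.cons 367 (.leaf 391 2359 (.cons 372 (.leaf 349 2761 (.cons 396 (.leaf 395 2944 (.leaf 397 2952 .nil)) .nil)) .nil)) .nil)) .nil)) .nil)) .nil))))) .nil)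
noncomputable def t5 : T := .cons 392 (.leaf 368 2374 (.cons 393 (.leaf 416 2566 (.cons 417 (.leaf 344 2567 (.cons 418 (.leaf 394 2572 (.leaf 442 2764 .nil)) .nil)) .nil)) .nil)) (.cons 393 (.cons 394 (.leaf 370 2380 (.leaf 418 2572 .nil)) (.cons 417 (.leaf 344 2567 (.cons 440 (.leaf 416 2758 (.cons 441 (.leaf 464 2950 (.cons 442 (.leaf 418 2764 (.leaf 466 2956 .nil)) .nil)) .nil)) .nil)) (.cons 344 (.leaf 417 2567 (.cons 370 (.leaf 394 2380 (.cons 371 (.leaf 372 2755 (.cons 343 (.leaf 368 2747 (.cons 270 (.leaf 246 1972 (.cons 295 (.leaf 271 1981 (.leaf 367 2167 .nil)) .nil)) .nil)) .nil)) .nil)) .nil)) .nil))) (.cons 394 (.leaf 370 2380 (.cons 393 (.leaf 418 2572 (.cons 416 (.leaf 392 2566 (.cons 417 (.leaf 344 2567 (.leaf 440 2758 .nil)) .nil)) .nil)) .nil)) (.cons 392 (.leaf 368 2374 (.cons 393 (.leaf 416 2566 (.cons 417 (.leaf 344 2567 (.cons 418 (.leaf 442 2764 (.cons 391 (.leaf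 390 3120 (.cons 343 (.leaf 367 2359 (.cons 270 (.leaf 246 1972 (.cons 271 (.leaf 295 1981 (.cons 269 (.leaf 249 1961 (.cons 244 (.leaf 245 1955 (.cons 268 (.leaf 247 1953 (.leaf 243 1947 .nil)) .nil)) .nil)) .nil)) .nil)) .nil)) .nil)) .nil)) .nil)) .nil)) .nil)) (.cons 368 (.leaf 392 2374 (.cons 370 t4 .nil)) (.cons 392 (.leaf 368 2374 (.cons 370 (.leaf 394 2380 (.cons 393 (.leaf 416 2566 (.cons 391 (.leaf 390 2929 (.cons 343 (.leaf 367 2359 (.cons 270 (.leaf 246 1972 (.cons 271 (.leaf 295 1981 (.cons 249 (.leaf 269 1961 (.cons 250 (.leaf 251 1978 (.leaf 247 1970 .nil)) .nil)) .nil)) .nil)) .nil)) .nil)) .nil)) .nil)) .nil)) .nil)))))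
noncomputable def t6 : T := .cons 270 (.leaf 246 1972 (.cons 390 (.cons 365 (.leaf 366 2923 (.cons 414 (.leaf 413 3114 (.cons 394 (.leaf 415 3122 (.cons 418 (.leaf 369 2572 (.leaf 417 3120 .nil)) .nil)) .nil)) .nil)) (.cons 365 (.leaf 366 2923 (.cons 414 (.leaf 413 3114 (.cons 394 (.leaf 415 3122 (.cons 418 (.leaf 417 3120 (.leaf 419 3128 .nil)) .nil)) .nil)) .nil)) (.cons 365 (.leaf 366 2923 (.cons 389 (.leaf 364 2915 (.cons 413 (.leaf 412 3106 (.leaf 414 3114 .nil)) .nil)) .nil)) (.cons 365 (.leaf 366 2923 (.cons 389 (.leaf 364 2915 (.cons 417 (.leaf 416 3112 (.leaf 418 3120 .nil)) .nil)) .nil)) (.cons 369 (.leaf 416 2566 (.leaf 370 2929 .nil)) .nil))))) .nil)) (.cons 270 (.leaf 246 1972 (.cons 390 (.cons 365 (.leaf 366 2923 (.cons 414 (.leaf 413 3114 (.cons 394 (.leaf 415 3122 (.cons 418 (.leaf 417 3120 (.leaf 419 3128 .nil)) .nil)) .nil)) .nil)) (.cons 365 (.leaf 366 2923 (.cons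 389 (.leaf 364 2915 (.cons 417 (.leaf 416 3112 (.leaf 418 3120 .nil)) .nil)) .nil)) (.cons 365 (.leaf 366 2923 (.cons 389 (.leaf 364 2915 (.cons 413 (.leaf 412 3106 (.leaf 414 3114 .nil)) .nil)) .nil)) (.cons 414 (.leaf 413 3114 (.cons 394 (.leaf 415 3122 (.cons 418 (.leaf 417 3120 (.leaf 419 3128 .nil)) .nil)) .nil)) .nil)))) .nil)) (.cons 369 (.leaf 416 2566 (.cons 390 (.leaf 370 2929 (.cons 365 (.leaf 366 2923 (.cons 389 (.leaf 364 2915 (.cons 413 (.leaf 412 3106 (.leaf 414 3114 .nil)) .nil)) .nil)) .nil)) .nil)) (.cons 270 (.leaf 246 1972 (.cons 394 (.cons 370 (.leaf 369 2380 (.leaf 371 2937 .nil)) (.cons 418 (.leaf 369 2572 (.leaf 419 3128 .nil)) (.cons 370 (.leaf 371 2937 (.cons 414 (.leaf 415 3122 (.cons 390 (.leaf 413 3114 (.cons 418 (.leaf 417 3120 (.leaf 419 3128 .nil)) .nil)) .nil)) .nil)) .nil))) .nil)) (.cons 369 (.leaf 416 2566 (.cons 394 (.leaf 370 2380 (.leaf 418 2572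 .nil)) .nil)) .nil))))
noncomputable def t7 : T := .cons 391 (.leaf 367 2359 (.cons 393 (.cons 369 (.leaf 368 2374 (.leaf 416 2566 .nil)) (.cons 270 (.leaf 246 1972 (.cons 390 (.cons 413 (.leaf 414 3114 (.cons 389 (.leaf 412 3106 (.cons 417 (.leaf 416 3112 (.leaf 418 3120 .nil)) .nil)) .nil)) (.cons 365 (.leaf 366 2923 (.cons 389 (.leaf 364 2915 (.cons 413 (.leaf 412 3106 (.leaf 414 3114 .nil)) .nil)) .nil)) (.cons 365 (.leaf 366 2923 (.cons 389 (.leaf 364 2915 (.cons 417 (.leaf 416 3112 (.leaf 418 3120 .nil)) .nil)) .nil)) (.cons 365 (.leaf 366 2923 (.cons 414 (.leaf 413 3114 (.cons 394 (.leaf 415 3122 (.cons 418 (.leaf 417 3120 (.leaf 419 3128 .nil)) .nil)) .nil)) .nil)) .nil)))) .nil)) (.cons 369 (.leaf 368 2374 (.cons 390 (.leaf 370 2929 (.cons 365 (.leaf 366 2923 (.cons 418 (.leaf 394 2572 (.leaf 417 3120 .nil)) .nil)) .nil)) .nil)) .nil))) .nil)) (.cons 369 (.leaf 368 2374 (.cons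 393 (.leaf 416 2566 (.cons 394 (.leaf 370 2380 (.leaf 418 2572 .nil)) .nil)) .nil)) (.cons 391 (.leaf 367 2359 (.cons 393 t6 .nil)) (.cons 367 (.leaf 391 2359 (.leaf 270 2167 .nil)) .nil)))
noncomputable def t8 : T := .cons 271 (.leaf 295 1981 (.cons 391 (.leaf 367 2359 (.cons 370 (.leaf 394 2380 (.cons 392 (.leaf 368 2374 (.cons 393 (.leaf 416 2566 (.leaf 390 2929 .nil)) .nil)) .nil)) .nil)) .nil)) (.cons 394 (.leaf 370 2380 (.cons 295 (.leaf 271 1981 (.cons 367 (.leaf 391 2359 (.cons 366 (.leaf 390 2358 (.cons 393 (.leaf 418 2572 (.leaf 368 2928 .nil)) .nil)) .nil)) .nil)) .nil)) (.cons 392 (.leaf 368 2374 (.cons 271 (.leaf 295 1981 (.cons 393 (.leaf 416 2566 (.cons 394 (.leaf 370 2380 (.leaf 418 2572 .nil)) .nil)) .nil)) .nil)) (.cons 392 (.leaf 368 2374 (.cons 367 (.leaf 391 2359 (.cons 393 (.leaf 416 2566 (.cons 394 (.leaf 370 2380 (.leaf 418 2572 .nil)) .nil)) .nil)) .nil)) (.cons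 392 (.leaf 368 2374 (.cons 271 (.leaf 295 1981 (.cons 391 (.leaf 367 2359 (.cons 393 (.leaf 416 2566 (.cons 390 (.leaf 370 2929 (.cons 365 (.leaf 366 2923 (.cons 389 (.leaf 364 2915 (.cons 413 (.leaf 412 3106 (.leaf 414 3114 .nil)) .nil)) .nil)) .nil)) .nil)) .nil)) .nil)) .nil)) (.cons 394 (.leaf 370 2380 (.cons 391 (.leaf 367 2359 (.cons 393 (.leaf 418 2572 (.cons 392 (.leaf 416 2566 (.cons 414 (.leaf 415 3122 (.cons 390 (.leaf 413 3114 (.cons 366 (.leaf 342 2549 (.leaf 365 2923 .nil)) .nil)) .nil)) .nil)) .nil)) .nil)) .nil)) (.cons 392 (.leaf 368 2374 (.cons 271 (.leaf 295 1981 (.cons 391 (.leaf 367 2359 (.cons 393 (.leaf 416 2566 (.cons 418 (.leaf 394 2572 (.cons 417 (.leaf 442 2764 (.leaf 390 3120 .nil)) .nil)) .nil)) .nil)) .nil)) .nil)) (.cons 295 (.leaf 271 1981 (.cons 367 (.leaf 391 2359 (.cons 368 (.leaf 392 2364 (.cons 370 (.leaf 394 2380 (.leaf 342 2739 .nil)) .nil)) .nil))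 .nil)) .nil)))))))
noncomputable def t9 : T := .cons 369 (.leaf 416 2566 (.cons 390 (.leaf 370 2929 (.cons 365 (.leaf 366 2923 (.cons 418 (.leaf 394 2572 (.leaf 417 3120 .nil)) .nil)) .nil)) .nil)) (.cons 390 (.cons 413 (.leaf 414 3114 (.cons 389 (.leaf 412 3106 (.cons 366 (.leaf 342 2357 (.leaf 365 2923 .nil)) .nil)) .nil)) (.cons 413 (.leaf 414 3114 (.cons 389 (.leaf 412 3106 (.cons 417 (.leaf 416 3112 (.leaf 418 3120 .nil)) .nil)) .nil)) (.cons 366 (.leaf 342 2357 (.leaf 365 2923 .nil)) .nil))) (.cons 369 (.leaf 416 2566 (.cons 394 (.leaf 370 2380 (.leaf 418 2572 .nil)) .nil)) (.cons 390 (.cons 369 (.leaf 370 2929 (.cons 365 (.leaf 366 2923 (.cons 418 (.leaf 394 2572 (.leaf 417 3120 .nil)) .nil)) .nil)) (.cons 369 (.leaf 370 2929 (.cons 417 (.leaf 344 2567 (.leaf 418 3120 .nil)) .nil)) (.cons 365 (.leaf 366 2923 (.cons 414 (.leaf 413 3114 (.cons 394 (.leaf 415 3122 (.cons 418 (.leaf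 417 3120 (.leaf 419 3128 .nil)) .nil)) .nil)) .nil)) (.cons 366 (.leaf 342 2357 (.leaf 365 2923 .nil)) .nil)))) (.cons 369 (.leaf 416 2566 (.cons 390 (.leaf 370 2929 (.cons 365 (.leaf 366 2923 (.cons 389 (.leaf 364 2915 (.cons 413 (.leaf 412 3106 (.leaf 414 3114 .nil)) .nil)) .nil)) .nil)) .nil)) .nil))))
noncomputable def t10 : T := .leaf 298 2353 (.cons 343 (.cons 316 (.leaf 344 2528 (.cons 315 (.leaf 342 2520 (.cons 339 (.leaf 338 2514 (.leaf 340 2522 .nil)) .nil)) .nil)) (.cons 271 (.leaf 295 1981 (.cons 249 (.cons 250 (.leaf 251 1978 (.cons 247 (.leaf 274 1976 (.leaf 270 1970 .nil)) .nil)) (.cons 269 (.leaf 270 1961 (.cons 245 (.leaf 342 1964 (.cons 220 (.leaf 244 1767 (.cons 221 (.leaf 196 1575 (.cons 222 (.leaf 198 1581 (.leaf 246 1773 .nil)) .nil)) .nil)) .nil)) .nil)) (.cons 250 (.leaf 251 1978 (.cons 247 (.leaf 274 1976 (.cons 222 (.leaf 223 1779 (.cons 226 (.leaf 227 1785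 (.cons 246 (.leaf 221 1771 (.leaf 225 1777 .nil)) .nil)) .nil)) .nil)) .nil)) .nil))) .nil)) (.cons 316 (.leaf 344 2528 (.cons 271 (.leaf 295 1981 (.cons 340 (.leaf 339 2522 (.cons 269 (.leaf 245 1958 (.cons 249 (.leaf 270 1961 (.cons 250 (.leaf 251 1978 (.cons 247 (.leaf 274 1976 (.cons 226 (.leaf 227 1785 (.cons 222 (.leaf 223 1779 (.cons 246 (.leaf 221 1771 (.leaf 225 1777 .nil)) .nil)) .nil)) .nil)) .nil)) .nil)) .nil)) .nil)) .nil)) .nil)) .nil))) .nil)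
noncomputable def t11 : T := .cons 295 (.leaf 271 1981 (.cons 367 (.leaf 391 2359 (.leaf 270 2167 .nil)) .nil)) (.cons 369 (.cons 271 (.leaf 295 1981 (.cons 391 (.leaf 367 2359 (.cons 370 (.leaf 394 2380 (.cons 392 (.leaf 368 2374 (.cons 393 (.leaf 416 2566 (.leaf 390 2929 .nil)) .nil)) .nil)) .nil)) .nil)) (.cons 344 (.leaf 317 2536 (.cons 370 (.leaf 394 2380 (.leaf 342 2736 .nil)) .nil)) (.cons 271 (.leaf 295 1981 (.cons 391 (.leaf 367 2359 (.cons 392 (.leaf 368 2374 (.cons 393 (.leaf 416 2566 (.cons 418 (.leaf 394 2572 (.cons 417 (.leaf 344 2567 (.leaf 442 2764 .nil)) .nil)) .nil)) .nil)) .nil)) .nil)) (.cons 344 (.leaf 317 2536 (.cons 368 (.leaf 392 2373 (.cons 271 (.leaf 295 2172 (.cons 370 (.leaf 342 2736 (.leaf 371 2747 .nil)) .nil)) .nil)) .nil)) .nil)))) (.cons 344 (.leaf 317 2536 (.cons 270 (.leaf 246 1972 (.cons 271 (.leaf 295 1981 (.cons 247 (.leaf 342 1973 (.cons 249 (.leaf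 269 1961 (.leaf 250 1970 .nil)) .nil)) .nil)) .nil)) .nil)) (.cons 344 (.leaf 317 2536 (.cons 270 (.leaf 246 1972 (.cons 367 (.leaf 342 2164 (.leaf 391 2359 .nil)) .nil)) .nil)) .nil)))
noncomputable def t12 : T := .cons 390 (.leaf 366 2357 (.cons 391 (.cons 418 (.leaf 417 3120 (.cons 394 (.leaf 419 3128 (.cons 371 (.leaf 370 2937 (.cons 395 (.leaf 372 2945 (.cons 415 (.leaf 414 3122 (.leaf 416 3130 .nil)) .nil)) .nil)) .nil)) .nil)) (.cons 271 (.leaf 343 1981 (.leaf 247 1974 .nil)) .nil)) .nil)) (.cons 390 (.leaf 366 2357 (.cons 391 (.cons 418 (.leaf 417 3120 (.cons 394 (.leaf 419 3128 (.cons 371 (.leaf 370 2937 (.cons 395 (.leaf 372 2945 (.cons 415 (.leaf 414 3122 (.leaf 416 3130 .nil)) .nil)) .nil)) .nil)) .nil)) (.cons 417 (.leaf 418 3120 (.cons 389 (.leaf 416 3112 (.cons 364 (.leaf 365 2915 (.cons 388 (.leaf 363 2907 (.cons 412 (.leaf 413 3106 (.leaf 411 3098 .nil)) .nil)) .nil))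 .nil)) .nil)) (.cons 414 (.leaf 413 3114 (.cons 343 (.leaf 367 2550 (.cons 394 (.leaf 415 3122 (.cons 371 (.leaf 370 2937 (.cons 395 (.leaf 372 2945 (.cons 419 (.leaf 418 3128 (.leaf 420 3136 .nil)) .nil)) .nil)) .nil)) .nil)) .nil)) (.cons 413 (.leaf 414 3114 (.cons 389 (.leaf 412 3106 (.cons 364 (.leaf 365 2915 (.cons 388 (.leaf 363 2907 (.cons 416 (.leaf 417 3112 (.leaf 415 3104 .nil)) .nil)) .nil)) .nil)) .nil)) .nil)))) .nil)) (.cons 271 (.leaf 343 1981 (.leaf 247 1974 .nil)) (.cons 390 (.leaf 366 2357 (.cons 247 (.leaf 271 1974 (.cons 391 (.cons 413 (.leaf 414 3114 (.cons 389 (.leaf 412 3106 (.cons 417 (.leaf 416 3112 (.leaf 418 3120 .nil)) .nil)) .nil)) (.cons 417 (.leaf 418 3120 (.cons 389 (.leaf 416 3112 (.cons 364 (.leaf 365 2915 (.cons 388 (.leaf 363 2907 (.cons 412 (.leaf 413 3106 (.leaf 411 3098 .nil)) .nil)) .nil)) .nil)) .nil)) (.cons 414 (.leaf 413 3114 (.cons 394 (.leaf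 415 3122 (.cons 371 (.leaf 370 2937 (.cons 395 (.leaf 372 2945 (.cons 419 (.leaf 418 3128 (.leaf 420 3136 .nil)) .nil)) .nil)) .nil)) .nil)) (.cons 418 (.leaf 417 3120 (.cons 394 (.leaf 419 3128 (.cons 371 (.leaf 370 2937 (.cons 395 (.leaf 372 2945 (.cons 415 (.leaf 414 3122 (.leaf 416 3130 .nil)) .nil)) .nil)) .nil)) .nil)) (.cons 413 (.leaf 414 3114 (.cons 389 (.leaf 412 3106 (.cons 364 (.leaf 365 2915 (.cons 388 (.leaf 363 2907 (.cons 416 (.leaf 417 3112 (.leaf 415 3104 .nil)) .nil)) .nil)) .nil)) .nil)) .nil))))) .nil)) .nil)) .nil)))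
noncomputable def t13 : T := .cons 369 (.leaf 416 2566 (.cons 394 (.leaf 370 2380 (.leaf 418 2572 .nil)) .nil)) (.cons 342 (.leaf 341 2538 (.cons 295 t12 .nil)) (.cons 341 (.leaf 342 2538 (.cons 317 (.leaf 340 2530 (.cons 292 (.leaf 293 2339 (.cons 316 (.leaf 291 2331 (.cons 268 (.leaf 244 1956 (.cons 365 (.leaf 389 2343 (.cons 394 (.cons 418 (.leaf 369 2572 (.cons 391 (.leaf 419 3128 (.cons 366 (.leaf 390 2923 (.leaf 367 2931 .nil)) .nil)) .nil)) (.cons 391 (.cons 371 (.leaf 370 2937 (.cons 395 (.leaf 372 2945 (.cons 419 (.leaf 418 3128 (.leaf 420 3136 .nil)) .nil)) .nil)) (.cons 366 (.leaf 390 2923 (.leaf 367 2931 .nil)) .nil)) (.cons 370 (.leaf 369 2380 (.cons 391 (.leaf 371 2937 (.cons 366 (.leaf 390 2923 (.leaf 367 2931 .nil)) .nil)) .nil)) (.cons 369 (.leaf 370 2380 (.leaf 418 2572 .nil)) .nil)))) .nil)) .nil)) .nil)) .nil)) .nil)) .nil)) (.cons 369 (.leaf 416 2566 (.cons 390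 (.cons 341 (.leaf 342 2538 (.cons 317 (.leaf 340 2530 (.cons 391 (.leaf 370 2929 (.cons 365 (.leaf 366 2923 (.cons 389 (.leaf 364 2915 (.leaf 414 2540 .nil)) .nil)) .nil)) .nil)) .nil)) (.cons 342 (.leaf 341 2538 (.cons 295 (.leaf 366 2357 (.cons 271 (.leaf 343 1981 (.leaf 247 1974 .nil)) .nil)) .nil)) (.cons 391 (.leaf 370 2929 (.cons 365 (.leaf 366 2923 (.cons 389 (.leaf 364 2915 (.cons 413 (.leaf 412 3106 (.leaf 414 3114 .nil)) .nil)) .nil)) .nil)) (.cons 391 (.leaf 370 2929 (.cons 341 (.leaf 342 2538 (.cons 317 (.leaf 340 2530 (.cons 292 (.leaf 293 2339 (.cons 316 (.leaf 291 2331 (.cons 244 (.leaf 268 1956 (.cons 389 (.leaf 365 2343 (.cons 413 (.leaf 412 3106 (.leaf 414 3114 .nil)) .nil)) .nil)) .nil)) .nil)) .nil)) .nil)) .nil)) .nil)))) .nil)) (.cons 369 (.leaf 416 2566 (.cons 341 (.leaf 342 2538 (.cons 317 (.leaf 340 2530 (.cons 293 (.leaf 292 2339 (.cons 418 (.leaf 394 2572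 (.cons 417 (.leaf 442 2764 (.cons 390 (.leaf 391 3120 (.cons 365 (.leaf 366 2348 (.cons 389 (.leaf 414 2540 (.cons 388 (.leaf 364 2342 (.leaf 412 2534 .nil)) .nil)) .nil)) .nil)) .nil)) .nil)) .nil)) .nil)) .nil)) .nil)) .nil))))
noncomputable def t14 : T := .cons 369 (.leaf 368 2374 (.cons 341 (.leaf 342 2538 (.cons 317 (.leaf 340 2530 (.cons 292 (.leaf 293 2339 (.cons 291 (.leaf 316 2331 (.cons 393 (.leaf 416 2566 (.cons 394 (.leaf 370 2380 (.leaf 418 2572 .nil)) .nil)) .nil)) .nil)) .nil)) .nil)) .nil)) (.cons 317 (.cons 292 (.leaf 293 2339 (.cons 316 (.leaf 291 2331 (.cons 339 (.leaf 340 2522 (.cons 315 (.leaf 338 2514 (.cons 244 (.leaf 268 1950 (.cons 343 (.leaf 342 2520 (.cons 295 (.leaf 271 1981 (.cons 367 (.leaf 368 2364 (.cons 391 (.leaf 416 2556 (.cons 390 (.leaf 366 2358 (.leaf 414 2550 .nil)) .nil)) .nil)) .nil)) .nil)) .nil)) .nil)) .nil)) .nil)) .nil)) (.cons 292 (.leaf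 293 2339 (.cons 316 (.leaf 291 2331 (.cons 342 (.leaf 341 2538 (.cons 343 (.leaf 315 2520 (.cons 295 (.leaf 271 1981 (.cons 366 (.leaf 390 2357 (.cons 367 (.leaf 368 2364 (.cons 391 (.leaf 415 2551 (.leaf 416 2556 .nil)) .nil)) .nil)) .nil)) .nil)) .nil)) .nil)) .nil)) (.cons 292 (.leaf 293 2339 (.cons 316 (.leaf 291 2331 (.cons 340 (.leaf 341 2530 (.leaf 339 2522 .nil)) .nil)) .nil)) (.cons 341 (.leaf 340 2530 (.leaf 342 2538 .nil)) .nil)))) (.cons 369 (.leaf 368 2374 (.cons 393 (.leaf 416 2566 (.cons 394 (.leaf 370 2380 (.leaf 418 2572 .nil)) .nil)) .nil)) (.cons 393 t13 (.cons 368 (.leaf 369 2374 (.cons 317 (.cons 292 (.leaf 293 2339 (.cons 316 (.leaf 291 2331 (.cons 339 (.leaf 340 2522 (.cons 315 (.leaf 338 2514 (.cons 244 (.leaf 268 1950 (.cons 343 (.leaf 342 2520 (.cons 295 (.leaf 271 1981 (.leaf 367 2364 .nil)) .nil)) .nil)) .nil)) .nil)) .nil)) .nil)) (.cons 292 (.leaf 293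 2339 (.cons 316 (.leaf 291 2331 (.cons 342 (.leaf 341 2538 (.cons 343 (.leaf 315 2520 (.cons 295 (.leaf 271 1981 (.leaf 367 2364 .nil)) .nil)) .nil)) .nil)) .nil)) (.cons 292 (.leaf 293 2339 (.cons 316 (.leaf 291 2331 (.cons 340 (.leaf 341 2530 (.leaf 339 2522 .nil)) .nil)) .nil)) (.cons 341 (.leaf 340 2530 (.leaf 342 2538 .nil)) .nil)))) .nil)) .nil))))
noncomputable def t15 : T := .leaf 298 2353 (.cons 369 (.cons 392 (.leaf 368 2374 (.cons 370 (.leaf 394 2380 (.cons 393 (.leaf 416 2566 (.cons 371 (.leaf 372 2946 (.cons 390 (.leaf 391 2929 (.cons 295 (.leaf 366 2357 (.cons 271 (.leaf 343 1981 (.leaf 247 1974 .nil)) .nil)) .nil)) .nil)) .nil)) .nil)) .nil)) (.cons 370 (.leaf 394 2380 (.cons 343 (.leaf 344 2736 (.cons 295 (.leaf 271 1981 (.cons 367 (.leaf 368 2739 (.cons 390 (.leaf 366 2357 (.cons 391 (.leaf 415 2551 (.leaf 414 2550 .nil)) .nil)) .nil)) .nil)) .nil)) .nil)) (.cons 394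 (.leaf 370 2380 (.cons 393 (.leaf 418 2572 (.cons 416 (.leaf 392 2566 (.cons 417 (.leaf 344 2567 (.leaf 440 2758 .nil)) .nil)) .nil)) .nil)) (.cons 392 (.leaf 368 2374 (.cons 393 (.leaf 416 2566 (.cons 417 (.leaf 344 2567 (.cons 418 (.leaf 394 2572 (.leaf 442 2764 .nil)) .nil)) .nil)) .nil)) (.cons 392 (.leaf 368 2374 (.cons 393 (.leaf 416 2566 (.cons 344 (.leaf 417 2567 (.cons 343 (.leaf 370 2736 (.cons 295 (.leaf 271 1981 (.cons 366 (.leaf 390 2357 (.leaf 365 2730 .nil)) .nil)) .nil)) .nil)) .nil)) .nil)) .nil))))) .nil)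
noncomputable def t16 : T := .cons 316 (.leaf 344 2528 (.cons 315 (.leaf 342 2520 (.cons 339 (.leaf 338 2514 (.leaf 340 2522 .nil)) .nil)) .nil)) (.cons 271 (.leaf 295 1981 (.cons 249 (.cons 250 (.leaf 251 1978 (.cons 247 (.leaf 274 1976 (.leaf 270 1970 .nil)) .nil)) (.cons 269 (.leaf 270 1961 (.cons 245 (.leaf 342 1964 (.cons 246 (.leaf 222 1773 (.cons 244 (.leaf 247 1952 (.leaf 220 1767 .nil)) .nil)) .nil)) .nil)) (.cons 250 (.leaf 251 1978 (.cons 247 (.leaf 274 1976 (.cons 222 (.leaf 223 1779 (.cons 226 (.leaf 227 1785 (.cons 246 (.leaf 221 1771 (.leaf 225 1777 .nil)) .nil)) .nil)) .nil)) .nil)) (.cons 269 (.leaf 270 1961 (.cons 245 (.leaf 342 1964 (.cons 220 (.leaf 244 1767 (.cons 221 (.leaf 196 1575 (.cons 222 (.leaf 198 1581 (.leaf 246 1773 .nil)) .nil)) .nil)) .nil)) .nil)) .nil)))) .nil)) (.cons 316 (.leaf 344 2528 (.cons 271 (.leaf 295 1981 (.cons 340 (.leaf 339 2522 (.cons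 269 (.leaf 245 1958 (.cons 249 (.leaf 270 1961 (.cons 250 (.leaf 251 1978 (.cons 247 (.leaf 274 1976 (.cons 222 (.leaf 223 1779 (.cons 226 (.leaf 227 1785 (.cons 246 (.leaf 221 1771 (.leaf 225 1777 .nil)) .nil)) .nil)) .nil)) .nil)) .nil)) .nil)) .nil)) .nil)) .nil)) .nil))
noncomputable def t17 : T := .leaf 394 2380 (.cons 343 (.cons 371 (.leaf 344 2747 (.cons 246 (.leaf 270 1972 (.cons 367 (.leaf 391 2359 (.cons 271 (.leaf 295 1981 (.cons 348 (.leaf 347 2753 (.cons 372 (.leaf 349 2761 (.cons 396 (.leaf 395 2944 (.leaf 397 2952 .nil)) .nil)) .nil)) .nil)) .nil)) .nil)) .nil)) (.cons 367 (.leaf 391 2359 (.cons 270 (.leaf 246 1972 (.leaf 295 2167 .nil)) .nil)) (.cons 371 (.leaf 344 2747 (.cons 246 (.leaf 270 1972 (.cons 348 (.leaf 347 2753 (.cons 271 (.leaf 295 1981 (.cons 372 (.leaf 349 2761 (.cons 396 (.leaf 395 2944 (.leaf 397 2952 .nil)) .nil)) .nil)) .nil)) .nil)) .nil)) (.cons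 371 (.leaf 344 2747 (.cons 246 (.leaf 270 1972 (.cons 367 (.leaf 391 2359 (.cons 348 (.leaf 347 2753 (.cons 372 (.leaf 349 2761 (.cons 396 (.leaf 395 2944 (.leaf 397 2952 .nil)) .nil)) .nil)) .nil)) .nil)) .nil)) (.cons 371 (.leaf 344 2747 (.cons 271 (.leaf 295 1981 (.cons 367 (.leaf 391 2359 (.cons 348 (.leaf 347 2753 (.cons 372 (.leaf 349 2761 (.cons 396 (.leaf 395 2944 (.leaf 397 2952 .nil)) .nil)) .nil)) .nil)) .nil)) .nil)) .nil))))) .nil)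
noncomputable def t18 : T := .cons 394 (.leaf 370 2380 (.cons 393 (.leaf 418 2572 (.cons 416 (.leaf 392 2566 (.cons 417 (.leaf 344 2567 (.leaf 440 2758 .nil)) .nil)) .nil)) .nil)) (.cons 393 (.cons 394 (.leaf 370 2380 (.leaf 418 2572 .nil)) (.cons 417 (.leaf 344 2567 (.cons 440 (.leaf 416 2758 (.cons 441 (.leaf 464 2950 (.cons 442 (.leaf 418 2764 (.leaf 466 2956 .nil)) .nil)) .nil)) .nil)) (.cons 344 (.leaf 417 2567 (.cons 370 (.leaf 394 2380 (.cons 371 (.leaf 372 2755 (.cons 343 (.leaf 368 2747 (.cons 295 (.leaf 271 1981 (.cons 270 (.leaf 246 1972 (.leaf 367 2167 .nil)) .nil)) .nil)) .nil)) .nil)) .nil)) .nil))) (.cons 392 (.leaf 368 2374 (.cons 393 (.leaf 416 2566 (.cons 417 (.leaf 344 2567 (.cons 418 (.leaf 442 2764 (.cons 391 (.leaf 390 3120 (.cons 343 (.leaf 367 2359 (.cons 270 (.leaf 246 1972 (.cons 271 (.leaf 295 1981 (.cons 249 (.leaf 269 1961 (.cons 250 (.leaf 251 1978 (.leaf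 247 1970 .nil)) .nil)) .nil)) .nil)) .nil)) .nil)) .nil)) .nil)) .nil)) .nil)) (.cons 368 (.leaf 392 2374 (.cons 370 t17 .nil)) (.cons 392 (.leaf 368 2374 (.cons 370 (.leaf 394 2380 (.cons 393 (.leaf 416 2566 (.cons 391 (.leaf 390 2929 (.cons 343 (.leaf 367 2359 (.cons 270 (.leaf 246 1972 (.cons 271 (.leaf 295 1981 (.cons 269 (.leaf 249 1961 (.cons 244 (.leaf 245 1955 (.cons 268 (.leaf 247 1953 (.leaf 243 1947 .nil)) .nil)) .nil)) .nil)) .nil)) .nil)) .nil)) .nil)) .nil)) .nil)) .nil))))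
noncomputable def t19 : T := .cons 391 (.leaf 367 2359 (.cons 394 (.leaf 370 2380 (.cons 393 (.leaf 418 2572 (.cons 392 (.leaf 368 2374 (.leaf 416 2566 .nil)) .nil)) .nil)) .nil)) (.cons 394 (.leaf 370 2380 (.cons 295 (.leaf 271 1981 (.cons 367 (.leaf 391 2359 (.cons 366 (.leaf 390 2358 (.cons 393 (.leaf 418 2572 (.leaf 368 2928 .nil)) .nil)) .nil)) .nil)) .nil)) (.cons 392 (.leaf 368 2374 (.cons 271 (.leaf 295 1981 (.cons 393 (.leaf 416 2566 (.cons 394 (.leaf 370 2380 (.leaf 418 2572 .nil)) .nil)) .nil)) .nil)) (.cons 392 (.leaf 368 2374 (.cons 271 (.leaf 295 1981 (.cons 391 (.leaf 367 2359 (.cons 393 (.leaf 416 2566 (.cons 390 (.leaf 370 2929 (.cons 365 (.leaf 366 2923 (.cons 389 (.leaf 364 2915 (.cons 413 (.leaf 412 3106 (.leaf 414 3114 .nil)) .nil)) .nil)) .nil)) .nil)) .nil)) .nil)) .nil)) (.cons 394 (.leaf 370 2380 (.cons 391 (.leaf 367 2359 (.cons 393 (.leaf 418 2572 (.cons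 392 (.leaf 416 2566 (.cons 414 (.leaf 415 3122 (.cons 390 (.leaf 413 3114 (.cons 366 (.leaf 342 2549 (.leaf 365 2923 .nil)) .nil)) .nil)) .nil)) .nil)) .nil)) .nil)) (.cons 392 (.leaf 368 2374 (.cons 271 (.leaf 295 1981 (.cons 391 (.leaf 367 2359 (.cons 393 (.leaf 416 2566 (.cons 418 (.leaf 394 2572 (.cons 417 (.leaf 442 2764 (.leaf 390 3120 .nil)) .nil)) .nil)) .nil)) .nil)) .nil)) (.cons 295 (.leaf 271 1981 (.cons 367 (.leaf 391 2359 (.cons 368 (.leaf 392 2364 (.cons 370 (.leaf 394 2380 (.leaf 342 2739 .nil)) .nil)) .nil)) .nil)) .nil))))))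
noncomputable def t20 : T := .cons 342 (.leaf 341 2538 (.cons 392 (.leaf 368 2374 (.cons 393 (.leaf 416 2566 (.cons 370 (.leaf 394 2380 (.cons 371 (.leaf 372 2946 (.cons 391 (.leaf 390 2929 (.cons 367 (.leaf 343 2359 (.leaf 366 2356 .nil)) .nil)) .nil)) .nil)) .nil)) .nil)) .nil)) (.cons 392 (.leaf 368 2374 (.cons 393 (.leaf 416 2566 (.cons 394 (.leaf 370 2380 (.leaf 418 2572 .nil)) .nil)) .nil)) (.cons 342 (.leaf 341 2538 (.cons 394 (.leaf 370 2380 (.cons 393 (.leaf 418 2572 (.cons 366 (.cons 295 (.leaf 271 2165 (.leaf 390 2357 .nil)) (.cons 367 (.leaf 391 2356 (.leaf 368 2928 .nil)) .nil)) .nil)) .nil)) .nil)) (.cons 392 (.leaf 368 2374 (.cons 393 (.leaf 416 2566 (.cons 391 (.cons 341 (.leaf 342 2538 (.cons 317 (.leaf 340 2530 (.cons 343 (.leaf 367 2359 (.cons 271 (.leaf 295 1981 (.cons 365 (.leaf 389 2349 (.cons 390 (.leaf 370 2929 (.leaf 366 2923 .nil)) .nil)) .nil)) .nil)) .nil))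 .nil)) (.cons 342 (.leaf 341 2538 (.cons 367 (.leaf 343 2359 (.leaf 366 2356 .nil)) .nil)) (.cons 390 (.leaf 370 2929 (.cons 343 (.leaf 367 2359 (.cons 271 (.leaf 295 1981 (.cons 365 (.leaf 366 2923 (.cons 389 (.leaf 364 2915 (.cons 413 (.leaf 412 3106 (.leaf 414 3114 .nil)) .nil)) .nil)) .nil)) .nil)) .nil)) (.cons 390 (.leaf 370 2929 (.cons 341 (.leaf 342 2538 (.cons 317 (.leaf 340 2530 (.cons 365 (.leaf 389 2349 (.leaf 366 2923 .nil)) .nil)) .nil)) .nil)) (.cons 390 (.leaf 370 2929 (.cons 341 (.leaf 342 2538 (.cons 317 (.leaf 340 2530 (.cons 343 (.leaf 367 2359 (.cons 271 (.leaf 295 1981 (.cons 389 (.leaf 365 2349 (.cons 413 (.leaf 412 3106 (.leaf 414 3114 .nil)) .nil)) .nil)) .nil)) .nil)) .nil)) .nil)) .nil))))) .nil)) .nil)) (.cons 342 (.leaf 341 2538 (.cons 393 (.cons 394 (.leaf 370 2380 (.leaf 418 2572 .nil)) (.cons 416 (.leaf 392 2566 (.cons 417 (.leaf 440 2758 (.cons 418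 (.leaf 442 2764 (.cons 390 (.cons 295 (.leaf 366 2357 (.cons 271 (.leaf 343 1981 (.leaf 247 1974 .nil)) .nil)) (.cons 415 (.leaf 391 3123 (.cons 414 (.leaf 389 3115 (.cons 438 (.leaf 437 3306 (.leaf 439 3314 .nil)) .nil)) .nil)) .nil)) .nil)) .nil)) .nil)) (.cons 392 (.leaf 416 2566 (.cons 370 (.leaf 394 2380 (.cons 371 (.leaf 372 2946 (.cons 391 (.leaf 390 2929 (.cons 367 (.leaf 343 2359 (.leaf 366 2356 .nil)) .nil)) .nil)) .nil)) .nil)) .nil))) .nil)) (.cons 342 (.leaf 341 2538 (.cons 392 (.leaf 368 2374 (.cons 393 (.leaf 416 2566 (.cons 418 (.leaf 394 2572 (.cons 417 (.leaf 442 2764 (.cons 390 (.leaf 391 3120 (.cons 295 (.leaf 366 2357 (.cons 271 (.leaf 343 1981 (.leaf 247 1974 .nil)) .nil)) .nil)) .nil)) .nil)) .nil)) .nil)) .nil)) (.cons 342 (.leaf 341 2538 (.cons 368 (.leaf 392 2374 (.cons 370 (.leaf 394 2380 (.cons 367 (.leaf 343 2739 (.cons 391 (.leaf 366 2356 (.leaf 390 2930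 .nil)) .nil)) .nil)) .nil)) .nil)) .nil))))))
noncomputable def t21 : T := .cons 246 (.cons 223 (.leaf 247 1781 (.cons 222 (.leaf 199 1589 (.cons 319 (.leaf 293 2347 (.leaf 343 1972 .nil)) .nil)) .nil)) (.cons 221 (.leaf 245 1775 (.cons 247 (.leaf 223 1781 (.cons 249 (.leaf 222 1771 (.leaf 269 1962 .nil)) .nil)) .nil)) (.cons 221 (.leaf 245 1775 (.cons 222 (.leaf 197 1583 (.cons 317 (.leaf 341 1966 (.leaf 293 1774 .nil)) .nil)) .nil)) (.cons 221 (.leaf 245 1775 (.cons 247 (.leaf 223 1781 (.cons 249 (.leaf 269 1962 (.cons 250 (.leaf 274 1976 (.leaf 271 1970 .nil)) .nil)) .nil)) .nil)) .nil)))) (.cons 246 (.cons 221 (.leaf 245 1775 (.cons 247 (.leaf 223 1781 (.cons 249 (.leaf 222 1771 (.leaf 269 1962 .nil)) .nil)) .nil)) (.cons 221 (.leaf 245 1775 (.cons 222 (.leaf 197 1583 (.cons 317 (.leaf 341 1966 (.leaf 293 1774 .nil)) .nil)) .nil)) (.cons 223 (.leaf 247 1781 (.cons 222 (.leaf 199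 1589 (.cons 317 (.leaf 341 1966 (.leaf 293 1774 .nil)) .nil)) .nil)) (.cons 247 (.leaf 223 1781 (.cons 221 (.leaf 245 1775 (.cons 249 (.leaf 269 1962 (.cons 250 (.leaf 274 1976 (.leaf 271 1970 .nil)) .nil)) .nil)) .nil)) .nil)))) (.cons 246 (.cons 247 (.leaf 223 1781 (.cons 221 (.leaf 245 1775 (.cons 249 (.leaf 222 1771 (.leaf 269 1962 .nil)) .nil)) .nil)) (.cons 319 (.leaf 343 1972 (.cons 221 (.leaf 245 1775 (.cons 222 (.leaf 197 1583 (.leaf 295 1780 .nil)) .nil)) .nil)) (.cons 319 (.leaf 343 1972 (.cons 222 (.leaf 295 1780 (.cons 223 (.leaf 247 1781 (.leaf 199 1589 .nil)) .nil)) .nil)) (.cons 247 (.leaf 223 1781 (.cons 221 (.leaf 245 1775 (.cons 249 (.leaf 269 1962 (.cons 250 (.leaf 274 1976 (.leaf 271 1970 .nil)) .nil)) .nil)) .nil)) .nil)))) (.cons 293 (.leaf 319 2347 (.cons 271 (.cons 292 (.leaf 269 2146 (.leaf 295 2145 .nil)) (.cons 249 (.leaf 269 1961 (.cons 250 (.leaf 251 1978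 (.leaf 247 1970 .nil)) .nil)) (.cons 292 (.leaf 295 2145 (.leaf 291 2137 .nil)) .nil))) .nil)) (.cons 246 (.cons 319 (.leaf 293 2347 (.leaf 343 1972 .nil)) (.cons 247 (.leaf 223 1781 (.cons 221 (.leaf 245 1775 (.cons 249 (.leaf 222 1771 (.leaf 269 1962 .nil)) .nil)) .nil)) .nil)) (.cons 319 (.leaf 293 2347 (.cons 246 (.leaf 343 1972 (.cons 221 (.leaf 245 1775 (.cons 222 (.leaf 197 1583 (.leaf 295 1780 .nil)) .nil)) .nil)) .nil)) .nil)))))
noncomputable def t22 : T := .cons 366 (.cons 295 (.leaf 271 2165 (.cons 319 (.leaf 341 2538 (.leaf 390 2357 .nil)) .nil)) (.cons 271 (.leaf 295 2165 (.cons 389 (.leaf 365 2350 (.cons 390 (.leaf 413 2542 (.cons 391 (.leaf 367 2356 (.leaf 415 2548 .nil)) .nil)) .nil)) .nil)) (.cons 319 (.leaf 341 2538 (.cons 297 (.leaf 298 2353 (.cons 345 (.leaf 346 2544 (.cons 389 (.leaf 365 2350 (.cons 390 (.leaf 295 2357 (.leaf 413 2542 .nil)) .nil)) .nil)) .nil))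 .nil)) (.cons 319 (.leaf 341 2538 (.cons 297 (.leaf 298 2353 (.cons 345 (.leaf 346 2544 (.cons 389 (.leaf 365 2350 (.cons 390 (.leaf 413 2542 (.cons 391 (.leaf 367 2356 (.leaf 415 2548 .nil)) .nil)) .nil)) .nil)) .nil)) .nil)) (.cons 319 (.leaf 341 2538 (.cons 271 (.leaf 295 2165 (.cons 270 (.leaf 247 1973 (.cons 269 (.leaf 249 1961 (.leaf 245 1967 .nil)) .nil)) .nil)) .nil)) .nil))))) (.cons 270 (.cons 245 (.leaf 269 1967 (.cons 221 (.leaf 246 1775 (.cons 365 (.leaf 341 2158 (.cons 366 (.leaf 389 2350 (.cons 367 (.leaf 343 2164 (.leaf 391 2356 .nil)) .nil)) .nil)) .nil)) .nil)) (.cons 247 (.leaf 271 1973 (.cons 246 (.leaf 223 1781 (.cons 221 (.leaf 245 1775 (.cons 222 (.leaf 249 1771 (.leaf 197 1583 .nil)) .nil)) .nil)) .nil)) (.cons 271 (.leaf 247 1973 (.cons 249 (.leaf 269 1961 (.cons 250 (.leaf 251 1978 (.cons 366 (.leaf 295 2165 (.cons 367 (.leaf 343 2164 (.leaf 391 2356 .nil))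 .nil)) .nil)) .nil)) .nil)) .nil))) (.cons 270 (.cons 247 (.leaf 271 1973 (.cons 246 (.leaf 223 1781 (.cons 249 (.leaf 269 1962 (.cons 221 (.leaf 222 1771 (.leaf 245 1775 .nil)) .nil)) .nil)) .nil)) (.cons 343 (.leaf 367 2164 (.cons 245 (.leaf 269 1967 (.cons 246 (.leaf 221 1775 (.leaf 319 1972 .nil)) .nil)) .nil)) (.cons 247 (.leaf 271 1973 (.cons 246 (.leaf 223 1781 (.cons 343 (.leaf 319 1972 (.leaf 367 2164 .nil)) .nil)) .nil)) (.cons 271 (.leaf 247 1973 (.cons 269 (.leaf 249 1961 (.leaf 245 1967 .nil)) .nil)) .nil)))) (.cons 366 (.cons 295 (.leaf 271 2165 (.cons 319 (.leaf 341 2538 (.leaf 390 2357 .nil)) .nil)) (.cons 389 (.leaf 365 2350 (.cons 271 (.leaf 295 2165 (.cons 390 (.leaf 413 2542 (.cons 391 (.leaf 367 2356 (.leaf 415 2548 .nil)) .nil)) .nil)) .nil)) (.cons 319 (.leaf 341 2538 (.cons 297 (.leaf 298 2353 (.cons 345 (.leaf 346 2544 (.cons 389 (.leaf 365 2350 (.cons 390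 (.leaf 413 2542 (.cons 391 (.leaf 367 2356 (.leaf 415 2548 .nil)) .nil)) .nil)) .nil)) .nil)) .nil)) (.cons 341 (.leaf 319 2538 (.cons 271 (.leaf 295 2165 (.cons 365 (.leaf 389 2350 (.cons 367 (.leaf 391 2356 (.cons 340 (.leaf 339 2712 (.leaf 368 2723 .nil)) .nil)) .nil)) .nil)) .nil)) .nil)))) (.cons 341 (.leaf 319 2538 (.cons 270 (.leaf 365 2158 (.cons 245 (.leaf 269 1967 (.cons 246 (.leaf 221 1775 (.leaf 317 1966 .nil)) .nil)) .nil)) .nil)) .nil))))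
noncomputable def t23 : T := .cons 221 (.leaf 245 1775 (.cons 222 (.leaf 197 1583 (.cons 317 (.leaf 341 1966 (.leaf 293 1774 .nil)) .nil)) .nil)) (.cons 221 (.leaf 245 1775 (.cons 222 (.leaf 197 1583 (.cons 223 (.leaf 247 1781 (.leaf 199 1589 .nil)) .nil)) .nil)) (.cons 247 (.leaf 223 1781 (.cons 271 (.leaf 342 1973 (.cons 244 (.leaf 245 1952 (.cons 249 (.leaf 250 1970 (.cons 225 (.leaf 226 1777 (.cons 177 (.leaf 201 1414 (.cons 317 (.leaf 341 1966 (.cons 222 (.leaf 293 1774 (.cons 198 (.leaf 295 1588 (.leaf 174 1396 .nil)) .nil)) .nil)) .nil)) .nil)) .nil)) .nil)) .nil)) .nil)) (.cons 247 (.leaf 223 1781 (.cons 271 (.leaf 342 1973 (.cons 249 (.leaf 250 1970 (.cons 222 (.leaf 221 1771 (.cons 198 (.leaf 295 1588 (.leaf 174 1396 .nil)) .nil)) .nil)) .nil)) .nil)) (.cons 221 (.leaf 245 1775 (.cons 247 (.leaf 223 1781 (.cons 317 (.leaf 341 1966 (.cons 342 (.leaf 271 1973 (.cons 367 (.leaf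 343 2164 (.cons 366 (.leaf 391 2356 (.cons 389 (.leaf 365 2350 (.cons 390 (.leaf 293 2351 (.leaf 413 2542 .nil)) .nil)) .nil)) .nil)) .nil)) .nil)) .nil)) .nil)) .nil))))
noncomputable def t24 : T := .cons 342 (.cons 247 (.leaf 271 1973 (.cons 365 (.leaf 341 2158 (.cons 366 (.leaf 389 2350 (.cons 367 (.leaf 343 2164 (.leaf 391 2356 .nil)) .nil)) .nil)) .nil)) (.cons 269 (.leaf 245 1967 (.cons 293 (.leaf 366 2159 (.cons 341 (.leaf 365 2158 (.cons 246 (.leaf 317 1965 (.cons 247 (.leaf 249 1962 (.leaf 223 1781 .nil)) .nil)) .nil)) .nil)) .nil)) (.cons 269 (.leaf 245 1967 (.cons 249 (.leaf 271 1961 (.cons 366 (.leaf 293 2159 (.cons 367 (.leaf 343 2164 (.leaf 391 2356 .nil)) .nil)) .nil)) .nil)) (.cons 271 (.leaf 247 1973 (.cons 269 (.leaf 249 1961 (.leaf 245 1967 .nil)) .nil)) .nil)))) (.cons 246 (.cons 223 (.leaf 247 1781 (.cons 222 (.leaf 199 1589 (.cons 221 (.leaf 245 1775 (.leaf 197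 1583 .nil)) .nil)) .nil)) (.cons 221 (.leaf 245 1775 (.cons 222 (.leaf 197 1583 (.cons 317 (.leaf 341 1966 (.leaf 293 1774 .nil)) .nil)) .nil)) (.cons 223 (.leaf 247 1781 (.cons 222 (.leaf 199 1589 (.cons 317 (.leaf 341 1966 (.leaf 293 1774 .nil)) .nil)) .nil)) (.cons 221 (.leaf 245 1775 (.cons 247 (.leaf 223 1781 (.cons 249 (.leaf 269 1962 (.cons 250 (.leaf 274 1976 (.leaf 271 1970 .nil)) .nil)) .nil)) .nil)) .nil)))) (.cons 342 (.cons 271 (.leaf 247 1973 (.cons 269 (.leaf 249 1961 (.leaf 245 1967 .nil)) .nil)) (.cons 247 (.leaf 271 1973 (.cons 365 (.leaf 341 2158 (.cons 366 (.leaf 389 2350 (.cons 367 (.leaf 343 2164 (.leaf 391 2356 .nil)) .nil)) .nil)) .nil)) (.cons 245 (.leaf 269 1967 (.cons 365 (.leaf 341 2158 (.cons 366 (.leaf 389 2350 (.cons 367 (.leaf 343 2164 (.leaf 391 2356 .nil)) .nil)) .nil)) .nil)) .nil))) (.cons 246 t23 (.cons 246 (.cons 223 (.leaf 247 1781 (.cons 222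 (.leaf 199 1589 (.cons 221 (.leaf 245 1775 (.leaf 197 1583 .nil)) .nil)) .nil)) (.cons 221 (.leaf 245 1775 (.cons 222 (.leaf 197 1583 (.cons 317 (.leaf 341 1966 (.leaf 293 1774 .nil)) .nil)) .nil)) (.cons 223 (.leaf 247 1781 (.cons 222 (.leaf 199 1589 (.cons 317 (.leaf 341 1966 (.leaf 293 1774 .nil)) .nil)) .nil)) (.cons 221 (.leaf 245 1775 (.cons 247 (.leaf 223 1781 (.cons 249 (.leaf 269 1962 (.cons 226 (.leaf 225 1777 (.cons 250 (.leaf 274 1976 (.leaf 227 1785 .nil)) .nil)) .nil)) .nil)) .nil)) .nil)))) (.cons 342 (.cons 341 (.leaf 365 2158 (.cons 317 (.leaf 246 1966 (.cons 367 (.leaf 343 2164 (.cons 366 (.leaf 391 2356 (.cons 390 (.leaf 293 2351 (.leaf 414 2543 .nil)) .nil)) .nil)) .nil)) .nil)) (.cons 269 (.leaf 245 1967 (.cons 249 (.leaf 271 1961 (.cons 366 (.leaf 293 2159 (.cons 367 (.leaf 343 2164 (.leaf 391 2356 .nil)) .nil)) .nil)) .nil)) (.cons 245 (.leaf 269 1967 (.cons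 246 (.leaf 221 1775 (.cons 341 (.leaf 317 1966 (.leaf 365 2158 .nil)) .nil)) .nil)) .nil))) (.cons 342 (.cons 247 (.leaf 271 1973 (.cons 365 (.leaf 341 2158 (.cons 366 (.leaf 389 2350 (.cons 367 (.leaf 343 2164 (.leaf 391 2356 .nil)) .nil)) .nil)) .nil)) (.cons 341 (.leaf 365 2158 (.cons 317 (.leaf 246 1966 (.cons 367 (.leaf 343 2164 (.cons 366 (.leaf 391 2356 (.cons 390 (.leaf 293 2351 (.leaf 414 2543 .nil)) .nil)) .nil)) .nil)) .nil)) (.cons 247 (.leaf 271 1973 (.cons 223 (.leaf 246 1781 (.cons 175 (.leaf 199 1404 (.cons 367 (.leaf 343 2164 (.cons 366 (.leaf 391 2356 (.cons 293 (.leaf 269 2159 (.cons 389 (.leaf 365 2350 (.cons 390 (.leaf 317 2351 (.leaf 413 2542 .nil)) .nil)) .nil)) .nil)) .nil)) .nil)) .nil)) .nil)) (.cons 247 (.leaf 271 1973 (.cons 246 (.leaf 223 1781 (.cons 249 (.leaf 269 1962 (.cons 221 (.leaf 222 1771 (.cons 226 (.leaf 225 1777 (.cons 250 (.leaf 274 1976 (.leaf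 227 1785 .nil)) .nil)) .nil)) .nil)) .nil)) .nil)) .nil)))) (.cons 342 (.cons 247 (.leaf 271 1973 (.cons 246 (.leaf 223 1781 (.cons 249 (.leaf 269 1962 (.cons 221 (.leaf 222 1771 (.leaf 245 1775 .nil)) .nil)) .nil)) .nil)) (.cons 247 (.leaf 271 1973 (.cons 246 (.leaf 223 1781 (.cons 221 (.leaf 245 1775 (.cons 222 (.leaf 249 1771 (.leaf 197 1583 .nil)) .nil)) .nil)) .nil)) (.cons 269 (.leaf 245 1967 (.cons 366 (.leaf 293 2159 (.cons 367 (.leaf 343 2164 (.leaf 391 2356 .nil)) .nil)) .nil)) (.cons 271 (.leaf 247 1973 (.cons 249 (.leaf 269 1961 (.cons 250 (.leaf 251 1978 (.cons 366 (.leaf 295 2165 (.cons 367 (.leaf 343 2164 (.leaf 391 2356 .nil)) .nil)) .nil)) .nil)) .nil)) .nil)))) (.cons 342 (.cons 245 (.leaf 269 1967 (.cons 271 (.leaf 247 1973 (.cons 366 (.leaf 295 2165 (.cons 367 (.leaf 343 2164 (.leaf 391 2356 .nil)) .nil)) .nil)) .nil)) (.cons 247 (.leaf 271 1973 (.cons 223 (.leaf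 246 1781 (.cons 175 (.leaf 199 1404 (.cons 365 (.leaf 341 2158 (.cons 366 (.leaf 389 2350 (.cons 367 (.leaf 343 2164 (.leaf 391 2356 .nil)) .nil)) .nil)) .nil)) .nil)) .nil)) (.cons 245 (.leaf 269 1967 (.cons 246 (.leaf 221 1775 (.cons 341 (.leaf 317 1966 (.leaf 365 2158 .nil)) .nil)) .nil)) .nil))) .nil))))))))
noncomputable def t25 : T := .cons 316 (.leaf 344 2528 (.cons 315 (.leaf 342 2520 (.cons 339 (.leaf 338 2514 (.leaf 340 2522 .nil)) .nil)) .nil)) (.cons 271 (.leaf 295 1981 (.cons 345 (.leaf 346 2544 (.cons 249 (.cons 250 (.leaf 251 1978 (.cons 247 (.leaf 274 1976 (.leaf 270 1970 .nil)) .nil)) (.cons 269 (.leaf 270 1961 (.cons 245 (.leaf 342 1964 (.cons 220 (.leaf 244 1767 (.cons 221 (.leaf 196 1575 (.cons 222 (.leaf 198 1581 (.leaf 246 1773 .nil)) .nil)) .nil)) .nil)) .nil)) (.cons 250 (.leaf 251 1978 (.cons 247 (.leaf 274 1976 (.cons 222 (.leaf 223 1779 (.cons 226 (.leaf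 227 1785 (.cons 246 (.leaf 221 1771 (.leaf 225 1777 .nil)) .nil)) .nil)) .nil)) .nil)) .nil))) .nil)) .nil)) (.cons 316 (.leaf 344 2528 (.cons 271 (.leaf 295 1981 (.cons 340 (.leaf 339 2522 (.cons 269 (.leaf 245 1958 (.cons 249 (.leaf 270 1961 (.cons 250 (.leaf 251 1978 (.cons 247 (.leaf 274 1976 (.cons 222 (.leaf 223 1779 (.cons 226 (.leaf 227 1785 (.cons 246 (.leaf 221 1771 (.leaf 225 1777 .nil)) .nil)) .nil)) .nil)) .nil)) .nil)) .nil)) .nil)) .nil)) .nil)) .nil))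
noncomputable def top0 : T := .cons 342 (.leaf 341 2538 (.cons 293 (.leaf 294 2347 (.cons 297 (.leaf 298 2353 (.cons 317 (.leaf 292 2339 (.cons 345 (.leaf 344 2536 (.leaf 346 2544 .nil)) .nil)) .nil)) .nil)) .nil)) (.cons 345 (.leaf 346 2544 (.cons 293 (.leaf 294 2347 (.cons 317 (.leaf 292 2339 (.leaf 344 2536 .nil)) .nil)) .nil)) (.cons 341 (.leaf 342 2538 (.cons 293 (.leaf 294 2347 (.cons 317 (.leaf 292 2339 (.leaf 340 2530 .nil)) .nil)) .nil)) (.cons 345 (.leaf 346 2544 (.cons 297 (.leaf 298 2353 (.cons 317 (.leaf 344 2536 (.cons 341 (.leaf 340 2530 (.leaf 342 2538 .nil)) .nil)) .nil)) .nil)) (.cons 342 (.leaf 341 2538 (.cons 294 (.leaf 293 2347 (.cons 345 (.leaf 346 2544 (.cons 297 (.leaf 298 2353 (.cons 270 (.cons 245 (.leaf 269 1967 (.cons 221 (.leaf 246 1775 (.cons 271 (.leaf 247 1973 (.cons 366 (.leaf 295 2165 (.cons 389 (.leaf 365 2350 (.cons 390 (.leaf 413 2542 (.cons 391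 (.leaf 367 2356 (.leaf 415 2548 .nil)) .nil)) .nil)) .nil)) .nil)) .nil)) .nil)) (.cons 245 (.leaf 269 1967 (.cons 246 (.leaf 221 1775 (.leaf 343 1972 .nil)) .nil)) (.cons 245 (.leaf 269 1967 (.cons 247 (.leaf 271 1973 (.cons 367 (.leaf 343 2164 (.cons 366 (.leaf 391 2356 (.cons 365 (.leaf 389 2350 (.cons 368 (.leaf 344 2729 (.cons 392 (.leaf 369 2374 (.leaf 393 2920 .nil)) .nil)) .nil)) .nil)) .nil)) .nil)) .nil)) (.cons 343 (.leaf 246 1972 (.leaf 367 2164 .nil)) .nil)))) .nil)) .nil)) .nil)) .nil)) .nil))))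
noncomputable def top1 : T := .cons 345 (.leaf 346 2544 (.cons 297 (.leaf 298 2353 (.cons 392 (.cons 369 (.leaf 368 2374 (.cons 293 (.leaf 294 2347 (.cons 292 (.leaf 317 2339 (.cons 393 (.leaf 416 2566 (.cons 394 (.leaf 370 2380 (.leaf 418 2572 .nil)) .nil)) .nil)) .nil)) .nil)) (.cons 317 (.leaf 344 2536 (.cons 292 (.leaf 293 2339 (.cons 316 (.leaf 291 2331 (.cons 340 (.leaf 341 2530 (.leaf 339 2522 .nil)) .nil)) .nil)) .nil)) (.cons 369 (.leaf 368 2374 (.cons 393 (.leaf 416 2566 (.cons 394 (.leaf 370 2380 (.leaf 418 2572 .nil)) .nil)) .nil)) .nil))) .nil)) .nil)) (.cons 293 (.leaf 294 2347 (.cons 297 (.leaf 298 2353 (.cons 317 (.leaf 292 2339 (.cons 340 (.leaf 341 2530 (.cons 316 (.leaf 339 2522 (.cons 269 (.leaf 245 1958 (.cons 343 (.leaf 344 2528 (.cons 271 (.leaf 295 1981 (.cons 249 (.leaf 270 1961 (.cons 250 (.leaf 251 1978 (.cons 247 (.leaf 274 1976 (.cons 226 (.leaf 227 1785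 (.cons 222 (.leaf 223 1779 (.cons 246 (.leaf 221 1771 (.leaf 225 1777 .nil)) .nil)) .nil)) .nil)) .nil)) .nil)) .nil)) .nil)) .nil)) .nil)) .nil)) .nil)) .nil)) .nil)) (.cons 345 (.leaf 346 2544 (.cons 344 (.leaf 317 2536 (.cons 297 (.leaf 298 2353 (.cons 369 (.cons 368 (.leaf 392 2373 (.cons 370 (.leaf 394 2380 (.cons 371 (.leaf 372 2755 (.leaf 343 2747 .nil)) .nil)) .nil)) (.cons 393 (.leaf 417 2567 (.cons 394 (.leaf 370 2380 (.leaf 418 2572 .nil)) .nil)) (.cons 392 (.leaf 368 2373 (.cons 393 (.leaf 417 2567 (.leaf 416 2566 .nil)) .nil)) .nil))) .nil)) .nil)) .nil)) (.cons 345 (.leaf 346 2544 (.cons 293 (.leaf 294 2347 (.cons 317 (.leaf 292 2339 (.leaf 344 2536 .nil)) .nil)) .nil)) (.cons 294 (.leaf 293 2347 (.cons 345 (.leaf 346 2544 (.cons 297 (.leaf 298 2353 (.cons 369 t5 .nil)) .nil)) .nil)) (.cons 345 (.leaf 346 2544 (.cons 297 (.leaf 298 2353 (.cons 392 t3 .nil)) .nil)) .nil)))))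
noncomputable def top2 : T := .cons 294 (.leaf 293 2347 (.cons 345 (.leaf 346 2544 (.cons 297 (.leaf 298 2353 (.cons 343 t11 .nil)) .nil)) .nil)) (.cons 293 (.leaf 294 2347 (.cons 317 (.leaf 292 2339 (.cons 297 t10 .nil)) .nil)) (.cons 345 (.leaf 346 2544 (.cons 344 (.leaf 317 2536 (.cons 297 (.leaf 298 2353 (.cons 369 (.cons 368 (.leaf 392 2373 (.cons 370 (.leaf 394 2380 (.cons 371 (.leaf 372 2755 (.leaf 343 2747 .nil)) .nil)) .nil)) (.cons 393 (.leaf 417 2567 (.cons 394 (.leaf 370 2380 (.leaf 418 2572 .nil)) .nil)) (.cons 392 (.leaf 368 2373 (.cons 393 (.leaf 417 2567 (.leaf 416 2566 .nil)) .nil)) .nil))) .nil)) .nil)) .nil)) (.cons 345 (.leaf 346 2544 (.cons 293 (.leaf 294 2347 (.cons 317 (.leaf 292 2339 (.leaf 344 2536 .nil)) .nil)) .nil)) (.cons 294 (.leaf 293 2347 (.cons 345 (.leaf 346 2544 (.cons 297 (.leaf 298 2353 (.cons 343 (.cons 295 (.leaf 271 1981 (.cons 392 (.cons 367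 (.leaf 391 2359 (.leaf 270 2167 .nil)) (.cons 369 (.leaf 368 2374 (.cons 393 (.leaf 416 2566 (.cons 394 (.leaf 370 2380 (.leaf 418 2572 .nil)) .nil)) .nil)) .nil)) .nil)) (.cons 295 (.leaf 271 1981 (.cons 392 (.cons 391 (.leaf 367 2359 (.cons 368 (.leaf 344 2373 (.leaf 369 2374 .nil)) .nil)) (.cons 391 (.leaf 367 2359 (.cons 393 t9 .nil)) (.cons 369 (.leaf 368 2374 (.cons 393 (.leaf 416 2566 (.cons 394 (.leaf 370 2380 (.leaf 418 2572 .nil)) .nil)) .nil)) (.cons 367 (.leaf 391 2359 (.leaf 368 2364 .nil)) .nil)))) .nil)) (.cons 271 (.leaf 295 1981 (.cons 270 (.leaf 246 1972 (.cons 247 (.leaf 342 1973 (.cons 249 (.leaf 269 1961 (.leaf 250 1970 .nil)) .nil)) .nil)) .nil)) (.cons 270 (.leaf 246 1972 (.cons 367 (.leaf 342 2164 (.leaf 391 2359 .nil)) .nil)) .nil)))) .nil)) .nil)) .nil)) (.cons 294 (.leaf 293 2347 (.cons 345 (.leaf 346 2544 (.cons 297 (.leaf 298 2353 (.cons 343 (.cons 271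 (.leaf 295 1981 (.cons 270 (.leaf 246 1972 (.cons 247 (.leaf 342 1973 (.cons 249 (.leaf 269 1961 (.leaf 250 1970 .nil)) .nil)) .nil)) .nil)) (.cons 369 t8 (.cons 270 (.leaf 246 1972 (.cons 367 (.leaf 342 2164 (.leaf 391 2359 .nil)) .nil)) (.cons 295 (.leaf 271 1981 (.cons 392 t7 .nil)) .nil)))) .nil)) .nil)) .nil)) .nil)))))
noncomputable def top3 : T := .cons 342 (.leaf 341 2538 (.cons 345 (.leaf 346 2544 (.cons 297 (.leaf 298 2353 (.cons 317 (.leaf 344 2536 (.cons 292 (.leaf 293 2339 (.cons 316 (.leaf 291 2331 (.cons 315 (.leaf 343 2520 (.cons 339 (.leaf 338 2514 (.leaf 340 2522 .nil)) .nil)) .nil)) .nil)) .nil)) .nil)) .nil)) .nil)) (.cons 297 (.leaf 298 2353 (.cons 317 (.cons 292 (.leaf 293 2339 (.cons 341 (.leaf 340 2530 (.leaf 342 2538 .nil)) .nil)) (.cons 292 (.leaf 293 2339 (.cons 316 (.leaf 291 2331 (.cons 339 (.leaf 340 2522 (.cons 315 (.leaf 338 2514 (.cons 343 (.leaf 342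 2520 (.leaf 344 2528 .nil)) .nil)) .nil)) .nil)) .nil)) (.cons 292 (.leaf 293 2339 (.cons 316 (.leaf 291 2331 (.cons 340 (.leaf 341 2530 (.leaf 339 2522 .nil)) .nil)) .nil)) (.cons 292 (.leaf 293 2339 (.cons 316 (.leaf 291 2331 (.cons 342 (.leaf 341 2538 (.cons 343 (.leaf 315 2520 (.leaf 344 2528 .nil)) .nil)) .nil)) .nil)) (.cons 341 (.leaf 340 2530 (.leaf 342 2538 .nil)) .nil))))) .nil)) (.cons 345 (.leaf 346 2544 (.cons 344 (.leaf 317 2536 (.cons 297 (.leaf 298 2353 (.cons 369 (.cons 392 (.leaf 368 2373 (.cons 393 (.leaf 417 2567 (.leaf 416 2566 .nil)) .nil)) (.cons 370 (.leaf 394 2380 (.cons 343 (.leaf 342 2736 (.cons 371 (.leaf 372 2755 (.leaf 368 2747 .nil)) .nil)) .nil)) (.cons 393 (.leaf 417 2567 (.cons 394 (.leaf 370 2380 (.leaf 418 2572 .nil)) .nil)) .nil))) .nil)) .nil)) .nil)) (.cons 345 (.leaf 346 2544 (.cons 297 (.leaf 298 2353 (.cons 317 (.leaf 344 2536 (.cons 292 (.leaf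 293 2339 (.cons 316 (.leaf 291 2331 (.cons 340 (.leaf 341 2530 (.leaf 339 2522 .nil)) .nil)) .nil)) .nil)) .nil)) .nil)) (.cons 345 (.leaf 346 2544 (.cons 317 (.leaf 344 2536 (.cons 341 (.leaf 340 2530 (.leaf 342 2538 .nil)) .nil)) .nil)) (.cons 342 (.leaf 341 2538 (.cons 345 (.leaf 346 2544 (.cons 297 t15 .nil)) .nil)) (.cons 345 (.leaf 346 2544 (.cons 297 (.leaf 298 2353 (.cons 392 t14 .nil)) .nil)) .nil))))))
noncomputable def top4 : T := .cons 341 (.leaf 342 2538 (.cons 293 (.leaf 294 2347 (.cons 317 (.leaf 292 2339 (.leaf 340 2530 .nil)) .nil)) .nil)) (.cons 293 (.leaf 294 2347 (.cons 317 (.leaf 292 2339 (.cons 297 (.leaf 298 2353 (.cons 343 t16 .nil)) .nil)) .nil)) (.cons 293 (.leaf 294 2347 (.cons 297 (.leaf 298 2353 (.cons 317 (.leaf 292 2339 (.cons 340 (.leaf 341 2530 (.cons 316 (.leaf 339 2522 (.cons 269 (.leaf 245 1958 (.cons 343 (.leaf 344 2528 (.cons 271 (.leaf 295 1981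 (.cons 249 (.leaf 270 1961 (.cons 250 (.leaf 251 1978 (.cons 247 (.leaf 274 1976 (.cons 222 (.leaf 223 1779 (.cons 226 (.leaf 227 1785 (.cons 246 (.leaf 221 1771 (.leaf 225 1777 .nil)) .nil)) .nil)) .nil)) .nil)) .nil)) .nil)) .nil)) .nil)) .nil)) .nil)) .nil)) .nil)) .nil)) (.cons 342 (.leaf 341 2538 (.cons 297 (.leaf 298 2353 (.cons 271 (.cons 295 (.leaf 343 1981 (.leaf 247 1974 .nil)) (.cons 270 (.cons 249 (.leaf 269 1961 (.cons 250 (.leaf 251 1978 (.leaf 247 1970 .nil)) .nil)) (.cons 269 (.leaf 249 1961 (.cons 245 (.leaf 244 1955 (.leaf 294 1967 .nil)) .nil)) (.cons 294 (.leaf 247 1973 (.cons 343 (.leaf 246 1972 (.leaf 367 2164 .nil)) .nil)) .nil))) (.cons 295 (.leaf 343 1981 (.cons 366 (.leaf 294 2165 (.leaf 390 2357 .nil)) .nil)) (.cons 295 (.leaf 247 1974 (.cons 366 (.leaf 294 2165 (.leaf 390 2357 .nil)) .nil)) .nil)))) .nil)) .nil)) (.cons 297 (.leaf 298 2353 (.cons 317 (.cons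 292 (.leaf 293 2339 (.cons 316 (.leaf 291 2331 (.cons 339 (.leaf 340 2522 (.cons 315 (.leaf 338 2514 (.cons 343 (.leaf 342 2520 (.leaf 344 2528 .nil)) .nil)) .nil)) .nil)) .nil)) (.cons 292 (.leaf 293 2339 (.cons 316 (.leaf 291 2331 (.cons 340 (.leaf 341 2530 (.leaf 339 2522 .nil)) .nil)) .nil)) (.cons 292 (.leaf 293 2339 (.cons 316 (.leaf 291 2331 (.cons 342 (.leaf 341 2538 (.cons 343 (.leaf 315 2520 (.leaf 344 2528 .nil)) .nil)) .nil)) .nil)) (.cons 341 (.leaf 340 2530 (.leaf 342 2538 .nil)) .nil)))) .nil)) .nil))))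
noncomputable def top5 : T := .cons 345 (.leaf 346 2544 (.cons 344 (.leaf 317 2536 (.cons 297 (.leaf 298 2353 (.cons 369 (.cons 392 (.leaf 368 2373 (.cons 393 (.leaf 417 2567 (.leaf 416 2566 .nil)) .nil)) (.cons 393 (.leaf 417 2567 (.cons 394 (.leaf 370 2380 (.leaf 418 2572 .nil)) .nil)) (.cons 368 (.leaf 392 2373 (.cons 370 (.leaf 394 2380 (.cons 371 (.leaf 372 2755 (.leaf 343 2747 .nil)) .nil)) .nil)) .nil))) .nil)) .nil)) .nil)) (.cons 342 (.leaf 341 2538 (.cons 297 (.leaf 298 2353 (.cons 271 (.cons 295 (.leaf 343 1981 (.leaf 247 1974 .nil)) (.cons 270 (.cons 249 (.leaf 269 1961 (.cons 250 (.leaf 251 1978 (.leaf 247 1970 .nil)) .nil)) (.cons 269 (.leaf 249 1961 (.cons 245 (.leaf 244 1955 (.leaf 294 1967 .nil)) .nil)) (.cons 294 (.leaf 247 1973 (.cons 343 (.leaf 246 1972 (.leaf 367 2164 .nil)) .nil)) .nil))) (.cons 295 (.leaf 343 1981 (.cons 366 (.leaf 294 2165 (.leaf 390 2357 .nil))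 .nil)) (.cons 295 (.leaf 247 1974 (.cons 366 (.leaf 294 2165 (.leaf 390 2357 .nil)) .nil)) .nil)))) .nil)) .nil)) (.cons 345 (.leaf 346 2544 (.cons 317 (.leaf 344 2536 (.cons 341 (.leaf 340 2530 (.leaf 342 2538 .nil)) .nil)) .nil)) .nil))
noncomputable def top6 : T := .cons 294 (.leaf 293 2347 (.cons 342 (.leaf 341 2538 (.cons 345 (.leaf 346 2544 (.cons 297 (.leaf 298 2353 (.cons 270 (.cons 343 (.leaf 246 1972 (.leaf 367 2164 .nil)) (.cons 271 (.leaf 247 1973 (.cons 269 (.leaf 249 1961 (.leaf 245 1967 .nil)) .nil)) .nil)) .nil)) .nil)) .nil)) .nil)) (.cons 294 (.leaf 293 2347 (.cons 345 (.leaf 346 2544 (.cons 297 (.leaf 298 2353 (.cons 369 t18 .nil)) .nil)) .nil)) (.cons 342 (.leaf 341 2538 (.cons 345 (.leaf 346 2544 (.cons 297 t15 .nil)) .nil)) (.cons 342 (.leaf 341 2538 (.cons 294 (.leaf 293 2347 (.cons 297 (.leaf 298 2353 (.cons 270 (.cons 245 (.leaf 269 1967 (.cons 221 (.leaf 246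 1775 (.cons 271 (.leaf 247 1973 (.cons 366 (.leaf 295 2165 (.cons 389 (.leaf 365 2350 (.cons 390 (.leaf 413 2542 (.cons 391 (.leaf 367 2356 (.leaf 415 2548 .nil)) .nil)) .nil)) .nil)) .nil)) .nil)) .nil)) (.cons 245 (.leaf 269 1967 (.cons 246 (.leaf 221 1775 (.leaf 343 1972 .nil)) .nil)) (.cons 245 (.leaf 269 1967 (.cons 247 (.leaf 271 1973 (.cons 367 (.leaf 343 2164 (.cons 366 (.leaf 391 2356 (.cons 389 (.leaf 365 2350 (.cons 390 (.leaf 295 2357 (.leaf 413 2542 .nil)) .nil)) .nil)) .nil)) .nil)) .nil)) (.cons 343 (.leaf 246 1972 (.leaf 367 2164 .nil)) .nil)))) .nil)) .nil)) .nil)) (.cons 342 (.leaf 341 2538 (.cons 294 (.leaf 293 2347 (.cons 345 (.leaf 346 2544 (.cons 270 (.cons 245 (.leaf 269 1967 (.cons 221 (.leaf 246 1775 (.cons 271 (.leaf 247 1973 (.cons 366 (.leaf 295 2165 (.cons 389 (.leaf 365 2350 (.cons 390 (.leaf 413 2542 (.cons 391 (.leaf 367 2356 (.leaf 415 2548 .nil)) .nil))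 .nil)) .nil)) .nil)) .nil)) .nil)) (.cons 245 (.leaf 269 1967 (.cons 246 (.leaf 221 1775 (.leaf 343 1972 .nil)) .nil)) (.cons 245 (.leaf 269 1967 (.cons 247 (.leaf 271 1973 (.cons 367 (.leaf 343 2164 (.cons 366 (.leaf 391 2356 (.cons 389 (.leaf 365 2350 (.cons 390 (.leaf 295 2357 (.leaf 413 2542 .nil)) .nil)) .nil)) .nil)) .nil)) .nil)) (.cons 343 (.leaf 246 1972 (.leaf 367 2164 .nil)) .nil)))) .nil)) .nil)) .nil)) (.cons 342 (.leaf 341 2538 (.cons 294 (.leaf 293 2347 (.cons 345 (.leaf 346 2544 (.cons 297 (.leaf 298 2353 (.cons 366 (.cons 295 (.leaf 271 2165 (.leaf 390 2357 .nil)) (.cons 365 (.leaf 389 2350 (.cons 367 (.leaf 391 2356 (.cons 368 (.leaf 344 2729 (.cons 392 (.leaf 369 2374 (.leaf 393 2920 .nil)) .nil)) .nil)) .nil)) .nil)) .nil)) .nil)) .nil)) .nil)) (.cons 294 (.leaf 293 2347 (.cons 342 (.leaf 341 2538 (.cons 345 (.leaf 346 2544 (.cons 297 (.leaf 298 2353 (.cons 270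 (.cons 245 (.leaf 269 1967 (.cons 367 (.leaf 343 2164 (.cons 366 (.leaf 391 2356 (.cons 295 (.leaf 390 2357 (.cons 365 (.leaf 389 2350 (.cons 368 (.leaf 344 2729 (.cons 392 (.leaf 369 2374 (.leaf 393 2920 .nil)) .nil)) .nil)) .nil)) .nil)) .nil)) .nil)) (.cons 245 (.leaf 269 1967 (.cons 246 (.leaf 221 1775 (.cons 222 (.leaf 295 1780 (.cons 223 (.leaf 247 1781 (.leaf 199 1589 .nil)) .nil)) .nil)) .nil)) (.cons 343 (.leaf 246 1972 (.leaf 367 2164 .nil)) .nil))) .nil)) .nil)) .nil)) .nil)) (.cons 342 (.leaf 341 2538 (.cons 294 (.leaf 293 2347 (.cons 345 (.leaf 346 2544 (.cons 297 (.leaf 298 2353 (.cons 271 (.cons 295 (.leaf 343 1981 (.leaf 247 1974 .nil)) (.cons 270 (.leaf 247 1973 (.cons 269 (.leaf 249 1961 (.leaf 245 1967 .nil)) .nil)) (.cons 295 (.leaf 343 1981 (.leaf 366 2165 .nil)) .nil))) .nil)) .nil)) .nil)) .nil)) .nil)))))))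
noncomputable def top7 : T := .cons 341 (.leaf 342 2538 (.cons 293 (.leaf 294 2347 (.cons 317 (.leaf 292 2339 (.leaf 340 2530 .nil)) .nil)) .nil)) (.cons 345 (.leaf 346 2544 (.cons 293 (.leaf 294 2347 (.cons 317 (.leaf 292 2339 (.leaf 344 2536 .nil)) .nil)) .nil)) (.cons 345 (.leaf 346 2544 (.cons 317 (.leaf 344 2536 (.cons 341 (.leaf 340 2530 (.leaf 342 2538 .nil)) .nil)) .nil)) (.cons 342 (.leaf 341 2538 (.cons 294 (.leaf 293 2347 (.cons 345 (.leaf 346 2544 (.cons 270 (.cons 245 (.leaf 269 1967 (.cons 221 (.leaf 246 1775 (.cons 271 (.leaf 247 1973 (.cons 366 (.leaf 295 2165 (.cons 389 (.leaf 365 2350 (.cons 390 (.leaf 413 2542 (.cons 391 (.leaf 367 2356 (.leaf 415 2548 .nil)) .nil)) .nil)) .nil)) .nil)) .nil)) .nil)) (.cons 343 (.leaf 246 1972 (.leaf 367 2164 .nil)) (.cons 245 (.leaf 269 1967 (.cons 247 (.leaf 271 1973 (.cons 367 (.leaf 343 2164 (.cons 366 (.leaf 391 2356 (.cons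 389 (.leaf 365 2350 (.cons 390 (.leaf 295 2357 (.leaf 413 2542 .nil)) .nil)) .nil)) .nil)) .nil)) .nil)) (.cons 271 (.leaf 247 1973 (.cons 269 (.leaf 249 1961 (.leaf 245 1967 .nil)) .nil)) .nil)))) .nil)) .nil)) .nil)) .nil)))
noncomputable def top8 : T := .cons 319 (.leaf 293 2347 (.cons 342 (.leaf 341 2538 (.cons 345 (.leaf 346 2544 (.cons 297 (.leaf 298 2353 (.cons 270 (.cons 245 (.leaf 269 1967 (.cons 246 (.leaf 221 1775 (.leaf 343 1972 .nil)) .nil)) (.cons 245 (.leaf 269 1967 (.cons 246 (.leaf 221 1775 (.cons 247 (.leaf 223 1781 (.leaf 271 1973 .nil)) .nil)) .nil)) (.cons 269 (.leaf 245 1967 (.cons 271 (.leaf 249 1961 (.leaf 247 1973 .nil)) .nil)) (.cons 343 (.leaf 246 1972 (.leaf 367 2164 .nil)) .nil)))) .nil)) .nil)) .nil)) .nil)) (.cons 270 (t24) (.cons 342 t22 (.cons 270 t21 (.cons 319 (.leaf 293 2347 (.cons 345 (.leaf 346 2544 (.cons 297 (.leaf 298 2353 (.cons 369 t20 .nil))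 .nil)) .nil)) (.cons 319 (.leaf 293 2347 (.cons 345 (.leaf 346 2544 (.cons 297 (.leaf 298 2353 (.cons 343 (.cons 271 (.leaf 295 1981 (.cons 270 (.leaf 246 1972 (.cons 342 (.leaf 247 1973 (.leaf 367 2164 .nil)) .nil)) .nil)) (.cons 369 t19 (.cons 271 (.leaf 295 1981 (.cons 270 (.leaf 246 1972 (.cons 269 (.leaf 249 1961 (.cons 245 (.leaf 244 1955 (.leaf 342 1967 .nil)) .nil)) .nil)) .nil)) (.cons 270 (.leaf 246 1972 (.cons 367 (.leaf 342 2164 (.leaf 391 2359 .nil)) .nil)) (.cons 295 (.leaf 271 1981 (.cons 270 (.leaf 246 1972 (.leaf 367 2167 .nil)) .nil)) .nil))))) .nil)) .nil)) .nil)) (.cons 319 (.leaf 293 2347 (.cons 342 (.leaf 341 2538 (.cons 345 (.leaf 346 2544 (.cons 297 (.leaf 298 2353 (.cons 270 (.cons 245 (.leaf 269 1967 (.cons 246 (.leaf 221 1775 (.leaf 343 1972 .nil)) .nil)) (.cons 245 (.leaf 269 1967 (.cons 246 (.leaf 221 1775 (.cons 222 (.leaf 295 1780 (.cons 223 (.leaf 247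 1781 (.leaf 199 1589 .nil)) .nil)) .nil)) .nil)) (.cons 245 (.leaf 269 1967 (.cons 367 (.leaf 343 2164 (.cons 366 (.leaf 391 2356 (.cons 389 (.leaf 365 2350 (.cons 390 (.leaf 295 2357 (.leaf 413 2542 .nil)) .nil)) .nil)) .nil)) .nil)) (.cons 343 (.leaf 246 1972 (.leaf 367 2164 .nil)) .nil)))) .nil)) .nil)) .nil)) .nil)) (.cons 319 (.leaf 293 2347 (.cons 342 (.leaf 341 2538 (.cons 345 (.leaf 346 2544 (.cons 297 (.leaf 298 2353 (.cons 366 (.cons 271 (.leaf 295 2165 (.cons 367 (.leaf 391 2356 (.cons 389 (.leaf 365 2350 (.cons 390 (.leaf 413 2542 (.cons 369 (.leaf 368 2922 (.cons 394 (.leaf 370 2380 (.cons 393 (.leaf 418 2572 (.cons 343 (.leaf 270 2164 (.leaf 414 2549 .nil)) .nil)) .nil)) .nil)) .nil)) .nil)) .nil)) .nil)) (.cons 389 (.leaf 365 2350 (.cons 390 (.leaf 413 2542 (.cons 391 (.leaf 367 2356 (.leaf 415 2548 .nil)) .nil)) .nil)) (.cons 271 (.leaf 295 2165 (.cons 365 (.leaf 389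 2350 (.cons 367 (.leaf 391 2356 (.cons 270 (.leaf 343 2164 (.cons 269 (.leaf 249 1961 (.leaf 245 1967 .nil)) .nil)) .nil)) .nil)) .nil)) (.cons 295 (.leaf 271 2165 (.leaf 390 2357 .nil)) .nil)))) .nil)) .nil)) .nil)) .nil)) (.cons 319 (.leaf 293 2347 (.cons 342 (.leaf 341 2538 (.cons 345 (.leaf 346 2544 (.cons 297 (.leaf 298 2353 (.cons 366 (.cons 271 (.leaf 295 2165 (.cons 270 (.leaf 247 1973 (.cons 269 (.leaf 249 1961 (.leaf 245 1967 .nil)) .nil)) .nil)) (.cons 389 (.leaf 365 2350 (.cons 390 (.leaf 413 2542 (.cons 391 (.leaf 367 2356 (.leaf 415 2548 .nil)) .nil)) .nil)) .nil)) .nil)) .nil)) .nil)) .nil)) .nil))))))))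
noncomputable def top9 : T := .cons 341 (.leaf 342 2538 (.cons 293 (.leaf 294 2347 (.cons 317 (.leaf 292 2339 (.leaf 340 2530 .nil)) .nil)) .nil)) (.cons 345 (.leaf 346 2544 (.cons 293 (.leaf 294 2347 (.cons 317 (.leaf 292 2339 (.leaf 344 2536 .nil)) .nil)) .nil)) (.cons 345 (.leaf 346 2544 (.cons 297 (.leaf 298 2353 (.cons 317 (.leaf 344 2536 (.cons 341 (.leaf 340 2530 (.leaf 342 2538 .nil)) .nil)) .nil)) .nil)) (.cons 342 (.leaf 341 2538 (.cons 294 (.leaf 293 2347 (.cons 345 (.leaf 346 2544 (.cons 297 (.leaf 298 2353 (.cons 366 (.cons 389 (.leaf 365 2350 (.cons 390 (.leaf 295 2357 (.leaf 413 2542 .nil)) .nil)) (.cons 389 (.leaf 365 2350 (.cons 390 (.leaf 413 2542 (.cons 391 (.leaf 367 2356 (.leaf 415 2548 .nil)) .nil)) .nil)) (.cons 271 (.leaf 295 2165 (.cons 365 (.leaf 389 2350 (.cons 367 (.leaf 391 2356 (.cons 270 (.leaf 343 2164 (.cons 269 (.leaf 249 1961 (.leaf 245 1967 .nil))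 .nil)) .nil)) .nil)) .nil)) (.cons 295 (.leaf 271 2165 (.leaf 390 2357 .nil)) .nil)))) .nil)) .nil)) .nil)) .nil)) .nil)))
noncomputable def top10 : T := .cons 345 (.leaf 346 2544 (.cons 293 (.leaf 294 2347 (.cons 317 (.leaf 292 2339 (.leaf 344 2536 .nil)) .nil)) .nil)) (.cons 341 (.leaf 342 2538 (.cons 293 (.leaf 294 2347 (.cons 317 (.leaf 292 2339 (.leaf 340 2530 .nil)) .nil)) .nil)) (.cons 345 (.leaf 346 2544 (.cons 297 (.leaf 298 2353 (.cons 317 (.leaf 344 2536 (.cons 341 (.leaf 340 2530 (.leaf 342 2538 .nil)) .nil)) .nil)) .nil)) (.cons 294 (.leaf 293 2347 (.cons 342 (.leaf 341 2538 (.cons 345 (.leaf 346 2544 (.cons 297 (.leaf 298 2353 (.cons 270 (.cons 245 (.leaf 269 1967 (.cons 246 (.leaf 221 1775 (.leaf 343 1972 .nil)) .nil)) (.cons 245 (.leaf 269 1967 (.cons 246 (.leaf 221 1775 (.cons 222 (.leaf 295 1780 (.cons 223 (.leaf 247 1781 (.leaf 199 1589 .nil)) .nil)) .nil)) .nil))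 (.cons 245 (.leaf 269 1967 (.cons 367 (.leaf 343 2164 (.cons 366 (.leaf 391 2356 (.cons 295 (.leaf 390 2357 (.cons 365 (.leaf 389 2350 (.cons 368 (.leaf 344 2729 (.cons 392 (.leaf 369 2374 (.leaf 393 2920 .nil)) .nil)) .nil)) .nil)) .nil)) .nil)) .nil)) (.cons 343 (.leaf 246 1972 (.leaf 367 2164 .nil)) .nil)))) .nil)) .nil)) .nil)) .nil)) .nil)))
noncomputable def top11 : T := .cons 345 (.leaf 346 2544 (.cons 293 (.leaf 294 2347 (.cons 317 (.leaf 292 2339 (.leaf 344 2536 .nil)) .nil)) .nil)) (.cons 345 (.leaf 346 2544 (.cons 297 (.leaf 298 2353 (.cons 317 (.leaf 344 2536 (.cons 341 (.leaf 340 2530 (.leaf 342 2538 .nil)) .nil)) .nil)) .nil)) (.cons 293 (.leaf 294 2347 (.cons 317 (.leaf 292 2339 (.cons 341 (.leaf 340 2530 (.leaf 342 2538 .nil)) .nil)) .nil)) (.cons 342 (.leaf 341 2538 (.cons 294 (.leaf 293 2347 (.cons 345 (.leaf 346 2544 (.cons 297 (.leaf 298 2353 (.cons 366 (.cons 389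 (.leaf 365 2350 (.cons 390 (.leaf 295 2357 (.leaf 413 2542 .nil)) .nil)) (.cons 389 (.leaf 365 2350 (.cons 390 (.leaf 413 2542 (.cons 391 (.leaf 367 2356 (.leaf 415 2548 .nil)) .nil)) .nil)) (.cons 271 (.leaf 295 2165 (.cons 270 (.leaf 247 1973 (.cons 269 (.leaf 249 1961 (.leaf 245 1967 .nil)) .nil)) .nil)) .nil))) .nil)) .nil)) .nil)) .nil)) .nil)))
noncomputable def top12 : T := .cons 294 (.leaf 293 2347 (.cons 297 (.leaf 298 2353 (.cons 341 (.leaf 342 2538 (.cons 317 (.leaf 340 2530 (.cons 345 (.leaf 344 2536 (.leaf 346 2544 .nil)) .nil)) .nil)) .nil)) .nil)) (.cons 293 (.leaf 294 2347 (.cons 317 (.leaf 292 2339 (.cons 297 (.leaf 298 2353 (.cons 343 t25 .nil)) .nil)) .nil)) (.cons 341 (.leaf 342 2538 (.cons 293 (.leaf 294 2347 (.cons 317 (.leaf 292 2339 (.leaf 340 2530 .nil)) .nil)) .nil)) (.cons 345 (.leaf 346 2544 (.cons 297 (.leaf 298 2353 (.cons 317 (.leaf 344 2536 (.cons 341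 (.leaf 340 2530 (.leaf 342 2538 .nil)) .nil)) .nil)) .nil)) (.cons 345 (.leaf 346 2544 (.cons 293 (.leaf 294 2347 (.cons 317 (.leaf 292 2339 (.leaf 344 2536 .nil)) .nil)) .nil)) (.cons 294 (.leaf 293 2347 (.cons 342 (.leaf 341 2538 (.cons 345 (.leaf 346 2544 (.cons 297 (.leaf 298 2353 (.cons 270 (.cons 343 (.leaf 246 1972 (.leaf 367 2164 .nil)) (.cons 247 (.leaf 271 1973 (.cons 245 (.leaf 269 1967 (.cons 246 (.leaf 221 1775 (.leaf 223 1781 .nil)) .nil)) .nil)) (.cons 245 (.leaf 269 1967 (.cons 271 (.leaf 247 1973 (.cons 343 (.leaf 295 1981 (.leaf 367 2164 .nil)) .nil)) .nil)) .nil))) .nil)) .nil)) .nil)) .nil)) .nil)))))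
noncomputable def top13 : T := .cons 342 (.leaf 341 2538 (.cons 294 (.leaf 293 2347 (.cons 345 (.leaf 346 2544 (.cons 297 (.leaf 298 2353 (.cons 270 (.cons 343 (.leaf 246 1972 (.leaf 367 2164 .nil)) (.cons 247 (.leaf 271 1973 (.cons 245 (.leaf 269 1967 (.cons 246 (.leaf 221 1775 (.leaf 223 1781 .nil)) .nil)) .nil)) (.cons 245 (.leaf 269 1967 (.cons 247 (.leaf 271 1973 (.cons 367 (.leaf 343 2164 (.cons 366 (.leaf 391 2356 (.cons 365 (.leaf 389 2350 (.cons 368 (.leaf 344 2729 (.cons 392 (.leaf 369 2374 (.leaf 393 2920 .nil)) .nil)) .nil)) .nil)) .nil)) .nil)) .nil)) .nil))) .nil)) .nil)) .nil)) .nil)) (.cons 345 (.leaf 346 2544 (.cons 293 (.leaf 294 2347 (.cons 317 (.leaf 292 2339 (.leaf 344 2536 .nil)) .nil)) .nil)) (.cons 341 (.leaf 342 2538 (.cons 293 (.leaf 294 2347 (.cons 317 (.leaf 292 2339 (.leaf 340 2530 .nil)) .nil)) .nil)) (.cons 345 (.leaf 346 2544 (.cons 297 (.leaf 298 2353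 (.cons 317 (.leaf 344 2536 (.cons 341 (.leaf 340 2530 (.leaf 342 2538 .nil)) .nil)) .nil)) .nil)) .nil)))
noncomputable def top14 : T := .cons 341 (.leaf 342 2538 (.cons 293 (.leaf 294 2347 (.cons 317 (.leaf 292 2339 (.leaf 340 2530 .nil)) .nil)) .nil)) (.cons 345 (.leaf 346 2544 (.cons 293 (.leaf 294 2347 (.cons 317 (.leaf 292 2339 (.leaf 344 2536 .nil)) .nil)) .nil)) (.cons 345 (.leaf 346 2544 (.cons 297 (.leaf 298 2353 (.cons 317 (.leaf 344 2536 (.cons 341 (.leaf 340 2530 (.leaf 342 2538 .nil)) .nil)) .nil)) .nil)) (.cons 342 (.leaf 341 2538 (.cons 294 (.leaf 293 2347 (.cons 345 (.leaf 346 2544 (.cons 297 (.leaf 298 2353 (.cons 271 (.cons 295 (.leaf 343 1981 (.leaf 247 1974 .nil)) (.cons 270 (.leaf 247 1973 (.cons 269 (.leaf 249 1961 (.leaf 245 1967 .nil)) .nil)) (.cons 295 (.leaf 343 1981 (.leaf 366 2165 .nil)) .nil))) .nil)) .nil)) .nil)) .nil)) .nil)))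

end Vale.Agent.P062.PB.N1D0
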