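import Vale.Agent.P062.Checker

namespace Vale.Agent.P062.PB.N2D0

open Vale.Agent.P062

noncomputable def t0 : T := .cons 293 (.leaf 294 2347 (.cons 317 (.leaf 292 2339 (.cons 345 (.leaf 344 2536 (.leaf 346 2544 .nil)) .nil)) .nil)) (.cons 341 (.leaf 342 2538 (.cons 317 (.leaf 340 2530 (.cons 345 (.leaf 344 2536 (.leaf 346 2544 .nil)) .nil)) .nil)) (.cons 342 (.leaf 341 2538 (.cons 293 (.leaf 294 2347 (.cons 292 (.leaf 317 2339 (.cons 322 (.leaf 343 2546 (.cons 347 (.leaf 346 2552 (.cons 323 (.leaf 348 2560 (.cons 299 (.leaf 300 2369 (.cons 250 (.leaf 274 2007 (.cons 251 (.leaf 226 1815 (.cons 228 (.leaf 252 1821 (.cons 227 (.leaf 204 1629 (.leaf 249 1793 .nil)) .nil)) .nil)) .nil)) .nil)) .nil)) .nil)) .nil)) .nil)) .nil)) .nil)) (.cons 342 (.leaf 341 2538 (.cons 293 (.leaf 294 2347 (.cons 317 (.leaf 292 2339 (.cons 245 (.leaf 269 1964 (.cons 343 (.leaf 322 2546 (.cons 344 (.leaf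 345 2536 (.leaf 316 2528 .nil)) .nil)) .nil)) .nil)) .nil)) .nil)) (.cons 293 (.leaf 294 2347 (.cons 342 (.leaf 341 2538 (.cons 343 (.leaf 322 2546 (.cons 295 (.leaf 271 1981 (.cons 345 (.leaf 346 2544 (.cons 366 (.leaf 390 2357 (.cons 344 (.leaf 365 2730 (.cons 368 (.leaf 392 2367 (.cons 369 (.leaf 370 2736 (.cons 393 (.leaf 417 2567 (.cons 394 (.leaf 418 2572 (.leaf 367 2928 .nil)) .nil)) .nil)) .nil)) .nil)) .nil)) .nil)) .nil)) .nil)) .nil)) .nil)) .nil))))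
noncomputable def t1 : T := .cons 298 (.leaf 299 2361 (.cons 342 (.leaf 343 2546 (.cons 346 (.leaf 347 2552 (.cons 274 (.leaf 251 2005 (.cons 345 (.leaf 318 2544 (.leaf 250 1998 .nil)) .nil)) .nil)) .nil)) .nil)) (.cons 298 (.leaf 299 2361 (.cons 297 (.leaf 318 2353 (.cons 343 (.leaf 342 2546 (.cons 271 (.leaf 295 1981 (.cons 323 (.leaf 344 2554 (.cons 324 (.leaf 325 2379 (.cons 348 (.leaf 347 2560 (.leaf 349 2568 .nil)) .nil)) .nil)) .nil)) .nil)) .nil)) .nil)) (.cons 298 (.leaf 299 2361 (.cons 297 (.leaf 318 2353 (.cons 346 (.leaf 347 2552 (.cons 274 (.leaf 251 2005 (.cons 345 (.leaf 250 1998 (.leaf 369 2189 .nil)) .nil)) .nil)) .nil)) .nil)) (.cons 343 (.leaf 342 2546 (.cons 271 (.leaf 295 1981 (.cons 323 (.leaf 344 2554 (.cons 347 (.leaf 346 2552 (.leaf 348 2560 .nil)) .nil)) .nil)) .nil)) (.cons 343 (.leaf 342 2546 (.cons 271 (.leaf 295 1981 (.cons 298 (.leaf 299 2361 (.cons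 318 (.leaf 297 2353 (.cons 323 (.leaf 344 2554 (.cons 345 (.leaf 346 2544 (.cons 250 (.leaf 274 1998 (.cons 249 (.leaf 251 1978 (.cons 270 (.leaf 269 1961 (.leaf 247 1970 .nil)) .nil)) .nil)) .nil)) .nil)) .nil)) .nil)) .nil)) .nil)) .nil))))
noncomputable def t2 : T := .cons 293 (.leaf 294 2347 (.cons 292 (.leaf 317 2339 (.cons 298 (.leaf 297 2353 (.cons 322 (.leaf 299 2361 (.cons 343 (.leaf 342 2546 (.cons 271 (.leaf 295 1981 (.cons 270 (.leaf 269 2146 (.cons 323 (.leaf 344 2554 (.cons 347 (.leaf 348 2560 (.cons 250 (.leaf 274 2004 (.cons 249 (.leaf 251 1978 (.leaf 247 1970 .nil)) .nil)) .nil)) .nil)) .nil)) .nil)) .nil)) .nil)) .nil)) .nil)) .nil)) (.cons 294 (.leaf 293 2347 (.cons 295 (.leaf 322 2355 (.cons 271 (.leaf 343 1981 (.cons 247 (.leaf 344 1980 (.leaf 223 1782 .nil)) .nil)) .nil)) .nil)) (.cons 342 (.leaf 341 2538 (.cons 298 (.leaf 297 2353 (.cons 322 (.leaf 299 2361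 (.leaf 343 2546 .nil)) .nil)) .nil)) (.cons 294 (.leaf 293 2347 (.cons 295 (.leaf 322 2355 (.cons 297 (.leaf 298 2353 (.cons 341 (.leaf 342 2538 (.cons 317 (.leaf 340 2530 (.cons 270 (.leaf 246 1966 (.cons 316 (.leaf 315 2329 (.cons 292 (.leaf 291 2331 (.cons 268 (.leaf 244 1956 (.cons 269 (.leaf 267 2136 (.cons 271 (.leaf 249 1961 (.leaf 247 1953 .nil)) .nil)) .nil)) .nil)) .nil)) .nil)) .nil)) .nil)) .nil)) .nil)) .nil)) (.cons 341 (.leaf 342 2538 (.cons 293 (.leaf 294 2347 (.cons 317 (.leaf 292 2339 (.leaf 340 2530 .nil)) .nil)) .nil)) .nil))))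
noncomputable def t3 : T := .cons 342 (.leaf 341 2538 (.cons 293 (.leaf 294 2347 (.cons 297 (.leaf 298 2353 (.cons 322 (.leaf 343 2546 (.cons 346 (.leaf 345 2544 (.leaf 347 2552 .nil)) .nil)) .nil)) .nil)) .nil)) (.cons 345 (.leaf 346 2544 (.cons 293 (.leaf 294 2347 (.cons 317 (.leaf 292 2339 (.leaf 344 2536 .nil)) .nil)) .nil)) (.cons 342 (.leaf 341 2538 (.cons 293 (.leaf 294 2347 (.cons 292 (.leaf 317 2339 (.cons 322 (.leaf 343 2546 (.cons 347 (.leaf 346 2552 (.cons 323 (.leaf 348 2560 (.cons 299 (.leaf 298 2361 (.leaf 300 2369 .nil)) .nil)) .nil)) .nil)) .nil)) .nil)) .nil)) (.cons 342 (.leaf 341 2538 (.cons 293 (.leaf 294 2347 (.cons 292 (.leaf 317 2339 (.cons 298 (.leaf 297 2353 (.cons 322 (.leaf 299 2361 (.leaf 343 2546 .nil)) .nil)) .nil)) .nil)) .nil)) (.cons 342 (.leaf 341 2538 (.cons 297 (.leaf 298 2353 (.cons 322 (.leaf 343 2546 (.cons 347 (.leaf 346 2552 (.cons 323 (.leaf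 348 2560 (.cons 299 (.leaf 300 2369 (.cons 250 (.leaf 274 2007 (.cons 251 (.leaf 226 1815 (.cons 228 (.leaf 252 1821 (.cons 227 (.leaf 204 1629 (.leaf 249 1793 .nil)) .nil)) .nil)) .nil)) .nil)) .nil)) .nil)) .nil)) .nil)) .nil)) .nil))))
noncomputable def t4 : T := .cons 293 (.leaf 294 2347 (.cons 292 (.leaf 317 2339 (.cons 298 (.leaf 297 2353 (.cons 322 (.leaf 299 2361 (.cons 346 (.leaf 345 2544 (.leaf 347 2552 .nil)) .nil)) .nil)) .nil)) .nil)) (.cons 345 (.leaf 346 2544 (.cons 297 (.leaf 298 2353 (.cons 317 (.leaf 344 2536 (.cons 292 (.leaf 293 2339 (.cons 316 (.leaf 291 2331 (.cons 340 (.leaf 341 2530 (.leaf 339 2522 .nil)) .nil)) .nil)) .nil)) .nil)) .nil)) (.cons 294 (.leaf 293 2347 (.cons 295 (.leaf 322 2355 (.cons 297 (.leaf 298 2353 (.cons 341 (.leaf 342 2538 (.cons 317 (.leaf 340 2530 (.cons 270 (.leaf 246 1966 (.cons 316 (.leaf 315 2329 (.cons 292 (.leaf 291 2331 (.cons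 268 (.leaf 244 1956 (.cons 269 (.leaf 267 2136 (.cons 271 (.leaf 249 1961 (.leaf 247 1953 .nil)) .nil)) .nil)) .nil)) .nil)) .nil)) .nil)) .nil)) .nil)) .nil)) .nil)) (.cons 345 (.leaf 346 2544 (.cons 297 (.leaf 298 2353 (.cons 317 (.leaf 344 2536 (.cons 341 (.leaf 340 2530 (.leaf 342 2538 .nil)) .nil)) .nil)) .nil)) (.cons 294 (.leaf 293 2347 (.cons 295 (.leaf 322 2355 (.cons 341 (.leaf 342 2538 (.cons 317 (.leaf 340 2530 (.cons 345 (.leaf 344 2536 (.leaf 346 2544 .nil)) .nil)) .nil)) .nil)) .nil)) (.cons 294 (.leaf 293 2347 (.cons 295 (.leaf 322 2355 (.cons 297 (.leaf 298 2353 (.cons 342 (.leaf 341 2538 (.cons 271 (.leaf 247 1974 (.leaf 366 2165 .nil)) .nil)) .nil)) .nil)) .nil)) .nil)))))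
noncomputable def t5 : T := .cons 345 (.leaf 346 2544 (.cons 293 (.leaf 294 2347 (.cons 317 (.leaf 292 2339 (.leaf 344 2536 .nil)) .nil)) .nil)) (.cons 341 (.leaf 342 2538 (.cons 293 (.leaf 294 2347 (.cons 317 (.leaf 292 2339 (.leaf 340 2530 .nil)) .nil)) .nil)) (.cons 345 (.leaf 346 2544 (.cons 297 (.leaf 298 2353 (.cons 317 (.leaf 344 2536 (.cons 341 (.leaf 340 2530 (.leaf 342 2538 .nil)) .nil)) .nil)) .nil)) (.cons 342 (.leaf 341 2538 (.cons 294 (.leaf 293 2347 (.cons 345 (.leaf 346 2544 (.cons 297 (.leaf 298 2353 (.cons 270 (.cons 245 (.leaf 269 1967 (.cons 221 (.leaf 246 1775 (.cons 271 (.leaf 247 1973 (.cons 366 (.leaf 295 2165 (.cons 389 (.leaf 365 2350 (.cons 390 (.leaf 413 2542 (.cons 391 (.leaf 367 2356 (.leaf 415 2548 .nil)) .nil)) .nil)) .nil)) .nil)) .nil)) .nil)) (.cons 245 (.leaf 269 1967 (.cons 246 (.leaf 343 1972 (.leaf 221 1775 .nil)) .nil)) (.cons 245 (.leaf 269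 1967 (.cons 247 (.leaf 271 1973 (.cons 367 (.leaf 343 2164 (.cons 366 (.leaf 391 2356 (.cons 365 (.leaf 389 2350 (.cons 368 (.leaf 344 2729 (.cons 392 (.leaf 369 2374 (.leaf 393 2920 .nil)) .nil)) .nil)) .nil)) .nil)) .nil)) .nil)) (.cons 343 (.leaf 246 1972 (.leaf 367 2164 .nil)) .nil)))) .nil)) .nil)) .nil)) .nil)) .nil)))
noncomputable def t6 : T := .cons 293 (.leaf 294 2347 (.cons 292 (.leaf 317 2339 (.cons 298 (.leaf 297 2353 (.cons 322 (.leaf 299 2361 (.cons 347 (.leaf 346 2552 (.cons 323 (.leaf 348 2560 (.cons 250 (.leaf 274 2004 (.cons 343 (.leaf 342 2546 (.leaf 344 2554 .nil)) .nil)) .nil)) .nil)) .nil)) .nil)) .nil)) .nil)) (.cons 293 (.leaf 294 2347 (.cons 292 (.leaf 317 2339 (.cons 298 (.leaf 297 2353 (.cons 322 (.leaf 299 2361 (.cons 347 (.leaf 346 2552 (.cons 323 (.leaf 348 2560 (.cons 250 (.leaf 274 2004 (.cons 343 (.leaf 344 2554 (.cons 271 (.leaf 295 1981 (.cons 249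 (.leaf 251 1978 (.cons 270 (.leaf 269 1961 (.leaf 247 1970 .nil)) .nil)) .nil)) .nil)) .nil)) .nil)) .nil)) .nil)) .nil)) .nil)) .nil)) (.cons 297 (.leaf 298 2353 (.cons 341 (.leaf 342 2538 (.cons 317 (.leaf 340 2530 (.cons 345 (.leaf 344 2536 (.leaf 346 2544 .nil)) .nil)) .nil)) .nil)) (.cons 293 (.leaf 294 2347 (.cons 317 (.leaf 292 2339 (.cons 341 (.leaf 340 2530 (.leaf 342 2538 .nil)) .nil)) .nil)) (.cons 297 (.leaf 298 2353 (.cons 346 (.leaf 345 2544 (.cons 322 (.leaf 347 2552 (.cons 295 (.leaf 294 2355 (.cons 271 (.leaf 343 1981 (.cons 247 (.leaf 344 1980 (.leaf 342 1974 .nil)) .nil)) .nil)) .nil)) .nil)) .nil)) .nil))))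
noncomputable def t7 : T := .cons 251 (.cons 226 (.leaf 250 1815 (.cons 202 (.leaf 227 1623 (.cons 322 (.leaf 346 2006 (.leaf 300 2369 .nil)) .nil)) .nil)) (.cons 250 (.leaf 226 1815 (.cons 249 (.leaf 271 1978 (.cons 252 (.leaf 228 1821 (.cons 274 (.leaf 247 1976 (.leaf 347 2007 .nil)) .nil)) .nil)) .nil)) (.cons 322 (.leaf 346 2006 (.leaf 300 2369 .nil)) .nil))) (.cons 251 (.cons 228 (.leaf 252 1821 (.cons 227 (.leaf 204 1629 (.cons 202 (.leaf 226 1623 (.cons 203 (.leaf 178 1431 (.cons 200 (.leaf 201 1600 (.cons 229 (.leaf 230 1619 (.cons 298 (.leaf 274 1622 (.cons 300 (.leaf 324 1820 (.leaf 297 2370 .nil)) .nil)) .nil)) .nil)) .nil)) .nil)) .nil)) .nil)) (.cons 228 (.leaf 252 1821 (.cons 227 (.leaf 204 1629 (.cons 250 (.leaf 249 1793 (.cons 229 (.leaf 230 1810 (.cons 274 (.leaf 347 2007 (.cons 203 (.leaf 298 1622 (.leaf 179 1430 .nil)) .nil)) .nil)) .nil)) .nil)) .nil)) (.cons 226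 (.leaf 250 1815 (.cons 227 (.leaf 202 1623 (.cons 324 (.leaf 300 1820 (.leaf 348 2012 .nil)) .nil)) .nil)) (.cons 250 (.leaf 226 1815 (.cons 249 (.leaf 271 1978 (.cons 252 (.leaf 228 1821 (.cons 274 (.leaf 247 1976 (.leaf 347 2007 .nil)) .nil)) .nil)) .nil)) .nil)))) (.cons 251 (.cons 250 (.leaf 226 1815 (.cons 249 (.leaf 271 1978 (.cons 274 (.leaf 247 1976 (.leaf 347 2007 .nil)) .nil)) .nil)) (.cons 228 (.leaf 252 1821 (.cons 227 (.leaf 204 1629 (.cons 322 (.leaf 298 1814 (.leaf 346 2006 .nil)) .nil)) .nil)) .nil)) (.cons 322 (.leaf 300 2369 (.cons 343 (.leaf 344 2554 (.cons 347 (.leaf 348 2560 (.cons 250 (.leaf 274 2007 (.cons 370 (.leaf 346 2198 (.cons 371 (.leaf 394 2390 (.cons 395 (.leaf 298 2391 (.cons 396 (.leaf 372 2396 (.leaf 420 2588 .nil)) .nil)) .nil)) .nil)) .nil)) .nil)) .nil)) .nil)) (.cons 322 (.leaf 300 2369 (.cons 251 (.leaf 346 2006 (.cons 226 (.leaf 250 1815 (.cons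 227 (.leaf 202 1623 (.leaf 298 1814 .nil)) .nil)) .nil)) .nil)) (.cons 322 (.leaf 300 2369 (.cons 251 (.leaf 346 2006 (.cons 227 (.leaf 298 1814 (.cons 228 (.leaf 204 1629 (.leaf 252 1821 .nil)) .nil)) .nil)) .nil)) .nil)))))
noncomputable def t8 : T := .cons 346 (.leaf 370 2198 (.cons 322 (.leaf 251 2006 (.cons 344 (.leaf 343 2554 (.cons 324 (.leaf 345 2561 (.cons 325 (.leaf 326 2578 (.cons 298 (.leaf 297 2379 (.cons 371 (.leaf 274 2196 (.leaf 395 2391 .nil)) .nil)) .nil)) .nil)) .nil)) .nil)) .nil)) (.cons 250 (.leaf 274 2007 (.cons 251 (.leaf 226 1815 (.cons 228 (.leaf 252 1821 (.cons 227 (.leaf 204 1629 (.leaf 249 1793 .nil)) .nil)) .nil)) .nil)) (.cons 346 (.leaf 370 2198 (.cons 251 (.leaf 322 2006 (.cons 226 (.leaf 250 1815 (.cons 227 (.leaf 202 1623 (.cons 228 (.leaf 204 1629 (.leaf 252 1821 .nil)) .nil)) .nil)) .nil)) .nil)) (.cons 250 (.leaf 274 2007 (.cons 370 (.leaf 346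 2198 (.cons 371 (.leaf 394 2390 (.cons 396 (.leaf 372 2396 (.cons 395 (.leaf 420 2588 (.cons 322 (.leaf 298 2391 (.cons 344 (.leaf 343 2554 (.cons 324 (.leaf 345 2562 (.cons 368 (.leaf 369 2944 (.cons 392 (.leaf 297 2373 (.cons 415 (.leaf 391 2558 (.cons 416 (.leaf 439 2750 (.cons 417 (.leaf 393 2564 (.leaf 441 2756 .nil)) .nil)) .nil)) .nil)) .nil)) .nil)) .nil)) .nil)) .nil)) .nil)) .nil)) .nil)) .nil)) .nil)))
noncomputable def t9 : T := .cons 299 (.cons 250 (.leaf 274 2007 (.cons 346 (.leaf 370 2198 (.cons 348 (.leaf 372 2204 (.leaf 322 2560 .nil)) .nil)) .nil)) (.cons 250 (.leaf 274 2007 (.cons 251 (.leaf 226 1815 (.cons 228 (.leaf 252 1821 (.cons 227 (.leaf 204 1629 (.leaf 249 1793 .nil)) .nil)) .nil)) .nil)) (.cons 346 (.leaf 370 2198 (.cons 322 (.leaf 251 2006 (.leaf 348 2560 .nil)) .nil)) .nil))) (.cons 299 t8 (.cons 299 (.cons 250 (.leaf 274 2007 (.cons 346 (.leaf 370 2198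 (.cons 348 (.leaf 372 2204 (.leaf 345 2563 .nil)) .nil)) .nil)) (.cons 250 (.leaf 274 2007 (.cons 251 (.leaf 226 1815 (.cons 228 (.leaf 252 1821 (.cons 227 (.leaf 204 1629 (.leaf 249 1793 .nil)) .nil)) .nil)) .nil)) (.cons 346 (.leaf 370 2198 (.cons 345 (.leaf 348 2563 (.cons 344 (.leaf 324 2561 (.cons 368 (.leaf 367 2746 (.cons 392 (.leaf 297 2373 (.leaf 416 2565 .nil)) .nil)) .nil)) .nil)) .nil)) .nil))) (.cons 322 (.leaf 348 2560 (.cons 344 (.leaf 343 2554 (.cons 371 (.cons 298 (.leaf 395 2391 (.cons 274 (.leaf 250 2004 (.leaf 346 2196 .nil)) .nil)) (.cons 345 (.leaf 324 2562 (.cons 346 (.leaf 372 2752 (.cons 368 (.leaf 367 2746 (.cons 392 (.leaf 297 2373 (.leaf 416 2565 .nil)) .nil)) .nil)) .nil)) (.cons 395 (.leaf 298 2391 (.cons 394 (.leaf 418 2582 (.cons 420 (.leaf 396 2588 (.cons 419 (.leaf 444 2780 (.cons 392 (.leaf 393 3136 (.cons 368 (.leaf 297 2373 (.cons 415 (.leaf 391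 2558 (.cons 416 (.leaf 345 2565 (.leaf 439 2750 .nil)) .nil)) .nil)) .nil)) .nil)) .nil)) .nil)) .nil)) .nil))) .nil)) .nil)) (.cons 348 (.leaf 322 2560 (.cons 299 (.leaf 372 2204 (.cons 250 (.leaf 274 2007 (.cons 251 (.leaf 226 1815 (.leaf 324 2012 .nil)) .nil)) .nil)) .nil)) (.cons 348 (.leaf 322 2560 (.cons 299 (.leaf 372 2204 (.cons 346 (.leaf 370 2198 (.leaf 345 2563 .nil)) .nil)) .nil)) (.cons 348 (.leaf 322 2560 (.cons 346 (.leaf 345 2563 (.cons 299 (.leaf 370 2198 (.cons 250 (.leaf 274 2007 (.cons 251 (.leaf 226 1815 (.leaf 324 2012 .nil)) .nil)) .nil)) .nil)) .nil)) .nil))))))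
noncomputable def t10 : T := .cons 347 (.cons 346 (.leaf 370 2198 (.cons 251 (.leaf 322 2006 (.cons 226 (.leaf 250 1815 (.cons 227 (.leaf 202 1623 (.cons 228 (.leaf 204 1629 (.leaf 252 1821 .nil)) .nil)) .nil)) .nil)) .nil)) (.cons 346 (.leaf 370 2198 (.cons 348 (.leaf 372 2204 (.leaf 345 2563 .nil)) .nil)) (.cons 250 (.leaf 274 2007 (.cons 251 (.leaf 226 1815 (.cons 228 (.leaf 252 1821 (.cons 227 (.leaf 204 1629 (.leaf 249 1793 .nil)) .nil)) .nil)) .nil)) .nil))) (.cons 347 (.cons 346 (.leaf 370 2198 (.cons 348 (.leaf 372 2204 (.leaf 345 2563 .nil)) .nil)) (.cons 250 (.leaf 274 2007 (.cons 251 (.leaf 226 1815 (.cons 228 (.leaf 252 1821 (.cons 227 (.leaf 204 1629 (.leaf 249 1793 .nil)) .nil)) .nil)) .nil)) .nil)) (.cons 322 (.leaf 300 2369 (.cons 251 (.leaf 346 2006 (.cons 226 (.leaf 250 1815 (.cons 227 (.leaf 202 1623 (.leaf 298 1814 .nil)) .nil)) .nil)) .nil)) (.cons 322 (.leaf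 300 2369 (.cons 343 (.leaf 344 2554 (.cons 347 (.leaf 348 2560 (.cons 250 (.leaf 274 2007 (.cons 370 (.leaf 346 2198 (.cons 371 (.leaf 394 2390 (.cons 395 (.leaf 298 2391 (.cons 396 (.leaf 372 2396 (.leaf 420 2588 .nil)) .nil)) .nil)) .nil)) .nil)) .nil)) .nil)) .nil)) (.cons 322 (.leaf 300 2369 (.cons 251 (.leaf 346 2006 (.cons 227 (.leaf 298 1814 (.cons 228 (.leaf 204 1629 (.leaf 252 1821 .nil)) .nil)) .nil)) .nil)) (.cons 322 (.leaf 300 2369 (.cons 347 (.leaf 348 2560 (.cons 250 (.leaf 274 2007 (.cons 251 (.leaf 226 1815 (.cons 227 (.leaf 298 1814 (.cons 228 (.leaf 204 1629 (.leaf 252 1821 .nil)) .nil)) .nil)) .nil)) .nil)) .nil)) .nil)))))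
noncomputable def t11 : T := .cons 347 (.leaf 348 2560 (.cons 299 (.leaf 300 2369 (.cons 346 (.leaf 251 2006 (.leaf 370 2198 .nil)) .nil)) .nil)) (.cons 348 (.leaf 347 2560 (.cons 324 (.leaf 349 2568 (.cons 301 (.leaf 300 2377 (.cons 325 (.leaf 302 2385 (.cons 298 (.leaf 297 2379 (.cons 253 (.leaf 277 2022 (.cons 372 (.leaf 396 2405 (.cons 274 (.cons 346 (.leaf 251 2005 (.leaf 345 2570 .nil)) (.cons 251 (.leaf 346 2005 (.cons 227 (.leaf 203 1622 (.leaf 250 1813 .nil)) .nil)) (.cons 250 (.leaf 345 1998 (.cons 249 (.leaf 247 1976 (.leaf 225 1807 .nil)) .nil)) .nil))) .nil)) .nil)) .nil)) .nil)) .nil)) .nil)) .nil)) (.cons 299 (.leaf 300 2369 (.cons 251 (.leaf 346 2006 (.cons 226 (.leaf 250 1815 (.cons 227 (.leaf 202 1623 (.leaf 298 1814 .nil)) .nil)) .nil)) .nil)) (.cons 347 (.leaf 348 2560 (.cons 299 (.cons 346 (.leaf 251 2006 (.leaf 370 2198 .nil)) (.cons 250 (.leaf 274 2007 (.cons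 251 (.leaf 226 1815 (.cons 227 (.leaf 298 1814 (.cons 228 (.leaf 204 1629 (.leaf 252 1821 .nil)) .nil)) .nil)) .nil)) (.cons 250 (.leaf 274 2007 (.cons 370 (.leaf 346 2198 (.cons 371 (.leaf 394 2390 (.cons 395 (.leaf 298 2391 (.cons 396 (.leaf 372 2396 (.leaf 420 2588 .nil)) .nil)) .nil)) .nil)) .nil)) .nil))) .nil)) (.cons 299 (.leaf 300 2369 (.cons 347 (.leaf 348 2560 (.cons 250 (.leaf 274 2007 (.cons 251 (.leaf 226 1815 (.cons 227 (.leaf 298 1814 (.cons 228 (.leaf 204 1629 (.leaf 252 1821 .nil)) .nil)) .nil)) .nil)) .nil)) .nil)) (.cons 348 (.leaf 347 2560 (.cons 300 (.leaf 299 2369 (.cons 324 (.leaf 301 2377 (.leaf 349 2568 .nil)) .nil)) .nil)) .nil)))))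
noncomputable def t12 : T := .cons 322 (.leaf 300 2369 (.cons 251 (.leaf 346 2006 (.cons 226 (.leaf 250 1815 (.cons 227 (.leaf 202 1623 (.leaf 298 1814 .nil)) .nil)) .nil)) .nil)) (.cons 251 (.cons 228 (.leaf 252 1821 (.cons 227 (.leaf 204 1629 (.cons 202 (.leaf 226 1623 (.cons 203 (.leaf 178 1431 (.cons 200 (.leaf 201 1600 (.cons 229 (.leaf 230 1619 (.cons 298 (.leaf 274 1622 (.cons 300 (.leaf 324 1820 (.leaf 297 2370 .nil)) .nil)) .nil)) .nil)) .nil)) .nil)) .nil)) .nil)) (.cons 228 (.leaf 252 1821 (.cons 227 (.leaf 204 1629 (.cons 250 (.leaf 249 1793 (.cons 229 (.leaf 230 1810 (.cons 274 (.leaf 347 2007 (.cons 203 (.leaf 298 1622 (.leaf 179 1430 .nil)) .nil)) .nil)) .nil)) .nil)) .nil)) (.cons 250 (.leaf 226 1815 (.cons 249 (.leaf 271 1978 (.cons 274 (.leaf 247 1976 (.leaf 347 2007 .nil)) .nil)) .nil)) (.cons 250 (.leaf 226 1815 (.cons 228 (.leaf 252 1821 (.cons 227 (.leaf 204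 1629 (.leaf 249 1793 .nil)) .nil)) .nil)) .nil)))) (.cons 251 (.cons 228 (.leaf 252 1821 (.cons 227 (.leaf 204 1629 (.cons 322 (.leaf 298 1814 (.leaf 346 2006 .nil)) .nil)) .nil)) (.cons 250 (.leaf 226 1815 (.cons 249 (.leaf 271 1978 (.cons 274 (.leaf 247 1976 (.leaf 347 2007 .nil)) .nil)) .nil)) .nil)) (.cons 322 (.leaf 300 2369 (.cons 344 (.leaf 343 2554 (.cons 345 (.leaf 324 2562 (.cons 298 (.cons 274 (.leaf 250 1998 (.cons 369 (.leaf 297 2189 (.leaf 393 2381 .nil)) .nil)) (.cons 370 (.leaf 346 2197 (.cons 369 (.leaf 393 2381 (.cons 297 (.leaf 394 2380 (.cons 368 (.leaf 392 2373 (.cons 371 (.leaf 372 2755 (.cons 395 (.leaf 347 2391 (.leaf 396 2944 .nil)) .nil)) .nil)) .nil)) .nil)) .nil)) (.cons 274 (.leaf 250 1998 (.cons 346 (.leaf 370 2197 (.cons 347 (.leaf 371 2196 (.cons 368 (.leaf 367 2746 (.cons 392 (.leaf 297 2373 (.leaf 416 2565 .nil)) .nil)) .nil)) .nil)) .nil)) (.cons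 250 (.leaf 274 1998 (.cons 369 (.leaf 393 2381 (.cons 370 (.leaf 346 2197 (.cons 371 (.leaf 372 2755 (.cons 347 (.leaf 395 2391 (.leaf 394 2390 .nil)) .nil)) .nil)) .nil)) .nil)) .nil)))) .nil)) .nil)) .nil)) (.cons 322 (.leaf 300 2369 (.cons 251 (.leaf 346 2006 (.cons 227 (.leaf 298 1814 (.cons 228 (.leaf 204 1629 (.leaf 252 1821 .nil)) .nil)) .nil)) .nil)) (.cons 322 (.leaf 300 2369 (.cons 251 (.leaf 346 2006 (.cons 226 (.leaf 250 1815 (.cons 227 (.leaf 202 1623 (.cons 228 (.leaf 204 1629 (.leaf 252 1821 .nil)) .nil)) .nil)) .nil)) .nil)) .nil)))))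
noncomputable def t13 : T := .cons 345 (.leaf 372 2752 (.cons 395 (.leaf 419 2583 (.cons 367 (.leaf 368 2746 (.cons 394 (.leaf 418 2582 (.cons 370 (.leaf 297 2383 (.cons 393 (.leaf 417 2574 (.cons 392 (.leaf 391 2937 (.cons 416 (.leaf 369 2566 (.leaf 415 3130 .nil)) .nil)) .nil)) .nil)) .nil)) .nil)) .nil)) .nil)) (.cons 345 (.leaf 372 2752 (.cons 368 (.leaf 367 2746 (.cons 392 (.leaf 297 2373 (.leaf 416 2565 .nil)) .nil)) .nil)) (.cons 395 (.leaf 419 2583 (.cons 394 (.leaf 418 2582 (.cons 297 (.leaf 370 2383 (.cons 392 (.leaf 368 2373 (.cons 393 (.leaf 372 2945 (.cons 396 (.leaf 420 2588 (.cons 416 (.leaf 415 3130 (.leaf 417 3138 .nil)) .nil)) .nil)) .nil)) .nil)) .nil)) .nil)) (.cons 395 (.leaf 419 2583 (.cons 394 (.leaf 418 2582 (.cons 370 (.leaf 297 2383 (.cons 393 (.leaf 417 2574 (.cons 391 (.leaf 392 2937 (.cons 396 (.leaf 420 2588 (.cons 369 (.leaf 368 2944 (.leaf 397 2955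 .nil)) .nil)) .nil)) .nil)) .nil)) .nil)) .nil)) (.cons 395 (.leaf 419 2583 (.cons 345 (.leaf 372 2752 (.cons 394 (.leaf 418 2582 (.cons 370 (.leaf 297 2383 (.cons 393 (.leaf 417 2574 (.cons 392 (.leaf 391 2937 (.cons 416 (.leaf 369 2566 (.leaf 415 3130 .nil)) .nil)) .nil)) .nil)) .nil)) .nil)) .nil)) (.cons 395 (.leaf 419 2583 (.cons 345 (.leaf 372 2752 (.cons 367 (.leaf 368 2746 (.cons 394 (.leaf 418 2582 (.cons 370 (.leaf 297 2383 (.cons 396 (.leaf 420 2588 (.cons 397 (.leaf 398 2963 (.leaf 369 2955 .nil)) .nil)) .nil)) .nil)) .nil)) .nil)) .nil)) (.cons 395 (.leaf 419 2583 (.cons 345 (.leaf 372 2752 (.cons 368 (.leaf 367 2746 (.cons 392 (.leaf 416 2565 (.cons 391 (.leaf 415 2558 (.cons 369 (.leaf 370 2938 (.cons 393 (.leaf 417 2564 (.cons 394 (.leaf 418 2572 (.leaf 396 2947 .nil)) .nil)) .nil)) .nil)) .nil)) .nil)) .nil)) .nil)) .nil))))))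
noncomputable def t14 : T := .cons 395 (.leaf 298 2391 (.cons 346 (.leaf 419 2583 (.cons 345 (.leaf 372 2752 (.cons 367 (.leaf 368 2746 (.cons 394 (.leaf 418 2582 (.cons 370 (.leaf 297 2383 (.cons 393 (.leaf 417 2574 (.cons 392 (.leaf 391 2937 (.cons 416 (.leaf 369 2566 (.leaf 415 3130 .nil)) .nil)) .nil)) .nil)) .nil)) .nil)) .nil)) .nil)) .nil)) (.cons 346 (.cons 345 (.leaf 372 2752 (.cons 368 (.leaf 367 2746 (.cons 392 (.leaf 297 2373 (.leaf 416 2565 .nil)) .nil)) .nil)) (.cons 298 (.leaf 274 2196 (.cons 370 (.cons 394 (.leaf 297 2383 (.leaf 418 2581 .nil)) (.cons 369 (.leaf 393 2382 (.cons 368 (.leaf 367 2745 (.cons 392 (.leaf 297 2373 (.leaf 391 2938 .nil)) .nil)) .nil)) (.cons 393 (.leaf 369 2382 (.cons 394 (.leaf 418 2581 (.leaf 417 2574 .nil)) .nil)) .nil))) .nil)) (.cons 298 (.leaf 274 2196 (.cons 372 (.leaf 345 2752 (.cons 373 (.leaf 374 2771 (.cons 370 (.cons 394 (.leaf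 297 2383 (.leaf 418 2581 .nil)) (.cons 349 (.leaf 350 2769 (.cons 369 (.leaf 393 2382 (.cons 397 (.leaf 396 2952 (.leaf 398 2960 .nil)) .nil)) .nil)) .nil)) .nil)) .nil)) .nil)) (.cons 298 (.leaf 274 2196 (.cons 345 (.leaf 372 2752 (.cons 368 (.leaf 367 2746 (.cons 369 (.leaf 393 2381 (.cons 392 (.leaf 416 2565 (.cons 391 (.leaf 415 2558 (.leaf 370 2938 .nil)) .nil)) .nil)) .nil)) .nil)) .nil)) .nil)))) (.cons 346 t13 (.cons 395 (.leaf 298 2391 (.cons 394 (.leaf 418 2582 (.cons 420 (.leaf 396 2588 (.cons 419 (.leaf 444 2780 (.cons 392 (.leaf 393 3136 (.cons 368 (.leaf 297 2373 (.cons 415 (.leaf 391 2558 (.cons 416 (.leaf 345 2565 (.leaf 439 2750 .nil)) .nil)) .nil)) .nil)) .nil)) .nil)) .nil)) .nil)) (.cons 395 (.leaf 298 2391 (.cons 346 (.leaf 419 2583 (.cons 394 (.leaf 418 2582 (.cons 297 (.leaf 370 2383 (.cons 392 (.leaf 368 2373 (.cons 393 (.leaf 372 2945 (.cons 396 (.leaf 420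 2588 (.cons 416 (.leaf 415 3130 (.leaf 417 3138 .nil)) .nil)) .nil)) .nil)) .nil)) .nil)) .nil)) .nil)) (.cons 298 (.leaf 395 2391 (.cons 274 (.leaf 250 2004 (.leaf 346 2196 .nil)) .nil)) .nil)))))
noncomputable def t15 : T := .cons 344 (.leaf 343 2554 (.cons 324 (.leaf 345 2562 (.cons 348 (.leaf 347 2560 (.leaf 349 2568 .nil)) .nil)) .nil)) (.cons 348 (.leaf 347 2560 (.cons 324 (.leaf 349 2568 (.cons 301 (.leaf 300 2377 (.cons 325 (.leaf 302 2385 (.cons 298 (.leaf 297 2379 (.cons 253 (.leaf 277 2022 (.cons 372 (.leaf 396 2405 (.cons 274 (.cons 346 (.leaf 251 2005 (.leaf 345 2570 .nil)) (.cons 251 (.leaf 346 2005 (.cons 227 (.leaf 203 1622 (.leaf 250 1813 .nil)) .nil)) (.cons 250 (.leaf 345 1998 (.cons 249 (.leaf 247 1976 (.leaf 225 1807 .nil)) .nil)) .nil))) .nil)) .nil)) .nil)) .nil)) .nil)) .nil)) .nil)) (.cons 344 (.leaf 343 2554 (.cons 324 (.leaf 345 2562 (.cons 301 (.leaf 300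 2377 (.cons 325 (.leaf 302 2385 (.cons 350 (.leaf 349 2576 (.cons 326 (.leaf 351 2584 (.cons 298 (.leaf 297 2379 (.cons 374 (.leaf 398 2415 (.cons 274 (.cons 346 (.leaf 251 2005 (.leaf 347 2578 .nil)) (.cons 251 (.leaf 346 2005 (.cons 227 (.leaf 203 1622 (.leaf 250 1813 .nil)) .nil)) (.cons 250 (.leaf 347 2004 (.cons 249 (.leaf 247 1976 (.leaf 225 1807 .nil)) .nil)) .nil))) .nil)) .nil)) .nil)) .nil)) .nil)) .nil)) .nil)) .nil)) (.cons 344 (.leaf 343 2554 (.cons 324 (.leaf 345 2562 (.cons 301 (.leaf 300 2377 (.cons 325 (.leaf 302 2385 (.cons 349 (.leaf 348 2568 (.leaf 350 2576 .nil)) .nil)) .nil)) .nil)) .nil)) (.cons 347 (.leaf 348 2560 (.cons 344 (.leaf 343 2554 (.cons 371 t14 .nil)) .nil)) (.cons 344 (.leaf 343 2554 (.cons 324 (.cons 301 (.leaf 300 2377 (.cons 325 (.leaf 302 2385 (.cons 350 (.leaf 349 2576 (.cons 326 (.leaf 351 2584 (.cons 298 (.leaf 297 2379 (.cons 374 (.leaf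 398 2415 (.cons 274 (.cons 346 (.leaf 251 2005 (.leaf 347 2578 .nil)) (.cons 251 (.leaf 346 2005 (.cons 227 (.leaf 203 1622 (.leaf 250 1813 .nil)) .nil)) (.cons 250 (.leaf 347 2004 (.cons 249 (.leaf 247 1976 (.leaf 225 1807 .nil)) .nil)) .nil))) .nil)) .nil)) .nil)) .nil)) .nil)) .nil)) (.cons 301 (.leaf 300 2377 (.cons 325 (.leaf 302 2385 (.cons 298 (.leaf 297 2379 (.cons 347 (.leaf 348 2560 (.cons 274 (.leaf 250 2004 (.cons 346 (.leaf 251 2005 (.leaf 326 2578 .nil)) .nil)) .nil)) .nil)) .nil)) .nil)) (.cons 301 (.leaf 300 2377 (.cons 325 (.leaf 302 2385 (.cons 349 (.leaf 348 2568 (.leaf 350 2576 .nil)) .nil)) .nil)) (.cons 348 (.leaf 347 2560 (.leaf 349 2568 .nil)) .nil)))) .nil)) (.cons 344 (.leaf 343 2554 (.cons 324 (.leaf 345 2562 (.cons 301 (.leaf 300 2377 (.cons 325 (.leaf 302 2385 (.cons 298 (.leaf 297 2379 (.cons 347 (.leaf 348 2560 (.cons 274 (.leaf 250 2004 (.cons 346 (.leaf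 251 2005 (.leaf 326 2578 .nil)) .nil)) .nil)) .nil)) .nil)) .nil)) .nil)) .nil)) .nil))))))
noncomputable def t16 : T := .cons 370 (.leaf 346 2198 (.cons 371 (.leaf 394 2390 (.cons 298 (.leaf 274 2199 (.cons 300 (.leaf 297 2370 (.cons 395 (.leaf 324 2397 (.cons 396 (.leaf 372 2396 (.leaf 420 2588 .nil)) .nil)) .nil)) .nil)) .nil)) .nil)) (.cons 346 (.leaf 370 2198 (.cons 345 (.leaf 348 2563 (.cons 344 (.leaf 324 2561 (.cons 368 (.leaf 367 2746 (.cons 392 (.leaf 297 2373 (.leaf 416 2565 .nil)) .nil)) .nil)) .nil)) .nil)) (.cons 372 (.leaf 348 2204 (.cons 371 (.leaf 396 2396 (.cons 298 (.leaf 274 2199 (.cons 300 (.leaf 297 2370 (.cons 394 (.leaf 370 2390 (.cons 395 (.leaf 324 2397 (.leaf 418 2582 .nil)) .nil)) .nil)) .nil)) .nil)) .nil)) (.cons 348 (.leaf 372 2204 (.cons 324 (.leaf 251 2012 (.cons 346 (.leaf 345 2563 (.cons 349 (.cons 326 (.leaf 325 2577 (.cons 350 (.leaf 351 2587 (.leaf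 327 2585 .nil)) .nil)) (.cons 350 (.leaf 351 2587 (.cons 374 (.leaf 373 2768 (.leaf 375 2776 .nil)) .nil)) (.cons 325 (.leaf 326 2577 (.cons 373 (.leaf 374 2768 (.cons 397 (.leaf 421 2599 (.leaf 300 2407 .nil)) .nil)) .nil)) .nil))) .nil)) .nil)) .nil)) (.cons 346 (.leaf 370 2198 (.cons 348 (.leaf 372 2204 (.leaf 345 2563 .nil)) .nil)) .nil))))
noncomputable def t17 : T := .cons 251 (.cons 226 (.leaf 250 1815 (.cons 227 (.leaf 202 1623 (.cons 228 (.leaf 204 1629 (.leaf 252 1821 .nil)) .nil)) .nil)) (.cons 324 (.leaf 348 2012 (.cons 227 (.leaf 300 1820 (.cons 228 (.leaf 204 1629 (.leaf 252 1821 .nil)) .nil)) .nil)) (.cons 226 (.leaf 250 1815 (.cons 227 (.leaf 202 1623 (.cons 324 (.leaf 300 1820 (.leaf 348 2012 .nil)) .nil)) .nil)) (.cons 226 (.leaf 250 1815 (.cons 228 (.leaf 252 1821 (.cons 348 (.leaf 324 2012 (.cons 347 (.leaf 372 2204 (.cons 346 (.leaf 370 2198 (.leaf 345 2563 .nil))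 .nil)) .nil)) .nil)) .nil)) .nil)))) (.cons 251 (.cons 250 (.leaf 226 1815 (.cons 249 (.leaf 271 1978 (.cons 252 (.leaf 228 1821 (.cons 274 (.leaf 247 1976 (.cons 253 (.leaf 254 2002 (.cons 324 (.leaf 348 2012 (.cons 229 (.leaf 230 1809 (.cons 277 (.leaf 278 2000 (.cons 301 (.leaf 300 1830 (.cons 326 (.leaf 302 1836 (.cons 325 (.leaf 298 2387 (.leaf 350 2028 .nil)) .nil)) .nil)) .nil)) .nil)) .nil)) .nil)) .nil)) .nil)) .nil)) .nil)) (.cons 324 (.leaf 348 2012 (.cons 227 (.leaf 300 1820 (.cons 228 (.leaf 204 1629 (.leaf 252 1821 .nil)) .nil)) .nil)) (.cons 250 (.leaf 226 1815 (.cons 228 (.leaf 252 1821 (.cons 227 (.leaf 204 1629 (.leaf 249 1793 .nil)) .nil)) .nil)) (.cons 250 (.leaf 226 1815 (.cons 249 (.leaf 271 1978 (.cons 274 (.leaf 247 1976 (.cons 324 (.leaf 348 2012 (.cons 227 (.leaf 300 1820 (.cons 203 (.leaf 298 1622 (.leaf 179 1430 .nil)) .nil)) .nil)) .nil)) .nil)) .nil))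 .nil)))) (.cons 347 (.cons 346 (.leaf 370 2198 (.cons 348 (.leaf 372 2204 (.leaf 345 2563 .nil)) .nil)) (.cons 274 (.leaf 250 2007 (.cons 298 (.leaf 371 2199 (.cons 297 (.leaf 300 2370 (.cons 345 (.leaf 369 2189 (.cons 346 (.leaf 370 2198 (.cons 344 (.leaf 324 2561 (.cons 368 (.leaf 392 2373 (.leaf 367 2746 .nil)) .nil)) .nil)) .nil)) .nil)) .nil)) .nil)) (.cons 274 (.leaf 250 2007 (.cons 298 (.leaf 371 2199 (.cons 300 (.leaf 297 2370 (.cons 301 (.leaf 302 2195 (.cons 277 (.leaf 278 2193 (.cons 325 (.leaf 326 2384 (.cons 348 (.leaf 372 2204 (.cons 253 (.leaf 324 2022 (.cons 228 (.leaf 252 1831 (.cons 229 (.leaf 204 1639 (.cons 230 (.leaf 206 1645 (.leaf 254 1837 .nil)) .nil)) .nil)) .nil)) .nil)) .nil)) .nil)) .nil)) .nil)) .nil)) .nil)) .nil))) (.cons 347 t16 (.cons 251 (.cons 228 (.leaf 252 1821 (.cons 227 (.leaf 204 1629 (.cons 202 (.leaf 226 1623 (.cons 203 (.leaf 178 1431 (.cons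 200 (.leaf 201 1600 (.cons 229 (.leaf 230 1619 (.cons 298 (.leaf 274 1622 (.cons 300 (.leaf 324 1820 (.leaf 297 2370 .nil)) .nil)) .nil)) .nil)) .nil)) .nil)) .nil)) .nil)) (.cons 228 (.leaf 252 1821 (.cons 227 (.leaf 204 1629 (.cons 250 (.leaf 249 1793 (.cons 229 (.leaf 230 1810 (.cons 274 (.leaf 347 2007 (.cons 203 (.leaf 298 1622 (.leaf 179 1430 .nil)) .nil)) .nil)) .nil)) .nil)) .nil)) (.cons 250 (.leaf 226 1815 (.cons 249 (.leaf 271 1978 (.cons 274 (.leaf 247 1976 (.leaf 347 2007 .nil)) .nil)) .nil)) (.cons 250 (.leaf 226 1815 (.cons 228 (.leaf 252 1821 (.cons 227 (.leaf 204 1629 (.leaf 249 1793 .nil)) .nil)) .nil)) .nil)))) (.cons 347 (.cons 346 (.leaf 370 2198 (.cons 348 (.leaf 372 2204 (.leaf 345 2563 .nil)) .nil)) (.cons 250 (.leaf 274 2007 (.cons 251 (.leaf 226 1815 (.cons 228 (.leaf 252 1821 (.cons 227 (.leaf 204 1629 (.leaf 249 1793 .nil)) .nil)) .nil)) .nil)) .nil)) .nil)))))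
noncomputable def t18 : T := .cons 342 (.leaf 341 2538 (.cons 343 (.leaf 322 2546 (.cons 295 (.leaf 271 1981 (.cons 366 (.leaf 390 2357 (.cons 367 (.cons 297 (.leaf 298 2353 (.cons 391 (.leaf 294 2356 (.leaf 415 2551 .nil)) .nil)) (.cons 297 (.leaf 298 2353 (.cons 391 (.leaf 415 2551 (.cons 392 (.leaf 368 2364 (.leaf 416 2556 .nil)) .nil)) .nil)) (.cons 294 (.leaf 270 2164 (.cons 297 (.leaf 298 2353 (.cons 365 (.leaf 389 2350 (.cons 364 (.leaf 363 2713 (.leaf 344 2721 .nil)) .nil)) .nil)) .nil)) (.cons 294 (.leaf 270 2164 (.leaf 391 2356 .nil)) .nil)))) .nil)) .nil)) .nil)) .nil)) (.cons 346 (.leaf 345 2544 (.cons 297 (.leaf 298 2353 (.cons 322 (.leaf 347 2552 (.cons 295 (.leaf 294 2355 (.cons 271 (.leaf 343 1981 (.cons 247 (.leaf 344 1980 (.cons 246 (.leaf 222 1783 (.cons 245 (.leaf 244 1952 (.cons 220 (.leaf 221 1763 (.cons 269 (.leaf 268 1954 (.cons 249 (.leaf 270 1961 (.cons 250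 (.leaf 274 1976 (.leaf 251 1978 .nil)) .nil)) .nil)) .nil)) .nil)) .nil)) .nil)) .nil)) .nil)) .nil)) .nil)) .nil)) (.cons 345 (.leaf 346 2544 (.cons 297 (.leaf 298 2353 (.cons 317 (.leaf 344 2536 (.cons 341 (.leaf 340 2530 (.leaf 342 2538 .nil)) .nil)) .nil)) .nil)) (.cons 342 (.leaf 341 2538 (.cons 322 (.leaf 343 2546 (.cons 346 (.leaf 345 2544 (.leaf 347 2552 .nil)) .nil)) .nil)) .nil)))
noncomputable def t19 : T := .cons 342 (.leaf 341 2538 (.cons 343 (.leaf 322 2546 (.cons 271 (.leaf 295 1981 (.cons 297 (.leaf 298 2353 (.cons 317 (.cons 316 (.leaf 344 2528 (.leaf 315 2520 .nil)) (.cons 293 (.leaf 292 2339 (.cons 269 (.leaf 245 1964 (.cons 249 (.leaf 270 1961 (.cons 250 (.leaf 251 1978 (.cons 247 (.leaf 274 1976 (.cons 222 (.leaf 223 1779 (.cons 226 (.leaf 227 1785 (.cons 246 (.leaf 221 1771 (.leaf 225 1777 .nil)) .nil)) .nil)) .nil)) .nil)) .nil)) .nil)) .nil)) .nil)) .nil))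 .nil)) .nil)) .nil)) (.cons 345 (.leaf 346 2544 (.cons 297 (.leaf 298 2353 (.cons 317 (.leaf 344 2536 (.cons 292 (.leaf 293 2339 (.cons 316 (.leaf 291 2331 (.cons 340 (.leaf 341 2530 (.leaf 339 2522 .nil)) .nil)) .nil)) .nil)) .nil)) .nil)) (.cons 345 (.leaf 346 2544 (.cons 344 (.leaf 317 2536 (.cons 297 (.leaf 298 2353 (.cons 369 (.cons 392 (.leaf 368 2373 (.cons 393 (.leaf 417 2567 (.leaf 416 2566 .nil)) .nil)) (.cons 370 (.leaf 394 2380 (.cons 343 (.leaf 342 2736 (.cons 371 (.leaf 372 2755 (.leaf 368 2747 .nil)) .nil)) .nil)) (.cons 393 (.leaf 417 2567 (.cons 394 (.leaf 370 2380 (.leaf 418 2572 .nil)) .nil)) .nil))) .nil)) .nil)) .nil)) (.cons 342 (.leaf 341 2538 (.cons 297 (.leaf 298 2353 (.cons 322 (.leaf 343 2546 (.cons 346 (.leaf 345 2544 (.leaf 347 2552 .nil)) .nil)) .nil)) .nil)) (.cons 342 (.leaf 341 2538 (.cons 322 (.leaf 343 2546 (.cons 346 (.leaf 345 2544 (.leaf 347 2552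 .nil)) .nil)) .nil)) .nil))))
noncomputable def t20 : T := .cons 297 (.leaf 298 2353 (.cons 346 (.leaf 345 2544 (.cons 322 (.leaf 347 2552 (.cons 295 (.leaf 294 2355 (.cons 271 (.leaf 343 1981 (.cons 247 (.leaf 344 1980 (.cons 246 (.leaf 222 1783 (.cons 245 (.leaf 244 1952 (.cons 220 (.leaf 221 1763 (.cons 269 (.leaf 268 1954 (.cons 249 (.leaf 270 1961 (.cons 250 (.leaf 274 1976 (.leaf 251 1978 .nil)) .nil)) .nil)) .nil)) .nil)) .nil)) .nil)) .nil)) .nil)) .nil)) .nil)) .nil)) (.cons 345 (.leaf 346 2544 (.cons 297 (.leaf 298 2353 (.cons 317 (.leaf 344 2536 (.cons 292 (.leaf 293 2339 (.cons 316 (.leaf 291 2331 (.cons 340 (.leaf 341 2530 (.leaf 339 2522 .nil)) .nil)) .nil)) .nil)) .nil)) .nil)) (.cons 294 (.leaf 293 2347 (.cons 295 (.leaf 322 2355 (.cons 271 (.leaf 343 1981 (.cons 247 (.leaf 344 1980 (.leaf 223 1782 .nil)) .nil)) .nil)) .nil)) (.cons 294 (.leaf 293 2347 (.cons 295 (.leaf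 322 2355 (.cons 271 (.leaf 343 1981 (.cons 247 (.leaf 223 1782 (.cons 246 (.leaf 222 1783 (.cons 245 (.leaf 244 1952 (.cons 221 (.leaf 220 1763 (.leaf 270 1775 .nil)) .nil)) .nil)) .nil)) .nil)) .nil)) .nil)) .nil)))
noncomputable def t21 : T := .cons 318 (.cons 293 (.leaf 294 2347 (.cons 297 (.leaf 298 2353 (.cons 317 (.leaf 292 2339 (.cons 341 (.leaf 340 2530 (.leaf 342 2538 .nil)) .nil)) .nil)) .nil)) (.cons 345 (.leaf 346 2544 (.cons 297 (.leaf 298 2353 (.cons 317 (.leaf 344 2536 (.cons 292 (.leaf 293 2339 (.cons 316 (.leaf 291 2331 (.cons 340 (.leaf 341 2530 (.leaf 339 2522 .nil)) .nil)) .nil)) .nil)) .nil)) .nil)) (.cons 345 (.leaf 346 2544 (.cons 297 (.leaf 298 2353 (.cons 317 (.leaf 344 2536 (.cons 341 (.leaf 340 2530 (.leaf 342 2538 .nil)) .nil)) .nil)) .nil)) (.cons 293 (.leaf 294 2347 (.cons 297 (.leaf 298 2353 (.cons 317 (.leaf 292 2339 (.cons 345 (.leaf 344 2536 (.leaf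 346 2544 .nil)) .nil)) .nil)) .nil)) (.cons 293 (.leaf 294 2347 (.cons 317 (.leaf 292 2339 (.cons 345 (.leaf 344 2536 (.leaf 346 2544 .nil)) .nil)) .nil)) (.cons 294 (.leaf 293 2347 (.cons 295 (.leaf 322 2355 (.cons 297 (.leaf 298 2353 (.cons 342 (.leaf 341 2538 (.cons 271 (.leaf 247 1974 (.leaf 366 2165 .nil)) .nil)) .nil)) .nil)) .nil)) .nil)))))) (.cons 318 (.cons 293 (.leaf 294 2347 (.cons 297 (.leaf 298 2353 (.cons 317 (.leaf 292 2339 (.cons 341 (.leaf 340 2530 (.leaf 342 2538 .nil)) .nil)) .nil)) .nil)) (.cons 345 (.leaf 346 2544 (.cons 293 (.leaf 294 2347 (.cons 317 (.leaf 292 2339 (.leaf 344 2536 .nil)) .nil)) .nil)) (.cons 342 (.leaf 341 2538 (.cons 322 (.leaf 343 2546 (.cons 346 (.leaf 345 2544 (.leaf 347 2552 .nil)) .nil)) .nil)) .nil))) (.cons 318 t20 (.cons 318 (.cons 297 (.leaf 298 2353 (.cons 341 (.leaf 342 2538 (.cons 317 (.leaf 340 2530 (.cons 292 (.leaf 293 2339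 (.cons 316 (.leaf 291 2331 (.cons 344 (.leaf 345 2536 (.leaf 343 2528 .nil)) .nil)) .nil)) .nil)) .nil)) .nil)) (.cons 294 (.leaf 293 2347 (.cons 295 (.leaf 322 2355 (.cons 271 (.leaf 343 1981 (.cons 247 (.leaf 344 1980 (.leaf 223 1782 .nil)) .nil)) .nil)) .nil)) (.cons 297 (.leaf 298 2353 (.cons 341 (.leaf 342 2538 (.cons 317 (.leaf 340 2530 (.cons 344 (.leaf 345 2536 (.cons 343 (.leaf 316 2528 (.cons 295 (.leaf 271 1981 (.cons 322 (.leaf 294 2355 (.leaf 323 2554 .nil)) .nil)) .nil)) .nil)) .nil)) .nil)) .nil)) (.cons 293 (.leaf 294 2347 (.cons 297 (.leaf 298 2353 (.cons 317 (.leaf 292 2339 (.cons 341 (.leaf 340 2530 (.leaf 342 2538 .nil)) .nil)) .nil)) .nil)) .nil)))) (.cons 318 t19 (.cons 295 (.cons 271 (.leaf 343 1981 (.cons 247 (.leaf 344 1980 (.cons 222 (.leaf 246 1783 (.cons 198 (.leaf 223 1591 (.cons 318 (.leaf 342 1974 (.cons 293 (.leaf 294 2347 (.cons 297 (.leaf 298 2353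 (.cons 317 (.leaf 292 2339 (.cons 340 (.leaf 341 2530 (.cons 316 (.leaf 339 2522 (.cons 269 (.leaf 245 1958 (.cons 270 (.leaf 249 1961 (.leaf 268 1953 .nil)) .nil)) .nil)) .nil)) .nil)) .nil)) .nil)) .nil)) .nil)) .nil)) .nil)) .nil)) (.cons 294 (.leaf 322 2355 (.cons 293 (.leaf 292 2336 (.leaf 318 2347 .nil)) .nil)) (.cons 271 (.leaf 343 1981 (.cons 247 (.leaf 344 1980 (.cons 246 (.leaf 222 1783 (.cons 245 (.leaf 244 1952 (.cons 220 (.leaf 221 1763 (.cons 269 (.leaf 268 1954 (.cons 249 (.leaf 270 1961 (.cons 250 (.leaf 274 1976 (.leaf 251 1978 .nil)) .nil)) .nil)) .nil)) .nil)) .nil)) .nil)) .nil)) .nil))) (.cons 318 (.cons 294 (.leaf 293 2347 (.cons 295 (.leaf 322 2355 (.cons 271 (.leaf 343 1981 (.cons 247 (.leaf 342 1974 (.leaf 223 1782 .nil)) .nil)) .nil)) .nil)) (.cons 342 (.leaf 341 2538 (.cons 297 (.leaf 298 2353 (.cons 322 (.leaf 343 2546 (.cons 346 (.leaf 345 2544 (.leaf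 347 2552 .nil)) .nil)) .nil)) .nil)) (.cons 294 (.leaf 293 2347 (.cons 295 (.leaf 322 2355 (.cons 271 (.leaf 343 1981 (.cons 247 (.leaf 223 1782 (.cons 246 (.leaf 222 1783 (.cons 245 (.leaf 244 1952 (.cons 221 (.leaf 220 1763 (.leaf 270 1775 .nil)) .nil)) .nil)) .nil)) .nil)) .nil)) .nil)) (.cons 293 (.leaf 294 2347 (.cons 297 (.leaf 298 2353 (.cons 317 (.leaf 292 2339 (.cons 341 (.leaf 340 2530 (.leaf 342 2538 .nil)) .nil)) .nil)) .nil)) .nil)))) (.cons 295 (.cons 271 (.leaf 343 1981 (.cons 247 (.leaf 344 1980 (.cons 222 (.leaf 246 1783 (.cons 223 (.leaf 198 1591 (.cons 199 (.leaf 175 1404 (.cons 294 (.leaf 322 2355 (.leaf 318 1782 .nil)) .nil)) .nil)) .nil)) .nil)) .nil)) (.cons 294 (.leaf 322 2355 (.cons 293 (.leaf 292 2336 (.leaf 318 2347 .nil)) .nil)) (.cons 271 (.leaf 343 1981 (.cons 247 (.leaf 344 1980 (.cons 246 (.leaf 222 1783 (.cons 245 (.leaf 244 1952 (.cons 220 (.leaf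 221 1763 (.cons 269 (.leaf 268 1954 (.cons 249 (.leaf 270 1961 (.cons 250 (.leaf 274 1976 (.leaf 251 1978 .nil)) .nil)) .nil)) .nil)) .nil)) .nil)) .nil)) .nil)) .nil))) (.cons 318 t18 .nil))))))))
noncomputable def t22 : T := .cons 293 (.leaf 294 2347 (.cons 297 (.leaf 298 2353 (.cons 317 (.leaf 292 2339 (.cons 340 (.leaf 341 2530 (.cons 316 (.leaf 339 2522 (.cons 344 (.leaf 345 2536 (.leaf 343 2528 .nil)) .nil)) .nil)) .nil)) .nil)) .nil)) (.cons 345 (.leaf 346 2544 (.cons 293 (.leaf 294 2347 (.cons 317 (.leaf 292 2339 (.leaf 344 2536 .nil)) .nil)) .nil)) (.cons 293 (.leaf 294 2347 (.cons 297 (.leaf 298 2353 (.cons 317 (.leaf 292 2339 (.cons 340 (.leaf 341 2530 (.cons 316 (.leaf 339 2522 (.cons 269 (.leaf 245 1958 (.cons 343 (.leaf 344 2528 (.cons 271 (.leaf 295 1981 (.cons 249 (.leaf 270 1961 (.cons 250 (.leaf 251 1978 (.cons 247 (.leaf 274 1976 (.cons 222 (.leaf 223 1779 (.cons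 226 (.leaf 227 1785 (.cons 246 (.leaf 221 1771 (.leaf 225 1777 .nil)) .nil)) .nil)) .nil)) .nil)) .nil)) .nil)) .nil)) .nil)) .nil)) .nil)) .nil)) .nil)) .nil)) (.cons 345 (.leaf 346 2544 (.cons 297 (.leaf 298 2353 (.cons 317 (.leaf 344 2536 (.cons 341 (.leaf 340 2530 (.leaf 342 2538 .nil)) .nil)) .nil)) .nil)) (.cons 342 (.leaf 341 2538 (.cons 294 (.leaf 293 2347 (.cons 345 (.leaf 346 2544 (.cons 297 (.leaf 298 2353 (.cons 270 (.cons 245 (.leaf 269 1967 (.cons 221 (.leaf 246 1775 (.cons 271 (.leaf 247 1973 (.cons 366 (.leaf 295 2165 (.cons 389 (.leaf 365 2350 (.cons 390 (.leaf 413 2542 (.cons 391 (.leaf 367 2356 (.leaf 415 2548 .nil)) .nil)) .nil)) .nil)) .nil)) .nil)) .nil)) (.cons 245 (.leaf 269 1967 (.cons 246 (.leaf 343 1972 (.leaf 221 1775 .nil)) .nil)) (.cons 245 (.leaf 269 1967 (.cons 247 (.leaf 271 1973 (.cons 367 (.leaf 343 2164 (.cons 366 (.leaf 391 2356 (.cons 365 (.leaf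 389 2350 (.cons 368 (.leaf 344 2729 (.cons 392 (.leaf 369 2374 (.leaf 393 2920 .nil)) .nil)) .nil)) .nil)) .nil)) .nil)) .nil)) (.cons 343 (.leaf 246 1972 (.leaf 367 2164 .nil)) .nil)))) .nil)) .nil)) .nil)) .nil)) (.cons 293 (.leaf 294 2347 (.cons 297 (.leaf 298 2353 (.cons 317 (.leaf 292 2339 (.cons 341 (.leaf 340 2530 (.leaf 342 2538 .nil)) .nil)) .nil)) .nil)) .nil)))))
noncomputable def t23 : T := .cons 390 (.leaf 366 2358 (.cons 270 (.leaf 294 2167 (.cons 391 (.leaf 414 2550 (.cons 415 (.leaf 344 2557 (.cons 416 (.leaf 392 2556 (.leaf 440 2748 .nil)) .nil)) .nil)) .nil)) .nil)) (.cons 294 (.leaf 270 2167 (.cons 366 (.leaf 390 2358 (.cons 292 (.leaf 293 2336 (.cons 344 (.cons 342 (.leaf 341 2537 (.cons 345 (.leaf 365 2730 (.leaf 346 2738 .nil)) .nil)) (.cons 341 (.leaf 342 2537 (.cons 365 (.leaf 364 2721 (.cons 340 (.leaf 368 2723 (.cons 316 (.leaf 268 2148 (.cons 389 (.leaf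 317 2343 (.leaf 413 2535 .nil)) .nil)) .nil)) .nil)) .nil)) (.cons 345 (.leaf 346 2738 (.cons 365 (.leaf 364 2721 (.leaf 368 2729 .nil)) .nil)) (.cons 342 (.leaf 341 2537 (.cons 345 (.leaf 346 2738 (.cons 369 (.leaf 370 2736 (.cons 393 (.leaf 417 2567 (.cons 394 (.leaf 418 2572 (.leaf 368 2928 .nil)) .nil)) .nil)) .nil)) .nil)) .nil)))) .nil)) .nil)) .nil)) (.cons 392 (.leaf 368 2364 (.cons 391 (.leaf 416 2556 (.cons 344 (.leaf 415 2557 (.cons 342 (.leaf 341 2537 (.cons 294 (.leaf 270 2167 (.cons 293 (.leaf 292 2336 (.cons 345 (.cons 346 (.leaf 347 2555 (.leaf 366 2738 .nil)) (.cons 346 (.leaf 347 2555 (.cons 370 (.leaf 369 2736 (.leaf 371 2744 .nil)) .nil)) (.cons 366 (.leaf 365 2730 (.cons 369 (.leaf 370 2736 (.cons 393 (.leaf 417 2567 (.leaf 394 2931 .nil)) .nil)) .nil)) .nil))) .nil)) .nil)) .nil)) .nil)) .nil)) .nil)) (.cons 392 (.leaf 368 2364 (.cons 270 (.leaf 294 2167 (.cons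 391 (.leaf 416 2556 (.cons 414 (.leaf 390 2550 (.cons 415 (.leaf 344 2557 (.leaf 438 2742 .nil)) .nil)) .nil)) .nil)) .nil)) (.cons 392 (.leaf 368 2364 (.cons 366 (.leaf 390 2358 (.cons 391 (.leaf 416 2556 (.cons 344 (.leaf 415 2557 (.cons 364 (.leaf 365 2912 (.cons 342 (.leaf 341 2537 (.cons 345 (.leaf 346 2738 (.cons 369 (.leaf 370 2736 (.cons 393 (.leaf 417 2567 (.leaf 394 2931 .nil)) .nil)) .nil)) .nil)) .nil)) .nil)) .nil)) .nil)) .nil)) (.cons 390 (.leaf 366 2358 (.cons 270 (.leaf 294 2167 (.cons 391 (.leaf 414 2550 (.cons 392 (.leaf 368 2364 (.leaf 416 2556 .nil)) .nil)) .nil)) .nil)) .nil)))))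
noncomputable def t24 : T := .cons 293 (.leaf 294 2347 (.cons 298 (.leaf 297 2353 (.cons 322 (.leaf 299 2361 (.cons 346 (.leaf 345 2544 (.leaf 347 2552 .nil)) .nil)) .nil)) .nil)) (.cons 345 (.leaf 346 2544 (.cons 297 (.leaf 298 2353 (.cons 317 (.leaf 344 2536 (.cons 292 (.leaf 293 2339 (.cons 316 (.leaf 291 2331 (.cons 340 (.leaf 341 2530 (.leaf 339 2522 .nil)) .nil)) .nil)) .nil)) .nil)) .nil)) (.cons 345 (.leaf 346 2544 (.cons 297 (.leaf 298 2353 (.cons 317 (.leaf 344 2536 (.cons 341 (.leaf 340 2530 (.leaf 342 2538 .nil)) .nil)) .nil)) .nil)) (.cons 294 (.leaf 293 2347 (.cons 295 (.leaf 322 2355 (.cons 297 (.leaf 298 2353 (.cons 341 (.leaf 342 2538 (.cons 317 (.leaf 340 2530 (.cons 270 (.leaf 246 1966 (.cons 316 (.leaf 315 2329 (.cons 292 (.leaf 291 2331 (.cons 268 (.leaf 244 1956 (.cons 269 (.leaf 267 2136 (.cons 271 (.leaf 249 1961 (.leaf 247 1953 .nil)) .nil)) .nil)) .nil))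 .nil)) .nil)) .nil)) .nil)) .nil)) .nil)) .nil)) (.cons 294 (.leaf 293 2347 (.cons 295 (.leaf 322 2355 (.cons 341 (.leaf 342 2538 (.cons 317 (.leaf 340 2530 (.cons 345 (.leaf 344 2536 (.leaf 346 2544 .nil)) .nil)) .nil)) .nil)) .nil)) .nil))))
noncomputable def t25 : T := .cons 345 (.leaf 346 2544 (.cons 297 (.leaf 298 2353 (.cons 317 (.leaf 344 2536 (.cons 292 (.leaf 293 2339 (.cons 316 (.leaf 291 2331 (.cons 340 (.leaf 341 2530 (.leaf 339 2522 .nil)) .nil)) .nil)) .nil)) .nil)) .nil)) (.cons 345 (.leaf 346 2544 (.cons 293 (.leaf 294 2347 (.cons 317 (.leaf 292 2339 (.leaf 344 2536 .nil)) .nil)) .nil)) (.cons 341 (.leaf 342 2538 (.cons 293 (.leaf 294 2347 (.cons 317 (.leaf 292 2339 (.leaf 340 2530 .nil)) .nil)) .nil)) (.cons 345 (.leaf 346 2544 (.cons 297 (.leaf 298 2353 (.cons 317 (.leaf 344 2536 (.cons 341 (.leaf 340 2530 (.leaf 342 2538 .nil)) .nil)) .nil)) .nil)) (.cons 342 (.leaf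 341 2538 (.cons 294 (.leaf 293 2347 (.cons 345 (.leaf 346 2544 (.cons 297 (.leaf 298 2353 (.cons 270 (.cons 245 (.leaf 269 1967 (.cons 221 (.leaf 246 1775 (.cons 271 (.leaf 247 1973 (.cons 366 (.leaf 295 2165 (.cons 389 (.leaf 365 2350 (.cons 390 (.leaf 413 2542 (.cons 391 (.leaf 367 2356 (.leaf 415 2548 .nil)) .nil)) .nil)) .nil)) .nil)) .nil)) .nil)) (.cons 245 (.leaf 269 1967 (.cons 246 (.leaf 343 1972 (.leaf 221 1775 .nil)) .nil)) (.cons 245 (.leaf 269 1967 (.cons 247 (.leaf 271 1973 (.cons 367 (.leaf 343 2164 (.cons 366 (.leaf 391 2356 (.cons 365 (.leaf 389 2350 (.cons 368 (.leaf 344 2729 (.cons 392 (.leaf 369 2374 (.leaf 393 2920 .nil)) .nil)) .nil)) .nil)) .nil)) .nil)) .nil)) (.cons 343 (.leaf 246 1972 (.leaf 367 2164 .nil)) .nil)))) .nil)) .nil)) .nil)) .nil)) .nil))))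
noncomputable def t26 : T := .cons 319 (.leaf 298 2361 (.cons 294 (.leaf 295 2355 (.cons 318 (.leaf 293 2347 (.cons 346 (.leaf 345 2544 (.leaf 347 2552 .nil)) .nil)) .nil)) .nil)) (.cons 323 (.cons 347 (.leaf 348 2560 (.cons 346 (.leaf 251 2006 (.leaf 370 2198 .nil)) .nil)) (.cons 251 (.leaf 346 2006 (.cons 226 (.leaf 250 1815 (.cons 227 (.leaf 202 1623 (.cons 228 (.leaf 204 1629 (.leaf 252 1821 .nil)) .nil)) .nil)) .nil)) (.cons 347 (.leaf 348 2560 (.cons 250 (.leaf 274 2007 (.cons 251 (.leaf 226 1815 (.cons 228 (.leaf 252 1821 (.cons 227 (.leaf 204 1629 (.leaf 249 1793 .nil)) .nil)) .nil)) .nil)) .nil)) (.cons 347 (.leaf 348 2560 (.cons 346 (.leaf 370 2198 (.leaf 319 2552 .nil)) .nil)) .nil)))) (.cons 323 (.cons 251 (.leaf 346 2006 (.cons 226 (.leaf 250 1815 (.cons 227 (.leaf 202 1623 (.leaf 298 1814 .nil)) .nil)) .nil)) (.cons 347 (.leaf 348 2560 (.cons 250 (.leaf 274 2007 (.cons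 370 (.leaf 346 2198 (.cons 371 (.leaf 394 2390 (.cons 395 (.leaf 298 2391 (.cons 396 (.leaf 372 2396 (.leaf 420 2588 .nil)) .nil)) .nil)) .nil)) .nil)) .nil)) (.cons 347 (.leaf 348 2560 (.cons 250 (.leaf 274 2007 (.cons 251 (.leaf 226 1815 (.cons 227 (.leaf 298 1814 (.cons 228 (.leaf 204 1629 (.leaf 252 1821 .nil)) .nil)) .nil)) .nil)) .nil)) (.cons 251 (.leaf 346 2006 (.cons 226 (.leaf 250 1815 (.cons 227 (.leaf 202 1623 (.cons 228 (.leaf 204 1629 (.leaf 252 1821 .nil)) .nil)) .nil)) .nil)) (.cons 251 (.leaf 346 2006 (.cons 348 (.leaf 324 2012 (.leaf 347 2560 .nil)) .nil)) .nil))))) (.cons 298 (.leaf 319 2361 (.cons 251 (.leaf 227 1814 (.cons 323 (.cons 348 (.leaf 324 2012 (.leaf 347 2560 .nil)) (.cons 228 (.leaf 252 1821 (.cons 250 (.leaf 226 1815 (.cons 274 (.leaf 347 2004 (.leaf 345 1998 .nil)) .nil)) .nil)) (.cons 226 (.leaf 250 1815 (.cons 228 (.leaf 252 1821 (.cons 324 (.leaf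 348 2012 (.cons 325 (.leaf 326 2387 (.leaf 297 2379 .nil)) .nil)) .nil)) .nil)) .nil))) .nil)) .nil)) (.cons 298 (.leaf 319 2361 (.cons 251 (.leaf 227 1814 (.cons 346 (.leaf 274 2005 (.leaf 323 2006 .nil)) .nil)) .nil)) .nil))))
noncomputable def t27 : T := .cons 322 (.leaf 300 2369 (.cons 347 (.leaf 348 2560 (.cons 346 (.leaf 251 2006 (.leaf 370 2198 .nil)) .nil)) .nil)) (.cons 251 (.cons 228 (.leaf 252 1821 (.cons 348 (.leaf 324 2012 (.cons 204 (.leaf 227 1629 (.cons 347 (.leaf 372 2204 (.cons 346 (.leaf 370 2198 (.leaf 345 2563 .nil)) .nil)) .nil)) .nil)) .nil)) (.cons 226 (.leaf 250 1815 (.cons 227 (.leaf 202 1623 (.cons 228 (.leaf 204 1629 (.leaf 252 1821 .nil)) .nil)) .nil)) (.cons 250 (.leaf 226 1815 (.cons 249 (.leaf 271 1978 (.cons 274 (.leaf 247 1976 (.leaf 347 2007 .nil)) .nil)) .nil)) .nil))) (.cons 322 (.leaf 300 2369 (.cons 251 (.leaf 346 2006 (.cons 226 (.leaf 250 1815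 (.cons 227 (.leaf 202 1623 (.cons 228 (.leaf 204 1629 (.leaf 252 1821 .nil)) .nil)) .nil)) .nil)) .nil)) (.cons 322 (.leaf 300 2369 (.cons 347 (.leaf 348 2560 (.cons 346 (.leaf 370 2198 (.leaf 319 2552 .nil)) .nil)) .nil)) (.cons 322 (.leaf 300 2369 (.cons 347 (.leaf 348 2560 (.cons 250 (.leaf 274 2007 (.cons 251 (.leaf 226 1815 (.cons 228 (.leaf 252 1821 (.cons 227 (.leaf 204 1629 (.leaf 249 1793 .nil)) .nil)) .nil)) .nil)) .nil)) .nil)) .nil))))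
noncomputable def t28 : T := .cons 228 (.leaf 204 1629 (.cons 249 (.leaf 250 1793 (.cons 323 (.leaf 252 1821 (.cons 324 (.leaf 300 1820 (.leaf 348 2012 .nil)) .nil)) .nil)) .nil)) (.cons 300 (.leaf 324 1820 (.cons 298 (.leaf 297 2370 (.cons 203 (.leaf 274 1622 (.cons 178 (.leaf 202 1431 (.cons 179 (.leaf 154 1239 (.cons 180 (.leaf 204 1437 (.leaf 156 1245 .nil)) .nil)) .nil)) .nil)) .nil)) .nil)) (.cons 324 (.leaf 300 1820 (.cons 323 (.leaf 348 2012 (.cons 228 (.leaf 252 1821 (.cons 250 (.leaf 249 1793 (.cons 229 (.leaf 230 1810 (.cons 274 (.leaf 347 2007 (.cons 203 (.leaf 298 1622 (.leaf 179 1430 .nil)) .nil)) .nil)) .nil)) .nil)) .nil)) .nil)) (.cons 228 (.leaf 204 1629 (.cons 249 (.leaf 250 1793 (.cons 323 (.leaf 252 1821 (.cons 348 (.leaf 324 2012 (.cons 347 (.leaf 372 2204 (.cons 346 (.leaf 370 2198 (.leaf 345 2563 .nil)) .nil)) .nil)) .nil)) .nil)) .nil)) (.cons 228 (.leaf 204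 1629 (.cons 250 (.leaf 249 1793 (.cons 229 (.leaf 230 1810 (.cons 323 (.leaf 252 1821 (.cons 274 (.leaf 347 2007 (.cons 203 (.leaf 298 1622 (.leaf 179 1430 .nil)) .nil)) .nil)) .nil)) .nil)) .nil)) .nil))))
noncomputable def t29 : T := .cons 323 (.cons 228 (.leaf 252 1821 (.cons 348 (.leaf 324 2012 (.cons 347 (.leaf 372 2204 (.cons 346 (.leaf 370 2198 (.leaf 345 2563 .nil)) .nil)) .nil)) .nil)) (.cons 228 (.leaf 252 1821 (.cons 250 (.leaf 226 1815 (.cons 249 (.leaf 271 1978 (.cons 274 (.leaf 247 1976 (.leaf 347 2007 .nil)) .nil)) .nil)) .nil)) (.cons 226 (.leaf 250 1815 (.cons 348 (.leaf 324 2012 (.cons 347 (.leaf 372 2204 (.cons 346 (.leaf 370 2198 (.leaf 345 2563 .nil)) .nil)) .nil)) .nil)) (.cons 250 (.leaf 226 1815 (.cons 249 (.leaf 271 1978 (.cons 252 (.leaf 228 1821 (.cons 274 (.leaf 247 1976 (.cons 253 (.leaf 254 2002 (.cons 324 (.leaf 348 2012 (.cons 229 (.leaf 230 1809 (.cons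 277 (.leaf 278 2000 (.cons 301 (.leaf 300 1830 (.cons 326 (.leaf 302 1836 (.cons 325 (.leaf 298 2387 (.leaf 350 2028 .nil)) .nil)) .nil)) .nil)) .nil)) .nil)) .nil)) .nil)) .nil)) .nil)) .nil)) .nil)))) (.cons 227 (.cons 202 (.leaf 226 1623 (.cons 203 (.leaf 178 1431 (.cons 180 (.leaf 204 1437 (.cons 156 (.leaf 179 1245 (.cons 298 (.leaf 274 1622 (.cons 300 (.leaf 324 1820 (.leaf 297 2370 .nil)) .nil)) .nil)) .nil)) .nil)) .nil)) (.cons 204 (.leaf 228 1629 (.cons 203 (.leaf 180 1437 (.cons 298 (.leaf 274 1622 (.cons 300 (.leaf 324 1820 (.leaf 297 2370 .nil)) .nil)) .nil)) .nil)) (.cons 202 (.leaf 226 1623 (.cons 203 (.leaf 178 1431 (.cons 298 (.leaf 274 1622 (.cons 300 (.leaf 324 1820 (.leaf 297 2370 .nil)) .nil)) .nil)) .nil)) (.cons 226 (.leaf 202 1623 (.cons 228 (.leaf 204 1629 (.cons 249 (.leaf 225 1794 (.leaf 250 1793 .nil)) .nil)) .nil)) .nil)))) (.cons 227 (.cons 204 (.leaf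 228 1629 (.cons 203 (.leaf 180 1437 (.cons 298 (.leaf 274 1622 (.cons 300 (.leaf 324 1820 (.leaf 297 2370 .nil)) .nil)) .nil)) .nil)) (.cons 300 (.leaf 324 1820 (.cons 298 (.leaf 297 2370 (.cons 202 (.leaf 226 1623 (.cons 203 (.leaf 178 1431 (.leaf 274 1622 .nil)) .nil)) .nil)) .nil)) (.cons 202 (.leaf 226 1623 (.cons 178 (.leaf 203 1431 (.cons 228 (.leaf 204 1629 (.cons 323 (.leaf 252 1821 (.cons 348 (.leaf 324 2012 (.cons 347 (.leaf 372 2204 (.cons 346 (.leaf 370 2198 (.leaf 345 2563 .nil)) .nil)) .nil)) .nil)) .nil)) .nil)) .nil)) (.cons 202 (.leaf 226 1623 (.cons 203 (.leaf 178 1431 (.cons 204 (.leaf 180 1437 (.leaf 228 1629 .nil)) .nil)) .nil)) (.cons 202 (.leaf 226 1623 (.cons 228 (.leaf 204 1629 (.cons 323 (.leaf 252 1821 (.cons 324 (.leaf 300 1820 (.leaf 348 2012 .nil)) .nil)) .nil)) .nil)) .nil))))) (.cons 227 t28 (.cons 250 (.cons 226 (.leaf 323 1815 (.cons 202 (.leaf 178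 1428 (.leaf 227 1623 .nil)) .nil)) (.cons 249 (.leaf 271 1978 (.cons 274 (.leaf 247 1976 (.cons 323 (.leaf 347 2007 (.cons 324 (.leaf 348 2012 (.cons 227 (.leaf 300 1820 (.cons 203 (.leaf 298 1622 (.leaf 179 1430 .nil)) .nil)) .nil)) .nil)) .nil)) .nil)) (.cons 249 (.leaf 271 1978 (.cons 247 (.leaf 274 1976 (.cons 222 (.leaf 223 1779 (.cons 226 (.leaf 227 1785 (.cons 246 (.leaf 221 1771 (.leaf 225 1777 .nil)) .nil)) .nil)) .nil)) .nil)) (.cons 226 (.leaf 323 1815 (.cons 202 (.leaf 178 1428 (.leaf 274 1620 .nil)) .nil)) .nil)))) (.cons 323 (.cons 228 (.leaf 252 1821 (.cons 348 (.leaf 324 2012 (.cons 204 (.leaf 227 1629 (.cons 347 (.leaf 372 2204 (.cons 346 (.leaf 370 2198 (.leaf 345 2563 .nil)) .nil)) .nil)) .nil)) .nil)) (.cons 250 (.leaf 226 1815 (.cons 249 (.leaf 271 1978 (.cons 274 (.leaf 247 1976 (.leaf 347 2007 .nil)) .nil)) .nil)) (.cons 226 (.leaf 250 1815 (.cons 227 (.leaf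 202 1623 (.cons 228 (.leaf 204 1629 (.leaf 252 1821 .nil)) .nil)) .nil)) .nil))) (.cons 250 (.cons 226 (.leaf 323 1815 (.cons 202 (.leaf 178 1428 (.leaf 227 1623 .nil)) .nil)) (.cons 249 (.leaf 271 1978 (.cons 227 (.leaf 228 1793 (.cons 274 (.leaf 247 1976 (.cons 203 (.leaf 298 1622 (.leaf 179 1430 .nil)) .nil)) .nil)) .nil)) (.cons 226 (.leaf 323 1815 (.cons 202 (.leaf 178 1428 (.leaf 274 1620 .nil)) .nil)) .nil))) (.cons 227 (.cons 202 (.leaf 226 1623 (.cons 228 (.leaf 204 1629 (.cons 249 (.leaf 250 1793 (.cons 323 (.leaf 252 1821 (.cons 324 (.leaf 300 1820 (.leaf 348 2012 .nil)) .nil)) .nil)) .nil)) .nil)) (.cons 226 (.leaf 202 1623 (.cons 250 (.leaf 323 1815 (.cons 249 (.leaf 271 1978 (.leaf 247 1785 .nil)) .nil)) .nil)) (.cons 228 (.leaf 204 1629 (.cons 249 (.leaf 250 1793 (.cons 323 (.leaf 252 1821 (.cons 324 (.leaf 300 1820 (.leaf 348 2012 .nil)) .nil)) .nil)) .nil)) (.cons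 202 (.leaf 226 1623 (.cons 228 (.leaf 204 1629 (.cons 323 (.leaf 252 1821 (.cons 324 (.leaf 300 1820 (.leaf 348 2012 .nil)) .nil)) .nil)) .nil)) (.cons 202 (.leaf 226 1623 (.cons 203 (.leaf 178 1431 (.cons 204 (.leaf 180 1437 (.leaf 228 1629 .nil)) .nil)) .nil)) .nil))))) .nil)))))))
noncomputable def t30 : T := .leaf 340 2530 (.cons 345 (.leaf 344 2536 (.cons 250 (.leaf 274 1998 (.cons 369 (.leaf 393 2381 (.cons 249 (.cons 295 (.leaf 294 2355 (.cons 271 (.leaf 251 1978 (.cons 270 (.leaf 269 1961 (.leaf 247 1970 .nil)) .nil)) .nil)) (.cons 271 (.leaf 251 1978 (.cons 270 (.leaf 269 1961 (.leaf 247 1970 .nil)) .nil)) (.cons 294 (.leaf 295 2355 (.cons 246 (.leaf 270 1966 (.cons 365 (.leaf 389 2349 (.cons 247 (.cons 222 (.leaf 221 1771 (.leaf 223 1779 .nil)) (.cons 226 (.leaf 225 1777 (.leaf 227 1785 .nil)) .nil)) .nil)) .nil)) .nil)) (.cons 294 (.leaf 295 2355 (.cons 270 (.leaf 246 1966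 (.cons 271 (.leaf 251 1978 (.leaf 269 1961 .nil)) .nil)) .nil)) (.cons 295 (.leaf 294 2355 (.cons 247 (.cons 222 (.leaf 223 1779 (.cons 226 (.leaf 227 1785 (.cons 246 (.leaf 221 1771 (.leaf 225 1777 .nil)) .nil)) .nil)) (.cons 227 (.leaf 226 1785 (.cons 251 (.leaf 271 1978 (.leaf 228 1793 .nil)) .nil)) (.cons 222 (.leaf 223 1779 (.cons 246 (.leaf 221 1771 (.leaf 271 1783 .nil)) .nil)) .nil))) .nil)) .nil))))) .nil)) .nil)) .nil)) .nil)
noncomputable def t31 : T := .leaf 292 2339 (.cons 299 (.leaf 322 2361 (.cons 269 (.cons 246 (.leaf 270 1965 (.cons 245 (.leaf 222 1773 (.cons 247 (.leaf 268 1954 (.cons 344 (.leaf 345 2536 (.cons 271 (.leaf 244 1952 (.leaf 295 1980 .nil)) .nil)) .nil)) .nil)) .nil)) (.cons 244 (.leaf 268 1959 (.cons 245 (.leaf 220 1767 (.cons 246 (.leaf 222 1773 (.cons 271 (.leaf 247 1952 (.cons 251 (.leaf 249 1978 (.cons 226 (.leaf 323 1815 (.cons 202 (.leaf 178 1428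 (.leaf 227 1623 .nil)) .nil)) .nil)) .nil)) .nil)) .nil)) .nil)) (.cons 244 (.leaf 268 1959 (.cons 245 (.leaf 220 1767 (.cons 271 (.leaf 270 1955 (.cons 251 (.leaf 249 1978 (.cons 226 (.leaf 323 1815 (.cons 202 (.leaf 178 1428 (.leaf 227 1623 .nil)) .nil)) .nil)) .nil)) .nil)) .nil)) (.cons 270 (.leaf 246 1965 (.cons 271 (.leaf 249 1961 (.cons 247 (.leaf 268 1953 (.cons 344 (.leaf 295 1980 (.leaf 345 2536 .nil)) .nil)) .nil)) .nil)) (.cons 246 (.leaf 270 1965 (.cons 245 (.leaf 222 1773 (.cons 220 (.leaf 244 1767 (.cons 221 (.leaf 247 1763 (.leaf 196 1575 .nil)) .nil)) .nil)) .nil)) .nil))))) .nil)) .nil)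
noncomputable def t32 : T := .cons 322 (.leaf 299 2361 (.cons 345 (.leaf 344 2536 (.leaf 274 1998 .nil)) .nil)) (.cons 292 (.leaf 293 2339 (.cons 316 (.leaf 291 2331 (.cons 268 (.leaf 244 1956 (.cons 249 (.cons 251 (.leaf 271 1978 (.cons 227 (.leaf 228 1793 (.cons 203 (.leaf 274 1622 (.cons 178 (.leaf 202 1431 (.cons 179 (.leaf 154 1239 (.cons 180 (.leaf 204 1437 (.leaf 156 1245 .nil)) .nil)) .nil)) .nil)) .nil)) .nil)) (.cons 247 (.leaf 274 1976 (.cons 222 (.leaf 223 1779 (.cons 221 (.leaf 246 1771 (.cons 226 (.leaf 227 1785 (.cons 271 (.leaf 270 1970 (.cons 344 (.leaf 295 1980 (.leaf 345 2536 .nil)) .nil)) .nil)) .nil)) .nil)) .nil)) (.cons 247 (.leaf 274 1976 (.cons 222 (.leaf 223 1779 (.cons 226 (.leaf 227 1785 (.cons 246 (.leaf 221 1771 (.leaf 225 1777 .nil)) .nil)) .nil)) .nil)) (.cons 251 (.leaf 271 1978 (.cons 227 (.leaf 228 1793 (.cons 226 (.leaf 247 1785 (.cons 202 (.leaf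 178 1428 (.leaf 299 1623 .nil)) .nil)) .nil)) .nil)) (.cons 247 (.leaf 274 1976 (.cons 271 (.leaf 251 1978 (.leaf 270 1970 .nil)) .nil)) .nil))))) .nil)) .nil)) .nil)) (.cons 292 (.leaf 293 2339 (.cons 291 (.leaf 316 2331 (.cons 345 (.leaf 344 2536 (.cons 274 (.leaf 322 1998 (.cons 249 (.leaf 247 1976 (.cons 251 (.leaf 271 1978 (.cons 227 (.leaf 203 1622 (.leaf 228 1793 .nil)) .nil)) .nil)) .nil)) .nil)) .nil)) .nil)) (.cons 292 (.leaf 293 2339 (.cons 316 (.leaf 291 2331 (.cons 268 (.leaf 244 1956 (.cons 249 (.cons 251 (.leaf 271 1978 (.cons 227 (.leaf 228 1793 (.cons 203 (.leaf 274 1622 (.cons 178 (.leaf 202 1431 (.cons 179 (.leaf 154 1239 (.cons 180 (.leaf 204 1437 (.leaf 156 1245 .nil)) .nil)) .nil)) .nil)) .nil)) .nil)) (.cons 251 (.leaf 271 1978 (.cons 227 (.leaf 228 1793 (.cons 226 (.leaf 247 1785 (.cons 202 (.leaf 178 1428 (.leaf 299 1623 .nil)) .nil)) .nil)) .nil)) (.cons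 247 (.leaf 274 1976 (.cons 222 (.leaf 223 1779 (.cons 226 (.leaf 227 1785 (.cons 246 (.leaf 221 1771 (.leaf 225 1777 .nil)) .nil)) .nil)) .nil)) (.cons 247 (.leaf 274 1976 (.cons 271 (.leaf 251 1978 (.leaf 270 1970 .nil)) .nil)) .nil)))) .nil)) .nil)) .nil)) (.cons 293 t31 .nil))))
noncomputable def t33 : T := .cons 298 (.leaf 297 2353 (.cons 341 (.leaf 342 2538 (.cons 317 (.leaf 340 2530 (.cons 250 (.cons 322 (.leaf 299 2361 (.cons 345 (.leaf 344 2536 (.leaf 274 1998 .nil)) .nil)) (.cons 293 (.leaf 292 2339 (.leaf 294 2347 .nil)) .nil)) .nil)) .nil)) .nil)) (.cons 298 (.leaf 297 2353 (.cons 341 (.leaf 342 2538 (.cons 317 (.leaf 340 2530 (.cons 250 t32 .nil)) .nil)) .nil)) (.cons 298 (.leaf 297 2353 (.cons 322 (.leaf 299 2361 (.cons 341 (.leaf 342 2538 (.cons 317 t30 .nil)) .nil)) .nil)) (.cons 294 (.leaf 293 2347 (.cons 298 (.leaf 297 2353 (.cons 322 (.leaf 295 2355 (.leaf 299 2361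 .nil)) .nil)) .nil)) (.cons 294 (.leaf 293 2347 (.cons 295 (.leaf 322 2355 (.cons 341 (.leaf 342 2538 (.cons 317 (.leaf 340 2530 (.cons 270 (.leaf 246 1966 (.cons 315 (.leaf 316 2329 (.cons 344 (.leaf 345 2536 (.cons 271 (.leaf 247 1980 (.cons 269 (.leaf 249 1961 (.cons 244 (.leaf 245 1955 (.cons 268 (.leaf 267 2136 (.leaf 243 1947 .nil)) .nil)) .nil)) .nil)) .nil)) .nil)) .nil)) .nil)) .nil)) .nil)) .nil)) (.cons 293 (.leaf 294 2347 (.cons 317 (.leaf 292 2339 (.cons 341 (.leaf 340 2530 (.leaf 342 2538 .nil)) .nil)) .nil)) .nil)))))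
noncomputable def t34 : T := .cons 342 (.leaf 341 2538 (.cons 294 (.leaf 293 2347 (.cons 297 (.leaf 298 2353 (.cons 270 (.cons 245 (.leaf 269 1967 (.cons 246 (.leaf 343 1972 (.leaf 221 1775 .nil)) .nil)) (.cons 245 (.leaf 269 1967 (.cons 246 (.leaf 221 1775 (.cons 247 (.leaf 223 1781 (.leaf 271 1973 .nil)) .nil)) .nil)) (.cons 245 (.leaf 269 1967 (.cons 247 (.leaf 271 1973 (.cons 367 (.leaf 343 2164 (.cons 366 (.leaf 391 2356 (.cons 389 (.leaf 365 2350 (.cons 390 (.leaf 295 2357 (.leaf 413 2542 .nil)) .nil)) .nil)) .nil)) .nil)) .nil)) (.cons 343 (.leaf 246 1972 (.leaf 367 2164 .nil)) .nil)))) .nil)) .nil)) .nil)) (.cons 293 (.leaf 294 2347 (.cons 297 (.leaf 298 2353 (.cons 317 (.leaf 292 2339 (.cons 340 (.leaf 341 2530 (.cons 316 (.leaf 339 2522 (.cons 344 (.leaf 345 2536 (.leaf 343 2528 .nil)) .nil)) .nil)) .nil)) .nil)) .nil)) (.cons 293 (.leaf 294 2347 (.cons 317 (.leaf 292 2339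 (.cons 344 (.leaf 345 2536 (.cons 343 (.leaf 316 2528 (.cons 271 (.leaf 295 1981 (.cons 297 (.leaf 298 2353 (.cons 368 (.leaf 392 2373 (.cons 249 (.cons 250 (.leaf 251 1978 (.cons 247 (.leaf 274 1976 (.leaf 270 1970 .nil)) .nil)) (.cons 269 (.leaf 270 1961 (.cons 245 (.leaf 342 1964 (.cons 220 (.leaf 244 1767 (.cons 221 (.leaf 196 1575 (.cons 222 (.leaf 198 1581 (.leaf 246 1773 .nil)) .nil)) .nil)) .nil)) .nil)) (.cons 250 (.leaf 251 1978 (.cons 247 (.leaf 274 1976 (.cons 222 (.leaf 223 1779 (.cons 226 (.leaf 227 1785 (.cons 246 (.leaf 221 1771 (.leaf 225 1777 .nil)) .nil)) .nil)) .nil)) .nil)) .nil))) .nil)) .nil)) .nil)) .nil)) .nil)) .nil)) .nil)) (.cons 341 (.leaf 342 2538 (.cons 317 (.leaf 340 2530 (.cons 344 (.leaf 345 2536 (.cons 343 (.leaf 316 2528 (.cons 295 (.leaf 271 1981 (.cons 368 (.leaf 392 2367 (.cons 298 (.leaf 297 2353 (.cons 367 (.cons 294 (.leaf 270 2167 (.leaf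 391 2359 .nil)) (.cons 390 (.leaf 366 2358 (.cons 391 (.leaf 415 2557 (.leaf 414 2550 .nil)) .nil)) (.cons 294 (.leaf 270 2167 (.cons 365 (.leaf 389 2349 (.cons 366 (.leaf 390 2358 (.leaf 364 2721 .nil)) .nil)) .nil)) .nil))) .nil)) .nil)) .nil)) .nil)) .nil)) .nil)) .nil)) (.cons 341 (.leaf 342 2538 (.cons 297 (.leaf 298 2353 (.cons 317 (.leaf 340 2530 (.cons 292 (.leaf 293 2339 (.cons 316 (.leaf 291 2331 (.cons 344 (.leaf 345 2536 (.leaf 343 2528 .nil)) .nil)) .nil)) .nil)) .nil)) .nil)) (.cons 341 (.leaf 342 2538 (.cons 293 (.leaf 294 2347 (.cons 317 (.leaf 292 2339 (.leaf 340 2530 .nil)) .nil)) .nil)) .nil)))))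
noncomputable def t35 : T := .cons 293 (.leaf 294 2347 (.cons 297 (.leaf 298 2353 (.cons 317 (.leaf 292 2339 (.cons 340 (.leaf 341 2530 (.cons 316 (.leaf 339 2522 (.cons 344 (.leaf 345 2536 (.leaf 343 2528 .nil)) .nil)) .nil)) .nil)) .nil)) .nil)) (.cons 298 (.leaf 297 2353 (.cons 341 (.leaf 342 2538 (.cons 317 (.leaf 340 2530 (.cons 250 (.cons 322 (.leaf 299 2361 (.cons 345 (.leaf 344 2536 (.leaf 274 1998 .nil)) .nil)) (.cons 292 (.leaf 293 2339 (.cons 316 (.leaf 291 2331 (.cons 344 (.leaf 345 2536 (.leaf 343 2528 .nil)) .nil)) .nil)) (.cons 322 (.leaf 299 2361 (.cons 292 (.leaf 293 2339 (.cons 316 (.leaf 291 2331 (.cons 268 (.leaf 244 1956 (.cons 249 (.cons 274 (.leaf 247 1976 (.leaf 345 1998 .nil)) (.cons 271 (.leaf 251 1978 (.cons 270 (.leaf 269 1961 (.leaf 247 1970 .nil)) .nil)) (.cons 251 (.leaf 271 1978 (.cons 227 (.leaf 228 1793 (.leaf 274 1813 .nil)) .nil)) .nil))) .nil))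 .nil)) .nil)) .nil)) (.cons 292 (.leaf 293 2339 (.cons 299 (.leaf 322 2361 (.cons 316 (.leaf 291 2331 (.cons 244 (.leaf 268 1956 (.cons 343 (.leaf 344 2528 (.cons 271 (.leaf 295 1981 (.cons 249 (.leaf 251 1978 (.cons 247 (.leaf 274 1976 (.leaf 270 1970 .nil)) .nil)) .nil)) .nil)) .nil)) .nil)) .nil)) .nil)) .nil)))) .nil)) .nil)) .nil)) (.cons 294 (.leaf 293 2347 (.cons 298 (.leaf 297 2353 (.cons 322 (.leaf 295 2355 (.leaf 299 2361 .nil)) .nil)) .nil)) (.cons 298 (.leaf 297 2353 (.cons 322 (.leaf 299 2361 (.cons 341 (.leaf 342 2538 (.cons 317 (.leaf 340 2530 (.cons 345 (.leaf 344 2536 (.cons 250 (.leaf 274 1998 (.cons 369 (.leaf 393 2381 (.cons 249 (.cons 295 (.leaf 294 2355 (.cons 271 (.leaf 251 1978 (.leaf 343 1981 .nil)) .nil)) (.cons 294 (.leaf 295 2355 (.cons 246 (.leaf 270 1966 (.cons 365 (.leaf 389 2349 (.cons 247 (.cons 222 (.leaf 221 1771 (.leaf 223 1779 .nil)) (.cons 226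 (.leaf 225 1777 (.leaf 227 1785 .nil)) .nil)) .nil)) .nil)) .nil)) (.cons 271 (.leaf 251 1978 (.cons 270 (.leaf 269 1961 (.leaf 247 1970 .nil)) .nil)) .nil))) .nil)) .nil)) .nil)) .nil)) .nil)) .nil)) .nil)) (.cons 293 (.leaf 294 2347 (.cons 317 (.leaf 292 2339 (.cons 341 (.leaf 340 2530 (.leaf 342 2538 .nil)) .nil)) .nil)) .nil))))
noncomputable def t36 : T := .cons 341 (.leaf 342 2538 (.cons 317 (.leaf 340 2530 (.cons 246 (.leaf 270 1966 (.cons 251 (.leaf 271 1978 (.cons 227 (.leaf 228 1793 (.cons 247 (.leaf 226 1785 (.cons 222 (.leaf 221 1771 (.leaf 223 1779 .nil)) .nil)) .nil)) .nil)) .nil)) .nil)) .nil)) (.cons 341 (.leaf 342 2538 (.cons 317 (.leaf 340 2530 (.cons 246 (.leaf 270 1966 (.cons 365 (.leaf 389 2349 (.cons 371 (.leaf 395 2391 (.cons 247 (.cons 222 (.leaf 221 1771 (.leaf 223 1779 .nil)) (.cons 226 (.leaf 225 1777 (.leaf 227 1785 .nil)) .nil)) .nil)) .nil)) .nil)) .nil))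 .nil)) (.cons 251 (.leaf 271 1978 (.cons 227 (.leaf 228 1793 (.cons 226 (.leaf 247 1785 (.cons 203 (.cons 178 (.leaf 202 1428 (.cons 179 (.leaf 155 1238 (.leaf 154 1239 .nil)) .nil)) (.cons 179 (.leaf 155 1238 (.cons 180 (.leaf 204 1437 (.leaf 156 1245 .nil)) .nil)) (.cons 202 (.leaf 178 1428 (.cons 204 (.leaf 180 1437 (.cons 205 (.leaf 206 1618 (.leaf 225 1610 .nil)) .nil)) .nil)) .nil))) .nil)) .nil)) .nil)) (.cons 341 (.leaf 342 2538 (.cons 317 (.leaf 340 2530 (.cons 270 (.leaf 246 1966 (.cons 271 (.leaf 251 1978 (.leaf 269 1961 .nil)) .nil)) .nil)) .nil)) .nil)))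
noncomputable def t37 : T := .leaf 298 2353 (.cons 343 (.cons 316 (.leaf 344 2528 (.cons 315 (.leaf 342 2520 (.cons 339 (.leaf 340 2522 (.leaf 338 2514 .nil)) .nil)) .nil)) (.cons 271 (.leaf 295 1981 (.cons 249 (.cons 250 (.leaf 251 1978 (.cons 247 (.leaf 274 1976 (.leaf 270 1970 .nil)) .nil)) (.cons 269 (.leaf 270 1961 (.cons 245 (.leaf 342 1964 (.cons 220 (.leaf 244 1767 (.cons 221 (.leaf 196 1575 (.cons 222 (.leaf 198 1581 (.leaf 246 1773 .nil)) .nil)) .nil)) .nil)) .nil)) (.cons 250 (.leaf 251 1978 (.cons 247 (.leaf 274 1976 (.cons 222 (.leaf 223 1779 (.cons 226 (.leaf 227 1785 (.cons 246 (.leaf 221 1771 (.leaf 225 1777 .nil)) .nil)) .nil)) .nil)) .nil)) .nil))) .nil)) (.cons 316 (.leaf 344 2528 (.cons 271 (.leaf 295 1981 (.cons 340 (.leaf 339 2522 (.cons 269 (.leaf 245 1958 (.cons 249 (.leaf 270 1961 (.cons 250 (.leaf 251 1978 (.cons 247 (.leaf 274 1976 (.cons 222 (.leaf 223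 1779 (.cons 226 (.leaf 227 1785 (.cons 246 (.leaf 221 1771 (.leaf 225 1777 .nil)) .nil)) .nil)) .nil)) .nil)) .nil)) .nil)) .nil)) .nil)) .nil)) .nil))) .nil)
noncomputable def t38 : T := .cons 341 (.leaf 342 2538 (.cons 293 (.leaf 294 2347 (.cons 317 (.leaf 292 2339 (.leaf 340 2530 .nil)) .nil)) .nil)) (.cons 293 (.leaf 294 2347 (.cons 317 (.leaf 292 2339 (.cons 297 t37 .nil)) .nil)) (.cons 293 (.leaf 294 2347 (.cons 297 (.leaf 298 2353 (.cons 317 (.leaf 292 2339 (.cons 340 (.leaf 341 2530 (.cons 316 (.leaf 339 2522 (.cons 269 (.leaf 245 1958 (.cons 343 (.leaf 344 2528 (.cons 271 (.leaf 295 1981 (.cons 249 (.leaf 270 1961 (.cons 250 (.leaf 251 1978 (.cons 247 (.leaf 274 1976 (.cons 222 (.leaf 223 1779 (.cons 226 (.leaf 227 1785 (.cons 246 (.leaf 221 1771 (.leaf 225 1777 .nil)) .nil)) .nil)) .nil)) .nil)) .nil)) .nil)) .nil)) .nil)) .nil)) .nil)) .nil)) .nil)) .nil)) (.cons 342 (.leaf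 341 2538 (.cons 297 (.leaf 298 2353 (.cons 271 (.cons 295 (.leaf 343 1981 (.leaf 247 1974 .nil)) (.cons 270 (.cons 294 (.leaf 247 1973 (.cons 269 (.leaf 249 1961 (.leaf 245 1967 .nil)) .nil)) (.cons 249 (.leaf 269 1961 (.cons 250 (.leaf 251 1978 (.leaf 247 1970 .nil)) .nil)) (.cons 269 (.leaf 249 1961 (.cons 245 (.leaf 244 1955 (.leaf 294 1967 .nil)) .nil)) (.cons 294 (.leaf 247 1973 (.cons 343 (.leaf 246 1972 (.leaf 367 2164 .nil)) .nil)) .nil)))) (.cons 295 (.leaf 343 1981 (.cons 366 (.leaf 390 2357 (.leaf 294 2165 .nil)) .nil)) (.cons 295 (.leaf 247 1974 (.cons 366 (.leaf 390 2357 (.leaf 294 2165 .nil)) .nil)) .nil)))) .nil)) .nil)) (.cons 297 (.leaf 298 2353 (.cons 317 (.cons 341 (.leaf 340 2530 (.leaf 342 2538 .nil)) (.cons 292 (.leaf 293 2339 (.cons 316 (.leaf 291 2331 (.cons 339 (.leaf 340 2522 (.cons 315 (.leaf 338 2514 (.cons 343 (.leaf 344 2528 (.leaf 342 2520 .nil)) .nil))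 .nil)) .nil)) .nil)) (.cons 292 (.leaf 293 2339 (.cons 316 (.leaf 291 2331 (.cons 340 (.leaf 341 2530 (.leaf 339 2522 .nil)) .nil)) .nil)) (.cons 292 (.leaf 293 2339 (.cons 316 (.leaf 291 2331 (.cons 342 (.leaf 341 2538 (.cons 343 (.leaf 344 2528 (.leaf 315 2520 .nil)) .nil)) .nil)) .nil)) .nil)))) .nil)) .nil))))
noncomputable def t39 : T := .cons 293 (.leaf 294 2347 (.cons 317 (.leaf 292 2339 (.cons 345 (.leaf 344 2536 (.leaf 346 2544 .nil)) .nil)) .nil)) (.cons 342 (.leaf 341 2538 (.cons 343 (.leaf 322 2546 (.cons 271 (.leaf 295 1981 (.cons 345 (.leaf 346 2544 (.cons 317 (.leaf 344 2536 (.cons 292 (.leaf 293 2339 (.cons 316 (.leaf 291 2331 (.leaf 315 2520 .nil)) .nil)) .nil)) .nil)) .nil)) .nil)) .nil)) (.cons 342 (.leaf 341 2538 (.cons 343 (.leaf 322 2546 (.cons 271 (.leaf 295 1981 (.cons 345 (.leaf 346 2544 (.cons 344 (.leaf 317 2536 (.cons 365 (.leaf 366 2730 (.cons 369 (.leaf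 370 2736 (.cons 393 (.leaf 417 2567 (.cons 392 (.leaf 416 2566 (.cons 368 (.leaf 297 2373 (.cons 391 (.leaf 415 2558 (.cons 294 (.leaf 367 2359 (.cons 270 (.leaf 246 1972 (.leaf 247 1973 .nil)) .nil)) .nil)) .nil)) .nil)) .nil)) .nil)) .nil)) .nil)) .nil)) .nil)) .nil)) .nil)) (.cons 342 (.leaf 341 2538 (.cons 293 (.leaf 294 2347 (.cons 317 (.leaf 292 2339 (.cons 245 (.leaf 269 1964 (.cons 343 (.leaf 322 2546 (.cons 316 (.leaf 344 2528 (.leaf 315 2520 .nil)) .nil)) .nil)) .nil)) .nil)) .nil)) (.cons 342 (.leaf 341 2538 (.cons 293 (.leaf 294 2347 (.cons 343 (.leaf 322 2546 (.cons 295 (.leaf 271 1981 (.cons 345 (.leaf 346 2544 (.cons 366 (.leaf 390 2357 (.cons 344 (.leaf 365 2730 (.cons 368 (.leaf 392 2367 (.cons 369 (.leaf 370 2736 (.cons 393 (.leaf 417 2567 (.cons 394 (.leaf 418 2572 (.leaf 367 2928 .nil)) .nil)) .nil)) .nil)) .nil)) .nil)) .nil)) .nil)) .nil)) .nil)) .nil)) (.cons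 294 (.leaf 293 2347 (.cons 295 (.leaf 322 2355 (.cons 271 (.leaf 343 1981 (.cons 342 (.leaf 341 2538 (.leaf 247 1974 .nil)) .nil)) .nil)) .nil)) .nil)))))
noncomputable def t40 : T := .cons 318 (.cons 294 (.leaf 293 2347 (.cons 342 (.leaf 341 2538 (.cons 297 (.leaf 298 2353 (.cons 270 (.cons 245 (.leaf 269 1967 (.cons 246 (.leaf 343 1972 (.leaf 221 1775 .nil)) .nil)) (.cons 245 (.leaf 269 1967 (.cons 246 (.leaf 221 1775 (.cons 247 (.leaf 223 1781 (.leaf 271 1973 .nil)) .nil)) .nil)) (.cons 343 (.leaf 322 2546 (.leaf 367 2164 .nil)) .nil))) .nil)) .nil)) .nil)) (.cons 294 (.leaf 293 2347 (.cons 298 (.leaf 297 2353 (.cons 322 (.leaf 295 2355 (.leaf 299 2361 .nil)) .nil)) .nil)) (.cons 298 (.leaf 297 2353 (.cons 322 (.leaf 299 2361 (.cons 343 (.leaf 342 2546 (.cons 271 (.leaf 295 1981 (.cons 323 (.leaf 344 2554 (.cons 345 (.leaf 346 2544 (.cons 250 (.leaf 274 1998 (.cons 249 (.leaf 251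 1978 (.cons 270 (.leaf 269 1961 (.leaf 247 1970 .nil)) .nil)) .nil)) .nil)) .nil)) .nil)) .nil)) .nil)) .nil)) (.cons 293 (.leaf 294 2347 (.cons 317 (.leaf 292 2339 (.cons 345 (.leaf 344 2536 (.leaf 346 2544 .nil)) .nil)) .nil)) .nil)))) (.cons 322 (.cons 299 (.leaf 298 2361 (.cons 323 (.leaf 300 2369 (.cons 343 (.leaf 342 2546 (.leaf 344 2554 .nil)) .nil)) .nil)) (.cons 294 (.leaf 295 2355 (.cons 299 (.leaf 298 2361 (.cons 323 (.leaf 300 2369 (.cons 251 (.leaf 346 2006 (.cons 226 (.leaf 250 1815 (.cons 227 (.leaf 202 1623 (.cons 228 (.leaf 204 1629 (.leaf 252 1821 .nil)) .nil)) .nil)) .nil)) .nil)) .nil)) .nil)) (.cons 343 (.leaf 342 2546 (.cons 295 (.leaf 271 1981 (.leaf 294 2355 .nil)) .nil)) .nil))) (.cons 318 (.cons 341 (.leaf 342 2538 (.cons 297 (.leaf 298 2353 (.cons 317 (.leaf 340 2530 (.cons 293 (.leaf 292 2339 (.leaf 294 2347 .nil)) .nil)) .nil)) .nil)) (.cons 293 (.leaf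 294 2347 (.cons 317 (.leaf 292 2339 (.cons 345 (.leaf 344 2536 (.leaf 346 2544 .nil)) .nil)) .nil)) (.cons 341 (.leaf 342 2538 (.cons 317 (.leaf 340 2530 (.cons 345 (.leaf 344 2536 (.leaf 346 2544 .nil)) .nil)) .nil)) (.cons 342 (.leaf 341 2538 (.cons 294 (.leaf 293 2347 (.cons 297 (.leaf 298 2353 (.cons 270 (.cons 245 (.leaf 269 1967 (.cons 246 (.leaf 343 1972 (.leaf 221 1775 .nil)) .nil)) (.cons 245 (.leaf 269 1967 (.cons 246 (.leaf 221 1775 (.cons 247 (.leaf 223 1781 (.leaf 271 1973 .nil)) .nil)) .nil)) (.cons 271 (.leaf 247 1973 (.cons 269 (.leaf 249 1961 (.leaf 245 1967 .nil)) .nil)) (.cons 343 (.leaf 246 1972 (.leaf 367 2164 .nil)) .nil)))) .nil)) .nil)) .nil)) .nil)))) (.cons 318 (.cons 341 (.leaf 342 2538 (.cons 293 (.leaf 294 2347 (.cons 317 (.leaf 292 2339 (.leaf 340 2530 .nil)) .nil)) .nil)) (.cons 341 (.leaf 342 2538 (.cons 317 (.leaf 340 2530 (.cons 345 (.leaf 344 2536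 (.leaf 346 2544 .nil)) .nil)) .nil)) (.cons 294 (.leaf 293 2347 (.cons 298 (.leaf 297 2353 (.cons 322 (.leaf 295 2355 (.leaf 299 2361 .nil)) .nil)) .nil)) .nil))) (.cons 318 (.cons 297 (.leaf 298 2353 (.cons 345 (.leaf 346 2544 (.cons 317 (.leaf 344 2536 (.cons 292 (.leaf 293 2339 (.cons 316 (.leaf 291 2331 (.cons 340 (.leaf 341 2530 (.leaf 339 2522 .nil)) .nil)) .nil)) .nil)) .nil)) .nil)) (.cons 298 (.leaf 297 2353 (.cons 322 (.leaf 299 2361 (.cons 294 (.leaf 295 2355 (.cons 345 (.leaf 346 2544 (.cons 250 (.leaf 274 1998 (.cons 344 (.leaf 317 2536 (.cons 323 (.leaf 343 2554 (.leaf 324 2562 .nil)) .nil)) .nil)) .nil)) .nil)) .nil)) .nil)) (.cons 294 (.leaf 293 2347 (.cons 298 (.leaf 297 2353 (.cons 322 (.leaf 295 2355 (.leaf 299 2361 .nil)) .nil)) .nil)) (.cons 293 (.leaf 294 2347 (.cons 317 (.leaf 292 2339 (.cons 345 (.leaf 344 2536 (.leaf 346 2544 .nil)) .nil)) .nil)) .nil))))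 (.cons 318 (.cons 298 (.leaf 297 2353 (.cons 322 (.leaf 299 2361 (.cons 343 (.leaf 342 2546 (.cons 271 (.leaf 295 1981 (.cons 323 (.leaf 344 2554 (.cons 345 (.leaf 346 2544 (.cons 250 (.leaf 274 1998 (.cons 249 (.leaf 251 1978 (.cons 270 (.leaf 269 1961 (.leaf 247 1970 .nil)) .nil)) .nil)) .nil)) .nil)) .nil)) .nil)) .nil)) .nil)) (.cons 345 (.leaf 346 2544 (.cons 297 (.leaf 298 2353 (.cons 317 (.leaf 344 2536 (.cons 292 (.leaf 293 2339 (.cons 316 (.leaf 291 2331 (.cons 340 (.leaf 341 2530 (.leaf 339 2522 .nil)) .nil)) .nil)) .nil)) .nil)) .nil)) (.cons 298 (.leaf 297 2353 (.cons 322 (.leaf 299 2361 (.cons 342 (.leaf 341 2538 (.leaf 343 2546 .nil)) .nil)) .nil)) (.cons 341 (.leaf 342 2538 (.cons 317 (.leaf 340 2530 (.cons 345 (.leaf 344 2536 (.leaf 346 2544 .nil)) .nil)) .nil)) .nil)))) (.cons 318 t39 (.cons 318 (.cons 298 (.leaf 297 2353 (.cons 322 (.leaf 299 2361 (.cons 342 (.leaf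 341 2538 (.leaf 343 2546 .nil)) .nil)) .nil)) (.cons 294 (.leaf 293 2347 (.cons 295 (.leaf 322 2355 (.cons 271 (.leaf 343 1981 (.cons 247 (.leaf 223 1782 (.cons 246 (.leaf 222 1783 (.cons 245 (.leaf 244 1952 (.cons 221 (.leaf 220 1763 (.leaf 270 1775 .nil)) .nil)) .nil)) .nil)) .nil)) .nil)) .nil)) (.cons 293 (.leaf 294 2347 (.cons 317 (.leaf 292 2339 (.cons 341 (.leaf 340 2530 (.leaf 342 2538 .nil)) .nil)) .nil)) .nil))) .nil)))))))
noncomputable def t41 : T := .cons 318 (.cons 342 (.leaf 341 2538 (.cons 294 (.leaf 293 2347 (.cons 297 (.leaf 298 2353 (.cons 270 (.cons 343 (.leaf 246 1972 (.leaf 367 2164 .nil)) (.cons 247 (.leaf 271 1973 (.cons 245 (.leaf 269 1967 (.cons 246 (.leaf 221 1775 (.leaf 223 1781 .nil)) .nil)) .nil)) (.cons 343 (.leaf 367 2164 (.cons 271 (.leaf 295 1981 (.leaf 247 1973 .nil)) .nil)) .nil))) .nil)) .nil)) .nil)) (.cons 293 (.leaf 294 2347 (.cons 317 (.leaf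 292 2339 (.cons 345 (.leaf 344 2536 (.leaf 346 2544 .nil)) .nil)) .nil)) (.cons 345 (.leaf 346 2544 (.cons 317 (.leaf 344 2536 (.cons 341 (.leaf 340 2530 (.leaf 342 2538 .nil)) .nil)) .nil)) .nil))) (.cons 322 (.cons 299 (.leaf 298 2361 (.cons 323 (.leaf 300 2369 (.cons 343 (.leaf 342 2546 (.leaf 344 2554 .nil)) .nil)) .nil)) (.cons 294 (.leaf 295 2355 (.cons 299 (.leaf 298 2361 (.cons 323 (.leaf 300 2369 (.cons 251 (.leaf 346 2006 (.cons 226 (.leaf 250 1815 (.cons 227 (.leaf 202 1623 (.cons 228 (.leaf 204 1629 (.leaf 252 1821 .nil)) .nil)) .nil)) .nil)) .nil)) .nil)) .nil)) (.cons 343 (.leaf 342 2546 (.cons 323 (.leaf 344 2554 (.cons 347 (.leaf 346 2552 (.leaf 348 2560 .nil)) .nil)) .nil)) (.cons 343 (.leaf 342 2546 (.cons 295 (.leaf 271 1981 (.leaf 294 2355 .nil)) .nil)) .nil)))) (.cons 318 (.cons 293 (.leaf 294 2347 (.cons 298 (.leaf 297 2353 (.cons 322 (.leaf 299 2361 (.cons 346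 (.leaf 345 2544 (.leaf 347 2552 .nil)) .nil)) .nil)) .nil)) (.cons 345 (.leaf 346 2544 (.cons 317 (.leaf 344 2536 (.cons 341 (.leaf 340 2530 (.leaf 342 2538 .nil)) .nil)) .nil)) (.cons 293 (.leaf 294 2347 (.cons 317 (.leaf 292 2339 (.cons 341 (.leaf 340 2530 (.leaf 342 2538 .nil)) .nil)) .nil)) .nil))) (.cons 318 (.cons 293 (.leaf 294 2347 (.cons 297 (.leaf 298 2353 (.cons 317 (.leaf 292 2339 (.cons 340 (.leaf 341 2530 (.cons 316 (.leaf 339 2522 (.cons 344 (.leaf 345 2536 (.leaf 343 2528 .nil)) .nil)) .nil)) .nil)) .nil)) .nil)) (.cons 342 (.leaf 341 2538 (.cons 298 (.leaf 297 2353 (.cons 322 (.leaf 299 2361 (.leaf 343 2546 .nil)) .nil)) .nil)) (.cons 294 (.leaf 293 2347 (.cons 295 (.leaf 322 2355 (.cons 271 (.leaf 343 1981 (.cons 342 (.leaf 247 1974 (.leaf 366 2165 .nil)) .nil)) .nil)) .nil)) (.cons 294 (.leaf 293 2347 (.cons 295 (.leaf 322 2355 (.cons 297 (.leaf 298 2353 (.cons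 342 (.leaf 341 2538 (.cons 271 (.leaf 247 1974 (.leaf 366 2165 .nil)) .nil)) .nil)) .nil)) .nil)) .nil)))) (.cons 322 (.cons 294 (.leaf 295 2355 (.cons 318 (.leaf 293 2347 (.cons 298 (.leaf 297 2353 (.leaf 299 2361 .nil)) .nil)) .nil)) (.cons 294 (.leaf 295 2355 (.cons 318 (.leaf 293 2347 (.cons 346 (.leaf 345 2544 (.leaf 347 2552 .nil)) .nil)) .nil)) (.cons 298 (.leaf 299 2361 (.cons 297 (.leaf 318 2353 (.cons 346 (.leaf 347 2552 (.cons 274 (.leaf 251 2005 (.cons 345 (.leaf 250 1998 (.leaf 369 2189 .nil)) .nil)) .nil)) .nil)) .nil)) (.cons 299 (.leaf 298 2361 (.cons 294 (.leaf 295 2355 (.cons 323 (.leaf 300 2369 (.cons 251 (.leaf 346 2006 (.cons 226 (.leaf 250 1815 (.cons 227 (.leaf 202 1623 (.cons 228 (.leaf 204 1629 (.leaf 252 1821 .nil)) .nil)) .nil)) .nil)) .nil)) .nil)) .nil)) .nil)))) (.cons 322 (.cons 298 (.leaf 299 2361 (.cons 318 (.leaf 297 2353 (.cons 342 (.leaf 341 2538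 (.leaf 343 2546 .nil)) .nil)) .nil)) (.cons 346 (.leaf 347 2552 (.cons 298 (.leaf 299 2361 (.cons 318 (.leaf 297 2353 (.leaf 345 2544 .nil)) .nil)) .nil)) (.cons 342 (.leaf 343 2546 (.cons 318 (.leaf 341 2538 (.cons 346 (.leaf 345 2544 (.leaf 347 2552 .nil)) .nil)) .nil)) (.cons 298 (.leaf 299 2361 (.cons 342 (.leaf 343 2546 (.cons 346 (.leaf 347 2552 (.cons 274 (.leaf 251 2005 (.cons 345 (.leaf 250 1998 (.leaf 369 2190 .nil)) .nil)) .nil)) .nil)) .nil)) .nil)))) (.cons 318 (.cons 293 (.leaf 294 2347 (.cons 317 (.leaf 292 2339 (.cons 345 (.leaf 344 2536 (.leaf 346 2544 .nil)) .nil)) .nil)) (.cons 341 (.leaf 342 2538 (.cons 317 (.leaf 340 2530 (.cons 345 (.leaf 344 2536 (.leaf 346 2544 .nil)) .nil)) .nil)) (.cons 342 (.leaf 341 2538 (.cons 293 (.leaf 294 2347 (.cons 317 (.leaf 292 2339 (.cons 245 (.leaf 269 1964 (.cons 343 (.leaf 322 2546 (.cons 316 (.leaf 344 2528 (.leaf 315 2520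 .nil)) .nil)) .nil)) .nil)) .nil)) .nil)) (.cons 342 (.leaf 341 2538 (.cons 293 (.leaf 294 2347 (.cons 343 (.leaf 322 2546 (.cons 295 (.leaf 271 1981 (.cons 345 (.leaf 346 2544 (.cons 366 (.leaf 390 2357 (.cons 344 (.leaf 365 2730 (.cons 368 (.leaf 392 2367 (.cons 369 (.leaf 370 2736 (.cons 393 (.leaf 417 2567 (.cons 394 (.leaf 418 2572 (.leaf 367 2928 .nil)) .nil)) .nil)) .nil)) .nil)) .nil)) .nil)) .nil)) .nil)) .nil)) .nil)) (.cons 294 (.leaf 293 2347 (.cons 295 (.leaf 322 2355 (.cons 271 (.leaf 343 1981 (.cons 342 (.leaf 341 2538 (.leaf 247 1974 .nil)) .nil)) .nil)) .nil)) .nil))))) .nil))))))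
noncomputable def t42 : T := .cons 341 (.leaf 342 2538 (.cons 317 (.leaf 340 2530 (.cons 345 (.leaf 344 2536 (.leaf 346 2544 .nil)) .nil)) .nil)) (.cons 345 (.leaf 346 2544 (.cons 317 (.leaf 344 2536 (.cons 292 (.leaf 293 2339 (.cons 316 (.leaf 291 2331 (.cons 340 (.leaf 341 2530 (.leaf 339 2522 .nil)) .nil)) .nil)) .nil)) .nil)) (.cons 342 (.leaf 341 2538 (.cons 322 (.leaf 343 2546 (.cons 347 (.leaf 346 2552 (.cons 323 (.leaf 348 2560 (.cons 299 (.leaf 300 2369 (.cons 250 (.leaf 274 2007 (.cons 251 (.leaf 226 1815 (.cons 228 (.leaf 252 1821 (.cons 227 (.leaf 204 1629 (.leaf 249 1793 .nil)) .nil)) .nil)) .nil)) .nil)) .nil)) .nil)) .nil)) .nil)) (.cons 341 (.leaf 342 2538 (.cons 317 (.leaf 340 2530 (.cons 292 (.leaf 293 2339 (.cons 316 (.leaf 291 2331 (.cons 344 (.leaf 345 2536 (.leaf 343 2528 .nil)) .nil)) .nil)) .nil)) .nil)) (.cons 346 (.leaf 345 2544 (.cons 322 (.leaf 347 2552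 (.cons 343 (.leaf 342 2546 (.cons 271 (.leaf 295 1981 (.cons 323 (.leaf 344 2554 (.cons 299 (.leaf 251 2006 (.leaf 300 2369 .nil)) .nil)) .nil)) .nil)) .nil)) .nil)) .nil))))
noncomputable def t43 : T := .cons 342 (.leaf 341 2538 (.cons 294 (.leaf 293 2347 (.cons 345 (.leaf 346 2544 (.cons 270 (.cons 245 (.leaf 269 1967 (.cons 221 (.leaf 246 1775 (.cons 271 (.leaf 247 1973 (.cons 366 (.leaf 295 2165 (.cons 389 (.leaf 365 2350 (.cons 390 (.leaf 413 2542 (.cons 391 (.leaf 367 2356 (.leaf 415 2548 .nil)) .nil)) .nil)) .nil)) .nil)) .nil)) .nil)) (.cons 245 (.leaf 269 1967 (.cons 246 (.leaf 343 1972 (.leaf 221 1775 .nil)) .nil)) (.cons 245 (.leaf 269 1967 (.cons 247 (.leaf 271 1973 (.cons 367 (.leaf 343 2164 (.cons 366 (.leaf 391 2356 (.cons 389 (.leaf 365 2350 (.cons 390 (.leaf 295 2357 (.leaf 413 2542 .nil)) .nil)) .nil)) .nil)) .nil)) .nil)) (.cons 343 (.leaf 246 1972 (.leaf 367 2164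 .nil)) .nil)))) .nil)) .nil)) .nil)) (.cons 345 (.leaf 346 2544 (.cons 293 (.leaf 294 2347 (.cons 317 (.leaf 292 2339 (.leaf 344 2536 .nil)) .nil)) .nil)) (.cons 341 (.leaf 342 2538 (.cons 293 (.leaf 294 2347 (.cons 317 (.leaf 292 2339 (.leaf 340 2530 .nil)) .nil)) .nil)) (.cons 345 (.leaf 346 2544 (.cons 317 (.leaf 344 2536 (.cons 341 (.leaf 340 2530 (.leaf 342 2538 .nil)) .nil)) .nil)) .nil)))
noncomputable def t44 : T := .cons 342 (.leaf 343 2546 (.cons 347 (.leaf 346 2552 (.cons 323 (.leaf 348 2560 (.cons 299 (.leaf 298 2361 (.leaf 300 2369 .nil)) .nil)) .nil)) .nil)) (.cons 298 (.leaf 299 2361 (.cons 297 (.leaf 318 2353 (.cons 343 (.leaf 342 2546 (.cons 271 (.leaf 295 1981 (.cons 323 (.leaf 344 2554 (.cons 324 (.leaf 325 2379 (.cons 348 (.leaf 347 2560 (.leaf 349 2568 .nil)) .nil)) .nil)) .nil)) .nil)) .nil)) .nil)) (.cons 298 (.leaf 299 2361 (.cons 297 (.leaf 318 2353 (.cons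 346 (.leaf 347 2552 (.cons 274 (.leaf 251 2005 (.cons 345 (.leaf 250 1998 (.leaf 369 2189 .nil)) .nil)) .nil)) .nil)) .nil)) (.cons 342 (.leaf 343 2546 (.cons 347 (.leaf 346 2552 (.cons 323 (.leaf 348 2560 (.cons 299 (.leaf 300 2369 (.cons 250 (.leaf 274 2007 (.cons 251 (.leaf 226 1815 (.cons 228 (.leaf 252 1821 (.cons 227 (.leaf 204 1629 (.leaf 249 1793 .nil)) .nil)) .nil)) .nil)) .nil)) .nil)) .nil)) .nil)) (.cons 342 (.leaf 343 2546 (.cons 318 (.leaf 341 2538 (.cons 346 (.leaf 345 2544 (.leaf 347 2552 .nil)) .nil)) .nil)) (.cons 298 (.leaf 299 2361 (.cons 318 (.leaf 297 2353 (.cons 342 (.leaf 341 2538 (.leaf 343 2546 .nil)) .nil)) .nil)) .nil)))))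
noncomputable def t45 : T := .cons 297 (.leaf 298 2353 (.cons 342 (.leaf 341 2538 (.cons 322 (.leaf 343 2546 (.cons 347 (.leaf 346 2552 (.cons 323 (.leaf 348 2560 (.cons 299 (.leaf 300 2369 (.cons 294 (.leaf 293 2347 (.leaf 295 2355 .nil)) .nil)) .nil)) .nil)) .nil)) .nil)) .nil)) (.cons 294 (.leaf 293 2347 (.cons 322 (.leaf 295 2355 (.cons 298 (.leaf 297 2353 (.leaf 299 2361 .nil)) .nil)) .nil)) (.cons 297 (.leaf 298 2353 (.cons 342 (.leaf 341 2538 (.cons 322 (.leaf 343 2546 (.cons 347 (.leaf 346 2552 (.cons 323 (.leaf 348 2560 (.cons 299 (.leaf 300 2369 (.cons 250 (.leaf 274 2007 (.cons 251 (.leaf 226 1815 (.cons 228 (.leaf 252 1821 (.cons 227 (.leaf 204 1629 (.leaf 249 1793 .nil)) .nil)) .nil)) .nil)) .nil)) .nil)) .nil)) .nil)) .nil)) .nil)) (.cons 294 (.leaf 293 2347 (.cons 322 (.leaf 295 2355 (.cons 341 (.leaf 342 2538 (.cons 317 (.leaf 340 2530 (.cons 246 (.leaf 270 1966 (.cons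 347 (.leaf 346 2552 (.cons 323 (.leaf 348 2560 (.cons 299 (.leaf 300 2369 (.cons 250 (.leaf 274 2007 (.cons 251 (.leaf 226 1815 (.cons 228 (.leaf 252 1821 (.cons 227 (.leaf 204 1629 (.leaf 249 1793 .nil)) .nil)) .nil)) .nil)) .nil)) .nil)) .nil)) .nil)) .nil)) .nil)) .nil)) .nil)) (.cons 341 (.leaf 342 2538 (.cons 317 (.leaf 340 2530 (.cons 345 (.leaf 344 2536 (.leaf 346 2544 .nil)) .nil)) .nil)) .nil))))
noncomputable def t46 : T := .cons 318 (.cons 345 (.leaf 346 2544 (.cons 293 (.leaf 294 2347 (.cons 317 (.leaf 292 2339 (.leaf 344 2536 .nil)) .nil)) .nil)) (.cons 341 (.leaf 342 2538 (.cons 293 (.leaf 294 2347 (.cons 317 (.leaf 292 2339 (.leaf 340 2530 .nil)) .nil)) .nil)) (.cons 345 (.leaf 346 2544 (.cons 317 (.leaf 344 2536 (.cons 341 (.leaf 340 2530 (.leaf 342 2538 .nil)) .nil)) .nil)) (.cons 342 (.leaf 341 2538 (.cons 294 (.leaf 293 2347 (.cons 297 (.leaf 298 2353 (.cons 270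 (.cons 343 (.leaf 246 1972 (.leaf 367 2164 .nil)) (.cons 271 (.leaf 247 1973 (.cons 269 (.leaf 249 1961 (.leaf 245 1967 .nil)) .nil)) .nil)) .nil)) .nil)) .nil)) .nil)))) (.cons 318 (.cons 293 (.leaf 294 2347 (.cons 292 (.leaf 317 2339 (.cons 298 (.leaf 297 2353 (.cons 322 (.leaf 299 2361 (.cons 346 (.leaf 345 2544 (.leaf 347 2552 .nil)) .nil)) .nil)) .nil)) .nil)) (.cons 345 (.leaf 346 2544 (.cons 317 (.leaf 344 2536 (.cons 341 (.leaf 340 2530 (.leaf 342 2538 .nil)) .nil)) .nil)) (.cons 294 (.leaf 293 2347 (.cons 295 (.leaf 322 2355 (.cons 342 (.leaf 341 2538 (.cons 271 (.leaf 247 1974 (.leaf 366 2165 .nil)) .nil)) .nil)) .nil)) .nil))) (.cons 322 (.cons 298 (.leaf 299 2361 (.cons 297 (.leaf 318 2353 (.cons 346 (.leaf 347 2552 (.cons 370 (.leaf 394 2383 (.cons 369 (.leaf 393 2382 (.cons 274 (.leaf 345 2189 (.cons 250 (.leaf 226 1806 (.cons 249 (.leaf 247 1976 (.leaf 225 1807 .nil))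 .nil)) .nil)) .nil)) .nil)) .nil)) .nil)) .nil)) (.cons 294 (.leaf 295 2355 (.cons 298 (.leaf 299 2361 (.cons 318 (.leaf 293 2347 (.leaf 297 2353 .nil)) .nil)) .nil)) (.cons 294 (.leaf 295 2355 (.cons 318 (.leaf 293 2347 (.cons 346 (.leaf 345 2544 (.leaf 347 2552 .nil)) .nil)) .nil)) (.cons 295 (.leaf 294 2355 (.cons 271 (.leaf 343 1981 (.cons 247 (.leaf 344 1980 (.cons 222 (.leaf 246 1783 (.cons 198 (.leaf 223 1591 (.cons 298 (.leaf 299 2361 (.cons 347 (.leaf 346 2552 (.cons 323 (.leaf 348 2560 (.cons 250 (.leaf 274 2004 (.cons 270 (.leaf 249 1970 (.cons 269 (.leaf 268 1953 (.cons 245 (.leaf 244 1955 (.cons 293 (.leaf 292 2146 (.leaf 221 1581 .nil)) .nil)) .nil)) .nil)) .nil)) .nil)) .nil)) .nil)) .nil)) .nil)) .nil)) .nil)) .nil)) .nil)))) (.cons 318 (.cons 293 (.leaf 294 2347 (.cons 297 (.leaf 298 2353 (.cons 317 (.leaf 292 2339 (.cons 340 (.leaf 341 2530 (.cons 316 (.leaf 339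 2522 (.cons 344 (.leaf 345 2536 (.leaf 343 2528 .nil)) .nil)) .nil)) .nil)) .nil)) .nil)) (.cons 342 (.leaf 341 2538 (.cons 298 (.leaf 297 2353 (.cons 322 (.leaf 299 2361 (.leaf 343 2546 .nil)) .nil)) .nil)) (.cons 294 (.leaf 293 2347 (.cons 295 (.leaf 322 2355 (.cons 297 (.leaf 298 2353 (.cons 343 (.leaf 271 1981 (.cons 270 (.leaf 246 1972 (.leaf 367 2167 .nil)) .nil)) .nil)) .nil)) .nil)) (.cons 293 (.leaf 294 2347 (.cons 317 (.leaf 292 2339 (.cons 341 (.leaf 340 2530 (.leaf 342 2538 .nil)) .nil)) .nil)) .nil)))) (.cons 322 (.cons 342 (.leaf 343 2546 (.cons 318 (.leaf 341 2538 (.cons 346 (.leaf 345 2544 (.leaf 347 2552 .nil)) .nil)) .nil)) (.cons 346 (.leaf 347 2552 (.cons 298 (.leaf 299 2361 (.cons 318 (.leaf 297 2353 (.leaf 345 2544 .nil)) .nil)) .nil)) (.cons 298 (.leaf 299 2361 (.cons 318 (.leaf 297 2353 (.cons 342 (.leaf 341 2538 (.leaf 343 2546 .nil)) .nil)) .nil)) (.cons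 343 (.leaf 342 2546 (.cons 323 (.leaf 344 2554 (.cons 347 (.leaf 346 2552 (.leaf 348 2560 .nil)) .nil)) .nil)) .nil)))) (.cons 318 (.cons 341 (.leaf 342 2538 (.cons 317 (.leaf 340 2530 (.cons 345 (.leaf 344 2536 (.leaf 346 2544 .nil)) .nil)) .nil)) (.cons 294 (.leaf 293 2347 (.cons 322 (.leaf 295 2355 (.cons 346 (.leaf 345 2544 (.leaf 347 2552 .nil)) .nil)) .nil)) (.cons 342 (.leaf 341 2538 (.cons 293 (.leaf 294 2347 (.cons 317 (.leaf 292 2339 (.cons 245 (.leaf 269 1964 (.cons 343 (.leaf 322 2546 (.cons 316 (.leaf 344 2528 (.leaf 315 2520 .nil)) .nil)) .nil)) .nil)) .nil)) .nil)) .nil))) (.cons 318 (.cons 293 (.leaf 294 2347 (.cons 342 (.leaf 341 2538 (.cons 322 (.leaf 343 2546 (.cons 346 (.leaf 345 2544 (.leaf 347 2552 .nil)) .nil)) .nil)) .nil)) (.cons 297 (.leaf 298 2353 (.cons 342 (.leaf 341 2538 (.cons 322 (.leaf 343 2546 (.cons 346 (.leaf 345 2544 (.leaf 347 2552 .nil)) .nil))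 .nil)) .nil)) (.cons 294 (.leaf 293 2347 (.cons 295 (.leaf 322 2355 (.cons 297 (.leaf 298 2353 (.cons 343 (.leaf 271 1981 (.cons 270 (.leaf 246 1972 (.leaf 367 2167 .nil)) .nil)) .nil)) .nil)) .nil)) (.cons 293 (.leaf 294 2347 (.cons 317 (.leaf 292 2339 (.cons 341 (.leaf 340 2530 (.leaf 342 2538 .nil)) .nil)) .nil)) .nil)))) .nil))))))
noncomputable def t47 : T := .cons 342 (.leaf 343 2546 (.cons 347 (.leaf 346 2552 (.cons 323 (.leaf 348 2560 (.cons 299 (.leaf 298 2361 (.leaf 300 2369 .nil)) .nil)) .nil)) .nil)) (.cons 298 (.leaf 299 2361 (.cons 297 (.leaf 318 2353 (.cons 343 (.leaf 342 2546 (.cons 323 (.leaf 344 2554 (.cons 324 (.leaf 325 2379 (.cons 348 (.leaf 347 2560 (.leaf 349 2568 .nil)) .nil)) .nil)) .nil)) .nil)) .nil)) (.cons 342 (.leaf 343 2546 (.cons 347 (.leaf 346 2552 (.cons 323 (.leaf 348 2560 (.cons 299 (.leaf 300 2369 (.cons 250 (.leaf 274 2007 (.cons 251 (.leaf 226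 1815 (.cons 228 (.leaf 252 1821 (.cons 227 (.leaf 204 1629 (.leaf 249 1793 .nil)) .nil)) .nil)) .nil)) .nil)) .nil)) .nil)) .nil)) (.cons 342 (.leaf 343 2546 (.cons 318 (.leaf 341 2538 (.cons 346 (.leaf 345 2544 (.leaf 347 2552 .nil)) .nil)) .nil)) (.cons 298 (.leaf 299 2361 (.cons 318 (.leaf 297 2353 (.cons 342 (.leaf 341 2538 (.leaf 343 2546 .nil)) .nil)) .nil)) (.cons 298 (.leaf 299 2361 (.cons 297 (.leaf 318 2353 (.cons 346 (.leaf 347 2552 (.cons 274 (.leaf 251 2005 (.cons 345 (.leaf 250 1998 (.leaf 369 2189 .nil)) .nil)) .nil)) .nil)) .nil)) .nil)))))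
noncomputable def t48 : T := .cons 294 (.leaf 295 2355 (.cons 343 (.leaf 342 2546 (.cons 323 (.leaf 344 2554 (.cons 347 (.leaf 346 2552 (.leaf 348 2560 .nil)) .nil)) .nil)) .nil)) (.cons 294 (.leaf 295 2355 (.cons 298 (.leaf 299 2361 (.cons 343 (.leaf 342 2546 (.cons 323 (.leaf 344 2554 (.cons 348 (.leaf 347 2560 (.cons 324 (.leaf 349 2568 (.cons 301 (.leaf 300 2377 (.cons 325 (.leaf 297 2379 (.leaf 302 2385 .nil)) .nil)) .nil)) .nil)) .nil)) .nil)) .nil)) .nil)) (.cons 294 (.leaf 295 2355 (.cons 299 (.leaf 298 2361 (.cons 323 (.leaf 300 2369 (.cons 251 (.leaf 346 2006 (.cons 226 (.leaf 250 1815 (.cons 227 (.leaf 202 1623 (.cons 228 (.leaf 204 1629 (.leaf 252 1821 .nil)) .nil)) .nil)) .nil)) .nil)) .nil)) .nil)) (.cons 298 (.leaf 299 2361 (.cons 294 (.leaf 295 2355 (.cons 346 (.leaf 347 2552 (.cons 274 (.leaf 251 2005 (.cons 345 (.leaf 250 1998 (.leaf 369 2190 .nil)) .nil)) .nil))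 .nil)) .nil)) (.cons 298 (.leaf 299 2361 (.cons 346 (.leaf 347 2552 (.cons 274 (.leaf 251 2005 (.cons 345 (.leaf 250 1998 (.leaf 369 2190 .nil)) .nil)) .nil)) .nil)) .nil))))
noncomputable def t49 : T := .cons 293 (.leaf 294 2347 (.cons 297 (.leaf 298 2353 (.cons 317 (.leaf 292 2339 (.cons 341 (.leaf 340 2530 (.leaf 342 2538 .nil)) .nil)) .nil)) .nil)) (.cons 345 (.leaf 346 2544 (.cons 293 (.leaf 294 2347 (.cons 317 (.leaf 292 2339 (.leaf 344 2536 .nil)) .nil)) .nil)) (.cons 345 (.leaf 346 2544 (.cons 317 (.leaf 344 2536 (.cons 341 (.leaf 340 2530 (.leaf 342 2538 .nil)) .nil)) .nil)) (.cons 294 (.leaf 293 2347 (.cons 342 (.leaf 341 2538 (.cons 345 (.leaf 346 2544 (.cons 297 (.leaf 298 2353 (.cons 270 (.cons 245 (.leaf 269 1967 (.cons 246 (.leaf 343 1972 (.leaf 221 1775 .nil)) .nil)) (.cons 245 (.leaf 269 1967 (.cons 246 (.leaf 221 1775 (.cons 222 (.leaf 295 1780 (.cons 223 (.leaf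 247 1781 (.leaf 199 1589 .nil)) .nil)) .nil)) .nil)) (.cons 245 (.leaf 269 1967 (.cons 367 (.leaf 343 2164 (.cons 366 (.leaf 391 2356 (.cons 365 (.leaf 389 2350 (.cons 368 (.leaf 344 2729 (.cons 392 (.leaf 369 2374 (.leaf 393 2920 .nil)) .nil)) .nil)) .nil)) .nil)) .nil)) (.cons 343 (.leaf 246 1972 (.leaf 367 2164 .nil)) .nil)))) .nil)) .nil)) .nil)) .nil)) .nil)))
noncomputable def t50 : T := .cons 345 (.leaf 346 2544 (.cons 293 (.leaf 294 2347 (.cons 317 (.leaf 292 2339 (.leaf 344 2536 .nil)) .nil)) .nil)) (.cons 341 (.leaf 342 2538 (.cons 293 (.leaf 294 2347 (.cons 317 (.leaf 292 2339 (.leaf 340 2530 .nil)) .nil)) .nil)) (.cons 345 (.leaf 346 2544 (.cons 317 (.leaf 344 2536 (.cons 341 (.leaf 340 2530 (.leaf 342 2538 .nil)) .nil)) .nil)) (.cons 342 (.leaf 341 2538 (.cons 294 (.leaf 293 2347 (.cons 345 (.leaf 346 2544 (.cons 297 (.leaf 298 2353 (.cons 270 (.cons 245 (.leaf 269 1967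 (.cons 246 (.leaf 343 1972 (.leaf 221 1775 .nil)) .nil)) (.cons 245 (.leaf 269 1967 (.cons 246 (.leaf 221 1775 (.cons 222 (.leaf 295 1780 (.cons 223 (.leaf 247 1781 (.leaf 199 1589 .nil)) .nil)) .nil)) .nil)) (.cons 245 (.leaf 269 1967 (.cons 367 (.leaf 343 2164 (.cons 366 (.leaf 391 2356 (.cons 365 (.leaf 389 2350 (.cons 368 (.leaf 344 2729 (.cons 392 (.leaf 369 2374 (.leaf 393 2920 .nil)) .nil)) .nil)) .nil)) .nil)) .nil)) (.cons 343 (.leaf 246 1972 (.leaf 367 2164 .nil)) .nil)))) .nil)) .nil)) .nil)) .nil)) .nil)))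
noncomputable def t51 : T := .cons 322 (.cons 294 (.leaf 295 2355 (.cons 299 (.leaf 298 2361 (.cons 323 (.leaf 300 2369 (.cons 347 (.leaf 346 2552 (.leaf 348 2560 .nil)) .nil)) .nil)) .nil)) (.cons 294 (.leaf 295 2355 (.cons 343 (.leaf 342 2546 (.cons 323 (.leaf 344 2554 (.cons 347 (.leaf 346 2552 (.leaf 348 2560 .nil)) .nil)) .nil)) .nil)) (.cons 294 (.leaf 295 2355 (.cons 299 (.leaf 298 2361 (.cons 323 (.leaf 300 2369 (.cons 343 (.leaf 342 2546 (.leaf 344 2554 .nil)) .nil)) .nil)) .nil)) (.cons 299 (.leaf 298 2361 (.cons 323 (.leaf 300 2369 (.cons 343 (.leaf 342 2546 (.leaf 344 2554 .nil)) .nil)) .nil)) (.cons 343 (.leaf 342 2546 (.cons 295 (.leaf 271 1981 (.leaf 294 2355 .nil)) .nil)) .nil))))) (.cons 318 t50 (.cons 318 (.cons 293 (.leaf 294 2347 (.cons 297 (.leaf 298 2353 (.cons 317 (.leaf 292 2339 (.cons 341 (.leaf 340 2530 (.leaf 342 2538 .nil)) .nil)) .nil)) .nil)) (.cons 345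 (.leaf 346 2544 (.cons 317 (.leaf 344 2536 (.cons 341 (.leaf 340 2530 (.leaf 342 2538 .nil)) .nil)) .nil)) (.cons 293 (.leaf 294 2347 (.cons 298 (.leaf 297 2353 (.cons 322 (.leaf 299 2361 (.cons 346 (.leaf 345 2544 (.leaf 347 2552 .nil)) .nil)) .nil)) .nil)) .nil))) (.cons 318 (.cons 293 (.leaf 294 2347 (.cons 297 (.leaf 298 2353 (.cons 317 (.leaf 292 2339 (.cons 340 (.leaf 341 2530 (.cons 316 (.leaf 339 2522 (.cons 344 (.leaf 345 2536 (.leaf 343 2528 .nil)) .nil)) .nil)) .nil)) .nil)) .nil)) (.cons 342 (.leaf 341 2538 (.cons 298 (.leaf 297 2353 (.cons 322 (.leaf 299 2361 (.leaf 343 2546 .nil)) .nil)) .nil)) (.cons 294 (.leaf 293 2347 (.cons 295 (.leaf 322 2355 (.cons 297 (.leaf 298 2353 (.cons 343 (.leaf 271 1981 (.cons 270 (.leaf 246 1972 (.leaf 367 2167 .nil)) .nil)) .nil)) .nil)) .nil)) (.cons 342 (.leaf 341 2538 (.cons 293 (.leaf 294 2347 (.cons 317 (.leaf 292 2339 (.cons 245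 (.leaf 269 1964 (.cons 343 (.leaf 322 2546 (.cons 344 (.leaf 345 2536 (.leaf 316 2528 .nil)) .nil)) .nil)) .nil)) .nil)) .nil)) (.cons 294 (.leaf 293 2347 (.cons 295 (.leaf 322 2355 (.cons 297 (.leaf 298 2353 (.cons 342 (.leaf 341 2538 (.cons 271 (.leaf 247 1974 (.leaf 366 2165 .nil)) .nil)) .nil)) .nil)) .nil)) .nil))))) (.cons 322 (.cons 298 (.leaf 299 2361 (.cons 297 (.leaf 318 2353 (.cons 346 (.leaf 347 2552 (.cons 274 (.leaf 251 2005 (.cons 369 (.leaf 345 2189 (.cons 370 (.leaf 394 2383 (.leaf 393 2382 .nil)) .nil)) .nil)) .nil)) .nil)) .nil)) (.cons 298 (.leaf 299 2361 (.cons 294 (.leaf 295 2355 (.cons 318 (.leaf 293 2347 (.leaf 297 2353 .nil)) .nil)) .nil)) (.cons 346 (.leaf 347 2552 (.cons 294 (.leaf 295 2355 (.cons 318 (.leaf 293 2347 (.leaf 345 2544 .nil)) .nil)) .nil)) (.cons 294 (.leaf 295 2355 (.cons 298 (.leaf 299 2361 (.cons 346 (.leaf 347 2552 (.cons 274 (.leaf 251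 2005 (.cons 369 (.leaf 345 2190 (.cons 370 (.leaf 393 2382 (.cons 394 (.leaf 297 2383 (.cons 395 (.leaf 371 2388 (.leaf 419 2580 .nil)) .nil)) .nil)) .nil)) .nil)) .nil)) .nil)) .nil)) .nil)))) (.cons 322 (.cons 298 (.leaf 299 2361 (.cons 297 (.leaf 318 2353 (.cons 343 (.leaf 342 2546 (.cons 271 (.leaf 295 1981 (.cons 323 (.leaf 344 2554 (.cons 324 (.leaf 325 2379 (.cons 348 (.leaf 347 2560 (.leaf 349 2568 .nil)) .nil)) .nil)) .nil)) .nil)) .nil)) .nil)) (.cons 298 (.leaf 299 2361 (.cons 346 (.leaf 347 2552 (.cons 318 (.leaf 297 2353 (.leaf 345 2544 .nil)) .nil)) .nil)) (.cons 342 (.leaf 343 2546 (.cons 318 (.leaf 341 2538 (.cons 346 (.leaf 345 2544 (.leaf 347 2552 .nil)) .nil)) .nil)) (.cons 298 (.leaf 299 2361 (.cons 318 (.leaf 297 2353 (.cons 342 (.leaf 341 2538 (.leaf 343 2546 .nil)) .nil)) .nil)) (.cons 343 (.leaf 342 2546 (.cons 323 (.leaf 344 2554 (.cons 347 (.leaf 346 2552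 (.leaf 348 2560 .nil)) .nil)) .nil)) .nil))))) (.cons 318 (.cons 341 (.leaf 342 2538 (.cons 317 (.leaf 340 2530 (.cons 345 (.leaf 344 2536 (.leaf 346 2544 .nil)) .nil)) .nil)) (.cons 294 (.leaf 293 2347 (.cons 322 (.leaf 295 2355 (.cons 346 (.leaf 345 2544 (.leaf 347 2552 .nil)) .nil)) .nil)) (.cons 342 (.leaf 341 2538 (.cons 293 (.leaf 294 2347 (.cons 317 (.leaf 292 2339 (.cons 245 (.leaf 269 1964 (.cons 343 (.leaf 322 2546 (.cons 316 (.leaf 344 2528 (.leaf 315 2520 .nil)) .nil)) .nil)) .nil)) .nil)) .nil)) .nil))) .nil))))))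
noncomputable def t52 : T := .cons 293 (.leaf 294 2347 (.cons 317 (.leaf 292 2339 (.cons 345 (.leaf 344 2536 (.leaf 346 2544 .nil)) .nil)) .nil)) (.cons 341 (.leaf 342 2538 (.cons 317 (.leaf 340 2530 (.cons 345 (.leaf 344 2536 (.leaf 346 2544 .nil)) .nil)) .nil)) (.cons 293 (.leaf 294 2347 (.cons 317 (.leaf 292 2339 (.cons 341 (.leaf 340 2530 (.leaf 342 2538 .nil)) .nil)) .nil)) (.cons 342 (.leaf 341 2538 (.cons 294 (.leaf 293 2347 (.cons 345 (.leaf 346 2544 (.cons 297 (.leaf 298 2353 (.cons 270 (.cons 245 (.leaf 269 1967 (.cons 246 (.leaf 343 1972 (.leaf 221 1775 .nil)) .nil)) (.cons 245 (.leaf 269 1967 (.cons 246 (.leaf 221 1775 (.cons 222 (.leaf 295 1780 (.cons 223 (.leaf 247 1781 (.leaf 199 1589 .nil)) .nil)) .nil)) .nil)) (.cons 245 (.leaf 269 1967 (.cons 367 (.leaf 343 2164 (.cons 366 (.leaf 391 2356 (.cons 365 (.leaf 389 2350 (.cons 368 (.leaf 344 2729 (.cons 392 (.leaf 369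 2374 (.leaf 393 2920 .nil)) .nil)) .nil)) .nil)) .nil)) .nil)) (.cons 343 (.leaf 322 2546 (.leaf 246 1972 .nil)) .nil)))) .nil)) .nil)) .nil)) .nil)) .nil)))
noncomputable def top0 : T := .cons 318 t6 (.cons 318 t5 (.cons 322 (.cons 298 (.leaf 299 2361 (.cons 342 (.leaf 343 2546 (.cons 346 (.leaf 347 2552 (.cons 274 (.leaf 251 2005 (.cons 345 (.leaf 250 1998 (.leaf 369 2190 .nil)) .nil)) .nil)) .nil)) .nil)) (.cons 294 (.leaf 295 2355 (.cons 298 (.leaf 299 2361 (.cons 346 (.leaf 347 2552 (.cons 274 (.leaf 251 2005 (.cons 345 (.leaf 250 1998 (.leaf 369 2190 .nil)) .nil)) .nil)) .nil)) .nil)) (.cons 294 (.leaf 295 2355 (.cons 343 (.leaf 342 2546 (.cons 323 (.leaf 344 2554 (.cons 347 (.leaf 346 2552 (.leaf 348 2560 .nil)) .nil)) .nil)) .nil)) (.cons 343 (.leaf 342 2546 (.cons 295 (.leaf 271 1981 (.leaf 294 2355 .nil)) .nil)) .nil)))) (.cons 318 t4 (.cons 318 t3 (.cons 318 t2 (.cons 322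 (.cons 294 (.leaf 295 2355 (.cons 293 (.leaf 318 2347 (.cons 347 (.leaf 346 2552 (.cons 323 (.leaf 348 2560 (.cons 299 (.leaf 298 2361 (.leaf 300 2369 .nil)) .nil)) .nil)) .nil)) .nil)) (.cons 298 (.leaf 299 2361 (.cons 294 (.leaf 295 2355 (.cons 318 (.leaf 293 2347 (.leaf 297 2353 .nil)) .nil)) .nil)) (.cons 346 (.leaf 347 2552 (.cons 294 (.leaf 295 2355 (.cons 318 (.leaf 293 2347 (.leaf 345 2544 .nil)) .nil)) .nil)) (.cons 298 (.leaf 299 2361 (.cons 297 (.leaf 318 2353 (.cons 346 (.leaf 347 2552 (.cons 274 (.leaf 251 2005 (.cons 345 (.leaf 250 1998 (.leaf 369 2189 .nil)) .nil)) .nil)) .nil)) .nil)) (.cons 299 (.leaf 298 2361 (.cons 294 (.leaf 295 2355 (.cons 323 (.leaf 300 2369 (.cons 346 (.leaf 251 2006 (.leaf 347 2552 .nil)) .nil)) .nil)) .nil)) .nil))))) (.cons 322 t1 (.cons 318 t0 .nil))))))))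
noncomputable def top1 : T := .cons 322 (.cons 300 (.leaf 299 2369 (.cons 324 (.leaf 301 2377 (.cons 348 (.leaf 347 2560 (.leaf 349 2568 .nil)) .nil)) .nil)) (.cons 344 (.leaf 343 2554 (.cons 324 (.leaf 345 2562 (.cons 348 (.leaf 347 2560 (.leaf 349 2568 .nil)) .nil)) .nil)) (.cons 299 (.leaf 300 2369 (.cons 251 (.leaf 346 2006 (.cons 226 (.leaf 250 1815 (.cons 227 (.leaf 202 1623 (.leaf 298 1814 .nil)) .nil)) .nil)) .nil)) .nil))) (.cons 299 t17 (.cons 322 t15 (.cons 322 (.cons 344 (.leaf 343 2554 (.cons 324 (.leaf 345 2562 (.cons 349 (.leaf 348 2568 (.cons 325 (.leaf 350 2576 (.cons 298 (.leaf 297 2379 (.cons 299 (.leaf 300 2369 (.leaf 326 2387 .nil)) .nil)) .nil)) .nil)) .nil)) .nil)) (.cons 344 (.leaf 343 2554 (.cons 324 (.leaf 345 2562 (.cons 301 (.leaf 300 2377 (.cons 325 (.leaf 302 2385 (.cons 349 (.leaf 348 2568 (.leaf 350 2576 .nil)) .nil)) .nil)) .nil)) .nil)) (.cons 299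 (.leaf 300 2369 (.cons 251 (.leaf 346 2006 (.cons 226 (.leaf 250 1815 (.cons 227 (.leaf 202 1623 (.leaf 298 1814 .nil)) .nil)) .nil)) .nil)) (.cons 344 (.leaf 343 2554 (.cons 324 (.leaf 345 2562 (.cons 349 (.leaf 348 2568 (.cons 325 (.leaf 350 2576 (.cons 298 (.leaf 297 2379 (.cons 299 (.leaf 326 2387 (.cons 251 (.leaf 227 1814 (.leaf 346 2006 .nil)) .nil)) .nil)) .nil)) .nil)) .nil)) .nil)) .nil)))) (.cons 299 t12 (.cons 322 t11 (.cons 322 (.cons 299 (.leaf 300 2369 (.cons 343 (.leaf 344 2554 (.cons 347 (.leaf 348 2560 (.cons 250 (.leaf 274 2007 (.cons 370 (.leaf 346 2198 (.cons 371 (.leaf 394 2390 (.cons 395 (.leaf 298 2391 (.cons 396 (.leaf 372 2396 (.leaf 420 2588 .nil)) .nil)) .nil)) .nil)) .nil)) .nil)) .nil)) .nil)) (.cons 344 (.leaf 343 2554 (.cons 324 (.leaf 345 2562 (.cons 300 (.leaf 299 2369 (.leaf 301 2377 .nil)) .nil)) .nil)) (.cons 344 (.leaf 343 2554 (.cons 324 (.leaf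 345 2562 (.cons 348 (.leaf 347 2560 (.leaf 349 2568 .nil)) .nil)) .nil)) (.cons 348 (.leaf 347 2560 (.cons 300 (.leaf 299 2369 (.cons 324 (.leaf 301 2377 (.leaf 349 2568 .nil)) .nil)) .nil)) .nil)))) (.cons 299 t10 (.cons 347 t9 (.cons 322 (.cons 348 (.leaf 347 2560 (.cons 300 (.leaf 299 2369 (.cons 324 (.leaf 301 2377 (.leaf 349 2568 .nil)) .nil)) .nil)) (.cons 344 (.leaf 343 2554 (.cons 324 (.leaf 345 2562 (.cons 348 (.leaf 347 2560 (.leaf 349 2568 .nil)) .nil)) .nil)) (.cons 299 (.leaf 300 2369 (.cons 251 (.leaf 346 2006 (.cons 227 (.leaf 298 1814 (.cons 228 (.leaf 204 1629 (.leaf 252 1821 .nil)) .nil)) .nil)) .nil)) .nil))) (.cons 322 (.cons 299 (.leaf 300 2369 (.cons 347 (.leaf 348 2560 (.cons 250 (.leaf 274 2007 (.cons 251 (.leaf 226 1815 (.cons 227 (.leaf 298 1814 (.cons 228 (.leaf 204 1629 (.leaf 252 1821 .nil)) .nil)) .nil)) .nil)) .nil)) .nil)) (.cons 344 (.leaf 343 2554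 (.cons 324 (.leaf 345 2562 (.cons 348 (.leaf 347 2560 (.leaf 349 2568 .nil)) .nil)) .nil)) (.cons 300 (.leaf 299 2369 (.cons 324 (.leaf 301 2377 (.cons 344 (.leaf 343 2554 (.leaf 345 2562 .nil)) .nil)) .nil)) .nil))) (.cons 299 t7 (.cons 322 (.cons 299 (.leaf 300 2369 (.cons 251 (.leaf 346 2006 (.cons 226 (.leaf 250 1815 (.cons 227 (.leaf 202 1623 (.cons 228 (.leaf 204 1629 (.leaf 252 1821 .nil)) .nil)) .nil)) .nil)) .nil)) (.cons 344 (.leaf 343 2554 (.cons 324 (.leaf 345 2562 (.cons 348 (.leaf 347 2560 (.leaf 349 2568 .nil)) .nil)) .nil)) .nil)) .nil))))))))))))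
noncomputable def top2 : T := .cons 322 (.cons 343 (.leaf 342 2546 (.cons 323 (.leaf 344 2554 (.cons 347 (.leaf 346 2552 (.leaf 348 2560 .nil)) .nil)) .nil)) (.cons 294 (.leaf 295 2355 (.cons 318 (.leaf 293 2347 (.cons 346 (.leaf 345 2544 (.leaf 347 2552 .nil)) .nil)) .nil)) (.cons 294 (.leaf 295 2355 (.cons 318 (.leaf 293 2347 (.cons 342 (.leaf 341 2538 (.leaf 343 2546 .nil)) .nil)) .nil)) .nil))) (.cons 343 (.cons 295 (.leaf 271 1981 (.cons 367 (.cons 390 (.leaf 366 2358 (.cons 270 (.leaf 294 2167 (.cons 391 (.leaf 414 2550 (.cons 415 (.leaf 344 2557 (.cons 416 (.leaf 392 2556 (.leaf 440 2748 .nil)) .nil)) .nil)) .nil)) .nil)) (.cons 392 (.leaf 368 2364 (.cons 366 (.leaf 390 2358 (.cons 391 (.leaf 416 2556 (.cons 344 (.leaf 415 2557 (.cons 364 (.leaf 365 2912 (.cons 342 (.leaf 322 2546 (.leaf 341 2537 .nil)) .nil)) .nil)) .nil)) .nil)) .nil)) (.cons 322 (.leaf 294 2355 (.leaf 342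 2546 .nil)) .nil))) .nil)) (.cons 295 (.leaf 271 1981 (.cons 367 t23 .nil)) (.cons 295 (.leaf 271 1981 (.cons 294 (.leaf 322 2355 (.cons 292 (.leaf 293 2336 (.cons 367 (.leaf 270 2167 (.cons 390 (.leaf 366 2358 (.cons 391 (.leaf 414 2550 (.cons 392 (.leaf 368 2364 (.leaf 416 2556 .nil)) .nil)) .nil)) .nil)) .nil)) .nil)) .nil)) (.cons 342 (.leaf 322 2546 (.cons 341 (.leaf 340 2529 (.leaf 344 2537 .nil)) .nil)) .nil)))) (.cons 318 t22 t21))
noncomputable def top3 : T := .cons 319 (.cons 298 (.leaf 299 2361 (.cons 318 (.leaf 297 2353 (.cons 342 (.leaf 341 2538 (.leaf 343 2546 .nil)) .nil)) .nil)) (.cons 346 (.leaf 347 2552 (.cons 294 (.leaf 295 2355 (.cons 318 (.leaf 293 2347 (.leaf 345 2544 .nil)) .nil)) .nil)) (.cons 299 (.leaf 298 2361 (.cons 294 (.leaf 295 2355 (.cons 323 (.leaf 300 2369 (.cons 346 (.leaf 251 2006 (.leaf 347 2552 .nil)) .nil)) .nil)) .nil)) .nil))) (.cons 323 t11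 (.cons 319 (.cons 342 (.leaf 343 2546 (.cons 318 (.leaf 341 2538 (.cons 346 (.leaf 345 2544 (.leaf 347 2552 .nil)) .nil)) .nil)) (.cons 295 (.leaf 294 2355 (.cons 343 (.leaf 271 1981 (.leaf 342 2546 .nil)) .nil)) (.cons 346 (.leaf 347 2552 (.cons 294 (.leaf 295 2355 (.cons 318 (.leaf 293 2347 (.leaf 345 2544 .nil)) .nil)) .nil)) .nil))) (.cons 319 (.cons 298 (.leaf 299 2361 (.cons 318 (.leaf 297 2353 (.cons 342 (.leaf 341 2538 (.leaf 343 2546 .nil)) .nil)) .nil)) (.cons 295 (.leaf 294 2355 (.cons 343 (.leaf 271 1981 (.leaf 342 2546 .nil)) .nil)) (.cons 294 (.leaf 295 2355 (.cons 293 (.leaf 318 2347 (.cons 299 (.leaf 298 2361 (.cons 323 (.leaf 300 2369 (.cons 347 (.leaf 348 2560 (.cons 250 (.leaf 274 2007 (.cons 251 (.leaf 226 1815 (.cons 228 (.leaf 252 1821 (.cons 227 (.leaf 204 1629 (.leaf 249 1793 .nil)) .nil)) .nil)) .nil)) .nil)) .nil)) .nil)) .nil)) .nil)) .nil))) (.cons 319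 (.cons 294 (.leaf 295 2355 (.cons 293 (.leaf 318 2347 (.cons 299 (.leaf 298 2361 (.cons 323 (.leaf 300 2369 (.cons 251 (.leaf 346 2006 (.cons 226 (.leaf 250 1815 (.cons 227 (.leaf 202 1623 (.cons 228 (.leaf 204 1629 (.leaf 252 1821 .nil)) .nil)) .nil)) .nil)) .nil)) .nil)) .nil)) .nil)) (.cons 295 (.leaf 294 2355 (.cons 343 (.leaf 271 1981 (.leaf 342 2546 .nil)) .nil)) (.cons 298 (.leaf 299 2361 (.cons 318 (.leaf 297 2353 (.cons 342 (.leaf 341 2538 (.leaf 343 2546 .nil)) .nil)) .nil)) .nil))) .nil))))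
noncomputable def top4 : T := .cons 322 (.cons 295 (.leaf 294 2355 (.cons 343 (.leaf 271 1981 (.leaf 342 2546 .nil)) .nil)) (.cons 294 (.leaf 295 2355 (.cons 298 (.leaf 299 2361 (.cons 318 (.leaf 293 2347 (.leaf 297 2353 .nil)) .nil)) .nil)) (.cons 298 (.leaf 299 2361 (.cons 318 (.leaf 297 2353 (.cons 342 (.leaf 341 2538 (.leaf 343 2546 .nil)) .nil)) .nil)) .nil))) (.cons 322 (.cons 298 (.leaf 299 2361 (.cons 342 (.leaf 343 2546 (.cons 346 (.leaf 347 2552 (.cons 274 (.leaf 251 2005 (.cons 345 (.leaf 250 1998 (.leaf 369 2190 .nil)) .nil)) .nil)) .nil)) .nil)) (.cons 294 (.leaf 295 2355 (.cons 298 (.leaf 299 2361 (.cons 346 (.leaf 347 2552 (.cons 274 (.leaf 251 2005 (.cons 345 (.leaf 250 1998 (.leaf 369 2190 .nil)) .nil)) .nil)) .nil)) .nil)) (.cons 343 (.leaf 342 2546 (.cons 295 (.leaf 271 1981 (.leaf 294 2355 .nil)) .nil)) .nil))) (.cons 318 t25 (.cons 318 t24 (.cons 318 (.cons 345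 (.leaf 346 2544 (.cons 297 (.leaf 298 2353 (.cons 317 (.leaf 344 2536 (.cons 292 (.leaf 293 2339 (.cons 316 (.leaf 291 2331 (.cons 340 (.leaf 341 2530 (.leaf 339 2522 .nil)) .nil)) .nil)) .nil)) .nil)) .nil)) (.cons 342 (.leaf 341 2538 (.cons 293 (.leaf 294 2347 (.cons 292 (.leaf 317 2339 (.cons 298 (.leaf 297 2353 (.cons 322 (.leaf 299 2361 (.leaf 343 2546 .nil)) .nil)) .nil)) .nil)) .nil)) (.cons 345 (.leaf 346 2544 (.cons 293 (.leaf 294 2347 (.cons 317 (.leaf 292 2339 (.leaf 344 2536 .nil)) .nil)) .nil)) (.cons 342 (.leaf 341 2538 (.cons 297 (.leaf 298 2353 (.cons 322 (.leaf 343 2546 (.cons 346 (.leaf 345 2544 (.leaf 347 2552 .nil)) .nil)) .nil)) .nil)) .nil)))) (.cons 318 (.cons 293 (.leaf 294 2347 (.cons 298 (.leaf 297 2353 (.cons 322 (.leaf 299 2361 (.cons 346 (.leaf 345 2544 (.leaf 347 2552 .nil)) .nil)) .nil)) .nil)) (.cons 345 (.leaf 346 2544 (.cons 297 (.leaf 298 2353 (.cons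 317 (.leaf 344 2536 (.cons 292 (.leaf 293 2339 (.cons 316 (.leaf 291 2331 (.cons 340 (.leaf 341 2530 (.leaf 339 2522 .nil)) .nil)) .nil)) .nil)) .nil)) .nil)) (.cons 294 (.leaf 293 2347 (.cons 295 (.leaf 322 2355 (.cons 271 (.leaf 343 1981 (.cons 247 (.leaf 344 1980 (.leaf 223 1782 .nil)) .nil)) .nil)) .nil)) (.cons 345 (.leaf 346 2544 (.cons 298 (.leaf 297 2353 (.cons 317 (.leaf 344 2536 (.cons 322 (.leaf 299 2361 (.cons 250 (.leaf 274 1998 (.cons 295 (.leaf 294 2355 (.cons 271 (.leaf 343 1981 (.cons 249 (.leaf 251 1978 (.cons 270 (.leaf 269 1961 (.leaf 247 1970 .nil)) .nil)) .nil)) .nil)) .nil)) .nil)) .nil)) .nil)) .nil)) .nil)))) (.cons 318 (.cons 298 (.leaf 297 2353 (.cons 322 (.leaf 299 2361 (.cons 342 (.leaf 341 2538 (.leaf 343 2546 .nil)) .nil)) .nil)) (.cons 298 (.leaf 297 2353 (.cons 322 (.leaf 299 2361 (.cons 346 (.leaf 345 2544 (.leaf 347 2552 .nil)) .nil)) .nil)) (.cons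 341 (.leaf 342 2538 (.cons 317 (.leaf 340 2530 (.cons 345 (.leaf 344 2536 (.leaf 346 2544 .nil)) .nil)) .nil)) .nil))) (.cons 318 (.cons 293 (.leaf 294 2347 (.cons 317 (.leaf 292 2339 (.cons 345 (.leaf 344 2536 (.leaf 346 2544 .nil)) .nil)) .nil)) (.cons 342 (.leaf 341 2538 (.cons 322 (.leaf 343 2546 (.cons 346 (.leaf 345 2544 (.leaf 347 2552 .nil)) .nil)) .nil)) (.cons 293 (.leaf 294 2347 (.cons 317 (.leaf 292 2339 (.cons 341 (.leaf 340 2530 (.leaf 342 2538 .nil)) .nil)) .nil)) .nil))) .nil)))))))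
noncomputable def top5 : T := .cons 322 (.cons 298 (.leaf 319 2361 (.cons 300 (.leaf 297 2370 (.leaf 323 2369 .nil)) .nil)) (.cons 323 (.leaf 300 2369 (.cons 347 (.leaf 348 2560 (.cons 346 (.leaf 251 2006 (.leaf 370 2198 .nil)) .nil)) .nil)) (.cons 298 (.leaf 319 2361 (.cons 300 (.leaf 297 2370 (.leaf 301 2378 .nil)) .nil)) (.cons 298 (.leaf 319 2361 (.cons 251 (.leaf 227 1814 (.cons 346 (.leaf 274 2005 (.leaf 323 2006 .nil)) .nil)) .nil)) .nil)))) (.cons 251 (.cons 227 (.cons 228 (.leaf 204 1629 (.cons 249 (.leaf 250 1793 (.cons 323 (.leaf 252 1821 (.cons 324 (.leaf 300 1820 (.leaf 348 2012 .nil)) .nil)) .nil)) .nil)) (.cons 226 (.leaf 202 1623 (.cons 250 (.leaf 323 1815 (.cons 249 (.leaf 271 1978 (.leaf 247 1785 .nil)) .nil)) .nil)) (.cons 202 (.leaf 226 1623 (.cons 203 (.leaf 178 1431 (.cons 180 (.leaf 204 1437 (.cons 156 (.leaf 179 1245 (.cons 298 (.leaf 274 1622 (.cons 300 (.leaf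 324 1820 (.leaf 297 2370 .nil)) .nil)) .nil)) .nil)) .nil)) .nil)) .nil))) t29) (.cons 298 (.cons 322 (.leaf 319 2361 (.cons 300 (.leaf 297 2370 (.leaf 301 2378 .nil)) .nil)) (.cons 300 (.leaf 297 2370 (.cons 301 (.cons 302 (.leaf 274 2195 (.cons 278 (.leaf 277 2193 (.leaf 279 2201 .nil)) .nil)) (.cons 277 (.leaf 278 2193 (.cons 325 (.leaf 326 2384 (.cons 253 (.cons 324 (.leaf 229 1830 (.leaf 348 2022 .nil)) (.cons 228 (.leaf 252 1831 (.cons 229 (.leaf 204 1639 (.cons 230 (.leaf 206 1645 (.leaf 254 1837 .nil)) .nil)) .nil)) (.cons 252 (.leaf 228 1831 (.cons 254 (.leaf 230 1837 (.cons 251 (.leaf 274 2002 (.cons 227 (.leaf 324 1820 (.leaf 226 1811 .nil)) .nil)) .nil)) .nil)) .nil))) .nil)) .nil)) (.cons 302 (.leaf 274 2195 (.cons 326 (.leaf 325 2384 (.leaf 327 2392 .nil)) .nil)) (.cons 326 (.leaf 325 2384 (.cons 278 (.leaf 277 2193 (.cons 302 (.leaf 279 2201 (.leaf 327 2392 .nil)) .nil))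 .nil)) .nil)))) .nil)) (.cons 322 (.leaf 319 2361 (.cons 251 (.leaf 227 1814 (.cons 346 (.leaf 274 2005 (.leaf 370 2197 .nil)) .nil)) .nil)) .nil))) (.cons 323 t27 (.cons 322 t26 (.cons 322 (.cons 323 (.leaf 300 2369 (.cons 347 (.leaf 348 2560 (.cons 346 (.leaf 370 2198 (.leaf 319 2552 .nil)) .nil)) .nil)) (.cons 319 (.leaf 298 2361 (.cons 294 (.leaf 295 2355 (.cons 318 (.leaf 293 2347 (.cons 346 (.leaf 345 2544 (.leaf 347 2552 .nil)) .nil)) .nil)) .nil)) (.cons 300 (.leaf 323 2369 (.cons 298 (.leaf 297 2370 (.leaf 301 2378 .nil)) .nil)) .nil))) (.cons 322 (.cons 298 (.leaf 319 2361 (.cons 300 (.leaf 297 2370 (.leaf 323 2369 .nil)) .nil)) (.cons 323 (.leaf 300 2369 (.cons 347 (.leaf 348 2560 (.cons 250 (.leaf 274 2007 (.cons 251 (.leaf 226 1815 (.cons 228 (.leaf 252 1821 (.cons 227 (.leaf 204 1629 (.leaf 249 1793 .nil)) .nil)) .nil)) .nil)) .nil)) .nil)) (.cons 298 (.leaf 319 2361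 (.cons 300 (.leaf 297 2370 (.leaf 301 2378 .nil)) .nil)) (.cons 298 (.leaf 319 2361 (.cons 251 (.leaf 227 1814 (.cons 323 (.cons 348 (.leaf 324 2012 (.leaf 347 2560 .nil)) (.cons 228 (.leaf 252 1821 (.cons 250 (.leaf 226 1815 (.cons 274 (.leaf 347 2004 (.leaf 345 1998 .nil)) .nil)) .nil)) (.cons 226 (.leaf 250 1815 (.cons 228 (.leaf 252 1821 (.cons 324 (.leaf 348 2012 (.cons 325 (.leaf 326 2387 (.leaf 297 2379 .nil)) .nil)) .nil)) .nil)) .nil))) .nil)) .nil)) .nil)))) (.cons 322 (.cons 323 (.leaf 300 2369 (.cons 251 (.leaf 346 2006 (.cons 226 (.leaf 250 1815 (.cons 227 (.leaf 202 1623 (.leaf 298 1814 .nil)) .nil)) .nil)) .nil)) (.cons 323 (.leaf 300 2369 (.cons 251 (.leaf 346 2006 (.cons 226 (.leaf 250 1815 (.cons 227 (.leaf 202 1623 (.cons 228 (.leaf 204 1629 (.leaf 252 1821 .nil)) .nil)) .nil)) .nil)) .nil)) (.cons 298 (.leaf 319 2361 (.cons 300 (.leaf 297 2370 (.leaf 301 2378 .nil))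 .nil)) (.cons 298 (.leaf 319 2361 (.cons 251 (.leaf 227 1814 (.cons 346 (.leaf 274 2005 (.leaf 323 2006 .nil)) .nil)) .nil)) .nil)))) .nil)))))))
noncomputable def top6 : T := .cons 318 t35 (.cons 322 (.cons 295 (.leaf 294 2355 (.cons 299 (.leaf 298 2361 (.cons 323 (.leaf 300 2369 (.cons 347 (.leaf 348 2560 (.cons 250 (.leaf 274 2007 (.cons 251 (.leaf 226 1815 (.cons 228 (.leaf 252 1821 (.cons 343 (.leaf 271 1981 (.leaf 342 2546 .nil)) .nil)) .nil)) .nil)) .nil)) .nil)) .nil)) .nil)) (.cons 299 (.leaf 298 2361 (.cons 323 (.leaf 300 2369 (.cons 294 (.leaf 295 2355 (.cons 347 (.leaf 348 2560 (.cons 250 (.leaf 274 2007 (.cons 251 (.leaf 226 1815 (.cons 228 (.leaf 252 1821 (.cons 227 (.leaf 204 1629 (.leaf 249 1793 .nil)) .nil)) .nil)) .nil)) .nil)) .nil)) .nil)) .nil)) (.cons 295 (.leaf 294 2355 (.cons 343 (.leaf 271 1981 (.leaf 342 2546 .nil)) .nil)) (.cons 299 (.leaf 298 2361 (.cons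 323 (.leaf 300 2369 (.cons 347 (.leaf 348 2560 (.cons 250 (.leaf 274 2007 (.cons 251 (.leaf 226 1815 (.cons 228 (.leaf 252 1821 (.cons 227 (.leaf 204 1629 (.leaf 249 1793 .nil)) .nil)) .nil)) .nil)) .nil)) .nil)) .nil)) .nil)))) (.cons 318 t34 (.cons 318 t33 (.cons 318 (.cons 293 (.leaf 294 2347 (.cons 297 (.leaf 298 2353 (.cons 317 (.leaf 292 2339 (.cons 340 (.leaf 341 2530 (.cons 316 (.leaf 339 2522 (.cons 344 (.leaf 345 2536 (.leaf 343 2528 .nil)) .nil)) .nil)) .nil)) .nil)) .nil)) (.cons 293 (.leaf 294 2347 (.cons 297 (.leaf 298 2353 (.cons 317 (.leaf 292 2339 (.cons 344 (.leaf 345 2536 (.cons 343 (.leaf 316 2528 (.cons 322 (.leaf 342 2546 (.leaf 323 2554 .nil)) .nil)) .nil)) .nil)) .nil)) .nil)) (.cons 298 (.leaf 297 2353 (.cons 322 (.leaf 299 2361 (.cons 342 (.leaf 341 2538 (.leaf 343 2546 .nil)) .nil)) .nil)) (.cons 342 (.leaf 341 2538 (.cons 293 (.leaf 294 2347 (.cons 317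 (.leaf 292 2339 (.cons 245 (.leaf 269 1964 (.cons 343 (.leaf 322 2546 (.cons 344 (.leaf 345 2536 (.leaf 316 2528 .nil)) .nil)) .nil)) .nil)) .nil)) .nil)) (.cons 298 (.leaf 297 2353 (.cons 293 (.leaf 294 2347 (.cons 317 (.leaf 292 2339 (.cons 341 (.leaf 340 2530 (.leaf 342 2538 .nil)) .nil)) .nil)) .nil)) .nil))))) (.cons 295 (.cons 271 (.leaf 343 1981 (.cons 247 (.leaf 344 1980 (.cons 222 (.leaf 246 1783 (.cons 223 (.leaf 198 1591 (.cons 199 (.leaf 175 1404 (.cons 294 (.leaf 322 2355 (.leaf 318 1782 .nil)) .nil)) .nil)) .nil)) .nil)) .nil)) (.cons 271 (.leaf 343 1981 (.cons 247 (.leaf 344 1980 (.cons 246 (.leaf 222 1783 (.cons 245 (.leaf 244 1952 (.cons 220 (.leaf 221 1763 (.cons 269 (.leaf 268 1954 (.cons 249 (.leaf 270 1961 (.cons 250 (.leaf 274 1976 (.leaf 251 1978 .nil)) .nil)) .nil)) .nil)) .nil)) .nil)) .nil)) .nil)) (.cons 294 (.leaf 322 2355 (.cons 293 (.leaf 292 2336 (.leaf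 318 2347 .nil)) .nil)) .nil))) (.cons 298 (.cons 297 (.leaf 318 2353 (.cons 299 (.leaf 300 2370 (.leaf 322 2361 .nil)) .nil)) (.cons 318 (.leaf 297 2353 (.cons 341 (.leaf 342 2538 (.cons 317 (.leaf 340 2530 (.cons 292 (.leaf 293 2339 (.cons 316 (.leaf 291 2331 (.cons 344 (.leaf 345 2536 (.leaf 343 2528 .nil)) .nil)) .nil)) .nil)) .nil)) .nil)) (.cons 322 (.leaf 299 2361 (.cons 343 (.leaf 342 2546 (.cons 323 (.leaf 344 2554 (.cons 348 (.leaf 347 2560 (.cons 324 (.leaf 349 2568 (.cons 301 (.leaf 300 2377 (.cons 325 (.leaf 297 2379 (.leaf 302 2385 .nil)) .nil)) .nil)) .nil)) .nil)) .nil)) .nil)) (.cons 322 (.leaf 299 2361 (.cons 343 (.leaf 342 2546 (.cons 271 (.leaf 295 1981 (.cons 323 (.leaf 344 2554 (.cons 347 (.leaf 348 2560 (.cons 250 (.leaf 274 2004 (.cons 249 (.leaf 251 1978 (.cons 270 (.leaf 269 1961 (.leaf 247 1970 .nil)) .nil)) .nil)) .nil)) .nil)) .nil)) .nil)) .nil)) .nil))))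 .nil))))))
noncomputable def top7 : T := .cons 322 (.cons 298 (.leaf 299 2361 (.cons 318 (.leaf 297 2353 (.cons 342 (.leaf 341 2538 (.leaf 343 2546 .nil)) .nil)) .nil)) (.cons 298 (.leaf 299 2361 (.cons 294 (.leaf 295 2355 (.cons 318 (.leaf 293 2347 (.leaf 297 2353 .nil)) .nil)) .nil)) (.cons 343 (.leaf 342 2546 (.cons 323 (.leaf 344 2554 (.cons 347 (.leaf 346 2552 (.leaf 348 2560 .nil)) .nil)) .nil)) .nil))) (.cons 318 t38 (.cons 322 (.cons 294 (.leaf 295 2355 (.cons 299 (.leaf 298 2361 (.cons 323 (.leaf 300 2369 (.cons 343 (.leaf 342 2546 (.leaf 344 2554 .nil)) .nil)) .nil)) .nil)) (.cons 294 (.leaf 295 2355 (.cons 299 (.leaf 298 2361 (.cons 323 (.leaf 300 2369 (.cons 346 (.leaf 251 2006 (.leaf 347 2552 .nil)) .nil)) .nil)) .nil)) (.cons 295 (.leaf 294 2355 (.cons 343 (.leaf 271 1981 (.leaf 342 2546 .nil)) .nil)) (.cons 299 (.leaf 298 2361 (.cons 323 (.leaf 300 2369 (.cons 347 (.leaf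 346 2552 (.leaf 348 2560 .nil)) .nil)) .nil)) .nil)))) (.cons 322 (.cons 299 (.leaf 298 2361 (.cons 294 (.leaf 295 2355 (.cons 323 (.leaf 300 2369 (.cons 346 (.leaf 251 2006 (.leaf 347 2552 .nil)) .nil)) .nil)) .nil)) (.cons 347 (.leaf 346 2552 (.cons 294 (.leaf 295 2355 (.cons 318 (.leaf 293 2347 (.cons 323 (.leaf 348 2560 (.cons 298 (.leaf 297 2353 (.cons 250 (.leaf 274 2004 (.cons 249 t36 .nil)) .nil)) .nil)) .nil)) .nil)) .nil)) (.cons 347 (.leaf 346 2552 (.cons 294 (.leaf 295 2355 (.cons 293 (.leaf 318 2347 (.cons 323 (.leaf 348 2560 (.cons 299 (.leaf 300 2369 (.cons 250 (.leaf 274 2007 (.cons 251 (.leaf 226 1815 (.cons 228 (.leaf 252 1821 (.cons 227 (.leaf 204 1629 (.leaf 249 1793 .nil)) .nil)) .nil)) .nil)) .nil)) .nil)) .nil)) .nil)) .nil)) (.cons 298 (.leaf 299 2361 (.cons 294 (.leaf 295 2355 (.cons 318 (.leaf 293 2347 (.leaf 297 2353 .nil)) .nil)) .nil)) (.cons 299 (.leaf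 298 2361 (.cons 323 (.leaf 300 2369 (.cons 347 (.leaf 346 2552 (.leaf 348 2560 .nil)) .nil)) .nil)) .nil))))) (.cons 322 (.cons 298 (.leaf 299 2361 (.cons 318 (.leaf 297 2353 (.cons 342 (.leaf 341 2538 (.leaf 343 2546 .nil)) .nil)) .nil)) (.cons 343 (.leaf 342 2546 (.cons 323 (.leaf 344 2554 (.cons 347 (.leaf 346 2552 (.leaf 348 2560 .nil)) .nil)) .nil)) (.cons 299 (.leaf 298 2361 (.cons 323 (.leaf 300 2369 (.cons 347 (.leaf 346 2552 (.leaf 348 2560 .nil)) .nil)) .nil)) .nil))) (.cons 322 (.cons 295 (.leaf 294 2355 (.cons 299 (.leaf 298 2361 (.cons 323 (.leaf 300 2369 (.cons 347 (.leaf 346 2552 (.leaf 348 2560 .nil)) .nil)) .nil)) .nil)) (.cons 295 (.leaf 294 2355 (.cons 271 (.leaf 343 1981 (.cons 247 (.leaf 344 1980 (.cons 246 (.leaf 222 1783 (.cons 245 (.leaf 244 1952 (.cons 220 (.leaf 221 1763 (.cons 269 (.leaf 268 1954 (.cons 249 (.leaf 270 1961 (.cons 250 (.leaf 274 1976 (.leaf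 251 1978 .nil)) .nil)) .nil)) .nil)) .nil)) .nil)) .nil)) .nil)) .nil)) (.cons 299 (.leaf 298 2361 (.cons 323 (.leaf 300 2369 (.cons 347 (.leaf 346 2552 (.leaf 348 2560 .nil)) .nil)) .nil)) .nil))) (.cons 322 (.cons 294 (.leaf 295 2355 (.cons 293 (.leaf 318 2347 (.cons 343 (.leaf 342 2546 (.cons 323 (.leaf 344 2554 (.cons 347 (.leaf 346 2552 (.leaf 348 2560 .nil)) .nil)) .nil)) .nil)) .nil)) (.cons 294 (.leaf 295 2355 (.cons 293 (.leaf 318 2347 (.cons 347 (.leaf 346 2552 (.cons 323 (.leaf 348 2560 (.cons 299 (.leaf 300 2369 (.cons 250 (.leaf 274 2007 (.cons 251 (.leaf 226 1815 (.cons 228 (.leaf 252 1821 (.cons 227 (.leaf 204 1629 (.leaf 249 1793 .nil)) .nil)) .nil)) .nil)) .nil)) .nil)) .nil)) .nil)) .nil)) (.cons 342 (.leaf 343 2546 (.cons 318 (.leaf 341 2538 (.cons 347 (.leaf 346 2552 (.cons 323 (.leaf 348 2560 (.cons 299 (.leaf 300 2369 (.cons 250 (.leaf 274 2007 (.cons 251 (.leaf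 226 1815 (.cons 228 (.leaf 252 1821 (.cons 227 (.leaf 204 1629 (.leaf 249 1793 .nil)) .nil)) .nil)) .nil)) .nil)) .nil)) .nil)) .nil)) .nil)) (.cons 343 (.leaf 342 2546 (.cons 295 (.leaf 271 1981 (.leaf 294 2355 .nil)) .nil)) .nil)))) .nil))))))
noncomputable def top8 : T := t40
noncomputable def top9 : T := .cons 318 (.cons 293 (.leaf 294 2347 (.cons 342 (.leaf 341 2538 (.cons 317 (.leaf 292 2339 (.cons 245 (.leaf 269 1964 (.cons 343 (.leaf 322 2546 (.cons 344 (.leaf 345 2536 (.leaf 316 2528 .nil)) .nil)) .nil)) .nil)) .nil)) .nil)) (.cons 293 (.leaf 294 2347 (.cons 317 (.leaf 292 2339 (.cons 345 (.leaf 344 2536 (.leaf 346 2544 .nil)) .nil)) .nil)) (.cons 342 (.leaf 341 2538 (.cons 297 (.leaf 298 2353 (.cons 322 (.leaf 343 2546 (.cons 346 (.leaf 345 2544 (.leaf 347 2552 .nil)) .nil)) .nil)) .nil)) (.cons 293 (.leaf 294 2347 (.cons 317 (.leaf 292 2339 (.cons 341 (.leaf 340 2530 (.leaf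 342 2538 .nil)) .nil)) .nil)) .nil)))) t41
noncomputable def top10 : T := .cons 295 (.cons 294 (.leaf 322 2355 (.cons 271 (.leaf 343 1981 (.cons 292 (.leaf 293 2336 (.cons 247 (.leaf 344 1980 (.cons 222 (.leaf 246 1783 (.cons 223 (.leaf 198 1591 (.leaf 318 1782 .nil)) .nil)) .nil)) .nil)) .nil)) .nil)) (.cons 294 (.leaf 322 2355 (.cons 293 (.leaf 292 2336 (.leaf 318 2347 .nil)) .nil)) (.cons 343 (.leaf 271 1981 (.cons 322 (.leaf 342 2546 (.cons 323 (.leaf 344 2554 (.cons 347 (.leaf 346 2552 (.leaf 348 2560 .nil)) .nil)) .nil)) .nil)) (.cons 271 (.leaf 343 1981 (.cons 247 (.leaf 344 1980 (.cons 222 (.leaf 246 1783 (.cons 223 (.leaf 198 1591 (.cons 318 (.leaf 342 1974 (.leaf 294 1782 .nil)) .nil)) .nil)) .nil)) .nil)) .nil)))) (.cons 322 (.cons 295 (.leaf 294 2355 (.cons 343 (.leaf 271 1981 (.leaf 342 2546 .nil)) .nil)) (.cons 294 (.leaf 295 2355 (.cons 347 (.leaf 346 2552 (.cons 323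 (.leaf 348 2560 (.cons 299 (.leaf 300 2369 (.cons 250 (.leaf 274 2007 (.cons 251 (.leaf 226 1815 (.cons 228 (.leaf 252 1821 (.cons 227 (.leaf 204 1629 (.leaf 249 1793 .nil)) .nil)) .nil)) .nil)) .nil)) .nil)) .nil)) .nil)) (.cons 342 (.leaf 343 2546 (.cons 347 (.leaf 346 2552 (.cons 323 (.leaf 348 2560 (.cons 299 (.leaf 300 2369 (.cons 250 (.leaf 274 2007 (.cons 251 (.leaf 226 1815 (.cons 228 (.leaf 252 1821 (.cons 227 (.leaf 204 1629 (.leaf 249 1793 .nil)) .nil)) .nil)) .nil)) .nil)) .nil)) .nil)) .nil)) .nil))) (.cons 318 t43 (.cons 318 (.cons 341 (.leaf 342 2538 (.cons 293 (.leaf 294 2347 (.cons 317 (.leaf 292 2339 (.leaf 340 2530 .nil)) .nil)) .nil)) (.cons 345 (.leaf 346 2544 (.cons 317 (.leaf 344 2536 (.cons 341 (.leaf 340 2530 (.leaf 342 2538 .nil)) .nil)) .nil)) (.cons 294 (.leaf 293 2347 (.cons 322 (.leaf 295 2355 (.cons 346 (.leaf 345 2544 (.leaf 347 2552 .nil)) .nil)) .nil))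 .nil))) (.cons 318 (.cons 293 (.leaf 294 2347 (.cons 317 (.leaf 292 2339 (.cons 345 (.leaf 344 2536 (.leaf 346 2544 .nil)) .nil)) .nil)) (.cons 342 (.leaf 341 2538 (.cons 322 (.leaf 343 2546 (.cons 347 (.leaf 346 2552 (.cons 323 (.leaf 348 2560 (.cons 299 (.leaf 300 2369 (.cons 250 (.leaf 274 2007 (.cons 251 (.leaf 226 1815 (.cons 228 (.leaf 252 1821 (.cons 227 (.leaf 204 1629 (.leaf 249 1793 .nil)) .nil)) .nil)) .nil)) .nil)) .nil)) .nil)) .nil)) .nil)) (.cons 342 (.leaf 341 2538 (.cons 293 (.leaf 294 2347 (.cons 317 (.leaf 292 2339 (.cons 245 (.leaf 269 1964 (.cons 343 (.leaf 322 2546 (.cons 344 (.leaf 345 2536 (.leaf 316 2528 .nil)) .nil)) .nil)) .nil)) .nil)) .nil)) .nil))) (.cons 295 (.cons 294 (.leaf 322 2355 (.cons 271 (.leaf 343 1981 (.cons 292 (.leaf 293 2336 (.cons 247 (.leaf 344 1980 (.cons 222 (.leaf 246 1783 (.cons 223 (.leaf 198 1591 (.leaf 318 1782 .nil)) .nil)) .nil))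 .nil)) .nil)) .nil)) (.cons 271 (.leaf 343 1981 (.cons 247 (.leaf 344 1980 (.cons 246 (.leaf 222 1783 (.cons 245 (.leaf 244 1952 (.cons 220 (.leaf 221 1763 (.cons 269 (.leaf 268 1954 (.cons 249 (.leaf 270 1961 (.cons 250 (.leaf 274 1976 (.leaf 251 1978 .nil)) .nil)) .nil)) .nil)) .nil)) .nil)) .nil)) .nil)) (.cons 294 (.leaf 322 2355 (.cons 293 (.leaf 292 2336 (.leaf 318 2347 .nil)) .nil)) .nil))) (.cons 318 t42 .nil))))))
noncomputable def top11 : T := .cons 318 t45 (.cons 318 (.cons 341 (.leaf 342 2538 (.cons 317 (.leaf 340 2530 (.cons 345 (.leaf 344 2536 (.leaf 346 2544 .nil)) .nil)) .nil)) (.cons 345 (.leaf 346 2544 (.cons 293 (.leaf 294 2347 (.cons 317 (.leaf 292 2339 (.leaf 344 2536 .nil)) .nil)) .nil)) (.cons 341 (.leaf 342 2538 (.cons 293 (.leaf 294 2347 (.cons 317 (.leaf 292 2339 (.leaf 340 2530 .nil)) .nil)) .nil)) (.cons 342 (.leaf 341 2538 (.cons 294 (.leaf 293 2347 (.cons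 345 (.leaf 346 2544 (.cons 297 (.leaf 298 2353 (.cons 343 (.cons 270 (.leaf 246 1972 (.leaf 367 2164 .nil)) (.cons 246 (.leaf 270 1972 (.cons 295 (.leaf 271 1981 (.cons 366 (.leaf 390 2357 (.cons 365 (.leaf 389 2350 (.leaf 344 2730 .nil)) .nil)) .nil)) .nil)) (.cons 295 (.leaf 271 1981 (.cons 366 (.leaf 390 2357 (.cons 365 (.leaf 389 2350 (.leaf 344 2730 .nil)) .nil)) .nil)) .nil))) .nil)) .nil)) .nil)) .nil)) .nil)))) (.cons 322 (.cons 295 (.leaf 294 2355 (.cons 299 (.leaf 298 2361 (.cons 323 (.leaf 300 2369 (.cons 347 (.leaf 346 2552 (.leaf 348 2560 .nil)) .nil)) .nil)) .nil)) (.cons 295 (.leaf 294 2355 (.cons 343 (.leaf 271 1981 (.leaf 342 2546 .nil)) .nil)) (.cons 342 (.leaf 343 2546 (.cons 347 (.leaf 346 2552 (.cons 323 (.leaf 348 2560 (.cons 299 (.leaf 298 2361 (.leaf 300 2369 .nil)) .nil)) .nil)) .nil)) .nil))) (.cons 318 (.cons 293 (.leaf 294 2347 (.cons 298 (.leaf 297 2353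 (.cons 322 (.leaf 299 2361 (.cons 346 (.leaf 345 2544 (.leaf 347 2552 .nil)) .nil)) .nil)) .nil)) (.cons 345 (.leaf 346 2544 (.cons 317 (.leaf 344 2536 (.cons 341 (.leaf 340 2530 (.leaf 342 2538 .nil)) .nil)) .nil)) (.cons 294 (.leaf 293 2347 (.cons 295 (.leaf 322 2355 (.cons 297 (.leaf 298 2353 (.cons 342 (.leaf 341 2538 (.cons 366 (.leaf 390 2357 (.leaf 271 2165 .nil)) .nil)) .nil)) .nil)) .nil)) .nil))) (.cons 318 (.cons 293 (.leaf 294 2347 (.cons 317 (.leaf 292 2339 (.cons 341 (.leaf 340 2530 (.leaf 342 2538 .nil)) .nil)) .nil)) (.cons 294 (.leaf 293 2347 (.cons 295 (.leaf 322 2355 (.cons 297 (.leaf 298 2353 (.cons 343 (.leaf 271 1981 (.cons 270 (.leaf 246 1972 (.leaf 367 2167 .nil)) .nil)) .nil)) .nil)) .nil)) (.cons 342 (.leaf 341 2538 (.cons 298 (.leaf 297 2353 (.cons 322 (.leaf 299 2361 (.leaf 343 2546 .nil)) .nil)) .nil)) .nil))) (.cons 322 (.cons 298 (.leaf 299 2361 (.cons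 297 (.leaf 318 2353 (.cons 346 (.leaf 347 2552 (.cons 274 (.leaf 251 2005 (.cons 345 (.leaf 250 1998 (.leaf 369 2189 .nil)) .nil)) .nil)) .nil)) .nil)) (.cons 298 (.leaf 299 2361 (.cons 294 (.leaf 295 2355 (.cons 318 (.leaf 293 2347 (.leaf 297 2353 .nil)) .nil)) .nil)) (.cons 346 (.leaf 347 2552 (.cons 294 (.leaf 295 2355 (.cons 318 (.leaf 293 2347 (.leaf 345 2544 .nil)) .nil)) .nil)) (.cons 299 (.leaf 298 2361 (.cons 294 (.leaf 295 2355 (.cons 323 (.leaf 300 2369 (.cons 251 (.leaf 346 2006 (.cons 226 (.leaf 250 1815 (.cons 227 (.leaf 202 1623 (.cons 228 (.leaf 204 1629 (.leaf 252 1821 .nil)) .nil)) .nil)) .nil)) .nil)) .nil)) .nil)) .nil)))) (.cons 318 (.cons 342 (.leaf 341 2538 (.cons 298 (.leaf 297 2353 (.cons 322 (.leaf 299 2361 (.leaf 343 2546 .nil)) .nil)) .nil)) (.cons 345 (.leaf 346 2544 (.cons 293 (.leaf 294 2347 (.cons 317 (.leaf 292 2339 (.leaf 344 2536 .nil)) .nil)) .nil))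 .nil)) (.cons 318 (.cons 293 (.leaf 294 2347 (.cons 317 (.leaf 292 2339 (.cons 345 (.leaf 344 2536 (.leaf 346 2544 .nil)) .nil)) .nil)) (.cons 341 (.leaf 342 2538 (.cons 317 (.leaf 340 2530 (.cons 345 (.leaf 344 2536 (.leaf 346 2544 .nil)) .nil)) .nil)) (.cons 293 (.leaf 294 2347 (.cons 317 (.leaf 292 2339 (.cons 341 (.leaf 340 2530 (.leaf 342 2538 .nil)) .nil)) .nil)) (.cons 293 (.leaf 294 2347 (.cons 342 (.leaf 341 2538 (.cons 322 (.leaf 343 2546 (.cons 346 (.leaf 345 2544 (.leaf 347 2552 .nil)) .nil)) .nil)) .nil)) .nil)))) (.cons 322 t44 .nil))))))))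
noncomputable def top12 : T := .cons 318 (.cons 293 (.leaf 294 2347 (.cons 297 (.leaf 298 2353 (.cons 317 (.leaf 292 2339 (.cons 340 (.leaf 341 2530 (.cons 316 (.leaf 339 2522 (.cons 344 (.leaf 345 2536 (.leaf 343 2528 .nil)) .nil)) .nil)) .nil)) .nil)) .nil)) (.cons 298 (.leaf 297 2353 (.cons 322 (.leaf 299 2361 (.cons 346 (.leaf 345 2544 (.leaf 347 2552 .nil)) .nil)) .nil)) (.cons 293 (.leaf 294 2347 (.cons 317 (.leaf 292 2339 (.cons 341 (.leaf 340 2530 (.leaf 342 2538 .nil)) .nil)) .nil)) .nil))) (.cons 322 (.cons 295 (.leaf 294 2355 (.cons 343 (.leaf 271 1981 (.leaf 342 2546 .nil)) .nil)) (.cons 294 (.leaf 295 2355 (.cons 299 (.leaf 298 2361 (.cons 323 (.leaf 300 2369 (.cons 347 (.leaf 346 2552 (.leaf 348 2560 .nil)) .nil)) .nil)) .nil)) (.cons 298 (.leaf 299 2361 (.cons 343 (.leaf 342 2546 (.cons 323 (.leaf 344 2554 (.cons 348 (.leaf 347 2560 (.cons 324 (.leaf 349 2568 (.cons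 301 (.leaf 300 2377 (.cons 325 (.leaf 297 2379 (.leaf 302 2385 .nil)) .nil)) .nil)) .nil)) .nil)) .nil)) .nil)) .nil))) t46)
noncomputable def top13 : T := .cons 318 (.cons 293 (.leaf 294 2347 (.cons 297 (.leaf 298 2353 (.cons 317 (.leaf 292 2339 (.cons 341 (.leaf 340 2530 (.leaf 342 2538 .nil)) .nil)) .nil)) .nil)) (.cons 293 (.leaf 294 2347 (.cons 298 (.leaf 297 2353 (.cons 322 (.leaf 299 2361 (.cons 346 (.leaf 345 2544 (.leaf 347 2552 .nil)) .nil)) .nil)) .nil)) (.cons 297 (.leaf 298 2353 (.cons 341 (.leaf 342 2538 (.cons 317 (.leaf 340 2530 (.cons 345 (.leaf 344 2536 (.leaf 346 2544 .nil)) .nil)) .nil)) .nil)) (.cons 342 (.leaf 341 2538 (.cons 293 (.leaf 294 2347 (.cons 317 (.leaf 292 2339 (.cons 245 (.leaf 269 1964 (.cons 343 (.leaf 322 2546 (.cons 344 (.leaf 345 2536 (.leaf 316 2528 .nil)) .nil)) .nil)) .nil)) .nil)) .nil)) .nil)))) (.cons 318 t49 (.cons 322 t48 (.cons 318 (.cons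 293 (.leaf 294 2347 (.cons 297 (.leaf 298 2353 (.cons 317 (.leaf 292 2339 (.cons 341 (.leaf 340 2530 (.leaf 342 2538 .nil)) .nil)) .nil)) .nil)) (.cons 294 (.leaf 293 2347 (.cons 298 (.leaf 297 2353 (.cons 322 (.leaf 295 2355 (.leaf 299 2361 .nil)) .nil)) .nil)) (.cons 298 (.leaf 297 2353 (.cons 322 (.leaf 299 2361 (.cons 342 (.leaf 341 2538 (.leaf 343 2546 .nil)) .nil)) .nil)) (.cons 293 (.leaf 294 2347 (.cons 317 (.leaf 292 2339 (.cons 341 (.leaf 340 2530 (.leaf 342 2538 .nil)) .nil)) .nil)) .nil)))) (.cons 322 (.cons 294 (.leaf 295 2355 (.cons 293 (.leaf 318 2347 (.cons 347 (.leaf 346 2552 (.cons 323 (.leaf 348 2560 (.cons 299 (.leaf 298 2361 (.leaf 300 2369 .nil)) .nil)) .nil)) .nil)) .nil)) (.cons 298 (.leaf 299 2361 (.cons 294 (.leaf 295 2355 (.cons 318 (.leaf 293 2347 (.leaf 297 2353 .nil)) .nil)) .nil)) (.cons 346 (.leaf 347 2552 (.cons 294 (.leaf 295 2355 (.cons 318 (.leaf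 293 2347 (.leaf 345 2544 .nil)) .nil)) .nil)) (.cons 298 (.leaf 299 2361 (.cons 346 (.leaf 347 2552 (.cons 274 (.leaf 251 2005 (.cons 345 (.leaf 318 2544 (.leaf 250 1998 .nil)) .nil)) .nil)) .nil)) (.cons 298 (.leaf 299 2361 (.cons 294 (.leaf 295 2355 (.cons 346 (.leaf 347 2552 (.cons 274 (.leaf 251 2005 (.cons 345 (.leaf 250 1998 (.leaf 369 2190 .nil)) .nil)) .nil)) .nil)) .nil)) .nil))))) (.cons 318 (.cons 341 (.leaf 342 2538 (.cons 317 (.leaf 340 2530 (.cons 345 (.leaf 344 2536 (.leaf 346 2544 .nil)) .nil)) .nil)) (.cons 294 (.leaf 293 2347 (.cons 295 (.leaf 322 2355 (.cons 345 (.leaf 346 2544 (.cons 317 (.leaf 344 2536 (.cons 316 (.leaf 315 2329 (.cons 340 (.leaf 341 2530 (.leaf 339 2522 .nil)) .nil)) .nil)) .nil)) .nil)) .nil)) (.cons 294 (.leaf 293 2347 (.cons 295 (.leaf 322 2355 (.cons 341 (.leaf 342 2538 (.cons 317 (.leaf 340 2530 (.cons 270 (.leaf 246 1966 (.cons 316 (.leaf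 315 2329 (.cons 343 (.leaf 367 2167 (.leaf 344 2528 .nil)) .nil)) .nil)) .nil)) .nil)) .nil)) .nil)) (.cons 294 (.leaf 293 2347 (.cons 322 (.leaf 295 2355 (.cons 346 (.leaf 345 2544 (.leaf 347 2552 .nil)) .nil)) .nil)) .nil)))) (.cons 322 t47 .nil))))))
noncomputable def top14 : T := .cons 322 (.cons 294 (.leaf 295 2355 (.cons 343 (.leaf 342 2546 (.cons 323 (.leaf 344 2554 (.cons 347 (.leaf 346 2552 (.leaf 348 2560 .nil)) .nil)) .nil)) .nil)) (.cons 294 (.leaf 295 2355 (.cons 293 (.leaf 318 2347 (.cons 299 (.leaf 298 2361 (.cons 323 (.leaf 300 2369 (.cons 347 (.leaf 346 2552 (.leaf 348 2560 .nil)) .nil)) .nil)) .nil)) .nil)) (.cons 298 (.leaf 299 2361 (.cons 318 (.leaf 297 2353 (.cons 342 (.leaf 341 2538 (.leaf 343 2546 .nil)) .nil)) .nil)) .nil))) t51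
noncomputable def top15 : T := .cons 318 t52 (.cons 322 (.cons 295 (.leaf 294 2355 (.cons 343 (.leaf 271 1981 (.leaf 342 2546 .nil)) .nil)) (.cons 299 (.leaf 298 2361 (.cons 294 (.leaf 295 2355 (.cons 323 (.leaf 300 2369 (.cons 251 (.leaf 346 2006 (.cons 226 (.leaf 250 1815 (.cons 227 (.leaf 202 1623 (.cons 228 (.leaf 204 1629 (.leaf 252 1821 .nil)) .nil)) .nil)) .nil)) .nil)) .nil)) .nil)) (.cons 298 (.leaf 299 2361 (.cons 343 (.leaf 342 2546 (.cons 323 (.leaf 344 2554 (.cons 348 (.leaf 347 2560 (.cons 324 (.leaf 349 2568 (.cons 301 (.leaf 300 2377 (.cons 325 (.leaf 297 2379 (.leaf 302 2385 .nil)) .nil)) .nil)) .nil)) .nil)) .nil)) .nil)) .nil))) (.cons 318 t50 (.cons 318 (.cons 293 (.leaf 294 2347 (.cons 298 (.leaf 297 2353 (.cons 322 (.leaf 299 2361 (.cons 346 (.leaf 345 2544 (.leaf 347 2552 .nil)) .nil)) .nil)) .nil)) (.cons 345 (.leaf 346 2544 (.cons 317 (.leaf 344 2536 (.cons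 341 (.leaf 340 2530 (.leaf 342 2538 .nil)) .nil)) .nil)) (.cons 294 (.leaf 293 2347 (.cons 295 (.leaf 322 2355 (.cons 297 (.leaf 298 2353 (.cons 342 (.leaf 341 2538 (.cons 271 (.leaf 247 1974 (.leaf 366 2165 .nil)) .nil)) .nil)) .nil)) .nil)) .nil))) (.cons 318 (.cons 345 (.leaf 346 2544 (.cons 293 (.leaf 294 2347 (.cons 317 (.leaf 292 2339 (.leaf 344 2536 .nil)) .nil)) .nil)) (.cons 342 (.leaf 341 2538 (.cons 298 (.leaf 297 2353 (.cons 322 (.leaf 299 2361 (.leaf 343 2546 .nil)) .nil)) .nil)) .nil)) (.cons 322 (.cons 298 (.leaf 299 2361 (.cons 346 (.leaf 347 2552 (.cons 318 (.leaf 297 2353 (.leaf 345 2544 .nil)) .nil)) .nil)) (.cons 298 (.leaf 299 2361 (.cons 294 (.leaf 295 2355 (.cons 318 (.leaf 293 2347 (.leaf 297 2353 .nil)) .nil)) .nil)) (.cons 346 (.leaf 347 2552 (.cons 294 (.leaf 295 2355 (.cons 318 (.leaf 293 2347 (.leaf 345 2544 .nil)) .nil)) .nil)) (.cons 299 (.leaf 298 2361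 (.cons 294 (.leaf 295 2355 (.cons 323 (.leaf 300 2369 (.cons 251 (.leaf 346 2006 (.cons 226 (.leaf 250 1815 (.cons 227 (.leaf 202 1623 (.cons 228 (.leaf 204 1629 (.leaf 252 1821 .nil)) .nil)) .nil)) .nil)) .nil)) .nil)) .nil)) .nil)))) (.cons 318 (.cons 293 (.leaf 294 2347 (.cons 317 (.leaf 292 2339 (.cons 341 (.leaf 340 2530 (.leaf 342 2538 .nil)) .nil)) .nil)) (.cons 293 (.leaf 294 2347 (.cons 297 (.leaf 298 2353 (.cons 317 (.leaf 292 2339 (.cons 340 (.leaf 341 2530 (.cons 316 (.leaf 339 2522 (.cons 344 (.leaf 345 2536 (.leaf 343 2528 .nil)) .nil)) .nil)) .nil)) .nil)) .nil)) (.cons 342 (.leaf 341 2538 (.cons 298 (.leaf 297 2353 (.cons 322 (.leaf 299 2361 (.leaf 343 2546 .nil)) .nil)) .nil)) (.cons 293 (.leaf 294 2347 (.cons 297 (.leaf 298 2353 (.cons 317 (.leaf 292 2339 (.cons 344 (.leaf 345 2536 (.cons 343 (.leaf 316 2528 (.cons 322 (.leaf 342 2546 (.leaf 323 2554 .nil)) .nil))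 .nil)) .nil)) .nil)) .nil)) .nil)))) (.cons 322 (.cons 342 (.leaf 343 2546 (.cons 318 (.leaf 341 2538 (.cons 346 (.leaf 345 2544 (.leaf 347 2552 .nil)) .nil)) .nil)) (.cons 346 (.leaf 347 2552 (.cons 298 (.leaf 299 2361 (.cons 318 (.leaf 297 2353 (.leaf 345 2544 .nil)) .nil)) .nil)) (.cons 298 (.leaf 299 2361 (.cons 318 (.leaf 297 2353 (.cons 342 (.leaf 341 2538 (.leaf 343 2546 .nil)) .nil)) .nil)) (.cons 343 (.leaf 342 2546 (.cons 323 (.leaf 344 2554 (.cons 347 (.leaf 346 2552 (.leaf 348 2560 .nil)) .nil)) .nil)) .nil)))) (.cons 318 (.cons 341 (.leaf 342 2538 (.cons 317 (.leaf 340 2530 (.cons 345 (.leaf 344 2536 (.leaf 346 2544 .nil)) .nil)) .nil)) (.cons 294 (.leaf 293 2347 (.cons 322 (.leaf 295 2355 (.cons 346 (.leaf 345 2544 (.leaf 347 2552 .nil)) .nil)) .nil)) (.cons 342 (.leaf 341 2538 (.cons 293 (.leaf 294 2347 (.cons 317 (.leaf 292 2339 (.cons 245 (.leaf 269 1964 (.cons 343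 (.leaf 322 2546 (.cons 316 (.leaf 344 2528 (.leaf 315 2520 .nil)) .nil)) .nil)) .nil)) .nil)) .nil)) .nil))) .nil))))))))

end Vale.Agent.P062.PB.N2D0
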