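import Vale.Agent.P062.Checker

namespace Vale.Agent.P062.PB.N3D0

open Vale.Agent.P062

noncomputable def t0 : T := .cons 322 (.cons 299 (.leaf 227 1814 (.leaf 321 2361 .nil)) (.cons 346 (.leaf 274 2005 (.cons 321 (.leaf 347 2552 (.cons 295 (.leaf 294 2355 (.leaf 323 2363 .nil)) .nil)) .nil)) (.cons 227 (.leaf 299 1814 (.cons 250 (.leaf 271 1978 (.leaf 228 1793 .nil)) .nil)) .nil))) (.cons 322 (.cons 299 (.leaf 227 1814 (.leaf 321 2361 .nil)) (.cons 346 (.leaf 274 2005 (.cons 321 (.leaf 347 2552 (.cons 295 (.leaf 294 2355 (.leaf 323 2363 .nil)) .nil)) .nil)) (.cons 227 (.leaf 299 1814 (.cons 274 (.leaf 203 1622 (.leaf 346 2005 .nil)) .nil)) .nil))) (.cons 271 (.leaf 250 1978 (.cons 270 (.leaf 269 1961 (.cons 322 (.cons 299 (.leaf 321 2361 (.cons 346 (.leaf 274 2005 (.leaf 323 2006 .nil)) .nil)) (.cons 346 (.leaf 274 2005 (.cons 299 (.leaf 323 2006 (.leaf 370 2197 .nil)) .nil)) (.cons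 321 (.leaf 299 2361 (.cons 295 (.leaf 294 2355 (.leaf 323 2363 .nil)) .nil)) (.cons 346 (.leaf 274 2005 (.cons 321 (.leaf 347 2552 (.cons 295 (.leaf 294 2355 (.leaf 323 2363 .nil)) .nil)) .nil)) (.cons 299 (.leaf 321 2361 (.cons 346 (.leaf 274 2005 (.leaf 370 2197 .nil)) .nil)) .nil))))) .nil)) .nil)) (.cons 250 (.leaf 271 1978 (.cons 227 (.leaf 228 1793 (.cons 203 (.leaf 274 1622 (.cons 178 (.leaf 202 1431 (.cons 179 (.leaf 154 1239 (.cons 180 (.leaf 204 1437 (.leaf 156 1245 .nil)) .nil)) .nil)) .nil)) .nil)) .nil)) (.cons 250 (.leaf 271 1978 (.cons 227 (.leaf 228 1793 (.cons 299 (.leaf 322 1814 (.cons 226 (.leaf 202 1623 (.leaf 323 1815 .nil)) .nil)) .nil)) .nil)) .nil))))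
noncomputable def t1 : T := .cons 323 (.leaf 295 2363 (.cons 297 (.leaf 324 2371 (.cons 299 (.leaf 300 2369 (.cons 298 (.leaf 271 2171 (.leaf 319 2361 .nil)) .nil)) .nil)) .nil)) (.cons 319 (.cons 298 (.leaf 299 2361 (.cons 318 (.leaf 297 2353 (.cons 293 (.leaf 294 2347 (.cons 317 (.leaf 292 2339 (.cons 341 (.leaf 340 2530 (.leaf 342 2538 .nil)) .nil)) .nil)) .nil)) .nil)) (.cons 294 (.leaf 295 2355 (.cons 318 (.leaf 293 2347 (.cons 317 (.leaf 297 2345 (.cons 341 (.leaf 340 2530 (.leaf 342 2538 .nil)) .nil)) .nil)) .nil)) (.cons 298 (.leaf 299 2361 (.cons 297 (.leaf 318 2353 (.cons 274 (.leaf 295 2169 (.cons 346 (.leaf 251 2005 (.leaf 347 2552 .nil)) .nil)) .nil)) .nil)) (.cons 294 (.leaf 295 2355 (.cons 298 (.leaf 299 2361 (.cons 318 (.leaf 293 2347 (.cons 341 (.leaf 342 2538 (.cons 317 (.leaf 340 2530 (.cons 270 (.leaf 246 1966 (.cons 271 (.leaf 269 1961 (.cons 251 (.leaf 250 1978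 (.cons 346 (.leaf 274 2005 (.leaf 347 2552 .nil)) .nil)) .nil)) .nil)) .nil)) .nil)) .nil)) .nil)) .nil)) (.cons 295 (.leaf 294 2355 (.cons 298 (.leaf 299 2361 (.cons 274 (.leaf 297 2169 (.cons 346 (.leaf 251 2005 (.leaf 347 2552 .nil)) .nil)) .nil)) .nil)) .nil))))) (.cons 323 (.cons 297 (.leaf 324 2371 (.cons 299 (.leaf 300 2369 (.cons 298 (.leaf 271 2171 (.leaf 319 2361 .nil)) .nil)) .nil)) (.cons 297 (.leaf 324 2371 (.cons 347 (.leaf 348 2560 (.cons 319 (.leaf 346 2552 (.cons 318 (.leaf 317 2345 (.leaf 298 2353 .nil)) .nil)) .nil)) .nil)) (.cons 299 (.leaf 300 2369 (.cons 251 (.leaf 346 2006 (.cons 250 (.leaf 226 1815 (.leaf 271 1978 .nil)) .nil)) .nil)) .nil))) (.cons 323 (.leaf 295 2363 (.cons 299 (.leaf 300 2369 (.cons 251 (.leaf 346 2006 (.cons 250 (.leaf 226 1815 (.leaf 271 1978 .nil)) .nil)) .nil)) .nil)) (.cons 295 (.leaf 323 2363 (.cons 294 (.leaf 293 2344 (.leaf 319 2355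 .nil)) .nil)) .nil))))
noncomputable def t2 : T := .cons 324 (.leaf 300 1820 (.cons 298 (.leaf 322 1814 (.cons 323 (.leaf 348 2012 (.leaf 297 2368 .nil)) .nil)) .nil)) (.cons 324 (.leaf 300 1820 (.cons 323 (.leaf 348 2012 (.cons 344 (.cons 297 (.leaf 298 2368 (.cons 345 (.leaf 321 1988 (.leaf 369 2180 .nil)) .nil)) (.cons 367 (.leaf 343 2174 (.cons 368 (.leaf 391 2366 (.cons 297 (.leaf 298 2368 (.cons 392 (.leaf 321 2373 (.cons 393 (.leaf 369 2372 (.leaf 417 2564 .nil)) .nil)) .nil)) .nil)) .nil)) (.cons 297 (.leaf 298 2368 (.cons 321 (.leaf 345 1988 (.cons 367 (.leaf 343 2174 (.cons 368 (.leaf 391 2366 (.leaf 392 2373 .nil)) .nil)) .nil)) .nil)) (.cons 297 (.leaf 298 2368 (.cons 367 (.leaf 343 2174 (.cons 368 (.leaf 391 2366 (.cons 369 (.leaf 345 2180 (.leaf 393 2372 .nil)) .nil)) .nil)) .nil)) (.cons 345 (.leaf 321 1988 (.leaf 369 2180 .nil)) .nil))))) .nil)) .nil)) (.cons 322 (.leaf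 298 1814 (.cons 321 (.leaf 345 1988 (.cons 323 (.leaf 346 2006 (.leaf 295 2363 .nil)) .nil)) .nil)) (.cons 345 (.leaf 321 1988 (.cons 324 (.leaf 300 1820 (.cons 323 (.leaf 348 2012 (.cons 344 (.leaf 369 2180 (.cons 346 (.leaf 322 2006 (.leaf 347 2561 .nil)) .nil)) .nil)) .nil)) .nil)) (.cons 321 (.leaf 345 1988 (.cons 298 (.leaf 322 1814 (.cons 300 (.leaf 324 1820 (.leaf 297 2370 .nil)) .nil)) .nil)) .nil))))
noncomputable def t3 : T := .cons 221 (.leaf 222 1771 (.cons 245 (.leaf 220 1763 (.cons 269 (.leaf 268 1954 (.leaf 270 1962 .nil)) .nil)) .nil)) (.cons 221 (.leaf 222 1771 (.cons 245 (.leaf 220 1763 (.cons 294 (.leaf 293 2344 (.cons 297 (.leaf 298 2169 (.cons 318 (.leaf 317 2346 (.leaf 270 1775 .nil)) .nil)) .nil)) .nil)) .nil)) (.cons 269 (.leaf 270 1962 (.cons 245 (.leaf 268 1954 (.cons 293 (.leaf 294 2344 (.cons 297 (.leaf 298 2169 (.cons 317 (.leaf 222 1773 (.cons 220 (.leaf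 244 1767 (.cons 340 (.leaf 316 1958 (.cons 341 (.leaf 364 2150 (.cons 342 (.leaf 318 1964 (.leaf 366 2156 .nil)) .nil)) .nil)) .nil)) .nil)) .nil)) .nil)) .nil)) .nil)) (.cons 221 (.leaf 222 1771 (.cons 245 (.leaf 220 1763 (.cons 269 (.leaf 268 1954 (.cons 293 (.leaf 294 2344 (.cons 316 (.leaf 292 1766 (.cons 317 (.leaf 340 1958 (.cons 318 (.leaf 319 2337 (.leaf 342 1964 .nil)) .nil)) .nil)) .nil)) .nil)) .nil)) .nil)) (.cons 269 (.leaf 270 1962 (.cons 245 (.leaf 268 1954 (.cons 220 (.leaf 221 1763 (.cons 244 (.leaf 219 1755 (.cons 293 (.leaf 294 2344 (.leaf 317 1767 .nil)) .nil)) .nil)) .nil)) .nil)) (.cons 297 (.leaf 298 2169 (.cons 222 (.leaf 221 1771 (.cons 270 (.leaf 269 1962 (.cons 294 (.leaf 293 2344 (.leaf 319 1780 .nil)) .nil)) .nil)) .nil)) .nil)))))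
noncomputable def t4 : T := .cons 323 (.leaf 295 2363 (.cons 299 (.leaf 300 2369 (.cons 251 (.leaf 346 2006 (.cons 250 (.leaf 226 1815 (.leaf 271 1978 .nil)) .nil)) .nil)) .nil)) (.cons 319 (.cons 298 (.leaf 299 2361 (.cons 318 (.leaf 297 2353 (.cons 293 (.leaf 294 2347 (.cons 317 (.leaf 292 2339 (.cons 341 (.leaf 340 2530 (.leaf 342 2538 .nil)) .nil)) .nil)) .nil)) .nil)) (.cons 294 (.leaf 295 2355 (.cons 318 (.leaf 293 2347 (.cons 317 (.leaf 297 2345 (.cons 341 (.leaf 340 2530 (.leaf 342 2538 .nil)) .nil)) .nil)) .nil)) (.cons 298 (.leaf 299 2361 (.cons 297 (.leaf 318 2353 (.cons 274 (.leaf 295 2169 (.cons 346 (.leaf 251 2005 (.leaf 347 2552 .nil)) .nil)) .nil)) .nil)) (.cons 294 (.leaf 295 2355 (.cons 298 (.leaf 299 2361 (.cons 318 (.leaf 293 2347 (.cons 341 (.leaf 342 2538 (.cons 317 (.leaf 340 2530 (.cons 270 (.leaf 246 1966 (.cons 271 (.leaf 269 1961 (.cons 251 (.leaf 250 1978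 (.cons 346 (.leaf 274 2005 (.leaf 347 2552 .nil)) .nil)) .nil)) .nil)) .nil)) .nil)) .nil)) .nil)) .nil)) (.cons 295 (.leaf 294 2355 (.cons 298 (.leaf 299 2361 (.cons 274 (.leaf 297 2169 (.cons 346 (.leaf 251 2005 (.leaf 347 2552 .nil)) .nil)) .nil)) .nil)) .nil))))) (.cons 323 (.cons 299 (.leaf 300 2369 (.cons 251 (.leaf 346 2006 (.cons 250 (.leaf 226 1815 (.leaf 271 1978 .nil)) .nil)) .nil)) (.cons 297 (.leaf 324 2371 (.cons 347 (.leaf 348 2560 (.cons 319 (.leaf 346 2552 (.cons 318 (.leaf 317 2345 (.leaf 298 2353 .nil)) .nil)) .nil)) .nil)) (.cons 297 (.leaf 324 2371 (.cons 299 (.leaf 300 2369 (.cons 298 (.leaf 271 2171 (.leaf 319 2361 .nil)) .nil)) .nil)) .nil))) (.cons 295 (.leaf 323 2363 (.cons 294 (.leaf 293 2344 (.leaf 319 2355 .nil)) .nil)) .nil)))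
noncomputable def t5 : T := .cons 247 (.leaf 223 1791 (.cons 249 (.leaf 225 1797 (.cons 274 (.leaf 250 1976 (.cons 297 (.leaf 295 2169 (.cons 299 (.leaf 319 2362 (.cons 323 (.leaf 324 2368 (.cons 347 (.leaf 371 2199 (.cons 346 (.leaf 370 2198 (.cons 251 (.leaf 322 2005 (.cons 227 (.leaf 203 1622 (.cons 228 (.leaf 204 1629 (.leaf 252 1821 .nil)) .nil)) .nil)) .nil)) .nil)) .nil)) .nil)) .nil)) .nil)) .nil)) .nil)) (.cons 247 (.leaf 223 1791 (.cons 249 (.leaf 225 1797 (.cons 250 (.leaf 274 1976 (.cons 227 (.leaf 226 1785 (.cons 251 (.leaf 228 1793 (.cons 299 (.leaf 322 1814 (.cons 324 (.leaf 300 1820 (.cons 323 (.leaf 348 2012 (.leaf 297 2368 .nil)) .nil)) .nil)) .nil)) .nil)) .nil)) .nil)) .nil)) (.cons 319 (.leaf 343 1982 (.cons 225 (.leaf 249 1797 (.cons 297 (.leaf 299 2362 (.cons 318 (.leaf 317 2345 (.leaf 295 2354 .nil)) .nil)) .nil)) .nil)) (.cons 319 (.leaf 343 1982 (.cons 223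 (.leaf 247 1791 (.cons 297 (.leaf 299 2362 (.cons 295 (.leaf 274 2169 (.leaf 318 2354 .nil)) .nil)) .nil)) .nil)) (.cons 343 (.leaf 319 1982 (.cons 344 (.leaf 367 2174 (.cons 345 (.leaf 369 2180 (.cons 247 (.leaf 223 1791 (.cons 249 (.leaf 225 1797 (.cons 274 (.leaf 250 1976 (.cons 346 (.cons 322 (.leaf 251 2005 (.leaf 323 2553 .nil)) (.cons 371 (.leaf 370 2744 (.cons 347 (.leaf 372 2752 (.cons 323 (.leaf 299 2199 (.leaf 324 2561 .nil)) .nil)) .nil)) (.cons 322 (.leaf 251 2005 (.cons 370 (.leaf 299 2197 (.leaf 371 2744 .nil)) .nil)) .nil))) .nil)) .nil)) .nil)) .nil)) .nil)) .nil)) (.cons 247 (.leaf 223 1791 (.cons 249 (.leaf 225 1797 (.cons 274 (.leaf 250 1976 (.cons 295 (.leaf 297 2169 (.cons 344 (.cons 319 (.leaf 343 1982 (.cons 368 (.leaf 392 2367 (.cons 369 (.leaf 345 2180 (.leaf 393 2372 .nil)) .nil)) .nil)) (.cons 369 (.leaf 345 2180 (.cons 368 (.leaf 393 2372 (.cons 391 (.leaf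 367 2366 (.cons 392 (.leaf 319 2367 (.leaf 415 2558 .nil)) .nil)) .nil)) .nil)) (.cons 369 (.leaf 345 2180 (.cons 367 (.leaf 343 2174 (.cons 368 (.leaf 391 2366 (.leaf 393 2372 .nil)) .nil)) .nil)) (.cons 343 (.leaf 319 1982 (.leaf 367 2174 .nil)) .nil)))) .nil)) .nil)) .nil)) .nil)) .nil)))))
noncomputable def t6 : T := .cons 250 (.leaf 271 1978 (.cons 227 (.leaf 228 1793 (.cons 274 (.leaf 203 1622 (.leaf 322 1813 .nil)) .nil)) .nil)) (.cons 322 (.cons 299 (.leaf 227 1814 (.leaf 321 2361 .nil)) (.cons 346 (.leaf 274 2005 (.cons 321 (.leaf 347 2552 (.cons 295 (.leaf 294 2355 (.leaf 323 2363 .nil)) .nil)) .nil)) (.cons 227 (.leaf 299 1814 (.cons 274 (.leaf 203 1622 (.leaf 346 2005 .nil)) .nil)) .nil))) (.cons 271 (.leaf 250 1978 (.cons 270 (.leaf 269 1961 (.cons 322 (.cons 299 (.leaf 321 2361 (.cons 346 (.leaf 274 2005 (.leaf 323 2006 .nil)) .nil)) (.cons 346 (.leaf 274 2005 (.cons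 299 (.leaf 323 2006 (.leaf 370 2197 .nil)) .nil)) (.cons 321 (.leaf 299 2361 (.cons 295 (.leaf 294 2355 (.leaf 323 2363 .nil)) .nil)) (.cons 346 (.leaf 274 2005 (.cons 321 (.leaf 347 2552 (.cons 295 (.leaf 294 2355 (.leaf 323 2363 .nil)) .nil)) .nil)) (.cons 321 (.leaf 299 2361 (.cons 346 (.leaf 274 2005 (.leaf 347 2552 .nil)) .nil)) .nil))))) .nil)) .nil)) (.cons 250 (.leaf 271 1978 (.cons 227 (.leaf 228 1793 (.cons 203 (.leaf 274 1622 (.cons 178 (.leaf 202 1431 (.cons 179 (.leaf 154 1239 (.cons 180 (.leaf 204 1437 (.leaf 156 1245 .nil)) .nil)) .nil)) .nil)) .nil)) .nil)) (.cons 250 (.leaf 271 1978 (.cons 227 (.leaf 228 1793 (.cons 299 (.leaf 322 1814 (.cons 226 (.leaf 202 1623 (.leaf 323 1815 .nil)) .nil)) .nil)) .nil)) .nil))))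
noncomputable def t7 : T := .cons 250 (.leaf 271 1978 (.cons 227 (.leaf 228 1793 (.cons 274 (.leaf 203 1622 (.leaf 247 1976 .nil)) .nil)) .nil)) (.cons 250 (.leaf 271 1978 (.cons 227 (.leaf 228 1793 (.cons 274 (.leaf 203 1622 (.leaf 322 1813 .nil)) .nil)) .nil)) (.cons 247 (.leaf 223 1791 (.cons 271 (.leaf 344 1983 (.cons 270 (.leaf 269 1961 (.cons 246 (.cons 295 (.leaf 222 1783 (.cons 318 (.leaf 342 1974 (.cons 317 (.leaf 316 2337 (.cons 341 (.leaf 340 2530 (.leaf 294 1966 .nil)) .nil)) .nil)) .nil)) (.cons 245 (.leaf 244 1952 (.cons 221 (.leaf 220 1763 (.cons 318 (.leaf 294 1775 (.cons 342 (.leaf 295 1974 (.cons 321 (.leaf 341 2538 (.cons 322 (.leaf 299 2361 (.cons 346 (.leaf 274 2005 (.leaf 347 2552 .nil)) .nil)) .nil)) .nil)) .nil)) .nil)) .nil)) (.cons 221 (.leaf 222 1771 (.cons 245 (.leaf 244 1952 (.leaf 220 1763 .nil)) .nil)) .nil))) .nil)) .nil)) .nil)) (.cons 247 (.leaf 223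 1791 (.cons 250 (.leaf 274 1976 (.cons 227 (.leaf 226 1785 (.leaf 228 1793 .nil)) .nil)) .nil)) (.cons 271 (.leaf 250 1978 (.cons 247 (.leaf 223 1791 (.leaf 344 1983 .nil)) .nil)) .nil))))
noncomputable def t8 : T := .cons 247 (.leaf 223 1791 (.cons 249 (.leaf 225 1797 (.cons 274 (.leaf 250 1976 (.cons 297 (.leaf 295 2169 (.cons 299 (.leaf 319 2362 (.cons 323 (.leaf 324 2368 (.cons 347 (.leaf 371 2199 (.cons 346 (.leaf 370 2198 (.cons 251 (.leaf 322 2005 (.cons 227 (.leaf 203 1622 (.cons 228 (.leaf 204 1629 (.leaf 252 1821 .nil)) .nil)) .nil)) .nil)) .nil)) .nil)) .nil)) .nil)) .nil)) .nil)) .nil)) (.cons 247 (.leaf 223 1791 (.cons 249 (.leaf 225 1797 (.cons 250 (.leaf 274 1976 (.cons 227 (.leaf 226 1785 (.cons 251 (.leaf 228 1793 (.cons 299 (.leaf 322 1814 (.cons 324 (.leaf 300 1820 (.cons 323 (.leaf 348 2012 (.leaf 297 2368 .nil)) .nil)) .nil)) .nil)) .nil)) .nil)) .nil)) .nil))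 (.cons 319 (.leaf 343 1982 (.cons 225 (.leaf 249 1797 (.cons 297 (.leaf 299 2362 (.cons 318 (.leaf 317 2345 (.leaf 295 2354 .nil)) .nil)) .nil)) .nil)) (.cons 319 (.leaf 343 1982 (.cons 223 (.leaf 247 1791 (.cons 297 (.leaf 299 2362 (.cons 295 (.leaf 274 2169 (.leaf 318 2354 .nil)) .nil)) .nil)) .nil)) (.cons 343 (.leaf 319 1982 (.cons 344 (.leaf 367 2174 (.cons 345 (.leaf 369 2180 (.cons 247 (.leaf 223 1791 (.cons 249 (.leaf 225 1797 (.cons 274 (.leaf 250 1976 (.cons 346 (.cons 322 (.leaf 251 2005 (.leaf 323 2553 .nil)) (.cons 371 (.leaf 370 2744 (.cons 347 (.leaf 372 2752 (.cons 323 (.leaf 299 2199 (.leaf 324 2561 .nil)) .nil)) .nil)) (.cons 322 (.leaf 251 2005 (.cons 370 (.leaf 299 2197 (.leaf 371 2744 .nil)) .nil)) .nil))) .nil)) .nil)) .nil)) .nil)) .nil)) .nil)) (.cons 247 (.leaf 223 1791 (.cons 249 (.leaf 225 1797 (.cons 274 (.leaf 250 1976 (.cons 295 (.leaf 297 2169 (.cons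 344 (.cons 369 (.leaf 345 2180 (.cons 368 (.leaf 393 2372 (.cons 391 (.leaf 367 2366 (.cons 392 (.leaf 319 2367 (.leaf 415 2558 .nil)) .nil)) .nil)) .nil)) (.cons 369 (.leaf 345 2180 (.cons 367 (.leaf 343 2174 (.cons 368 (.leaf 391 2366 (.leaf 393 2372 .nil)) .nil)) .nil)) (.cons 319 (.leaf 343 1982 (.cons 368 (.leaf 392 2367 (.cons 369 (.leaf 345 2180 (.leaf 393 2372 .nil)) .nil)) .nil)) (.cons 343 (.leaf 319 1982 (.leaf 367 2174 .nil)) .nil)))) .nil)) .nil)) .nil)) .nil)) .nil)))))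
noncomputable def t9 : T := .cons 322 (.leaf 298 1814 (.cons 323 (.leaf 346 2006 (.cons 324 (.leaf 300 1820 (.leaf 348 2012 .nil)) .nil)) .nil)) (.cons 324 (.leaf 300 1820 (.cons 323 (.leaf 348 2012 (.cons 344 (.cons 297 (.leaf 298 2368 (.cons 345 (.leaf 321 1988 (.leaf 369 2180 .nil)) .nil)) (.cons 367 (.leaf 343 2174 (.cons 368 (.leaf 391 2366 (.cons 297 (.leaf 298 2368 (.cons 392 (.leaf 321 2373 (.cons 393 (.leaf 369 2372 (.leaf 417 2564 .nil)) .nil)) .nil)) .nil)) .nil)) (.cons 367 (.leaf 343 2174 (.cons 297 (.leaf 298 2368 (.cons 321 (.leaf 345 1988 (.cons 368 (.leaf 391 2366 (.leaf 392 2373 .nil)) .nil)) .nil)) .nil)) (.cons 367 (.leaf 343 2174 (.cons 297 (.leaf 298 2368 (.cons 368 (.leaf 391 2366 (.cons 369 (.leaf 345 2180 (.leaf 393 2372 .nil)) .nil)) .nil)) .nil)) (.cons 345 (.leaf 321 1988 (.leaf 369 2180 .nil)) .nil))))) .nil)) .nil)) (.cons 322 (.leaf 298 1814 (.cons 321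 (.leaf 345 1988 (.cons 323 (.leaf 346 2006 (.leaf 295 2363 .nil)) .nil)) .nil)) (.cons 345 (.leaf 321 1988 (.cons 324 (.leaf 300 1820 (.cons 323 (.leaf 348 2012 (.cons 344 (.leaf 369 2180 (.cons 346 (.leaf 322 2006 (.leaf 347 2561 .nil)) .nil)) .nil)) .nil)) .nil)) (.cons 321 (.leaf 345 1988 (.cons 298 (.leaf 322 1814 (.cons 300 (.leaf 324 1820 (.leaf 297 2370 .nil)) .nil)) .nil)) .nil))))
noncomputable def t10 : T := .cons 269 (.leaf 270 1962 (.cons 245 (.leaf 268 1954 (.cons 293 (.leaf 294 2344 (.cons 297 (.leaf 298 2169 (.cons 317 (.leaf 222 1773 (.cons 220 (.leaf 221 1763 (.leaf 244 1767 .nil)) .nil)) .nil)) .nil)) .nil)) .nil)) (.cons 221 (.leaf 222 1771 (.cons 245 (.leaf 220 1763 (.cons 294 (.leaf 293 2344 (.cons 297 (.leaf 298 2169 (.cons 318 (.leaf 317 2346 (.leaf 270 1775 .nil)) .nil)) .nil)) .nil)) .nil)) (.cons 269 (.leaf 270 1962 (.cons 221 (.leaf 222 1771 (.cons 245 (.leaf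 220 1763 (.leaf 268 1954 .nil)) .nil)) .nil)) (.cons 269 (.leaf 270 1962 (.cons 245 (.leaf 268 1954 (.cons 293 (.leaf 294 2344 (.cons 297 (.leaf 298 2169 (.cons 317 (.leaf 222 1773 (.cons 220 (.leaf 244 1767 (.cons 340 (.leaf 316 1958 (.cons 341 (.leaf 364 2150 (.cons 342 (.leaf 318 1964 (.leaf 366 2156 .nil)) .nil)) .nil)) .nil)) .nil)) .nil)) .nil)) .nil)) .nil)) (.cons 221 (.leaf 222 1771 (.cons 245 (.leaf 220 1763 (.cons 269 (.leaf 268 1954 (.cons 293 (.leaf 294 2344 (.cons 316 (.leaf 292 1766 (.cons 317 (.leaf 340 1958 (.cons 318 (.leaf 319 2337 (.leaf 342 1964 .nil)) .nil)) .nil)) .nil)) .nil)) .nil)) .nil)) (.cons 269 (.leaf 270 1962 (.cons 245 (.leaf 268 1954 (.cons 220 (.leaf 221 1763 (.cons 244 (.leaf 219 1755 (.cons 293 (.leaf 294 2344 (.leaf 317 1767 .nil)) .nil)) .nil)) .nil)) .nil)) (.cons 297 (.leaf 298 2169 (.cons 222 (.leaf 221 1771 (.cons 270 (.leaf 269 1962 (.cons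 294 (.leaf 293 2344 (.leaf 319 1780 .nil)) .nil)) .nil)) .nil)) .nil))))))
noncomputable def top0 : T := .cons 247 (.leaf 223 1791 (.cons 249 (.leaf 225 1797 (.cons 250 (.leaf 274 1976 (.cons 271 (.leaf 344 1983 (.leaf 251 1978 .nil)) .nil)) .nil)) .nil)) (.cons 343 (.leaf 319 1982 (.cons 225 (.leaf 249 1797 (.cons 344 (.leaf 367 2174 (.cons 345 (.leaf 321 1988 (.leaf 369 2180 .nil)) .nil)) .nil)) .nil)) (.cons 223 (.leaf 247 1791 (.cons 343 (.leaf 319 1982 (.cons 344 (.leaf 367 2174 (.cons 345 (.leaf 321 1988 (.leaf 369 2180 .nil)) .nil)) .nil)) .nil)) (.cons 247 (.leaf 223 1791 (.cons 249 (.leaf 225 1797 (.cons 250 (.leaf 274 1976 (.cons 271 (.leaf 251 1978 (.leaf 270 1970 .nil)) .nil)) .nil)) .nil)) .nil)))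
noncomputable def top1 : T := .cons 343 (.leaf 319 1982 (.cons 225 (.leaf 249 1797 (.cons 344 (.leaf 367 2174 (.cons 345 (.leaf 321 1988 (.leaf 369 2180 .nil)) .nil)) .nil)) .nil)) (.cons 321 (.leaf 345 1988 (.cons 249 (.leaf 225 1797 (.cons 322 t1 .nil)) .nil)) (.cons 345 (.leaf 321 1988 (.cons 344 (.leaf 369 2180 (.cons 367 (.leaf 343 2174 (.cons 368 (.leaf 391 2366 (.cons 271 (.leaf 295 2175 (.cons 249 (.leaf 225 1797 (.cons 270 (.leaf 269 1961 (.cons 365 (.leaf 366 2729 (.cons 251 (.leaf 250 1978 (.cons 346 (.leaf 347 2746 (.cons 299 (.cons 322 (.leaf 323 2006 (.cons 298 (.leaf 227 1814 (.leaf 274 2005 .nil)) .nil)) (.cons 323 (.leaf 322 2006 (.cons 228 (.leaf 252 1821 (.cons 227 (.leaf 204 1629 (.cons 324 (.leaf 300 1820 (.leaf 348 2012 .nil)) .nil)) .nil)) .nil)) (.cons 227 (.cons 228 (.leaf 204 1629 (.cons 323 (.leaf 252 1821 (.cons 324 (.leaf 300 1820 (.leaf 348 2012 .nil))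 .nil)) .nil)) (.cons 202 (.leaf 226 1623 (.cons 203 (.leaf 178 1431 (.cons 298 (.leaf 274 1622 (.leaf 297 2171 .nil)) .nil)) .nil)) .nil)) (.cons 298 (.leaf 297 2171 (.cons 322 (.leaf 227 1814 (.leaf 274 2005 .nil)) .nil)) (.cons 322 (.leaf 323 2006 (.cons 298 (.leaf 274 2005 (.leaf 370 2197 .nil)) .nil)) .nil))))) .nil)) .nil)) .nil)) .nil)) .nil)) .nil)) .nil)) .nil)) .nil)) .nil)) (.cons 319 (.leaf 343 1982 (.cons 249 (.leaf 225 1797 (.cons 298 (.cons 297 (.leaf 299 2362 (.cons 318 (.leaf 317 2345 (.leaf 321 2353 .nil)) .nil)) (.cons 251 t0 (.cons 297 (.cons 318 (.leaf 317 2345 (.leaf 321 2353 .nil)) (.cons 295 (.leaf 274 2169 (.cons 270 (.leaf 271 2163 (.cons 294 (.leaf 269 2155 (.cons 321 (.leaf 293 2344 (.leaf 322 2352 .nil)) .nil)) .nil)) .nil)) (.cons 318 (.leaf 317 2345 (.leaf 295 2354 .nil)) .nil))) (.cons 297 (.leaf 299 2362 (.cons 318 (.leaf 317 2345 (.leaf 295 2354 .nil))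 .nil)) .nil)))) .nil)) .nil)) (.cons 249 (.leaf 225 1797 (.cons 344 (.cons 367 (.leaf 343 2174 (.cons 368 (.leaf 391 2366 (.cons 295 (.leaf 271 2175 (.cons 392 (.leaf 319 2367 (.cons 393 (.leaf 369 2372 (.leaf 417 2564 .nil)) .nil)) .nil)) .nil)) .nil)) (.cons 369 (.leaf 345 2180 (.cons 368 (.leaf 393 2372 (.cons 295 (.leaf 271 2175 (.cons 391 (.leaf 367 2366 (.cons 392 (.leaf 319 2367 (.leaf 415 2558 .nil)) .nil)) .nil)) .nil)) .nil)) (.cons 367 (.leaf 343 2174 (.cons 368 (.leaf 391 2366 (.cons 369 (.leaf 345 2180 (.leaf 393 2372 .nil)) .nil)) .nil)) (.cons 319 (.leaf 343 1982 (.cons 369 (.leaf 345 2180 (.cons 368 (.leaf 393 2372 (.cons 295 (.leaf 271 2175 (.leaf 392 2367 .nil)) .nil)) .nil)) .nil)) (.cons 343 (.leaf 319 1982 (.leaf 367 2174 .nil)) .nil))))) .nil)) (.cons 343 (.leaf 319 1982 (.cons 344 (.leaf 367 2174 (.cons 345 (.leaf 321 1988 (.leaf 369 2180 .nil)) .nil)) .nil))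 .nil)))))
noncomputable def top2 : T := .cons 247 (.leaf 223 1791 (.cons 249 (.leaf 225 1797 (.cons 250 (.leaf 274 1976 (.cons 271 (.leaf 344 1983 (.leaf 251 1978 .nil)) .nil)) .nil)) .nil)) (.cons 345 (.leaf 321 1988 (.cons 344 (.leaf 369 2180 (.cons 367 (.leaf 343 2174 (.cons 368 (.leaf 391 2366 (.cons 271 (.leaf 295 2175 (.cons 249 (.leaf 225 1797 (.cons 270 (.leaf 269 1961 (.cons 365 (.leaf 366 2729 (.cons 251 (.leaf 250 1978 (.cons 346 (.leaf 347 2746 (.cons 299 (.cons 322 (.leaf 323 2006 (.cons 298 (.leaf 227 1814 (.leaf 274 2005 .nil)) .nil)) (.cons 323 (.leaf 322 2006 (.cons 228 (.leaf 252 1821 (.cons 227 (.leaf 204 1629 (.cons 324 (.leaf 300 1820 (.leaf 348 2012 .nil)) .nil)) .nil)) .nil)) (.cons 227 (.cons 228 (.leaf 204 1629 (.cons 323 (.leaf 252 1821 (.cons 324 (.leaf 300 1820 (.leaf 348 2012 .nil)) .nil)) .nil)) (.cons 202 (.leaf 226 1623 (.cons 203 (.leaf 178 1431 (.cons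 298 (.leaf 274 1622 (.leaf 297 2171 .nil)) .nil)) .nil)) .nil)) (.cons 298 (.leaf 297 2171 (.cons 322 (.leaf 227 1814 (.leaf 274 2005 .nil)) .nil)) (.cons 322 (.leaf 323 2006 (.cons 298 (.leaf 274 2005 (.leaf 370 2197 .nil)) .nil)) .nil))))) .nil)) .nil)) .nil)) .nil)) .nil)) .nil)) .nil)) .nil)) .nil)) .nil)) (.cons 247 (.leaf 223 1791 (.cons 321 (.leaf 345 1988 (.cons 344 (.leaf 271 1983 (.cons 367 (.leaf 343 2174 (.cons 368 (.leaf 391 2366 (.cons 392 (.leaf 297 2373 (.cons 393 (.leaf 369 2372 (.leaf 417 2564 .nil)) .nil)) .nil)) .nil)) .nil)) .nil)) .nil)) (.cons 247 (.leaf 223 1791 (.cons 249 (.leaf 225 1797 (.cons 250 (.leaf 274 1976 (.cons 271 (.leaf 251 1978 (.leaf 270 1970 .nil)) .nil)) .nil)) .nil)) (.cons 247 (.leaf 223 1791 (.cons 249 (.leaf 225 1797 (.cons 250 (.leaf 274 1976 (.cons 227 (.leaf 226 1785 (.cons 251 (.leaf 228 1793 (.cons 299 t2 .nil)) .nil)) .nil)) .nil))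 .nil)) .nil))))
noncomputable def top3 : T := .cons 319 (.leaf 343 1982 (.cons 321 (.leaf 345 1988 (.cons 247 (.leaf 223 1791 (.cons 318 (.cons 297 (.leaf 317 2345 (.leaf 298 2353 .nil)) (.cons 293 (.leaf 294 2347 (.cons 317 (.leaf 292 2339 (.cons 341 (.leaf 340 2530 (.leaf 342 2538 .nil)) .nil)) .nil)) (.cons 293 (.leaf 294 2347 (.cons 298 (.leaf 297 2353 (.cons 322 (.leaf 299 2361 (.cons 295 (.leaf 323 2363 (.cons 342 (.leaf 341 2538 (.leaf 271 1974 .nil)) .nil)) .nil)) .nil)) .nil)) .nil))) .nil)) .nil)) .nil)) (.cons 247 (.leaf 223 1791 (.cons 344 (.leaf 271 1983 (.cons 345 (.leaf 321 1988 (.leaf 369 2180 .nil)) .nil)) .nil)) (.cons 343 (.leaf 319 1982 (.cons 344 (.leaf 367 2174 (.cons 345 (.leaf 321 1988 (.leaf 369 2180 .nil)) .nil)) .nil)) (.cons 247 (.leaf 223 1791 (.cons 343 (.leaf 319 1982 (.cons 344 (.leaf 271 1983 (.leaf 367 2174 .nil)) .nil)) .nil)) .nil)))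
noncomputable def top4 : T := .cons 247 (.leaf 223 1791 (.cons 344 (.leaf 271 1983 (.cons 345 (.leaf 321 1988 (.leaf 369 2180 .nil)) .nil)) .nil)) (.cons 321 (.leaf 345 1988 (.cons 249 (.leaf 225 1797 (.cons 322 t4 .nil)) .nil)) (.cons 247 (.leaf 223 1791 (.cons 249 (.leaf 225 1797 (.cons 250 (.leaf 274 1976 (.cons 271 (.leaf 344 1983 (.leaf 251 1978 .nil)) .nil)) .nil)) .nil)) (.cons 321 (.leaf 345 1988 (.cons 247 (.leaf 223 1791 (.cons 249 (.leaf 225 1797 (.cons 274 (.leaf 250 1976 (.cons 295 (.cons 322 (.leaf 323 2363 (.cons 294 (.leaf 293 2344 (.leaf 319 2355 .nil)) .nil)) (.cons 246 t3 (.cons 298 (.leaf 297 2169 (.cons 322 (.leaf 323 2363 (.cons 251 (.leaf 346 2005 (.cons 227 (.leaf 203 1622 (.leaf 299 1814 .nil)) .nil)) .nil)) .nil)) .nil))) .nil)) .nil)) .nil)) .nil)) .nil)))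
noncomputable def top5 : T := .cons 247 (.leaf 223 1791 (.cons 249 (.leaf 225 1797 (.cons 250 (.leaf 274 1976 (.cons 271 (.leaf 344 1983 (.leaf 251 1978 .nil)) .nil)) .nil)) .nil)) (.cons 249 (.leaf 225 1797 (.cons 344 (.cons 319 (.leaf 343 1982 (.cons 369 (.leaf 345 2180 (.cons 368 (.leaf 393 2372 (.cons 295 (.leaf 271 2175 (.leaf 392 2367 .nil)) .nil)) .nil)) .nil)) (.cons 369 (.leaf 345 2180 (.cons 368 (.leaf 393 2372 (.cons 295 (.leaf 271 2175 (.cons 391 (.leaf 367 2366 (.cons 392 (.leaf 319 2367 (.leaf 415 2558 .nil)) .nil)) .nil)) .nil)) .nil)) (.cons 367 (.leaf 343 2174 (.cons 368 (.leaf 391 2366 (.cons 369 (.leaf 345 2180 (.leaf 393 2372 .nil)) .nil)) .nil)) (.cons 343 (.leaf 319 1982 (.leaf 367 2174 .nil)) .nil)))) .nil)) (.cons 247 (.leaf 223 1791 (.cons 319 (.leaf 343 1982 (.cons 344 (.leaf 271 1983 (.cons 369 (.leaf 345 2180 (.cons 368 (.leaf 393 2372 (.cons 391 (.leaf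 367 2366 (.cons 392 (.leaf 295 2367 (.leaf 415 2558 .nil)) .nil)) .nil)) .nil)) .nil)) .nil)) .nil)) (.cons 247 (.leaf 223 1791 (.cons 249 (.leaf 225 1797 (.cons 250 (.leaf 274 1976 (.cons 271 (.leaf 251 1978 (.leaf 270 1970 .nil)) .nil)) .nil)) .nil)) (.cons 298 t5 .nil))))
noncomputable def top6 : T := .cons 319 (.leaf 343 1982 (.cons 249 (.leaf 225 1797 (.cons 298 (.cons 297 (.leaf 299 2362 (.cons 318 (.leaf 317 2345 (.leaf 321 2353 .nil)) .nil)) (.cons 251 t7 (.cons 297 (.cons 318 (.leaf 317 2345 (.leaf 321 2353 .nil)) (.cons 295 (.leaf 274 2169 (.cons 270 (.leaf 271 2163 (.cons 294 (.leaf 269 2155 (.cons 321 (.leaf 293 2344 (.leaf 322 2352 .nil)) .nil)) .nil)) .nil)) (.cons 318 (.leaf 317 2345 (.leaf 295 2354 .nil)) .nil))) (.cons 251 (.cons 271 (.leaf 250 1978 (.cons 297 (.leaf 299 2362 (.cons 270 (.leaf 269 2152 (.leaf 295 2163 .nil)) .nil)) .nil)) (.cons 271 (.leaf 250 1978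 (.cons 247 (.leaf 223 1791 (.leaf 344 1983 .nil)) .nil)) (.cons 299 (.leaf 297 2362 (.cons 227 (.leaf 322 1814 (.cons 228 (.leaf 204 1629 (.leaf 250 1793 .nil)) .nil)) .nil)) (.cons 299 (.leaf 297 2362 (.cons 322 (.leaf 227 1814 (.leaf 321 2361 .nil)) .nil)) .nil)))) (.cons 297 (.leaf 299 2362 (.cons 318 (.leaf 317 2345 (.leaf 295 2354 .nil)) .nil)) .nil))))) .nil)) .nil)) (.cons 319 (.leaf 343 1982 (.cons 249 (.leaf 225 1797 (.cons 298 (.cons 297 (.leaf 299 2362 (.cons 318 (.leaf 317 2345 (.leaf 321 2353 .nil)) .nil)) (.cons 251 t6 (.cons 297 (.cons 318 (.leaf 317 2345 (.leaf 321 2353 .nil)) (.cons 295 (.leaf 274 2169 (.cons 270 (.leaf 271 2163 (.cons 294 (.leaf 269 2155 (.cons 321 (.leaf 293 2344 (.leaf 322 2352 .nil)) .nil)) .nil)) .nil)) (.cons 318 (.leaf 317 2345 (.leaf 295 2354 .nil)) .nil))) (.cons 297 (.leaf 299 2362 (.cons 318 (.leaf 317 2345 (.leaf 295 2354 .nil)) .nil))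 .nil)))) .nil)) .nil)) (.cons 247 (.leaf 223 1791 (.cons 249 (.leaf 225 1797 (.cons 250 (.leaf 274 1976 (.cons 271 (.leaf 344 1983 (.leaf 251 1978 .nil)) .nil)) .nil)) .nil)) (.cons 247 (.leaf 223 1791 (.cons 343 (.leaf 319 1982 (.cons 344 (.leaf 271 1983 (.leaf 367 2174 .nil)) .nil)) .nil)) (.cons 319 (.leaf 343 1982 (.cons 247 (.leaf 223 1791 (.cons 249 (.leaf 225 1797 (.cons 274 (.leaf 250 1976 (.cons 298 (.cons 297 (.leaf 295 2169 (.leaf 299 2362 .nil)) (.cons 322 (.cons 321 (.leaf 299 2361 (.cons 295 (.leaf 294 2355 (.leaf 323 2363 .nil)) .nil)) (.cons 251 (.leaf 346 2005 (.cons 227 (.leaf 203 1622 (.leaf 299 1814 .nil)) .nil)) (.cons 346 (.leaf 251 2005 (.cons 347 (.leaf 321 2552 (.leaf 371 2196 .nil)) .nil)) .nil))) (.cons 297 (.leaf 295 2169 (.cons 318 (.leaf 317 2345 (.leaf 321 2353 .nil)) .nil)) (.cons 297 (.leaf 299 2362 (.cons 318 (.leaf 317 2345 (.leaf 321 2353 .nil))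 .nil)) .nil)))) .nil)) .nil)) .nil)) .nil)) .nil))))
noncomputable def top7 : T := .cons 343 (.leaf 319 1982 (.cons 225 (.leaf 249 1797 (.cons 344 (.leaf 367 2174 (.cons 345 (.leaf 321 1988 (.leaf 369 2180 .nil)) .nil)) .nil)) .nil)) (.cons 321 (.leaf 345 1988 (.cons 247 (.leaf 223 1791 (.cons 249 (.leaf 225 1797 (.cons 274 (.leaf 250 1976 (.cons 295 (.cons 322 (.leaf 323 2363 (.cons 294 (.leaf 293 2344 (.leaf 319 2355 .nil)) .nil)) (.cons 246 t10 (.cons 298 (.leaf 297 2169 (.cons 322 (.leaf 323 2363 (.cons 251 (.leaf 346 2005 (.cons 227 (.leaf 203 1622 (.leaf 299 1814 .nil)) .nil)) .nil)) .nil)) .nil))) .nil)) .nil)) .nil)) .nil)) (.cons 319 (.leaf 343 1982 (.cons 247 (.leaf 223 1791 (.cons 249 (.leaf 225 1797 (.cons 274 (.leaf 250 1976 (.cons 298 (.cons 297 (.leaf 295 2169 (.leaf 299 2362 .nil)) (.cons 322 (.cons 321 (.leaf 299 2361 (.cons 295 (.leaf 294 2355 (.leaf 323 2363 .nil))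 .nil)) (.cons 251 (.leaf 346 2005 (.cons 227 (.leaf 203 1622 (.leaf 299 1814 .nil)) .nil)) (.cons 346 (.leaf 251 2005 (.cons 347 (.leaf 321 2552 (.leaf 371 2196 .nil)) .nil)) .nil))) (.cons 297 (.leaf 295 2169 (.cons 318 (.leaf 317 2345 (.leaf 321 2353 .nil)) .nil)) (.cons 297 (.leaf 299 2362 (.cons 318 (.leaf 317 2345 (.leaf 321 2353 .nil)) .nil)) .nil)))) .nil)) .nil)) .nil)) .nil)) (.cons 247 (.leaf 223 1791 (.cons 249 (.leaf 225 1797 (.cons 250 (.leaf 274 1976 (.cons 227 (.leaf 226 1785 (.cons 251 (.leaf 228 1793 (.cons 299 t9 .nil)) .nil)) .nil)) .nil)) .nil)) (.cons 298 t8 (.cons 343 (.leaf 319 1982 (.cons 223 (.leaf 247 1791 (.cons 344 (.leaf 367 2174 (.cons 345 (.leaf 321 1988 (.leaf 369 2180 .nil)) .nil)) .nil)) .nil)) .nil)))))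
noncomputable def top8 : T := .cons 319 (.leaf 343 1982 (.cons 321 (.leaf 345 1988 (.cons 249 (.leaf 225 1797 (.cons 318 (.cons 297 (.leaf 317 2345 (.leaf 298 2353 .nil)) (.cons 294 (.leaf 293 2347 (.cons 295 (.leaf 322 2355 (.cons 342 (.leaf 341 2538 (.cons 366 (.leaf 390 2357 (.leaf 271 2165 .nil)) .nil)) .nil)) .nil)) .nil)) .nil)) .nil)) .nil)) (.cons 247 (.leaf 223 1791 (.cons 249 (.leaf 225 1797 (.cons 250 (.leaf 274 1976 (.cons 271 (.leaf 251 1978 (.leaf 270 1970 .nil)) .nil)) .nil)) .nil)) (.cons 319 (.leaf 343 1982 (.cons 321 (.leaf 345 1988 (.cons 247 (.leaf 223 1791 (.cons 318 (.cons 297 (.leaf 317 2345 (.leaf 298 2353 .nil)) (.cons 293 (.leaf 294 2347 (.cons 317 (.leaf 292 2339 (.cons 341 (.leaf 340 2530 (.leaf 342 2538 .nil)) .nil)) .nil)) (.cons 293 (.leaf 294 2347 (.cons 298 (.leaf 297 2353 (.cons 322 (.leaf 299 2361 (.cons 295 (.leaf 323 2363 (.cons 342 (.leaf 341 2538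 (.leaf 271 1974 .nil)) .nil)) .nil)) .nil)) .nil)) .nil))) .nil)) .nil)) .nil)) (.cons 319 (.leaf 343 1982 (.cons 321 (.leaf 345 1988 (.cons 247 (.leaf 223 1791 (.cons 249 (.leaf 225 1797 (.cons 250 (.leaf 274 1976 (.cons 227 (.leaf 226 1785 (.cons 251 (.leaf 228 1793 (.cons 322 (.cons 346 (.leaf 347 2552 (.cons 294 (.leaf 295 2355 (.cons 318 (.leaf 293 2347 (.cons 297 (.leaf 317 2345 (.leaf 298 2353 .nil)) .nil)) .nil)) .nil)) (.cons 346 (.leaf 347 2552 (.cons 323 (.leaf 299 2006 (.leaf 295 2363 .nil)) .nil)) (.cons 346 (.leaf 347 2552 (.cons 323 (.leaf 299 2006 (.cons 324 (.leaf 297 2371 (.cons 301 (.leaf 300 2377 (.cons 325 (.leaf 302 2385 (.cons 349 (.leaf 348 2568 (.leaf 350 2576 .nil)) .nil)) .nil)) .nil)) .nil)) .nil)) (.cons 294 (.leaf 295 2355 (.cons 318 (.leaf 293 2347 (.cons 317 (.leaf 297 2345 (.cons 341 (.leaf 340 2530 (.leaf 342 2538 .nil)) .nil)) .nil)) .nil)) .nil))))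 .nil)) .nil)) .nil)) .nil)) .nil)) .nil)) .nil)) .nil)))

end Vale.Agent.P062.PB.N3D0
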