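import Vale.Agent.P062.Checker

namespace Vale.Agent.P062.PB.N4D0

open Vale.Agent.P062

noncomputable def t0 : T := .cons 320 (.cons 247 (.leaf 223 1791 (.cons 249 (.leaf 225 1797 (.cons 250 (.leaf 274 1976 (.cons 271 (.leaf 344 1983 (.leaf 251 1978 .nil)) .nil)) .nil)) .nil)) (.cons 225 (.leaf 249 1797 (.cons 343 (.leaf 319 1982 (.cons 344 (.leaf 367 2174 (.cons 345 (.leaf 321 1988 (.leaf 369 2180 .nil)) .nil)) .nil)) .nil)) (.cons 223 (.leaf 247 1791 (.cons 343 (.leaf 319 1982 (.cons 344 (.leaf 367 2174 (.cons 345 (.leaf 321 1988 (.leaf 369 2180 .nil)) .nil)) .nil)) .nil)) (.cons 247 (.leaf 223 1791 (.cons 249 (.leaf 225 1797 (.cons 250 (.leaf 274 1976 (.cons 271 (.leaf 251 1978 (.leaf 270 1970 .nil)) .nil)) .nil)) .nil)) .nil)))) (.cons 224 (.cons 199 (.leaf 223 1599 (.cons 200 (.leaf 175 1407 (.cons 295 (.leaf 271 1598 (.leaf 319 1790 .nil)) .nil)) .nil)) (.cons 199 (.leaf 223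 1599 (.cons 200 (.leaf 175 1407 (.cons 201 (.leaf 177 1413 (.leaf 225 1605 .nil)) .nil)) .nil)) (.cons 295 (.leaf 319 1790 (.cons 200 (.leaf 271 1598 (.cons 175 (.leaf 199 1407 (.cons 176 (.leaf 151 1215 (.cons 177 (.leaf 201 1413 (.leaf 153 1221 .nil)) .nil)) .nil)) .nil)) .nil)) (.cons 295 (.leaf 319 1790 (.cons 271 (.leaf 200 1598 (.cons 297 (.leaf 321 1796 (.cons 298 (.leaf 274 2169 (.leaf 299 2171 .nil)) .nil)) .nil)) .nil)) (.cons 199 (.leaf 223 1599 (.cons 201 (.leaf 225 1605 (.cons 295 (.leaf 319 1790 (.cons 297 (.leaf 321 1796 (.cons 298 (.leaf 274 2169 (.cons 271 (.leaf 299 2171 (.leaf 270 2163 .nil)) .nil)) .nil)) .nil)) .nil)) .nil)) .nil))))) (.cons 320 (.cons 319 (.leaf 343 1982 (.cons 224 (.leaf 295 1790 (.cons 321 (.leaf 297 1796 (.leaf 345 1988 .nil)) .nil)) .nil)) (.cons 225 (.leaf 249 1797 (.cons 224 (.leaf 201 1605 (.cons 321 (.leaf 297 1796 (.leaf 345 1988 .nil))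 .nil)) .nil)) (.cons 225 (.leaf 249 1797 (.cons 201 (.leaf 224 1605 (.cons 343 (.leaf 319 1982 (.cons 344 (.leaf 367 2174 (.cons 271 (.leaf 247 1983 (.cons 368 (.leaf 295 2175 (.cons 369 (.leaf 345 2180 (.leaf 393 2372 .nil)) .nil)) .nil)) .nil)) .nil)) .nil)) .nil)) (.cons 225 (.leaf 249 1797 (.cons 224 (.leaf 201 1605 (.cons 319 (.leaf 295 1790 (.leaf 343 1982 .nil)) .nil)) .nil)) (.cons 343 (.leaf 319 1982 (.cons 225 (.leaf 249 1797 (.cons 344 (.leaf 367 2174 (.cons 345 (.leaf 321 1988 (.leaf 369 2180 .nil)) .nil)) .nil)) .nil)) .nil))))) (.cons 224 (.cons 201 (.leaf 225 1605 (.cons 200 (.leaf 177 1413 (.cons 175 (.leaf 199 1407 (.cons 176 (.leaf 151 1215 (.cons 271 (.leaf 295 1598 (.leaf 247 1406 .nil)) .nil)) .nil)) .nil)) .nil)) (.cons 223 (.leaf 199 1599 (.cons 320 (.leaf 247 1791 (.cons 321 (.leaf 297 1796 (.leaf 345 1988 .nil)) .nil)) .nil)) (.cons 225 (.leaf 201 1605 (.cons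 320 (.leaf 249 1797 (.cons 321 (.leaf 297 1796 (.leaf 345 1988 .nil)) .nil)) .nil)) .nil))) (.cons 320 (.cons 223 (.leaf 247 1791 (.cons 224 (.leaf 199 1599 (.cons 321 (.leaf 297 1796 (.leaf 345 1988 .nil)) .nil)) .nil)) (.cons 223 (.leaf 247 1791 (.cons 224 (.leaf 199 1599 (.cons 319 (.leaf 295 1790 (.leaf 343 1982 .nil)) .nil)) .nil)) (.cons 319 (.leaf 343 1982 (.cons 224 (.leaf 295 1790 (.cons 321 (.leaf 297 1796 (.leaf 345 1988 .nil)) .nil)) .nil)) (.cons 223 (.leaf 247 1791 (.cons 343 (.leaf 319 1982 (.cons 344 (.leaf 367 2174 (.cons 345 (.leaf 321 1988 (.leaf 369 2180 .nil)) .nil)) .nil)) .nil)) .nil)))) (.cons 224 (.cons 199 (.leaf 223 1599 (.cons 200 (.leaf 175 1407 (.cons 295 (.leaf 271 1598 (.leaf 319 1790 .nil)) .nil)) .nil)) (.cons 295 (.leaf 319 1790 (.cons 200 (.leaf 271 1598 (.cons 175 (.leaf 199 1407 (.cons 176 (.leaf 151 1215 (.cons 177 (.leaf 201 1413 (.leaf 153 1221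 .nil)) .nil)) .nil)) .nil)) .nil)) (.cons 223 (.leaf 199 1599 (.cons 201 (.leaf 225 1605 (.cons 200 (.leaf 177 1413 (.cons 202 (.leaf 203 1594 (.cons 221 (.leaf 222 1577 (.cons 247 (.leaf 320 1791 (.cons 176 (.leaf 271 1406 (.leaf 152 1214 .nil)) .nil)) .nil)) .nil)) .nil)) .nil)) .nil)) (.cons 225 (.leaf 201 1605 (.cons 249 (.leaf 320 1797 (.cons 295 (.leaf 319 1790 (.cons 271 (.leaf 200 1598 (.cons 250 (.leaf 251 1978 (.cons 247 (.leaf 274 1976 (.leaf 270 1970 .nil)) .nil)) .nil)) .nil)) .nil)) .nil)) (.cons 223 (.leaf 199 1599 (.cons 201 (.leaf 225 1605 (.cons 319 (.leaf 295 1790 (.cons 320 (.leaf 247 1791 (.leaf 343 1982 .nil)) .nil)) .nil)) .nil)) .nil))))) .nil)))))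
noncomputable def t1 : T := .cons 270 (.leaf 269 1962 (.cons 222 (.leaf 221 1771 (.cons 225 (.leaf 226 1777 (.cons 201 (.leaf 177 1414 (.cons 294 (.cons 223 (.leaf 318 1781 (.leaf 199 1589 .nil)) (.cons 319 (.leaf 295 1780 (.cons 224 (.leaf 245 1769 (.cons 317 (.leaf 293 1774 (.cons 318 (.leaf 341 1966 (.leaf 343 1972 .nil)) .nil)) .nil)) .nil)) (.cons 223 (.leaf 199 1589 (.cons 224 (.leaf 245 1769 (.leaf 202 1585 .nil)) .nil)) .nil))) .nil)) .nil)) .nil)) .nil)) (.cons 269 (.leaf 270 1962 (.cons 245 (.leaf 268 1954 (.cons 220 (.leaf 221 1763 (.cons 244 (.leaf 271 1952 (.leaf 219 1755 .nil)) .nil)) .nil)) .nil)) (.cons 225 (.leaf 226 1777 (.cons 177 (.leaf 201 1414 (.cons 222 (.leaf 221 1771 (.cons 245 (.leaf 224 1769 (.cons 244 (.leaf 271 1952 (.cons 243 (.leaf 223 1753 (.cons 267 (.leaf 268 1946 (.leaf 266 1938 .nil)) .nil)) .nil)) .nil)) .nil)) .nil)) .nil)) (.cons 225 (.leaf 226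 1777 (.cons 177 (.leaf 201 1414 (.cons 245 (.leaf 224 1769 (.cons 269 (.leaf 268 1954 (.leaf 270 1962 .nil)) .nil)) .nil)) .nil)) (.cons 270 (.leaf 269 1962 (.cons 222 (.leaf 221 1771 (.cons 225 (.leaf 226 1777 (.cons 201 (.leaf 177 1414 (.cons 294 (.cons 223 (.leaf 318 1781 (.leaf 199 1589 .nil)) (.cons 319 (.leaf 295 1780 (.cons 317 (.leaf 293 1774 (.cons 318 (.leaf 341 1966 (.leaf 343 1972 .nil)) .nil)) .nil)) (.cons 223 (.leaf 199 1589 (.cons 224 (.leaf 202 1585 (.cons 293 (.leaf 317 1774 (.cons 295 (.leaf 319 1780 (.cons 271 (.leaf 200 1597 (.leaf 292 2145 .nil)) .nil)) .nil)) .nil)) .nil)) .nil))) .nil)) .nil)) .nil)) .nil)) .nil))))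
noncomputable def t2 : T := .cons 225 (.leaf 226 1777 (.cons 224 (.leaf 245 1769 (.cons 201 (.leaf 177 1414 (.cons 270 (.leaf 269 1962 (.cons 200 (.cons 199 (.leaf 175 1407 (.cons 176 (.leaf 271 1406 (.leaf 152 1220 .nil)) .nil)) (.cons 199 (.leaf 175 1407 (.cons 197 (.leaf 198 1576 (.cons 271 (.leaf 295 1598 (.cons 223 (.leaf 294 1590 (.cons 202 (.leaf 222 1585 (.leaf 203 1594 .nil)) .nil)) .nil)) .nil)) .nil)) (.cons 175 (.leaf 199 1407 (.cons 176 (.leaf 151 1215 (.leaf 152 1220 .nil)) .nil)) (.cons 176 (.leaf 271 1406 (.leaf 152 1220 .nil)) .nil)))) .nil)) .nil)) .nil)) .nil)) (.cons 269 (.leaf 270 1962 (.cons 222 (.leaf 221 1771 (.cons 245 (.leaf 268 1954 (.cons 174 (.leaf 198 1390 (.cons 244 (.leaf 271 1952 (.cons 223 (.leaf 224 1761 (.leaf 243 1753 .nil)) .nil)) .nil)) .nil)) .nil)) .nil)) (.cons 225 (.leaf 226 1777 (.cons 177 (.leaf 201 1414 (.cons 222 (.leaf 221 1771 (.cons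 245 (.leaf 224 1769 (.cons 244 (.leaf 271 1952 (.cons 243 (.leaf 223 1753 (.cons 267 (.leaf 268 1946 (.leaf 266 1938 .nil)) .nil)) .nil)) .nil)) .nil)) .nil)) .nil)) (.cons 225 (.leaf 226 1777 (.cons 177 (.leaf 201 1414 (.cons 245 (.leaf 224 1769 (.cons 269 (.leaf 268 1954 (.leaf 270 1962 .nil)) .nil)) .nil)) .nil)) (.cons 270 (.leaf 269 1962 (.cons 222 (.leaf 221 1771 (.cons 198 (.cons 173 (.leaf 197 1391 (.cons 149 (.leaf 174 1199 (.cons 199 (.leaf 175 1397 (.cons 294 (.leaf 223 1589 (.cons 317 (.leaf 293 1774 (.cons 318 (.leaf 341 1966 (.cons 319 (.leaf 295 1780 (.leaf 343 1972 .nil)) .nil)) .nil)) .nil)) .nil)) .nil)) .nil)) (.cons 173 (.leaf 197 1391 (.cons 174 (.leaf 271 1396 (.leaf 149 1199 .nil)) .nil)) (.cons 173 (.leaf 197 1391 (.cons 175 (.leaf 199 1397 (.cons 295 (.leaf 271 1588 (.cons 294 (.leaf 319 1780 (.cons 318 (.leaf 223 1781 (.cons 317 (.leaf 293 1774 (.leaf 341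 1966 .nil)) .nil)) .nil)) .nil)) .nil)) .nil)) (.cons 271 (.leaf 174 1396 (.leaf 295 1588 .nil)) .nil)))) .nil)) .nil)) .nil))))
noncomputable def t3 : T := .cons 318 (.leaf 223 1781 (.cons 271 (.leaf 342 1973 (.cons 319 (.leaf 343 1972 (.cons 295 (.leaf 224 1789 (.leaf 222 1780 .nil)) .nil)) .nil)) .nil)) (.cons 318 (.cons 271 (.leaf 342 1973 (.cons 319 (.leaf 343 1972 (.cons 295 (.leaf 224 1789 (.leaf 222 1780 .nil)) .nil)) .nil)) (.cons 342 (.leaf 271 1973 (.cons 341 (.leaf 317 1966 (.leaf 365 2158 .nil)) .nil)) (.cons 319 (.leaf 343 1972 (.cons 222 (.leaf 295 1780 (.cons 317 (.leaf 293 1774 (.leaf 341 1966 .nil)) .nil)) .nil)) .nil))) (.cons 222 (.cons 295 (.leaf 319 1780 (.cons 198 (.leaf 271 1588 (.cons 173 (.leaf 197 1391 (.cons 174 (.leaf 149 1199 (.cons 175 (.leaf 151 1205 (.leaf 199 1397 .nil)) .nil)) .nil)) .nil)) .nil)) (.cons 295 (.leaf 319 1780 (.cons 271 (.leaf 198 1588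 (.cons 293 (.leaf 292 2145 (.leaf 317 1774 .nil)) .nil)) .nil)) (.cons 223 (.leaf 199 1589 (.cons 224 (.leaf 202 1585 (.cons 198 (.leaf 197 1579 (.cons 174 (.leaf 150 1204 (.leaf 271 1396 .nil)) .nil)) .nil)) .nil)) (.cons 199 (.leaf 223 1589 (.cons 175 (.leaf 198 1397 (.cons 200 (.leaf 224 1407 (.cons 174 (.leaf 202 1395 (.cons 173 (.leaf 176 1384 (.leaf 172 1376 .nil)) .nil)) .nil)) .nil)) .nil)) (.cons 223 (.leaf 199 1589 (.cons 224 (.leaf 202 1585 (.cons 293 (.leaf 317 1774 (.cons 295 (.leaf 319 1780 (.cons 271 (.leaf 200 1597 (.leaf 292 2145 .nil)) .nil)) .nil)) .nil)) .nil)) .nil))))) (.cons 223 (.leaf 318 1781 (.cons 199 (.leaf 175 1404 (.leaf 222 1589 .nil)) .nil)) (.cons 318 (.leaf 223 1781 (.cons 342 (.leaf 271 1973 (.cons 341 (.leaf 317 1966 (.leaf 365 2158 .nil)) .nil)) .nil)) .nil))))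
noncomputable def t4 : T := .cons 225 (.leaf 226 1777 (.cons 224 (.leaf 245 1769 (.cons 201 (.leaf 177 1414 (.cons 270 (.leaf 269 1962 (.cons 200 (.cons 199 (.leaf 175 1407 (.cons 176 (.leaf 271 1406 (.leaf 152 1220 .nil)) .nil)) (.cons 199 (.leaf 175 1407 (.cons 197 (.leaf 198 1576 (.cons 271 (.leaf 295 1598 (.cons 223 (.leaf 294 1590 (.cons 202 (.leaf 222 1585 (.leaf 203 1594 .nil)) .nil)) .nil)) .nil)) .nil)) (.cons 175 (.leaf 199 1407 (.cons 176 (.leaf 151 1215 (.leaf 152 1220 .nil)) .nil)) (.cons 176 (.leaf 271 1406 (.leaf 152 1220 .nil)) .nil)))) .nil)) .nil)) .nil)) .nil)) (.cons 269 (.leaf 270 1962 (.cons 245 (.leaf 268 1954 (.cons 244 (.leaf 271 1952 (.cons 219 (.leaf 220 1755 (.cons 223 (.leaf 224 1761 (.cons 243 (.leaf 218 1747 (.leaf 222 1753 .nil)) .nil)) .nil)) .nil)) .nil)) .nil)) (.cons 225 (.leaf 226 1777 (.cons 177 (.leaf 201 1414 (.cons 245 (.leaf 224 1769 (.cons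 244 (.leaf 271 1952 (.cons 219 (.leaf 220 1755 (.cons 243 (.leaf 218 1747 (.cons 267 (.leaf 268 1946 (.leaf 266 1938 .nil)) .nil)) .nil)) .nil)) .nil)) .nil)) .nil)) (.cons 225 (.leaf 226 1777 (.cons 177 (.leaf 201 1414 (.cons 245 (.leaf 224 1769 (.cons 269 (.leaf 268 1954 (.leaf 270 1962 .nil)) .nil)) .nil)) .nil)) (.cons 270 (.leaf 269 1962 (.cons 225 (.leaf 226 1777 (.cons 201 (.leaf 177 1414 (.cons 294 t3 .nil)) .nil)) .nil)) (.cons 269 (.leaf 270 1962 (.cons 245 (.leaf 268 1954 (.cons 225 (.leaf 226 1777 (.cons 271 (.leaf 244 1952 (.cons 201 (.leaf 177 1414 (.cons 295 (.cons 319 (.leaf 343 1981 (.leaf 222 1783 .nil)) (.cons 293 (.cons 294 (.leaf 292 2145 (.cons 318 (.leaf 223 1782 (.cons 342 (.leaf 317 1964 (.leaf 366 2165 .nil)) .nil)) .nil)) (.cons 294 (.leaf 292 2145 (.cons 223 (.leaf 318 1782 (.cons 198 (.leaf 222 1591 (.cons 199 (.leaf 175 1404 (.leaf 174 1399 .nil)) .nil))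 .nil)) .nil)) (.cons 222 (.leaf 317 1773 (.cons 198 (.leaf 174 1396 (.leaf 223 1591 .nil)) .nil)) (.cons 317 (.leaf 222 1773 (.cons 292 (.leaf 294 2145 (.cons 340 (.leaf 316 1958 (.cons 341 (.leaf 364 2150 (.cons 342 (.leaf 318 1964 (.leaf 366 2156 .nil)) .nil)) .nil)) .nil)) .nil)) .nil)))) (.cons 319 (.leaf 343 1981 (.cons 318 (.leaf 342 1974 (.cons 294 (.leaf 223 1782 (.cons 293 (.leaf 292 2145 (.cons 320 (.leaf 344 1980 (.leaf 321 2347 .nil)) .nil)) .nil)) .nil)) .nil)) .nil))) .nil)) .nil)) .nil)) .nil)) .nil)) .nil)))))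
noncomputable def t5 : T := .cons 246 (.cons 225 (.leaf 226 1777 (.cons 224 (.leaf 245 1769 (.cons 201 (.leaf 177 1414 (.cons 250 (.leaf 274 1976 (.cons 251 (.leaf 271 1978 (.leaf 223 1787 .nil)) .nil)) .nil)) .nil)) .nil)) (.cons 225 (.leaf 226 1777 (.cons 224 (.leaf 245 1769 (.cons 201 (.leaf 177 1414 (.cons 270 (.leaf 269 1962 (.cons 200 (.cons 176 (.leaf 271 1406 (.leaf 152 1220 .nil)) (.cons 199 (.leaf 175 1407 (.cons 197 (.leaf 198 1576 (.cons 271 (.leaf 295 1598 (.cons 223 (.leaf 294 1590 (.cons 202 (.leaf 222 1585 (.leaf 203 1594 .nil)) .nil)) .nil)) .nil)) .nil)) (.cons 175 (.leaf 199 1407 (.cons 176 (.leaf 151 1215 (.leaf 152 1220 .nil)) .nil)) .nil))) .nil)) .nil)) .nil)) .nil)) (.cons 250 (.leaf 274 1976 (.cons 270 (.leaf 269 1962 (.leaf 271 1970 .nil)) .nil)) (.cons 225 (.leaf 226 1777 (.cons 177 (.leaf 201 1414 (.cons 245 (.leaf 224 1769 (.cons 269 (.leaf 268 1954 (.leaf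 270 1962 .nil)) .nil)) .nil)) .nil)) .nil)))) (.cons 246 t4 (.cons 250 (.leaf 274 1976 (.cons 223 (.leaf 222 1779 (.cons 175 (.leaf 199 1404 (.cons 227 (.leaf 226 1785 (.cons 251 (.leaf 224 1787 (.leaf 228 1793 .nil)) .nil)) .nil)) .nil)) .nil)) (.cons 250 (.leaf 274 1976 (.cons 271 (.leaf 251 1978 (.leaf 270 1970 .nil)) .nil)) .nil)))
noncomputable def t6 : T := .cons 221 (.leaf 222 1771 (.cons 245 (.leaf 220 1763 (.cons 224 (.leaf 225 1769 (.cons 244 (.leaf 271 1952 (.leaf 223 1761 .nil)) .nil)) .nil)) .nil)) (.cons 269 (.leaf 270 1962 (.cons 245 (.leaf 268 1954 (.cons 220 (.leaf 221 1763 (.cons 244 (.leaf 271 1952 (.leaf 219 1755 .nil)) .nil)) .nil)) .nil)) (.cons 269 (.leaf 270 1962 (.cons 245 (.leaf 268 1954 (.cons 244 (.leaf 271 1952 (.cons 219 (.leaf 220 1755 (.cons 223 (.leaf 224 1761 (.cons 243 (.leaf 218 1747 (.leaf 222 1753 .nil)) .nil)) .nil)) .nil)) .nil)) .nil)) (.cons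 270 (.leaf 269 1962 (.cons 222 (.leaf 221 1771 (.cons 198 (.cons 173 (.leaf 197 1391 (.cons 149 (.leaf 174 1199 (.cons 199 (.leaf 175 1397 (.cons 294 (.leaf 223 1589 (.cons 317 (.leaf 293 1774 (.cons 318 (.leaf 341 1966 (.cons 319 (.leaf 295 1780 (.leaf 343 1972 .nil)) .nil)) .nil)) .nil)) .nil)) .nil)) .nil)) (.cons 173 (.leaf 197 1391 (.cons 174 (.leaf 271 1396 (.leaf 149 1199 .nil)) .nil)) (.cons 173 (.leaf 197 1391 (.cons 175 (.leaf 199 1397 (.cons 295 (.leaf 271 1588 (.cons 294 (.leaf 319 1780 (.cons 318 (.leaf 223 1781 (.cons 317 (.leaf 293 1774 (.leaf 341 1966 .nil)) .nil)) .nil)) .nil)) .nil)) .nil)) (.cons 271 (.leaf 174 1396 (.leaf 295 1588 .nil)) .nil)))) .nil)) .nil)) (.cons 221 (.leaf 222 1771 (.cons 245 (.leaf 220 1763 (.cons 269 (.leaf 268 1954 (.leaf 270 1962 .nil)) .nil)) .nil)) .nil))))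
noncomputable def t7 : T := .cons 250 (.leaf 274 1976 (.cons 246 (.cons 223 (.leaf 222 1779 (.cons 175 (.leaf 199 1404 (.cons 224 (.leaf 251 1787 (.cons 245 (.leaf 225 1769 (.leaf 244 1761 .nil)) .nil)) .nil)) .nil)) (.cons 269 (.leaf 270 1962 (.cons 245 (.leaf 268 1954 (.cons 220 (.leaf 221 1763 (.cons 224 (.leaf 225 1769 (.cons 223 (.leaf 251 1787 (.leaf 244 1761 .nil)) .nil)) .nil)) .nil)) .nil)) (.cons 221 (.leaf 222 1771 (.cons 245 (.leaf 220 1763 (.cons 269 (.leaf 268 1954 (.leaf 270 1962 .nil)) .nil)) .nil)) (.cons 271 (.leaf 251 1978 (.leaf 270 1970 .nil)) .nil)))) .nil)) (.cons 246 t6 (.cons 250 (.leaf 274 1976 (.cons 246 (.cons 223 (.leaf 222 1779 (.cons 175 (.leaf 199 1404 (.cons 224 (.leaf 251 1787 (.cons 245 (.leaf 225 1769 (.leaf 244 1761 .nil)) .nil)) .nil)) .nil)) (.cons 269 (.leaf 270 1962 (.cons 245 (.leaf 268 1954 (.cons 220 (.leaf 221 1763 (.cons 224 (.leaf 225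 1769 (.cons 223 (.leaf 251 1787 (.leaf 244 1761 .nil)) .nil)) .nil)) .nil)) .nil)) (.cons 221 (.leaf 222 1771 (.cons 245 (.leaf 220 1763 (.cons 269 (.leaf 268 1954 (.leaf 270 1962 .nil)) .nil)) .nil)) (.cons 222 (.leaf 221 1771 (.leaf 223 1779 .nil)) .nil)))) .nil)) (.cons 250 (.leaf 274 1976 (.cons 222 (.leaf 223 1779 (.cons 246 (.leaf 221 1771 (.cons 271 (.leaf 251 1978 (.cons 174 (.leaf 198 1396 (.cons 245 (.leaf 244 1952 (.cons 224 (.leaf 225 1769 (.cons 295 (.leaf 200 1598 (.leaf 319 1789 .nil)) .nil)) .nil)) .nil)) .nil)) .nil)) .nil)) .nil)) (.cons 250 (.leaf 274 1976 (.cons 271 (.leaf 251 1978 (.leaf 270 1970 .nil)) .nil)) .nil))))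
noncomputable def t8 : T := .cons 221 (.leaf 222 1771 (.cons 245 (.leaf 220 1763 (.cons 269 (.leaf 268 1954 (.leaf 270 1962 .nil)) .nil)) .nil)) (.cons 245 (.cons 244 (.leaf 271 1952 (.cons 219 (.leaf 220 1755 (.cons 223 (.leaf 224 1761 (.cons 243 (.leaf 218 1747 (.leaf 222 1753 .nil)) .nil)) .nil)) .nil)) (.cons 221 (.leaf 220 1763 (.leaf 222 1771 .nil)) (.cons 220 (.leaf 221 1763 (.cons 244 (.leaf 271 1952 (.leaf 219 1755 .nil)) .nil)) (.cons 222 (.leaf 221 1771 (.cons 244 (.leaf 271 1952 (.cons 223 (.leaf 224 1761 (.leaf 243 1753 .nil)) .nil)) .nil)) .nil)))) (.cons 269 (.leaf 270 1962 (.cons 245 (.leaf 268 1954 (.cons 244 (.leaf 271 1952 (.cons 219 (.leaf 220 1755 (.cons 223 (.leaf 224 1761 (.cons 243 (.leaf 218 1747 (.leaf 222 1753 .nil)) .nil)) .nil)) .nil)) .nil)) .nil)) (.cons 269 (.leaf 270 1962 (.cons 245 (.leaf 268 1954 (.cons 220 (.leaf 221 1763 (.cons 244 (.leaf 271 1952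 (.leaf 219 1755 .nil)) .nil)) .nil)) .nil)) (.cons 270 (.leaf 269 1962 (.cons 222 (.leaf 221 1771 (.cons 198 (.cons 173 (.leaf 197 1391 (.cons 149 (.leaf 174 1199 (.cons 199 (.leaf 175 1397 (.cons 294 (.leaf 223 1589 (.cons 317 (.leaf 293 1774 (.cons 318 (.leaf 341 1966 (.cons 319 (.leaf 295 1780 (.leaf 343 1972 .nil)) .nil)) .nil)) .nil)) .nil)) .nil)) .nil)) (.cons 173 (.leaf 197 1391 (.cons 174 (.leaf 271 1396 (.leaf 149 1199 .nil)) .nil)) (.cons 173 (.leaf 197 1391 (.cons 175 (.leaf 199 1397 (.cons 295 (.leaf 271 1588 (.cons 294 (.leaf 319 1780 (.cons 318 (.leaf 223 1781 (.cons 317 (.leaf 293 1774 (.leaf 341 1966 .nil)) .nil)) .nil)) .nil)) .nil)) .nil)) (.cons 271 (.leaf 174 1396 (.leaf 295 1588 .nil)) .nil)))) .nil)) .nil)) .nil))))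
noncomputable def t9 : T := .cons 202 (.cons 178 (.leaf 251 1428 (.cons 179 (.leaf 155 1237 (.cons 274 (.leaf 299 1620 (.leaf 203 1429 .nil)) .nil)) .nil)) (.cons 274 (.leaf 299 1620 (.cons 177 (.leaf 201 1423 (.cons 178 (.leaf 153 1231 (.cons 179 (.leaf 155 1237 (.leaf 203 1429 .nil)) .nil)) .nil)) .nil)) (.cons 274 (.leaf 299 1620 (.cons 179 (.leaf 203 1429 (.cons 201 (.leaf 177 1423 (.cons 225 (.leaf 227 1786 (.leaf 298 1615 .nil)) .nil)) .nil)) .nil)) (.cons 178 (.leaf 251 1428 (.cons 153 (.leaf 177 1231 (.cons 154 (.leaf 129 1039 (.cons 155 (.leaf 179 1237 (.leaf 131 1045 .nil)) .nil)) .nil)) .nil)) (.cons 225 (.leaf 227 1786 (.cons 223 (.leaf 246 1778 (.leaf 203 1593 .nil)) .nil)) .nil))))) (.cons 202 (.cons 178 (.leaf 251 1428 (.cons 179 (.leaf 155 1237 (.cons 274 (.leaf 299 1620 (.leaf 203 1429 .nil)) .nil)) .nil)) (.cons 274 (.leaf 299 1620 (.cons 177 (.leaf 201 1423 (.cons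 203 (.leaf 179 1429 (.cons 298 (.leaf 227 1621 (.cons 321 (.leaf 297 1806 (.cons 322 (.leaf 345 1998 (.cons 346 (.leaf 251 2005 (.cons 347 (.leaf 323 2004 (.leaf 371 2196 .nil)) .nil)) .nil)) .nil)) .nil)) .nil)) .nil)) .nil)) (.cons 274 (.leaf 299 1620 (.cons 177 (.leaf 201 1423 (.cons 178 (.leaf 153 1231 (.cons 179 (.leaf 155 1237 (.leaf 203 1429 .nil)) .nil)) .nil)) .nil)) (.cons 178 (.leaf 251 1428 (.cons 153 (.leaf 177 1231 (.cons 154 (.leaf 129 1039 (.cons 155 (.leaf 179 1237 (.leaf 131 1045 .nil)) .nil)) .nil)) .nil)) (.cons 251 (.leaf 178 1428 (.cons 299 (.leaf 227 1623 (.leaf 274 1620 .nil)) .nil)) .nil))))) (.cons 202 (.cons 274 (.leaf 299 1620 (.cons 179 (.leaf 203 1429 (.cons 201 (.leaf 177 1423 (.cons 225 (.leaf 298 1615 (.cons 223 (.leaf 246 1778 (.leaf 251 1784 .nil)) .nil)) .nil)) .nil)) .nil)) (.cons 178 (.leaf 251 1428 (.cons 153 (.leaf 177 1231 (.cons 154 (.leaf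 129 1039 (.cons 155 (.leaf 179 1237 (.leaf 131 1045 .nil)) .nil)) .nil)) .nil)) (.cons 274 (.leaf 299 1620 (.cons 177 (.leaf 201 1423 (.cons 178 (.leaf 153 1231 (.cons 179 (.leaf 155 1237 (.leaf 203 1429 .nil)) .nil)) .nil)) .nil)) (.cons 251 (.leaf 178 1428 (.cons 299 (.leaf 274 1620 (.leaf 323 1815 .nil)) .nil)) .nil)))) (.cons 225 (.leaf 227 1786 (.cons 201 (.cons 153 (.leaf 177 1228 (.cons 274 (.leaf 298 1615 (.cons 202 (.leaf 299 1620 (.cons 203 (.leaf 204 1602 (.leaf 223 1593 .nil)) .nil)) .nil)) .nil)) (.cons 274 (.leaf 298 1615 (.cons 202 (.leaf 299 1620 (.cons 203 (.leaf 204 1602 (.leaf 223 1593 .nil)) .nil)) .nil)) (.cons 177 (.leaf 200 1413 (.leaf 153 1228 .nil)) .nil))) .nil)) (.cons 225 (.leaf 227 1786 (.cons 223 (.leaf 246 1778 (.leaf 251 1784 .nil)) .nil)) .nil))))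
noncomputable def t10 : T := .cons 225 (.leaf 227 1786 (.cons 246 (.leaf 245 1769 (.leaf 249 1777 .nil)) .nil)) (.cons 202 (.cons 199 (.leaf 227 1592 (.cons 223 (.leaf 203 1594 (.cons 174 (.leaf 198 1399 (.cons 270 (.leaf 294 1590 (.cons 249 (.leaf 269 1961 (.leaf 250 1970 .nil)) .nil)) .nil)) .nil)) .nil)) (.cons 203 (.leaf 223 1594 (.cons 179 (.leaf 180 1409 (.cons 131 (.leaf 155 1046 (.cons 178 (.leaf 199 1401 (.cons 250 (.leaf 251 1428 (.leaf 274 1429 .nil)) .nil)) .nil)) .nil)) .nil)) (.cons 227 (.leaf 199 1592 (.cons 228 (.leaf 229 1611 (.cons 250 (.leaf 249 1785 (.cons 251 (.leaf 178 1428 (.leaf 299 1623 .nil)) .nil)) .nil)) .nil)) (.cons 203 (.leaf 223 1594 (.cons 179 (.leaf 180 1409 (.cons 131 (.leaf 155 1046 (.cons 227 (.leaf 199 1592 (.leaf 228 1600 .nil)) .nil)) .nil)) .nil)) (.cons 203 (.leaf 223 1594 (.cons 179 (.leaf 180 1409 (.cons 131 (.leaf 155 1046 (.cons 227 (.leaf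 228 1600 (.cons 251 (.leaf 178 1431 (.leaf 299 1623 .nil)) .nil)) .nil)) .nil)) .nil)) .nil))))) (.cons 249 (.cons 225 (.leaf 246 1777 (.cons 199 (.leaf 198 1584 (.cons 270 (.leaf 269 1961 (.leaf 250 1970 .nil)) .nil)) .nil)) (.cons 225 (.leaf 246 1777 (.cons 199 (.leaf 198 1584 (.cons 270 (.leaf 269 1961 (.cons 223 (.leaf 294 1590 (.cons 202 (.leaf 203 1593 (.cons 178 (.leaf 179 1401 (.leaf 154 1230 .nil)) .nil)) .nil)) .nil)) .nil)) .nil)) (.cons 250 (.leaf 274 1976 (.leaf 251 1978 .nil)) .nil))) (.cons 225 (.leaf 227 1786 (.cons 246 (.leaf 245 1769 (.leaf 223 1778 .nil)) .nil)) .nil)))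
noncomputable def t11 : T := .cons 200 (.cons 271 (.leaf 295 1598 (.leaf 176 1406 .nil)) (.cons 177 (.leaf 201 1413 (.cons 176 (.leaf 153 1221 (.cons 225 (.cons 152 (.leaf 223 1214 (.leaf 249 1220 .nil)) (.cons 226 (.leaf 227 1786 (.cons 246 (.leaf 245 1769 (.leaf 249 1777 .nil)) .nil)) (.cons 226 (.leaf 227 1786 (.cons 246 (.leaf 245 1769 (.leaf 223 1778 .nil)) .nil)) .nil))) .nil)) .nil)) (.cons 271 (.leaf 295 1598 (.cons 201 (.leaf 177 1413 (.cons 226 t10 .nil)) .nil)) .nil))) (.cons 250 (.cons 271 (.cons 249 (.leaf 274 1976 (.leaf 251 1978 .nil)) (.cons 200 (.leaf 295 1598 (.leaf 176 1406 .nil)) .nil)) (.cons 226 t9 (.cons 271 (.cons 249 (.leaf 251 1978 (.leaf 270 1970 .nil)) (.cons 200 (.leaf 295 1598 (.leaf 176 1406 .nil)) .nil)) (.cons 249 (.leaf 274 1976 (.cons 226 (.leaf 227 1785 (.cons 246 (.leaf 225 1777 (.cons 270 (.leaf 269 1962 (.leaf 271 1970 .nil)) .nil)) .nil)) .nil))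 .nil)))) (.cons 200 (.cons 175 (.leaf 199 1407 (.cons 176 (.leaf 151 1215 (.leaf 271 1406 .nil)) .nil)) (.cons 175 (.leaf 199 1407 (.cons 176 (.leaf 151 1215 (.cons 152 (.leaf 223 1214 (.cons 129 (.leaf 153 1029 (.cons 128 (.leaf 105 837 (.cons 225 (.leaf 249 1220 (.leaf 201 1028 .nil)) .nil)) .nil)) .nil)) .nil)) .nil)) (.cons 271 (.leaf 295 1598 (.cons 199 (.leaf 175 1407 (.cons 201 (.leaf 177 1413 (.cons 198 (.cons 174 (.leaf 223 1399 (.leaf 173 1387 .nil)) (.cons 225 (.leaf 197 1576 (.leaf 226 1584 .nil)) .nil)) .nil)) .nil)) .nil)) (.cons 271 (.leaf 295 1598 (.leaf 176 1406 .nil)) .nil)))) (.cons 200 (.cons 271 (.leaf 295 1598 (.leaf 176 1406 .nil)) (.cons 175 (.leaf 199 1407 (.cons 176 (.leaf 151 1215 (.cons 152 (.leaf 223 1214 (.cons 129 (.leaf 153 1029 (.cons 128 (.leaf 105 837 (.cons 225 (.leaf 249 1220 (.leaf 201 1028 .nil)) .nil)) .nil)) .nil)) .nil)) .nil)) (.cons 271 (.leaf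 295 1598 (.cons 199 (.leaf 175 1407 (.cons 201 (.leaf 177 1413 (.cons 249 (.cons 250 (.leaf 274 1976 (.leaf 251 1978 .nil)) (.cons 270 (.leaf 269 1961 (.cons 223 (.leaf 294 1590 (.cons 198 (.leaf 174 1399 (.cons 197 (.leaf 196 1568 (.leaf 225 1576 .nil)) .nil)) .nil)) .nil)) .nil)) .nil)) .nil)) .nil)) .nil))) (.cons 200 (.cons 271 (.leaf 295 1598 (.leaf 176 1406 .nil)) (.cons 175 (.leaf 199 1407 (.cons 176 (.leaf 151 1215 (.cons 152 (.leaf 223 1214 (.cons 129 (.leaf 153 1029 (.cons 128 (.leaf 105 837 (.cons 225 (.leaf 249 1220 (.leaf 201 1028 .nil)) .nil)) .nil)) .nil)) .nil)) .nil)) (.cons 271 (.leaf 295 1598 (.cons 199 (.leaf 175 1407 (.cons 225 (.cons 226 (.leaf 227 1786 (.cons 246 (.leaf 245 1769 (.leaf 249 1777 .nil)) .nil)) (.cons 198 (.leaf 197 1576 (.cons 223 (.leaf 174 1399 (.cons 245 (.leaf 246 1769 (.cons 270 (.leaf 294 1590 (.cons 269 (.leaf 244 1955 (.leaf 249 1961 .nil))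 .nil)) .nil)) .nil)) .nil)) (.cons 226 (.leaf 227 1786 (.cons 198 (.leaf 197 1576 (.leaf 223 1587 .nil)) .nil)) .nil))) .nil)) .nil)) .nil))) (.cons 200 (.cons 271 (.leaf 295 1598 (.leaf 176 1406 .nil)) (.cons 175 (.leaf 199 1407 (.cons 176 (.leaf 151 1215 (.cons 152 (.leaf 223 1214 (.cons 153 (.leaf 177 1221 (.leaf 129 1029 .nil)) .nil)) .nil)) .nil)) (.cons 271 (.leaf 295 1598 (.cons 199 (.leaf 175 1407 (.cons 225 (.cons 226 (.leaf 227 1786 (.cons 246 (.leaf 245 1769 (.leaf 249 1777 .nil)) .nil)) (.cons 198 (.leaf 197 1576 (.cons 223 (.leaf 174 1399 (.cons 245 (.leaf 246 1769 (.cons 270 (.leaf 294 1590 (.cons 269 (.leaf 244 1955 (.leaf 249 1961 .nil)) .nil)) .nil)) .nil)) .nil)) (.cons 226 (.leaf 227 1786 (.cons 198 (.leaf 197 1576 (.leaf 223 1587 .nil)) .nil)) .nil))) .nil)) .nil)) .nil))) (.cons 200 (.cons 271 (.leaf 295 1598 (.leaf 176 1406 .nil)) (.cons 175 (.leaf 199 1407 (.cons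 176 (.leaf 151 1215 (.cons 152 (.leaf 223 1214 (.cons 201 (.leaf 177 1413 (.cons 225 (.leaf 249 1220 (.leaf 128 1028 .nil)) .nil)) .nil)) .nil)) .nil)) (.cons 271 (.leaf 295 1598 (.cons 199 (.leaf 175 1407 (.cons 225 (.cons 226 (.leaf 227 1786 (.cons 246 (.leaf 245 1769 (.leaf 249 1777 .nil)) .nil)) (.cons 198 (.leaf 197 1576 (.cons 223 (.leaf 174 1399 (.cons 245 (.leaf 246 1769 (.cons 270 (.leaf 294 1590 (.cons 269 (.leaf 244 1955 (.leaf 249 1961 .nil)) .nil)) .nil)) .nil)) .nil)) (.cons 226 (.leaf 227 1786 (.cons 198 (.leaf 197 1576 (.leaf 223 1587 .nil)) .nil)) .nil))) .nil)) .nil)) .nil))) .nil))))))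
noncomputable def t12 : T := .cons 175 (.leaf 199 1407 (.cons 176 (.leaf 151 1215 (.cons 152 (.leaf 223 1214 (.cons 129 (.leaf 153 1029 (.cons 128 (.leaf 105 837 (.cons 225 (.leaf 249 1220 (.leaf 201 1028 .nil)) .nil)) .nil)) .nil)) .nil)) .nil)) (.cons 177 (.leaf 201 1413 (.cons 176 (.leaf 153 1221 (.cons 225 (.cons 152 (.leaf 223 1214 (.leaf 249 1220 .nil)) (.cons 226 (.leaf 227 1786 (.cons 246 (.leaf 245 1769 (.leaf 249 1777 .nil)) .nil)) (.cons 226 (.leaf 227 1786 (.cons 246 (.leaf 245 1769 (.leaf 223 1778 .nil)) .nil)) .nil))) .nil)) .nil)) (.cons 175 (.leaf 199 1407 (.cons 176 (.leaf 151 1215 (.cons 152 (.leaf 223 1214 (.cons 153 (.leaf 177 1221 (.leaf 129 1029 .nil)) .nil)) .nil)) .nil)) (.cons 199 (.leaf 175 1407 (.cons 201 (.leaf 177 1413 (.cons 226 (.cons 225 (.leaf 227 1786 (.leaf 198 1584 .nil)) (.cons 202 (.leaf 227 1592 (.cons 179 (.leaf 178 1401 (.cons 203 (.leaf 223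 1594 (.leaf 180 1409 .nil)) .nil)) .nil)) (.cons 198 (.leaf 225 1584 (.cons 173 (.leaf 174 1387 (.cons 197 (.leaf 172 1379 (.cons 196 (.leaf 223 1568 (.cons 220 (.leaf 221 1570 (.leaf 219 1562 .nil)) .nil)) .nil)) .nil)) .nil)) .nil))) .nil)) .nil)) (.cons 177 (.leaf 201 1413 (.cons 175 (.leaf 199 1407 (.cons 176 (.leaf 151 1215 (.leaf 153 1221 .nil)) .nil)) .nil)) .nil))))
noncomputable def t13 : T := .cons 225 (.leaf 227 1786 (.cons 223 (.leaf 246 1778 (.leaf 251 1784 .nil)) .nil)) (.cons 202 (.cons 274 (.leaf 299 1620 (.cons 177 (.leaf 201 1423 (.cons 178 (.leaf 251 1428 (.leaf 153 1231 .nil)) .nil)) .nil)) (.cons 274 (.leaf 299 1620 (.cons 177 (.leaf 201 1423 (.cons 203 (.leaf 179 1429 (.cons 298 (.leaf 227 1621 (.cons 321 (.leaf 297 1806 (.cons 322 (.leaf 345 1998 (.cons 346 (.leaf 251 2005 (.cons 347 (.leaf 323 2004 (.leaf 371 2196 .nil)) .nil)) .nil)) .nil)) .nil)) .nil)) .nil))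 .nil)) (.cons 274 (.leaf 299 1620 (.cons 177 (.leaf 201 1423 (.cons 178 (.leaf 153 1231 (.cons 179 (.leaf 155 1237 (.leaf 203 1429 .nil)) .nil)) .nil)) .nil)) (.cons 178 (.leaf 251 1428 (.cons 153 (.leaf 177 1231 (.cons 154 (.leaf 129 1039 (.cons 155 (.leaf 179 1237 (.leaf 131 1045 .nil)) .nil)) .nil)) .nil)) (.cons 251 (.leaf 178 1428 (.cons 299 (.leaf 227 1623 (.leaf 274 1620 .nil)) .nil)) .nil))))) (.cons 202 (.cons 251 (.leaf 178 1428 (.cons 299 (.leaf 274 1620 (.leaf 323 1815 .nil)) .nil)) (.cons 178 (.leaf 251 1428 (.cons 153 (.leaf 177 1231 (.cons 154 (.leaf 129 1039 (.cons 155 (.leaf 179 1237 (.leaf 131 1045 .nil)) .nil)) .nil)) .nil)) (.cons 274 (.leaf 299 1620 (.cons 179 (.leaf 203 1429 (.cons 201 (.leaf 177 1423 (.cons 225 (.leaf 298 1615 (.cons 223 (.leaf 246 1778 (.leaf 251 1784 .nil)) .nil)) .nil)) .nil)) .nil)) (.cons 274 (.leaf 299 1620 (.cons 177 (.leaf 201 1423 (.cons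 178 (.leaf 153 1231 (.cons 179 (.leaf 155 1237 (.leaf 203 1429 .nil)) .nil)) .nil)) .nil)) .nil)))) (.cons 225 (.leaf 227 1786 (.cons 246 (.leaf 245 1769 (.leaf 223 1778 .nil)) .nil)) .nil)))
noncomputable def t14 : T := .cons 200 (.cons 175 (.leaf 199 1407 (.cons 176 (.leaf 151 1215 (.leaf 271 1406 .nil)) .nil)) (.cons 175 (.leaf 199 1407 (.cons 176 (.leaf 151 1215 (.cons 152 (.leaf 223 1214 (.cons 129 (.leaf 153 1029 (.cons 128 (.leaf 105 837 (.cons 225 (.leaf 249 1220 (.leaf 201 1028 .nil)) .nil)) .nil)) .nil)) .nil)) .nil)) (.cons 271 (.leaf 295 1598 (.cons 199 (.leaf 175 1407 (.cons 201 (.leaf 177 1413 (.cons 249 (.cons 250 (.leaf 274 1976 (.leaf 251 1978 .nil)) (.cons 270 (.leaf 269 1961 (.cons 223 (.leaf 294 1590 (.cons 174 (.leaf 198 1399 (.cons 202 (.leaf 203 1594 (.cons 226 (.leaf 227 1592 (.cons 225 (.leaf 246 1777 (.cons 178 (.leaf 179 1401 (.leaf 154 1230 .nil)) .nil))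 .nil)) .nil)) .nil)) .nil)) .nil)) .nil)) .nil)) .nil)) .nil)) (.cons 271 (.leaf 295 1598 (.leaf 176 1406 .nil)) .nil)))) (.cons 250 (.cons 249 (.leaf 274 1976 (.cons 251 (.leaf 271 1978 (.leaf 223 1787 .nil)) .nil)) (.cons 226 t13 (.cons 249 (.cons 251 (.leaf 271 1978 (.leaf 223 1787 .nil)) (.cons 226 (.leaf 227 1785 (.cons 246 (.leaf 225 1777 (.cons 270 (.leaf 269 1962 (.leaf 271 1970 .nil)) .nil)) .nil)) (.cons 223 (.leaf 251 1787 (.cons 175 (.leaf 199 1404 (.cons 226 (.leaf 227 1785 (.cons 225 (.leaf 246 1777 (.cons 177 (.leaf 201 1414 (.cons 202 (.leaf 203 1593 (.cons 178 (.leaf 153 1231 (.leaf 154 1230 .nil)) .nil)) .nil)) .nil)) .nil)) .nil)) .nil)) .nil))) (.cons 249 (.leaf 274 1976 (.cons 226 (.leaf 227 1785 (.cons 246 (.leaf 225 1777 (.cons 270 (.leaf 269 1962 (.leaf 271 1970 .nil)) .nil)) .nil)) .nil)) .nil)))) (.cons 200 t12 (.cons 200 (.cons 177 (.leaf 201 1413 (.cons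 175 (.leaf 199 1407 (.cons 176 (.leaf 151 1215 (.leaf 153 1221 .nil)) .nil)) .nil)) (.cons 271 (.leaf 295 1598 (.cons 199 (.leaf 175 1407 (.cons 201 (.leaf 177 1413 (.cons 270 (.cons 223 (.leaf 294 1590 (.cons 174 (.leaf 198 1399 (.cons 202 (.leaf 203 1594 (.cons 178 (.leaf 179 1401 (.cons 226 (.leaf 227 1592 (.cons 250 (.leaf 251 1428 (.leaf 249 1970 .nil)) .nil)) .nil)) .nil)) .nil)) .nil)) (.cons 223 (.leaf 294 1590 (.cons 198 (.leaf 174 1399 (.cons 197 (.leaf 196 1568 (.cons 173 (.leaf 172 1379 (.cons 202 (.leaf 203 1594 (.cons 178 (.leaf 179 1401 (.cons 221 (.leaf 220 1570 (.cons 245 (.leaf 246 1388 (.cons 244 (.leaf 269 1955 (.leaf 268 1382 .nil)) .nil)) .nil)) .nil)) .nil)) .nil)) .nil)) .nil)) .nil)) (.cons 249 (.leaf 269 1961 (.leaf 250 1970 .nil)) .nil))) .nil)) .nil)) .nil)) (.cons 271 (.leaf 295 1598 (.leaf 176 1406 .nil)) .nil))) (.cons 200 (.cons 271 (.leaf 295 1598 (.leaf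 176 1406 .nil)) (.cons 177 (.leaf 201 1413 (.cons 175 (.leaf 199 1407 (.cons 176 (.leaf 151 1215 (.leaf 153 1221 .nil)) .nil)) .nil)) (.cons 271 (.leaf 295 1598 (.cons 201 (.leaf 177 1413 (.cons 199 (.leaf 175 1407 (.cons 226 (.cons 225 (.leaf 227 1786 (.leaf 198 1584 .nil)) (.cons 202 (.leaf 227 1592 (.cons 178 (.leaf 179 1401 (.cons 250 (.leaf 251 1428 (.cons 249 (.leaf 274 1976 (.leaf 270 1970 .nil)) .nil)) .nil)) .nil)) (.cons 225 (.leaf 198 1584 (.cons 246 (.leaf 245 1769 (.leaf 249 1777 .nil)) .nil)) .nil))) .nil)) .nil)) .nil)) .nil))) (.cons 200 (.cons 271 (.leaf 295 1598 (.leaf 176 1406 .nil)) (.cons 177 (.leaf 201 1413 (.cons 175 (.leaf 199 1407 (.cons 176 (.leaf 151 1215 (.leaf 153 1221 .nil)) .nil)) .nil)) (.cons 271 (.leaf 295 1598 (.cons 199 (.leaf 175 1407 (.cons 201 (.leaf 177 1413 (.cons 225 (.cons 226 (.leaf 227 1786 (.leaf 198 1584 .nil)) (.cons 198 (.leaf 197 1576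 (.cons 174 (.leaf 223 1399 (.leaf 173 1387 .nil)) .nil)) (.cons 226 (.leaf 227 1786 (.cons 246 (.leaf 245 1769 (.leaf 223 1778 .nil)) .nil)) .nil))) .nil)) .nil)) .nil)) .nil))) t11)))))
noncomputable def t15 : T := .cons 225 (.leaf 226 1777 (.cons 201 (.leaf 177 1414 (.cons 245 (.leaf 224 1769 (.cons 222 (.leaf 221 1771 (.cons 244 (.leaf 271 1952 (.cons 219 (.leaf 220 1755 (.cons 243 (.leaf 218 1747 (.leaf 223 1753 .nil)) .nil)) .nil)) .nil)) .nil)) .nil)) .nil)) (.cons 245 (.cons 220 (.leaf 221 1763 (.cons 244 (.leaf 271 1952 (.leaf 219 1755 .nil)) .nil)) (.cons 244 (.leaf 271 1952 (.cons 219 (.leaf 220 1755 (.cons 223 (.leaf 224 1761 (.cons 243 (.leaf 218 1747 (.leaf 222 1753 .nil)) .nil)) .nil)) .nil)) (.cons 221 (.leaf 220 1763 (.leaf 222 1771 .nil)) (.cons 222 (.leaf 221 1771 (.cons 244 (.leaf 271 1952 (.cons 223 (.leaf 224 1761 (.leaf 243 1753 .nil)) .nil)) .nil)) .nil)))) (.cons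 225 (.leaf 226 1777 (.cons 177 (.leaf 201 1414 (.cons 245 (.leaf 224 1769 (.cons 244 (.leaf 271 1952 (.cons 219 (.leaf 220 1755 (.cons 243 (.leaf 218 1747 (.cons 267 (.leaf 268 1946 (.leaf 266 1938 .nil)) .nil)) .nil)) .nil)) .nil)) .nil)) .nil)) (.cons 225 (.leaf 226 1777 (.cons 222 (.leaf 221 1771 (.cons 201 (.leaf 177 1414 (.cons 223 (.cons 199 (.leaf 175 1404 (.cons 202 (.leaf 224 1585 (.leaf 200 1586 .nil)) .nil)) (.cons 224 (.leaf 202 1585 (.cons 198 (.leaf 197 1579 (.cons 174 (.leaf 150 1204 (.leaf 271 1396 .nil)) .nil)) .nil)) (.cons 199 (.leaf 175 1404 (.cons 200 (.leaf 202 1586 (.cons 270 (.leaf 294 1589 (.cons 271 (.leaf 176 1405 (.cons 198 (.leaf 174 1396 (.leaf 295 1588 .nil)) .nil)) .nil)) .nil)) .nil)) (.cons 199 (.leaf 175 1404 (.cons 198 (.cons 174 (.leaf 150 1204 (.leaf 271 1396 .nil)) (.cons 197 (.leaf 224 1579 (.cons 196 (.leaf 195 1560 (.cons 172 (.leaf 171 1371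 (.cons 173 (.leaf 270 1391 (.leaf 200 1379 .nil)) .nil)) .nil)) .nil)) .nil)) .nil)) .nil)))) .nil)) .nil)) .nil)) (.cons 225 (.leaf 226 1777 (.cons 201 (.leaf 177 1414 (.cons 245 (.cons 222 (.leaf 221 1771 (.cons 244 (.leaf 271 1952 (.cons 219 (.leaf 220 1755 (.cons 243 (.leaf 218 1747 (.leaf 223 1753 .nil)) .nil)) .nil)) .nil)) (.cons 244 (.leaf 271 1952 (.cons 219 (.leaf 220 1755 (.cons 243 (.leaf 218 1747 (.cons 267 (.leaf 268 1946 (.leaf 266 1938 .nil)) .nil)) .nil)) .nil)) (.cons 221 (.leaf 220 1763 (.leaf 222 1771 .nil)) (.cons 244 (.leaf 271 1952 (.cons 222 (.leaf 221 1771 (.cons 243 (.leaf 223 1753 (.cons 267 (.leaf 268 1946 (.leaf 266 1938 .nil)) .nil)) .nil)) .nil)) .nil)))) .nil)) .nil)) (.cons 225 (.leaf 226 1777 (.cons 177 (.leaf 201 1414 (.cons 221 (.leaf 222 1771 (.cons 245 (.leaf 220 1763 (.leaf 224 1769 .nil)) .nil)) .nil)) .nil)) .nil)))))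
noncomputable def t16 : T := .cons 221 (.leaf 222 1771 (.cons 225 (.leaf 226 1777 (.cons 245 (.leaf 220 1763 (.leaf 224 1769 .nil)) .nil)) .nil)) (.cons 221 (.leaf 222 1771 (.cons 245 (.leaf 220 1763 (.cons 244 (.leaf 271 1952 (.cons 268 (.leaf 269 1954 (.leaf 267 1946 .nil)) .nil)) .nil)) .nil)) (.cons 225 (.leaf 226 1777 (.cons 177 (.leaf 201 1414 (.cons 245 (.leaf 224 1769 (.cons 244 (.leaf 271 1952 (.cons 219 (.leaf 220 1755 (.cons 268 (.leaf 269 1954 (.leaf 267 1946 .nil)) .nil)) .nil)) .nil)) .nil)) .nil)) (.cons 225 (.leaf 226 1777 (.cons 222 (.leaf 221 1771 (.cons 201 (.leaf 177 1414 (.cons 223 (.cons 224 (.leaf 202 1585 (.cons 175 (.leaf 199 1404 (.cons 198 (.leaf 197 1579 (.cons 174 (.leaf 150 1204 (.leaf 271 1396 .nil)) .nil)) .nil)) .nil)) (.cons 224 (.leaf 202 1585 (.cons 198 (.leaf 197 1579 (.cons 174 (.leaf 150 1204 (.leaf 271 1396 .nil)) .nil)) .nil)) (.cons 199 (.leaf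 175 1404 (.cons 200 (.leaf 202 1586 (.cons 271 (.leaf 176 1405 (.cons 198 (.leaf 174 1396 (.leaf 295 1591 .nil)) .nil)) .nil)) .nil)) (.cons 199 (.leaf 175 1404 (.cons 198 (.cons 174 (.leaf 150 1204 (.leaf 271 1396 .nil)) (.cons 197 (.leaf 224 1579 (.cons 196 (.leaf 195 1560 (.cons 172 (.leaf 171 1371 (.cons 173 (.leaf 200 1379 (.cons 149 (.leaf 125 1004 (.cons 220 (.leaf 219 1562 (.leaf 244 1189 .nil)) .nil)) .nil)) .nil)) .nil)) .nil)) .nil)) .nil)) (.cons 199 (.leaf 175 1404 (.cons 202 (.leaf 224 1585 (.leaf 200 1586 .nil)) .nil)) .nil))))) .nil)) .nil)) .nil)) (.cons 225 (.leaf 226 1777 (.cons 177 (.leaf 201 1414 (.cons 221 (.leaf 222 1771 (.cons 245 (.leaf 224 1769 (.cons 244 (.leaf 271 1952 (.cons 268 (.leaf 269 1954 (.leaf 267 1946 .nil)) .nil)) .nil)) .nil)) .nil)) .nil)) .nil))))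
noncomputable def t17 : T := .cons 270 (.leaf 269 1962 (.cons 222 (.leaf 221 1771 (.cons 225 (.leaf 226 1777 (.cons 201 (.leaf 177 1414 (.cons 294 (.cons 223 (.leaf 250 1779 (.leaf 318 1781 .nil)) (.cons 271 (.leaf 250 1970 (.cons 295 (.leaf 319 1780 (.leaf 198 1588 .nil)) .nil)) (.cons 223 (.leaf 318 1781 (.leaf 199 1589 .nil)) .nil))) .nil)) .nil)) .nil)) .nil)) (.cons 270 (.leaf 269 1962 (.cons 222 (.leaf 221 1771 (.cons 225 (.leaf 226 1777 (.cons 201 (.leaf 177 1414 (.cons 294 (.cons 223 (.leaf 318 1781 (.leaf 199 1589 .nil)) (.cons 295 (.leaf 319 1780 (.cons 224 (.leaf 245 1769 (.cons 271 (.leaf 200 1598 (.leaf 198 1588 .nil)) .nil)) .nil)) .nil)) .nil)) .nil)) .nil)) .nil)) (.cons 225 (.leaf 226 1777 (.cons 177 (.leaf 201 1414 (.cons 221 (.leaf 222 1771 (.cons 250 (.leaf 274 1976 (.cons 251 (.leaf 271 1978 (.cons 224 (.leaf 223 1787 (.leaf 245 1769 .nil)) .nil)) .nil)) .nil))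 .nil)) .nil)) (.cons 250 (.leaf 274 1976 (.cons 221 (.leaf 222 1771 (.cons 245 (.leaf 220 1763 (.cons 269 (.leaf 268 1954 (.leaf 270 1962 .nil)) .nil)) .nil)) .nil)) (.cons 225 (.leaf 226 1777 (.cons 177 (.leaf 201 1414 (.cons 245 (.leaf 224 1769 (.cons 250 (.leaf 274 1976 (.cons 271 (.leaf 244 1952 (.leaf 251 1978 .nil)) .nil)) .nil)) .nil)) .nil)) .nil))))
noncomputable def t18 : T := .cons 246 t17 (.cons 246 (.cons 225 (.leaf 226 1777 (.cons 177 (.leaf 201 1414 (.cons 221 (.leaf 222 1771 (.cons 245 (.leaf 220 1763 (.leaf 224 1769 .nil)) .nil)) .nil)) .nil)) (.cons 269 (.leaf 270 1962 (.cons 221 (.leaf 222 1771 (.cons 245 (.leaf 220 1763 (.leaf 268 1954 .nil)) .nil)) .nil)) (.cons 225 (.leaf 226 1777 (.cons 177 (.leaf 201 1414 (.cons 245 (.leaf 224 1769 (.cons 269 (.leaf 268 1954 (.leaf 270 1962 .nil)) .nil)) .nil)) .nil)) (.cons 270 (.leaf 269 1962 (.cons 222 (.leaf 221 1771 (.cons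 225 (.leaf 226 1777 (.cons 201 (.leaf 177 1414 (.cons 294 (.cons 223 (.leaf 318 1781 (.leaf 199 1589 .nil)) (.cons 295 (.leaf 319 1780 (.cons 271 (.leaf 198 1588 (.cons 293 (.leaf 292 2145 (.leaf 317 1774 .nil)) .nil)) .nil)) .nil)) .nil)) .nil)) .nil)) .nil)) .nil)))) (.cons 250 (.leaf 274 1976 (.cons 222 (.leaf 223 1779 (.cons 226 (.leaf 227 1785 (.cons 246 (.leaf 221 1771 (.leaf 225 1777 .nil)) .nil)) .nil)) .nil)) (.cons 250 (.leaf 274 1976 (.cons 271 (.leaf 251 1978 (.leaf 270 1970 .nil)) .nil)) .nil)))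
noncomputable def t19 : T := .cons 225 (.leaf 226 1777 (.cons 177 (.leaf 201 1414 (.cons 221 (.leaf 222 1771 (.cons 245 (.leaf 220 1763 (.leaf 224 1769 .nil)) .nil)) .nil)) .nil)) (.cons 269 (.leaf 270 1962 (.cons 221 (.leaf 222 1771 (.cons 245 (.leaf 220 1763 (.leaf 268 1954 .nil)) .nil)) .nil)) (.cons 225 (.leaf 226 1777 (.cons 177 (.leaf 201 1414 (.cons 245 (.leaf 224 1769 (.cons 269 (.leaf 268 1954 (.leaf 270 1962 .nil)) .nil)) .nil)) .nil)) (.cons 270 (.leaf 269 1962 (.cons 222 (.leaf 221 1771 (.cons 225 (.leaf 226 1777 (.cons 201 (.leaf 177 1414 (.cons 198 (.cons 173 (.leaf 197 1391 (.cons 174 (.leaf 271 1396 (.leaf 149 1199 .nil)) .nil)) (.cons 173 (.leaf 197 1391 (.cons 174 (.leaf 149 1199 (.cons 150 (.leaf 223 1204 (.cons 151 (.leaf 175 1205 (.leaf 127 1013 .nil)) .nil)) .nil)) .nil)) (.cons 173 (.leaf 197 1391 (.cons 295 (.leaf 271 1588 (.cons 294 (.leaf 319 1780 (.cons 317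 (.leaf 293 1774 (.cons 318 (.leaf 223 1781 (.leaf 341 1966 .nil)) .nil)) .nil)) .nil)) .nil)) (.cons 271 (.leaf 174 1396 (.leaf 295 1588 .nil)) .nil)))) .nil)) .nil)) .nil)) .nil)) .nil)))
noncomputable def t20 : T := .leaf 226 1777 (.cons 271 (.leaf 244 1952 (.cons 201 (.leaf 177 1414 (.cons 295 (.cons 319 (.leaf 343 1981 (.leaf 222 1783 .nil)) (.cons 293 (.cons 222 (.leaf 317 1773 (.cons 294 (.leaf 292 2145 (.cons 223 (.leaf 198 1591 (.leaf 318 1782 .nil)) .nil)) .nil)) (.cons 294 (.leaf 292 2145 (.cons 318 (.leaf 223 1782 (.cons 342 (.leaf 317 1964 (.leaf 366 2165 .nil)) .nil)) .nil)) (.cons 294 (.leaf 292 2145 (.cons 223 (.leaf 318 1782 (.cons 198 (.leaf 222 1591 (.cons 199 (.leaf 175 1404 (.leaf 174 1399 .nil)) .nil)) .nil)) .nil)) (.cons 222 (.leaf 317 1773 (.cons 198 (.leaf 174 1396 (.leaf 223 1591 .nil)) .nil)) (.cons 317 (.leaf 222 1773 (.cons 292 (.leaf 294 2145 (.cons 340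 (.leaf 316 1958 (.cons 341 (.leaf 364 2150 (.cons 342 (.leaf 318 1964 (.leaf 366 2156 .nil)) .nil)) .nil)) .nil)) .nil)) .nil))))) (.cons 319 (.leaf 343 1981 (.cons 318 (.leaf 342 1974 (.cons 294 (.leaf 223 1782 (.cons 293 (.leaf 292 2145 (.cons 320 (.leaf 344 1980 (.leaf 321 2347 .nil)) .nil)) .nil)) .nil)) .nil)) .nil))) .nil)) .nil)) .nil)
noncomputable def t21 : T := .cons 269 (.leaf 270 1962 (.cons 245 (.leaf 268 1954 (.cons 220 (.leaf 221 1763 (.cons 244 (.leaf 271 1952 (.leaf 219 1755 .nil)) .nil)) .nil)) .nil)) (.cons 225 (.leaf 226 1777 (.cons 201 (.leaf 177 1414 (.cons 245 (.cons 222 (.leaf 221 1771 (.cons 244 (.leaf 271 1952 (.cons 219 (.leaf 220 1755 (.cons 243 (.leaf 218 1747 (.leaf 223 1753 .nil)) .nil)) .nil)) .nil)) (.cons 244 (.leaf 271 1952 (.cons 219 (.leaf 220 1755 (.cons 243 (.leaf 218 1747 (.cons 267 (.leaf 268 1946 (.leaf 266 1938 .nil)) .nil)) .nil)) .nil))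 (.cons 221 (.leaf 220 1763 (.leaf 222 1771 .nil)) (.cons 222 (.leaf 221 1771 (.cons 244 (.leaf 271 1952 (.cons 243 (.leaf 223 1753 (.cons 267 (.leaf 268 1946 (.leaf 266 1938 .nil)) .nil)) .nil)) .nil)) .nil)))) .nil)) .nil)) (.cons 269 (.leaf 270 1962 (.cons 245 (.leaf 268 1954 (.cons 225 t20 .nil)) .nil)) (.cons 270 (.leaf 269 1962 (.cons 222 (.leaf 221 1771 (.cons 225 (.leaf 226 1777 (.cons 201 (.leaf 177 1414 (.cons 294 (.cons 317 (.leaf 293 1774 (.cons 318 (.leaf 223 1781 (.leaf 341 1966 .nil)) .nil)) (.cons 317 (.leaf 293 1774 (.cons 318 (.leaf 341 1966 (.cons 342 (.leaf 271 1973 (.cons 343 (.leaf 319 1972 (.leaf 367 2164 .nil)) .nil)) .nil)) .nil)) (.cons 295 (.leaf 319 1780 (.cons 198 (.leaf 271 1588 (.cons 173 (.leaf 197 1391 (.cons 174 (.leaf 149 1199 (.cons 175 (.leaf 151 1205 (.leaf 199 1397 .nil)) .nil)) .nil)) .nil)) .nil)) .nil))) .nil)) .nil)) .nil)) .nil)) (.cons 221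 (.leaf 222 1771 (.cons 245 (.leaf 220 1763 (.cons 269 (.leaf 268 1954 (.leaf 270 1962 .nil)) .nil)) .nil)) .nil))))
noncomputable def t22 : T := .cons 198 (.leaf 174 1399 (.cons 176 (.leaf 200 1405 (.cons 294 (.leaf 270 1590 (.cons 295 (.leaf 222 1591 (.leaf 318 1782 .nil)) .nil)) .nil)) .nil)) (.cons 198 (.leaf 174 1399 (.cons 222 (.leaf 295 1591 (.cons 221 (.leaf 220 1760 (.cons 249 (.leaf 224 1768 (.leaf 246 1771 .nil)) .nil)) .nil)) .nil)) (.cons 200 (.leaf 176 1405 (.cons 198 (.leaf 174 1399 (.cons 201 (.cons 178 (.leaf 177 1393 (.cons 202 (.leaf 222 1586 (.leaf 179 1401 .nil)) .nil)) (.cons 178 (.leaf 177 1393 (.cons 202 (.leaf 179 1401 (.cons 226 (.leaf 225 1584 (.leaf 227 1592 .nil)) .nil)) .nil)) (.cons 222 (.leaf 202 1586 (.leaf 221 1578 .nil)) (.cons 177 (.leaf 224 1413 (.leaf 178 1393 .nil)) .nil)))) .nil)) .nil)) (.cons 200 (.leaf 176 1405 (.cons 224 (.leaf 295 1597 (.cons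 201 (.leaf 177 1413 (.cons 202 (.leaf 222 1586 (.leaf 203 1594 .nil)) .nil)) .nil)) .nil)) (.cons 200 (.leaf 176 1405 (.cons 224 (.leaf 295 1597 (.cons 174 (.leaf 198 1399 (.cons 201 (.leaf 177 1413 (.cons 202 (.leaf 203 1594 (.cons 178 (.leaf 179 1401 (.cons 226 (.leaf 227 1592 (.cons 225 (.leaf 246 1778 (.cons 154 (.leaf 130 1038 (.leaf 249 1230 .nil)) .nil)) .nil)) .nil)) .nil)) .nil)) .nil)) .nil)) .nil)) .nil))))
noncomputable def t23 : T := .cons 198 (.leaf 174 1399 (.cons 222 (.leaf 295 1591 (.cons 221 (.leaf 220 1760 (.cons 249 (.leaf 224 1768 (.leaf 246 1771 .nil)) .nil)) .nil)) .nil)) (.cons 200 (.leaf 176 1405 (.cons 224 (.leaf 295 1597 (.cons 201 (.leaf 177 1413 (.cons 202 (.leaf 222 1586 (.leaf 203 1594 .nil)) .nil)) .nil)) .nil)) (.cons 200 (.leaf 176 1405 (.cons 198 (.leaf 174 1399 (.cons 201 (.cons 178 (.leaf 177 1393 (.cons 202 (.leaf 222 1586 (.leaf 179 1401 .nil))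 .nil)) (.cons 178 (.leaf 177 1393 (.cons 202 (.leaf 179 1401 (.cons 226 (.leaf 225 1584 (.leaf 227 1592 .nil)) .nil)) .nil)) (.cons 222 (.leaf 202 1586 (.leaf 221 1578 .nil)) (.cons 177 (.leaf 224 1413 (.leaf 178 1393 .nil)) .nil)))) .nil)) .nil)) (.cons 198 (.leaf 174 1399 (.cons 176 (.leaf 200 1405 (.cons 222 (.leaf 295 1591 (.cons 221 (.leaf 220 1760 (.cons 246 (.leaf 249 1771 (.cons 245 (.leaf 244 1952 (.cons 269 (.leaf 268 1954 (.leaf 293 1581 .nil)) .nil)) .nil)) .nil)) .nil)) .nil)) .nil)) (.cons 200 (.leaf 176 1405 (.cons 224 (.leaf 295 1597 (.cons 174 (.leaf 198 1399 (.cons 201 (.leaf 177 1413 (.cons 202 (.leaf 203 1594 (.cons 178 (.leaf 179 1401 (.cons 226 (.leaf 227 1592 (.cons 225 (.leaf 246 1778 (.cons 154 (.leaf 130 1038 (.leaf 249 1230 .nil)) .nil)) .nil)) .nil)) .nil)) .nil)) .nil)) .nil)) .nil)) .nil))))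
noncomputable def t24 : T := .cons 245 (.cons 224 (.leaf 225 1769 (.leaf 244 1761 .nil)) (.cons 220 (.leaf 221 1763 (.cons 244 (.leaf 219 1755 (.cons 268 (.leaf 269 1954 (.leaf 267 1946 .nil)) .nil)) .nil)) (.cons 224 (.leaf 225 1769 (.cons 221 (.leaf 220 1763 (.cons 269 (.leaf 268 1954 (.cons 197 (.cons 196 (.leaf 198 1568 (.leaf 222 1571 .nil)) (.cons 196 (.leaf 198 1568 (.leaf 172 1383 .nil)) (.cons 270 (.leaf 249 1962 (.leaf 173 1388 .nil)) .nil))) .nil)) .nil)) .nil)) .nil))) (.cons 245 (.cons 224 (.leaf 225 1769 (.leaf 244 1761 .nil)) (.cons 220 (.leaf 221 1763 (.cons 244 (.leaf 219 1755 (.cons 268 (.leaf 269 1954 (.leaf 267 1946 .nil)) .nil)) .nil)) (.cons 224 (.leaf 225 1769 (.cons 221 (.leaf 220 1763 (.cons 269 (.leaf 268 1954 (.cons 197 (.cons 196 (.leaf 198 1568 (.leaf 172 1383 .nil)) (.cons 270 (.leaf 249 1962 (.leaf 173 1388 .nil)) .nil)) .nil)) .nil)) .nil)) .nil))) (.cons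 222 (.cons 221 (.leaf 220 1760 (.leaf 249 1771 .nil)) (.cons 270 (.leaf 294 1589 (.cons 249 (.leaf 269 1962 (.cons 225 (.leaf 226 1777 (.cons 201 (.leaf 177 1414 (.cons 202 (.leaf 200 1586 (.leaf 224 1585 .nil)) .nil)) .nil)) .nil)) .nil)) (.cons 221 (.leaf 220 1760 (.cons 270 (.leaf 294 1589 (.cons 197 (.cons 173 (.leaf 149 1196 (.leaf 198 1391 .nil)) (.cons 149 (.leaf 173 1196 (.cons 224 (.leaf 196 1571 (.cons 201 (.leaf 200 1577 (.cons 225 (.leaf 226 1778 (.leaf 202 1585 .nil)) .nil)) .nil)) .nil)) (.cons 196 (.leaf 224 1571 (.cons 195 (.leaf 198 1560 (.leaf 194 1552 .nil)) .nil)) .nil))) .nil)) .nil)) .nil))) (.cons 270 (.cons 269 (.leaf 249 1962 (.cons 268 (.leaf 245 1954 (.leaf 267 1945 .nil)) .nil)) (.cons 294 (.leaf 318 1781 (.leaf 222 1589 .nil)) .nil)) (.cons 245 (.cons 221 (.leaf 220 1763 (.cons 222 (.leaf 249 1771 (.cons 224 (.leaf 225 1769 (.leaf 244 1761 .nil)) .nil))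 .nil)) (.cons 220 (.leaf 221 1763 (.cons 244 (.leaf 219 1755 (.cons 268 (.leaf 269 1954 (.leaf 267 1946 .nil)) .nil)) .nil)) (.cons 224 (.leaf 225 1769 (.leaf 244 1761 .nil)) (.cons 221 (.leaf 220 1763 (.cons 222 (.leaf 249 1771 (.cons 224 (.leaf 225 1769 (.cons 196 (.leaf 197 1571 (.cons 200 (.leaf 201 1577 (.cons 152 (.leaf 176 1214 (.cons 269 (.leaf 268 1954 (.cons 198 (.leaf 174 1390 (.leaf 293 1581 .nil)) .nil)) .nil)) .nil)) .nil)) .nil)) .nil)) .nil)) .nil)))) (.cons 245 (.cons 224 (.leaf 225 1769 (.leaf 244 1761 .nil)) (.cons 220 (.leaf 221 1763 (.cons 244 (.leaf 219 1755 (.cons 268 (.leaf 269 1954 (.leaf 267 1946 .nil)) .nil)) .nil)) (.cons 224 (.leaf 225 1769 (.cons 221 (.leaf 220 1763 (.cons 269 (.leaf 268 1954 (.cons 197 (.cons 196 (.leaf 198 1568 (.leaf 222 1571 .nil)) (.cons 270 (.leaf 173 1388 (.leaf 294 1580 .nil)) .nil)) .nil)) .nil)) .nil)) .nil))) (.cons 245 (.cons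 220 (.leaf 221 1763 (.cons 244 (.leaf 219 1755 (.leaf 224 1761 .nil)) .nil)) (.cons 220 (.leaf 221 1763 (.cons 244 (.leaf 219 1755 (.cons 243 (.leaf 222 1753 (.cons 267 (.leaf 268 1946 (.leaf 266 1938 .nil)) .nil)) .nil)) .nil)) (.cons 224 (.leaf 225 1769 (.leaf 244 1761 .nil)) (.cons 221 (.leaf 220 1763 (.cons 222 (.leaf 249 1771 (.cons 224 (.leaf 225 1769 (.cons 197 (.leaf 196 1571 (.cons 270 (.leaf 294 1589 (.leaf 173 1388 .nil)) .nil)) .nil)) .nil)) .nil)) .nil)))) .nil))))))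
noncomputable def t25 : T := .cons 221 (.leaf 220 1760 (.leaf 249 1771 .nil)) (.cons 270 (.cons 249 (.leaf 269 1962 (.cons 225 (.leaf 226 1777 (.cons 177 (.leaf 201 1414 (.cons 294 (.leaf 318 1781 (.cons 293 (.leaf 317 1774 (.cons 295 (.leaf 319 1780 (.cons 271 (.leaf 292 2145 (.leaf 198 1588 .nil)) .nil)) .nil)) .nil)) .nil)) .nil)) .nil)) (.cons 294 (.leaf 318 1781 (.cons 293 (.leaf 317 1774 (.cons 295 (.leaf 319 1780 (.cons 292 (.leaf 271 2145 (.cons 267 (.leaf 268 2139 (.cons 291 (.leaf 266 2131 (.cons 315 (.leaf 314 2322 (.leaf 316 2330 .nil)) .nil)) .nil)) .nil)) .nil)) .nil)) .nil)) (.cons 269 (.leaf 249 1962 (.cons 198 (.leaf 293 1582 (.cons 173 (.leaf 197 1391 (.cons 174 (.leaf 150 1204 (.leaf 149 1199 .nil)) .nil)) .nil)) .nil)) (.cons 249 (.leaf 269 1962 (.cons 225 (.leaf 226 1777 (.cons 177 (.leaf 201 1414 (.cons 294 (.leaf 318 1781 (.cons 295 (.leaf 319 1780 (.cons 198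 (.leaf 271 1588 (.cons 197 (.leaf 224 1579 (.leaf 173 1391 .nil)) .nil)) .nil)) .nil)) .nil)) .nil)) .nil)) .nil)))) (.cons 221 (.leaf 220 1760 (.cons 197 (.cons 196 (.leaf 224 1571 (.cons 195 (.leaf 198 1560 (.leaf 194 1552 .nil)) .nil)) (.cons 270 (.leaf 294 1583 (.cons 173 (.leaf 149 1196 (.leaf 198 1391 .nil)) .nil)) (.cons 149 (.leaf 173 1196 (.cons 224 (.leaf 196 1571 (.cons 200 (.leaf 201 1577 (.cons 271 (.leaf 295 1597 (.leaf 176 1406 .nil)) .nil)) .nil)) .nil)) .nil))) .nil)) .nil))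
noncomputable def t26 : T := .cons 245 (.cons 220 (.leaf 221 1763 (.cons 244 (.leaf 271 1952 (.leaf 219 1755 .nil)) .nil)) (.cons 224 (.leaf 225 1769 (.cons 269 (.leaf 268 1954 (.cons 221 (.leaf 220 1763 (.cons 200 (.cons 271 (.leaf 295 1597 (.leaf 176 1406 .nil)) (.cons 176 (.leaf 152 1214 (.cons 177 (.leaf 201 1413 (.leaf 153 1221 .nil)) .nil)) (.cons 271 (.leaf 295 1597 (.cons 197 (.cons 196 (.leaf 222 1571 (.leaf 172 1383 .nil)) (.cons 270 (.leaf 249 1961 (.leaf 173 1388 .nil)) .nil)) .nil)) .nil))) .nil)) .nil)) .nil)) (.cons 244 (.leaf 271 1952 (.leaf 224 1761 .nil)) (.cons 220 (.leaf 221 1763 (.cons 225 (.leaf 224 1769 (.cons 249 (.leaf 226 1777 (.cons 269 (.leaf 268 1954 (.leaf 270 1962 .nil)) .nil)) .nil)) .nil)) .nil)))) (.cons 222 t25 (.cons 245 (.cons 221 (.leaf 220 1763 (.cons 244 (.leaf 271 1952 (.cons 268 (.leaf 269 1954 (.leaf 267 1946 .nil)) .nil)) .nil)) (.cons 221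 (.leaf 220 1763 (.cons 222 (.leaf 249 1771 (.cons 269 (.leaf 268 1954 (.cons 198 (.leaf 174 1390 (.leaf 293 1581 .nil)) .nil)) .nil)) .nil)) (.cons 244 (.leaf 271 1952 (.cons 268 (.leaf 269 1954 (.leaf 267 1946 .nil)) .nil)) (.cons 220 (.leaf 221 1763 (.cons 244 (.leaf 271 1952 (.leaf 219 1755 .nil)) .nil)) .nil)))) (.cons 245 (.cons 220 (.leaf 221 1763 (.cons 244 (.leaf 271 1952 (.leaf 219 1755 .nil)) .nil)) (.cons 220 (.leaf 221 1763 (.cons 225 (.leaf 224 1769 (.cons 249 (.leaf 226 1777 (.cons 269 (.leaf 268 1954 (.leaf 270 1962 .nil)) .nil)) .nil)) .nil)) (.cons 244 (.leaf 271 1952 (.leaf 224 1761 .nil)) .nil))) (.cons 245 (.cons 225 (.leaf 224 1769 (.cons 249 (.leaf 226 1777 (.cons 269 (.leaf 268 1954 (.leaf 270 1962 .nil)) .nil)) .nil)) (.cons 244 (.leaf 271 1952 (.cons 268 (.leaf 269 1954 (.leaf 267 1946 .nil)) .nil)) (.cons 224 (.leaf 225 1769 (.leaf 244 1761 .nil)) .nil)))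 (.cons 245 (.cons 220 (.leaf 221 1763 (.cons 225 (.leaf 224 1769 (.cons 249 (.leaf 226 1777 (.cons 269 (.leaf 268 1954 (.leaf 270 1962 .nil)) .nil)) .nil)) .nil)) (.cons 220 (.leaf 221 1763 (.cons 244 (.leaf 219 1755 (.cons 268 (.leaf 269 1954 (.leaf 267 1946 .nil)) .nil)) .nil)) (.cons 224 (.leaf 225 1769 (.leaf 244 1761 .nil)) .nil))) (.cons 245 (.cons 244 (.leaf 271 1952 (.leaf 224 1761 .nil)) (.cons 224 (.leaf 225 1769 (.cons 269 (.leaf 268 1954 (.cons 221 (.leaf 220 1763 (.cons 200 (.cons 271 (.leaf 295 1597 (.leaf 176 1406 .nil)) (.cons 176 (.leaf 152 1214 (.cons 177 (.leaf 201 1413 (.leaf 153 1221 .nil)) .nil)) (.cons 271 (.leaf 295 1597 (.cons 197 (.cons 196 (.leaf 222 1571 (.leaf 172 1383 .nil)) (.cons 270 (.leaf 173 1388 (.leaf 294 1580 .nil)) .nil)) .nil)) .nil))) .nil)) .nil)) .nil)) (.cons 220 (.leaf 221 1763 (.cons 244 (.leaf 271 1952 (.leaf 219 1755 .nil)) .nil)) (.cons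 220 (.leaf 221 1763 (.cons 244 (.leaf 219 1755 (.leaf 224 1761 .nil)) .nil)) .nil)))) (.cons 245 (.cons 224 (.leaf 225 1769 (.leaf 244 1761 .nil)) (.cons 220 (.leaf 221 1763 (.cons 244 (.leaf 271 1952 (.leaf 219 1755 .nil)) .nil)) (.cons 221 (.leaf 220 1763 (.cons 222 (.leaf 249 1771 (.cons 224 (.leaf 225 1769 (.cons 196 (.leaf 197 1571 (.cons 200 (.leaf 201 1577 (.cons 271 (.leaf 295 1597 (.leaf 176 1406 .nil)) .nil)) .nil)) .nil)) .nil)) .nil)) .nil))) .nil)))))))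
noncomputable def t27 : T := .cons 199 (.leaf 175 1404 (.cons 271 (.cons 174 (.leaf 198 1399 (.cons 294 (.leaf 270 1590 (.cons 295 (.leaf 318 1782 (.cons 319 (.leaf 343 1981 (.leaf 224 1789 .nil)) .nil)) .nil)) .nil)) (.cons 200 (.leaf 176 1405 (.cons 224 (.leaf 295 1597 (.cons 201 (.leaf 177 1413 (.cons 202 (.leaf 222 1586 (.leaf 203 1594 .nil)) .nil)) .nil)) .nil)) (.cons 176 (.leaf 200 1405 (.cons 198 (.leaf 174 1399 (.cons 270 (.leaf 294 1590 (.cons 269 (.leaf 249 1961 (.leaf 268 1953 .nil)) .nil)) .nil)) .nil)) .nil))) .nil)) (.cons 246 t26 (.cons 199 (.leaf 175 1404 (.cons 271 (.cons 174 (.leaf 198 1399 (.cons 270 (.leaf 294 1590 (.cons 269 (.leaf 249 1961 (.leaf 268 1953 .nil)) .nil)) .nil)) (.cons 176 (.leaf 200 1405 (.cons 198 (.leaf 174 1399 (.cons 222 (.leaf 295 1591 (.cons 221 (.leaf 220 1760 (.cons 246 (.leaf 249 1771 (.cons 245 (.leaf 244 1952 (.cons 269 (.leaf 268 1954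 (.leaf 293 1581 .nil)) .nil)) .nil)) .nil)) .nil)) .nil)) .nil)) (.cons 176 (.leaf 200 1405 (.cons 270 (.leaf 294 1590 (.cons 269 (.leaf 249 1961 (.leaf 268 1953 .nil)) .nil)) .nil)) (.cons 198 (.leaf 174 1399 (.cons 176 (.leaf 200 1405 (.cons 294 (.leaf 270 1590 (.cons 295 (.leaf 222 1591 (.leaf 318 1782 .nil)) .nil)) .nil)) .nil)) .nil)))) .nil)) (.cons 199 (.leaf 175 1404 (.cons 246 t24 .nil)) (.cons 199 (.leaf 175 1404 (.cons 271 (.cons 176 (.leaf 200 1405 (.cons 270 (.leaf 294 1590 (.cons 269 (.leaf 249 1961 (.leaf 268 1953 .nil)) .nil)) .nil)) (.cons 174 (.leaf 198 1399 (.cons 294 (.leaf 270 1590 (.cons 295 (.leaf 318 1782 (.cons 319 (.leaf 343 1981 (.leaf 224 1789 .nil)) .nil)) .nil)) .nil)) (.cons 174 (.leaf 198 1399 (.cons 200 (.leaf 176 1405 (.cons 224 (.leaf 295 1597 (.cons 201 (.leaf 177 1413 (.cons 202 (.leaf 203 1594 (.cons 178 (.leaf 179 1401 (.cons 226 (.leaf 227 1592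 (.cons 225 (.leaf 246 1778 (.cons 154 (.leaf 130 1038 (.leaf 249 1230 .nil)) .nil)) .nil)) .nil)) .nil)) .nil)) .nil)) .nil)) .nil)) .nil))) .nil)) (.cons 199 (.leaf 175 1404 (.cons 271 (.cons 270 (.leaf 294 1590 (.cons 269 (.leaf 249 1961 (.leaf 268 1953 .nil)) .nil)) (.cons 198 (.leaf 174 1399 (.cons 222 (.leaf 295 1591 (.cons 221 (.leaf 220 1760 (.cons 249 (.leaf 224 1768 (.leaf 246 1771 .nil)) .nil)) .nil)) .nil)) (.cons 174 (.leaf 198 1399 (.cons 294 (.leaf 270 1590 (.cons 295 (.leaf 318 1782 (.cons 319 (.leaf 343 1981 (.leaf 224 1789 .nil)) .nil)) .nil)) .nil)) .nil))) .nil)) (.cons 199 (.leaf 175 1404 (.cons 271 t23 .nil)) (.cons 199 (.leaf 175 1404 (.cons 271 t22 .nil)) (.cons 199 (.leaf 175 1404 (.cons 271 (.cons 270 (.leaf 294 1590 (.cons 269 (.leaf 249 1961 (.leaf 268 1953 .nil)) .nil)) (.cons 200 (.leaf 176 1405 (.cons 224 (.leaf 295 1597 (.cons 201 (.leaf 177 1413 (.cons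 202 (.leaf 222 1586 (.leaf 203 1594 .nil)) .nil)) .nil)) .nil)) .nil)) .nil)) (.cons 199 (.leaf 175 1404 (.cons 271 (.cons 176 (.leaf 200 1405 (.cons 198 (.leaf 174 1399 (.cons 294 (.leaf 270 1590 (.cons 295 (.leaf 222 1591 (.leaf 318 1782 .nil)) .nil)) .nil)) .nil)) (.cons 174 (.leaf 198 1399 (.cons 294 (.leaf 270 1590 (.cons 295 (.leaf 318 1782 (.cons 319 (.leaf 343 1981 (.leaf 224 1789 .nil)) .nil)) .nil)) .nil)) (.cons 176 (.leaf 200 1405 (.cons 198 (.leaf 174 1399 (.cons 270 (.leaf 294 1590 (.cons 269 (.leaf 268 1953 (.cons 245 (.leaf 244 1955 (.cons 293 (.leaf 292 2146 (.cons 222 (.leaf 221 1581 (.leaf 246 1582 .nil)) .nil)) .nil)) .nil)) .nil)) .nil)) .nil)) (.cons 200 (.leaf 176 1405 (.cons 224 (.leaf 295 1597 (.cons 201 (.leaf 177 1413 (.cons 202 (.leaf 222 1586 (.leaf 203 1594 .nil)) .nil)) .nil)) .nil)) .nil)))) .nil)) .nil)))))))))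
noncomputable def t28 : T := .cons 198 (.cons 173 (.leaf 174 1387 (.cons 178 (.leaf 177 1393 (.cons 202 (.leaf 179 1401 (.cons 226 (.leaf 225 1584 (.leaf 227 1592 .nil)) .nil)) .nil)) .nil)) (.cons 173 (.leaf 174 1387 (.cons 197 (.leaf 172 1379 (.cons 221 (.leaf 220 1570 (.leaf 222 1578 .nil)) .nil)) .nil)) (.cons 177 (.leaf 225 1414 (.leaf 178 1393 .nil)) .nil))) (.cons 202 (.cons 178 (.leaf 179 1401 (.cons 226 (.leaf 227 1592 (.cons 225 (.leaf 154 1230 (.leaf 198 1584 .nil)) .nil)) .nil)) (.cons 175 (.leaf 174 1395 (.cons 179 (.leaf 178 1401 (.cons 203 (.leaf 176 1403 (.leaf 180 1409 .nil)) .nil)) .nil)) (.cons 174 (.leaf 175 1395 (.cons 198 (.leaf 173 1387 (.cons 226 (.leaf 225 1584 (.leaf 227 1592 .nil)) .nil)) .nil)) .nil))) (.cons 198 (.cons 173 (.leaf 174 1387 (.cons 178 (.leaf 177 1393 (.cons 202 (.leaf 179 1401 (.cons 172 (.leaf 197 1379 (.cons 227 (.leaf 226 1592 (.cons 203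 (.leaf 251 1431 (.leaf 228 1600 .nil)) .nil)) .nil)) .nil)) .nil)) .nil)) (.cons 177 (.leaf 178 1393 (.cons 197 (.leaf 176 1385 (.cons 221 (.leaf 220 1570 (.leaf 222 1578 .nil)) .nil)) .nil)) (.cons 174 (.leaf 173 1387 (.cons 175 (.leaf 202 1395 (.cons 221 (.leaf 222 1578 (.cons 197 (.leaf 220 1570 (.cons 196 (.leaf 176 1377 (.leaf 195 1369 .nil)) .nil)) .nil)) .nil)) .nil)) (.cons 174 (.leaf 173 1387 (.cons 177 (.leaf 178 1393 (.cons 202 (.leaf 175 1395 (.cons 221 (.leaf 222 1578 (.cons 227 (.leaf 226 1592 (.cons 203 (.leaf 228 1600 (.cons 180 (.leaf 179 1409 (.cons 204 (.leaf 251 1437 (.leaf 176 1411 .nil)) .nil)) .nil)) .nil)) .nil)) .nil)) .nil)) .nil)) .nil)))) (.cons 225 (.leaf 177 1414 (.cons 202 (.cons 174 (.leaf 175 1395 (.cons 178 (.leaf 179 1401 (.cons 154 (.leaf 226 1230 (.leaf 130 1038 .nil)) .nil)) .nil)) (.cons 175 (.leaf 174 1395 (.cons 178 (.leaf 179 1401 (.cons 130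 (.leaf 154 1038 (.cons 203 (.leaf 176 1403 (.cons 227 (.leaf 251 1431 (.leaf 228 1600 .nil)) .nil)) .nil)) .nil)) .nil)) (.cons 227 (.leaf 226 1592 (.cons 174 (.leaf 175 1395 (.cons 203 (.leaf 228 1600 (.cons 180 (.leaf 179 1409 (.cons 204 (.leaf 251 1437 (.leaf 181 1417 .nil)) .nil)) .nil)) .nil)) .nil)) (.cons 227 (.leaf 226 1592 (.cons 178 (.leaf 179 1401 (.cons 203 (.leaf 251 1431 (.leaf 228 1600 .nil)) .nil)) .nil)) (.cons 227 (.leaf 226 1592 (.cons 175 (.leaf 174 1395 (.cons 203 (.leaf 176 1403 (.leaf 228 1600 .nil)) .nil)) .nil)) .nil))))) .nil)) (.cons 177 (.leaf 225 1414 (.cons 178 (.leaf 198 1393 (.cons 179 (.leaf 176 1402 (.leaf 180 1410 .nil)) .nil)) .nil)) (.cons 225 (.leaf 177 1414 (.cons 198 (.leaf 226 1584 (.cons 173 (.leaf 174 1387 (.cons 197 (.leaf 172 1379 (.cons 221 (.leaf 220 1570 (.leaf 222 1578 .nil)) .nil)) .nil)) .nil)) .nil)) .nil)))))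
noncomputable def t29 : T := .cons 224 (.leaf 175 1407 (.cons 201 (.leaf 177 1413 (.cons 271 (.leaf 295 1598 (.leaf 176 1406 .nil)) .nil)) .nil)) (.cons 201 t28 (.cons 224 (.cons 201 (.leaf 177 1413 (.cons 271 (.leaf 295 1598 (.leaf 176 1406 .nil)) .nil)) (.cons 201 (.leaf 177 1413 (.cons 202 (.cons 179 (.leaf 178 1401 (.cons 203 (.leaf 180 1409 (.cons 225 (.leaf 204 1602 (.cons 198 (.leaf 197 1576 (.leaf 226 1584 .nil)) .nil)) .nil)) .nil)) (.cons 179 (.leaf 178 1401 (.cons 203 (.leaf 180 1409 (.cons 204 (.leaf 225 1602 (.cons 228 (.leaf 227 1600 (.leaf 229 1608 .nil)) .nil)) .nil)) .nil)) (.cons 227 (.leaf 226 1592 (.cons 178 (.leaf 179 1401 (.cons 203 (.leaf 251 1431 (.leaf 228 1600 .nil)) .nil)) .nil)) (.cons 227 (.leaf 226 1592 (.cons 203 (.leaf 228 1600 (.cons 204 (.leaf 225 1602 (.cons 180 (.leaf 251 1437 (.leaf 181 1417 .nil)) .nil)) .nil)) .nil)) (.cons 226 (.leaf 227 1592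 (.cons 198 (.leaf 225 1584 (.cons 173 (.leaf 174 1387 (.cons 197 (.leaf 172 1379 (.cons 221 (.leaf 220 1570 (.leaf 222 1578 .nil)) .nil)) .nil)) .nil)) .nil)) .nil))))) .nil)) (.cons 271 (.leaf 295 1598 (.leaf 176 1406 .nil)) .nil))) (.cons 224 (.leaf 175 1407 (.cons 271 (.leaf 295 1598 (.leaf 176 1406 .nil)) .nil)) (.cons 224 (.leaf 175 1407 (.cons 201 (.leaf 177 1413 (.cons 202 (.cons 226 (.leaf 227 1592 (.cons 198 (.leaf 225 1584 (.cons 173 (.leaf 174 1387 (.cons 197 (.leaf 172 1379 (.cons 221 (.leaf 220 1570 (.leaf 222 1578 .nil)) .nil)) .nil)) .nil)) .nil)) (.cons 271 (.leaf 295 1598 (.cons 179 (.leaf 178 1401 (.cons 203 (.leaf 180 1409 (.cons 225 (.leaf 204 1602 (.cons 198 (.leaf 197 1576 (.leaf 226 1584 .nil)) .nil)) .nil)) .nil)) .nil)) (.cons 271 (.leaf 295 1598 (.cons 179 (.leaf 178 1401 (.cons 203 (.leaf 180 1409 (.cons 204 (.leaf 225 1602 (.cons 228 (.leaf 227 1600 (.leaf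 229 1608 .nil)) .nil)) .nil)) .nil)) .nil)) (.cons 271 (.leaf 295 1598 (.cons 178 (.leaf 179 1401 (.cons 227 (.leaf 226 1592 (.cons 203 (.leaf 251 1431 (.leaf 228 1600 .nil)) .nil)) .nil)) .nil)) .nil)))) .nil)) .nil)) .nil))))
noncomputable def t30 : T := .cons 177 (.leaf 224 1413 (.leaf 225 1414 .nil)) (.cons 198 (.cons 173 (.leaf 174 1387 (.cons 197 (.leaf 172 1379 (.cons 221 (.leaf 220 1570 (.leaf 222 1578 .nil)) .nil)) .nil)) (.cons 225 (.leaf 226 1584 (.cons 173 (.leaf 174 1387 (.cons 197 (.leaf 172 1379 (.leaf 224 1576 .nil)) .nil)) .nil)) (.cons 221 (.leaf 222 1578 (.cons 197 (.leaf 220 1570 (.cons 225 (.leaf 224 1576 (.leaf 226 1584 .nil)) .nil)) .nil)) (.cons 173 (.leaf 174 1387 (.cons 222 (.leaf 221 1578 (.cons 202 (.leaf 223 1586 (.cons 226 (.leaf 225 1584 (.leaf 227 1592 .nil)) .nil)) .nil)) .nil)) .nil)))) (.cons 225 (.leaf 177 1414 (.cons 198 (.leaf 226 1584 (.cons 173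 (.leaf 174 1387 (.cons 172 (.leaf 197 1379 (.cons 222 (.leaf 221 1578 (.cons 223 (.leaf 202 1586 (.cons 271 (.leaf 295 1591 (.cons 270 (.leaf 269 1961 (.leaf 294 1590 .nil)) .nil)) .nil)) .nil)) .nil)) .nil)) .nil)) .nil)) (.cons 224 (.leaf 177 1413 (.cons 271 (.leaf 295 1598 (.cons 270 (.leaf 269 1961 (.cons 223 (.leaf 294 1590 (.cons 222 (.leaf 221 1768 (.leaf 202 1586 .nil)) .nil)) .nil)) .nil)) .nil)) .nil)))
noncomputable def t31 : T := .cons 173 (.leaf 174 1387 (.cons 172 (.leaf 197 1379 (.cons 178 (.leaf 177 1393 (.cons 202 (.leaf 179 1401 (.cons 227 (.leaf 226 1592 (.cons 203 (.leaf 251 1431 (.leaf 228 1600 .nil)) .nil)) .nil)) .nil)) .nil)) .nil)) (.cons 222 (.leaf 221 1578 (.cons 177 (.leaf 178 1393 (.cons 176 (.leaf 197 1385 (.cons 223 (.leaf 271 1405 (.leaf 202 1586 .nil)) .nil)) .nil)) .nil)) (.cons 173 (.leaf 174 1387 (.cons 172 (.leaf 197 1379 (.cons 222 (.leaf 221 1578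 (.cons 202 (.leaf 223 1586 (.cons 178 (.leaf 179 1401 (.cons 227 (.leaf 226 1592 (.cons 203 (.leaf 251 1431 (.leaf 228 1600 .nil)) .nil)) .nil)) .nil)) .nil)) .nil)) .nil)) (.cons 173 (.leaf 174 1387 (.cons 172 (.leaf 197 1379 (.cons 222 (.leaf 221 1578 (.cons 223 (.leaf 202 1586 (.cons 271 (.leaf 176 1405 (.leaf 295 1591 .nil)) .nil)) .nil)) .nil)) .nil)) (.cons 222 (.leaf 221 1578 (.cons 173 (.leaf 174 1387 (.cons 177 (.leaf 178 1393 (.cons 202 (.leaf 223 1586 (.cons 227 (.leaf 226 1592 (.cons 203 (.leaf 228 1600 (.cons 180 (.leaf 179 1409 (.cons 204 (.leaf 251 1437 (.leaf 176 1411 .nil)) .nil)) .nil)) .nil)) .nil)) .nil)) .nil)) .nil)) (.cons 173 (.leaf 174 1387 (.cons 177 (.leaf 178 1393 (.cons 197 (.leaf 172 1379 (.leaf 176 1385 .nil)) .nil)) .nil)) .nil)))))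
noncomputable def t32 : T := .cons 225 (.leaf 177 1414 (.cons 198 (.leaf 226 1584 (.cons 173 (.leaf 174 1387 (.cons 172 (.leaf 197 1379 (.cons 222 (.leaf 221 1578 (.cons 223 (.leaf 202 1586 (.cons 271 (.leaf 176 1405 (.leaf 295 1591 .nil)) .nil)) .nil)) .nil)) .nil)) .nil)) .nil)) (.cons 202 (.cons 222 (.leaf 223 1586 (.cons 198 (.leaf 221 1578 (.cons 226 (.leaf 225 1584 (.leaf 227 1592 .nil)) .nil)) .nil)) (.cons 178 (.leaf 179 1401 (.cons 223 (.leaf 222 1586 (.cons 271 (.leaf 176 1405 (.cons 270 (.leaf 269 1961 (.leaf 294 1590 .nil)) .nil)) .nil)) .nil)) (.cons 178 (.leaf 179 1401 (.cons 226 (.leaf 227 1592 (.cons 225 (.leaf 154 1230 (.leaf 198 1584 .nil)) .nil)) .nil)) .nil))) (.cons 198 t31 (.cons 225 (.leaf 177 1414 (.cons 202 (.cons 178 (.leaf 179 1401 (.cons 154 (.leaf 226 1230 (.leaf 130 1038 .nil)) .nil)) (.cons 223 (.leaf 222 1586 (.cons 178 (.leaf 179 1401 (.cons 130 (.leaf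 154 1038 (.cons 271 (.leaf 176 1405 (.cons 270 (.leaf 269 1961 (.leaf 294 1590 .nil)) .nil)) .nil)) .nil)) .nil)) (.cons 227 (.leaf 226 1592 (.cons 203 (.leaf 228 1600 (.cons 179 (.leaf 180 1409 (.cons 223 (.leaf 222 1586 (.cons 271 (.leaf 176 1405 (.cons 270 (.leaf 269 1961 (.leaf 294 1590 .nil)) .nil)) .nil)) .nil)) .nil)) .nil)) (.cons 227 (.leaf 226 1592 (.cons 203 (.leaf 228 1600 (.cons 178 (.leaf 251 1431 (.cons 223 (.leaf 222 1586 (.cons 271 (.leaf 176 1405 (.cons 130 (.leaf 154 1044 (.cons 270 (.leaf 269 1961 (.leaf 294 1590 .nil)) .nil)) .nil)) .nil)) .nil)) .nil)) .nil)) .nil)))) .nil)) (.cons 177 (.leaf 225 1414 (.cons 178 (.leaf 198 1393 (.cons 179 (.leaf 176 1402 (.leaf 180 1410 .nil)) .nil)) .nil)) (.cons 225 (.leaf 177 1414 (.cons 198 (.leaf 226 1584 (.cons 173 (.leaf 174 1387 (.cons 172 (.leaf 197 1379 (.cons 222 (.leaf 221 1578 (.cons 223 (.leaf 202 1586 (.cons 271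 (.leaf 295 1591 (.cons 270 (.leaf 269 1961 (.leaf 294 1590 .nil)) .nil)) .nil)) .nil)) .nil)) .nil)) .nil)) .nil)) .nil)))))
noncomputable def t33 : T := .cons 177 (.leaf 224 1413 (.leaf 225 1414 .nil)) (.cons 198 (.cons 173 (.leaf 174 1387 (.cons 222 (.leaf 221 1578 (.cons 202 (.leaf 223 1586 (.cons 226 (.leaf 225 1584 (.leaf 227 1592 .nil)) .nil)) .nil)) .nil)) (.cons 173 (.leaf 174 1387 (.cons 172 (.leaf 197 1379 (.cons 222 (.leaf 221 1578 (.cons 202 (.leaf 223 1586 (.cons 178 (.leaf 179 1401 (.cons 227 (.leaf 226 1592 (.cons 203 (.leaf 251 1431 (.leaf 228 1600 .nil)) .nil)) .nil)) .nil)) .nil)) .nil)) .nil)) (.cons 173 (.leaf 174 1387 (.cons 197 (.leaf 172 1379 (.cons 225 (.leaf 224 1576 (.leaf 226 1584 .nil)) .nil)) .nil)) (.cons 173 (.leaf 174 1387 (.cons 197 (.leaf 172 1379 (.cons 221 (.leaf 220 1570 (.leaf 222 1578 .nil)) .nil)) .nil)) (.cons 221 (.leaf 222 1578 (.cons 197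 (.leaf 220 1570 (.cons 225 (.leaf 224 1576 (.leaf 226 1584 .nil)) .nil)) .nil)) .nil))))) (.cons 177 (.leaf 224 1413 (.cons 178 (.leaf 198 1393 (.cons 179 (.leaf 176 1402 (.leaf 202 1401 .nil)) .nil)) .nil)) (.cons 177 (.leaf 225 1414 (.cons 178 (.leaf 198 1393 (.cons 179 (.leaf 176 1402 (.leaf 202 1401 .nil)) .nil)) .nil)) .nil)))
noncomputable def t34 : T := .cons 271 (.cons 224 (.leaf 295 1598 (.leaf 176 1406 .nil)) (.cons 223 (.leaf 176 1405 (.cons 270 (.leaf 269 1961 (.leaf 294 1590 .nil)) .nil)) (.cons 224 (.leaf 295 1598 (.cons 201 (.leaf 177 1413 (.cons 270 (.leaf 269 1961 (.cons 223 (.leaf 294 1590 (.cons 222 (.leaf 221 1768 (.leaf 202 1586 .nil)) .nil)) .nil)) .nil)) .nil)) .nil))) (.cons 201 t33 (.cons 201 t32 (.cons 271 (.cons 224 (.leaf 295 1598 (.leaf 176 1406 .nil)) (.cons 223 (.leaf 176 1405 (.cons 270 (.leaf 269 1961 (.leaf 294 1590 .nil)) .nil)) (.cons 224 (.leaf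 295 1598 (.cons 270 (.leaf 269 1961 (.cons 223 (.leaf 294 1590 (.cons 198 (.leaf 174 1399 (.cons 197 (.leaf 196 1568 (.leaf 225 1576 .nil)) .nil)) .nil)) .nil)) .nil)) .nil))) (.cons 201 t30 (.cons 224 (.cons 201 (.leaf 177 1413 (.cons 271 (.leaf 295 1598 (.leaf 176 1406 .nil)) .nil)) (.cons 201 (.leaf 177 1413 (.cons 202 (.cons 178 (.leaf 179 1401 (.cons 226 (.leaf 227 1592 (.cons 225 (.leaf 154 1230 (.leaf 198 1584 .nil)) .nil)) .nil)) (.cons 179 (.leaf 178 1401 (.cons 203 (.leaf 180 1409 (.cons 225 (.leaf 204 1602 (.cons 198 (.leaf 197 1576 (.leaf 226 1584 .nil)) .nil)) .nil)) .nil)) (.cons 179 (.leaf 178 1401 (.cons 203 (.leaf 180 1409 (.cons 204 (.leaf 225 1602 (.cons 228 (.leaf 227 1600 (.leaf 229 1608 .nil)) .nil)) .nil)) .nil)) (.cons 227 (.leaf 226 1592 (.cons 178 (.leaf 179 1401 (.cons 203 (.leaf 251 1431 (.leaf 228 1600 .nil)) .nil)) .nil)) (.cons 227 (.leaf 226 1592 (.cons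 203 (.leaf 228 1600 (.cons 204 (.leaf 225 1602 (.cons 180 (.leaf 251 1437 (.leaf 181 1417 .nil)) .nil)) .nil)) .nil)) .nil))))) .nil)) (.cons 271 (.leaf 295 1598 (.leaf 176 1406 .nil)) .nil))) .nil)))))
noncomputable def t35 : T := .cons 175 (.leaf 223 1404 (.cons 200 (.leaf 224 1407 (.cons 201 (.cons 174 (.leaf 202 1395 (.cons 173 (.leaf 172 1376 (.leaf 198 1387 .nil)) .nil)) (.cons 177 (.leaf 225 1414 (.cons 178 (.leaf 198 1393 (.cons 179 (.leaf 176 1402 (.leaf 202 1401 .nil)) .nil)) .nil)) (.cons 177 (.leaf 225 1414 (.cons 178 (.leaf 198 1393 (.cons 179 (.leaf 176 1402 (.leaf 180 1410 .nil)) .nil)) .nil)) (.cons 174 (.leaf 202 1395 (.cons 173 (.leaf 172 1376 (.leaf 176 1384 .nil)) .nil)) .nil)))) .nil)) .nil)) (.cons 200 t34 (.cons 200 t29 (.cons 223 (.leaf 175 1404 (.cons 271 (.cons 270 (.leaf 269 1961 (.leaf 294 1590 .nil)) (.cons 198 (.leaf 174 1399 (.cons 222 (.leaf 295 1591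 (.cons 221 (.leaf 220 1760 (.leaf 224 1768 .nil)) .nil)) .nil)) .nil)) .nil)) (.cons 223 (.leaf 175 1404 (.cons 271 (.cons 270 (.leaf 269 1961 (.leaf 294 1590 .nil)) (.cons 198 (.leaf 174 1399 (.cons 200 (.leaf 176 1405 (.cons 222 (.leaf 295 1591 (.cons 221 (.leaf 220 1760 (.leaf 201 1578 .nil)) .nil)) .nil)) .nil)) .nil)) .nil)) (.cons 223 (.leaf 175 1404 (.cons 271 (.cons 200 (.leaf 176 1405 (.cons 270 (.leaf 269 1961 (.leaf 294 1590 .nil)) .nil)) (.cons 200 (.leaf 176 1405 (.cons 224 (.leaf 295 1597 (.cons 201 (.leaf 177 1413 (.cons 222 (.leaf 221 1768 (.leaf 202 1586 .nil)) .nil)) .nil)) .nil)) (.cons 270 (.leaf 269 1961 (.leaf 294 1590 .nil)) .nil))) .nil)) .nil)))))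
noncomputable def t36 : T := .cons 249 (.cons 250 (.leaf 274 1976 (.cons 223 (.leaf 222 1779 (.cons 175 (.leaf 199 1404 (.cons 227 (.leaf 226 1785 (.cons 251 (.leaf 271 1978 (.leaf 224 1787 .nil)) .nil)) .nil)) .nil)) .nil)) (.cons 199 t35 (.cons 250 (.leaf 274 1976 (.cons 223 (.leaf 222 1779 (.cons 175 (.leaf 199 1404 (.cons 227 (.leaf 226 1785 (.cons 251 (.leaf 224 1787 (.leaf 228 1793 .nil)) .nil)) .nil)) .nil)) .nil)) (.cons 250 (.leaf 274 1976 (.cons 271 (.leaf 251 1978 (.leaf 270 1970 .nil)) .nil)) (.cons 250 (.leaf 274 1976 (.cons 223 (.leaf 222 1779 (.cons 199 (.leaf 175 1404 (.cons 226 (.leaf 227 1785 (.cons 271 (.leaf 270 1970 (.cons 174 (.leaf 198 1399 (.cons 200 (.leaf 176 1405 (.cons 295 (.leaf 224 1597 (.cons 318 (.leaf 294 1782 (.cons 319 (.leaf 343 1981 (.leaf 342 1974 .nil)) .nil)) .nil)) .nil)) .nil)) .nil)) .nil)) .nil)) .nil)) .nil)) .nil))))) (.cons 223 t27 (.cons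 249 (.cons 250 (.leaf 274 1976 (.cons 222 (.leaf 223 1779 (.cons 226 (.leaf 227 1785 (.cons 246 (.leaf 221 1771 (.leaf 225 1777 .nil)) .nil)) .nil)) .nil)) (.cons 246 t21 (.cons 250 (.leaf 274 1976 (.cons 271 (.leaf 251 1978 (.leaf 270 1970 .nil)) .nil)) .nil))) (.cons 249 (.cons 250 (.leaf 274 1976 (.cons 222 (.leaf 223 1779 (.cons 246 (.leaf 221 1771 (.cons 271 (.leaf 251 1978 (.leaf 270 1970 .nil)) .nil)) .nil)) .nil)) (.cons 246 t19 (.cons 250 (.leaf 274 1976 (.cons 222 (.leaf 223 1779 (.cons 226 (.leaf 227 1785 (.cons 246 (.leaf 221 1771 (.leaf 225 1777 .nil)) .nil)) .nil)) .nil)) (.cons 250 (.leaf 274 1976 (.cons 271 (.leaf 251 1978 (.leaf 270 1970 .nil)) .nil)) .nil)))) (.cons 249 t18 (.cons 249 (.cons 250 (.leaf 274 1976 (.cons 222 (.leaf 223 1779 (.cons 246 (.leaf 221 1771 (.cons 271 (.leaf 251 1978 (.cons 174 (.leaf 198 1396 (.cons 245 (.leaf 244 1952 (.cons 224 (.leaf 225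 1769 (.cons 295 (.leaf 200 1598 (.leaf 319 1789 .nil)) .nil)) .nil)) .nil)) .nil)) .nil)) .nil)) .nil)) (.cons 246 t16 (.cons 250 (.leaf 274 1976 (.cons 226 (.leaf 227 1785 (.cons 225 (.leaf 246 1777 (.cons 177 (.leaf 201 1414 (.cons 251 (.leaf 271 1978 (.cons 252 (.leaf 224 1795 (.leaf 253 1803 .nil)) .nil)) .nil)) .nil)) .nil)) .nil)) (.cons 250 (.leaf 274 1976 (.cons 222 (.leaf 223 1779 (.cons 227 (.leaf 226 1785 (.cons 251 (.leaf 271 1978 (.leaf 228 1793 .nil)) .nil)) .nil)) .nil)) (.cons 250 (.leaf 274 1976 (.cons 222 (.leaf 223 1779 (.cons 226 (.leaf 227 1785 (.cons 246 (.leaf 221 1771 (.leaf 225 1777 .nil)) .nil)) .nil)) .nil)) .nil))))) (.cons 249 (.cons 250 (.leaf 274 1976 (.cons 222 (.leaf 223 1779 (.cons 246 (.leaf 221 1771 (.cons 271 (.leaf 251 1978 (.leaf 270 1970 .nil)) .nil)) .nil)) .nil)) (.cons 246 t15 (.cons 250 (.leaf 274 1976 (.cons 271 (.leaf 251 1978 (.leaf 270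 1970 .nil)) .nil)) (.cons 250 (.leaf 274 1976 (.cons 222 (.leaf 223 1779 (.cons 226 (.leaf 227 1785 (.cons 246 (.leaf 221 1771 (.leaf 225 1777 .nil)) .nil)) .nil)) .nil)) .nil)))) (.cons 224 t14 (.cons 249 (.cons 246 (.cons 221 (.leaf 222 1771 (.cons 245 (.leaf 220 1763 (.cons 269 (.leaf 268 1954 (.leaf 270 1962 .nil)) .nil)) .nil)) (.cons 250 (.leaf 274 1976 (.cons 222 (.leaf 221 1771 (.leaf 223 1779 .nil)) .nil)) (.cons 250 (.leaf 274 1976 (.cons 270 (.leaf 269 1962 (.leaf 271 1970 .nil)) .nil)) .nil))) (.cons 246 t8 (.cons 250 (.leaf 274 1976 (.cons 223 (.leaf 222 1779 (.cons 175 (.leaf 199 1404 (.cons 227 (.leaf 226 1785 (.cons 251 (.leaf 224 1787 (.leaf 228 1793 .nil)) .nil)) .nil)) .nil)) .nil)) (.cons 250 (.leaf 274 1976 (.cons 271 (.leaf 251 1978 (.leaf 270 1970 .nil)) .nil)) .nil)))) (.cons 249 t7 (.cons 249 t5 (.cons 249 (.cons 250 (.leaf 274 1976 (.cons 271 (.leaf 251 1978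 (.leaf 270 1970 .nil)) .nil)) (.cons 246 t2 (.cons 250 (.leaf 274 1976 (.cons 223 (.leaf 222 1779 (.cons 175 (.leaf 199 1404 (.cons 227 (.leaf 226 1785 (.cons 251 (.leaf 224 1787 (.leaf 228 1793 .nil)) .nil)) .nil)) .nil)) .nil)) .nil))) (.cons 249 (.cons 250 (.leaf 274 1976 (.cons 271 (.leaf 251 1978 (.leaf 270 1970 .nil)) .nil)) (.cons 246 t1 (.cons 250 (.leaf 274 1976 (.cons 223 (.leaf 222 1779 (.cons 175 (.leaf 199 1404 (.cons 227 (.leaf 226 1785 (.cons 251 (.leaf 224 1787 (.leaf 228 1793 .nil)) .nil)) .nil)) .nil)) .nil)) .nil))) .nil))))))))))))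
noncomputable def t37 : T := .cons 270 (.leaf 269 1962 (.cons 222 (.leaf 221 1771 (.cons 225 (.leaf 226 1777 (.cons 201 (.leaf 177 1414 (.cons 294 (.cons 317 (.leaf 293 1774 (.cons 318 (.leaf 341 1966 (.cons 342 (.leaf 271 1973 (.cons 343 (.leaf 319 1972 (.leaf 367 2164 .nil)) .nil)) .nil)) .nil)) (.cons 317 (.leaf 293 1774 (.cons 318 (.leaf 341 1966 (.cons 271 (.leaf 342 1973 (.cons 198 (.leaf 174 1396 (.leaf 295 1588 .nil)) .nil)) .nil)) .nil)) (.cons 317 (.leaf 293 1774 (.cons 318 (.leaf 341 1966 (.cons 319 (.leaf 295 1780 (.leaf 343 1972 .nil)) .nil)) .nil)) (.cons 295 (.leaf 319 1780 (.cons 198 (.leaf 271 1588 (.cons 173 (.leaf 197 1391 (.cons 174 (.leaf 149 1199 (.cons 175 (.leaf 151 1205 (.leaf 199 1397 .nil)) .nil)) .nil)) .nil)) .nil)) .nil)))) .nil)) .nil)) .nil)) .nil)) (.cons 225 (.leaf 226 1777 (.cons 177 (.leaf 201 1414 (.cons 221 (.leaf 222 1771 (.cons 245 (.leaf 220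 1763 (.leaf 224 1769 .nil)) .nil)) .nil)) .nil)) (.cons 269 (.leaf 270 1962 (.cons 221 (.leaf 222 1771 (.cons 245 (.leaf 220 1763 (.leaf 268 1954 .nil)) .nil)) .nil)) (.cons 269 (.leaf 270 1962 (.cons 225 (.leaf 226 1777 (.cons 245 (.leaf 224 1769 (.leaf 268 1954 .nil)) .nil)) .nil)) .nil)))
noncomputable def t38 : T := .cons 250 (.leaf 274 1976 (.cons 246 (.cons 223 (.leaf 222 1779 (.cons 175 (.leaf 199 1404 (.cons 224 (.leaf 251 1787 (.cons 225 (.leaf 245 1769 (.leaf 226 1777 .nil)) .nil)) .nil)) .nil)) (.cons 226 (.leaf 225 1777 (.leaf 227 1785 .nil)) (.cons 223 (.leaf 222 1779 (.cons 175 (.leaf 199 1404 (.cons 224 (.leaf 251 1787 (.cons 245 (.leaf 225 1769 (.leaf 244 1761 .nil)) .nil)) .nil)) .nil)) (.cons 222 (.leaf 221 1771 (.leaf 223 1779 .nil)) .nil)))) .nil)) (.cons 246 (.cons 225 (.leaf 226 1777 (.cons 201 (.leaf 177 1414 (.cons 245 (.leaf 224 1769 (.cons 269 (.leaf 268 1954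 (.leaf 270 1962 .nil)) .nil)) .nil)) .nil)) (.cons 221 (.leaf 222 1771 (.cons 245 (.leaf 220 1763 (.cons 269 (.leaf 268 1954 (.leaf 270 1962 .nil)) .nil)) .nil)) (.cons 225 (.leaf 226 1777 (.cons 177 (.leaf 201 1414 (.cons 221 (.leaf 222 1771 (.cons 245 (.leaf 220 1763 (.leaf 224 1769 .nil)) .nil)) .nil)) .nil)) (.cons 225 (.leaf 226 1777 (.cons 201 (.leaf 177 1414 (.cons 222 (.leaf 221 1771 (.cons 270 (.leaf 269 1962 (.cons 199 (.cons 175 (.leaf 223 1404 (.leaf 198 1397 .nil)) (.cons 175 (.leaf 198 1397 (.cons 200 (.leaf 224 1407 (.cons 174 (.leaf 202 1395 (.cons 173 (.leaf 176 1384 (.leaf 172 1376 .nil)) .nil)) .nil)) .nil)) (.cons 223 (.leaf 294 1589 (.cons 202 (.leaf 224 1585 (.leaf 200 1586 .nil)) .nil)) .nil))) .nil)) .nil)) .nil)) .nil)) .nil)))) (.cons 250 (.leaf 274 1976 (.cons 223 (.leaf 222 1779 (.cons 175 (.leaf 199 1404 (.cons 227 (.leaf 226 1785 (.cons 251 (.leaf 224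 1787 (.leaf 228 1793 .nil)) .nil)) .nil)) .nil)) .nil)) (.cons 250 (.leaf 274 1976 (.cons 226 (.leaf 227 1785 (.cons 246 (.leaf 225 1777 (.cons 221 (.leaf 222 1771 (.cons 245 (.leaf 220 1763 (.cons 269 (.leaf 268 1954 (.leaf 270 1962 .nil)) .nil)) .nil)) .nil)) .nil)) .nil)) (.cons 250 (.leaf 274 1976 (.cons 246 (.cons 221 (.leaf 222 1771 (.cons 245 (.leaf 220 1763 (.cons 269 (.leaf 268 1954 (.leaf 270 1962 .nil)) .nil)) .nil)) (.cons 269 (.leaf 270 1962 (.cons 245 (.leaf 268 1954 (.cons 220 (.leaf 221 1763 (.cons 224 (.leaf 225 1769 (.cons 223 (.leaf 251 1787 (.leaf 244 1761 .nil)) .nil)) .nil)) .nil)) .nil)) (.cons 223 (.leaf 222 1779 (.cons 175 (.leaf 199 1404 (.cons 224 (.leaf 251 1787 (.cons 245 (.leaf 225 1769 (.leaf 244 1761 .nil)) .nil)) .nil)) .nil)) (.cons 222 (.leaf 221 1771 (.leaf 223 1779 .nil)) .nil)))) .nil)) (.cons 250 (.leaf 274 1976 (.cons 227 (.leaf 226 1785 (.cons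 251 (.leaf 228 1793 (.cons 224 (.leaf 223 1787 (.cons 225 (.leaf 252 1795 (.cons 246 (.leaf 245 1769 (.cons 203 (.cons 201 (.leaf 177 1414 (.cons 202 (.leaf 178 1431 (.leaf 204 1602 .nil)) .nil)) (.cons 178 (.leaf 202 1431 (.cons 179 (.leaf 154 1239 (.cons 180 (.leaf 204 1437 (.leaf 156 1245 .nil)) .nil)) .nil)) (.cons 201 (.leaf 177 1414 (.cons 204 (.leaf 180 1437 (.leaf 202 1602 .nil)) .nil)) (.cons 177 (.leaf 201 1414 (.cons 178 (.leaf 202 1431 (.cons 179 (.leaf 154 1239 (.cons 156 (.leaf 180 1245 (.cons 155 (.leaf 132 1053 (.leaf 176 1217 .nil)) .nil)) .nil)) .nil)) .nil)) (.cons 177 (.leaf 201 1414 (.cons 180 (.leaf 204 1437 (.cons 179 (.leaf 156 1245 (.cons 178 (.leaf 154 1239 (.cons 152 (.leaf 153 1219 (.cons 176 (.leaf 200 1220 (.leaf 151 1211 .nil)) .nil)) .nil)) .nil)) .nil)) .nil)) .nil))))) .nil)) .nil)) .nil)) .nil)) .nil)) .nil)) .nil)))))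
noncomputable def t39 : T := .cons 177 (.leaf 178 1393 (.cons 197 (.leaf 176 1385 (.cons 172 (.leaf 173 1379 (.cons 196 (.leaf 171 1371 (.cons 220 (.leaf 219 1562 (.leaf 221 1570 .nil)) .nil)) .nil)) .nil)) .nil)) (.cons 177 (.leaf 178 1393 (.cons 197 (.leaf 176 1385 (.cons 220 (.leaf 221 1570 (.cons 196 (.leaf 219 1562 (.cons 171 (.leaf 172 1371 (.cons 195 (.leaf 174 1369 (.leaf 170 1363 .nil)) .nil)) .nil)) .nil)) .nil)) .nil)) (.cons 173 (.leaf 174 1387 (.cons 197 (.leaf 172 1379 (.cons 196 (.leaf 176 1377 (.cons 220 (.leaf 219 1562 (.leaf 221 1570 .nil)) .nil)) .nil)) .nil)) (.cons 177 (.leaf 178 1393 (.cons 225 (.leaf 226 1584 (.cons 197 (.cons 174 (.leaf 173 1387 (.cons 196 (.leaf 195 1369 (.cons 220 (.leaf 219 1562 (.leaf 221 1570 .nil)) .nil)) .nil)) (.cons 220 (.leaf 221 1570 (.cons 196 (.leaf 219 1562 (.cons 171 (.leaf 172 1371 (.cons 195 (.leaf 174 1369 (.leaf 170 1363 .nil))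 .nil)) .nil)) .nil)) (.cons 172 (.leaf 173 1379 (.cons 196 (.leaf 171 1371 (.cons 220 (.leaf 219 1562 (.leaf 221 1570 .nil)) .nil)) .nil)) (.cons 173 (.leaf 172 1379 (.leaf 174 1387 .nil)) .nil)))) .nil)) .nil)) (.cons 174 (.leaf 173 1387 (.cons 177 (.leaf 178 1393 (.cons 225 (.leaf 226 1584 (.cons 153 (.cons 128 (.leaf 152 1031 (.cons 129 (.leaf 104 839 (.cons 130 (.leaf 106 845 (.leaf 154 1037 .nil)) .nil)) .nil)) (.cons 128 (.leaf 152 1031 (.cons 129 (.leaf 104 839 (.cons 105 (.leaf 176 838 (.cons 106 (.leaf 130 845 (.leaf 82 653 .nil)) .nil)) .nil)) .nil)) (.cons 154 (.leaf 176 1201 (.leaf 130 1037 .nil)) (.cons 128 (.leaf 152 1031 (.cons 104 (.leaf 129 839 (.cons 176 (.leaf 154 1201 (.cons 150 (.leaf 149 1195 (.cons 126 (.leaf 102 820 (.cons 127 (.leaf 151 829 (.leaf 103 821 .nil)) .nil)) .nil)) .nil)) .nil)) .nil)) .nil)))) .nil)) .nil)) .nil)) .nil))))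
noncomputable def t40 : T := .cons 202 (.leaf 174 1395 (.cons 176 (.leaf 203 1403 (.cons 226 (.leaf 227 1592 (.cons 198 (.leaf 225 1584 (.cons 197 (.leaf 196 1377 (.leaf 177 1385 .nil)) .nil)) .nil)) .nil)) .nil)) (.cons 198 t39 (.cons 202 (.cons 176 (.leaf 203 1403 (.cons 226 (.leaf 227 1592 (.cons 198 (.leaf 225 1584 (.cons 197 (.leaf 196 1377 (.leaf 177 1385 .nil)) .nil)) .nil)) .nil)) (.cons 226 (.leaf 227 1592 (.cons 178 (.leaf 179 1401 (.cons 198 (.leaf 177 1393 (.leaf 225 1584 .nil)) .nil)) .nil)) (.cons 176 (.leaf 203 1403 (.cons 178 (.leaf 179 1401 (.cons 177 (.leaf 198 1393 (.cons 150 (.leaf 151 1203 (.cons 154 (.leaf 155 1209 (.cons 130 (.leaf 106 846 (.leaf 225 1038 .nil)) .nil)) .nil)) .nil)) .nil)) .nil)) (.cons 176 (.leaf 203 1403 (.cons 178 (.leaf 179 1401 (.cons 226 (.leaf 227 1592 (.cons 225 (.leaf 198 1584 (.cons 128 (.leaf 152 1028 (.cons 154 (.leaf 130 1038 (.cons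 129 (.leaf 153 1039 (.cons 250 (.leaf 251 1428 (.cons 274 (.leaf 299 1620 (.leaf 298 1615 .nil)) .nil)) .nil)) .nil)) .nil)) .nil)) .nil)) .nil)) .nil)) (.cons 203 (.leaf 176 1403 (.cons 179 (.leaf 178 1401 (.leaf 180 1409 .nil)) .nil)) .nil))))) (.cons 174 (.leaf 202 1395 (.cons 173 (.leaf 172 1376 (.leaf 198 1387 .nil)) .nil)) (.cons 202 (.leaf 174 1395 (.cons 203 (.leaf 176 1403 (.cons 179 (.leaf 178 1401 (.leaf 180 1409 .nil)) .nil)) .nil)) .nil))))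
noncomputable def t41 : T := .cons 245 (.leaf 244 1952 (.cons 221 (.leaf 220 1763 (.cons 269 (.leaf 268 1954 (.cons 293 (.cons 317 (.leaf 222 1773 (.cons 318 (.leaf 294 1772 (.leaf 342 1964 .nil)) .nil)) (.cons 317 (.leaf 222 1773 (.cons 316 (.leaf 292 1766 (.leaf 340 1958 .nil)) .nil)) (.cons 292 (.leaf 270 2146 (.leaf 316 1766 .nil)) .nil))) .nil)) .nil)) .nil)) (.cons 245 (.leaf 244 1952 (.cons 221 (.leaf 220 1763 (.cons 269 (.leaf 268 1954 (.cons 293 (.cons 317 (.leaf 222 1773 (.cons 318 (.leaf 294 1772 (.leaf 342 1964 .nil)) .nil)) (.cons 294 (.leaf 318 1772 (.cons 292 (.leaf 295 2145 (.leaf 316 1766 .nil)) .nil)) (.cons 222 (.leaf 317 1773 (.cons 201 (.leaf 202 1586 (.cons 292 (.leaf 316 1766 (.cons 295 (.leaf 294 2145 (.leaf 319 1783 .nil)) .nil)) .nil)) .nil)) (.cons 317 (.leaf 222 1773 (.cons 316 (.leaf 292 1766 (.leaf 340 1958 .nil)) .nil)) .nil)))) .nil)) .nil)) .nil)) (.cons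 245 (.leaf 244 1952 (.cons 221 (.leaf 220 1763 (.cons 269 (.leaf 268 1954 (.cons 293 (.cons 317 (.leaf 222 1773 (.cons 316 (.leaf 292 1766 (.leaf 340 1958 .nil)) .nil)) (.cons 317 (.leaf 222 1773 (.cons 316 (.leaf 340 1958 (.cons 341 (.leaf 270 1965 (.cons 342 (.leaf 318 1964 (.leaf 366 2156 .nil)) .nil)) .nil)) .nil)) (.cons 292 (.leaf 270 2146 (.leaf 316 1766 .nil)) (.cons 317 (.leaf 222 1773 (.cons 270 (.leaf 292 2146 (.leaf 341 1965 .nil)) .nil)) .nil)))) .nil)) .nil)) .nil)) (.cons 294 (.leaf 270 1590 (.cons 295 (.leaf 318 1782 (.cons 319 (.leaf 343 1981 (.leaf 222 1783 .nil)) .nil)) .nil)) (.cons 245 (.leaf 244 1952 (.cons 221 (.leaf 220 1763 (.cons 269 (.leaf 268 1954 (.cons 294 (.leaf 270 1590 (.cons 318 (.leaf 295 1782 (.leaf 293 1772 .nil)) .nil)) .nil)) .nil)) .nil)) (.cons 270 (.leaf 294 1590 (.cons 245 (.leaf 244 1952 (.cons 269 (.leaf 268 1953 (.cons 220 (.leaf 221 1763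 (.cons 293 (.leaf 292 2146 (.cons 317 (.leaf 222 1773 (.leaf 341 1965 .nil)) .nil)) .nil)) .nil)) .nil)) .nil)) .nil)))))
noncomputable def t42 : T := .cons 294 (.leaf 270 1590 (.cons 295 (.leaf 318 1782 (.cons 319 (.leaf 343 1981 (.leaf 224 1789 .nil)) .nil)) .nil)) (.cons 200 (.leaf 176 1405 (.cons 224 (.leaf 295 1597 (.cons 201 (.leaf 177 1413 (.cons 202 (.leaf 222 1586 (.leaf 203 1594 .nil)) .nil)) .nil)) .nil)) (.cons 200 (.leaf 176 1405 (.cons 270 (.leaf 294 1590 (.cons 269 (.leaf 268 1953 (.cons 245 (.leaf 244 1955 (.cons 293 (.leaf 292 2146 (.cons 222 (.cons 220 (.leaf 221 1760 (.cons 201 (.leaf 202 1586 (.cons 317 (.leaf 246 1773 (.cons 340 (.leaf 316 1958 (.cons 341 (.leaf 364 2150 (.cons 342 (.leaf 318 1964 (.leaf 366 2156 .nil)) .nil)) .nil)) .nil)) .nil)) .nil)) (.cons 201 (.leaf 202 1586 (.cons 224 (.leaf 177 1413 (.cons 246 (.leaf 225 1769 (.leaf 317 1773 .nil)) .nil))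 .nil)) (.cons 221 (.leaf 220 1760 (.cons 201 (.leaf 202 1586 (.leaf 224 1577 .nil)) .nil)) (.cons 220 (.leaf 221 1760 (.cons 317 (.leaf 246 1773 (.cons 340 (.leaf 316 1958 (.cons 341 (.leaf 364 2150 (.cons 342 (.leaf 318 1964 (.leaf 366 2156 .nil)) .nil)) .nil)) .nil)) .nil)) .nil)))) .nil)) .nil)) .nil)) .nil)) .nil)) (.cons 200 (.leaf 176 1405 (.cons 246 t41 .nil)) .nil)))
noncomputable def t43 : T := .cons 173 (.leaf 172 1376 (.cons 201 (.leaf 198 1387 (.leaf 202 1395 .nil)) .nil)) (.cons 201 (.leaf 202 1395 (.cons 198 (.cons 177 (.leaf 178 1393 (.cons 176 (.leaf 197 1385 (.cons 149 (.leaf 150 1195 (.cons 153 (.leaf 154 1201 (.cons 129 (.leaf 105 838 (.cons 106 (.leaf 130 845 (.cons 128 (.leaf 104 839 (.cons 225 (.leaf 226 1584 (.leaf 152 1028 .nil)) .nil)) .nil)) .nil)) .nil)) .nil)) .nil)) .nil)) (.cons 222 (.leaf 221 1578 (.cons 151 (.leaf 127 1014 (.leaf 246 1205 .nil)) .nil))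 .nil)) .nil)) (.cons 173 (.leaf 172 1376 (.cons 176 (.cons 149 (.leaf 148 1187 (.cons 152 (.leaf 153 1193 (.cons 177 (.leaf 150 1195 (.cons 197 (.leaf 198 1385 (.leaf 196 1378 .nil)) .nil)) .nil)) .nil)) (.cons 149 (.leaf 148 1187 (.cons 150 (.leaf 177 1195 (.cons 102 (.leaf 126 820 (.cons 152 (.leaf 153 1193 (.cons 128 (.leaf 104 830 (.cons 129 (.leaf 105 837 (.leaf 151 1001 .nil)) .nil)) .nil)) .nil)) .nil)) .nil)) (.cons 197 (.leaf 196 1378 (.cons 149 (.leaf 148 1187 (.cons 152 (.leaf 153 1193 (.cons 128 (.leaf 104 830 (.cons 129 (.leaf 105 837 (.cons 127 (.leaf 103 831 (.cons 150 (.leaf 126 1002 (.leaf 151 1001 .nil)) .nil)) .nil)) .nil)) .nil)) .nil)) .nil)) (.cons 197 (.leaf 196 1378 (.cons 177 (.leaf 198 1385 (.cons 153 (.leaf 152 1193 (.leaf 154 1201 .nil)) .nil)) .nil)) (.cons 197 (.leaf 196 1378 (.cons 177 (.leaf 198 1385 (.cons 149 (.leaf 148 1187 (.leaf 150 1195 .nil))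 .nil)) .nil)) .nil))))) .nil)) (.cons 173 (.leaf 172 1376 (.cons 201 (.leaf 202 1395 (.leaf 176 1384 .nil)) .nil)) .nil)))
noncomputable def t44 : T := .cons 221 (.leaf 220 1763 (.cons 269 (.leaf 268 1954 (.cons 294 (.cons 270 (.leaf 271 1590 (.leaf 318 1781 .nil)) (.cons 293 (.leaf 318 1772 (.cons 316 (.leaf 292 1766 (.cons 317 (.leaf 222 1773 (.leaf 340 1958 .nil)) .nil)) .nil)) (.cons 270 (.leaf 271 1590 (.leaf 222 1589 .nil)) .nil))) .nil)) .nil)) (.cons 220 (.leaf 221 1763 (.cons 244 (.leaf 219 1755 (.cons 243 (.leaf 222 1753 (.cons 267 (.leaf 268 1946 (.leaf 266 1938 .nil)) .nil)) .nil)) .nil)) (.cons 271 (.leaf 244 1952 (.cons 176 (.leaf 200 1405 (.cons 268 (.leaf 269 1954 (.cons 294 (.leaf 270 1590 (.cons 295 (.leaf 318 1782 (.cons 319 (.leaf 343 1981 (.leaf 222 1783 .nil)) .nil)) .nil)) .nil)) .nil)) .nil)) (.cons 271 (.leaf 244 1952 (.cons 176 (.leaf 200 1405 (.cons 220 (.leaf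 221 1763 (.cons 294 (.leaf 270 1590 (.cons 295 (.leaf 318 1782 (.cons 319 (.leaf 343 1981 (.leaf 222 1783 .nil)) .nil)) .nil)) .nil)) .nil)) .nil)) (.cons 271 (.leaf 244 1952 (.cons 176 (.leaf 200 1405 (.cons 221 (.leaf 220 1763 (.cons 269 (.leaf 268 1954 (.cons 294 (.leaf 270 1590 (.cons 318 (.leaf 295 1782 (.leaf 293 1772 .nil)) .nil)) .nil)) .nil)) .nil)) .nil)) .nil))))
noncomputable def t45 : T := .cons 223 (.leaf 175 1404 (.cons 220 (.leaf 221 1763 (.cons 244 (.leaf 271 1952 (.leaf 219 1755 .nil)) .nil)) .nil)) (.cons 244 (.leaf 271 1952 (.cons 220 (.leaf 221 1763 (.leaf 219 1755 .nil)) .nil)) (.cons 221 (.leaf 220 1763 (.cons 270 (.cons 175 (.leaf 223 1404 (.cons 197 (.leaf 173 1388 (.cons 222 (.leaf 198 1397 (.leaf 294 1583 .nil)) .nil)) .nil)) (.cons 294 (.leaf 318 1775 (.cons 197 (.leaf 173 1388 (.leaf 222 1583 .nil)) .nil)) (.cons 175 (.leaf 223 1404 (.cons 197 (.leaf 173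 1388 (.cons 198 (.leaf 222 1397 (.cons 176 (.leaf 196 1377 (.cons 177 (.leaf 178 1394 (.leaf 200 1385 .nil)) .nil)) .nil)) .nil)) .nil)) (.cons 223 (.leaf 175 1404 (.cons 294 (.leaf 271 1590 (.leaf 318 1781 .nil)) .nil)) .nil)))) .nil)) (.cons 223 (.leaf 175 1404 (.cons 244 (.leaf 271 1952 (.cons 243 (.leaf 222 1753 (.cons 218 (.leaf 219 1747 (.cons 242 (.leaf 217 1739 (.cons 266 (.leaf 265 1930 (.leaf 267 1938 .nil)) .nil)) .nil)) .nil)) .nil)) .nil)) (.cons 223 (.leaf 175 1404 (.cons 220 (.leaf 221 1763 (.cons 244 (.leaf 219 1755 (.cons 243 (.leaf 222 1753 (.cons 267 (.leaf 268 1946 (.leaf 266 1938 .nil)) .nil)) .nil)) .nil)) .nil)) .nil))))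
noncomputable def t46 : T := .cons 176 (.leaf 200 1405 (.cons 198 (.leaf 174 1399 (.cons 270 (.leaf 294 1590 (.cons 293 (.leaf 292 2146 (.cons 222 (.leaf 295 1591 (.leaf 221 1581 .nil)) .nil)) .nil)) .nil)) .nil)) (.cons 294 (.leaf 270 1590 (.cons 176 (.leaf 200 1405 (.cons 318 (.leaf 295 1782 (.cons 293 (.leaf 221 1772 (.cons 342 (.leaf 317 1964 (.leaf 366 2159 .nil)) .nil)) .nil)) .nil)) .nil)) (.cons 198 (.leaf 174 1399 (.cons 176 (.leaf 200 1405 (.cons 222 (.leaf 295 1591 (.cons 221 (.leaf 220 1760 (.leaf 293 1581 .nil)) .nil)) .nil)) .nil)) (.cons 294 (.leaf 270 1590 (.cons 174 (.leaf 198 1399 (.cons 318 (.leaf 295 1782 (.cons 221 (.leaf 293 1772 (.cons 220 (.leaf 222 1760 (.leaf 246 1763 .nil)) .nil)) .nil)) .nil)) .nil)) (.cons 198 (.leaf 174 1399 (.cons 176 (.leaf 200 1405 (.cons 294 (.leaf 270 1590 (.cons 295 (.leaf 222 1591 (.leaf 318 1782 .nil)) .nil)) .nil)) .nil)) (.cons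 270 (.leaf 294 1590 (.cons 176 (.leaf 200 1405 (.cons 198 (.leaf 174 1399 (.cons 293 (.leaf 292 2146 (.cons 222 (.leaf 221 1581 (.leaf 246 1582 .nil)) .nil)) .nil)) .nil)) .nil)) .nil)))))
noncomputable def t47 : T := .cons 246 (.leaf 268 1954 (.cons 221 (.leaf 220 1763 (.cons 197 (.cons 172 (.leaf 196 1383 (.cons 148 (.leaf 173 1191 (.cons 198 (.leaf 174 1389 (.cons 293 (.leaf 222 1581 (.cons 316 (.leaf 292 1766 (.cons 317 (.leaf 340 1958 (.cons 318 (.leaf 294 1772 (.leaf 342 1964 .nil)) .nil)) .nil)) .nil)) .nil)) .nil)) .nil)) (.cons 172 (.leaf 196 1383 (.cons 173 (.leaf 148 1191 (.leaf 270 1388 .nil)) .nil)) (.cons 172 (.leaf 196 1383 (.cons 174 (.leaf 198 1389 (.cons 294 (.leaf 270 1580 (.cons 293 (.leaf 318 1772 (.cons 316 (.leaf 292 1766 (.cons 317 (.leaf 222 1773 (.leaf 340 1958 .nil)) .nil)) .nil)) .nil)) .nil)) .nil)) (.cons 270 (.leaf 173 1388 (.leaf 294 1580 .nil)) .nil))))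 .nil)) .nil)) (.cons 223 (.leaf 175 1404 (.cons 271 (.cons 176 (.leaf 200 1405 (.cons 198 (.leaf 174 1399 (.cons 294 (.leaf 270 1590 (.cons 318 (.leaf 295 1782 (.cons 293 (.leaf 221 1772 (.cons 342 (.leaf 317 1964 (.leaf 366 2159 .nil)) .nil)) .nil)) .nil)) .nil)) .nil)) (.cons 198 (.leaf 174 1399 (.cons 176 (.leaf 200 1405 (.cons 222 (.leaf 295 1591 (.cons 221 (.leaf 220 1760 (.leaf 293 1581 .nil)) .nil)) .nil)) .nil)) (.cons 270 (.leaf 268 1953 (.leaf 294 1590 .nil)) .nil))) .nil)) (.cons 223 (.leaf 175 1404 (.cons 271 t46 .nil)) (.cons 268 (.leaf 246 1954 (.cons 223 (.leaf 175 1404 (.cons 271 (.leaf 270 1953 (.cons 176 (.leaf 200 1405 (.cons 198 (.leaf 174 1399 (.cons 295 (.leaf 222 1591 (.cons 318 (.leaf 294 1782 (.cons 319 (.leaf 343 1981 (.leaf 342 1974 .nil)) .nil)) .nil)) .nil)) .nil)) .nil)) .nil)) .nil)) (.cons 246 (.leaf 268 1954 (.cons 221 (.leaf 220 1763 (.cons 223 (.leaf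 175 1404 (.cons 198 (.cons 174 (.leaf 271 1399 (.leaf 197 1389 .nil)) (.cons 222 (.leaf 293 1581 (.cons 200 (.leaf 201 1578 (.cons 271 (.leaf 176 1405 (.leaf 295 1591 .nil)) .nil)) .nil)) (.cons 174 (.leaf 197 1389 (.leaf 222 1390 .nil)) .nil))) .nil)) .nil)) .nil)) (.cons 246 (.leaf 268 1954 (.cons 223 (.leaf 175 1404 (.cons 221 (.leaf 220 1763 (.cons 294 (.cons 270 (.leaf 271 1590 (.leaf 318 1781 .nil)) (.cons 293 (.leaf 318 1772 (.cons 316 (.leaf 292 1766 (.cons 317 (.leaf 222 1773 (.leaf 340 1958 .nil)) .nil)) .nil)) (.cons 270 (.leaf 271 1590 (.leaf 222 1589 .nil)) .nil))) .nil)) .nil)) .nil)) (.cons 268 (.leaf 246 1954 (.cons 270 (.leaf 271 1953 (.cons 175 (.leaf 223 1404 (.cons 267 (.cons 290 (.leaf 291 2130 (.cons 266 (.leaf 289 2122 (.cons 294 (.leaf 293 2128 (.leaf 295 2136 .nil)) .nil)) .nil)) (.cons 290 (.leaf 291 2130 (.cons 242 (.leaf 243 1939 (.cons 266 (.leaf 241 1931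 (.leaf 289 2122 .nil)) .nil)) .nil)) (.cons 294 (.leaf 295 2136 (.cons 197 (.leaf 221 1580 (.cons 242 (.leaf 243 1939 (.cons 266 (.leaf 241 1931 (.leaf 293 2128 .nil)) .nil)) .nil)) .nil)) (.cons 242 (.leaf 243 1939 (.cons 290 (.leaf 291 2130 (.cons 294 (.leaf 295 2136 (.cons 221 (.leaf 197 1580 (.cons 318 (.leaf 293 1772 (.leaf 342 1967 .nil)) .nil)) .nil)) .nil)) .nil)) .nil)))) .nil)) .nil)) .nil)) .nil))))))
noncomputable def t48 : T := .cons 220 (.leaf 221 1763 (.cons 244 (.leaf 219 1755 (.cons 222 (.leaf 243 1753 (.cons 270 (.leaf 294 1589 (.cons 198 (.cons 174 (.leaf 150 1204 (.leaf 269 1390 .nil)) (.cons 173 (.leaf 197 1391 (.cons 174 (.leaf 150 1204 (.leaf 149 1199 .nil)) .nil)) (.cons 197 (.leaf 173 1391 (.cons 196 (.leaf 195 1560 (.cons 172 (.leaf 171 1371 (.leaf 269 1380 .nil)) .nil)) .nil)) .nil))) .nil)) .nil)) .nil)) .nil)) (.cons 244 (.cons 268 (.leaf 269 1954 (.leaf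 267 1946 .nil)) (.cons 243 (.leaf 222 1753 (.cons 218 (.leaf 219 1747 (.cons 242 (.leaf 217 1739 (.cons 266 (.leaf 265 1930 (.leaf 267 1938 .nil)) .nil)) .nil)) .nil)) (.cons 222 (.leaf 243 1753 (.cons 269 (.leaf 268 1954 (.cons 198 (.leaf 174 1390 (.cons 293 (.leaf 221 1581 (.leaf 317 1773 .nil)) .nil)) .nil)) .nil)) .nil))) (.cons 268 (.leaf 269 1954 (.cons 244 (.leaf 267 1946 (.cons 219 (.leaf 220 1755 (.cons 243 (.leaf 218 1747 (.leaf 222 1753 .nil)) .nil)) .nil)) .nil)) (.cons 220 (.leaf 221 1763 (.cons 244 (.leaf 219 1755 (.cons 243 (.leaf 222 1753 (.cons 267 (.leaf 268 1946 (.leaf 266 1938 .nil)) .nil)) .nil)) .nil)) (.cons 268 (.leaf 269 1954 (.cons 220 (.leaf 221 1763 (.cons 244 (.leaf 219 1755 (.leaf 267 1946 .nil)) .nil)) .nil)) (.cons 221 (.leaf 220 1763 (.cons 269 (.leaf 268 1954 (.cons 270 (.cons 294 (.leaf 318 1781 (.leaf 222 1589 .nil)) (.cons 197 (.leaf 173 1388 (.cons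 172 (.leaf 196 1383 (.cons 198 (.leaf 174 1389 (.cons 293 (.leaf 222 1581 (.cons 316 (.leaf 292 1766 (.cons 317 (.leaf 340 1958 (.leaf 341 1965 .nil)) .nil)) .nil)) .nil)) .nil)) .nil)) (.cons 294 (.leaf 318 1781 (.leaf 197 1580 .nil)) .nil))) .nil)) .nil)) .nil)))))
noncomputable def t49 : T := .cons 223 (.leaf 175 1404 (.cons 271 (.cons 174 (.leaf 198 1399 (.cons 270 (.leaf 294 1590 (.cons 269 (.leaf 244 1955 (.leaf 268 1953 .nil)) .nil)) .nil)) (.cons 198 (.leaf 174 1399 (.cons 200 (.leaf 176 1405 (.cons 222 (.leaf 295 1591 (.cons 221 (.leaf 220 1760 (.leaf 201 1578 .nil)) .nil)) .nil)) .nil)) (.cons 270 (.leaf 294 1590 (.cons 269 (.leaf 244 1955 (.leaf 268 1953 .nil)) .nil)) .nil))) .nil)) (.cons 223 (.leaf 175 1404 (.cons 246 t48 .nil)) (.cons 269 t47 (.cons 246 t45 (.cons 223 (.leaf 175 1404 (.cons 271 (.cons 176 (.leaf 200 1405 (.cons 198 (.leaf 174 1399 (.cons 222 (.leaf 295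 1591 (.cons 270 (.leaf 294 1590 (.cons 269 (.leaf 244 1955 (.leaf 268 1953 .nil)) .nil)) .nil)) .nil)) .nil)) (.cons 176 (.leaf 200 1405 (.cons 198 (.leaf 174 1399 (.cons 244 (.leaf 246 1952 (.cons 295 (.leaf 222 1591 (.cons 318 (.leaf 294 1782 (.cons 319 (.leaf 343 1981 (.leaf 342 1974 .nil)) .nil)) .nil)) .nil)) .nil)) .nil)) (.cons 176 (.leaf 200 1405 (.cons 198 (.leaf 174 1399 (.cons 222 (.leaf 295 1591 (.cons 270 (.leaf 294 1590 (.cons 269 (.leaf 268 1953 (.cons 293 (.leaf 292 2146 (.leaf 246 1582 .nil)) .nil)) .nil)) .nil)) .nil)) .nil)) (.cons 270 (.leaf 294 1590 (.cons 269 (.leaf 244 1955 (.leaf 268 1953 .nil)) .nil)) (.cons 176 (.leaf 200 1405 (.cons 198 (.leaf 174 1399 (.cons 222 (.leaf 295 1591 (.cons 246 (.leaf 244 1952 (.cons 269 (.leaf 268 1954 (.cons 293 (.leaf 317 1773 (.leaf 270 1582 .nil)) .nil)) .nil)) .nil)) .nil)) .nil)) .nil))))) .nil)) (.cons 223 (.leaf 175 1404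 (.cons 271 (.cons 176 (.leaf 200 1405 (.cons 198 (.leaf 174 1399 (.cons 222 (.leaf 295 1591 (.cons 221 (.leaf 220 1760 (.cons 269 (.leaf 293 1581 (.cons 270 (.leaf 244 1955 (.leaf 294 1590 .nil)) .nil)) .nil)) .nil)) .nil)) .nil)) (.cons 246 (.leaf 244 1952 (.cons 176 (.leaf 200 1405 (.cons 220 (.leaf 221 1763 (.cons 294 (.leaf 270 1590 (.cons 295 (.leaf 318 1782 (.cons 319 (.leaf 343 1981 (.leaf 222 1783 .nil)) .nil)) .nil)) .nil)) .nil)) .nil)) (.cons 198 (.leaf 174 1399 (.cons 200 (.leaf 176 1405 (.cons 222 (.leaf 295 1591 (.cons 221 (.leaf 220 1760 (.leaf 201 1578 .nil)) .nil)) .nil)) .nil)) (.cons 246 (.leaf 244 1952 (.cons 174 (.leaf 198 1399 (.cons 220 (.leaf 221 1763 (.cons 294 (.leaf 270 1590 (.cons 295 (.leaf 318 1782 (.cons 319 (.leaf 343 1981 (.leaf 222 1783 .nil)) .nil)) .nil)) .nil)) .nil)) .nil)) (.cons 270 (.leaf 294 1590 (.cons 244 (.leaf 246 1952 (.leaf 269 1955 .nil))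 .nil)) .nil))))) .nil)) (.cons 223 (.leaf 175 1404 (.cons 246 (.cons 220 (.leaf 221 1763 (.cons 244 (.leaf 271 1952 (.leaf 219 1755 .nil)) .nil)) (.cons 221 (.leaf 220 1763 (.cons 269 (.leaf 268 1954 (.cons 198 (.cons 174 (.leaf 271 1399 (.leaf 197 1389 .nil)) (.cons 222 (.leaf 293 1581 (.cons 200 (.leaf 201 1578 (.cons 271 (.leaf 176 1405 (.leaf 295 1591 .nil)) .nil)) .nil)) (.cons 174 (.leaf 197 1389 (.leaf 222 1390 .nil)) .nil))) .nil)) .nil)) (.cons 244 (.leaf 271 1952 (.cons 268 (.leaf 269 1954 (.leaf 267 1946 .nil)) .nil)) (.cons 220 (.leaf 221 1763 (.cons 244 (.leaf 219 1755 (.cons 243 (.leaf 222 1753 (.cons 267 (.leaf 268 1946 (.leaf 266 1938 .nil)) .nil)) .nil)) .nil)) .nil)))) .nil)) (.cons 223 (.leaf 175 1404 (.cons 246 t44 .nil)) (.cons 223 (.leaf 175 1404 (.cons 246 (.cons 244 (.leaf 271 1952 (.cons 220 (.leaf 221 1763 (.leaf 219 1755 .nil)) .nil)) (.cons 268 (.leaf 269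 1954 (.cons 220 (.leaf 221 1763 (.cons 244 (.leaf 219 1755 (.leaf 267 1946 .nil)) .nil)) .nil)) (.cons 269 (.leaf 268 1954 (.cons 221 (.leaf 220 1763 (.cons 293 (.cons 292 (.leaf 316 1766 (.cons 270 (.leaf 271 2146 (.cons 294 (.leaf 318 1772 (.leaf 197 1580 .nil)) .nil)) .nil)) (.cons 316 (.leaf 292 1766 (.cons 317 (.leaf 340 1958 (.cons 341 (.leaf 270 1965 (.cons 342 (.leaf 318 1964 (.leaf 366 2156 .nil)) .nil)) .nil)) .nil)) (.cons 292 (.leaf 316 1766 (.cons 270 (.leaf 271 2146 (.cons 197 (.leaf 173 1388 (.leaf 294 1580 .nil)) .nil)) .nil)) (.cons 318 (.leaf 294 1772 (.cons 316 (.leaf 292 1766 (.cons 317 (.leaf 340 1958 (.leaf 342 1964 .nil)) .nil)) .nil)) (.cons 294 (.leaf 318 1772 (.cons 270 (.leaf 271 1590 (.leaf 197 1580 .nil)) .nil)) .nil))))) .nil)) .nil)) (.cons 244 (.leaf 271 1952 (.cons 268 (.leaf 269 1954 (.leaf 267 1946 .nil)) .nil)) .nil)))) .nil)) .nil))))))))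
noncomputable def t50 : T := .cons 223 (.leaf 175 1404 (.cons 246 (.cons 271 (.leaf 244 1952 (.cons 174 (.leaf 198 1399 (.cons 220 (.leaf 221 1763 (.cons 294 (.leaf 270 1590 (.cons 295 (.leaf 318 1782 (.cons 319 (.leaf 343 1981 (.leaf 222 1783 .nil)) .nil)) .nil)) .nil)) .nil)) .nil)) (.cons 268 (.leaf 269 1954 (.cons 220 (.leaf 221 1763 (.cons 244 (.leaf 219 1755 (.leaf 267 1946 .nil)) .nil)) .nil)) (.cons 221 (.leaf 220 1763 (.cons 269 (.leaf 268 1954 (.cons 198 (.cons 174 (.leaf 271 1399 (.leaf 197 1389 .nil)) (.cons 222 (.leaf 293 1581 (.cons 200 (.leaf 201 1578 (.cons 270 (.leaf 294 1589 (.cons 197 (.leaf 173 1388 (.cons 196 (.leaf 172 1383 (.leaf 195 1560 .nil)) .nil)) .nil)) .nil)) .nil)) (.cons 222 (.leaf 174 1390 (.leaf 293 1581 .nil)) .nil))) .nil)) .nil)) (.cons 271 (.leaf 244 1952 (.cons 174 (.leaf 198 1399 (.cons 176 (.leaf 200 1405 (.cons 294 (.leaf 270 1590 (.cons 295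 (.leaf 318 1782 (.cons 319 (.leaf 343 1981 (.leaf 222 1783 .nil)) .nil)) .nil)) .nil)) .nil)) .nil)) .nil)))) .nil)) (.cons 246 (.cons 244 (.leaf 271 1952 (.cons 268 (.leaf 269 1954 (.leaf 267 1946 .nil)) .nil)) (.cons 269 (.leaf 268 1954 (.cons 221 (.leaf 220 1763 (.cons 197 (.cons 172 (.leaf 196 1383 (.cons 148 (.leaf 173 1191 (.cons 198 (.leaf 174 1389 (.cons 293 (.leaf 222 1581 (.cons 316 (.leaf 292 1766 (.cons 317 (.leaf 340 1958 (.cons 318 (.leaf 294 1772 (.leaf 342 1964 .nil)) .nil)) .nil)) .nil)) .nil)) .nil)) .nil)) (.cons 172 (.leaf 196 1383 (.cons 173 (.leaf 148 1191 (.leaf 270 1388 .nil)) .nil)) (.cons 172 (.leaf 196 1383 (.cons 174 (.leaf 198 1389 (.cons 294 (.leaf 270 1580 (.cons 293 (.leaf 318 1772 (.cons 316 (.leaf 292 1766 (.cons 317 (.leaf 222 1773 (.leaf 340 1958 .nil)) .nil)) .nil)) .nil)) .nil)) .nil)) (.cons 270 (.leaf 173 1388 (.leaf 294 1580 .nil)) .nil))))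 .nil)) .nil)) (.cons 244 (.leaf 271 1952 (.cons 220 (.leaf 221 1763 (.leaf 219 1755 .nil)) .nil)) .nil))) t49)
noncomputable def t51 : T := .cons 201 (.leaf 177 1413 (.cons 202 (.cons 179 (.leaf 178 1401 (.cons 203 (.leaf 180 1409 (.cons 204 (.leaf 225 1602 (.cons 228 (.leaf 227 1600 (.leaf 229 1608 .nil)) .nil)) .nil)) .nil)) (.cons 179 (.leaf 178 1401 (.cons 203 (.leaf 180 1409 (.cons 225 (.leaf 204 1602 (.cons 198 (.leaf 197 1576 (.leaf 226 1584 .nil)) .nil)) .nil)) .nil)) (.cons 271 (.leaf 295 1598 (.leaf 176 1406 .nil)) .nil))) .nil)) (.cons 201 (.leaf 177 1413 (.cons 202 (.cons 179 (.leaf 178 1401 (.cons 203 (.leaf 180 1409 (.cons 204 (.leaf 225 1602 (.cons 228 (.leaf 227 1600 (.leaf 229 1608 .nil)) .nil)) .nil)) .nil)) (.cons 179 (.leaf 178 1401 (.cons 203 (.leaf 180 1409 (.cons 225 (.leaf 204 1602 (.cons 198 (.leaf 197 1576 (.leaf 226 1584 .nil)) .nil)) .nil)) .nil)) (.cons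 227 (.leaf 226 1592 (.cons 178 (.leaf 179 1401 (.cons 203 (.leaf 251 1431 (.leaf 228 1600 .nil)) .nil)) .nil)) (.cons 226 (.leaf 227 1592 (.cons 198 (.leaf 225 1584 (.cons 173 (.leaf 174 1387 (.cons 197 (.leaf 172 1379 (.cons 221 (.leaf 220 1570 (.leaf 222 1578 .nil)) .nil)) .nil)) .nil)) .nil)) .nil)))) .nil)) (.cons 271 (.leaf 295 1598 (.leaf 176 1406 .nil)) .nil))
noncomputable def t52 : T := .cons 176 (.leaf 177 1385 (.cons 172 (.leaf 173 1379 (.cons 221 (.leaf 220 1570 (.cons 196 (.leaf 171 1371 (.leaf 175 1377 .nil)) .nil)) .nil)) .nil)) (.cons 176 (.leaf 177 1385 (.cons 172 (.leaf 173 1379 (.cons 196 (.leaf 171 1371 (.leaf 175 1377 .nil)) .nil)) .nil)) (.cons 221 (.leaf 220 1570 (.cons 172 (.leaf 173 1379 (.cons 171 (.leaf 196 1371 (.cons 201 (.leaf 222 1578 (.cons 178 (.leaf 177 1393 (.cons 202 (.leaf 179 1401 (.cons 226 (.leaf 225 1584 (.leaf 227 1592 .nil)) .nil)) .nil))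 .nil)) .nil)) .nil)) .nil)) (.cons 221 (.leaf 220 1570 (.cons 172 (.leaf 173 1379 (.cons 196 (.leaf 171 1371 (.cons 124 (.leaf 148 996 (.cons 175 (.leaf 176 1377 (.cons 222 (.leaf 201 1578 (.cons 245 (.leaf 269 1383 (.cons 246 (.leaf 270 1397 (.cons 244 (.leaf 271 1952 (.cons 243 (.leaf 242 1745 (.cons 267 (.leaf 268 1946 (.leaf 266 1938 .nil)) .nil)) .nil)) .nil)) .nil)) .nil)) .nil)) .nil)) .nil)) .nil)) .nil)) (.cons 221 (.leaf 220 1570 (.cons 176 (.leaf 177 1385 (.cons 175 (.leaf 196 1377 (.cons 201 (.leaf 222 1578 (.cons 202 (.leaf 203 1403 (.cons 226 (.leaf 225 1584 (.leaf 227 1592 .nil)) .nil)) .nil)) .nil)) .nil)) .nil)) (.cons 221 (.leaf 220 1570 (.cons 172 (.leaf 173 1379 (.cons 176 (.leaf 177 1385 (.cons 201 (.leaf 222 1578 (.cons 226 (.leaf 225 1584 (.cons 202 (.leaf 227 1592 (.cons 179 (.leaf 178 1401 (.cons 203 (.leaf 175 1403 (.leaf 180 1409 .nil)) .nil)) .nil)) .nil))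 .nil)) .nil)) .nil)) .nil)) .nil)))))
noncomputable def t53 : T := .cons 197 (.cons 176 (.leaf 177 1385 (.cons 172 (.leaf 173 1379 (.cons 196 (.leaf 171 1371 (.leaf 175 1377 .nil)) .nil)) .nil)) (.cons 176 (.leaf 177 1385 (.cons 196 (.leaf 175 1377 (.cons 220 (.leaf 219 1562 (.leaf 221 1570 .nil)) .nil)) .nil)) (.cons 220 (.leaf 221 1570 (.cons 172 (.leaf 173 1379 (.cons 196 (.leaf 171 1371 (.leaf 219 1562 .nil)) .nil)) .nil)) (.cons 221 (.leaf 220 1570 (.cons 173 (.leaf 172 1379 (.cons 176 (.leaf 177 1385 (.cons 149 (.cons 222 (.leaf 125 1004 (.leaf 246 1196 .nil)) (.cons 150 (.leaf 126 1005 (.cons 124 (.leaf 148 999 (.cons 125 (.leaf 100 807 (.cons 174 (.leaf 101 812 (.leaf 245 1197 .nil)) .nil)) .nil)) .nil)) (.cons 246 (.leaf 222 1196 (.cons 124 (.leaf 148 999 (.cons 150 (.leaf 126 1005 (.cons 245 (.leaf 174 1197 (.leaf 270 1388 .nil)) .nil)) .nil)) .nil)) .nil))) .nil)) .nil))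 .nil)) .nil)))) (.cons 201 (.cons 178 (.leaf 177 1393 (.cons 202 (.leaf 179 1401 (.cons 226 (.leaf 225 1584 (.leaf 227 1592 .nil)) .nil)) .nil)) (.cons 174 (.leaf 173 1387 (.cons 175 (.leaf 202 1395 (.cons 222 (.leaf 221 1578 (.cons 246 (.leaf 271 1396 (.leaf 270 1397 .nil)) .nil)) .nil)) .nil)) (.cons 174 (.leaf 173 1387 (.cons 177 (.leaf 178 1393 (.cons 222 (.leaf 221 1578 (.cons 225 (.leaf 226 1584 (.cons 246 (.leaf 271 1396 (.cons 175 (.leaf 270 1397 (.leaf 151 1205 .nil)) .nil)) .nil)) .nil)) .nil)) .nil)) .nil))) (.cons 201 (.cons 221 (.leaf 222 1578 (.cons 197 (.leaf 220 1570 (.cons 226 (.leaf 225 1584 (.cons 202 (.leaf 227 1592 (.cons 175 (.leaf 174 1395 (.cons 176 (.leaf 196 1377 (.leaf 177 1385 .nil)) .nil)) .nil)) .nil)) .nil)) .nil)) (.cons 221 (.leaf 222 1578 (.cons 197 (.leaf 220 1570 (.cons 226 (.leaf 225 1584 (.cons 202 (.leaf 227 1592 (.cons 175 (.leaf 174 1395 (.cons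 176 (.leaf 196 1377 (.leaf 203 1403 .nil)) .nil)) .nil)) .nil)) .nil)) .nil)) (.cons 177 (.leaf 178 1393 (.cons 176 (.leaf 197 1385 (.cons 226 (.leaf 225 1584 (.cons 202 (.leaf 227 1592 (.cons 203 (.leaf 175 1403 (.leaf 204 1411 .nil)) .nil)) .nil)) .nil)) .nil)) (.cons 177 (.leaf 178 1393 (.cons 197 (.leaf 176 1385 (.cons 221 (.leaf 220 1570 (.leaf 222 1578 .nil)) .nil)) .nil)) (.cons 178 (.leaf 177 1393 (.cons 202 (.leaf 179 1401 (.cons 226 (.leaf 225 1584 (.leaf 227 1592 .nil)) .nil)) .nil)) .nil))))) (.cons 197 t52 (.cons 201 (.cons 178 (.leaf 177 1393 (.cons 202 (.leaf 179 1401 (.cons 226 (.leaf 225 1584 (.leaf 227 1592 .nil)) .nil)) .nil)) (.cons 174 (.leaf 173 1387 (.cons 202 (.leaf 175 1395 (.cons 226 (.leaf 225 1584 (.leaf 227 1592 .nil)) .nil)) .nil)) (.cons 173 (.leaf 174 1387 (.cons 177 (.leaf 178 1393 (.cons 197 (.leaf 172 1379 (.leaf 176 1385 .nil)) .nil)) .nil)) .nil)))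 (.cons 197 (.cons 172 (.leaf 173 1379 (.cons 196 (.leaf 171 1371 (.cons 220 (.leaf 219 1562 (.leaf 221 1570 .nil)) .nil)) .nil)) (.cons 221 (.leaf 220 1570 (.cons 201 (.leaf 222 1578 (.cons 226 (.leaf 225 1584 (.cons 202 (.leaf 227 1592 (.cons 175 (.leaf 174 1395 (.cons 176 (.leaf 196 1377 (.leaf 203 1403 .nil)) .nil)) .nil)) .nil)) .nil)) .nil)) (.cons 172 (.leaf 173 1379 (.cons 196 (.leaf 171 1371 (.cons 175 (.leaf 176 1377 (.cons 195 (.leaf 174 1369 (.cons 219 (.leaf 220 1562 (.leaf 218 1554 .nil)) .nil)) .nil)) .nil)) .nil)) (.cons 172 (.leaf 173 1379 (.cons 196 (.leaf 171 1371 (.cons 175 (.leaf 176 1377 (.cons 174 (.leaf 195 1369 (.cons 201 (.leaf 202 1395 (.cons 222 (.leaf 221 1578 (.cons 246 (.leaf 271 1396 (.leaf 270 1397 .nil)) .nil)) .nil)) .nil)) .nil)) .nil)) .nil)) (.cons 173 (.leaf 172 1379 (.cons 174 (.leaf 201 1387 (.cons 221 (.leaf 220 1570 (.cons 150 (.leaf 126 1006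 (.leaf 245 1197 .nil)) .nil)) .nil)) .nil)) .nil))))) (.cons 201 (.cons 173 (.leaf 174 1387 (.cons 177 (.leaf 178 1393 (.cons 197 (.leaf 172 1379 (.leaf 176 1385 .nil)) .nil)) .nil)) (.cons 173 (.leaf 174 1387 (.cons 197 (.leaf 172 1379 (.cons 221 (.leaf 220 1570 (.leaf 222 1578 .nil)) .nil)) .nil)) (.cons 177 (.leaf 178 1393 (.cons 197 (.leaf 176 1385 (.cons 221 (.leaf 220 1570 (.leaf 222 1578 .nil)) .nil)) .nil)) (.cons 178 (.leaf 177 1393 (.cons 202 (.leaf 179 1401 (.cons 226 (.leaf 225 1584 (.leaf 227 1592 .nil)) .nil)) .nil)) .nil)))) .nil))))))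
noncomputable def t54 : T := .cons 224 (.leaf 175 1407 (.cons 201 (.leaf 177 1413 (.cons 202 (.cons 179 (.leaf 178 1401 (.cons 203 (.leaf 180 1409 (.cons 204 (.leaf 225 1602 (.cons 228 (.leaf 227 1600 (.leaf 229 1608 .nil)) .nil)) .nil)) .nil)) (.cons 179 (.leaf 178 1401 (.cons 203 (.leaf 180 1409 (.cons 225 (.leaf 204 1602 (.cons 198 (.leaf 197 1576 (.leaf 226 1584 .nil)) .nil)) .nil)) .nil)) (.cons 271 (.leaf 295 1598 (.leaf 176 1406 .nil)) .nil))) .nil)) .nil)) (.cons 198 (.cons 201 (.cons 173 (.leaf 174 1387 (.cons 177 (.leaf 178 1393 (.cons 197 (.leaf 172 1379 (.leaf 176 1385 .nil)) .nil)) .nil)) (.cons 177 (.leaf 178 1393 (.cons 176 (.leaf 197 1385 (.cons 221 (.leaf 222 1578 (.cons 226 (.leaf 225 1584 (.cons 202 (.leaf 227 1592 (.cons 203 (.leaf 175 1403 (.leaf 204 1411 .nil)) .nil)) .nil)) .nil)) .nil)) .nil)) (.cons 173 (.leaf 174 1387 (.cons 197 (.leaf 172 1379 (.cons 221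 (.leaf 220 1570 (.leaf 222 1578 .nil)) .nil)) .nil)) (.cons 173 (.leaf 174 1387 (.cons 178 (.leaf 177 1393 (.cons 202 (.leaf 179 1401 (.cons 226 (.leaf 225 1584 (.leaf 227 1592 .nil)) .nil)) .nil)) .nil)) .nil)))) t53) (.cons 224 t51 (.cons 224 (.leaf 175 1407 (.cons 201 (.leaf 177 1413 (.cons 202 (.cons 227 (.leaf 226 1592 (.cons 178 (.leaf 179 1401 (.cons 203 (.leaf 251 1431 (.leaf 228 1600 .nil)) .nil)) .nil)) (.cons 179 (.leaf 178 1401 (.cons 203 (.leaf 180 1409 (.cons 204 (.leaf 225 1602 (.cons 228 (.leaf 227 1600 (.leaf 229 1608 .nil)) .nil)) .nil)) .nil)) (.cons 179 (.leaf 178 1401 (.cons 203 (.leaf 180 1409 (.cons 225 (.leaf 204 1602 (.cons 198 (.leaf 197 1576 (.leaf 226 1584 .nil)) .nil)) .nil)) .nil)) (.cons 226 (.leaf 227 1592 (.cons 198 (.leaf 225 1584 (.cons 173 (.leaf 174 1387 (.cons 197 (.leaf 172 1379 (.cons 221 (.leaf 220 1570 (.leaf 222 1578 .nil)) .nil)) .nil)) .nil))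 .nil)) .nil)))) .nil)) .nil)) (.cons 224 (.leaf 175 1407 (.cons 271 (.leaf 295 1598 (.leaf 176 1406 .nil)) .nil)) .nil))))
noncomputable def t55 : T := .cons 201 (.leaf 177 1413 (.cons 271 (.leaf 295 1598 (.leaf 176 1406 .nil)) .nil)) (.cons 201 (.leaf 177 1413 (.cons 202 (.cons 223 (.leaf 222 1586 (.leaf 203 1594 .nil)) (.cons 227 (.leaf 226 1592 (.cons 178 (.leaf 179 1401 (.cons 203 (.leaf 251 1431 (.leaf 228 1600 .nil)) .nil)) .nil)) (.cons 178 (.leaf 179 1401 (.cons 223 (.leaf 222 1586 (.cons 152 (.leaf 176 1214 (.cons 226 (.leaf 227 1592 (.cons 225 (.leaf 246 1778 (.cons 250 (.leaf 251 1784 (.cons 274 (.leaf 299 1620 (.leaf 298 1615 .nil)) .nil)) .nil)) .nil)) .nil)) .nil)) .nil)) .nil))) .nil)) (.cons 271 (.leaf 295 1598 (.cons 201 (.leaf 177 1413 (.cons 202 (.cons 223 (.leaf 222 1586 (.leaf 203 1594 .nil)) (.cons 178 (.leaf 179 1401 (.cons 227 (.leaf 226 1592 (.cons 203 (.leaf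 251 1431 (.leaf 228 1600 .nil)) .nil)) .nil)) (.cons 178 (.leaf 179 1401 (.cons 223 (.leaf 222 1586 (.cons 226 (.leaf 227 1592 (.cons 225 (.leaf 246 1778 (.cons 250 (.leaf 251 1784 (.cons 274 (.leaf 299 1620 (.leaf 298 1615 .nil)) .nil)) .nil)) .nil)) .nil)) .nil)) .nil))) .nil)) .nil)) (.cons 271 (.leaf 295 1598 (.leaf 176 1406 .nil)) .nil)))
noncomputable def t56 : T := .cons 177 (.leaf 224 1413 (.cons 178 (.leaf 198 1393 (.cons 179 (.leaf 202 1401 (.leaf 180 1410 .nil)) .nil)) .nil)) (.cons 198 (.cons 173 (.leaf 174 1387 (.cons 177 (.leaf 178 1393 (.cons 197 (.leaf 172 1379 (.cons 221 (.leaf 220 1570 (.leaf 222 1578 .nil)) .nil)) .nil)) .nil)) (.cons 173 (.leaf 174 1387 (.cons 172 (.leaf 197 1379 (.cons 178 (.leaf 177 1393 (.cons 202 (.leaf 179 1401 (.cons 226 (.leaf 225 1584 (.leaf 227 1592 .nil)) .nil)) .nil)) .nil)) .nil)) (.cons 177 (.leaf 178 1393 (.cons 222 (.leaf 221 1578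 (.cons 202 (.leaf 223 1586 (.cons 226 (.leaf 225 1584 (.leaf 227 1592 .nil)) .nil)) .nil)) .nil)) (.cons 222 (.leaf 221 1578 (.cons 202 (.leaf 223 1586 (.cons 226 (.leaf 225 1584 (.leaf 227 1592 .nil)) .nil)) .nil)) .nil)))) (.cons 198 (.cons 222 (.leaf 221 1578 (.cons 202 (.leaf 223 1586 (.cons 226 (.leaf 225 1584 (.leaf 227 1592 .nil)) .nil)) .nil)) (.cons 173 (.leaf 174 1387 (.cons 197 (.leaf 172 1379 (.cons 225 (.leaf 224 1576 (.leaf 226 1584 .nil)) .nil)) .nil)) (.cons 173 (.leaf 174 1387 (.cons 172 (.leaf 197 1379 (.cons 222 (.leaf 221 1578 (.cons 223 (.leaf 202 1586 (.cons 271 (.leaf 295 1591 (.cons 270 (.leaf 294 1590 (.cons 269 (.leaf 268 1953 (.cons 293 (.leaf 292 2146 (.leaf 246 1582 .nil)) .nil)) .nil)) .nil)) .nil)) .nil)) .nil)) .nil)) .nil))) (.cons 224 (.leaf 177 1413 (.cons 271 (.leaf 295 1598 (.cons 202 (.cons 223 (.leaf 222 1586 (.leaf 203 1594 .nil)) (.cons 178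 (.leaf 179 1401 (.cons 227 (.leaf 226 1592 (.cons 203 (.leaf 251 1431 (.leaf 228 1600 .nil)) .nil)) .nil)) (.cons 178 (.leaf 179 1401 (.cons 223 (.leaf 222 1586 (.cons 226 (.leaf 227 1592 (.cons 225 (.leaf 246 1778 (.cons 250 (.leaf 251 1784 (.cons 274 (.leaf 299 1620 (.leaf 298 1615 .nil)) .nil)) .nil)) .nil)) .nil)) .nil)) .nil))) .nil)) .nil)) (.cons 177 (.leaf 224 1413 (.cons 198 (.leaf 178 1393 (.cons 174 (.leaf 173 1387 (.cons 222 (.leaf 221 1578 (.cons 223 (.leaf 150 1204 (.leaf 271 1399 .nil)) .nil)) .nil)) .nil)) .nil)) .nil))))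
noncomputable def t57 : T := .cons 198 (.cons 173 (.leaf 174 1387 (.cons 197 (.leaf 172 1379 (.cons 221 (.leaf 220 1570 (.leaf 222 1578 .nil)) .nil)) .nil)) (.cons 173 (.leaf 174 1387 (.cons 197 (.leaf 172 1379 (.cons 225 (.leaf 224 1576 (.leaf 226 1584 .nil)) .nil)) .nil)) (.cons 177 (.leaf 224 1413 (.leaf 178 1393 .nil)) .nil))) (.cons 202 (.cons 178 (.leaf 179 1401 (.cons 226 (.leaf 227 1592 (.cons 198 (.leaf 225 1584 (.cons 173 (.leaf 174 1387 (.cons 197 (.leaf 172 1379 (.cons 221 (.leaf 220 1570 (.leaf 222 1578 .nil)) .nil)) .nil)) .nil)) .nil)) .nil)) (.cons 223 (.leaf 222 1586 (.cons 178 (.leaf 179 1401 (.cons 203 (.leaf 224 1594 (.cons 227 (.leaf 251 1431 (.leaf 228 1600 .nil)) .nil)) .nil)) .nil)) (.cons 223 (.leaf 222 1586 (.cons 179 (.leaf 178 1401 (.cons 203 (.leaf 180 1409 (.leaf 224 1594 .nil)) .nil)) .nil)) (.cons 226 (.leaf 227 1592 (.cons 178 (.leaf 179 1401 (.cons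 225 (.leaf 198 1584 (.cons 130 (.leaf 154 1038 (.cons 250 (.leaf 251 1428 (.cons 274 (.leaf 299 1620 (.leaf 298 1615 .nil)) .nil)) .nil)) .nil)) .nil)) .nil)) (.cons 226 (.leaf 227 1592 (.cons 198 (.leaf 225 1584 (.cons 222 (.leaf 221 1578 (.leaf 223 1586 .nil)) .nil)) .nil)) .nil))))) (.cons 198 (.cons 173 (.leaf 174 1387 (.cons 172 (.leaf 197 1379 (.cons 222 (.leaf 221 1578 (.cons 202 (.leaf 223 1586 (.cons 226 (.leaf 225 1584 (.leaf 227 1592 .nil)) .nil)) .nil)) .nil)) .nil)) (.cons 177 (.leaf 178 1393 (.cons 197 (.leaf 176 1385 (.cons 172 (.leaf 173 1379 (.cons 196 (.leaf 171 1371 (.cons 220 (.leaf 219 1562 (.leaf 221 1570 .nil)) .nil)) .nil)) .nil)) .nil)) (.cons 177 (.leaf 178 1393 (.cons 173 (.leaf 174 1387 (.cons 197 (.leaf 172 1379 (.leaf 176 1385 .nil)) .nil)) .nil)) (.cons 222 (.leaf 221 1578 (.cons 202 (.leaf 223 1586 (.cons 226 (.leaf 225 1584 (.leaf 227 1592 .nil)) .nil))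 .nil)) .nil)))) (.cons 224 (.leaf 177 1413 (.cons 202 (.cons 223 (.leaf 222 1586 (.leaf 203 1594 .nil)) (.cons 227 (.leaf 226 1592 (.cons 178 (.leaf 179 1401 (.cons 203 (.leaf 251 1431 (.leaf 228 1600 .nil)) .nil)) .nil)) (.cons 223 (.leaf 222 1586 (.cons 152 (.leaf 176 1214 (.cons 178 (.leaf 179 1401 (.cons 226 (.leaf 227 1592 (.cons 225 (.leaf 246 1778 (.cons 250 (.leaf 251 1784 (.cons 274 (.leaf 299 1620 (.leaf 298 1615 .nil)) .nil)) .nil)) .nil)) .nil)) .nil)) .nil)) .nil))) .nil)) (.cons 177 (.leaf 224 1413 (.cons 178 (.leaf 198 1393 (.cons 179 (.leaf 176 1402 (.leaf 202 1401 .nil)) .nil)) .nil)) (.cons 224 (.leaf 177 1413 (.cons 225 (.cons 226 (.leaf 227 1786 (.leaf 198 1584 .nil)) (.cons 198 (.leaf 197 1576 (.cons 174 (.leaf 173 1387 (.cons 222 (.leaf 221 1578 (.cons 223 (.leaf 150 1204 (.leaf 202 1585 .nil)) .nil)) .nil)) .nil)) (.cons 226 (.leaf 227 1786 (.cons 246 (.leaf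 245 1769 (.leaf 223 1778 .nil)) .nil)) .nil))) .nil)) .nil)))))
noncomputable def t58 : T := .cons 173 (.leaf 172 1379 (.cons 177 (.leaf 176 1385 (.cons 201 (.leaf 174 1387 (.leaf 178 1393 .nil)) .nil)) .nil)) (.cons 176 (.leaf 177 1385 (.cons 271 (.leaf 223 1405 (.cons 220 (.leaf 221 1570 (.cons 196 (.leaf 219 1562 (.cons 244 (.cons 245 (.leaf 246 1952 (.cons 269 (.leaf 270 1955 (.leaf 172 1380 .nil)) .nil)) (.cons 245 (.leaf 246 1952 (.cons 269 (.leaf 270 1955 (.cons 293 (.leaf 268 1572 (.leaf 317 1767 .nil)) .nil)) .nil)) (.cons 171 (.leaf 172 1371 (.cons 195 (.leaf 170 1363 (.leaf 268 1375 .nil)) .nil)) .nil))) .nil)) .nil)) .nil)) .nil)) (.cons 176 (.leaf 177 1385 (.cons 271 (.leaf 223 1405 (.cons 221 (.leaf 220 1570 (.cons 245 (.cons 244 (.leaf 246 1952 (.cons 173 (.leaf 268 1382 (.cons 174 (.leaf 201 1387 (.leaf 269 1389 .nil)) .nil)) .nil)) (.cons 244 (.leaf 246 1952 (.cons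 173 (.leaf 268 1382 (.cons 174 (.leaf 201 1387 (.leaf 150 1197 .nil)) .nil)) .nil)) (.cons 244 (.leaf 246 1952 (.cons 268 (.leaf 173 1382 (.cons 269 (.leaf 270 1953 (.leaf 292 1574 .nil)) .nil)) .nil)) (.cons 269 (.leaf 174 1389 (.cons 268 (.leaf 246 1954 (.leaf 270 1953 .nil)) .nil)) (.cons 269 (.leaf 174 1389 (.cons 270 (.leaf 244 1955 (.leaf 268 1953 .nil)) .nil)) (.cons 244 (.leaf 246 1952 (.cons 269 (.leaf 270 1955 (.leaf 174 1389 .nil)) .nil)) .nil)))))) .nil)) .nil)) .nil)) (.cons 173 (.leaf 172 1379 (.cons 174 (.leaf 201 1387 (.cons 221 (.leaf 220 1570 (.cons 150 (.leaf 126 1006 (.leaf 245 1197 .nil)) .nil)) .nil)) .nil)) .nil)))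
noncomputable def t59 : T := .cons 220 (.leaf 221 1570 (.cons 172 (.leaf 173 1379 (.cons 196 (.leaf 171 1371 (.leaf 219 1562 .nil)) .nil)) .nil)) (.cons 172 (.leaf 173 1379 (.cons 176 (.leaf 177 1385 (.cons 271 (.leaf 223 1405 (.cons 196 (.leaf 171 1371 (.cons 245 (.cons 269 (.leaf 221 1383 (.cons 270 (.leaf 244 1955 (.leaf 268 1953 .nil)) .nil)) (.cons 246 (.leaf 244 1952 (.cons 222 (.leaf 174 1396 (.cons 295 (.leaf 319 1783 (.leaf 270 1588 .nil)) .nil)) .nil)) (.cons 269 (.leaf 221 1383 (.cons 268 (.leaf 246 1954 (.leaf 270 1953 .nil)) .nil)) (.cons 246 (.leaf 244 1952 (.cons 269 (.leaf 268 1954 (.leaf 221 1383 .nil)) .nil)) .nil)))) .nil)) .nil)) .nil)) .nil)) (.cons 176 (.leaf 177 1385 (.cons 172 (.leaf 173 1379 (.cons 196 (.leaf 171 1371 (.cons 219 (.leaf 220 1562 (.cons 195 (.leaf 218 1554 (.cons 223 (.leaf 271 1405 (.leaf 222 1560 .nil)) .nil)) .nil)) .nil)) .nil)) .nil)) (.cons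 220 (.leaf 221 1570 (.cons 176 (.leaf 177 1385 (.cons 223 (.leaf 271 1405 (.cons 196 (.leaf 219 1562 (.cons 222 (.leaf 195 1560 (.cons 174 (.leaf 150 1204 (.cons 152 (.leaf 128 1022 (.cons 246 (.cons 173 (.leaf 149 1199 (.leaf 270 1391 .nil)) (.cons 269 (.leaf 245 1390 (.cons 270 (.leaf 294 1589 (.leaf 293 1582 .nil)) .nil)) (.cons 173 (.leaf 149 1199 (.cons 244 (.leaf 268 1381 (.cons 245 (.leaf 269 1390 (.leaf 243 1753 .nil)) .nil)) .nil)) .nil))) .nil)) .nil)) .nil)) .nil)) .nil)) .nil)) .nil)) (.cons 220 (.leaf 221 1570 (.cons 176 (.leaf 177 1385 (.cons 196 (.leaf 219 1562 (.cons 171 (.leaf 172 1371 (.cons 195 (.leaf 170 1363 (.cons 223 (.leaf 271 1405 (.leaf 222 1560 .nil)) .nil)) .nil)) .nil)) .nil)) .nil)) (.cons 221 (.leaf 220 1570 (.cons 173 (.leaf 172 1379 (.cons 176 (.leaf 177 1385 (.cons 223 (.leaf 271 1405 (.cons 174 (.cons 150 (.leaf 222 1204 (.leaf 126 1012 .nil)) (.cons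 128 (.leaf 152 1022 (.cons 245 (.leaf 269 1389 (.cons 246 (.leaf 270 1388 (.cons 149 (.leaf 222 1196 (.cons 124 (.leaf 148 999 (.cons 125 (.leaf 101 812 (.leaf 100 807 .nil)) .nil)) .nil)) .nil)) .nil)) .nil)) (.cons 150 (.leaf 126 1012 (.leaf 245 1197 .nil)) .nil))) .nil)) .nil)) .nil)) .nil)) .nil)))))
noncomputable def t60 : T := .cons 174 (.cons 223 (.leaf 271 1399 (.cons 150 (.leaf 222 1204 (.leaf 126 1012 .nil)) .nil)) (.cons 173 (.leaf 201 1387 (.cons 172 (.leaf 171 1368 (.leaf 197 1379 .nil)) .nil)) .nil)) (.cons 197 t59 (.cons 201 (.cons 174 (.leaf 173 1387 (.cons 177 (.leaf 178 1393 (.cons 222 (.leaf 221 1578 (.cons 223 (.leaf 150 1204 (.leaf 271 1399 .nil)) .nil)) .nil)) .nil)) (.cons 173 (.leaf 174 1387 (.cons 178 (.leaf 177 1393 (.cons 202 (.leaf 179 1401 (.cons 226 (.leaf 225 1584 (.leaf 227 1592 .nil)) .nil)) .nil)) .nil)) (.cons 177 (.leaf 178 1393 (.cons 222 (.leaf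 221 1578 (.cons 202 (.leaf 223 1586 (.cons 226 (.leaf 225 1584 (.leaf 227 1592 .nil)) .nil)) .nil)) .nil)) (.cons 174 (.leaf 173 1387 (.cons 223 (.leaf 271 1399 (.cons 150 (.leaf 222 1204 (.leaf 126 1012 .nil)) .nil)) .nil)) .nil)))) (.cons 201 (.cons 173 (.leaf 174 1387 (.cons 178 (.leaf 177 1393 (.cons 202 (.leaf 179 1401 (.cons 226 (.leaf 225 1584 (.leaf 227 1592 .nil)) .nil)) .nil)) .nil)) (.cons 173 (.leaf 174 1387 (.cons 197 (.leaf 172 1379 (.cons 221 (.leaf 220 1570 (.leaf 222 1578 .nil)) .nil)) .nil)) (.cons 177 (.leaf 178 1393 (.cons 197 (.leaf 176 1385 (.cons 221 (.leaf 220 1570 (.leaf 222 1578 .nil)) .nil)) .nil)) .nil))) (.cons 201 (.cons 177 (.leaf 178 1393 (.cons 197 (.leaf 176 1385 (.cons 221 (.leaf 220 1570 (.leaf 222 1578 .nil)) .nil)) .nil)) (.cons 177 (.leaf 178 1393 (.cons 197 (.leaf 176 1385 (.cons 172 (.leaf 173 1379 (.cons 196 (.leaf 171 1371 (.cons 220 (.leaf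 219 1562 (.leaf 221 1570 .nil)) .nil)) .nil)) .nil)) .nil)) (.cons 177 (.leaf 178 1393 (.cons 176 (.leaf 197 1385 (.cons 223 (.leaf 271 1405 (.cons 128 (.leaf 152 1022 (.cons 202 (.leaf 222 1586 (.cons 226 (.leaf 225 1584 (.leaf 227 1592 .nil)) .nil)) .nil)) .nil)) .nil)) .nil)) (.cons 222 (.leaf 221 1578 (.cons 202 (.leaf 223 1586 (.cons 226 (.leaf 225 1584 (.leaf 227 1592 .nil)) .nil)) .nil)) .nil)))) (.cons 197 t58 (.cons 201 (.cons 177 (.leaf 178 1393 (.cons 197 (.leaf 176 1385 (.cons 221 (.leaf 220 1570 (.leaf 222 1578 .nil)) .nil)) .nil)) (.cons 178 (.leaf 177 1393 (.cons 202 (.leaf 179 1401 (.cons 226 (.leaf 225 1584 (.leaf 227 1592 .nil)) .nil)) .nil)) (.cons 222 (.leaf 221 1578 (.cons 202 (.leaf 223 1586 (.cons 226 (.leaf 225 1584 (.leaf 227 1592 .nil)) .nil)) .nil)) .nil))) .nil))))))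
noncomputable def t61 : T := .cons 224 (.cons 201 (.leaf 177 1413 (.cons 202 (.cons 226 (.leaf 227 1592 (.cons 198 (.leaf 225 1584 (.cons 173 (.leaf 174 1387 (.cons 197 (.leaf 172 1379 (.cons 221 (.leaf 220 1570 (.leaf 222 1578 .nil)) .nil)) .nil)) .nil)) .nil)) (.cons 223 (.leaf 222 1586 (.leaf 203 1594 .nil)) (.cons 271 (.leaf 295 1598 (.leaf 176 1406 .nil)) .nil))) .nil)) (.cons 201 (.leaf 177 1413 (.cons 202 (.cons 178 (.leaf 179 1401 (.cons 227 (.leaf 226 1592 (.cons 203 (.leaf 251 1431 (.leaf 223 1594 .nil)) .nil)) .nil)) (.cons 226 (.leaf 227 1592 (.cons 198 (.leaf 225 1584 (.cons 173 (.leaf 174 1387 (.cons 197 (.leaf 172 1379 (.cons 221 (.leaf 220 1570 (.leaf 222 1578 .nil)) .nil)) .nil)) .nil)) .nil)) (.cons 223 (.leaf 222 1586 (.leaf 203 1594 .nil)) .nil))) .nil)) (.cons 271 (.leaf 295 1598 (.leaf 176 1406 .nil)) .nil))) (.cons 198 t60 (.cons 201 t57 (.cons 224 (.cons 271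 (.leaf 295 1598 (.leaf 176 1406 .nil)) (.cons 201 (.leaf 177 1413 (.cons 202 (.cons 178 (.leaf 179 1401 (.cons 227 (.leaf 226 1592 (.cons 203 (.leaf 251 1431 (.leaf 228 1600 .nil)) .nil)) .nil)) (.cons 179 (.leaf 178 1401 (.cons 203 (.leaf 180 1409 (.cons 204 (.leaf 225 1602 (.cons 228 (.leaf 227 1600 (.leaf 229 1608 .nil)) .nil)) .nil)) .nil)) (.cons 179 (.leaf 178 1401 (.cons 203 (.leaf 180 1409 (.cons 225 (.leaf 204 1602 (.cons 198 (.leaf 197 1576 (.leaf 226 1584 .nil)) .nil)) .nil)) .nil)) (.cons 226 (.leaf 227 1592 (.cons 198 (.leaf 225 1584 (.cons 173 (.leaf 174 1387 (.cons 197 (.leaf 172 1379 (.cons 221 (.leaf 220 1570 (.leaf 222 1578 .nil)) .nil)) .nil)) .nil)) .nil)) .nil)))) .nil)) .nil)) (.cons 201 t56 (.cons 271 (.cons 176 (.leaf 224 1406 (.leaf 223 1405 .nil)) (.cons 223 (.leaf 176 1405 (.cons 270 (.leaf 294 1590 (.cons 198 (.leaf 174 1399 (.cons 222 (.leaf 295 1591 (.cons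 220 (.leaf 221 1760 (.cons 269 (.leaf 268 1953 (.cons 293 (.leaf 292 2146 (.leaf 246 1582 .nil)) .nil)) .nil)) .nil)) .nil)) .nil)) .nil)) (.cons 295 (.leaf 224 1598 (.cons 319 (.leaf 343 1981 (.cons 246 (.leaf 222 1783 (.cons 245 (.leaf 244 1952 (.cons 221 (.leaf 220 1763 (.cons 318 (.leaf 342 1974 (.cons 294 (.leaf 223 1782 (.leaf 270 1775 .nil)) .nil)) .nil)) .nil)) .nil)) .nil)) .nil)) (.cons 295 (.leaf 224 1598 (.cons 319 (.leaf 343 1981 (.cons 246 (.leaf 222 1783 (.cons 245 (.leaf 244 1952 (.cons 221 (.leaf 220 1763 (.cons 269 (.leaf 268 1954 (.cons 318 (.leaf 342 1974 (.cons 294 (.leaf 270 1775 (.leaf 293 1772 .nil)) .nil)) .nil)) .nil)) .nil)) .nil)) .nil)) .nil)) .nil)))) (.cons 224 t55 (.cons 224 (.cons 201 (.leaf 177 1413 (.cons 226 (.cons 225 (.leaf 227 1786 (.leaf 198 1584 .nil)) (.cons 202 (.leaf 227 1592 (.cons 179 (.leaf 178 1401 (.cons 271 (.leaf 295 1598 (.leaf 176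 1406 .nil)) .nil)) .nil)) (.cons 198 (.leaf 225 1584 (.cons 173 (.leaf 174 1387 (.cons 197 (.leaf 172 1379 (.cons 196 (.leaf 223 1568 (.cons 220 (.leaf 219 1562 (.leaf 221 1570 .nil)) .nil)) .nil)) .nil)) .nil)) .nil))) .nil)) (.cons 201 (.leaf 177 1413 (.cons 226 (.cons 225 (.leaf 227 1786 (.leaf 198 1584 .nil)) (.cons 202 (.leaf 227 1592 (.cons 179 (.leaf 178 1401 (.cons 203 (.leaf 180 1409 (.leaf 223 1594 .nil)) .nil)) .nil)) (.cons 198 (.leaf 225 1584 (.cons 173 (.leaf 174 1387 (.cons 197 (.leaf 172 1379 (.cons 196 (.leaf 223 1568 (.cons 220 (.leaf 219 1562 (.leaf 221 1570 .nil)) .nil)) .nil)) .nil)) .nil)) .nil))) .nil)) (.cons 271 (.leaf 295 1598 (.leaf 176 1406 .nil)) .nil))) .nil)))))))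
noncomputable def t62 : T := .cons 152 (.leaf 153 1193 (.cons 104 (.leaf 128 830 (.cons 197 (.leaf 196 1378 (.cons 198 (.leaf 177 1385 (.cons 221 (.leaf 220 1570 (.cons 150 (.leaf 126 1006 (.leaf 245 1197 .nil)) .nil)) .nil)) .nil)) .nil)) .nil)) (.cons 149 (.leaf 148 1187 (.cons 150 (.leaf 177 1195 (.cons 102 (.leaf 126 820 (.cons 152 (.leaf 153 1193 (.cons 128 (.leaf 104 830 (.cons 129 (.leaf 105 837 (.leaf 151 1001 .nil)) .nil)) .nil)) .nil)) .nil)) .nil)) (.cons 197 (.leaf 196 1378 (.cons 149 (.leaf 148 1187 (.cons 152 (.leaf 153 1193 (.cons 128 (.leaf 104 830 (.cons 129 (.leaf 105 837 (.cons 127 (.leaf 103 831 (.cons 150 (.leaf 126 1002 (.leaf 151 1001 .nil)) .nil)) .nil)) .nil)) .nil)) .nil)) .nil)) (.cons 148 (.leaf 149 1187 (.cons 197 (.leaf 196 1378 (.cons 177 (.leaf 198 1385 (.cons 154 (.leaf 153 1201 (.cons 178 (.leaf 179 1402 (.leaf 155 1209 .nil)) .nil)) .nil)) .nil))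 .nil)) (.cons 148 (.leaf 149 1187 (.cons 197 (.leaf 196 1378 (.cons 198 (.leaf 177 1385 (.cons 221 (.leaf 220 1570 (.cons 245 (.leaf 150 1197 (.leaf 269 1389 .nil)) .nil)) .nil)) .nil)) .nil)) .nil))))
noncomputable def t63 : T := .cons 175 (.leaf 223 1404 (.cons 200 (.leaf 224 1407 (.cons 174 (.cons 201 (.leaf 202 1395 (.cons 173 (.leaf 172 1376 (.leaf 198 1387 .nil)) .nil)) (.cons 201 (.leaf 202 1395 (.cons 198 (.cons 177 (.leaf 178 1393 (.cons 222 (.leaf 221 1578 (.cons 246 (.leaf 271 1396 (.leaf 270 1397 .nil)) .nil)) .nil)) (.cons 177 (.leaf 178 1393 (.cons 176 (.leaf 197 1385 (.cons 149 (.leaf 150 1195 (.cons 153 (.leaf 154 1201 (.cons 129 (.leaf 105 838 (.cons 106 (.leaf 130 845 (.cons 128 (.leaf 104 839 (.cons 225 (.leaf 226 1584 (.leaf 152 1028 .nil)) .nil)) .nil)) .nil)) .nil)) .nil)) .nil)) .nil)) (.cons 222 (.leaf 221 1578 (.cons 246 (.leaf 271 1396 (.leaf 270 1397 .nil))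 .nil)) .nil))) .nil)) (.cons 173 (.leaf 172 1376 (.cons 176 t62 .nil)) (.cons 173 (.leaf 172 1376 (.cons 201 (.leaf 202 1395 (.leaf 176 1384 .nil)) .nil)) .nil)))) .nil)) .nil)) (.cons 200 t61 (.cons 200 t54 (.cons 245 t50 (.cons 223 (.leaf 175 1404 (.cons 271 (.cons 198 (.leaf 174 1399 (.cons 295 (.leaf 222 1591 (.cons 294 (.leaf 270 1590 (.leaf 318 1782 .nil)) .nil)) .nil)) (.cons 198 (.leaf 174 1399 (.cons 295 (.leaf 222 1591 (.cons 319 (.leaf 343 1981 (.leaf 224 1789 .nil)) .nil)) .nil)) (.cons 294 (.leaf 270 1590 (.cons 295 (.leaf 318 1782 (.cons 319 (.leaf 343 1981 (.leaf 224 1789 .nil)) .nil)) .nil)) (.cons 198 (.leaf 174 1399 (.cons 270 (.leaf 294 1590 (.cons 269 (.leaf 268 1953 (.cons 245 (.leaf 244 1955 (.cons 293 (.leaf 292 2146 (.cons 222 (.leaf 221 1581 (.leaf 246 1582 .nil)) .nil)) .nil)) .nil)) .nil)) .nil)) .nil)))) .nil)) (.cons 175 (.leaf 223 1404 (.cons 200 (.leaf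 224 1407 (.cons 174 t43 .nil)) .nil)) (.cons 223 (.leaf 175 1404 (.cons 271 (.cons 176 (.leaf 200 1405 (.cons 198 (.leaf 174 1399 (.cons 270 (.leaf 294 1590 (.cons 269 (.leaf 268 1953 (.cons 245 (.leaf 244 1955 (.cons 293 (.leaf 292 2146 (.cons 221 (.leaf 222 1581 (.cons 196 (.leaf 220 1575 (.cons 197 (.leaf 224 1568 (.leaf 172 1383 .nil)) .nil)) .nil)) .nil)) .nil)) .nil)) .nil)) .nil)) .nil)) (.cons 198 (.leaf 174 1399 (.cons 295 (.leaf 222 1591 (.cons 294 (.leaf 270 1590 (.leaf 318 1782 .nil)) .nil)) .nil)) (.cons 200 (.leaf 176 1405 (.cons 224 (.leaf 295 1597 (.cons 201 (.leaf 177 1413 (.cons 202 (.leaf 222 1586 (.leaf 203 1594 .nil)) .nil)) .nil)) .nil)) (.cons 200 (.leaf 176 1405 (.cons 224 (.leaf 295 1597 (.cons 177 (.leaf 201 1413 (.cons 198 (.leaf 174 1399 (.cons 197 (.leaf 196 1568 (.leaf 225 1576 .nil)) .nil)) .nil)) .nil)) .nil)) .nil)))) .nil)) (.cons 223 (.leaf 175 1404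 (.cons 271 t42 .nil)) (.cons 175 (.leaf 223 1404 (.cons 200 (.leaf 224 1407 (.cons 201 t40 .nil)) .nil)) (.cons 223 (.leaf 175 1404 (.cons 271 (.cons 176 (.leaf 200 1405 (.cons 198 (.leaf 174 1399 (.cons 294 (.leaf 270 1590 (.cons 295 (.leaf 222 1591 (.leaf 318 1782 .nil)) .nil)) .nil)) .nil)) (.cons 174 (.leaf 198 1399 (.cons 294 (.leaf 270 1590 (.cons 295 (.leaf 318 1782 (.cons 319 (.leaf 343 1981 (.leaf 224 1789 .nil)) .nil)) .nil)) .nil)) (.cons 198 (.leaf 174 1399 (.cons 200 (.leaf 176 1405 (.cons 270 (.leaf 294 1590 (.cons 269 (.leaf 268 1953 (.cons 244 (.leaf 245 1955 (.cons 293 (.leaf 292 2146 (.cons 222 (.leaf 246 1582 (.cons 201 (.leaf 202 1586 (.cons 177 (.leaf 224 1413 (.leaf 178 1393 .nil)) .nil)) .nil)) .nil)) .nil)) .nil)) .nil)) .nil)) .nil)) (.cons 200 (.leaf 176 1405 (.cons 224 (.leaf 295 1597 (.cons 201 (.leaf 177 1413 (.cons 202 (.leaf 222 1586 (.leaf 203 1594 .nil))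 .nil)) .nil)) .nil)) .nil)))) .nil)) .nil)))))))))
noncomputable def t64 : T := .cons 318 (.leaf 223 1781 (.cons 271 (.leaf 342 1973 (.cons 222 (.leaf 221 1771 (.cons 295 (.leaf 319 1780 (.leaf 198 1588 .nil)) .nil)) .nil)) .nil)) (.cons 318 (.leaf 223 1781 (.cons 271 (.leaf 342 1973 (.cons 319 (.leaf 343 1972 (.cons 295 (.leaf 224 1789 (.cons 292 (.leaf 293 2145 (.cons 317 (.leaf 341 1966 (.cons 316 (.leaf 315 2329 (.leaf 291 2331 .nil)) .nil)) .nil)) .nil)) .nil)) .nil)) .nil)) (.cons 318 (.cons 271 (.leaf 342 1973 (.cons 222 (.leaf 221 1771 (.cons 295 (.leaf 319 1780 (.leaf 198 1588 .nil)) .nil)) .nil)) (.cons 271 (.leaf 342 1973 (.cons 319 (.leaf 343 1972 (.cons 295 (.leaf 224 1789 (.cons 292 (.leaf 293 2145 (.cons 317 (.leaf 341 1966 (.cons 316 (.leaf 315 2329 (.leaf 291 2331 .nil)) .nil)) .nil)) .nil)) .nil)) .nil)) (.cons 222 (.leaf 221 1771 (.cons 317 (.leaf 293 1774 (.leaf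 341 1966 .nil)) .nil)) .nil))) (.cons 222 (.leaf 221 1771 (.cons 199 (.leaf 223 1589 (.cons 175 (.leaf 198 1397 (.cons 200 (.leaf 224 1407 (.cons 174 (.leaf 202 1395 (.cons 173 (.leaf 176 1384 (.leaf 172 1376 .nil)) .nil)) .nil)) .nil)) .nil)) .nil)) .nil)))
noncomputable def t65 : T := .cons 270 (.leaf 269 1962 (.cons 225 (.leaf 226 1777 (.cons 201 (.leaf 177 1414 (.cons 245 (.leaf 224 1769 (.cons 220 (.leaf 221 1763 (.cons 244 (.leaf 271 1952 (.leaf 219 1755 .nil)) .nil)) .nil)) .nil)) .nil)) .nil)) (.cons 225 (.leaf 226 1777 (.cons 177 (.leaf 201 1414 (.cons 245 (.leaf 224 1769 (.cons 244 (.leaf 271 1952 (.cons 219 (.leaf 220 1755 (.cons 243 (.leaf 218 1747 (.cons 267 (.leaf 268 1946 (.leaf 266 1938 .nil)) .nil)) .nil)) .nil)) .nil)) .nil)) .nil)) (.cons 269 (.leaf 270 1962 (.cons 222 (.leaf 221 1771 (.cons 245 (.leaf 268 1954 (.cons 174 (.leaf 198 1390 (.cons 244 (.leaf 271 1952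 (.cons 219 (.leaf 220 1755 (.cons 243 (.leaf 218 1747 (.leaf 223 1753 .nil)) .nil)) .nil)) .nil)) .nil)) .nil)) .nil)) (.cons 270 (.leaf 269 1962 (.cons 225 (.leaf 226 1777 (.cons 201 (.leaf 177 1414 (.cons 294 t64 .nil)) .nil)) .nil)) (.cons 225 (.leaf 226 1777 (.cons 177 (.leaf 201 1414 (.cons 245 (.leaf 224 1769 (.cons 269 (.leaf 268 1954 (.leaf 270 1962 .nil)) .nil)) .nil)) .nil)) .nil))))
noncomputable def t66 : T := .cons 270 (.leaf 269 1962 (.cons 225 (.leaf 226 1777 (.cons 250 (.leaf 274 1976 (.leaf 271 1970 .nil)) .nil)) .nil)) (.cons 270 (.leaf 269 1962 (.cons 225 (.leaf 226 1777 (.cons 201 (.leaf 177 1414 (.cons 245 (.leaf 224 1769 (.cons 220 (.leaf 221 1763 (.cons 244 (.leaf 271 1952 (.leaf 219 1755 .nil)) .nil)) .nil)) .nil)) .nil)) .nil)) (.cons 225 (.leaf 226 1777 (.cons 177 (.leaf 201 1414 (.cons 245 (.leaf 224 1769 (.cons 244 (.leaf 271 1952 (.cons 219 (.leaf 220 1755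 (.cons 268 (.leaf 269 1954 (.leaf 267 1946 .nil)) .nil)) .nil)) .nil)) .nil)) .nil)) (.cons 269 (.leaf 270 1962 (.cons 222 (.leaf 221 1771 (.cons 245 (.leaf 268 1954 (.cons 174 (.leaf 198 1390 (.cons 244 (.leaf 271 1952 (.cons 219 (.leaf 220 1755 (.cons 243 (.leaf 218 1747 (.leaf 223 1753 .nil)) .nil)) .nil)) .nil)) .nil)) .nil)) .nil)) (.cons 225 (.leaf 226 1777 (.cons 177 (.leaf 201 1414 (.cons 245 (.leaf 224 1769 (.cons 250 (.leaf 274 1976 (.cons 271 (.leaf 244 1952 (.leaf 251 1978 .nil)) .nil)) .nil)) .nil)) .nil)) (.cons 225 (.leaf 226 1777 (.cons 177 (.leaf 201 1414 (.cons 245 (.leaf 224 1769 (.cons 269 (.leaf 268 1954 (.leaf 270 1962 .nil)) .nil)) .nil)) .nil)) .nil)))))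
noncomputable def t67 : T := .cons 344 (.cons 369 (.leaf 345 2180 (.cons 368 (.leaf 393 2372 (.cons 295 (.leaf 271 2175 (.cons 319 (.leaf 224 1790 (.leaf 343 1982 .nil)) .nil)) .nil)) .nil)) (.cons 369 (.leaf 345 2180 (.cons 368 (.leaf 393 2372 (.cons 295 (.leaf 271 2175 (.cons 319 (.leaf 224 1790 (.leaf 392 2367 .nil)) .nil)) .nil)) .nil)) (.cons 343 (.leaf 319 1982 (.leaf 367 2174 .nil)) (.cons 367 (.leaf 343 2174 (.cons 368 (.leaf 391 2366 (.cons 369 (.leaf 345 2180 (.leaf 393 2372 .nil)) .nil)) .nil)) .nil)))) (.cons 321 (.leaf 345 1988 (.cons 297 (.leaf 224 1796 (.cons 295 (.cons 294 (.leaf 293 2344 (.leaf 322 2352 .nil)) (.cons 293 (.leaf 294 2344 (.cons 298 (.leaf 274 2169 (.cons 271 (.leaf 299 2171 (.leaf 270 2163 .nil)) .nil)) .nil)) (.cons 298 (.leaf 274 2169 (.cons 271 (.leaf 299 2171 (.leaf 270 2163 .nil)) .nil)) .nil))) .nil)) .nil)) (.cons 319 (.leaf 343 1982 (.cons 297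 (.cons 224 (.leaf 295 1790 (.leaf 321 1796 .nil)) (.cons 298 (.leaf 299 2362 (.cons 318 (.leaf 295 2354 (.leaf 317 2345 .nil)) .nil)) (.cons 298 (.leaf 299 2362 (.cons 318 (.leaf 317 2345 (.leaf 321 2353 .nil)) .nil)) .nil))) .nil)) (.cons 343 (.leaf 319 1982 (.cons 344 (.leaf 367 2174 (.cons 345 (.leaf 321 1988 (.leaf 369 2180 .nil)) .nil)) .nil)) .nil)))
noncomputable def t68 : T := .cons 321 (.leaf 297 1796 (.cons 320 (.leaf 345 1988 (.cons 226 (.leaf 227 1595 (.cons 343 (.leaf 319 1982 (.cons 344 (.leaf 367 2174 (.cons 323 (.leaf 322 2554 (.cons 250 (.leaf 251 1815 (.cons 274 (.leaf 202 1620 (.leaf 347 2007 .nil)) .nil)) .nil)) .nil)) .nil)) .nil)) .nil)) .nil)) (.cons 227 (.leaf 226 1595 (.cons 251 (.cons 228 (.leaf 204 1629 (.cons 323 (.leaf 252 1821 (.cons 324 (.leaf 300 1820 (.leaf 348 2012 .nil)) .nil)) .nil)) (.cons 298 (.leaf 322 1814 (.cons 203 (.leaf 274 1622 (.cons 178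 (.leaf 202 1431 (.cons 179 (.leaf 154 1239 (.cons 180 (.leaf 204 1437 (.leaf 156 1245 .nil)) .nil)) .nil)) .nil)) .nil)) (.cons 298 (.leaf 322 1814 (.cons 324 (.leaf 300 1820 (.cons 323 (.leaf 348 2012 (.cons 228 (.leaf 252 1821 (.cons 274 (.leaf 203 1622 (.cons 347 (.leaf 250 2007 (.leaf 371 2199 .nil)) .nil)) .nil)) .nil)) .nil)) .nil)) .nil))) .nil)) (.cons 321 (.leaf 297 1796 (.cons 320 (.leaf 345 1988 (.cons 319 (.leaf 343 1982 (.cons 322 (.leaf 298 2361 (.cons 323 (.leaf 300 2369 (.cons 346 (.leaf 251 2006 (.leaf 347 2552 .nil)) .nil)) .nil)) .nil)) .nil)) .nil)) (.cons 297 (.leaf 321 1796 (.cons 227 (.leaf 226 1595 (.cons 298 (.leaf 271 2171 (.cons 251 (.leaf 322 1814 (.cons 203 (.leaf 274 1622 (.cons 204 (.leaf 180 1437 (.leaf 228 1629 .nil)) .nil)) .nil)) .nil)) .nil)) .nil)) (.cons 321 (.leaf 297 1796 (.cons 226 (.leaf 227 1595 (.cons 320 (.leaf 345 1988 (.cons 319 (.leaf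 343 1982 (.cons 322 (.leaf 298 2361 (.cons 323 (.leaf 300 2369 (.cons 347 (.leaf 346 2552 (.leaf 348 2560 .nil)) .nil)) .nil)) .nil)) .nil)) .nil)) .nil)) (.cons 297 (.leaf 321 1796 (.cons 226 (.leaf 227 1595 (.cons 298 (.leaf 271 2171 (.cons 323 (.leaf 324 2368 (.cons 250 (.leaf 251 1815 (.leaf 274 1812 .nil)) .nil)) .nil)) .nil)) .nil)) .nil)))))
noncomputable def t69 : T := .cons 224 (.leaf 201 1605 (.cons 223 (.leaf 199 1599 (.cons 249 (.leaf 320 1797 (.cons 222 (.leaf 221 1768 (.leaf 250 1776 .nil)) .nil)) .nil)) .nil)) (.cons 320 (.leaf 249 1797 (.cons 343 (.leaf 319 1982 (.cons 344 (.leaf 367 2174 (.cons 345 (.leaf 321 1988 (.leaf 369 2180 .nil)) .nil)) .nil)) .nil)) (.cons 224 (.leaf 201 1605 (.cons 223 (.leaf 199 1599 (.cons 297 (.leaf 321 1796 (.cons 226 (.cons 250 (.leaf 251 1784 (.cons 222 (.leaf 249 1776 (.cons 197 (.leaf 198 1579 (.cons 221 (.leaf 196 1571 (.cons 245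 (.leaf 246 1770 (.leaf 244 1762 .nil)) .nil)) .nil)) .nil)) .nil)) (.cons 203 (.leaf 202 1593 (.cons 227 (.leaf 204 1601 (.cons 249 (.leaf 228 1794 (.cons 222 (.leaf 221 1768 (.leaf 250 1776 .nil)) .nil)) .nil)) .nil)) (.cons 203 (.leaf 202 1593 (.cons 227 (.leaf 204 1601 (.cons 228 (.leaf 249 1794 (.cons 252 (.leaf 251 1792 (.leaf 253 1800 .nil)) .nil)) .nil)) .nil)) (.cons 202 (.leaf 203 1593 (.cons 251 (.leaf 250 1784 (.cons 227 (.leaf 299 1623 (.leaf 252 1792 .nil)) .nil)) .nil)) .nil)))) .nil)) .nil)) .nil)) (.cons 224 (.leaf 201 1605 (.cons 199 (.leaf 223 1599 (.cons 200 (.leaf 175 1407 (.cons 198 (.leaf 197 1576 (.cons 299 t68 .nil)) .nil)) .nil)) .nil)) .nil)))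
noncomputable def t70 : T := .cons 250 (.leaf 249 1978 (.cons 226 (.leaf 323 1815 (.cons 202 (.leaf 178 1428 (.leaf 227 1623 .nil)) .nil)) .nil)) (.cons 227 (.cons 226 (.leaf 202 1623 (.leaf 225 1595 .nil)) (.cons 228 (.leaf 204 1629 (.cons 323 (.leaf 252 1821 (.cons 324 (.leaf 300 1820 (.leaf 348 2012 .nil)) .nil)) .nil)) .nil)) (.cons 250 (.leaf 249 1978 (.cons 226 (.leaf 323 1815 (.cons 202 (.leaf 178 1428 (.leaf 274 1620 .nil)) .nil)) .nil)) (.cons 249 (.leaf 250 1978 (.cons 225 (.leaf 320 1797 (.cons 227 (.leaf 226 1595 (.cons 176 (.leaf 152 1220 (.cons 177 (.leaf 153 1221 (.cons 203 (.cons 178 (.leaf 202 1431 (.leaf 179 1402 .nil)) (.cons 204 (.leaf 180 1437 (.leaf 228 1629 .nil)) .nil)) .nil)) .nil)) .nil)) .nil)) .nil)) (.cons 250 (.leaf 249 1978 (.cons 323 (.cons 322 (.leaf 346 2006 (.cons 347 (.leaf 274 2007 (.cons 348 (.leaf 324 2012 (.leaf 372 2204 .nil)) .nil)) .nil))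 (.cons 228 (.leaf 252 1821 (.cons 227 (.leaf 204 1629 (.cons 324 (.leaf 300 1820 (.leaf 348 2012 .nil)) .nil)) .nil)) (.cons 228 (.leaf 252 1821 (.cons 204 (.leaf 227 1629 (.cons 347 (.leaf 274 2007 (.cons 346 (.leaf 322 2006 (.leaf 370 2198 .nil)) .nil)) .nil)) .nil)) .nil))) .nil)) .nil))))
noncomputable def t71 : T := .cons 202 (.cons 227 (.leaf 226 1592 (.cons 178 (.leaf 203 1431 (.leaf 179 1401 .nil)) .nil)) (.cons 250 (.leaf 249 1978 (.cons 226 (.leaf 178 1428 (.leaf 274 1620 .nil)) .nil)) (.cons 178 (.leaf 179 1401 (.cons 227 (.leaf 203 1431 (.cons 228 (.leaf 204 1629 (.cons 323 (.leaf 252 1821 (.cons 324 (.leaf 300 1820 (.leaf 348 2012 .nil)) .nil)) .nil)) .nil)) .nil)) (.cons 227 (.leaf 226 1592 (.cons 228 (.leaf 204 1629 (.leaf 203 1600 .nil)) .nil)) .nil)))) (.cons 227 (.cons 202 (.leaf 226 1592 (.cons 178 (.leaf 203 1431 (.leaf 179 1401 .nil)) .nil)) (.cons 228 (.leaf 204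 1629 (.cons 323 (.leaf 252 1821 (.cons 324 (.leaf 300 1820 (.leaf 348 2012 .nil)) .nil)) .nil)) .nil)) (.cons 250 (.leaf 249 1978 (.cons 226 (.leaf 323 1815 (.cons 202 (.leaf 178 1428 (.leaf 274 1620 .nil)) .nil)) .nil)) (.cons 202 (.cons 227 (.leaf 226 1592 (.cons 178 (.leaf 203 1431 (.leaf 179 1401 .nil)) .nil)) (.cons 250 (.leaf 249 1978 (.cons 226 (.leaf 178 1428 (.leaf 274 1620 .nil)) .nil)) (.cons 179 (.leaf 178 1401 (.cons 203 (.leaf 180 1409 (.cons 227 (.leaf 228 1600 (.cons 250 (.leaf 249 1978 (.leaf 274 1430 .nil)) .nil)) .nil)) .nil)) (.cons 227 (.leaf 226 1592 (.cons 228 (.leaf 204 1629 (.leaf 203 1600 .nil)) .nil)) .nil)))) (.cons 250 (.leaf 249 1978 (.cons 323 (.leaf 226 1815 (.cons 228 (.leaf 252 1821 (.cons 204 (.leaf 227 1629 (.cons 346 (.leaf 322 2006 (.cons 347 (.leaf 274 2007 (.leaf 370 2198 .nil)) .nil)) .nil)) .nil)) .nil)) .nil)) (.cons 250 (.leaf 249 1978 (.cons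 323 (.cons 228 (.leaf 252 1821 (.cons 204 (.leaf 227 1629 (.cons 346 (.leaf 322 2006 (.cons 347 (.leaf 274 2007 (.leaf 370 2198 .nil)) .nil)) .nil)) .nil)) (.cons 228 (.leaf 252 1821 (.cons 227 (.leaf 204 1629 (.cons 324 (.leaf 300 1820 (.leaf 348 2012 .nil)) .nil)) .nil)) (.cons 322 (.leaf 346 2006 (.cons 347 (.leaf 274 2007 (.cons 348 (.leaf 324 2012 (.leaf 372 2204 .nil)) .nil)) .nil)) .nil))) .nil)) .nil)))))
noncomputable def t72 : T := .cons 250 (.leaf 271 1978 (.cons 227 (.leaf 228 1793 (.cons 274 (.leaf 203 1622 (.leaf 322 1813 .nil)) .nil)) .nil)) (.cons 322 (.cons 299 (.leaf 227 1814 (.leaf 321 2361 .nil)) (.cons 346 (.leaf 274 2005 (.cons 321 (.leaf 347 2552 (.cons 295 (.leaf 323 2363 (.leaf 294 2355 .nil)) .nil)) .nil)) (.cons 227 (.leaf 299 1814 (.cons 274 (.leaf 203 1622 (.leaf 346 2005 .nil)) .nil)) .nil))) (.cons 271 (.leaf 250 1978 (.cons 270 (.leaf 269 1961 (.cons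 322 (.cons 299 (.leaf 321 2361 (.cons 346 (.leaf 274 2005 (.leaf 323 2006 .nil)) .nil)) (.cons 346 (.leaf 274 2005 (.cons 299 (.leaf 323 2006 (.leaf 370 2197 .nil)) .nil)) (.cons 321 (.leaf 299 2361 (.cons 295 (.leaf 323 2363 (.leaf 294 2355 .nil)) .nil)) (.cons 346 (.leaf 274 2005 (.cons 321 (.leaf 347 2552 (.cons 295 (.leaf 323 2363 (.leaf 294 2355 .nil)) .nil)) .nil)) (.cons 299 (.leaf 321 2361 (.cons 346 (.leaf 274 2005 (.leaf 370 2197 .nil)) .nil)) .nil))))) .nil)) .nil)) (.cons 250 (.leaf 271 1978 (.cons 227 (.leaf 228 1793 (.cons 203 (.leaf 274 1622 (.cons 178 (.leaf 202 1431 (.cons 179 (.leaf 154 1239 (.cons 180 (.leaf 204 1437 (.leaf 156 1245 .nil)) .nil)) .nil)) .nil)) .nil)) .nil)) (.cons 250 (.leaf 271 1978 (.cons 227 (.leaf 228 1793 (.cons 299 (.leaf 322 1814 (.cons 226 (.leaf 202 1623 (.leaf 323 1815 .nil)) .nil)) .nil)) .nil)) .nil))))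
noncomputable def t73 : T := .cons 227 (.cons 228 (.leaf 204 1629 (.cons 298 (.leaf 322 1814 (.leaf 297 2171 .nil)) .nil)) (.cons 228 (.leaf 204 1629 (.cons 323 (.leaf 252 1821 (.cons 324 (.leaf 300 1820 (.leaf 348 2012 .nil)) .nil)) .nil)) (.cons 202 (.leaf 226 1623 (.cons 203 (.leaf 178 1431 (.cons 298 (.leaf 274 1622 (.leaf 322 1814 .nil)) .nil)) .nil)) .nil))) (.cons 346 (.leaf 347 2746 (.cons 323 (.leaf 322 2006 (.cons 227 (.cons 228 (.leaf 204 1629 (.leaf 252 1821 .nil)) (.cons 324 (.leaf 300 1820 (.leaf 348 2012 .nil)) .nil)) .nil)) .nil)) (.cons 346 (.leaf 347 2746 (.cons 298 (.leaf 297 2171 (.cons 322 (.leaf 274 2005 (.leaf 323 2006 .nil)) .nil)) .nil)) (.cons 298 (.leaf 297 2171 (.cons 227 (.leaf 322 1814 (.cons 202 (.leaf 226 1623 (.cons 203 (.leaf 178 1431 (.leaf 274 1622 .nil)) .nil)) .nil)) .nil)) (.cons 227 (.cons 228 (.leaf 204 1629 (.cons 323 (.leaf 252 1821 (.cons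 324 (.leaf 300 1820 (.leaf 348 2012 .nil)) .nil)) .nil)) (.cons 202 (.leaf 226 1623 (.cons 203 (.leaf 178 1431 (.cons 298 (.leaf 274 1622 (.leaf 297 2171 .nil)) .nil)) .nil)) .nil)) .nil))))
noncomputable def t74 : T := .cons 323 (.leaf 295 2363 (.cons 297 (.leaf 324 2371 (.cons 299 (.leaf 300 2369 (.cons 298 (.leaf 271 2171 (.leaf 319 2361 .nil)) .nil)) .nil)) .nil)) (.cons 319 (.cons 298 (.leaf 299 2361 (.cons 318 (.leaf 297 2353 (.cons 293 (.leaf 294 2347 (.cons 317 (.leaf 292 2339 (.cons 341 (.leaf 340 2530 (.leaf 342 2538 .nil)) .nil)) .nil)) .nil)) .nil)) (.cons 294 (.leaf 295 2355 (.cons 318 (.leaf 293 2347 (.cons 317 (.leaf 297 2345 (.cons 341 (.leaf 340 2530 (.leaf 342 2538 .nil)) .nil)) .nil)) .nil)) (.cons 298 (.leaf 299 2361 (.cons 297 (.leaf 318 2353 (.cons 274 (.leaf 295 2169 (.cons 346 (.leaf 251 2005 (.leaf 347 2552 .nil)) .nil)) .nil)) .nil)) (.cons 294 (.leaf 295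 2355 (.cons 298 (.leaf 299 2361 (.cons 318 (.leaf 293 2347 (.cons 341 (.leaf 342 2538 (.cons 317 (.leaf 340 2530 (.cons 270 (.leaf 246 1966 (.cons 271 (.leaf 269 1961 (.cons 251 (.leaf 250 1978 (.cons 346 (.leaf 274 2005 (.leaf 347 2552 .nil)) .nil)) .nil)) .nil)) .nil)) .nil)) .nil)) .nil)) .nil)) (.cons 295 (.leaf 294 2355 (.cons 298 (.leaf 299 2361 (.cons 274 (.leaf 297 2169 (.cons 346 (.leaf 251 2005 (.leaf 347 2552 .nil)) .nil)) .nil)) .nil)) .nil))))) (.cons 323 (.cons 297 (.leaf 324 2371 (.cons 299 (.leaf 300 2369 (.cons 298 (.leaf 271 2171 (.leaf 319 2361 .nil)) .nil)) .nil)) (.cons 297 (.leaf 324 2371 (.cons 347 (.leaf 348 2560 (.cons 319 (.leaf 346 2552 (.cons 318 (.leaf 317 2345 (.leaf 298 2353 .nil)) .nil)) .nil)) .nil)) (.cons 299 (.leaf 300 2369 (.cons 251 (.leaf 346 2006 (.cons 250 (.leaf 226 1815 (.leaf 271 1978 .nil)) .nil)) .nil)) .nil))) (.cons 323 (.leaf 295 2363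 (.cons 299 (.leaf 300 2369 (.cons 251 (.leaf 346 2006 (.cons 250 (.leaf 226 1815 (.leaf 271 1978 .nil)) .nil)) .nil)) .nil)) (.cons 295 (.leaf 323 2363 (.cons 294 (.leaf 293 2344 (.leaf 297 2352 .nil)) .nil)) .nil))))
noncomputable def t75 : T := .cons 345 (.leaf 321 1988 (.cons 225 (.leaf 249 1797 (.cons 343 (.leaf 319 1982 (.cons 344 (.leaf 367 2174 (.leaf 369 2180 .nil)) .nil)) .nil)) .nil)) (.cons 321 (.leaf 345 1988 (.cons 249 (.leaf 225 1797 (.cons 322 t74 .nil)) .nil)) (.cons 345 (.leaf 321 1988 (.cons 344 (.leaf 369 2180 (.cons 367 (.leaf 343 2174 (.cons 368 (.leaf 391 2366 (.cons 271 (.leaf 295 2175 (.cons 249 (.leaf 225 1797 (.cons 270 (.leaf 269 1961 (.cons 365 (.leaf 366 2729 (.cons 251 (.leaf 250 1978 (.cons 299 t73 .nil)) .nil)) .nil)) .nil)) .nil)) .nil)) .nil)) .nil)) .nil)) (.cons 319 (.leaf 343 1982 (.cons 249 (.leaf 225 1797 (.cons 298 (.cons 297 (.leaf 299 2362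 (.cons 318 (.leaf 295 2354 (.leaf 317 2345 .nil)) .nil)) (.cons 251 t72 (.cons 297 (.cons 318 (.leaf 295 2354 (.leaf 317 2345 .nil)) (.cons 295 (.leaf 274 2169 (.cons 270 (.leaf 271 2163 (.cons 294 (.leaf 269 2155 (.cons 321 (.leaf 293 2344 (.leaf 322 2352 .nil)) .nil)) .nil)) .nil)) (.cons 318 (.leaf 317 2345 (.leaf 321 2353 .nil)) .nil))) (.cons 297 (.leaf 299 2362 (.cons 318 (.leaf 317 2345 (.leaf 321 2353 .nil)) .nil)) .nil)))) .nil)) .nil)) (.cons 249 (.leaf 225 1797 (.cons 344 (.cons 367 (.leaf 343 2174 (.cons 368 (.leaf 391 2366 (.cons 295 (.leaf 271 2175 (.cons 369 (.leaf 345 2180 (.leaf 393 2372 .nil)) .nil)) .nil)) .nil)) (.cons 369 (.leaf 345 2180 (.cons 368 (.leaf 393 2372 (.cons 295 (.leaf 271 2175 (.cons 391 (.leaf 367 2366 (.cons 392 (.leaf 319 2367 (.leaf 415 2558 .nil)) .nil)) .nil)) .nil)) .nil)) (.cons 319 (.leaf 343 1982 (.cons 369 (.leaf 345 2180 (.cons 368 (.leaf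 393 2372 (.cons 295 (.leaf 271 2175 (.leaf 392 2367 .nil)) .nil)) .nil)) .nil)) (.cons 343 (.leaf 319 1982 (.leaf 367 2174 .nil)) .nil)))) .nil)) (.cons 343 (.leaf 319 1982 (.cons 344 (.leaf 367 2174 (.cons 345 (.leaf 321 1988 (.leaf 369 2180 .nil)) .nil)) .nil)) .nil)))))
noncomputable def t76 : T := .cons 224 (.leaf 201 1605 (.cons 199 (.leaf 223 1599 (.cons 200 (.leaf 175 1407 (.cons 198 (.leaf 197 1576 (.cons 299 (.cons 297 (.leaf 321 1796 (.cons 226 (.leaf 227 1595 (.cons 298 (.leaf 271 2171 (.cons 323 (.leaf 324 2368 (.cons 250 (.leaf 251 1815 (.leaf 274 1812 .nil)) .nil)) .nil)) .nil)) .nil)) (.cons 295 (.leaf 271 1598 (.leaf 319 1790 .nil)) (.cons 321 (.leaf 297 1796 (.cons 320 (.leaf 249 1797 (.leaf 345 1988 .nil)) .nil)) .nil))) .nil)) .nil)) .nil)) .nil)) (.cons 320 (.leaf 249 1797 (.cons 343 (.leaf 319 1982 (.cons 344 (.leaf 367 2174 (.cons 345 (.leaf 321 1988 (.leaf 369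 2180 .nil)) .nil)) .nil)) .nil)) (.cons 224 (.leaf 201 1605 (.cons 199 (.leaf 223 1599 (.cons 175 (.leaf 200 1407 (.cons 295 (.leaf 319 1790 (.cons 297 (.leaf 321 1796 (.cons 298 (.leaf 274 2169 (.cons 271 (.leaf 299 2171 (.leaf 270 2163 .nil)) .nil)) .nil)) .nil)) .nil)) .nil)) .nil)) (.cons 224 (.leaf 201 1605 (.cons 223 (.leaf 199 1599 (.cons 249 (.leaf 320 1797 (.cons 222 (.leaf 221 1768 (.leaf 250 1776 .nil)) .nil)) .nil)) .nil)) .nil)))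
noncomputable def t77 : T := .cons 199 (.leaf 223 1599 (.cons 200 (.leaf 175 1407 (.cons 201 (.leaf 177 1413 (.cons 295 (.leaf 319 1790 (.cons 297 (.leaf 321 1796 (.cons 274 (.leaf 298 2169 (.cons 202 (.cons 178 (.leaf 179 1401 (.cons 226 (.leaf 251 1428 (.leaf 299 1620 .nil)) .nil)) (.cons 179 (.leaf 178 1401 (.cons 203 (.leaf 180 1409 (.cons 227 (.leaf 251 1430 (.leaf 228 1600 .nil)) .nil)) .nil)) (.cons 226 (.leaf 299 1620 (.leaf 227 1592 .nil)) .nil))) .nil)) .nil)) .nil)) .nil)) .nil)) .nil)) (.cons 295 (.leaf 319 1790 (.cons 297 (.leaf 321 1796 (.cons 298 (.leaf 274 2169 (.cons 323 (.leaf 322 2360 (.cons 299 (.leaf 324 2368 (.cons 251 (.leaf 226 1815 (.cons 228 (.leaf 252 1821 (.cons 227 (.leaf 204 1629 (.leaf 249 1793 .nil)) .nil)) .nil)) .nil)) .nil)) .nil)) .nil)) .nil)) (.cons 223 (.leaf 199 1599 (.cons 249 (.leaf 251 1787 (.cons 222 (.leaf 221 1768 (.leaf 247 1779 .nil))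 .nil)) .nil)) (.cons 295 (.leaf 319 1790 (.cons 297 (.leaf 321 1796 (.cons 274 (.leaf 298 2169 (.cons 247 (.leaf 249 1976 (.cons 200 (.cons 199 (.leaf 175 1407 (.leaf 223 1599 .nil)) (.cons 177 (.leaf 201 1413 (.cons 176 (.leaf 153 1221 (.cons 151 (.leaf 175 1215 (.cons 152 (.leaf 127 1023 (.leaf 223 1214 .nil)) .nil)) .nil)) .nil)) (.cons 177 (.leaf 201 1413 (.cons 175 (.leaf 199 1407 (.cons 176 (.leaf 151 1215 (.leaf 153 1221 .nil)) .nil)) .nil)) (.cons 177 (.leaf 201 1413 (.cons 176 (.leaf 153 1221 (.cons 223 (.leaf 199 1599 (.leaf 152 1214 .nil)) .nil)) .nil)) .nil)))) .nil)) .nil)) .nil)) .nil)) .nil)))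
noncomputable def t78 : T := .cons 226 (.leaf 250 1815 (.cons 227 (.leaf 202 1623 (.cons 228 (.leaf 204 1629 (.leaf 252 1821 .nil)) .nil)) .nil)) (.cons 228 (.leaf 252 1821 (.cons 227 (.leaf 204 1629 (.cons 200 (.cons 175 (.leaf 199 1407 (.cons 176 (.leaf 151 1215 (.cons 153 (.leaf 177 1221 (.cons 152 (.leaf 129 1029 (.cons 249 (.leaf 250 1793 (.leaf 225 1220 .nil)) .nil)) .nil)) .nil)) .nil)) (.cons 175 (.leaf 199 1407 (.cons 176 (.leaf 151 1215 (.cons 225 (.leaf 201 1605 (.cons 249 (.leaf 250 1793 (.leaf 152 1220 .nil)) .nil)) .nil)) .nil)) (.cons 201 (.leaf 177 1413 (.leaf 225 1605 .nil)) (.cons 175 (.leaf 199 1407 (.cons 176 (.leaf 151 1215 (.cons 177 (.leaf 201 1413 (.leaf 153 1221 .nil)) .nil)) .nil)) .nil)))) .nil)) .nil)) (.cons 226 (.leaf 250 1815 (.cons 201 (.leaf 225 1605 (.cons 200 (.leaf 177 1413 (.cons 175 (.leaf 199 1407 (.cons 176 (.leaf 151 1215 (.cons 202 (.leaf 227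 1623 (.leaf 203 1403 .nil)) .nil)) .nil)) .nil)) .nil)) .nil)) (.cons 201 (.leaf 225 1605 (.cons 200 (.leaf 177 1413 (.cons 228 (.leaf 252 1821 (.cons 227 (.leaf 204 1629 (.cons 202 (.leaf 226 1623 (.leaf 203 1600 .nil)) .nil)) .nil)) .nil)) .nil)) (.cons 225 (.leaf 201 1605 (.cons 250 (.leaf 226 1815 (.cons 252 (.leaf 228 1821 (.leaf 249 1795 .nil)) .nil)) .nil)) .nil))))
noncomputable def t79 : T := .cons 245 (.leaf 246 1769 (.cons 317 (.leaf 318 2346 (.cons 293 (.leaf 316 2338 (.cons 269 (.leaf 268 2147 (.leaf 270 2155 .nil)) .nil)) .nil)) .nil)) (.cons 246 (.leaf 245 1769 (.cons 249 (.leaf 250 1976 (.cons 222 (.leaf 221 1771 (.cons 317 (.leaf 318 2346 (.cons 293 (.leaf 316 2338 (.leaf 270 1774 .nil)) .nil)) .nil)) .nil)) .nil)) (.cons 249 (.leaf 250 1976 (.cons 269 (.leaf 270 2155 (.cons 293 (.leaf 268 2147 (.cons 317 (.leaf 316 2338 (.leaf 318 2346 .nil)) .nil)) .nil)) .nil))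 (.cons 245 (.leaf 246 1769 (.cons 269 (.leaf 270 2155 (.cons 293 (.leaf 268 2147 (.cons 221 (.leaf 318 1772 (.cons 196 (.leaf 220 1575 (.cons 172 (.leaf 197 1383 (.cons 222 (.leaf 198 1581 (.cons 223 (.leaf 249 1768 (.leaf 244 1762 .nil)) .nil)) .nil)) .nil)) .nil)) .nil)) .nil)) .nil)) (.cons 317 (.leaf 318 2346 (.cons 245 (.leaf 246 1769 (.cons 293 (.leaf 316 2338 (.cons 269 (.leaf 268 2147 (.cons 220 (.leaf 244 1767 (.cons 221 (.leaf 196 1575 (.cons 222 (.leaf 223 1760 (.leaf 198 1581 .nil)) .nil)) .nil)) .nil)) .nil)) .nil)) .nil)) (.cons 269 (.leaf 270 2155 (.cons 245 (.leaf 246 1769 (.cons 293 (.leaf 268 2147 (.cons 316 (.leaf 317 2338 (.cons 292 (.leaf 315 2330 (.leaf 221 1766 .nil)) .nil)) .nil)) .nil)) .nil)) (.cons 249 (.leaf 250 1976 (.cons 246 (.leaf 245 1769 (.cons 270 (.leaf 269 1962 (.cons 318 (.leaf 317 2346 (.leaf 223 1781 .nil)) .nil)) .nil)) .nil)) .nil))))))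
noncomputable def t80 : T := .cons 223 (.leaf 199 1599 (.cons 295 (.leaf 319 1790 (.cons 297 (.leaf 321 1796 (.cons 274 (.leaf 298 2169 (.cons 250 (.cons 249 (.leaf 247 1976 (.leaf 251 1787 .nil)) (.cons 225 (.leaf 201 1605 (.cons 226 (.leaf 251 1784 (.cons 247 (.leaf 227 1786 (.leaf 246 1778 .nil)) .nil)) .nil)) (.cons 249 (.leaf 247 1976 (.cons 222 (.leaf 221 1768 (.leaf 225 1776 .nil)) .nil)) (.cons 225 (.leaf 201 1605 (.cons 249 (.leaf 251 1787 (.leaf 222 1776 .nil)) .nil)) .nil)))) .nil)) .nil)) .nil)) .nil)) (.cons 225 (.leaf 201 1605 (.cons 295 (.leaf 319 1790 (.cons 297 (.leaf 321 1796 (.cons 274 (.leaf 298 2169 (.cons 247 (.cons 249 (.leaf 250 1976 (.cons 226 (.leaf 227 1786 (.leaf 246 1777 .nil)) .nil)) (.cons 294 t79 (.cons 250 (.leaf 249 1976 (.cons 226 (.leaf 227 1786 (.cons 202 (.leaf 299 1620 (.cons 203 (.leaf 223 1593 (.leaf 179 1429 .nil)) .nil)) .nil)) .nil)) (.cons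 226 (.leaf 227 1786 (.cons 246 (.leaf 245 1769 (.leaf 223 1778 .nil)) .nil)) .nil)))) .nil)) .nil)) .nil)) .nil)) (.cons 223 (.leaf 199 1599 (.cons 295 (.leaf 319 1790 (.cons 297 (.leaf 321 1796 (.cons 274 (.leaf 298 2169 (.cons 250 (.cons 249 (.leaf 247 1976 (.leaf 251 1787 .nil)) (.cons 226 (.cons 202 (.leaf 299 1620 (.cons 203 (.leaf 225 1593 (.leaf 179 1429 .nil)) .nil)) (.cons 202 (.leaf 299 1620 (.cons 178 (.leaf 251 1428 (.cons 179 (.leaf 203 1429 (.leaf 155 1237 .nil)) .nil)) .nil)) (.cons 225 (.leaf 251 1784 (.cons 247 (.leaf 227 1786 (.leaf 246 1778 .nil)) .nil)) .nil))) (.cons 249 (.leaf 247 1976 (.cons 222 (.leaf 221 1768 (.leaf 225 1776 .nil)) .nil)) (.cons 249 (.leaf 251 1787 (.cons 222 (.leaf 221 1768 (.leaf 225 1776 .nil)) .nil)) .nil)))) .nil)) .nil)) .nil)) .nil)) (.cons 295 (.leaf 319 1790 (.cons 297 (.leaf 321 1796 (.cons 298 (.leaf 274 2169 (.cons 323 (.leaf 322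 2360 (.cons 299 (.leaf 324 2368 (.cons 251 t78 .nil)) .nil)) .nil)) .nil)) .nil)) (.cons 250 t77 (.cons 199 (.leaf 223 1599 (.cons 200 (.leaf 175 1407 (.cons 201 (.leaf 177 1413 (.leaf 225 1605 .nil)) .nil)) .nil)) .nil)))))
noncomputable def t81 : T := .cons 247 (.leaf 223 1791 (.cons 249 (.leaf 225 1797 (.cons 274 (.leaf 250 1976 (.cons 295 (.leaf 297 2169 (.cons 344 (.cons 343 (.leaf 319 1982 (.leaf 367 2174 .nil)) (.cons 369 (.leaf 345 2180 (.cons 368 (.leaf 393 2372 (.cons 391 (.leaf 367 2366 (.cons 392 (.leaf 319 2367 (.leaf 415 2558 .nil)) .nil)) .nil)) .nil)) (.cons 369 (.leaf 345 2180 (.cons 367 (.leaf 343 2174 (.cons 368 (.leaf 391 2366 (.leaf 393 2372 .nil)) .nil)) .nil)) (.cons 319 (.leaf 343 1982 (.cons 368 (.leaf 392 2367 (.cons 369 (.leaf 345 2180 (.leaf 393 2372 .nil)) .nil)) .nil)) .nil)))) .nil)) .nil)) .nil)) .nil)) (.cons 247 (.leaf 223 1791 (.cons 249 (.leaf 225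 1797 (.cons 250 (.leaf 274 1976 (.cons 227 (.leaf 226 1785 (.cons 251 (.leaf 228 1793 (.cons 299 (.leaf 322 1814 (.cons 324 (.leaf 300 1820 (.cons 323 (.leaf 348 2012 (.leaf 297 2368 .nil)) .nil)) .nil)) .nil)) .nil)) .nil)) .nil)) .nil)) (.cons 319 (.leaf 343 1982 (.cons 225 (.leaf 249 1797 (.cons 297 (.leaf 299 2362 (.cons 318 (.leaf 295 2354 (.leaf 317 2345 .nil)) .nil)) .nil)) .nil)) (.cons 319 (.leaf 343 1982 (.cons 223 (.leaf 247 1791 (.cons 297 (.leaf 299 2362 (.cons 318 (.leaf 295 2354 (.leaf 317 2345 .nil)) .nil)) .nil)) .nil)) (.cons 343 (.leaf 319 1982 (.cons 344 (.leaf 367 2174 (.cons 345 (.leaf 369 2180 (.cons 247 (.leaf 223 1791 (.cons 249 (.leaf 225 1797 (.cons 274 (.leaf 250 1976 (.cons 346 (.cons 322 (.leaf 251 2005 (.leaf 323 2553 .nil)) (.cons 371 (.leaf 370 2744 (.cons 347 (.leaf 372 2752 (.cons 323 (.leaf 299 2199 (.leaf 324 2561 .nil)) .nil)) .nil)) (.cons 322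 (.leaf 251 2005 (.cons 370 (.leaf 299 2197 (.leaf 371 2744 .nil)) .nil)) .nil))) .nil)) .nil)) .nil)) .nil)) .nil)) .nil)) .nil))))
noncomputable def t82 : T := .cons 298 (.leaf 322 1814 (.cons 324 (.leaf 300 1820 (.cons 323 (.leaf 348 2012 (.leaf 297 2368 .nil)) .nil)) .nil)) (.cons 324 (.leaf 300 1820 (.cons 323 (.leaf 348 2012 (.cons 344 (.cons 297 (.leaf 298 2368 (.cons 345 (.leaf 321 1988 (.leaf 369 2180 .nil)) .nil)) (.cons 367 (.leaf 343 2174 (.cons 368 (.leaf 391 2366 (.cons 297 (.leaf 298 2368 (.cons 392 (.leaf 321 2373 (.cons 393 (.leaf 369 2372 (.leaf 417 2564 .nil)) .nil)) .nil)) .nil)) .nil)) (.cons 367 (.leaf 343 2174 (.cons 297 (.leaf 298 2368 (.cons 321 (.leaf 345 1988 (.cons 368 (.leaf 391 2366 (.leaf 392 2373 .nil)) .nil)) .nil)) .nil)) (.cons 367 (.leaf 343 2174 (.cons 297 (.leaf 298 2368 (.cons 368 (.leaf 391 2366 (.cons 369 (.leaf 345 2180 (.leaf 393 2372 .nil))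 .nil)) .nil)) .nil)) (.cons 345 (.leaf 321 1988 (.leaf 369 2180 .nil)) .nil))))) .nil)) .nil)) (.cons 322 (.leaf 298 1814 (.cons 321 (.leaf 345 1988 (.cons 323 (.leaf 346 2006 (.leaf 295 2363 .nil)) .nil)) .nil)) (.cons 345 (.leaf 321 1988 (.cons 324 (.leaf 300 1820 (.cons 323 (.leaf 348 2012 (.cons 344 (.leaf 369 2180 (.cons 346 (.leaf 322 2006 (.leaf 347 2561 .nil)) .nil)) .nil)) .nil)) .nil)) (.cons 321 (.leaf 345 1988 (.cons 298 (.leaf 322 1814 (.cons 300 (.leaf 324 1820 (.leaf 297 2370 .nil)) .nil)) .nil)) .nil))))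
noncomputable def t83 : T := .cons 221 (.leaf 222 1771 (.cons 245 (.leaf 220 1763 (.cons 269 (.leaf 268 1954 (.leaf 270 1962 .nil)) .nil)) .nil)) (.cons 221 (.leaf 222 1771 (.cons 245 (.leaf 220 1763 (.cons 294 (.leaf 293 2344 (.cons 297 (.leaf 298 2169 (.cons 318 (.leaf 317 2346 (.leaf 270 1775 .nil)) .nil)) .nil)) .nil)) .nil)) (.cons 269 (.leaf 270 1962 (.cons 245 (.leaf 268 1954 (.cons 293 (.leaf 294 2344 (.cons 317 (.leaf 222 1773 (.cons 220 (.leaf 244 1767 (.cons 297 (.leaf 298 2169 (.cons 318 (.leaf 319 2345 (.leaf 342 1964 .nil)) .nil)) .nil)) .nil)) .nil)) .nil)) .nil)) (.cons 221 (.leaf 222 1771 (.cons 245 (.leaf 220 1763 (.cons 269 (.leaf 268 1954 (.cons 293 (.leaf 294 2344 (.cons 316 (.leaf 292 1766 (.cons 317 (.leaf 340 1958 (.cons 318 (.leaf 319 2337 (.leaf 342 1964 .nil)) .nil)) .nil)) .nil)) .nil)) .nil)) .nil)) (.cons 269 (.leaf 270 1962 (.cons 245 (.leaf 268 1954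 (.cons 220 (.leaf 221 1763 (.cons 244 (.leaf 219 1755 (.cons 293 (.leaf 294 2344 (.leaf 317 1767 .nil)) .nil)) .nil)) .nil)) .nil)) (.cons 297 (.leaf 298 2169 (.cons 222 (.leaf 221 1771 (.cons 270 (.leaf 269 1962 (.cons 294 (.leaf 293 2344 (.leaf 319 1780 .nil)) .nil)) .nil)) .nil)) .nil)))))
noncomputable def t84 : T := .cons 343 (.leaf 319 1982 (.cons 225 (.leaf 249 1797 (.cons 344 (.leaf 367 2174 (.cons 345 (.leaf 321 1988 (.leaf 369 2180 .nil)) .nil)) .nil)) .nil)) (.cons 321 (.leaf 345 1988 (.cons 247 (.leaf 223 1791 (.cons 249 (.leaf 225 1797 (.cons 274 (.leaf 250 1976 (.cons 295 (.cons 322 (.leaf 323 2363 (.cons 294 (.leaf 293 2344 (.leaf 297 2352 .nil)) .nil)) (.cons 246 t83 (.cons 298 (.leaf 297 2169 (.cons 322 (.leaf 323 2363 (.cons 251 (.leaf 346 2005 (.cons 227 (.leaf 203 1622 (.leaf 299 1814 .nil)) .nil)) .nil)) .nil)) (.cons 322 (.leaf 323 2363 (.cons 294 (.leaf 293 2344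 (.leaf 319 2355 .nil)) .nil)) .nil)))) .nil)) .nil)) .nil)) .nil)) (.cons 319 (.leaf 343 1982 (.cons 247 (.leaf 223 1791 (.cons 249 (.leaf 225 1797 (.cons 274 (.leaf 250 1976 (.cons 298 (.cons 297 (.leaf 295 2169 (.leaf 299 2362 .nil)) (.cons 322 (.cons 321 (.leaf 299 2361 (.cons 295 (.leaf 323 2363 (.leaf 294 2355 .nil)) .nil)) (.cons 251 (.leaf 346 2005 (.cons 227 (.leaf 203 1622 (.leaf 299 1814 .nil)) .nil)) (.cons 346 (.leaf 251 2005 (.cons 347 (.leaf 321 2552 (.leaf 371 2196 .nil)) .nil)) .nil))) (.cons 297 (.leaf 295 2169 (.cons 318 (.leaf 317 2345 (.leaf 321 2353 .nil)) .nil)) (.cons 297 (.leaf 299 2362 (.cons 318 (.leaf 317 2345 (.leaf 321 2353 .nil)) .nil)) .nil)))) .nil)) .nil)) .nil)) .nil)) (.cons 247 (.leaf 223 1791 (.cons 249 (.leaf 225 1797 (.cons 250 (.leaf 274 1976 (.cons 227 (.leaf 226 1785 (.cons 251 (.leaf 228 1793 (.cons 299 t82 .nil)) .nil)) .nil)) .nil)) .nil))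 (.cons 298 t81 (.cons 343 (.leaf 319 1982 (.cons 344 (.leaf 367 2174 (.cons 345 (.leaf 321 1988 (.leaf 369 2180 .nil)) .nil)) .nil)) .nil)))))
noncomputable def t85 : T := .cons 321 (.leaf 345 1988 (.cons 297 (.leaf 224 1796 (.cons 295 (.cons 293 (.leaf 294 2344 (.cons 298 (.leaf 274 2169 (.cons 271 (.leaf 299 2171 (.leaf 270 2163 .nil)) .nil)) .nil)) (.cons 298 (.leaf 274 2169 (.cons 271 (.leaf 299 2171 (.leaf 270 2163 .nil)) .nil)) (.cons 294 (.leaf 293 2344 (.leaf 322 2352 .nil)) .nil))) .nil)) .nil)) (.cons 343 (.leaf 319 1982 (.cons 344 (.leaf 367 2174 (.cons 271 (.leaf 247 1983 (.cons 368 (.leaf 295 2175 (.cons 369 (.leaf 345 2180 (.leaf 393 2372 .nil)) .nil)) .nil)) .nil)) .nil)) (.cons 343 (.leaf 319 1982 (.cons 344 (.leaf 367 2174 (.cons 271 (.leaf 247 1983 (.cons 295 (.leaf 368 2175 (.cons 297 (.cons 298 (.leaf 274 2169 (.leaf 299 2171 .nil)) (.cons 270 (.leaf 269 2152 (.cons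 294 (.cons 293 (.leaf 292 2145 (.leaf 321 2344 .nil)) (.cons 293 (.leaf 292 2145 (.cons 317 (.leaf 316 2338 (.leaf 318 2346 .nil)) .nil)) (.cons 318 (.leaf 317 2346 (.cons 321 (.leaf 224 1796 (.leaf 322 2352 .nil)) .nil)) .nil))) .nil)) .nil)) .nil)) .nil)) .nil)) .nil)) (.cons 321 (.leaf 345 1988 (.cons 297 (.leaf 224 1796 (.cons 319 (.leaf 343 1982 (.cons 298 (.leaf 299 2362 (.leaf 318 2353 .nil)) .nil)) .nil)) .nil)) .nil)))
noncomputable def t86 : T := .cons 343 (.leaf 319 1982 (.cons 344 (.leaf 367 2174 (.cons 345 (.leaf 321 1988 (.leaf 369 2180 .nil)) .nil)) .nil)) (.cons 247 (.leaf 223 1791 (.cons 321 (.leaf 345 1988 (.cons 344 (.leaf 271 1983 (.cons 367 (.leaf 343 2174 (.cons 368 (.leaf 391 2366 (.cons 392 (.leaf 297 2373 (.cons 393 (.leaf 369 2372 (.leaf 417 2564 .nil)) .nil)) .nil)) .nil)) .nil)) .nil)) .nil)) (.cons 247 (.leaf 223 1791 (.cons 344 (.leaf 271 1983 (.cons 345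 (.leaf 321 1988 (.leaf 369 2180 .nil)) .nil)) .nil)) (.cons 247 (.leaf 223 1791 (.cons 343 (.leaf 319 1982 (.cons 344 (.leaf 271 1983 (.leaf 367 2174 .nil)) .nil)) .nil)) (.cons 319 (.leaf 343 1982 (.cons 321 (.leaf 345 1988 (.cons 247 (.leaf 223 1791 (.cons 318 (.cons 297 (.leaf 317 2345 (.leaf 298 2353 .nil)) (.cons 293 (.leaf 294 2347 (.cons 317 (.leaf 292 2339 (.cons 341 (.leaf 340 2530 (.leaf 342 2538 .nil)) .nil)) .nil)) (.cons 293 (.leaf 294 2347 (.cons 298 (.leaf 297 2353 (.cons 322 (.leaf 299 2361 (.cons 295 (.leaf 323 2363 (.cons 342 (.leaf 341 2538 (.leaf 271 1974 .nil)) .nil)) .nil)) .nil)) .nil)) .nil))) .nil)) .nil)) .nil)) .nil))))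
noncomputable def t87 : T := .cons 224 (.cons 201 (.leaf 225 1605 (.cons 200 (.leaf 177 1413 (.cons 295 (.leaf 271 1598 (.leaf 319 1790 .nil)) .nil)) .nil)) (.cons 223 (.leaf 199 1599 (.cons 320 (.leaf 247 1791 (.cons 321 (.leaf 297 1796 (.leaf 345 1988 .nil)) .nil)) .nil)) .nil)) (.cons 320 t86 (.cons 224 (.cons 199 (.leaf 223 1599 (.cons 200 (.leaf 175 1407 (.cons 201 (.leaf 177 1413 (.leaf 225 1605 .nil)) .nil)) .nil)) (.cons 201 (.leaf 225 1605 (.cons 177 (.leaf 200 1413 (.cons 295 (.leaf 319 1790 (.cons 297 (.leaf 321 1796 (.cons 298 (.leaf 274 2169 (.cons 271 (.leaf 299 2171 (.leaf 270 2163 .nil)) .nil)) .nil)) .nil)) .nil)) .nil)) (.cons 295 (.leaf 319 1790 (.cons 199 (.leaf 223 1599 (.cons 200 (.leaf 175 1407 (.leaf 271 1598 .nil)) .nil)) .nil)) (.cons 199 (.leaf 223 1599 (.cons 201 (.leaf 225 1605 (.cons 295 (.leaf 319 1790 (.cons 297 (.leaf 321 1796 (.cons 298 (.leaf 274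 2169 (.cons 271 (.leaf 299 2171 (.leaf 270 2163 .nil)) .nil)) .nil)) .nil)) .nil)) .nil)) .nil)))) (.cons 224 (.cons 199 (.leaf 223 1599 (.cons 200 (.leaf 175 1407 (.cons 271 (.leaf 295 1598 (.cons 247 (.leaf 176 1406 (.cons 320 (.leaf 344 1983 (.cons 321 (.leaf 297 1796 (.leaf 345 1988 .nil)) .nil)) .nil)) .nil)) .nil)) .nil)) (.cons 321 (.leaf 297 1796 (.cons 201 (.leaf 225 1605 (.cons 200 (.leaf 177 1413 (.cons 175 (.leaf 199 1407 (.cons 176 (.leaf 151 1215 (.cons 271 (.leaf 295 1598 (.leaf 247 1406 .nil)) .nil)) .nil)) .nil)) .nil)) .nil)) (.cons 201 (.leaf 225 1605 (.cons 200 (.leaf 177 1413 (.cons 271 (.leaf 295 1598 (.cons 247 (.leaf 176 1406 (.cons 320 (.leaf 223 1791 (.leaf 344 1983 .nil)) .nil)) .nil)) .nil)) .nil)) (.cons 223 (.leaf 199 1599 (.cons 320 (.leaf 247 1791 (.cons 321 (.leaf 297 1796 (.leaf 345 1988 .nil)) .nil)) .nil)) (.cons 199 (.leaf 223 1599 (.cons 200 (.leaf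 175 1407 (.cons 201 (.leaf 177 1413 (.leaf 225 1605 .nil)) .nil)) .nil)) .nil))))) (.cons 320 (.cons 223 (.leaf 247 1791 (.cons 224 (.leaf 199 1599 (.cons 321 (.leaf 297 1796 (.leaf 345 1988 .nil)) .nil)) .nil)) (.cons 247 (.leaf 223 1791 (.cons 343 (.leaf 319 1982 (.cons 344 (.leaf 271 1983 (.leaf 367 2174 .nil)) .nil)) .nil)) (.cons 321 (.leaf 345 1988 (.cons 224 (.leaf 297 1796 (.cons 199 (.leaf 223 1599 (.cons 200 (.leaf 175 1407 (.cons 201 (.leaf 177 1413 (.leaf 225 1605 .nil)) .nil)) .nil)) .nil)) .nil)) (.cons 321 (.leaf 345 1988 (.cons 297 (.leaf 224 1796 (.cons 319 (.leaf 343 1982 (.cons 298 (.leaf 299 2362 (.leaf 318 2353 .nil)) .nil)) .nil)) .nil)) .nil)))) (.cons 320 t85 (.cons 224 (.cons 201 (.leaf 225 1605 (.cons 223 (.leaf 199 1599 (.cons 319 (.leaf 295 1790 (.cons 320 (.leaf 247 1791 (.leaf 343 1982 .nil)) .nil)) .nil)) .nil)) (.cons 295 (.leaf 319 1790 (.cons 200 (.leaf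 271 1598 (.cons 175 (.leaf 199 1407 (.cons 201 (.leaf 177 1413 (.leaf 225 1605 .nil)) .nil)) .nil)) .nil)) (.cons 223 (.leaf 199 1599 (.cons 201 (.leaf 225 1605 (.cons 200 (.leaf 177 1413 (.cons 202 (.leaf 203 1594 (.cons 221 (.leaf 222 1577 (.cons 247 (.leaf 320 1791 (.cons 176 (.leaf 271 1406 (.leaf 152 1214 .nil)) .nil)) .nil)) .nil)) .nil)) .nil)) .nil)) (.cons 295 (.leaf 319 1790 (.cons 200 (.leaf 271 1598 (.cons 201 (.leaf 177 1413 (.leaf 225 1605 .nil)) .nil)) .nil)) (.cons 295 (.leaf 319 1790 (.cons 199 (.leaf 223 1599 (.cons 200 (.leaf 175 1407 (.leaf 271 1598 .nil)) .nil)) .nil)) .nil))))) (.cons 224 (.cons 199 (.leaf 223 1599 (.cons 175 (.leaf 200 1407 (.cons 319 (.leaf 295 1790 (.cons 320 (.leaf 343 1982 (.cons 321 (.leaf 297 1796 (.leaf 345 1988 .nil)) .nil)) .nil)) .nil)) .nil)) (.cons 201 (.leaf 225 1605 (.cons 177 (.leaf 200 1413 (.cons 319 (.leaf 295 1790 (.cons 320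 (.leaf 343 1982 (.cons 321 (.leaf 297 1796 (.leaf 345 1988 .nil)) .nil)) .nil)) .nil)) .nil)) (.cons 223 (.leaf 199 1599 (.cons 201 (.leaf 225 1605 (.cons 320 (.leaf 247 1791 (.cons 321 (.leaf 297 1796 (.leaf 345 1988 .nil)) .nil)) .nil)) .nil)) (.cons 223 (.leaf 199 1599 (.cons 201 (.leaf 225 1605 (.cons 319 (.leaf 295 1790 (.cons 320 (.leaf 247 1791 (.leaf 343 1982 .nil)) .nil)) .nil)) .nil)) (.cons 199 (.leaf 223 1599 (.cons 200 (.leaf 175 1407 (.cons 201 (.leaf 177 1413 (.leaf 225 1605 .nil)) .nil)) .nil)) .nil))))) .nil)))))))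
noncomputable def t88 : T := .cons 176 (.cons 151 (.leaf 175 1215 (.cons 152 (.leaf 127 1023 (.cons 129 (.leaf 153 1029 (.cons 128 (.leaf 105 837 (.cons 225 (.leaf 249 1220 (.leaf 201 1028 .nil)) .nil)) .nil)) .nil)) .nil)) (.cons 153 (.leaf 177 1221 (.cons 152 (.leaf 129 1029 (.cons 127 (.leaf 151 1023 (.cons 128 (.leaf 103 831 (.cons 225 (.leaf 249 1220 (.leaf 201 1028 .nil)) .nil)) .nil)) .nil)) .nil)) (.cons 151 (.leaf 175 1215 (.cons 152 (.leaf 127 1023 (.cons 153 (.leaf 177 1221 (.leaf 129 1029 .nil)) .nil)) .nil)) (.cons 153 (.leaf 177 1221 (.cons 152 (.leaf 129 1029 (.cons 199 (.leaf 175 1407 (.cons 223 (.leaf 296 1599 (.leaf 247 1214 .nil)) .nil)) .nil)) .nil)) (.cons 175 (.leaf 199 1407 (.leaf 151 1215 .nil)) .nil))))) (.cons 176 (.cons 151 (.leaf 175 1215 (.cons 152 (.leaf 127 1023 (.cons 129 (.leaf 153 1029 (.cons 128 (.leaf 105 837 (.cons 225 (.leaf 249 1220 (.leaf 201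 1028 .nil)) .nil)) .nil)) .nil)) .nil)) (.cons 151 (.leaf 175 1215 (.cons 152 (.leaf 127 1023 (.cons 153 (.leaf 177 1221 (.leaf 129 1029 .nil)) .nil)) .nil)) (.cons 151 (.leaf 175 1215 (.cons 152 (.leaf 127 1023 (.cons 201 (.leaf 177 1413 (.cons 225 (.leaf 296 1605 (.leaf 249 1220 .nil)) .nil)) .nil)) .nil)) (.cons 177 (.leaf 201 1413 (.leaf 153 1221 .nil)) .nil)))) (.cons 176 (.cons 175 (.leaf 199 1407 (.leaf 151 1215 .nil)) (.cons 153 (.leaf 177 1221 (.cons 152 (.leaf 129 1029 (.cons 127 (.leaf 151 1023 (.cons 103 (.leaf 128 831 (.cons 223 (.leaf 247 1214 (.cons 199 (.leaf 296 1599 (.cons 225 (.leaf 249 1220 (.cons 198 (.leaf 197 1576 (.leaf 226 1587 .nil)) .nil)) .nil)) .nil)) .nil)) .nil)) .nil)) .nil)) (.cons 151 (.leaf 175 1215 (.cons 152 (.leaf 127 1023 (.cons 153 (.leaf 177 1221 (.leaf 129 1029 .nil)) .nil)) .nil)) (.cons 153 (.leaf 177 1221 (.cons 152 (.leaf 129 1029 (.cons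 199 (.leaf 175 1407 (.cons 223 (.leaf 296 1599 (.leaf 247 1214 .nil)) .nil)) .nil)) .nil)) .nil)))) (.cons 201 (.leaf 177 1413 (.cons 223 (.cons 202 (.leaf 203 1594 (.cons 222 (.leaf 221 1577 (.leaf 225 1585 .nil)) .nil)) (.cons 296 (.leaf 199 1599 (.leaf 225 1605 .nil)) (.cons 202 (.leaf 203 1594 (.cons 222 (.leaf 221 1577 (.leaf 199 1586 .nil)) .nil)) .nil))) .nil)) (.cons 199 (.leaf 175 1407 (.cons 225 (.cons 198 (.leaf 197 1576 (.cons 226 (.leaf 223 1587 (.leaf 227 1595 .nil)) .nil)) (.cons 296 (.leaf 223 1599 (.leaf 201 1605 .nil)) (.cons 198 (.leaf 197 1576 (.cons 201 (.leaf 296 1605 (.leaf 226 1584 .nil)) .nil)) .nil))) .nil)) (.cons 175 (.leaf 199 1407 (.cons 176 (.leaf 151 1215 (.cons 177 (.leaf 201 1413 (.leaf 153 1221 .nil)) .nil)) .nil)) .nil)))))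
noncomputable def t89 : T := .cons 176 (.cons 153 (.leaf 177 1221 (.cons 152 (.leaf 129 1029 (.cons 127 (.leaf 151 1023 (.cons 103 (.leaf 128 831 (.cons 223 (.leaf 247 1214 (.cons 199 (.leaf 175 1407 (.leaf 296 1599 .nil)) .nil)) .nil)) .nil)) .nil)) .nil)) (.cons 153 (.leaf 177 1221 (.cons 152 (.leaf 129 1029 (.cons 127 (.leaf 151 1023 (.cons 103 (.leaf 128 831 (.cons 223 (.leaf 247 1214 (.cons 199 (.leaf 296 1599 (.cons 225 (.leaf 249 1220 (.cons 198 (.leaf 197 1576 (.leaf 226 1587 .nil)) .nil)) .nil)) .nil)) .nil)) .nil)) .nil)) .nil)) (.cons 271 (.leaf 295 1598 (.leaf 247 1406 .nil)) (.cons 175 (.leaf 199 1407 (.leaf 151 1215 .nil)) .nil)))) (.cons 271 (.leaf 295 1598 (.cons 176 (.leaf 247 1406 (.cons 151 (.leaf 175 1215 (.cons 152 (.leaf 127 1023 (.cons 153 (.leaf 177 1221 (.leaf 129 1029 .nil)) .nil)) .nil)) .nil)) .nil)) (.cons 176 (.cons 153 (.leaf 177 1221 (.cons 152 (.leaf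 129 1029 (.cons 127 (.leaf 151 1023 (.cons 103 (.leaf 128 831 (.cons 223 (.leaf 247 1214 (.cons 199 (.leaf 175 1407 (.leaf 296 1599 .nil)) .nil)) .nil)) .nil)) .nil)) .nil)) (.cons 153 (.leaf 177 1221 (.cons 152 (.leaf 129 1029 (.cons 127 (.leaf 151 1023 (.cons 103 (.leaf 128 831 (.cons 223 (.leaf 247 1214 (.cons 199 (.leaf 296 1599 (.cons 225 (.leaf 249 1220 (.cons 198 (.leaf 197 1576 (.leaf 226 1587 .nil)) .nil)) .nil)) .nil)) .nil)) .nil)) .nil)) .nil)) (.cons 151 (.leaf 175 1215 (.cons 152 (.leaf 127 1023 (.cons 153 (.leaf 177 1221 (.leaf 129 1029 .nil)) .nil)) .nil)) (.cons 199 (.leaf 175 1407 (.cons 153 (.leaf 177 1221 (.cons 152 (.leaf 129 1029 (.cons 223 (.leaf 296 1599 (.leaf 247 1214 .nil)) .nil)) .nil)) .nil)) (.cons 175 (.leaf 199 1407 (.leaf 151 1215 .nil)) .nil))))) (.cons 271 (.leaf 295 1598 (.cons 247 (.leaf 176 1406 (.cons 249 (.cons 270 (.leaf 269 1961 (.leaf 250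 1970 .nil)) (.cons 270 (.leaf 269 1961 (.cons 246 (.cons 225 (.leaf 245 1769 (.leaf 226 1777 .nil)) (.cons 222 (.leaf 221 1771 (.cons 198 (.leaf 174 1396 (.cons 197 (.leaf 173 1391 (.cons 225 (.leaf 226 1777 (.leaf 199 1576 .nil)) .nil)) .nil)) .nil)) (.cons 221 (.leaf 222 1771 (.cons 245 (.leaf 244 1952 (.leaf 220 1763 .nil)) .nil)) .nil))) .nil)) (.cons 250 (.leaf 274 1976 (.leaf 251 1978 .nil)) .nil))) .nil)) .nil)) (.cons 199 (.leaf 175 1407 (.cons 295 (.leaf 271 1598 (.cons 296 (.leaf 223 1599 (.leaf 319 1790 .nil)) .nil)) .nil)) .nil))))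
noncomputable def t90 : T := .cons 271 (.leaf 295 1598 (.cons 176 (.leaf 247 1406 (.cons 151 (.leaf 175 1215 (.cons 152 (.leaf 127 1023 (.cons 153 (.leaf 177 1221 (.leaf 129 1029 .nil)) .nil)) .nil)) .nil)) .nil)) (.cons 176 (.cons 151 (.leaf 175 1215 (.cons 152 (.leaf 127 1023 (.cons 129 (.leaf 153 1029 (.cons 128 (.leaf 105 837 (.cons 225 (.leaf 249 1220 (.leaf 201 1028 .nil)) .nil)) .nil)) .nil)) .nil)) (.cons 151 (.leaf 175 1215 (.cons 152 (.leaf 127 1023 (.cons 153 (.leaf 177 1221 (.leaf 129 1029 .nil)) .nil)) .nil)) (.cons 151 (.leaf 175 1215 (.cons 152 (.leaf 127 1023 (.cons 201 (.leaf 177 1413 (.cons 225 (.leaf 296 1605 (.leaf 249 1220 .nil)) .nil)) .nil)) .nil)) (.cons 177 (.leaf 201 1413 (.leaf 153 1221 .nil)) .nil)))) (.cons 271 (.leaf 295 1598 (.cons 176 (.leaf 247 1406 (.cons 151 (.leaf 175 1215 (.cons 152 (.leaf 127 1023 (.cons 129 (.leaf 153 1029 (.cons 128 (.leaf 105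 837 (.cons 225 (.leaf 249 1220 (.leaf 201 1028 .nil)) .nil)) .nil)) .nil)) .nil)) .nil)) .nil)) (.cons 201 (.leaf 177 1413 (.cons 295 (.leaf 271 1598 (.cons 296 (.leaf 225 1605 (.leaf 319 1790 .nil)) .nil)) .nil)) .nil)))
noncomputable def t91 : T := .cons 271 (.leaf 295 1598 (.cons 175 (.leaf 199 1407 (.cons 176 (.leaf 151 1215 (.leaf 247 1406 .nil)) .nil)) .nil)) (.cons 175 (.leaf 199 1407 (.cons 176 (.leaf 151 1215 (.cons 177 (.leaf 201 1413 (.leaf 153 1221 .nil)) .nil)) .nil)) (.cons 271 (.leaf 295 1598 (.cons 176 (.leaf 247 1406 (.cons 151 (.leaf 175 1215 (.cons 152 (.leaf 127 1023 (.cons 153 (.leaf 177 1221 (.leaf 129 1029 .nil)) .nil)) .nil)) .nil)) .nil)) (.cons 271 (.leaf 295 1598 (.cons 176 (.leaf 247 1406 (.cons 177 (.leaf 201 1413 (.leaf 153 1221 .nil)) .nil)) .nil)) (.cons 199 (.leaf 175 1407 (.cons 201 (.leaf 177 1413 (.cons 271 (.leaf 295 1598 (.cons 198 (.cons 173 (.leaf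 174 1387 (.cons 222 (.leaf 221 1578 (.cons 202 (.leaf 223 1586 (.cons 179 (.leaf 178 1401 (.cons 203 (.leaf 180 1409 (.cons 204 (.leaf 225 1602 (.cons 228 (.leaf 227 1600 (.leaf 229 1608 .nil)) .nil)) .nil)) .nil)) .nil)) .nil)) .nil)) (.cons 173 (.leaf 174 1387 (.cons 222 (.leaf 221 1578 (.cons 202 (.leaf 223 1586 (.cons 178 (.leaf 179 1401 (.cons 227 (.leaf 226 1592 (.cons 203 (.leaf 251 1431 (.leaf 228 1600 .nil)) .nil)) .nil)) .nil)) .nil)) .nil)) (.cons 173 (.leaf 174 1387 (.cons 226 (.leaf 225 1584 (.cons 202 (.leaf 227 1592 (.cons 179 (.leaf 178 1401 (.cons 203 (.leaf 223 1594 (.leaf 180 1409 .nil)) .nil)) .nil)) .nil)) .nil)) (.cons 225 (.leaf 197 1576 (.leaf 226 1584 .nil)) .nil)))) .nil)) .nil)) .nil)) .nil))))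
noncomputable def t92 : T := .cons 223 (.leaf 199 1599 (.cons 225 (.leaf 201 1605 (.cons 297 (.leaf 321 1796 (.cons 226 (.cons 203 (.leaf 202 1593 (.cons 227 (.leaf 247 1786 (.leaf 204 1601 .nil)) .nil)) (.cons 203 (.leaf 202 1593 (.cons 227 (.leaf 204 1601 (.cons 249 (.leaf 228 1794 (.cons 222 (.leaf 221 1768 (.leaf 250 1776 .nil)) .nil)) .nil)) .nil)) (.cons 250 (.leaf 251 1784 (.cons 222 (.leaf 249 1776 (.cons 197 (.leaf 198 1579 (.cons 221 (.leaf 196 1571 (.cons 245 (.leaf 244 1762 (.leaf 246 1770 .nil)) .nil)) .nil)) .nil)) .nil)) .nil))) .nil)) .nil)) .nil)) (.cons 295 (.leaf 319 1790 (.cons 201 (.leaf 225 1605 (.cons 297 (.leaf 321 1796 (.cons 298 (.leaf 274 2169 (.cons 271 (.leaf 299 2171 (.leaf 270 2163 .nil)) .nil)) .nil)) .nil)) .nil)) (.cons 223 (.leaf 199 1599 (.cons 295 (.leaf 319 1790 (.cons 297 (.leaf 321 1796 (.cons 298 (.leaf 274 2169 (.cons 271 (.leaf 299 2171 (.leaf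 270 2163 .nil)) .nil)) .nil)) .nil)) .nil)) (.cons 223 (.leaf 199 1599 (.cons 225 (.leaf 201 1605 (.cons 295 (.leaf 319 1790 (.cons 222 (.cons 197 (.leaf 198 1579 (.cons 196 (.leaf 221 1571 (.cons 250 (.leaf 249 1776 (.cons 226 (.leaf 251 1784 (.cons 246 (.leaf 245 1770 (.leaf 247 1778 .nil)) .nil)) .nil)) .nil)) .nil)) (.cons 197 (.leaf 198 1579 (.cons 196 (.leaf 221 1571 (.cons 246 (.leaf 245 1770 (.cons 226 (.leaf 247 1778 (.cons 202 (.leaf 203 1593 (.cons 251 (.leaf 250 1784 (.cons 227 (.leaf 299 1623 (.leaf 252 1792 .nil)) .nil)) .nil)) .nil)) .nil)) .nil)) .nil)) (.cons 197 (.leaf 198 1579 (.cons 245 (.leaf 246 1770 (.cons 250 (.leaf 249 1776 (.cons 226 (.leaf 251 1784 (.cons 203 (.leaf 202 1593 (.cons 227 (.leaf 247 1786 (.leaf 204 1601 .nil)) .nil)) .nil)) .nil)) .nil)) .nil)) (.cons 197 (.leaf 198 1579 (.cons 221 (.leaf 249 1768 (.leaf 196 1571 .nil)) .nil)) (.cons 249 (.leaf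 221 1768 (.leaf 250 1776 .nil)) .nil))))) .nil)) .nil)) .nil)) .nil)))
noncomputable def t93 : T := .cons 343 (.leaf 319 1982 (.cons 344 (.leaf 367 2174 (.cons 271 (.leaf 247 1983 (.cons 295 (.leaf 368 2175 (.cons 224 (.leaf 200 1598 (.cons 297 (.leaf 321 1796 (.cons 298 (.leaf 274 2169 (.leaf 299 2171 .nil)) .nil)) .nil)) .nil)) .nil)) .nil)) .nil)) (.cons 345 (.leaf 321 1988 (.cons 344 (.leaf 369 2180 (.cons 271 (.leaf 247 1983 (.cons 367 (.leaf 343 2174 (.cons 368 (.leaf 295 2175 (.leaf 391 2366 .nil)) .nil)) .nil)) .nil)) .nil)) (.cons 343 (.leaf 319 1982 (.cons 344 (.leaf 367 2174 (.cons 271 (.leaf 247 1983 (.cons 368 (.leaf 295 2175 (.cons 369 (.leaf 345 2180 (.leaf 393 2372 .nil)) .nil)) .nil)) .nil)) .nil)) (.cons 321 (.leaf 345 1988 (.cons 224 (.leaf 297 1796 (.cons 295 (.leaf 319 1790 (.cons 200 (.leaf 271 1598 (.cons 175 (.leaf 199 1407 (.cons 176 (.leaf 151 1215 (.cons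 177 (.leaf 201 1413 (.leaf 153 1221 .nil)) .nil)) .nil)) .nil)) .nil)) .nil)) .nil)) (.cons 321 (.leaf 345 1988 (.cons 297 (.leaf 224 1796 (.cons 319 (.leaf 343 1982 (.cons 298 (.leaf 299 2362 (.leaf 318 2353 .nil)) .nil)) .nil)) .nil)) .nil))))
noncomputable def t94 : T := .cons 295 (.leaf 319 1790 (.cons 200 (.leaf 271 1598 (.cons 175 (.leaf 199 1407 (.cons 201 (.leaf 177 1413 (.leaf 225 1605 .nil)) .nil)) .nil)) .nil)) (.cons 225 (.leaf 201 1605 (.cons 249 (.leaf 320 1797 (.cons 247 (.cons 245 (.leaf 246 1769 (.cons 250 (.leaf 274 1976 (.cons 251 (.leaf 271 1978 (.leaf 252 1795 .nil)) .nil)) .nil)) (.cons 226 (.leaf 227 1786 (.cons 250 (.leaf 274 1976 (.cons 251 (.leaf 271 1978 (.leaf 252 1795 .nil)) .nil)) .nil)) (.cons 226 (.leaf 227 1786 (.leaf 246 1777 .nil)) .nil))) .nil)) .nil)) (.cons 295 (.leaf 319 1790 (.cons 200 (.leaf 271 1598 (.cons 175 (.leaf 199 1407 (.cons 176 (.leaf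 151 1215 (.cons 177 (.leaf 201 1413 (.leaf 153 1221 .nil)) .nil)) .nil)) .nil)) .nil)) (.cons 295 (.leaf 319 1790 (.cons 271 (.leaf 200 1598 (.cons 297 (.cons 298 (.leaf 274 2169 (.leaf 299 2171 .nil)) (.cons 294 (.cons 270 (.leaf 269 2152 (.cons 292 (.leaf 293 2145 (.cons 318 (.leaf 317 2346 (.cons 342 (.leaf 366 2165 (.leaf 247 1973 .nil)) .nil)) .nil)) .nil)) (.cons 292 (.leaf 293 2145 (.cons 318 (.leaf 317 2346 (.cons 342 (.leaf 366 2165 (.cons 247 (.leaf 270 1973 (.cons 320 (.leaf 344 1983 (.cons 249 (.leaf 225 1797 (.cons 250 (.leaf 274 1976 (.leaf 251 1978 .nil)) .nil)) .nil)) .nil)) .nil)) .nil)) .nil)) (.cons 293 (.leaf 292 2145 (.cons 317 (.leaf 316 2338 (.leaf 318 2346 .nil)) .nil)) (.cons 270 (.leaf 269 2152 (.cons 318 (.leaf 317 2346 (.cons 342 (.leaf 366 2165 (.leaf 247 1973 .nil)) .nil)) .nil)) (.cons 269 (.leaf 270 2152 (.cons 293 (.leaf 292 2145 (.leaf 268 2147 .nil))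 .nil)) .nil))))) (.cons 298 (.leaf 299 2171 (.leaf 270 2163 .nil)) .nil))) .nil)) .nil)) (.cons 225 (.leaf 201 1605 (.cons 319 (.leaf 295 1790 (.cons 320 (.leaf 249 1797 (.leaf 343 1982 .nil)) .nil)) .nil)) .nil))))
noncomputable def t95 : T := .cons 224 (.leaf 201 1605 (.cons 297 (.leaf 321 1796 (.cons 298 (.leaf 271 2171 (.leaf 319 2362 .nil)) .nil)) .nil)) (.cons 319 (.leaf 343 1982 (.cons 298 (.leaf 297 2362 (.cons 322 (.leaf 321 2361 (.cons 251 (.leaf 227 1814 (.cons 346 (.leaf 274 2005 (.leaf 323 2006 .nil)) .nil)) .nil)) .nil)) .nil)) (.cons 224 (.leaf 201 1605 (.cons 297 (.leaf 321 1796 (.cons 298 (.leaf 271 2171 (.cons 323 (.leaf 324 2368 (.cons 251 (.cons 322 (.leaf 227 1814 (.leaf 346 2006 .nil)) (.cons 226 (.leaf 250 1815 (.cons 227 (.leaf 202 1623 (.leaf 247 1786 .nil)) .nil)) (.cons 226 (.leaf 250 1815 (.cons 346 (.leaf 322 2006 (.cons 347 (.leaf 370 2198 (.cons 228 (.leaf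 252 1821 (.cons 371 (.leaf 274 2199 (.cons 372 (.leaf 348 2204 (.leaf 396 2396 .nil)) .nil)) .nil)) .nil)) .nil)) .nil)) .nil))) .nil)) .nil)) .nil)) .nil)) (.cons 343 (.leaf 319 1982 (.cons 344 (.leaf 367 2174 (.cons 224 (.leaf 201 1605 (.cons 247 (.leaf 271 1983 (.cons 227 (.leaf 226 1786 (.cons 246 (.leaf 245 1769 (.cons 251 (.cons 298 (.leaf 322 1814 (.cons 203 (.leaf 274 1622 (.cons 178 (.leaf 202 1431 (.cons 179 (.leaf 154 1239 (.cons 180 (.leaf 204 1437 (.leaf 156 1245 .nil)) .nil)) .nil)) .nil)) .nil)) (.cons 228 (.leaf 204 1629 (.cons 323 (.leaf 252 1821 (.cons 324 (.leaf 300 1820 (.leaf 348 2012 .nil)) .nil)) .nil)) (.cons 298 (.leaf 322 1814 (.cons 324 (.leaf 300 1820 (.cons 323 (.leaf 348 2012 (.cons 274 (.leaf 203 1622 (.cons 347 (.leaf 250 2007 (.leaf 371 2199 .nil)) .nil)) .nil)) .nil)) .nil)) .nil))) .nil)) .nil)) .nil)) .nil)) .nil)) .nil)) (.cons 224 (.leaf 201 1605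 (.cons 321 (.leaf 297 1796 (.cons 343 (.leaf 319 1982 (.cons 344 (.leaf 367 2174 (.cons 247 (.leaf 271 1983 (.cons 226 (.leaf 227 1786 (.cons 245 (.leaf 246 1769 (.cons 323 (.leaf 322 2554 (.cons 250 (.leaf 251 1815 (.cons 274 (.leaf 202 1620 (.leaf 347 2007 .nil)) .nil)) .nil)) .nil)) .nil)) .nil)) .nil)) .nil)) .nil)) .nil)) .nil))))
noncomputable def t96 : T := .cons 298 (.leaf 297 2171 (.cons 227 (.leaf 322 1814 (.cons 202 (.leaf 226 1623 (.cons 203 (.leaf 178 1431 (.leaf 274 1622 .nil)) .nil)) .nil)) .nil)) (.cons 323 (.cons 322 (.leaf 346 2553 (.cons 324 (.leaf 348 2012 (.cons 227 (.leaf 300 1820 (.cons 228 (.leaf 204 1629 (.leaf 252 1821 .nil)) .nil)) .nil)) .nil)) (.cons 228 (.leaf 252 1821 (.cons 227 (.leaf 204 1629 (.cons 324 (.leaf 300 1820 (.leaf 348 2012 .nil)) .nil)) .nil)) (.cons 346 (.leaf 322 2553 (.cons 370 (.leaf 347 2198 (.leaf 371 2744 .nil)) .nil)) .nil))) (.cons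 346 (.cons 371 (.leaf 370 2744 (.cons 347 (.leaf 372 2752 (.cons 298 (.leaf 297 2171 (.cons 323 (.leaf 322 2553 (.leaf 324 2561 .nil)) .nil)) .nil)) .nil)) (.cons 298 (.leaf 297 2171 (.cons 322 (.leaf 274 2005 (.leaf 370 2197 .nil)) .nil)) (.cons 371 (.leaf 370 2744 (.cons 347 (.leaf 372 2752 (.cons 298 (.leaf 297 2171 (.cons 323 (.leaf 324 2561 (.leaf 274 2199 .nil)) .nil)) .nil)) .nil)) (.cons 323 (.leaf 322 2553 (.cons 324 (.leaf 348 2012 (.leaf 347 2561 .nil)) .nil)) .nil)))) (.cons 298 (.leaf 297 2171 (.cons 227 (.cons 202 (.leaf 226 1623 (.cons 203 (.leaf 178 1431 (.leaf 274 1622 .nil)) .nil)) (.cons 202 (.leaf 226 1623 (.cons 228 (.leaf 204 1629 (.cons 323 (.leaf 252 1821 (.cons 324 (.leaf 300 1820 (.leaf 348 2012 .nil)) .nil)) .nil)) .nil)) (.cons 203 (.leaf 274 1622 (.cons 204 (.leaf 180 1437 (.leaf 228 1629 .nil)) .nil)) .nil))) .nil)) .nil)))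
noncomputable def t97 : T := .cons 224 (.leaf 201 1605 (.cons 297 (.leaf 321 1796 (.cons 298 (.leaf 271 2171 (.leaf 319 2362 .nil)) .nil)) .nil)) (.cons 343 (.leaf 319 1982 (.cons 344 (.leaf 367 2174 (.cons 224 (.leaf 201 1605 (.cons 247 (.leaf 271 1983 (.cons 227 (.leaf 226 1786 (.cons 246 (.leaf 245 1769 (.cons 251 (.cons 228 (.leaf 204 1629 (.cons 323 (.leaf 252 1821 (.cons 324 (.leaf 300 1820 (.leaf 348 2012 .nil)) .nil)) .nil)) (.cons 298 (.leaf 322 1814 (.cons 203 (.leaf 274 1622 (.cons 178 (.leaf 202 1431 (.cons 179 (.leaf 154 1239 (.cons 180 (.leaf 204 1437 (.leaf 156 1245 .nil)) .nil)) .nil)) .nil)) .nil)) (.cons 298 (.leaf 322 1814 (.cons 324 (.leaf 300 1820 (.cons 323 (.leaf 348 2012 (.leaf 297 2368 .nil)) .nil)) .nil)) .nil))) .nil)) .nil)) .nil)) .nil)) .nil)) .nil)) (.cons 319 (.leaf 343 1982 (.cons 298 (.leaf 297 2362 (.cons 321 (.leaf 345 1988 (.leaf 322 2361 .nil))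 .nil)) .nil)) (.cons 224 (.leaf 201 1605 (.cons 321 (.leaf 297 1796 (.leaf 345 1988 .nil)) .nil)) (.cons 343 (.leaf 319 1982 (.cons 344 (.leaf 367 2174 (.cons 224 (.leaf 201 1605 (.cons 247 (.leaf 271 1983 (.cons 227 (.leaf 226 1786 (.cons 246 (.leaf 245 1769 (.cons 251 (.cons 298 (.leaf 322 1814 (.cons 203 (.leaf 274 1622 (.cons 178 (.leaf 202 1431 (.cons 179 (.leaf 154 1239 (.cons 180 (.leaf 204 1437 (.leaf 156 1245 .nil)) .nil)) .nil)) .nil)) .nil)) (.cons 204 (.leaf 228 1629 (.cons 203 (.leaf 180 1437 (.cons 178 (.leaf 202 1431 (.cons 179 (.leaf 154 1239 (.cons 274 (.leaf 298 1622 (.leaf 250 1430 .nil)) .nil)) .nil)) .nil)) .nil)) (.cons 345 (.leaf 321 1988 (.leaf 369 2180 .nil)) .nil))) .nil)) .nil)) .nil)) .nil)) .nil)) .nil)) .nil))))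
noncomputable def t98 : T := .cons 295 (.leaf 274 2169 (.cons 271 (.leaf 200 1598 (.leaf 299 2171 .nil)) .nil)) (.cons 274 (.leaf 295 2169 (.cons 227 (.cons 226 (.leaf 247 1786 (.cons 203 (.leaf 251 1622 (.leaf 204 1601 .nil)) .nil)) (.cons 251 (.leaf 203 1622 (.cons 322 (.leaf 299 1814 (.leaf 346 2005 .nil)) .nil)) (.cons 226 (.leaf 247 1786 (.cons 203 (.leaf 204 1601 (.leaf 250 1621 .nil)) .nil)) (.cons 226 (.leaf 247 1786 (.cons 199 (.leaf 200 1595 (.cons 251 (.leaf 252 1792 (.cons 322 (.leaf 299 1814 (.leaf 346 2005 .nil)) .nil)) .nil)) .nil)) .nil)))) .nil)) (.cons 299 (.leaf 271 2171 (.cons 323 (.leaf 324 2368 (.cons 251 (.cons 322 (.leaf 227 1814 (.leaf 346 2006 .nil)) (.cons 226 (.leaf 250 1815 (.cons 227 (.leaf 202 1623 (.leaf 247 1786 .nil)) .nil)) (.cons 226 (.leaf 250 1815 (.cons 228 (.leaf 252 1821 (.cons 346 (.leaf 322 2006 (.cons 347 (.leaf 370 2198 (.cons 371 (.leaf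 274 2199 (.cons 372 (.leaf 348 2204 (.leaf 396 2396 .nil)) .nil)) .nil)) .nil)) .nil)) .nil)) .nil))) .nil)) .nil)) (.cons 295 (.leaf 274 2169 (.cons 271 (.leaf 200 1598 (.leaf 270 2163 .nil)) .nil)) (.cons 271 (.leaf 299 2171 (.cons 295 (.leaf 200 1598 (.leaf 270 2163 .nil)) .nil)) .nil))))
noncomputable def t99 : T := .cons 343 (.leaf 319 1982 (.cons 344 (.leaf 367 2174 (.cons 271 (.leaf 247 1983 (.cons 249 (.leaf 225 1797 (.cons 270 (.leaf 269 1961 (.cons 250 (.leaf 251 1978 (.cons 345 (.leaf 321 1988 (.leaf 369 2180 .nil)) .nil)) .nil)) .nil)) .nil)) .nil)) .nil)) (.cons 345 (.leaf 321 1988 (.cons 344 (.leaf 369 2180 (.cons 271 (.leaf 247 1983 (.cons 225 (.leaf 249 1797 (.cons 367 (.leaf 343 2174 (.cons 368 (.leaf 295 2175 (.leaf 391 2366 .nil)) .nil)) .nil)) .nil)) .nil)) .nil)) (.cons 345 (.leaf 321 1988 (.cons 344 (.leaf 369 2180 (.cons 271 (.leaf 247 1983 (.cons 249 (.leaf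 225 1797 (.cons 270 (.leaf 269 1961 (.cons 295 (.leaf 368 2175 (.cons 298 (.leaf 297 2163 (.cons 251 (.leaf 250 1978 (.cons 227 (.cons 299 (.leaf 322 1814 (.cons 202 (.leaf 226 1623 (.cons 228 (.leaf 204 1629 (.cons 323 (.leaf 252 1821 (.cons 324 (.leaf 300 1820 (.leaf 348 2012 .nil)) .nil)) .nil)) .nil)) .nil)) (.cons 203 (.leaf 274 1622 (.cons 178 (.leaf 202 1431 (.cons 179 (.leaf 154 1239 (.cons 180 (.leaf 204 1437 (.leaf 156 1245 .nil)) .nil)) .nil)) .nil)) (.cons 299 (.leaf 322 1814 (.cons 202 (.leaf 226 1623 (.cons 203 (.leaf 178 1431 (.leaf 274 1622 .nil)) .nil)) .nil)) (.cons 299 (.leaf 322 1814 (.cons 203 (.leaf 274 1622 (.cons 204 (.leaf 180 1437 (.leaf 228 1629 .nil)) .nil)) .nil)) .nil)))) .nil)) .nil)) .nil)) .nil)) .nil)) .nil)) .nil)) .nil)) (.cons 343 (.leaf 319 1982 (.cons 344 (.leaf 367 2174 (.cons 271 (.leaf 247 1983 (.cons 249 (.leaf 225 1797 (.cons 270 (.leaf 269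 1961 (.cons 251 (.leaf 250 1978 (.cons 299 (.cons 298 (.leaf 297 2171 (.cons 227 (.leaf 322 1814 (.cons 202 (.leaf 226 1623 (.cons 203 (.leaf 178 1431 (.leaf 274 1622 .nil)) .nil)) .nil)) .nil)) (.cons 368 (.leaf 295 2175 (.cons 369 (.leaf 393 2372 (.cons 370 (.leaf 371 2747 (.cons 323 (.cons 346 (.leaf 322 2006 (.leaf 347 2198 .nil)) (.cons 228 (.leaf 252 1821 (.cons 227 (.leaf 204 1629 (.cons 324 (.leaf 300 1820 (.leaf 348 2012 .nil)) .nil)) .nil)) .nil)) .nil)) .nil)) .nil)) (.cons 368 (.leaf 295 2175 (.cons 297 (.leaf 298 2171 (.cons 392 (.leaf 321 2373 (.cons 393 (.leaf 369 2372 (.leaf 417 2564 .nil)) .nil)) .nil)) .nil)) .nil))) .nil)) .nil)) .nil)) .nil)) .nil)) .nil)) (.cons 343 (.leaf 319 1982 (.cons 344 (.leaf 367 2174 (.cons 271 (.leaf 247 1983 (.cons 249 (.leaf 225 1797 (.cons 250 (.leaf 251 1978 (.cons 269 (.leaf 270 1961 (.cons 368 (.leaf 295 2175 (.cons 369 (.leaf 345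 2180 (.leaf 393 2372 .nil)) .nil)) .nil)) .nil)) .nil)) .nil)) .nil)) .nil)) (.cons 343 (.leaf 319 1982 (.cons 344 (.leaf 367 2174 (.cons 271 (.leaf 247 1983 (.cons 345 (.leaf 321 1988 (.leaf 369 2180 .nil)) .nil)) .nil)) .nil)) (.cons 319 (.leaf 343 1982 (.cons 321 (.leaf 345 1988 (.cons 249 (.leaf 225 1797 (.cons 318 (.cons 293 (.leaf 294 2347 (.cons 317 (.leaf 297 2345 (.leaf 292 2339 .nil)) .nil)) (.cons 293 (.leaf 294 2347 (.cons 317 (.leaf 292 2339 (.cons 341 (.leaf 340 2530 (.leaf 342 2538 .nil)) .nil)) .nil)) (.cons 298 (.leaf 297 2353 (.cons 342 (.leaf 341 2538 (.cons 251 (.cons 322 (.leaf 299 2361 (.cons 294 (.leaf 293 2347 (.leaf 295 2355 .nil)) .nil)) (.cons 250 (.leaf 271 1978 (.cons 227 (.leaf 228 1793 (.cons 203 (.leaf 274 1622 (.cons 178 (.leaf 202 1431 (.cons 179 (.leaf 154 1239 (.cons 180 (.leaf 204 1437 (.leaf 156 1245 .nil)) .nil)) .nil)) .nil)) .nil)) .nil)) .nil))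 .nil)) .nil)) (.cons 297 (.leaf 317 2345 (.leaf 298 2353 .nil)) .nil)))) .nil)) .nil)) .nil)) (.cons 343 (.leaf 319 1982 (.cons 225 (.leaf 249 1797 (.cons 344 (.leaf 367 2174 (.cons 345 (.leaf 321 1988 (.leaf 369 2180 .nil)) .nil)) .nil)) .nil)) .nil)))))))
noncomputable def t100 : T := .cons 201 (.leaf 225 1605 (.cons 226 (.leaf 250 1815 (.cons 227 (.leaf 202 1623 (.cons 228 (.leaf 204 1629 (.leaf 252 1821 .nil)) .nil)) .nil)) .nil)) (.cons 228 (.leaf 252 1821 (.cons 227 (.leaf 204 1629 (.cons 200 (.cons 175 (.leaf 199 1407 (.cons 176 (.leaf 151 1215 (.cons 201 (.leaf 177 1413 (.leaf 225 1605 .nil)) .nil)) .nil)) (.cons 175 (.leaf 199 1407 (.cons 176 (.leaf 151 1215 (.cons 153 (.leaf 177 1221 (.cons 152 (.leaf 129 1029 (.cons 249 (.leaf 250 1793 (.leaf 225 1220 .nil)) .nil)) .nil)) .nil)) .nil)) (.cons 175 (.leaf 199 1407 (.cons 176 (.leaf 151 1215 (.cons 225 (.leaf 201 1605 (.cons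 249 (.leaf 250 1793 (.leaf 152 1220 .nil)) .nil)) .nil)) .nil)) (.cons 201 (.leaf 177 1413 (.leaf 225 1605 .nil)) (.cons 175 (.leaf 199 1407 (.cons 176 (.leaf 151 1215 (.cons 177 (.leaf 201 1413 (.leaf 153 1221 .nil)) .nil)) .nil)) .nil))))) .nil)) .nil)) (.cons 226 (.leaf 250 1815 (.cons 201 (.leaf 225 1605 (.cons 200 (.leaf 177 1413 (.cons 175 (.leaf 199 1407 (.cons 176 (.leaf 151 1215 (.cons 202 (.leaf 227 1623 (.leaf 203 1403 .nil)) .nil)) .nil)) .nil)) .nil)) .nil)) (.cons 226 (.leaf 250 1815 (.cons 227 (.leaf 202 1623 (.cons 228 (.leaf 204 1629 (.leaf 252 1821 .nil)) .nil)) .nil)) (.cons 201 (.leaf 225 1605 (.cons 200 (.leaf 177 1413 (.cons 228 (.leaf 252 1821 (.cons 227 (.leaf 204 1629 (.cons 202 (.leaf 226 1623 (.leaf 203 1600 .nil)) .nil)) .nil)) .nil)) .nil)) (.cons 225 (.leaf 201 1605 (.cons 250 (.leaf 226 1815 (.cons 252 (.leaf 228 1821 (.leaf 249 1795 .nil)) .nil)) .nil))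 .nil)))))
noncomputable def t101 : T := .leaf 321 1796 (.cons 270 (.leaf 269 2152 (.cons 173 (.leaf 174 1384 (.cons 299 (.leaf 298 2171 (.cons 251 (.cons 323 (.cons 228 (.leaf 252 1821 (.cons 227 (.leaf 204 1629 (.cons 324 (.leaf 300 1820 (.leaf 348 2012 .nil)) .nil)) .nil)) (.cons 250 (.leaf 226 1815 (.leaf 249 1978 .nil)) .nil)) (.cons 202 (.leaf 203 1403 (.cons 227 (.leaf 226 1623 (.cons 323 (.cons 228 (.leaf 204 1629 (.leaf 252 1821 .nil)) (.cons 324 (.leaf 300 1820 (.leaf 348 2012 .nil)) .nil)) .nil)) .nil)) (.cons 202 (.leaf 203 1403 (.cons 226 (.leaf 227 1623 (.cons 250 (.leaf 178 1428 (.leaf 274 1620 .nil)) .nil)) .nil)) (.cons 250 (.leaf 249 1978 (.cons 323 (.leaf 226 1815 (.cons 346 (.leaf 322 2006 (.cons 347 (.leaf 274 2007 (.leaf 370 2198 .nil)) .nil)) .nil)) .nil)) (.cons 323 (.cons 228 (.leaf 252 1821 (.cons 227 (.leaf 204 1629 (.cons 324 (.leaf 300 1820 (.leaf 348 2012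 .nil)) .nil)) .nil)) (.cons 250 (.leaf 249 1978 (.cons 346 (.leaf 322 2006 (.cons 347 (.leaf 274 2007 (.leaf 370 2198 .nil)) .nil)) .nil)) .nil)) .nil))))) .nil)) .nil)) .nil)) .nil)
noncomputable def t102 : T := .cons 201 (.leaf 225 1605 (.cons 200 (.leaf 177 1413 (.cons 176 (.leaf 271 1406 (.cons 152 (.leaf 223 1214 (.cons 127 (.leaf 151 1023 (.cons 128 (.leaf 103 831 (.cons 129 (.leaf 153 1029 (.leaf 105 837 .nil)) .nil)) .nil)) .nil)) .nil)) .nil)) .nil)) (.cons 201 (.leaf 225 1605 (.cons 200 (.leaf 177 1413 (.cons 176 (.leaf 271 1406 (.cons 175 (.leaf 199 1407 (.leaf 151 1215 .nil)) .nil)) .nil)) .nil)) (.cons 199 (.leaf 223 1599 (.cons 200 (.leaf 175 1407 (.cons 271 (.leaf 176 1406 (.cons 297 (.leaf 321 1796 (.cons 270 (.leaf 269 2152 (.cons 249 (.leaf 250 1970 (.cons 246 (.cons 245 (.leaf 244 1952 (.leaf 225 1769 .nil)) (.cons 222 (.leaf 221 1771 (.cons 198 (.leaf 174 1396 (.cons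 197 (.leaf 225 1576 (.leaf 173 1391 .nil)) .nil)) .nil)) (.cons 221 (.leaf 222 1771 (.cons 245 (.leaf 244 1952 (.leaf 220 1763 .nil)) .nil)) .nil))) .nil)) .nil)) .nil)) .nil)) .nil)) .nil)) (.cons 199 (.leaf 223 1599 (.cons 200 (.leaf 175 1407 (.cons 176 (.leaf 271 1406 (.cons 177 (.leaf 201 1413 (.leaf 153 1221 .nil)) .nil)) .nil)) .nil)) (.cons 223 (.leaf 199 1599 (.cons 225 (.leaf 201 1605 (.cons 246 (.leaf 245 1769 (.cons 249 (.cons 222 (.leaf 221 1768 (.leaf 250 1776 .nil)) (.cons 222 (.leaf 221 1768 (.cons 198 (.leaf 197 1579 (.cons 174 (.leaf 150 1204 (.leaf 271 1396 .nil)) .nil)) .nil)) (.cons 250 (.leaf 274 1976 (.leaf 251 1787 .nil)) .nil))) .nil)) .nil)) .nil)) (.cons 199 (.leaf 223 1599 (.cons 200 (.leaf 175 1407 (.cons 201 (.leaf 177 1413 (.leaf 225 1605 .nil)) .nil)) .nil)) .nil)))))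
noncomputable def t103 : T := .cons 320 (.leaf 223 1791 (.cons 321 (.leaf 345 1988 (.cons 224 (.leaf 297 1796 (.cons 343 (.leaf 319 1982 (.cons 344 (.leaf 271 1983 (.leaf 367 2174 .nil)) .nil)) .nil)) .nil)) .nil)) (.cons 224 t102 (.cons 320 (.cons 321 (.leaf 345 1988 (.cons 224 (.leaf 297 1796 (.cons 343 (.leaf 319 1982 (.cons 344 (.leaf 271 1983 (.leaf 367 2174 .nil)) .nil)) .nil)) .nil)) (.cons 319 (.leaf 343 1982 (.cons 321 (.leaf 345 1988 (.cons 224 (.leaf 297 1796 (.cons 201 (.leaf 225 1605 (.cons 200 (.leaf 177 1413 (.cons 175 (.leaf 199 1407 (.cons 176 (.leaf 151 1215 (.leaf 271 1406 .nil)) .nil)) .nil)) .nil)) .nil)) .nil)) .nil)) (.cons 344 (.leaf 271 1983 (.cons 343 (.leaf 319 1982 (.leaf 367 2174 .nil)) .nil)) (.cons 319 (.leaf 343 1982 (.cons 321 (.leaf 345 1988 (.cons 297 (.leaf 224 1796 (.cons 298 (.leaf 299 2362 (.leaf 318 2353 .nil)) .nil)) .nil)) .nil)) (.cons 321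 (.leaf 345 1988 (.cons 224 (.leaf 297 1796 (.cons 201 (.leaf 225 1605 (.cons 200 (.leaf 177 1413 (.cons 271 (.leaf 344 1983 (.leaf 176 1406 .nil)) .nil)) .nil)) .nil)) .nil)) .nil))))) (.cons 320 (.leaf 223 1791 (.cons 344 (.leaf 271 1983 (.cons 345 (.leaf 321 1988 (.leaf 369 2180 .nil)) .nil)) .nil)) (.cons 320 (.leaf 223 1791 (.cons 319 (.leaf 343 1982 (.cons 321 (.leaf 345 1988 (.cons 297 (.leaf 224 1796 (.cons 298 (.leaf 299 2362 (.leaf 318 2353 .nil)) .nil)) .nil)) .nil)) .nil)) (.cons 320 (.leaf 223 1791 (.cons 344 (.leaf 271 1983 (.cons 343 (.leaf 319 1982 (.leaf 367 2174 .nil)) .nil)) .nil)) .nil)))))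
noncomputable def t104 : T := .cons 221 (.leaf 222 1771 (.cons 245 (.leaf 220 1763 (.cons 223 (.cons 199 (.leaf 175 1404 (.cons 296 (.leaf 224 1599 (.leaf 271 1596 .nil)) .nil)) (.cons 269 (.leaf 268 1954 (.leaf 270 1962 .nil)) .nil)) .nil)) .nil)) (.cons 221 (.leaf 222 1771 (.cons 245 (.leaf 220 1763 (.cons 223 (.cons 199 (.leaf 175 1404 (.cons 296 (.leaf 224 1599 (.leaf 271 1596 .nil)) .nil)) (.cons 244 (.leaf 271 1952 (.leaf 224 1761 .nil)) (.cons 199 (.leaf 175 1404 (.cons 271 (.leaf 296 1596 (.leaf 244 1952 .nil)) .nil)) (.cons 199 (.leaf 175 1404 (.cons 224 (.leaf 296 1599 (.leaf 244 1761 .nil)) .nil)) .nil)))) .nil)) .nil)) (.cons 269 (.leaf 270 1962 (.cons 245 (.leaf 268 1954 (.cons 244 (.leaf 271 1952 (.cons 219 (.leaf 220 1755 (.cons 223 (.leaf 224 1761 (.cons 243 (.leaf 218 1747 (.leaf 222 1753 .nil)) .nil)) .nil)) .nil)) .nil)) .nil)) (.cons 269 (.leaf 270 1962 (.cons 245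 (.leaf 268 1954 (.cons 220 (.leaf 221 1763 (.cons 244 (.leaf 271 1952 (.leaf 219 1755 .nil)) .nil)) .nil)) .nil)) (.cons 270 (.leaf 269 1962 (.cons 222 (.leaf 221 1771 (.cons 199 (.cons 175 (.leaf 223 1404 (.leaf 198 1397 .nil)) (.cons 198 (.leaf 175 1397 (.cons 173 (.leaf 197 1391 (.cons 174 (.leaf 271 1396 (.leaf 149 1199 .nil)) .nil)) .nil)) (.cons 223 (.leaf 294 1589 (.cons 296 (.leaf 224 1599 (.leaf 271 1596 .nil)) .nil)) .nil))) .nil)) .nil)) (.cons 221 (.leaf 222 1771 (.cons 245 (.leaf 220 1763 (.cons 269 (.leaf 268 1954 (.leaf 270 1962 .nil)) .nil)) .nil)) .nil)))))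
noncomputable def t105 : T := .cons 250 (.leaf 274 1976 (.cons 223 (.leaf 222 1779 (.cons 175 (.leaf 199 1404 (.cons 227 (.leaf 226 1785 (.cons 251 (.leaf 224 1787 (.leaf 228 1793 .nil)) .nil)) .nil)) .nil)) .nil)) (.cons 225 (.cons 226 (.leaf 246 1777 (.cons 227 (.leaf 224 1786 (.leaf 228 1794 .nil)) .nil)) (.cons 201 (.leaf 177 1414 (.cons 296 (.leaf 224 1605 (.leaf 320 1797 .nil)) .nil)) (.cons 246 (.leaf 226 1777 (.cons 177 (.leaf 201 1414 (.cons 221 (.leaf 222 1771 (.cons 245 (.leaf 220 1763 (.cons 269 (.leaf 268 1954 (.leaf 270 1962 .nil)) .nil)) .nil)) .nil)) .nil)) .nil))) (.cons 250 (.leaf 274 1976 (.cons 223 (.leaf 222 1779 (.cons 175 (.leaf 199 1404 (.cons 224 (.leaf 251 1787 (.cons 296 (.leaf 320 1791 (.cons 201 (.leaf 225 1605 (.cons 200 (.leaf 177 1413 (.cons 176 (.leaf 151 1215 (.leaf 152 1214 .nil)) .nil)) .nil)) .nil)) .nil)) .nil)) .nil)) .nil)) (.cons 250 (.leaf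 274 1976 (.cons 226 (.leaf 227 1785 (.cons 225 (.leaf 246 1777 (.cons 201 (.leaf 177 1414 (.cons 296 (.leaf 224 1605 (.leaf 320 1797 .nil)) .nil)) .nil)) .nil)) .nil)) (.cons 250 (.leaf 274 1976 (.cons 222 (.leaf 223 1779 (.cons 226 (.leaf 227 1785 (.cons 246 (.leaf 221 1771 (.leaf 225 1777 .nil)) .nil)) .nil)) .nil)) .nil))))
noncomputable def t106 : T := .cons 223 (.leaf 199 1599 (.cons 201 (.leaf 225 1605 (.cons 200 (.leaf 177 1413 (.cons 176 (.leaf 271 1406 (.leaf 152 1214 .nil)) .nil)) .nil)) .nil)) (.cons 201 (.leaf 225 1605 (.cons 200 (.leaf 177 1413 (.cons 176 (.leaf 271 1406 (.cons 175 (.leaf 199 1407 (.leaf 151 1215 .nil)) .nil)) .nil)) .nil)) (.cons 201 (.leaf 225 1605 (.cons 200 (.leaf 177 1413 (.cons 176 (.leaf 271 1406 (.cons 152 (.leaf 223 1214 (.cons 127 (.leaf 151 1023 (.cons 128 (.leaf 103 831 (.cons 129 (.leaf 153 1029 (.leaf 105 837 .nil)) .nil)) .nil)) .nil)) .nil))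 .nil)) .nil)) (.cons 199 (.leaf 223 1599 (.cons 200 (.leaf 175 1407 (.cons 176 (.leaf 271 1406 (.cons 177 (.leaf 201 1413 (.leaf 153 1221 .nil)) .nil)) .nil)) .nil)) (.cons 199 (.leaf 223 1599 (.cons 200 (.leaf 175 1407 (.cons 271 (.leaf 176 1406 (.cons 297 (.leaf 321 1796 (.cons 270 (.leaf 269 2152 (.cons 250 (.leaf 249 1970 (.cons 299 (.leaf 298 2171 (.cons 323 (.cons 226 (.leaf 251 1815 (.cons 225 (.leaf 227 1786 (.cons 274 (.leaf 202 1620 (.leaf 347 2007 .nil)) .nil)) .nil)) (.cons 347 (.leaf 274 2007 (.cons 370 (.leaf 346 2198 (.cons 371 (.leaf 394 2390 (.cons 372 (.leaf 348 2204 (.leaf 396 2396 .nil)) .nil)) .nil)) .nil)) (.cons 251 (.leaf 226 1815 (.cons 228 (.leaf 252 1821 (.cons 227 (.leaf 204 1629 (.cons 324 (.leaf 300 1820 (.leaf 348 2012 .nil)) .nil)) .nil)) .nil)) .nil))) .nil)) .nil)) .nil)) .nil)) .nil)) .nil)) .nil)) (.cons 223 (.leaf 199 1599 (.cons 225 (.leaf 201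 1605 (.cons 226 (.leaf 227 1786 (.cons 202 (.leaf 203 1593 (.cons 250 (.leaf 251 1784 (.cons 249 (.leaf 274 1976 (.leaf 222 1776 .nil)) .nil)) .nil)) .nil)) .nil)) .nil)) .nil)))))
noncomputable def t107 : T := .cons 224 (.cons 201 (.leaf 225 1605 (.cons 200 (.leaf 177 1413 (.cons 271 (.leaf 176 1406 (.cons 320 (.leaf 223 1791 (.leaf 344 1983 .nil)) .nil)) .nil)) .nil)) (.cons 225 (.leaf 201 1605 (.cons 226 (.leaf 227 1786 (.cons 249 (.leaf 320 1797 (.cons 250 (.leaf 274 1976 (.cons 251 (.leaf 271 1978 (.leaf 252 1795 .nil)) .nil)) .nil)) .nil)) .nil)) (.cons 201 (.leaf 225 1605 (.cons 200 (.leaf 177 1413 (.cons 176 (.leaf 271 1406 (.cons 152 (.leaf 223 1214 (.cons 127 (.leaf 151 1023 (.cons 128 (.leaf 103 831 (.cons 129 (.leaf 153 1029 (.leaf 105 837 .nil)) .nil)) .nil)) .nil)) .nil)) .nil)) .nil)) (.cons 223 (.leaf 199 1599 (.leaf 320 1791 .nil)) .nil)))) (.cons 224 t106 (.cons 320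 (.cons 321 (.leaf 345 1988 (.cons 224 (.leaf 297 1796 (.cons 343 (.leaf 319 1982 (.cons 344 (.leaf 271 1983 (.leaf 367 2174 .nil)) .nil)) .nil)) .nil)) (.cons 319 (.leaf 343 1982 (.cons 321 (.leaf 345 1988 (.cons 224 (.leaf 297 1796 (.cons 201 (.leaf 225 1605 (.cons 200 (.leaf 177 1413 (.cons 175 (.leaf 199 1407 (.cons 176 (.leaf 151 1215 (.leaf 271 1406 .nil)) .nil)) .nil)) .nil)) .nil)) .nil)) .nil)) (.cons 344 (.leaf 271 1983 (.cons 343 (.leaf 319 1982 (.leaf 367 2174 .nil)) .nil)) (.cons 321 (.leaf 345 1988 (.cons 224 (.leaf 297 1796 (.cons 201 (.leaf 225 1605 (.cons 200 (.leaf 177 1413 (.cons 271 (.leaf 344 1983 (.leaf 176 1406 .nil)) .nil)) .nil)) .nil)) .nil)) (.cons 319 (.leaf 343 1982 (.cons 321 (.leaf 345 1988 (.cons 297 (.leaf 224 1796 (.cons 298 (.leaf 299 2362 (.leaf 318 2353 .nil)) .nil)) .nil)) .nil)) .nil))))) (.cons 320 (.leaf 223 1791 (.cons 344 (.leaf 271 1983 (.cons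 345 (.leaf 321 1988 (.leaf 369 2180 .nil)) .nil)) .nil)) (.cons 320 (.leaf 223 1791 (.cons 319 (.leaf 343 1982 (.cons 321 (.leaf 345 1988 (.cons 297 (.leaf 224 1796 (.cons 298 (.leaf 299 2362 (.leaf 318 2353 .nil)) .nil)) .nil)) .nil)) .nil)) .nil))))
noncomputable def t108 : T := .cons 225 (.leaf 226 1777 (.cons 270 (.leaf 269 1962 (.cons 296 (.leaf 320 1797 (.cons 222 (.leaf 221 1771 (.cons 201 (.leaf 177 1414 (.cons 199 (.cons 223 (.leaf 175 1404 (.leaf 271 1596 .nil)) (.cons 198 (.leaf 175 1397 (.cons 173 (.leaf 197 1391 (.cons 174 (.leaf 271 1396 (.leaf 149 1199 .nil)) .nil)) .nil)) (.cons 223 (.leaf 271 1596 (.leaf 294 1589 .nil)) (.cons 223 (.leaf 175 1404 (.leaf 294 1589 .nil)) .nil)))) .nil)) .nil)) .nil)) .nil)) .nil)) (.cons 225 (.leaf 226 1777 (.cons 296 (.leaf 320 1797 (.cons 201 (.leaf 177 1414 (.cons 245 (.cons 221 (.leaf 220 1763 (.leaf 222 1771 .nil)) (.cons 244 (.leaf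 271 1952 (.cons 219 (.leaf 220 1755 (.cons 243 (.leaf 218 1747 (.cons 267 (.leaf 268 1946 (.leaf 266 1938 .nil)) .nil)) .nil)) .nil)) (.cons 222 (.leaf 221 1771 (.cons 244 (.leaf 271 1952 (.cons 243 (.leaf 223 1753 (.cons 267 (.leaf 268 1946 (.leaf 266 1938 .nil)) .nil)) .nil)) .nil)) .nil))) .nil)) .nil)) .nil)) (.cons 269 (.leaf 270 1962 (.cons 245 (.leaf 268 1954 (.cons 220 (.leaf 221 1763 (.cons 244 (.leaf 271 1952 (.leaf 219 1755 .nil)) .nil)) .nil)) .nil)) (.cons 225 (.leaf 226 1777 (.cons 296 (.leaf 320 1797 (.cons 201 (.leaf 177 1414 (.cons 223 (.cons 199 (.leaf 175 1404 (.leaf 271 1596 .nil)) (.cons 269 (.leaf 270 1962 (.cons 245 (.leaf 268 1954 (.cons 244 (.leaf 271 1952 (.cons 219 (.leaf 220 1755 (.cons 243 (.leaf 218 1747 (.leaf 222 1753 .nil)) .nil)) .nil)) .nil)) .nil)) (.cons 199 (.leaf 175 1404 (.cons 270 (.leaf 269 1962 (.cons 294 (.leaf 318 1781 (.leaf 222 1589 .nil))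 .nil)) .nil)) .nil))) .nil)) .nil)) .nil)) (.cons 225 (.leaf 226 1777 (.cons 177 (.leaf 201 1414 (.cons 221 (.leaf 222 1771 (.cons 245 (.leaf 220 1763 (.cons 269 (.leaf 268 1954 (.leaf 270 1962 .nil)) .nil)) .nil)) .nil)) .nil)) .nil))))
noncomputable def t109 : T := .cons 246 (.cons 225 (.leaf 226 1777 (.cons 177 (.leaf 201 1414 (.cons 245 (.leaf 224 1769 (.cons 250 (.leaf 274 1976 (.cons 271 (.leaf 244 1952 (.leaf 251 1978 .nil)) .nil)) .nil)) .nil)) .nil)) (.cons 225 (.leaf 226 1777 (.cons 177 (.leaf 201 1414 (.cons 245 (.leaf 224 1769 (.cons 269 (.leaf 268 1954 (.leaf 270 1962 .nil)) .nil)) .nil)) .nil)) (.cons 250 (.leaf 274 1976 (.cons 221 (.leaf 222 1771 (.cons 271 (.leaf 251 1978 (.leaf 270 1970 .nil)) .nil)) .nil)) .nil))) (.cons 246 (.cons 225 (.leaf 226 1777 (.cons 177 (.leaf 201 1414 (.cons 245 (.leaf 224 1769 (.cons 269 (.leaf 268 1954 (.leaf 270 1962 .nil)) .nil)) .nil))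 .nil)) (.cons 225 (.leaf 226 1777 (.cons 177 (.leaf 201 1414 (.cons 221 (.leaf 222 1771 (.cons 245 (.leaf 220 1763 (.leaf 224 1769 .nil)) .nil)) .nil)) .nil)) (.cons 269 (.leaf 270 1962 (.cons 245 (.leaf 268 1954 (.cons 244 (.leaf 271 1952 (.cons 219 (.leaf 220 1755 (.cons 223 (.leaf 224 1761 (.cons 243 (.leaf 218 1747 (.leaf 222 1753 .nil)) .nil)) .nil)) .nil)) .nil)) .nil)) (.cons 270 (.leaf 269 1962 (.cons 222 (.leaf 221 1771 (.cons 225 (.leaf 226 1777 (.cons 201 (.leaf 177 1414 (.cons 223 (.cons 199 (.leaf 175 1404 (.leaf 294 1589 .nil)) (.cons 224 (.leaf 202 1585 (.cons 198 (.leaf 197 1579 (.cons 174 (.leaf 150 1204 (.leaf 271 1396 .nil)) .nil)) .nil)) .nil)) .nil)) .nil)) .nil)) .nil)) (.cons 269 (.leaf 270 1962 (.cons 245 (.leaf 268 1954 (.cons 220 (.leaf 221 1763 (.cons 244 (.leaf 271 1952 (.leaf 219 1755 .nil)) .nil)) .nil)) .nil)) .nil))))) (.cons 250 (.leaf 274 1976 (.cons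 271 (.leaf 251 1978 (.leaf 270 1970 .nil)) .nil)) (.cons 250 (.leaf 274 1976 (.cons 223 (.leaf 222 1779 (.cons 175 (.leaf 199 1404 (.cons 227 (.leaf 226 1785 (.cons 251 (.leaf 224 1787 (.leaf 228 1793 .nil)) .nil)) .nil)) .nil)) .nil)) .nil)))
noncomputable def t110 : T := .cons 320 (.leaf 223 1791 (.cons 319 (.leaf 343 1982 (.cons 321 (.leaf 345 1988 (.cons 224 (.leaf 297 1796 (.cons 201 (.leaf 225 1605 (.cons 200 (.leaf 177 1413 (.cons 271 (.leaf 344 1983 (.leaf 176 1406 .nil)) .nil)) .nil)) .nil)) .nil)) .nil)) .nil)) (.cons 320 (.cons 319 (.leaf 343 1982 (.cons 321 (.leaf 345 1988 (.cons 224 (.leaf 297 1796 (.cons 201 (.leaf 225 1605 (.cons 200 (.leaf 177 1413 (.cons 271 (.leaf 344 1983 (.leaf 176 1406 .nil)) .nil)) .nil)) .nil)) .nil)) .nil)) (.cons 319 (.leaf 343 1982 (.cons 321 (.leaf 345 1988 (.cons 224 (.leaf 297 1796 (.cons 201 (.leaf 225 1605 (.cons 200 (.leaf 177 1413 (.cons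 175 (.leaf 199 1407 (.cons 176 (.leaf 151 1215 (.leaf 271 1406 .nil)) .nil)) .nil)) .nil)) .nil)) .nil)) .nil)) (.cons 344 (.leaf 271 1983 (.cons 343 (.leaf 319 1982 (.leaf 367 2174 .nil)) .nil)) (.cons 321 (.leaf 345 1988 (.cons 224 (.leaf 297 1796 (.cons 201 (.leaf 225 1605 (.cons 200 (.leaf 177 1413 (.cons 271 (.leaf 344 1983 (.leaf 176 1406 .nil)) .nil)) .nil)) .nil)) .nil)) (.cons 319 (.leaf 343 1982 (.cons 321 (.leaf 345 1988 (.cons 297 (.leaf 224 1796 (.cons 298 (.leaf 299 2362 (.leaf 318 2353 .nil)) .nil)) .nil)) .nil)) .nil))))) (.cons 224 (.cons 297 (.leaf 321 1796 (.cons 199 (.leaf 223 1599 (.cons 200 (.leaf 175 1407 (.cons 201 (.leaf 177 1413 (.leaf 225 1605 .nil)) .nil)) .nil)) .nil)) (.cons 201 (.leaf 225 1605 (.cons 200 (.leaf 177 1413 (.cons 176 (.leaf 271 1406 (.cons 175 (.leaf 199 1407 (.leaf 151 1215 .nil)) .nil)) .nil)) .nil)) (.cons 225 (.leaf 201 1605 (.cons 226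 (.leaf 227 1786 (.cons 246 (.leaf 245 1769 (.leaf 223 1778 .nil)) .nil)) .nil)) (.cons 297 (.leaf 321 1796 (.cons 200 (.cons 199 (.leaf 175 1407 (.leaf 223 1599 .nil)) (.cons 176 (.leaf 271 1406 (.cons 151 (.leaf 175 1215 (.cons 152 (.leaf 223 1214 (.leaf 127 1023 .nil)) .nil)) .nil)) (.cons 176 (.leaf 271 1406 (.cons 175 (.leaf 199 1407 (.leaf 151 1215 .nil)) .nil)) (.cons 176 (.leaf 271 1406 (.cons 223 (.leaf 199 1599 (.leaf 152 1214 .nil)) .nil)) .nil)))) .nil)) .nil)))) (.cons 320 (.leaf 223 1791 (.cons 344 (.leaf 271 1983 (.cons 345 (.leaf 321 1988 (.leaf 369 2180 .nil)) .nil)) .nil)) (.cons 320 (.leaf 223 1791 (.cons 319 (.leaf 343 1982 (.cons 321 (.leaf 345 1988 (.cons 297 (.leaf 224 1796 (.cons 298 (.leaf 299 2362 (.leaf 318 2353 .nil)) .nil)) .nil)) .nil)) .nil)) (.cons 320 (.leaf 223 1791 (.cons 344 (.leaf 271 1983 (.cons 343 (.leaf 319 1982 (.leaf 367 2174 .nil)) .nil))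 .nil)) .nil)))))
noncomputable def t111 : T := .cons 225 (.cons 177 (.leaf 201 1414 (.cons 226 (.leaf 246 1777 (.cons 227 (.leaf 224 1786 (.leaf 228 1794 .nil)) .nil)) .nil)) (.cons 250 (.leaf 274 1976 (.cons 271 (.leaf 251 1978 (.leaf 270 1970 .nil)) .nil)) .nil)) (.cons 225 (.cons 177 (.leaf 201 1414 (.cons 226 (.leaf 246 1777 (.cons 227 (.leaf 224 1786 (.leaf 228 1794 .nil)) .nil)) .nil)) (.cons 201 (.leaf 177 1414 (.cons 296 (.leaf 224 1605 (.leaf 320 1797 .nil)) .nil)) (.cons 226 (.leaf 246 1777 (.cons 227 (.leaf 224 1786 (.leaf 228 1794 .nil)) .nil)) (.cons 246 (.leaf 226 1777 (.cons 177 (.leaf 201 1414 (.cons 221 (.leaf 222 1771 (.cons 245 (.leaf 220 1763 (.cons 244 (.leaf 271 1952 (.cons 268 (.leaf 269 1954 (.leaf 267 1946 .nil)) .nil)) .nil)) .nil)) .nil)) .nil)) .nil)))) (.cons 250 (.leaf 274 1976 (.cons 271 (.leaf 251 1978 (.leaf 270 1970 .nil)) .nil)) (.cons 250 (.leaf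 274 1976 (.cons 226 (.leaf 227 1785 (.cons 246 (.leaf 225 1777 (.cons 221 (.leaf 222 1771 (.cons 245 (.leaf 220 1763 (.cons 269 (.leaf 268 1954 (.leaf 270 1962 .nil)) .nil)) .nil)) .nil)) .nil)) .nil)) .nil)))
noncomputable def t112 : T := .cons 223 (.leaf 199 1599 (.cons 319 (.leaf 295 1790 (.cons 320 (.leaf 247 1791 (.leaf 343 1982 .nil)) .nil)) .nil)) (.cons 295 (.leaf 319 1790 (.cons 200 (.leaf 271 1598 (.cons 175 (.leaf 199 1407 (.cons 176 (.leaf 151 1215 (.cons 177 (.leaf 201 1413 (.leaf 153 1221 .nil)) .nil)) .nil)) .nil)) .nil)) (.cons 200 (.cons 175 (.leaf 199 1407 (.cons 176 (.leaf 151 1215 (.cons 177 (.leaf 201 1413 (.leaf 153 1221 .nil)) .nil)) .nil)) (.cons 177 (.leaf 201 1413 (.cons 176 (.leaf 153 1221 (.cons 247 (.leaf 271 1406 (.cons 151 (.leaf 175 1215 (.cons 152 (.leaf 127 1023 (.leaf 223 1214 .nil)) .nil)) .nil)) .nil)) .nil)) (.cons 223 (.leaf 199 1599 (.cons 247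 (.leaf 320 1791 (.cons 176 (.leaf 271 1406 (.leaf 152 1214 .nil)) .nil)) .nil)) (.cons 199 (.leaf 175 1407 (.leaf 223 1599 .nil)) .nil)))) (.cons 320 (.cons 247 (.leaf 223 1791 (.cons 271 (.leaf 344 1983 (.cons 200 (.leaf 295 1598 (.leaf 176 1406 .nil)) .nil)) .nil)) (.cons 247 (.leaf 223 1791 (.cons 343 (.leaf 319 1982 (.cons 344 (.leaf 271 1983 (.leaf 367 2174 .nil)) .nil)) .nil)) (.cons 319 (.leaf 295 1790 (.leaf 343 1982 .nil)) .nil))) .nil)))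
noncomputable def t113 : T := .cons 319 (.leaf 343 1982 (.cons 321 (.leaf 345 1988 (.cons 297 (.leaf 224 1796 (.cons 298 (.leaf 299 2362 (.leaf 318 2353 .nil)) .nil)) .nil)) .nil)) (.cons 321 (.leaf 345 1988 (.cons 297 (.leaf 224 1796 (.cons 295 (.cons 294 (.leaf 293 2344 (.leaf 322 2352 .nil)) (.cons 298 (.leaf 274 2169 (.cons 271 (.leaf 299 2171 (.leaf 270 2163 .nil)) .nil)) .nil)) .nil)) .nil)) (.cons 344 (.cons 367 (.leaf 343 2174 (.cons 368 (.leaf 391 2366 (.cons 369 (.leaf 345 2180 (.leaf 393 2372 .nil)) .nil)) .nil)) (.cons 369 (.leaf 345 2180 (.cons 368 (.leaf 393 2372 (.cons 295 (.leaf 271 2175 (.cons 319 (.leaf 224 1790 (.leaf 392 2367 .nil)) .nil)) .nil)) .nil)) (.cons 343 (.leaf 319 1982 (.leaf 367 2174 .nil)) .nil))) (.cons 319 (.leaf 343 1982 (.cons 297 (.cons 295 (.leaf 224 1790 (.cons 298 (.leaf 274 2169 (.leaf 318 2354 .nil)) .nil)) (.cons 298 (.leaf 299 2362 (.cons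 318 (.leaf 295 2354 (.leaf 317 2345 .nil)) .nil)) (.cons 224 (.leaf 295 1790 (.leaf 321 1796 .nil)) (.cons 298 (.leaf 299 2362 (.cons 318 (.leaf 317 2345 (.leaf 321 2353 .nil)) .nil)) .nil)))) .nil)) (.cons 343 (.leaf 319 1982 (.cons 344 (.leaf 367 2174 (.cons 345 (.leaf 321 1988 (.leaf 369 2180 .nil)) .nil)) .nil)) .nil))))
noncomputable def t114 : T := .cons 199 (.leaf 223 1599 (.cons 200 (.leaf 175 1407 (.cons 201 (.leaf 177 1413 (.cons 295 (.leaf 319 1790 (.cons 297 (.leaf 321 1796 (.cons 274 (.leaf 298 2169 (.cons 202 (.cons 178 (.leaf 179 1401 (.cons 226 (.leaf 251 1428 (.leaf 299 1620 .nil)) .nil)) (.cons 179 (.leaf 178 1401 (.cons 203 (.leaf 180 1409 (.cons 227 (.leaf 251 1430 (.leaf 228 1600 .nil)) .nil)) .nil)) (.cons 226 (.leaf 299 1620 (.leaf 227 1592 .nil)) .nil))) .nil)) .nil)) .nil)) .nil)) .nil)) .nil)) (.cons 295 (.leaf 319 1790 (.cons 297 (.leaf 321 1796 (.cons 298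 (.leaf 274 2169 (.cons 323 (.leaf 322 2360 (.cons 299 (.leaf 324 2368 (.cons 251 (.leaf 226 1815 (.cons 228 (.leaf 252 1821 (.cons 227 (.leaf 204 1629 (.leaf 249 1793 .nil)) .nil)) .nil)) .nil)) .nil)) .nil)) .nil)) .nil)) (.cons 223 (.leaf 199 1599 (.cons 249 (.leaf 251 1787 (.cons 222 (.leaf 221 1768 (.leaf 247 1779 .nil)) .nil)) .nil)) (.cons 295 (.leaf 319 1790 (.cons 297 (.leaf 321 1796 (.cons 274 (.leaf 298 2169 (.cons 247 (.leaf 249 1976 (.cons 200 (.cons 199 (.leaf 175 1407 (.leaf 223 1599 .nil)) (.cons 177 (.leaf 201 1413 (.cons 176 (.leaf 153 1221 (.cons 151 (.leaf 175 1215 (.cons 152 (.leaf 127 1023 (.leaf 223 1214 .nil)) .nil)) .nil)) .nil)) (.cons 177 (.leaf 201 1413 (.cons 176 (.leaf 153 1221 (.cons 175 (.leaf 199 1407 (.leaf 151 1215 .nil)) .nil)) .nil)) (.cons 223 (.leaf 199 1599 (.cons 176 (.leaf 152 1214 (.cons 177 (.leaf 201 1413 (.leaf 153 1221 .nil)) .nil)) .nil))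 .nil)))) .nil)) .nil)) .nil)) .nil)) .nil)))
noncomputable def t115 : T := .cons 295 (.leaf 319 1790 (.cons 200 (.leaf 271 1598 (.cons 175 (.leaf 199 1407 (.cons 176 (.leaf 151 1215 (.cons 177 (.leaf 201 1413 (.leaf 153 1221 .nil)) .nil)) .nil)) .nil)) .nil)) (.cons 297 (.leaf 321 1796 (.cons 200 (.cons 177 (.leaf 201 1413 (.cons 176 (.leaf 153 1221 (.cons 151 (.leaf 175 1215 (.cons 152 (.leaf 127 1023 (.cons 247 (.leaf 271 1406 (.leaf 223 1214 .nil)) .nil)) .nil)) .nil)) .nil)) (.cons 175 (.leaf 199 1407 (.cons 176 (.leaf 151 1215 (.cons 177 (.leaf 201 1413 (.leaf 153 1221 .nil)) .nil)) .nil)) (.cons 177 (.leaf 201 1413 (.cons 176 (.leaf 153 1221 (.cons 223 (.leaf 199 1599 (.cons 247 (.leaf 271 1406 (.leaf 152 1214 .nil)) .nil)) .nil)) .nil)) (.cons 199 (.leaf 175 1407 (.leaf 223 1599 .nil)) .nil)))) .nil)) (.cons 295 (.leaf 319 1790 (.cons 297 (.leaf 321 1796 (.cons 298 (.leaf 274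 2169 (.cons 271 (.leaf 200 1598 (.leaf 299 2171 .nil)) .nil)) .nil)) .nil)) (.cons 295 (.leaf 319 1790 (.cons 297 (.leaf 321 1796 (.cons 298 (.leaf 274 2169 (.cons 271 (.leaf 299 2171 (.leaf 270 2163 .nil)) .nil)) .nil)) .nil)) (.cons 250 t114 .nil))))
noncomputable def t116 : T := .cons 246 (.leaf 245 1769 (.cons 249 (.leaf 250 1976 (.cons 270 (.leaf 269 1962 (.cons 318 (.leaf 317 2346 (.leaf 223 1781 .nil)) .nil)) .nil)) .nil)) (.cons 317 (.leaf 318 2346 (.cons 246 (.leaf 245 1769 (.cons 249 (.leaf 250 1976 (.cons 222 (.leaf 221 1771 (.cons 293 (.leaf 316 2338 (.leaf 270 1774 .nil)) .nil)) .nil)) .nil)) .nil)) (.cons 269 (.leaf 270 2155 (.cons 249 (.leaf 250 1976 (.cons 293 (.leaf 268 2147 (.cons 317 (.leaf 316 2338 (.leaf 318 2346 .nil)) .nil)) .nil)) .nil)) (.cons 269 (.leaf 270 2155 (.cons 245 (.leaf 246 1769 (.cons 293 (.leaf 268 2147 (.cons 221 (.leaf 318 1772 (.cons 316 (.leaf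 317 2338 (.leaf 292 1766 .nil)) .nil)) .nil)) .nil)) .nil)) (.cons 269 (.leaf 270 2155 (.cons 245 (.leaf 246 1769 (.cons 293 (.leaf 268 2147 (.cons 221 (.leaf 318 1772 (.cons 222 (.leaf 198 1581 (.cons 223 (.leaf 220 1760 (.leaf 249 1768 .nil)) .nil)) .nil)) .nil)) .nil)) .nil)) (.cons 317 (.leaf 318 2346 (.cons 245 (.leaf 246 1769 (.cons 293 (.leaf 316 2338 (.cons 269 (.leaf 268 2147 (.cons 220 (.leaf 244 1767 (.cons 221 (.leaf 196 1575 (.cons 222 (.leaf 223 1760 (.leaf 198 1581 .nil)) .nil)) .nil)) .nil)) .nil)) .nil)) .nil)) (.cons 269 (.leaf 270 2155 (.cons 245 (.leaf 246 1769 (.cons 293 (.leaf 268 2147 (.cons 316 (.leaf 317 2338 (.cons 292 (.leaf 315 2330 (.leaf 221 1766 .nil)) .nil)) .nil)) .nil)) .nil)) .nil))))))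
noncomputable def t117 : T := .cons 202 (.leaf 203 1593 (.cons 247 (.leaf 246 1778 (.cons 250 (.leaf 251 1784 (.cons 249 (.leaf 274 1976 (.leaf 222 1776 .nil)) .nil)) .nil)) .nil)) (.cons 246 (.leaf 247 1778 (.cons 202 (.leaf 203 1593 (.cons 222 (.leaf 245 1770 (.cons 197 (.leaf 198 1579 (.cons 221 (.leaf 249 1768 (.leaf 196 1571 .nil)) .nil)) .nil)) .nil)) .nil)) (.cons 250 (.leaf 251 1784 (.cons 222 (.leaf 249 1776 (.cons 197 (.leaf 198 1579 (.cons 221 (.leaf 196 1571 (.cons 245 (.leaf 244 1762 (.leaf 246 1770 .nil)) .nil)) .nil)) .nil)) .nil)) (.cons 250 (.leaf 251 1784 (.cons 202 (.leaf 203 1593 (.cons 222 (.leaf 249 1776 (.cons 197 (.leaf 198 1579 (.cons 221 (.leaf 196 1571 (.cons 220 (.leaf 247 1760 (.cons 244 (.leaf 245 1762 (.leaf 243 1754 .nil)) .nil)) .nil)) .nil)) .nil)) .nil)) .nil)) (.cons 246 (.leaf 247 1778 (.cons 202 (.leaf 203 1593 (.cons 222 (.leaf 245 1770 (.cons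 197 (.leaf 198 1579 (.cons 221 (.leaf 196 1571 (.cons 149 (.leaf 173 1196 (.cons 250 (.leaf 251 1784 (.cons 270 (.leaf 294 1583 (.cons 271 (.leaf 269 2152 (.cons 299 (.leaf 274 1620 (.leaf 298 2171 .nil)) .nil)) .nil)) .nil)) .nil)) .nil)) .nil)) .nil)) .nil)) .nil)) (.cons 247 (.leaf 246 1778 (.cons 202 (.leaf 203 1593 (.cons 250 (.leaf 251 1784 (.cons 274 (.leaf 299 1620 (.leaf 249 1976 .nil)) .nil)) .nil)) .nil)) .nil)))))
noncomputable def t118 : T := .cons 247 (.leaf 227 1786 (.cons 250 (.cons 249 (.leaf 274 1976 (.leaf 246 1777 .nil)) (.cons 223 (.leaf 246 1778 (.leaf 251 1784 .nil)) (.cons 249 (.leaf 274 1976 (.cons 251 (.leaf 271 1978 (.leaf 223 1784 .nil)) .nil)) .nil))) .nil)) (.cons 223 t117 (.cons 227 (.cons 203 (.leaf 204 1601 (.cons 202 (.leaf 223 1593 (.cons 228 (.leaf 249 1794 (.cons 229 (.leaf 230 1619 (.cons 253 (.leaf 252 1800 (.leaf 254 1808 .nil)) .nil)) .nil))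 .nil)) .nil)) (.cons 251 (.leaf 252 1792 (.cons 202 (.leaf 299 1623 (.cons 178 (.leaf 203 1431 (.leaf 250 1428 .nil)) .nil)) .nil)) (.cons 228 (.leaf 249 1794 (.cons 252 (.leaf 251 1792 (.leaf 253 1800 .nil)) .nil)) (.cons 203 (.leaf 204 1601 (.cons 202 (.leaf 223 1593 (.cons 251 (.leaf 178 1431 (.leaf 299 1623 .nil)) .nil)) .nil)) .nil)))) (.cons 227 (.leaf 247 1786 (.cons 203 (.leaf 204 1601 (.cons 202 (.leaf 223 1593 (.cons 251 (.leaf 178 1431 (.leaf 299 1623 .nil)) .nil)) .nil)) .nil)) (.cons 247 (.leaf 227 1786 (.cons 246 (.leaf 245 1769 (.leaf 249 1777 .nil)) .nil)) .nil))))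
noncomputable def t119 : T := .cons 225 (.leaf 201 1605 (.cons 295 (.leaf 319 1790 (.cons 297 (.leaf 321 1796 (.cons 274 (.leaf 298 2169 (.cons 271 (.leaf 200 1598 (.cons 270 (.leaf 269 2152 (.cons 247 (.cons 249 (.leaf 250 1976 (.cons 226 (.leaf 227 1786 (.leaf 246 1777 .nil)) .nil)) (.cons 226 (.leaf 227 1786 (.cons 246 (.leaf 245 1769 (.leaf 223 1778 .nil)) .nil)) (.cons 250 (.leaf 249 1976 (.cons 226 (.leaf 227 1786 (.cons 202 (.leaf 299 1620 (.cons 203 (.leaf 223 1593 (.leaf 179 1429 .nil)) .nil)) .nil)) .nil)) (.cons 249 (.leaf 250 1976 (.cons 246 (.leaf 245 1769 (.cons 222 (.leaf 221 1771 (.leaf 198 1588 .nil)) .nil)) .nil)) .nil)))) .nil)) .nil)) .nil)) .nil)) .nil)) .nil)) (.cons 225 (.leaf 201 1605 (.cons 297 (.leaf 321 1796 (.cons 226 t118 .nil)) .nil)) (.cons 295 (.leaf 319 1790 (.cons 271 (.leaf 200 1598 (.cons 297 (.leaf 321 1796 (.cons 298 (.leaf 274 2169 (.leaf 299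 2171 .nil)) .nil)) .nil)) .nil)) (.cons 295 (.leaf 319 1790 (.cons 200 (.leaf 271 1598 (.cons 201 (.leaf 177 1413 (.leaf 225 1605 .nil)) .nil)) .nil)) (.cons 225 (.leaf 201 1605 (.cons 295 (.leaf 319 1790 (.cons 297 (.leaf 321 1796 (.cons 274 (.leaf 298 2169 (.cons 247 (.cons 250 (.leaf 249 1976 (.cons 226 (.leaf 227 1786 (.cons 202 (.leaf 299 1620 (.cons 203 (.leaf 223 1593 (.leaf 179 1429 .nil)) .nil)) .nil)) .nil)) (.cons 294 t116 (.cons 226 (.leaf 227 1786 (.cons 246 (.leaf 245 1769 (.leaf 223 1778 .nil)) .nil)) (.cons 250 (.leaf 249 1976 (.cons 226 (.leaf 227 1786 (.cons 202 (.leaf 299 1620 (.cons 178 (.leaf 251 1428 (.cons 179 (.leaf 203 1429 (.leaf 155 1237 .nil)) .nil)) .nil)) .nil)) .nil)) .nil)))) .nil)) .nil)) .nil)) .nil)) .nil))))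
noncomputable def t120 : T := .leaf 269 2152 (.cons 299 (.leaf 298 2171 (.cons 251 (.cons 250 (.leaf 249 1978 (.cons 226 (.leaf 323 1815 (.cons 202 (.leaf 178 1428 (.leaf 227 1623 .nil)) .nil)) .nil)) (.cons 227 (.cons 226 (.leaf 202 1623 (.leaf 225 1595 .nil)) (.cons 228 (.leaf 204 1629 (.cons 323 (.leaf 252 1821 (.cons 324 (.leaf 300 1820 (.leaf 348 2012 .nil)) .nil)) .nil)) .nil)) (.cons 250 (.leaf 249 1978 (.cons 226 (.leaf 323 1815 (.cons 202 (.leaf 178 1428 (.leaf 274 1620 .nil)) .nil)) .nil)) (.cons 249 (.leaf 250 1978 (.cons 225 (.leaf 320 1797 (.cons 227 (.leaf 226 1595 (.cons 176 (.leaf 152 1220 (.cons 177 (.leaf 153 1221 (.cons 203 (.cons 178 (.leaf 202 1431 (.leaf 179 1402 .nil)) (.cons 204 (.leaf 180 1437 (.leaf 228 1629 .nil)) .nil)) .nil)) .nil)) .nil)) .nil)) .nil)) (.cons 250 (.leaf 249 1978 (.cons 323 (.cons 347 (.leaf 274 2007 (.cons 346 (.leaf 322 2006 (.leaf 370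 2198 .nil)) .nil)) (.cons 324 (.leaf 348 2012 (.cons 227 (.leaf 300 1820 (.cons 228 (.leaf 204 1629 (.leaf 252 1821 .nil)) .nil)) .nil)) .nil)) .nil)) .nil))))) .nil)) .nil)
noncomputable def t121 : T := .cons 199 (.leaf 175 1407 (.cons 271 (.leaf 295 1598 (.cons 176 (.leaf 247 1406 (.cons 153 (.leaf 177 1221 (.cons 152 (.leaf 129 1029 (.cons 223 (.leaf 296 1599 (.leaf 128 1022 .nil)) .nil)) .nil)) .nil)) .nil)) .nil)) (.cons 271 (.leaf 295 1598 (.cons 176 (.leaf 247 1406 (.cons 151 (.leaf 175 1215 (.cons 152 (.leaf 127 1023 (.cons 153 (.leaf 177 1221 (.leaf 129 1029 .nil)) .nil)) .nil)) .nil)) .nil)) (.cons 176 (.cons 175 (.leaf 199 1407 (.leaf 151 1215 .nil)) (.cons 153 (.leaf 177 1221 (.cons 152 (.leaf 129 1029 (.cons 127 (.leaf 151 1023 (.cons 103 (.leaf 128 831 (.cons 223 (.leaf 247 1214 (.cons 199 (.leaf 296 1599 (.cons 225 (.leaf 249 1220 (.cons 198 (.leaf 197 1576 (.leaf 226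 1587 .nil)) .nil)) .nil)) .nil)) .nil)) .nil)) .nil)) .nil)) (.cons 151 (.leaf 175 1215 (.cons 152 (.leaf 127 1023 (.cons 153 (.leaf 177 1221 (.leaf 129 1029 .nil)) .nil)) .nil)) (.cons 199 (.leaf 175 1407 (.cons 153 (.leaf 177 1221 (.cons 152 (.leaf 129 1029 (.cons 223 (.leaf 296 1599 (.leaf 247 1214 .nil)) .nil)) .nil)) .nil)) .nil)))) (.cons 271 (.leaf 295 1598 (.cons 247 (.leaf 176 1406 (.cons 249 (.cons 250 (.leaf 274 1976 (.leaf 251 1978 .nil)) (.cons 270 (.leaf 269 1961 (.cons 246 (.cons 225 (.leaf 245 1769 (.leaf 226 1777 .nil)) (.cons 222 (.leaf 221 1771 (.cons 198 (.leaf 174 1396 (.cons 197 (.leaf 173 1391 (.cons 225 (.leaf 226 1777 (.leaf 199 1576 .nil)) .nil)) .nil)) .nil)) (.cons 221 (.leaf 222 1771 (.cons 245 (.leaf 244 1952 (.leaf 220 1763 .nil)) .nil)) .nil))) .nil)) .nil)) .nil)) .nil)) (.cons 199 (.leaf 175 1407 (.cons 271 (.leaf 295 1598 (.cons 296 (.leaf 223 1599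 (.cons 321 (.leaf 297 1796 (.cons 320 (.leaf 345 1988 (.cons 247 (.leaf 344 1983 (.cons 249 (.leaf 225 1797 (.cons 250 (.leaf 274 1976 (.leaf 251 1978 .nil)) .nil)) .nil)) .nil)) .nil)) .nil)) .nil)) .nil)) (.cons 199 (.leaf 175 1407 (.cons 296 (.leaf 223 1599 (.cons 297 (.leaf 321 1796 (.cons 271 (.leaf 295 1598 (.cons 270 t120 .nil)) .nil)) .nil)) .nil)) .nil)))))
noncomputable def t122 : T := .cons 271 (.leaf 295 1598 (.cons 176 (.leaf 247 1406 (.cons 151 (.leaf 175 1215 (.cons 152 (.leaf 127 1023 (.cons 177 (.leaf 201 1413 (.leaf 153 1221 .nil)) .nil)) .nil)) .nil)) .nil)) (.cons 271 (.leaf 295 1598 (.cons 176 (.leaf 247 1406 (.cons 151 (.leaf 175 1215 (.cons 152 (.leaf 127 1023 (.cons 153 (.leaf 177 1221 (.leaf 129 1029 .nil)) .nil)) .nil)) .nil)) .nil)) (.cons 176 (.cons 151 (.leaf 175 1215 (.cons 152 (.leaf 127 1023 (.cons 201 (.leaf 177 1413 (.cons 225 (.leaf 296 1605 (.leaf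 249 1220 .nil)) .nil)) .nil)) .nil)) (.cons 151 (.leaf 175 1215 (.cons 152 (.leaf 127 1023 (.cons 129 (.leaf 153 1029 (.cons 128 (.leaf 105 837 (.cons 225 (.leaf 249 1220 (.leaf 201 1028 .nil)) .nil)) .nil)) .nil)) .nil)) (.cons 151 (.leaf 175 1215 (.cons 152 (.leaf 127 1023 (.cons 153 (.leaf 177 1221 (.leaf 129 1029 .nil)) .nil)) .nil)) (.cons 177 (.leaf 201 1413 (.leaf 153 1221 .nil)) .nil)))) (.cons 271 (.leaf 295 1598 (.cons 176 (.leaf 247 1406 (.cons 151 (.leaf 175 1215 (.cons 152 (.leaf 127 1023 (.cons 225 (.leaf 249 1220 (.cons 128 (.leaf 201 1028 (.cons 129 (.leaf 153 1029 (.leaf 105 837 .nil)) .nil)) .nil)) .nil)) .nil)) .nil)) .nil)) (.cons 201 (.leaf 177 1413 (.cons 271 (.leaf 295 1598 (.cons 296 (.leaf 225 1605 (.cons 321 (.leaf 297 1796 (.cons 320 (.leaf 345 1988 (.cons 247 (.leaf 223 1791 (.leaf 344 1983 .nil)) .nil)) .nil)) .nil)) .nil)) .nil)) .nil))))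
noncomputable def t123 : T := .cons 199 (.leaf 175 1407 (.cons 177 (.leaf 201 1413 (.cons 176 (.leaf 153 1221 (.cons 271 (.leaf 295 1598 (.leaf 247 1406 .nil)) .nil)) .nil)) .nil)) (.cons 271 (.leaf 295 1598 (.cons 176 (.leaf 247 1406 (.cons 151 (.leaf 175 1215 (.cons 152 (.leaf 127 1023 (.cons 177 (.leaf 201 1413 (.leaf 153 1221 .nil)) .nil)) .nil)) .nil)) .nil)) (.cons 271 (.leaf 295 1598 (.cons 247 (.leaf 176 1406 (.cons 249 (.cons 250 (.leaf 274 1976 (.leaf 251 1978 .nil)) (.cons 270 (.leaf 269 1961 (.cons 201 (.leaf 177 1413 (.cons 223 (.cons 222 (.leaf 221 1768 (.cons 202 (.leaf 203 1594 (.leaf 225 1585 .nil)) .nil)) (.cons 199 (.leaf 294 1590 (.cons 174 (.leaf 198 1399 (.cons 202 (.leaf 203 1594 (.cons 226 (.leaf 227 1592 (.cons 225 (.leaf 246 1777 (.cons 178 (.leaf 179 1401 (.leaf 154 1230 .nil)) .nil)) .nil)) .nil)) .nil)) .nil)) (.cons 221 (.leaf 222 1768 (.cons 199 (.leaf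 294 1590 (.cons 198 (.leaf 174 1399 (.cons 197 (.leaf 196 1568 (.leaf 225 1576 .nil)) .nil)) .nil)) .nil)) (.cons 221 (.leaf 222 1768 (.cons 199 (.leaf 294 1590 (.cons 198 (.leaf 174 1399 (.cons 197 (.leaf 196 1568 (.leaf 220 1570 .nil)) .nil)) .nil)) .nil)) .nil)))) .nil)) .nil)) .nil)) .nil)) .nil)) (.cons 271 (.leaf 295 1598 (.cons 175 (.leaf 199 1407 (.cons 176 (.leaf 151 1215 (.leaf 247 1406 .nil)) .nil)) .nil)) (.cons 199 (.leaf 175 1407 (.cons 201 (.leaf 177 1413 (.cons 198 (.cons 225 (.leaf 197 1576 (.leaf 226 1584 .nil)) (.cons 173 (.leaf 174 1387 (.cons 197 (.leaf 172 1379 (.cons 221 (.leaf 220 1570 (.leaf 222 1578 .nil)) .nil)) .nil)) (.cons 173 (.leaf 174 1387 (.cons 221 (.leaf 222 1578 (.cons 226 (.leaf 225 1584 (.cons 202 (.leaf 227 1592 (.cons 203 (.leaf 223 1594 (.cons 179 (.leaf 178 1401 (.leaf 180 1409 .nil)) .nil)) .nil)) .nil)) .nil)) .nil)) .nil))) .nil)) .nil))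 .nil))))
noncomputable def t124 : T := .cons 223 (.leaf 199 1599 (.cons 225 (.leaf 201 1605 (.cons 297 (.leaf 321 1796 (.cons 226 (.cons 247 (.leaf 227 1786 (.leaf 246 1778 .nil)) (.cons 251 (.leaf 250 1784 (.cons 202 (.leaf 203 1593 (.cons 227 (.leaf 299 1623 (.leaf 252 1792 .nil)) .nil)) .nil)) (.cons 247 (.leaf 246 1778 (.cons 202 (.leaf 203 1593 (.cons 250 (.leaf 251 1784 (.cons 249 (.leaf 274 1976 (.leaf 222 1776 .nil)) .nil)) .nil)) .nil)) .nil))) .nil)) .nil)) .nil)) (.cons 295 (.leaf 319 1790 (.cons 201 (.leaf 225 1605 (.cons 297 (.leaf 321 1796 (.cons 298 (.leaf 274 2169 (.cons 271 (.leaf 299 2171 (.leaf 270 2163 .nil)) .nil)) .nil)) .nil)) .nil)) (.cons 223 (.leaf 199 1599 (.cons 295 (.leaf 319 1790 (.cons 297 (.leaf 321 1796 (.cons 298 (.leaf 274 2169 (.cons 271 (.leaf 299 2171 (.leaf 270 2163 .nil)) .nil)) .nil)) .nil)) .nil)) (.cons 223 (.leaf 199 1599 (.cons 225 (.leaf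 201 1605 (.cons 295 (.leaf 319 1790 (.cons 222 (.cons 197 (.leaf 198 1579 (.cons 196 (.leaf 221 1571 (.cons 250 (.leaf 249 1776 (.cons 226 (.leaf 251 1784 (.cons 246 (.leaf 245 1770 (.leaf 247 1778 .nil)) .nil)) .nil)) .nil)) .nil)) (.cons 197 (.leaf 198 1579 (.cons 196 (.leaf 221 1571 (.cons 246 (.leaf 245 1770 (.cons 226 (.leaf 247 1778 (.cons 202 (.leaf 203 1593 (.cons 251 (.leaf 250 1784 (.cons 227 (.leaf 299 1623 (.leaf 252 1792 .nil)) .nil)) .nil)) .nil)) .nil)) .nil)) .nil)) (.cons 197 (.leaf 198 1579 (.cons 245 (.leaf 246 1770 (.cons 250 (.leaf 249 1776 (.cons 226 (.leaf 251 1784 (.cons 203 (.leaf 202 1593 (.cons 227 (.leaf 247 1786 (.leaf 204 1601 .nil)) .nil)) .nil)) .nil)) .nil)) .nil)) (.cons 221 (.leaf 249 1768 (.cons 197 (.leaf 196 1571 (.leaf 198 1579 .nil)) .nil)) (.cons 249 (.leaf 221 1768 (.leaf 250 1776 .nil)) .nil))))) .nil)) .nil)) .nil)) (.cons 223 (.leaf 199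 1599 (.cons 201 (.leaf 225 1605 (.cons 295 (.leaf 319 1790 (.cons 297 (.leaf 321 1796 (.cons 298 (.leaf 274 2169 (.cons 270 (.leaf 271 2163 (.cons 294 (.leaf 269 2155 (.cons 317 (.leaf 318 2346 (.cons 293 (.leaf 316 2338 (.cons 222 (.leaf 246 1774 (.cons 221 (.leaf 249 1768 (.cons 196 (.leaf 197 1571 (.cons 220 (.leaf 247 1760 (.leaf 195 1563 .nil)) .nil)) .nil)) .nil)) .nil)) .nil)) .nil)) .nil)) .nil)) .nil)) .nil)) .nil)) .nil)) .nil))))
noncomputable def t125 : T := .cons 247 (.leaf 223 1791 (.cons 271 (.leaf 344 1983 (.cons 319 (.leaf 343 1982 (.cons 249 (.leaf 225 1797 (.cons 250 (.leaf 274 1976 (.leaf 251 1978 .nil)) .nil)) .nil)) .nil)) .nil)) (.cons 249 (.leaf 225 1797 (.cons 344 (.cons 367 (.leaf 343 2174 (.cons 368 (.leaf 391 2366 (.cons 295 (.leaf 271 2175 (.cons 369 (.leaf 345 2180 (.leaf 393 2372 .nil)) .nil)) .nil)) .nil)) (.cons 369 (.leaf 345 2180 (.cons 368 (.leaf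 393 2372 (.cons 295 (.leaf 271 2175 (.cons 391 (.leaf 367 2366 (.cons 392 (.leaf 319 2367 (.leaf 415 2558 .nil)) .nil)) .nil)) .nil)) .nil)) (.cons 319 (.leaf 343 1982 (.cons 369 (.leaf 345 2180 (.cons 368 (.leaf 393 2372 (.cons 295 (.leaf 224 1790 (.leaf 271 2175 .nil)) .nil)) .nil)) .nil)) (.cons 343 (.leaf 319 1982 (.leaf 367 2174 .nil)) .nil)))) .nil)) (.cons 247 (.leaf 223 1791 (.cons 249 (.leaf 225 1797 (.cons 250 (.leaf 274 1976 (.cons 271 (.leaf 344 1983 (.leaf 251 1978 .nil)) .nil)) .nil)) .nil)) (.cons 319 (.leaf 343 1982 (.cons 223 (.leaf 247 1791 (.cons 224 (.leaf 199 1599 (.leaf 295 1790 .nil)) .nil)) .nil)) .nil)))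
noncomputable def t126 : T := .cons 249 (.leaf 225 1797 (.cons 344 (.cons 343 (.leaf 319 1982 (.leaf 367 2174 .nil)) (.cons 345 (.leaf 321 1988 (.leaf 369 2180 .nil)) .nil)) .nil)) (.cons 321 (.leaf 345 1988 (.cons 297 (.leaf 224 1796 (.cons 295 (.cons 294 (.leaf 293 2344 (.leaf 322 2352 .nil)) (.cons 298 (.leaf 274 2169 (.cons 271 (.leaf 299 2171 (.leaf 270 2163 .nil)) .nil)) .nil)) .nil)) .nil)) (.cons 249 (.leaf 225 1797 (.cons 344 (.cons 343 (.leaf 319 1982 (.leaf 367 2174 .nil)) (.cons 369 (.leaf 345 2180 (.cons 368 (.leaf 393 2372 (.cons 295 (.leaf 271 2175 (.cons 391 (.leaf 367 2366 (.cons 392 (.leaf 319 2367 (.leaf 415 2558 .nil)) .nil)) .nil)) .nil)) .nil)) (.cons 367 (.leaf 343 2174 (.cons 368 (.leaf 391 2366 (.cons 369 (.leaf 345 2180 (.leaf 393 2372 .nil)) .nil)) .nil)) (.cons 319 (.leaf 343 1982 (.cons 369 (.leaf 345 2180 (.cons 368 (.leaf 393 2372 (.cons 295 (.leaf 224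 1790 (.leaf 271 2175 .nil)) .nil)) .nil)) .nil)) .nil)))) .nil)) (.cons 319 (.leaf 343 1982 (.cons 249 (.leaf 225 1797 (.cons 297 (.cons 298 (.leaf 299 2362 (.cons 318 (.leaf 295 2354 (.leaf 317 2345 .nil)) .nil)) (.cons 224 (.leaf 295 1790 (.leaf 321 1796 .nil)) (.cons 298 (.leaf 299 2362 (.cons 318 (.leaf 317 2345 (.leaf 321 2353 .nil)) .nil)) .nil))) .nil)) .nil)) .nil)))
noncomputable def t127 : T := .cons 225 (.leaf 249 1797 (.cons 321 (.leaf 345 1988 (.cons 224 (.leaf 297 1796 (.cons 295 (.leaf 319 1790 (.cons 271 (.leaf 200 1598 (.cons 344 (.leaf 247 1983 (.leaf 368 2175 .nil)) .nil)) .nil)) .nil)) .nil)) .nil)) (.cons 345 (.leaf 321 1988 (.cons 344 (.leaf 369 2180 (.cons 271 (.leaf 247 1983 (.cons 225 (.leaf 249 1797 (.cons 367 (.leaf 343 2174 (.cons 368 (.leaf 295 2175 (.leaf 391 2366 .nil)) .nil)) .nil)) .nil)) .nil)) .nil)) (.cons 343 (.leaf 319 1982 (.cons 344 (.leaf 367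 2174 (.cons 271 (.leaf 247 1983 (.cons 368 (.leaf 295 2175 (.cons 369 (.leaf 345 2180 (.leaf 393 2372 .nil)) .nil)) .nil)) .nil)) .nil)) (.cons 343 (.leaf 319 1982 (.cons 344 (.leaf 367 2174 (.cons 271 (.leaf 247 1983 (.cons 295 (.leaf 368 2175 (.cons 224 (.leaf 200 1598 (.cons 297 (.leaf 321 1796 (.cons 298 (.leaf 274 2169 (.leaf 299 2171 .nil)) .nil)) .nil)) .nil)) .nil)) .nil)) .nil)) (.cons 319 (.leaf 343 1982 (.cons 224 (.leaf 295 1790 (.cons 321 (.leaf 297 1796 (.leaf 345 1988 .nil)) .nil)) .nil)) (.cons 321 (.leaf 345 1988 (.cons 225 (.leaf 249 1797 (.cons 297 (.leaf 224 1796 (.cons 319 (.leaf 343 1982 (.cons 298 (.leaf 299 2362 (.leaf 318 2353 .nil)) .nil)) .nil)) .nil)) .nil)) .nil)))))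
noncomputable def t128 : T := .leaf 319 1790 (.cons 297 (.leaf 321 1796 (.cons 274 (.leaf 298 2169 (.cons 250 (.cons 226 (.cons 225 (.leaf 251 1784 (.cons 247 (.leaf 249 1976 (.leaf 227 1786 .nil)) .nil)) (.cons 225 (.leaf 251 1784 (.cons 247 (.leaf 227 1786 (.leaf 246 1778 .nil)) .nil)) (.cons 202 (.leaf 299 1620 (.cons 203 (.leaf 225 1593 (.leaf 179 1429 .nil)) .nil)) (.cons 202 (.leaf 299 1620 (.cons 178 (.leaf 251 1428 (.cons 179 (.leaf 203 1429 (.leaf 155 1237 .nil)) .nil)) .nil)) .nil)))) (.cons 226 (.cons 225 (.leaf 251 1784 (.cons 247 (.leaf 227 1786 (.leaf 246 1778 .nil)) .nil)) (.cons 202 (.leaf 299 1620 (.cons 178 (.leaf 251 1428 (.cons 179 (.leaf 203 1429 (.leaf 155 1237 .nil)) .nil)) .nil)) (.cons 202 (.leaf 299 1620 (.cons 203 (.leaf 225 1593 (.leaf 179 1429 .nil)) .nil)) .nil))) (.cons 249 (.leaf 247 1976 (.cons 222 (.leaf 221 1768 (.leaf 225 1776 .nil)) .nil)) (.cons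 249 (.leaf 251 1787 (.cons 222 (.leaf 221 1768 (.leaf 225 1776 .nil)) .nil)) (.cons 249 (.leaf 247 1976 (.leaf 251 1787 .nil)) .nil))))) .nil)) .nil)) .nil)
noncomputable def t129 : T := .cons 298 (.leaf 271 2171 (.cons 323 (.leaf 324 2368 (.cons 347 (.leaf 274 2007 (.cons 346 (.leaf 370 2198 (.cons 322 (.leaf 251 2006 (.cons 371 (.leaf 395 2391 (.cons 372 (.leaf 348 2204 (.leaf 396 2396 .nil)) .nil)) .nil)) .nil)) .nil)) .nil)) .nil)) (.cons 226 (.cons 251 (.leaf 323 1815 (.leaf 225 1784 .nil)) (.cons 202 (.leaf 274 1620 (.cons 225 (.leaf 203 1593 (.cons 247 (.leaf 227 1786 (.leaf 246 1778 .nil)) .nil)) .nil)) (.cons 251 (.leaf 323 1815 (.cons 202 (.leaf 178 1428 (.leaf 227 1623 .nil)) .nil)) .nil))) (.cons 271 (.leaf 298 2171 (.cons 270 (.leaf 269 2152 (.cons 226 (.cons 202 (.leaf 274 1620 (.cons 251 (.leaf 178 1428 (.leaf 227 1623 .nil)) .nil)) (.cons 225 (.leaf 251 1784 (.cons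 247 (.leaf 227 1786 (.leaf 246 1778 .nil)) .nil)) (.cons 202 (.leaf 274 1620 (.cons 225 (.leaf 203 1593 (.cons 247 (.leaf 227 1786 (.leaf 246 1778 .nil)) .nil)) .nil)) (.cons 202 (.leaf 274 1620 (.cons 225 (.leaf 203 1593 (.leaf 251 1784 .nil)) .nil)) .nil)))) .nil)) .nil)) (.cons 298 (.leaf 271 2171 (.cons 323 (.leaf 324 2368 (.cons 274 (.leaf 347 2007 (.leaf 226 1812 .nil)) .nil)) .nil)) (.cons 298 (.leaf 271 2171 (.cons 323 (.leaf 324 2368 (.cons 251 (.leaf 226 1815 (.cons 322 (.leaf 227 1814 (.leaf 346 2006 .nil)) .nil)) .nil)) .nil)) .nil))))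
noncomputable def t130 : T := .cons 298 (.leaf 271 2171 (.cons 323 (.leaf 324 2368 (.cons 347 (.leaf 274 2007 (.cons 346 (.leaf 370 2198 (.cons 322 (.leaf 251 2006 (.leaf 295 2360 .nil)) .nil)) .nil)) .nil)) .nil)) (.cons 298 (.leaf 271 2171 (.cons 323 (.leaf 324 2368 (.cons 347 (.leaf 274 2007 (.cons 346 (.leaf 370 2198 (.cons 322 (.leaf 251 2006 (.cons 371 (.leaf 395 2391 (.cons 372 (.leaf 348 2204 (.leaf 396 2396 .nil)) .nil)) .nil)) .nil)) .nil)) .nil)) .nil)) (.cons 295 (.leaf 319 1790 (.cons 271 (.leaf 200 1598 (.cons 270 (.leaf 269 2152 (.cons 226 (.cons 251 (.leaf 323 1815 (.leaf 225 1784 .nil)) (.cons 202 (.leaf 274 1620 (.cons 225 (.leaf 203 1593 (.cons 247 (.leaf 227 1786 (.leaf 246 1778 .nil)) .nil)) .nil)) (.cons 202 (.leaf 274 1620 (.cons 251 (.leaf 178 1428 (.leaf 227 1623 .nil)) .nil)) .nil))) .nil)) .nil)) .nil)) (.cons 295 (.leaf 319 1790 (.cons 274 (.leaf 298 2169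 (.cons 226 (.leaf 202 1620 (.cons 323 (.leaf 251 1815 (.leaf 347 2007 .nil)) .nil)) .nil)) .nil)) (.cons 295 (.leaf 319 1790 (.cons 271 (.leaf 200 1598 (.leaf 298 2171 .nil)) .nil)) .nil))))
noncomputable def t131 : T := .cons 223 (.leaf 199 1599 (.cons 297 (.leaf 321 1796 (.cons 250 (.cons 249 (.leaf 251 1787 (.cons 222 (.leaf 221 1768 (.leaf 247 1779 .nil)) .nil)) (.cons 299 t130 (.cons 249 (.cons 222 (.leaf 221 1768 (.leaf 247 1779 .nil)) (.cons 247 (.leaf 274 1976 (.cons 226 (.leaf 227 1785 (.cons 246 (.leaf 225 1777 (.cons 270 (.leaf 269 1962 (.leaf 271 1970 .nil)) .nil)) .nil)) .nil)) (.cons 222 (.leaf 221 1768 (.leaf 225 1776 .nil)) .nil))) (.cons 249 (.leaf 251 1787 (.cons 222 (.leaf 221 1768 (.leaf 225 1776 .nil)) .nil)) .nil)))) .nil)) .nil)) (.cons 223 (.leaf 199 1599 (.cons 297 (.leaf 321 1796 (.cons 250 (.cons 249 (.leaf 251 1787 (.cons 222 (.leaf 221 1768 (.leaf 247 1779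 .nil)) .nil)) (.cons 299 t129 (.cons 249 (.cons 222 (.leaf 221 1768 (.leaf 247 1779 .nil)) (.cons 247 (.leaf 274 1976 (.cons 226 (.leaf 227 1785 (.cons 246 (.leaf 225 1777 (.cons 270 (.leaf 269 1962 (.leaf 271 1970 .nil)) .nil)) .nil)) .nil)) (.cons 222 (.leaf 221 1768 (.leaf 225 1776 .nil)) .nil))) (.cons 249 (.leaf 251 1787 (.cons 222 (.leaf 221 1768 (.leaf 225 1776 .nil)) .nil)) .nil)))) .nil)) .nil)) (.cons 295 (.leaf 319 1790 (.cons 271 (.leaf 200 1598 (.cons 297 (.leaf 321 1796 (.cons 298 (.leaf 274 2169 (.leaf 299 2171 .nil)) .nil)) .nil)) .nil)) (.cons 295 (.leaf 319 1790 (.cons 199 (.leaf 223 1599 (.cons 200 (.leaf 175 1407 (.leaf 271 1598 .nil)) .nil)) .nil)) (.cons 223 (.leaf 199 1599 (.cons 295 t128 .nil)) .nil))))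
noncomputable def t132 : T := .cons 199 (.leaf 223 1599 (.cons 200 (.leaf 175 1407 (.cons 177 (.leaf 201 1413 (.cons 176 (.leaf 153 1221 (.cons 271 (.leaf 295 1598 (.leaf 247 1406 .nil)) .nil)) .nil)) .nil)) .nil)) (.cons 295 (.leaf 319 1790 (.cons 200 (.leaf 271 1598 (.cons 175 (.leaf 199 1407 (.cons 201 (.leaf 177 1413 (.leaf 225 1605 .nil)) .nil)) .nil)) .nil)) (.cons 199 (.leaf 223 1599 (.cons 200 (.leaf 175 1407 (.cons 201 (.leaf 177 1413 (.leaf 225 1605 .nil)) .nil)) .nil)) (.cons 225 (.leaf 201 1605 (.cons 249 (.leaf 320 1797 (.cons 295 (.leaf 319 1790 (.cons 271 (.leaf 200 1598 (.cons 250 (.leaf 251 1978 (.cons 247 (.leaf 274 1976 (.leaf 270 1970 .nil)) .nil)) .nil)) .nil)) .nil)) .nil)) (.cons 223 (.leaf 199 1599 (.cons 247 (.leaf 320 1791 (.cons 295 (.leaf 319 1790 (.cons 271 (.leaf 200 1597 (.cons 198 (.leaf 222 1591 (.cons 294 (.leaf 318 1782 (.cons 293 (.leaf 292 2145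 (.cons 269 (.leaf 268 2147 (.cons 270 (.leaf 249 1961 (.leaf 297 2152 .nil)) .nil)) .nil)) .nil)) .nil)) .nil)) .nil)) .nil)) .nil)) (.cons 223 (.leaf 199 1599 (.cons 201 (.leaf 225 1605 (.cons 319 (.leaf 295 1790 (.cons 320 (.leaf 247 1791 (.leaf 343 1982 .nil)) .nil)) .nil)) .nil)) .nil)))))
noncomputable def t133 : T := .cons 199 (.leaf 223 1599 (.cons 200 (.leaf 175 1407 (.cons 177 (.leaf 201 1413 (.cons 176 (.leaf 153 1221 (.cons 271 (.leaf 295 1598 (.leaf 247 1406 .nil)) .nil)) .nil)) .nil)) .nil)) (.cons 199 (.leaf 223 1599 (.cons 200 (.leaf 175 1407 (.cons 201 (.leaf 177 1413 (.leaf 225 1605 .nil)) .nil)) .nil)) (.cons 295 (.leaf 319 1790 (.cons 200 (.leaf 271 1598 (.cons 175 (.leaf 199 1407 (.cons 201 (.leaf 177 1413 (.leaf 225 1605 .nil)) .nil)) .nil)) .nil)) (.cons 295 (.leaf 319 1790 (.cons 271 (.leaf 200 1598 (.cons 297 (.leaf 321 1796 (.cons 270 (.leaf 269 2152 (.leaf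 298 2163 .nil)) .nil)) .nil)) .nil)) (.cons 199 (.leaf 223 1599 (.cons 225 (.leaf 201 1605 (.cons 295 (.leaf 319 1790 (.cons 297 (.leaf 321 1796 (.cons 298 (.leaf 274 2169 (.cons 270 (.leaf 271 2163 (.cons 294 (.leaf 269 2155 (.cons 317 (.leaf 318 2346 (.cons 293 (.leaf 316 2338 (.cons 246 (.leaf 222 1774 (.cons 247 (.leaf 245 1769 (.cons 226 (.leaf 227 1786 (.leaf 249 1777 .nil)) .nil)) .nil)) .nil)) .nil)) .nil)) .nil)) .nil)) .nil)) .nil)) .nil)) .nil)) .nil))))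
noncomputable def t134 : T := .leaf 153 1221 (.cons 198 (.leaf 197 1385 (.cons 297 (.leaf 321 1796 (.cons 178 (.leaf 179 1402 (.cons 299 (.leaf 298 2171 (.cons 251 (.cons 323 (.cons 228 (.leaf 252 1821 (.cons 227 (.leaf 204 1629 (.cons 324 (.leaf 300 1820 (.leaf 348 2012 .nil)) .nil)) .nil)) (.cons 250 (.leaf 226 1815 (.leaf 249 1978 .nil)) .nil)) (.cons 227 (.cons 202 (.leaf 203 1431 (.leaf 226 1623 .nil)) (.cons 203 (.leaf 202 1431 (.cons 204 (.leaf 180 1437 (.leaf 228 1629 .nil)) .nil)) (.cons 228 (.leaf 204 1629 (.cons 323 (.leaf 252 1821 (.cons 324 (.leaf 300 1820 (.leaf 348 2012 .nil)) .nil)) .nil)) .nil))) (.cons 250 (.leaf 249 1978 (.cons 226 (.leaf 202 1428 (.leaf 323 1815 .nil)) .nil)) (.cons 249 (.leaf 250 1978 (.cons 227 (.cons 202 (.leaf 203 1431 (.leaf 226 1623 .nil)) (.cons 203 (.leaf 202 1431 (.cons 204 (.leaf 180 1437 (.leaf 228 1629 .nil)) .nil)) (.cons 225 (.leaf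 320 1797 (.leaf 152 1220 .nil)) .nil))) .nil)) (.cons 249 (.leaf 250 1978 (.cons 225 (.leaf 320 1797 (.leaf 152 1220 .nil)) .nil)) .nil))))) .nil)) .nil)) .nil)) .nil)) .nil)
noncomputable def t135 : T := .cons 199 (.leaf 223 1599 (.cons 200 (.leaf 175 1407 (.cons 271 (.leaf 295 1598 (.cons 176 (.leaf 247 1406 (.cons 177 (.leaf 201 1413 (.leaf 153 1221 .nil)) .nil)) .nil)) .nil)) .nil)) (.cons 295 (.leaf 319 1790 (.cons 200 (.leaf 271 1598 (.cons 175 (.leaf 199 1407 (.cons 201 (.leaf 177 1413 (.leaf 225 1605 .nil)) .nil)) .nil)) .nil)) (.cons 223 (.leaf 199 1599 (.cons 201 (.leaf 225 1605 (.cons 200 (.leaf 177 1413 (.cons 247 (.leaf 320 1791 (.cons 176 (.leaf 271 1406 (.leaf 152 1214 .nil)) .nil)) .nil)) .nil)) .nil)) (.cons 225 (.leaf 201 1605 (.cons 320 (.leaf 249 1797 (.cons 247 (.leaf 223 1791 (.cons 226 (.leaf 227 1786 (.cons 245 (.leaf 246 1769 (.cons 271 (.leaf 344 1983 (.cons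 200 (.leaf 295 1598 (.leaf 176 1406 .nil)) .nil)) .nil)) .nil)) .nil)) .nil)) .nil)) (.cons 223 (.leaf 199 1599 (.cons 247 (.leaf 320 1791 (.cons 295 (.leaf 319 1790 (.cons 271 (.leaf 200 1597 (.cons 198 (.leaf 222 1591 (.cons 294 (.leaf 318 1782 (.cons 292 (.leaf 293 2145 (.cons 297 (.leaf 321 1796 (.cons 298 (.leaf 274 2169 (.leaf 299 2171 .nil)) .nil)) .nil)) .nil)) .nil)) .nil)) .nil)) .nil)) .nil)) (.cons 225 (.leaf 201 1605 (.cons 320 (.leaf 249 1797 (.cons 321 (.leaf 297 1796 (.leaf 345 1988 .nil)) .nil)) .nil)) .nil)))))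
noncomputable def t136 : T := .cons 177 (.leaf 201 1413 (.cons 176 (.leaf 153 1221 (.cons 151 (.leaf 175 1215 (.cons 152 (.leaf 127 1023 (.cons 149 (.leaf 150 1192 (.cons 247 (.leaf 271 1406 (.leaf 223 1214 .nil)) .nil)) .nil)) .nil)) .nil)) .nil)) (.cons 175 (.leaf 199 1407 (.cons 176 (.leaf 151 1215 (.cons 153 (.leaf 177 1221 (.cons 152 (.leaf 129 1029 (.cons 247 (.leaf 271 1406 (.leaf 223 1214 .nil)) .nil)) .nil)) .nil)) .nil)) (.cons 201 (.leaf 177 1413 (.cons 296 (.leaf 225 1605 (.cons 223 (.leaf 199 1599 (.cons 247 (.leaf 320 1791 (.cons 176 (.leaf 271 1406 (.leaf 152 1214 .nil)) .nil)) .nil)) .nil)) .nil)) (.cons 199 (.leaf 175 1407 (.cons 296 (.leaf 223 1599 (.cons 225 (.leaf 201 1605 (.cons 197 (.leaf 198 1576 (.cons 226 (.leaf 227 1595 (.cons 249 (.leaf 320 1797 (.cons 176 (.leaf 152 1220 (.cons 247 (.leaf 271 1406 (.leaf 246 1777 .nil)) .nil)) .nil)) .nil)) .nil)) .nil))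 .nil)) .nil)) (.cons 199 (.leaf 175 1407 (.cons 201 (.leaf 177 1413 (.cons 296 (.leaf 223 1599 (.leaf 225 1605 .nil)) .nil)) .nil)) (.cons 201 (.leaf 177 1413 (.cons 175 (.leaf 199 1407 (.cons 176 (.leaf 151 1215 (.cons 173 (.leaf 174 1384 (.cons 202 (.leaf 203 1403 (.cons 225 (.leaf 296 1605 (.cons 152 (.leaf 249 1220 (.leaf 128 1028 .nil)) .nil)) .nil)) .nil)) .nil)) .nil)) .nil)) .nil)))))
noncomputable def t137 : T := .cons 295 (.leaf 271 1598 (.cons 296 (.leaf 319 1790 (.cons 223 (.leaf 199 1599 (.cons 249 (.cons 222 (.leaf 221 1768 (.cons 225 (.leaf 320 1797 (.leaf 250 1776 .nil)) .nil)) (.cons 221 (.leaf 222 1768 (.cons 247 (.leaf 320 1791 (.cons 250 (.leaf 274 1976 (.leaf 251 1787 .nil)) .nil)) .nil)) (.cons 221 (.leaf 222 1768 (.cons 250 (.leaf 251 1787 (.cons 247 (.leaf 274 1976 (.cons 152 (.leaf 176 1214 (.cons 226 (.leaf 227 1785 (.cons 246 (.leaf 225 1777 (.cons 245 (.leaf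 220 1763 (.leaf 244 1761 .nil)) .nil)) .nil)) .nil)) .nil)) .nil)) .nil)) (.cons 320 (.leaf 247 1791 (.leaf 225 1797 .nil)) .nil)))) .nil)) .nil)) .nil)) (.cons 271 (.leaf 295 1598 (.cons 176 (.leaf 247 1406 (.cons 151 (.leaf 175 1215 (.cons 152 (.leaf 127 1023 (.cons 153 (.leaf 177 1221 (.leaf 129 1029 .nil)) .nil)) .nil)) .nil)) .nil)) (.cons 176 (.cons 153 (.leaf 177 1221 (.cons 152 (.leaf 129 1029 (.cons 127 (.leaf 151 1023 (.cons 103 (.leaf 128 831 (.cons 223 (.leaf 247 1214 (.cons 199 (.leaf 175 1407 (.leaf 296 1599 .nil)) .nil)) .nil)) .nil)) .nil)) .nil)) (.cons 153 (.leaf 177 1221 (.cons 152 (.leaf 129 1029 (.cons 127 (.leaf 151 1023 (.cons 103 (.leaf 128 831 (.cons 223 (.leaf 247 1214 (.cons 199 (.leaf 296 1599 (.cons 225 (.leaf 249 1220 (.cons 198 (.leaf 197 1576 (.leaf 226 1587 .nil)) .nil)) .nil)) .nil)) .nil)) .nil)) .nil)) .nil)) (.cons 151 (.leaf 175 1215 (.cons 152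 (.leaf 127 1023 (.cons 153 (.leaf 177 1221 (.leaf 129 1029 .nil)) .nil)) .nil)) (.cons 199 (.leaf 175 1407 (.cons 153 (.leaf 177 1221 (.cons 152 (.leaf 129 1029 (.cons 223 (.leaf 296 1599 (.leaf 247 1214 .nil)) .nil)) .nil)) .nil)) (.cons 175 (.leaf 199 1407 (.leaf 151 1215 .nil)) .nil))))) (.cons 199 (.leaf 175 1407 (.cons 295 (.leaf 271 1598 (.cons 296 (.leaf 223 1599 (.leaf 319 1790 .nil)) .nil)) .nil)) .nil)))
noncomputable def t138 : T := .cons 271 (.leaf 295 1598 (.cons 176 (.leaf 247 1406 (.cons 151 (.leaf 175 1215 (.cons 152 (.leaf 127 1023 (.cons 177 (.leaf 201 1413 (.leaf 153 1221 .nil)) .nil)) .nil)) .nil)) .nil)) (.cons 271 (.leaf 295 1598 (.cons 176 (.leaf 247 1406 (.cons 151 (.leaf 175 1215 (.cons 152 (.leaf 127 1023 (.cons 153 (.leaf 177 1221 (.leaf 129 1029 .nil)) .nil)) .nil)) .nil)) .nil)) (.cons 176 (.cons 151 (.leaf 175 1215 (.cons 152 (.leaf 127 1023 (.cons 201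 (.leaf 177 1413 (.cons 225 (.leaf 296 1605 (.leaf 249 1220 .nil)) .nil)) .nil)) .nil)) (.cons 151 (.leaf 175 1215 (.cons 152 (.leaf 127 1023 (.cons 129 (.leaf 153 1029 (.cons 128 (.leaf 105 837 (.cons 225 (.leaf 249 1220 (.leaf 201 1028 .nil)) .nil)) .nil)) .nil)) .nil)) (.cons 151 (.leaf 175 1215 (.cons 152 (.leaf 127 1023 (.cons 153 (.leaf 177 1221 (.leaf 129 1029 .nil)) .nil)) .nil)) (.cons 177 (.leaf 201 1413 (.leaf 153 1221 .nil)) .nil)))) (.cons 271 (.leaf 295 1598 (.cons 176 (.leaf 247 1406 (.cons 151 (.leaf 175 1215 (.cons 152 (.leaf 127 1023 (.cons 225 (.leaf 249 1220 (.cons 128 (.leaf 201 1028 (.cons 129 (.leaf 153 1029 (.leaf 105 837 .nil)) .nil)) .nil)) .nil)) .nil)) .nil)) .nil)) (.cons 201 (.leaf 177 1413 (.cons 295 (.leaf 271 1598 (.cons 296 (.leaf 225 1605 (.leaf 319 1790 .nil)) .nil)) .nil)) .nil))))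
noncomputable def t139 : T := .cons 271 (.leaf 295 1598 (.cons 247 (.leaf 176 1406 (.cons 199 (.leaf 175 1407 (.cons 225 (.cons 226 (.leaf 227 1786 (.cons 246 (.leaf 245 1769 (.leaf 249 1777 .nil)) .nil)) (.cons 198 (.leaf 197 1576 (.cons 223 (.leaf 174 1399 (.cons 270 (.leaf 294 1590 (.cons 249 (.leaf 269 1961 (.leaf 250 1970 .nil)) .nil)) .nil)) .nil)) (.cons 226 (.leaf 227 1786 (.cons 246 (.leaf 245 1769 (.leaf 223 1778 .nil)) .nil)) .nil))) .nil)) .nil)) .nil)) (.cons 175 (.leaf 199 1407 (.cons 176 (.leaf 151 1215 (.cons 177 (.leaf 201 1413 (.leaf 153 1221 .nil)) .nil)) .nil)) (.cons 271 (.leaf 295 1598 (.cons 176 (.leaf 247 1406 (.cons 151 (.leaf 175 1215 (.cons 152 (.leaf 127 1023 (.cons 177 (.leaf 201 1413 (.leaf 153 1221 .nil)) .nil)) .nil)) .nil)) .nil)) (.cons 271 (.leaf 295 1598 (.cons 247 (.leaf 176 1406 (.cons 249 (.cons 250 (.leaf 274 1976 (.leaf 251 1978 .nil)) (.cons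 270 (.leaf 269 1961 (.cons 201 (.leaf 177 1413 (.cons 223 (.cons 222 (.leaf 221 1768 (.cons 202 (.leaf 203 1594 (.leaf 225 1585 .nil)) .nil)) (.cons 199 (.leaf 294 1590 (.cons 174 (.leaf 198 1399 (.cons 202 (.leaf 203 1594 (.cons 226 (.leaf 227 1592 (.cons 225 (.leaf 246 1777 (.cons 178 (.leaf 179 1401 (.leaf 154 1230 .nil)) .nil)) .nil)) .nil)) .nil)) .nil)) (.cons 221 (.leaf 222 1768 (.cons 199 (.leaf 294 1590 (.cons 198 (.leaf 174 1399 (.cons 197 (.leaf 196 1568 (.leaf 225 1576 .nil)) .nil)) .nil)) .nil)) (.cons 221 (.leaf 222 1768 (.cons 199 (.leaf 294 1590 (.cons 198 (.leaf 174 1399 (.cons 197 (.leaf 196 1568 (.leaf 220 1570 .nil)) .nil)) .nil)) .nil)) .nil)))) .nil)) .nil)) .nil)) .nil)) .nil)) (.cons 199 (.leaf 175 1407 (.cons 201 (.leaf 177 1413 (.cons 271 (.leaf 295 1598 (.cons 202 (.cons 223 (.leaf 203 1594 (.leaf 222 1586 .nil)) (.cons 178 (.leaf 179 1401 (.cons 227 (.leaf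 226 1592 (.cons 203 (.leaf 251 1431 (.leaf 228 1600 .nil)) .nil)) .nil)) (.cons 178 (.leaf 179 1401 (.cons 222 (.leaf 223 1586 (.cons 198 (.leaf 221 1578 (.cons 173 (.leaf 174 1387 (.cons 197 (.leaf 225 1576 (.leaf 172 1379 .nil)) .nil)) .nil)) .nil)) .nil)) .nil))) .nil)) .nil)) .nil)) .nil))))
noncomputable def t140 : T := .cons 225 (.leaf 201 1605 (.cons 319 (.leaf 295 1790 (.cons 320 (.leaf 249 1797 (.leaf 343 1982 .nil)) .nil)) .nil)) (.cons 223 (.leaf 199 1599 (.cons 319 (.leaf 295 1790 (.cons 320 (.leaf 247 1791 (.leaf 343 1982 .nil)) .nil)) .nil)) (.cons 223 (.leaf 199 1599 (.cons 225 (.leaf 201 1605 (.cons 249 (.leaf 320 1797 (.cons 222 (.leaf 221 1768 (.leaf 250 1776 .nil)) .nil)) .nil)) .nil)) (.cons 223 (.leaf 199 1599 (.cons 225 (.leaf 201 1605 (.cons 295 (.leaf 319 1790 (.cons 222 (.cons 197 (.leaf 198 1579 (.cons 196 (.leaf 221 1571 (.cons 250 (.leaf 249 1776 (.cons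 226 (.leaf 251 1784 (.cons 246 (.leaf 245 1770 (.leaf 247 1778 .nil)) .nil)) .nil)) .nil)) .nil)) (.cons 246 (.leaf 245 1770 (.cons 197 (.leaf 198 1579 (.cons 196 (.leaf 221 1571 (.cons 226 (.leaf 247 1778 (.cons 202 (.leaf 203 1593 (.cons 251 (.leaf 250 1784 (.cons 227 (.leaf 299 1623 (.leaf 252 1792 .nil)) .nil)) .nil)) .nil)) .nil)) .nil)) .nil)) (.cons 250 (.leaf 249 1776 (.cons 197 (.leaf 198 1579 (.cons 226 (.leaf 251 1784 (.cons 246 (.leaf 245 1770 (.leaf 247 1778 .nil)) .nil)) .nil)) .nil)) (.cons 221 (.leaf 249 1768 (.cons 197 (.leaf 196 1571 (.leaf 198 1579 .nil)) .nil)) (.cons 249 (.leaf 221 1768 (.leaf 250 1776 .nil)) .nil))))) .nil)) .nil)) .nil)) .nil)))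
noncomputable def t141 : T := .cons 247 (.leaf 223 1791 (.cons 225 (.leaf 249 1797 (.cons 321 (.leaf 345 1988 (.cons 343 (.leaf 319 1982 (.cons 344 (.leaf 271 1983 (.leaf 367 2174 .nil)) .nil)) .nil)) .nil)) .nil)) (.cons 343 (.leaf 319 1982 (.cons 344 (.leaf 367 2174 (.cons 345 (.leaf 321 1988 (.leaf 369 2180 .nil)) .nil)) .nil)) (.cons 247 (.leaf 223 1791 (.cons 225 (.leaf 249 1797 (.cons 321 (.leaf 345 1988 (.cons 344 (.leaf 271 1983 (.cons 367 (.leaf 343 2174 (.cons 368 (.leaf 391 2366 (.cons 392 (.leaf 297 2373 (.cons 393 (.leaf 369 2372 (.leaf 417 2564 .nil)) .nil)) .nil)) .nil)) .nil)) .nil)) .nil)) .nil)) (.cons 247 (.leaf 223 1791 (.cons 225 (.leaf 249 1797 (.cons 344 (.leaf 271 1983 (.cons 345 (.leaf 321 1988 (.leaf 369 2180 .nil)) .nil)) .nil)) .nil)) (.cons 247 (.leaf 223 1791 (.cons 225 (.leaf 249 1797 (.cons 343 (.leaf 319 1982 (.cons 344 (.leaf 271 1983 (.leaf 367 2174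 .nil)) .nil)) .nil)) .nil)) (.cons 319 (.leaf 343 1982 (.cons 321 (.leaf 345 1988 (.cons 247 (.leaf 223 1791 (.cons 318 (.cons 297 (.leaf 317 2345 (.leaf 298 2353 .nil)) (.cons 293 (.leaf 294 2347 (.cons 317 (.leaf 292 2339 (.cons 341 (.leaf 340 2530 (.leaf 342 2538 .nil)) .nil)) .nil)) (.cons 293 (.leaf 294 2347 (.cons 298 (.leaf 297 2353 (.cons 322 (.leaf 299 2361 (.cons 295 (.leaf 323 2363 (.cons 342 (.leaf 341 2538 (.leaf 271 1974 .nil)) .nil)) .nil)) .nil)) .nil)) .nil))) .nil)) .nil)) .nil)) .nil)))))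
noncomputable def top0 : T := .cons 224 (.cons 199 (.leaf 223 1599 (.cons 225 (.leaf 201 1605 (.cons 319 (.leaf 295 1790 (.cons 320 (.leaf 249 1797 (.leaf 343 1982 .nil)) .nil)) .nil)) .nil)) (.cons 295 (.leaf 319 1790 (.cons 200 (.leaf 271 1598 (.cons 175 (.leaf 199 1407 (.cons 176 (.leaf 151 1215 (.cons 177 (.leaf 201 1413 (.leaf 153 1221 .nil)) .nil)) .nil)) .nil)) .nil)) (.cons 223 (.leaf 199 1599 (.cons 320 (.leaf 247 1791 (.cons 321 (.leaf 297 1796 (.leaf 345 1988 .nil)) .nil)) .nil)) (.cons 295 (.leaf 319 1790 (.cons 271 (.leaf 200 1598 (.cons 297 (.leaf 321 1796 (.cons 298 (.leaf 274 2169 (.leaf 299 2171 .nil)) .nil)) .nil)) .nil)) .nil)))) t0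
noncomputable def top1 : T := .cons 249 (.cons 246 t66 (.cons 246 t65 (.cons 250 (.leaf 274 1976 (.cons 222 (.leaf 223 1779 (.cons 226 (.leaf 227 1785 (.cons 246 (.leaf 221 1771 (.leaf 225 1777 .nil)) .nil)) .nil)) .nil)) (.cons 250 (.leaf 274 1976 (.cons 271 (.leaf 251 1978 (.leaf 270 1970 .nil)) .nil)) .nil)))) (.cons 199 t63 (.cons 249 t38 (.cons 249 (.cons 250 (.leaf 274 1976 (.cons 271 (.leaf 251 1978 (.leaf 270 1970 .nil)) .nil)) (.cons 246 t37 (.cons 250 (.leaf 274 1976 (.cons 226 (.leaf 227 1785 (.cons 246 (.leaf 225 1777 (.cons 221 (.leaf 222 1771 (.cons 245 (.leaf 220 1763 (.cons 269 (.leaf 268 1954 (.leaf 270 1962 .nil)) .nil)) .nil)) .nil)) .nil)) .nil)) (.cons 250 (.leaf 274 1976 (.cons 226 (.leaf 227 1785 (.cons 225 (.leaf 246 1777 (.cons 177 (.leaf 201 1414 (.cons 251 (.leaf 271 1978 (.cons 252 (.leaf 224 1795 (.leaf 253 1803 .nil)) .nil)) .nil)) .nil)) .nil)) .nil))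 .nil)))) t36)))
noncomputable def top2 : T := .cons 225 t76 (.cons 320 t75 (.cons 224 (.cons 201 (.leaf 225 1605 (.cons 199 (.leaf 223 1599 (.cons 295 (.leaf 319 1790 (.cons 297 (.leaf 321 1796 (.cons 298 (.leaf 274 2169 (.cons 271 (.leaf 200 1598 (.leaf 299 2171 .nil)) .nil)) .nil)) .nil)) .nil)) .nil)) (.cons 199 (.leaf 223 1599 (.cons 200 (.leaf 175 1407 (.cons 201 (.leaf 177 1413 (.leaf 225 1605 .nil)) .nil)) .nil)) (.cons 295 (.leaf 319 1790 (.cons 199 (.leaf 223 1599 (.cons 297 (.leaf 321 1796 (.cons 200 (.leaf 175 1407 (.leaf 271 1598 .nil)) .nil)) .nil)) .nil)) (.cons 201 (.leaf 225 1605 (.cons 177 (.leaf 200 1413 (.cons 295 (.leaf 319 1790 (.cons 297 (.leaf 321 1796 (.cons 298 (.leaf 274 2169 (.cons 271 (.leaf 299 2171 (.leaf 270 2163 .nil)) .nil)) .nil)) .nil)) .nil)) .nil)) (.cons 199 (.leaf 223 1599 (.cons 201 (.leaf 225 1605 (.cons 295 (.leaf 319 1790 (.cons 297 (.leaf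 321 1796 (.cons 298 (.leaf 274 2169 (.cons 271 (.leaf 299 2171 (.leaf 270 2163 .nil)) .nil)) .nil)) .nil)) .nil)) .nil)) .nil))))) (.cons 224 (.cons 225 (.leaf 201 1605 (.cons 320 (.leaf 249 1797 (.cons 321 (.leaf 297 1796 (.leaf 345 1988 .nil)) .nil)) .nil)) (.cons 199 (.leaf 223 1599 (.cons 200 (.leaf 175 1407 (.cons 201 (.leaf 177 1413 (.cons 297 (.leaf 321 1796 (.cons 271 (.leaf 295 1598 (.cons 270 (.leaf 269 2152 (.cons 299 (.leaf 298 2171 (.cons 251 t71 .nil)) .nil)) .nil)) .nil)) .nil)) .nil)) .nil)) (.cons 199 (.leaf 223 1599 (.cons 200 (.leaf 175 1407 (.cons 297 (.leaf 321 1796 (.cons 271 (.leaf 295 1598 (.cons 270 (.leaf 269 2152 (.cons 299 (.leaf 298 2171 (.cons 251 t70 .nil)) .nil)) .nil)) .nil)) .nil)) .nil)) (.cons 199 (.leaf 223 1599 (.cons 200 (.leaf 175 1407 (.cons 201 (.leaf 177 1413 (.leaf 225 1605 .nil)) .nil)) .nil)) .nil)))) (.cons 225 t69 (.cons 224 (.cons 199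 (.leaf 223 1599 (.cons 200 (.leaf 175 1407 (.cons 201 (.leaf 177 1413 (.leaf 225 1605 .nil)) .nil)) .nil)) (.cons 199 (.leaf 223 1599 (.cons 200 (.leaf 175 1407 (.cons 295 (.leaf 271 1598 (.leaf 319 1790 .nil)) .nil)) .nil)) (.cons 201 (.leaf 225 1605 (.cons 200 (.leaf 177 1413 (.cons 295 (.leaf 271 1598 (.leaf 319 1790 .nil)) .nil)) .nil)) (.cons 199 (.leaf 223 1599 (.cons 225 (.leaf 201 1605 (.cons 319 (.leaf 295 1790 (.cons 320 (.leaf 249 1797 (.leaf 343 1982 .nil)) .nil)) .nil)) .nil)) .nil)))) (.cons 320 t67 (.cons 224 (.cons 199 (.leaf 223 1599 (.cons 175 (.leaf 200 1407 (.cons 319 (.leaf 295 1790 (.cons 320 (.leaf 343 1982 (.cons 321 (.leaf 297 1796 (.leaf 345 1988 .nil)) .nil)) .nil)) .nil)) .nil)) (.cons 201 (.leaf 225 1605 (.cons 177 (.leaf 200 1413 (.cons 319 (.leaf 295 1790 (.cons 320 (.leaf 343 1982 (.cons 321 (.leaf 297 1796 (.leaf 345 1988 .nil)) .nil)) .nil)) .nil))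 .nil)) (.cons 199 (.leaf 223 1599 (.cons 175 (.leaf 200 1407 (.cons 225 (.leaf 201 1605 (.cons 320 (.leaf 249 1797 (.cons 321 (.leaf 297 1796 (.leaf 345 1988 .nil)) .nil)) .nil)) .nil)) .nil)) (.cons 199 (.leaf 223 1599 (.cons 200 (.leaf 175 1407 (.cons 201 (.leaf 177 1413 (.leaf 225 1605 .nil)) .nil)) .nil)) (.cons 225 (.leaf 201 1605 (.cons 223 (.leaf 199 1599 (.cons 249 (.leaf 320 1797 (.cons 222 (.leaf 221 1768 (.leaf 250 1776 .nil)) .nil)) .nil)) .nil)) .nil))))) .nil)))))))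
noncomputable def top3 : T := .cons 224 (.cons 223 (.leaf 199 1599 (.cons 295 (.leaf 319 1790 (.cons 297 (.leaf 321 1796 (.cons 274 (.leaf 298 2169 (.cons 250 (.cons 249 (.leaf 247 1976 (.leaf 251 1787 .nil)) (.cons 225 (.leaf 201 1605 (.cons 226 (.leaf 251 1784 (.cons 247 (.leaf 320 1791 (.leaf 227 1786 .nil)) .nil)) .nil)) (.cons 249 (.leaf 251 1787 (.cons 222 (.leaf 221 1768 (.leaf 225 1776 .nil)) .nil)) (.cons 247 (.leaf 249 1976 (.leaf 320 1791 .nil)) .nil)))) .nil)) .nil)) .nil)) .nil)) (.cons 225 (.leaf 201 1605 (.cons 320 (.leaf 249 1797 (.cons 321 (.leaf 297 1796 (.leaf 345 1988 .nil)) .nil)) .nil)) (.cons 223 (.leaf 199 1599 (.cons 320 (.leaf 247 1791 (.cons 321 (.leaf 297 1796 (.leaf 345 1988 .nil)) .nil)) .nil)) (.cons 223 (.leaf 199 1599 (.cons 319 (.leaf 295 1790 (.cons 320 (.leaf 247 1791 (.leaf 343 1982 .nil)) .nil)) .nil)) (.cons 199 (.leaf 223 1599 (.cons 200 (.leaf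 175 1407 (.cons 201 (.leaf 177 1413 (.leaf 225 1605 .nil)) .nil)) .nil)) .nil))))) (.cons 320 t84 (.cons 224 t80 (.cons 320 (.cons 225 (.leaf 249 1797 (.cons 343 (.leaf 319 1982 (.cons 344 (.leaf 367 2174 (.cons 345 (.leaf 321 1988 (.leaf 369 2180 .nil)) .nil)) .nil)) .nil)) (.cons 225 (.leaf 249 1797 (.cons 224 (.leaf 201 1605 (.cons 321 (.leaf 297 1796 (.leaf 345 1988 .nil)) .nil)) .nil)) (.cons 225 (.leaf 249 1797 (.cons 224 (.leaf 201 1605 (.cons 319 (.leaf 295 1790 (.leaf 343 1982 .nil)) .nil)) .nil)) (.cons 343 (.leaf 319 1982 (.cons 344 (.leaf 367 2174 (.cons 345 (.leaf 321 1988 (.leaf 369 2180 .nil)) .nil)) .nil)) .nil)))) (.cons 320 (.cons 223 (.leaf 247 1791 (.cons 224 (.leaf 199 1599 (.cons 321 (.leaf 297 1796 (.leaf 345 1988 .nil)) .nil)) .nil)) (.cons 223 (.leaf 247 1791 (.cons 224 (.leaf 199 1599 (.cons 319 (.leaf 295 1790 (.leaf 343 1982 .nil)) .nil)) .nil)) (.cons 319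 (.leaf 343 1982 (.cons 297 (.cons 224 (.leaf 295 1790 (.leaf 321 1796 .nil)) (.cons 298 (.leaf 299 2362 (.cons 295 (.leaf 274 2169 (.leaf 224 1790 .nil)) .nil)) (.cons 298 (.leaf 299 2362 (.cons 321 (.leaf 224 1796 (.leaf 345 1988 .nil)) .nil)) (.cons 298 (.leaf 299 2362 (.cons 295 (.leaf 274 2169 (.leaf 318 2354 .nil)) .nil)) .nil)))) .nil)) (.cons 343 (.leaf 319 1982 (.cons 344 (.leaf 367 2174 (.cons 345 (.leaf 321 1988 (.leaf 369 2180 .nil)) .nil)) .nil)) .nil)))) (.cons 224 (.cons 223 (.leaf 199 1599 (.cons 320 (.leaf 247 1791 (.cons 321 (.leaf 297 1796 (.leaf 345 1988 .nil)) .nil)) .nil)) (.cons 225 (.leaf 201 1605 (.cons 320 (.leaf 249 1797 (.cons 321 (.leaf 297 1796 (.leaf 345 1988 .nil)) .nil)) .nil)) (.cons 199 (.leaf 223 1599 (.cons 200 (.leaf 175 1407 (.cons 201 (.leaf 177 1413 (.leaf 225 1605 .nil)) .nil)) .nil)) .nil))) (.cons 224 (.cons 225 (.leaf 201 1605 (.cons 319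 (.leaf 295 1790 (.cons 320 (.leaf 249 1797 (.leaf 343 1982 .nil)) .nil)) .nil)) (.cons 223 (.leaf 199 1599 (.cons 319 (.leaf 295 1790 (.cons 320 (.leaf 247 1791 (.leaf 343 1982 .nil)) .nil)) .nil)) (.cons 223 (.leaf 199 1599 (.cons 225 (.leaf 201 1605 (.cons 249 (.leaf 320 1797 (.cons 222 (.leaf 221 1768 (.leaf 250 1776 .nil)) .nil)) .nil)) .nil)) (.cons 199 (.leaf 223 1599 (.cons 200 (.leaf 175 1407 (.cons 201 (.leaf 177 1413 (.leaf 225 1605 .nil)) .nil)) .nil)) .nil)))) .nil))))))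
noncomputable def top4 : T := t87
noncomputable def top5 : T := .cons 296 (.cons 199 (.leaf 223 1599 (.cons 201 (.leaf 225 1605 (.cons 295 (.leaf 319 1790 (.cons 200 (.leaf 175 1407 (.leaf 177 1413 .nil)) .nil)) .nil)) .nil)) (.cons 199 (.leaf 223 1599 (.cons 200 (.leaf 175 1407 (.cons 201 (.leaf 177 1413 (.leaf 225 1605 .nil)) .nil)) .nil)) (.cons 295 (.leaf 319 1790 (.cons 201 (.leaf 225 1605 (.cons 297 (.leaf 321 1796 (.cons 298 (.leaf 274 2169 (.cons 271 (.leaf 200 1598 (.leaf 299 2171 .nil)) .nil)) .nil)) .nil)) .nil)) (.cons 199 (.leaf 223 1599 (.cons 295 (.leaf 319 1790 (.cons 200 (.leaf 175 1407 (.leaf 271 1598 .nil)) .nil)) .nil)) (.cons 199 (.leaf 223 1599 (.cons 201 (.leaf 225 1605 (.cons 295 (.leaf 319 1790 (.cons 297 (.leaf 321 1796 (.cons 298 (.leaf 274 2169 (.cons 271 (.leaf 299 2171 (.leaf 270 2163 .nil)) .nil)) .nil)) .nil)) .nil)) .nil)) .nil))))) (.cons 296 t92 (.cons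 200 t91 (.cons 200 (.cons 177 (.leaf 201 1413 (.cons 176 (.leaf 153 1221 (.cons 175 (.leaf 199 1407 (.leaf 151 1215 .nil)) .nil)) .nil)) (.cons 271 (.leaf 295 1598 (.cons 175 (.leaf 199 1407 (.cons 176 (.leaf 151 1215 (.leaf 247 1406 .nil)) .nil)) .nil)) (.cons 177 (.leaf 201 1413 (.cons 176 (.leaf 153 1221 (.cons 271 (.leaf 295 1598 (.leaf 247 1406 .nil)) .nil)) .nil)) (.cons 175 (.leaf 199 1407 (.cons 201 (.leaf 177 1413 (.cons 295 (.leaf 271 1598 (.cons 296 (.leaf 225 1605 (.leaf 319 1790 .nil)) .nil)) .nil)) .nil)) .nil)))) (.cons 200 t90 (.cons 200 t89 (.cons 200 (.cons 175 (.leaf 199 1407 (.cons 176 (.leaf 151 1215 (.cons 177 (.leaf 201 1413 (.leaf 153 1221 .nil)) .nil)) .nil)) (.cons 177 (.leaf 201 1413 (.cons 176 (.leaf 153 1221 (.cons 271 (.leaf 295 1598 (.leaf 247 1406 .nil)) .nil)) .nil)) (.cons 199 (.leaf 175 1407 (.cons 295 (.leaf 271 1598 (.cons 296 (.leaf 223 1599 (.leaf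 319 1790 .nil)) .nil)) .nil)) .nil))) (.cons 200 t88 .nil)))))))
noncomputable def top6 : T := .cons 320 (.cons 225 (.leaf 249 1797 (.cons 224 (.leaf 201 1605 (.cons 321 (.leaf 297 1796 (.leaf 345 1988 .nil)) .nil)) .nil)) (.cons 319 (.leaf 343 1982 (.cons 224 (.leaf 295 1790 (.cons 225 (.leaf 201 1605 (.leaf 249 1797 .nil)) .nil)) .nil)) (.cons 319 (.leaf 343 1982 (.cons 224 (.leaf 295 1790 (.cons 321 (.leaf 297 1796 (.leaf 345 1988 .nil)) .nil)) .nil)) (.cons 225 (.leaf 249 1797 (.cons 343 (.leaf 319 1982 (.cons 344 (.leaf 367 2174 (.cons 345 (.leaf 321 1988 (.leaf 369 2180 .nil)) .nil)) .nil)) .nil)) .nil)))) (.cons 224 (.cons 295 (.leaf 319 1790 (.cons 200 (.leaf 271 1598 (.cons 175 (.leaf 199 1407 (.cons 201 (.leaf 177 1413 (.leaf 225 1605 .nil)) .nil)) .nil)) .nil)) (.cons 201 (.leaf 225 1605 (.cons 200 (.leaf 177 1413 (.cons 175 (.leaf 199 1407 (.cons 176 (.leaf 151 1215 (.cons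 271 (.leaf 247 1406 (.cons 297 t101 .nil)) .nil)) .nil)) .nil)) .nil)) (.cons 295 (.leaf 319 1790 (.cons 271 (.leaf 200 1598 (.cons 297 (.leaf 321 1796 (.cons 298 (.leaf 274 2169 (.leaf 299 2171 .nil)) .nil)) .nil)) .nil)) (.cons 295 (.leaf 319 1790 (.cons 201 (.leaf 225 1605 (.cons 297 (.leaf 321 1796 (.cons 298 (.leaf 274 2169 (.cons 271 (.leaf 299 2171 (.leaf 270 2163 .nil)) .nil)) .nil)) .nil)) .nil)) (.cons 295 (.leaf 319 1790 (.cons 297 (.leaf 321 1796 (.cons 298 (.leaf 274 2169 (.cons 323 (.leaf 322 2360 (.cons 299 (.leaf 324 2368 (.cons 251 t100 .nil)) .nil)) .nil)) .nil)) .nil)) .nil))))) (.cons 320 t99 (.cons 225 (.cons 224 (.leaf 201 1605 (.cons 297 (.leaf 321 1796 (.cons 298 t98 .nil)) .nil)) (.cons 320 (.leaf 249 1797 (.cons 345 (.leaf 321 1988 (.cons 344 (.leaf 369 2180 (.cons 271 (.leaf 247 1983 (.cons 367 (.leaf 343 2174 (.cons 368 (.leaf 295 2175 (.leaf 391 2366 .nil))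 .nil)) .nil)) .nil)) .nil)) .nil)) (.cons 249 (.leaf 320 1797 (.cons 201 (.leaf 177 1414 (.leaf 224 1605 .nil)) .nil)) .nil))) (.cons 320 (.cons 225 (.leaf 249 1797 (.cons 299 t97 .nil)) (.cons 343 (.leaf 319 1982 (.cons 344 (.leaf 367 2174 (.cons 345 (.leaf 369 2180 (.cons 249 (.leaf 225 1797 (.cons 271 (.leaf 247 1983 (.cons 270 (.leaf 269 1961 (.cons 251 (.leaf 250 1978 (.cons 299 t96 .nil)) .nil)) .nil)) .nil)) .nil)) .nil)) .nil)) (.cons 225 (.leaf 249 1797 (.cons 299 t95 .nil)) (.cons 321 (.leaf 345 1988 (.cons 224 (.leaf 297 1796 (.cons 225 (.leaf 201 1605 (.leaf 249 1797 .nil)) .nil)) .nil)) (.cons 321 (.leaf 345 1988 (.cons 297 (.leaf 224 1796 (.cons 319 (.leaf 343 1982 (.cons 298 (.leaf 299 2362 (.leaf 318 2353 .nil)) .nil)) .nil)) .nil)) (.cons 225 (.leaf 249 1797 (.cons 343 (.leaf 319 1982 (.cons 344 (.leaf 367 2174 (.cons 345 (.leaf 321 1988 (.leaf 369 2180 .nil)) .nil))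 .nil)) .nil)) .nil)))))) (.cons 224 t94 (.cons 320 t93 (.cons 320 (.cons 225 (.leaf 249 1797 (.cons 201 (.leaf 224 1605 (.cons 343 (.leaf 319 1982 (.cons 344 (.leaf 367 2174 (.cons 345 (.leaf 321 1988 (.leaf 369 2180 .nil)) .nil)) .nil)) .nil)) .nil)) (.cons 225 (.leaf 249 1797 (.cons 201 (.leaf 224 1605 (.cons 345 (.leaf 321 1988 (.cons 344 (.leaf 369 2180 (.cons 271 (.leaf 247 1983 (.cons 368 (.leaf 295 2175 (.cons 367 (.leaf 343 2174 (.leaf 391 2366 .nil)) .nil)) .nil)) .nil)) .nil)) .nil)) .nil)) (.cons 225 (.leaf 249 1797 (.cons 224 (.leaf 201 1605 (.cons 295 (.leaf 319 1790 (.cons 271 (.leaf 200 1598 (.cons 344 (.leaf 247 1983 (.leaf 368 2175 .nil)) .nil)) .nil)) .nil)) .nil)) (.cons 319 (.leaf 343 1982 (.cons 295 (.leaf 224 1790 (.cons 321 (.leaf 345 1988 (.cons 294 (.leaf 293 2344 (.leaf 322 2355 .nil)) .nil)) .nil)) .nil)) (.cons 343 (.leaf 319 1982 (.cons 344 (.leaf 367 2174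 (.cons 271 (.leaf 247 1983 (.cons 345 (.leaf 321 1988 (.leaf 369 2180 .nil)) .nil)) .nil)) .nil)) .nil))))) .nil)))))))
noncomputable def top7 : T := .cons 249 (.cons 250 (.leaf 274 1976 (.cons 271 (.leaf 251 1978 (.leaf 270 1970 .nil)) .nil)) (.cons 246 (.cons 221 (.leaf 222 1771 (.cons 245 (.leaf 220 1763 (.cons 224 (.leaf 225 1769 (.cons 244 (.leaf 271 1952 (.leaf 223 1761 .nil)) .nil)) .nil)) .nil)) (.cons 269 (.leaf 270 1962 (.cons 245 (.leaf 268 1954 (.cons 244 (.leaf 271 1952 (.cons 219 (.leaf 220 1755 (.cons 223 (.leaf 224 1761 (.cons 243 (.leaf 218 1747 (.leaf 222 1753 .nil)) .nil)) .nil)) .nil)) .nil)) .nil)) (.cons 269 (.leaf 270 1962 (.cons 245 (.leaf 268 1954 (.cons 220 (.leaf 221 1763 (.cons 244 (.leaf 271 1952 (.leaf 219 1755 .nil)) .nil)) .nil)) .nil)) (.cons 221 (.leaf 222 1771 (.cons 225 (.leaf 226 1777 (.cons 201 (.leaf 177 1414 (.cons 296 (.leaf 224 1605 (.leaf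 320 1797 .nil)) .nil)) .nil)) .nil)) .nil)))) (.cons 250 (.leaf 274 1976 (.cons 223 (.leaf 222 1779 (.cons 175 (.leaf 199 1404 (.cons 227 (.leaf 226 1785 (.cons 251 (.leaf 224 1787 (.leaf 228 1793 .nil)) .nil)) .nil)) .nil)) .nil)) .nil))) (.cons 249 t111 (.cons 296 t110 (.cons 249 t109 (.cons 249 (.cons 250 (.leaf 274 1976 (.cons 271 (.leaf 251 1978 (.leaf 270 1970 .nil)) .nil)) (.cons 246 t108 (.cons 250 (.leaf 274 1976 (.cons 222 (.leaf 223 1779 (.cons 226 (.leaf 227 1785 (.cons 246 (.leaf 221 1771 (.leaf 225 1777 .nil)) .nil)) .nil)) .nil)) .nil))) (.cons 296 t107 (.cons 249 t105 (.cons 249 (.cons 250 (.leaf 274 1976 (.cons 223 (.leaf 222 1779 (.cons 175 (.leaf 199 1404 (.cons 227 (.leaf 226 1785 (.cons 251 (.leaf 271 1978 (.leaf 224 1787 .nil)) .nil)) .nil)) .nil)) .nil)) (.cons 246 t104 (.cons 250 (.leaf 274 1976 (.cons 271 (.leaf 251 1978 (.leaf 270 1970 .nil)) .nil)) (.cons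 250 (.leaf 274 1976 (.cons 223 (.leaf 222 1779 (.cons 175 (.leaf 199 1404 (.cons 227 (.leaf 226 1785 (.cons 251 (.leaf 224 1787 (.leaf 228 1793 .nil)) .nil)) .nil)) .nil)) .nil)) .nil)))) (.cons 296 t103 .nil))))))))
noncomputable def top8 : T := .cons 320 (.cons 247 (.leaf 223 1791 (.cons 343 (.leaf 319 1982 (.cons 344 (.leaf 271 1983 (.leaf 367 2174 .nil)) .nil)) .nil)) (.cons 247 (.leaf 223 1791 (.cons 344 (.leaf 271 1983 (.cons 345 (.leaf 321 1988 (.leaf 369 2180 .nil)) .nil)) .nil)) (.cons 319 (.leaf 343 1982 (.cons 321 (.leaf 345 1988 (.cons 297 (.leaf 224 1796 (.cons 298 (.leaf 299 2362 (.leaf 318 2353 .nil)) .nil)) .nil)) .nil)) .nil))) (.cons 224 t115 (.cons 320 (.cons 343 (.leaf 319 1982 (.cons 344 (.leaf 367 2174 (.cons 345 (.leaf 321 1988 (.leaf 369 2180 .nil)) .nil)) .nil)) (.cons 247 (.leaf 223 1791 (.cons 344 (.leaf 271 1983 (.cons 345 (.leaf 321 1988 (.leaf 369 2180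 .nil)) .nil)) .nil)) (.cons 247 (.leaf 223 1791 (.cons 343 (.leaf 319 1982 (.cons 344 (.leaf 271 1983 (.leaf 367 2174 .nil)) .nil)) .nil)) (.cons 319 (.leaf 343 1982 (.cons 321 (.leaf 345 1988 (.cons 247 (.leaf 223 1791 (.cons 318 (.cons 297 (.leaf 317 2345 (.leaf 298 2353 .nil)) (.cons 293 (.leaf 294 2347 (.cons 317 (.leaf 292 2339 (.cons 341 (.leaf 340 2530 (.leaf 342 2538 .nil)) .nil)) .nil)) (.cons 293 (.leaf 294 2347 (.cons 298 (.leaf 297 2353 (.cons 322 (.leaf 299 2361 (.cons 295 (.leaf 323 2363 (.cons 342 (.leaf 341 2538 (.leaf 271 1974 .nil)) .nil)) .nil)) .nil)) .nil)) .nil))) .nil)) .nil)) .nil)) .nil)))) (.cons 320 (.cons 321 (.leaf 345 1988 (.cons 297 (.leaf 224 1796 (.cons 295 (.cons 294 (.leaf 293 2344 (.leaf 322 2352 .nil)) (.cons 298 (.leaf 274 2169 (.cons 271 (.leaf 299 2171 (.leaf 270 2163 .nil)) .nil)) .nil)) .nil)) .nil)) (.cons 247 (.leaf 223 1791 (.cons 344 (.leaf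 271 1983 (.cons 367 (.leaf 343 2174 (.cons 368 (.leaf 391 2366 (.cons 369 (.leaf 345 2180 (.leaf 393 2372 .nil)) .nil)) .nil)) .nil)) .nil)) (.cons 247 (.leaf 223 1791 (.cons 271 (.leaf 344 1983 (.cons 249 (.cons 250 (.leaf 274 1976 (.leaf 251 1978 .nil)) (.cons 246 (.cons 269 (.leaf 270 1961 (.cons 245 (.leaf 244 1952 (.leaf 268 1954 .nil)) .nil)) (.cons 221 (.leaf 222 1771 (.cons 245 (.leaf 244 1952 (.leaf 220 1763 .nil)) .nil)) (.cons 270 (.leaf 269 1961 (.cons 222 (.leaf 221 1771 (.cons 198 (.leaf 174 1396 (.leaf 295 1588 .nil)) .nil)) .nil)) .nil))) .nil)) .nil)) .nil)) (.cons 321 (.leaf 345 1988 (.cons 223 (.leaf 247 1791 (.cons 224 (.leaf 199 1599 (.leaf 297 1796 .nil)) .nil)) .nil)) .nil)))) (.cons 320 (.cons 343 (.leaf 319 1982 (.cons 344 (.leaf 367 2174 (.cons 345 (.leaf 321 1988 (.leaf 369 2180 .nil)) .nil)) .nil)) (.cons 345 (.leaf 321 1988 (.cons 344 (.leaf 369 2180 (.cons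 271 (.leaf 247 1983 (.cons 367 (.leaf 343 2174 (.cons 368 (.leaf 295 2175 (.leaf 391 2366 .nil)) .nil)) .nil)) .nil)) .nil)) (.cons 343 (.leaf 319 1982 (.cons 344 (.leaf 367 2174 (.cons 271 (.leaf 247 1983 (.cons 368 (.leaf 295 2175 (.cons 369 (.leaf 345 2180 (.leaf 393 2372 .nil)) .nil)) .nil)) .nil)) .nil)) (.cons 321 (.leaf 345 1988 (.cons 224 (.leaf 297 1796 (.cons 295 (.leaf 319 1790 (.cons 200 (.leaf 271 1598 (.cons 175 (.leaf 199 1407 (.cons 176 (.leaf 151 1215 (.cons 177 (.leaf 201 1413 (.leaf 153 1221 .nil)) .nil)) .nil)) .nil)) .nil)) .nil)) .nil)) (.cons 343 (.leaf 319 1982 (.cons 344 (.leaf 367 2174 (.cons 271 (.leaf 247 1983 (.cons 295 (.leaf 368 2175 (.cons 224 (.leaf 200 1598 (.cons 297 (.leaf 321 1796 (.cons 298 (.leaf 274 2169 (.leaf 299 2171 .nil)) .nil)) .nil)) .nil)) .nil)) .nil)) .nil)) .nil))))) (.cons 320 t113 (.cons 320 (.cons 223 (.leaf 247 1791 (.cons 224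 (.leaf 199 1599 (.cons 321 (.leaf 297 1796 (.leaf 345 1988 .nil)) .nil)) .nil)) (.cons 223 (.leaf 247 1791 (.cons 224 (.leaf 199 1599 (.cons 319 (.leaf 295 1790 (.leaf 343 1982 .nil)) .nil)) .nil)) (.cons 343 (.leaf 319 1982 (.cons 344 (.leaf 367 2174 (.cons 345 (.leaf 321 1988 (.leaf 369 2180 .nil)) .nil)) .nil)) .nil))) (.cons 224 t112 .nil)))))))
noncomputable def top9 : T := .cons 320 (.cons 225 (.leaf 249 1797 (.cons 224 (.leaf 201 1605 (.cons 247 (.leaf 223 1791 (.cons 226 (.leaf 227 1786 (.cons 245 (.leaf 246 1769 (.cons 271 (.leaf 344 1983 (.cons 200 (.leaf 295 1598 (.leaf 176 1406 .nil)) .nil)) .nil)) .nil)) .nil)) .nil)) .nil)) (.cons 225 (.leaf 249 1797 (.cons 224 (.leaf 201 1605 (.cons 321 (.leaf 297 1796 (.leaf 345 1988 .nil)) .nil)) .nil)) (.cons 319 (.leaf 343 1982 (.cons 321 (.leaf 345 1988 (.cons 297 (.leaf 224 1796 (.cons 298 (.leaf 299 2362 (.leaf 318 2353 .nil))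 .nil)) .nil)) .nil)) (.cons 225 (.leaf 249 1797 (.cons 343 (.leaf 319 1982 (.cons 344 (.leaf 367 2174 (.cons 345 (.leaf 321 1988 (.leaf 369 2180 .nil)) .nil)) .nil)) .nil)) .nil)))) (.cons 224 t119 (.cons 320 (.cons 247 (.leaf 223 1791 (.cons 249 (.leaf 225 1797 (.cons 250 (.leaf 274 1976 (.cons 271 (.leaf 344 1983 (.leaf 251 1978 .nil)) .nil)) .nil)) .nil)) (.cons 343 (.leaf 319 1982 (.cons 344 (.leaf 367 2174 (.cons 345 (.leaf 321 1988 (.leaf 369 2180 .nil)) .nil)) .nil)) (.cons 247 (.leaf 223 1791 (.cons 249 (.leaf 225 1797 (.cons 250 (.leaf 274 1976 (.cons 271 (.leaf 251 1978 (.leaf 270 1970 .nil)) .nil)) .nil)) .nil)) .nil))) (.cons 320 (.cons 247 (.leaf 223 1791 (.cons 249 (.leaf 225 1797 (.cons 250 (.leaf 274 1976 (.cons 271 (.leaf 344 1983 (.leaf 251 1978 .nil)) .nil)) .nil)) .nil)) (.cons 225 (.leaf 249 1797 (.cons 224 (.leaf 201 1605 (.cons 321 (.leaf 297 1796 (.leaf 345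 1988 .nil)) .nil)) .nil)) (.cons 247 (.leaf 223 1791 (.cons 271 (.leaf 344 1983 (.cons 321 (.leaf 345 1988 (.cons 224 (.leaf 297 1796 (.cons 200 (.leaf 295 1598 (.leaf 176 1406 .nil)) .nil)) .nil)) .nil)) .nil)) .nil))) (.cons 320 (.cons 225 (.leaf 249 1797 (.cons 224 (.leaf 201 1605 (.cons 247 (.leaf 223 1791 (.cons 226 (.leaf 227 1786 (.cons 245 (.leaf 246 1769 (.cons 271 (.leaf 344 1983 (.cons 200 (.leaf 295 1598 (.leaf 176 1406 .nil)) .nil)) .nil)) .nil)) .nil)) .nil)) .nil)) (.cons 319 (.leaf 343 1982 (.cons 224 (.leaf 295 1790 (.cons 225 (.leaf 201 1605 (.leaf 249 1797 .nil)) .nil)) .nil)) (.cons 247 (.leaf 223 1791 (.cons 271 (.leaf 344 1983 (.cons 319 (.leaf 343 1982 (.cons 295 (.leaf 224 1789 (.cons 222 (.leaf 246 1783 (.cons 318 (.leaf 342 1974 (.cons 297 (.leaf 298 2354 (.leaf 317 2345 .nil)) .nil)) .nil)) .nil)) .nil)) .nil)) .nil)) (.cons 225 (.leaf 249 1797 (.cons 247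 (.leaf 223 1791 (.cons 343 (.leaf 319 1982 (.cons 344 (.leaf 271 1983 (.leaf 367 2174 .nil)) .nil)) .nil)) .nil)) .nil)))) (.cons 320 (.cons 319 (.leaf 343 1982 (.cons 321 (.leaf 345 1988 (.cons 297 (.leaf 224 1796 (.cons 298 (.leaf 299 2362 (.leaf 318 2353 .nil)) .nil)) .nil)) .nil)) (.cons 247 (.leaf 223 1791 (.cons 271 (.leaf 344 1983 (.cons 321 (.leaf 345 1988 (.cons 224 (.leaf 297 1796 (.cons 200 (.leaf 295 1598 (.leaf 176 1406 .nil)) .nil)) .nil)) .nil)) .nil)) (.cons 319 (.leaf 343 1982 (.cons 247 (.leaf 223 1791 (.cons 271 (.leaf 344 1983 (.cons 295 (.leaf 224 1789 (.cons 222 (.leaf 246 1783 (.cons 318 (.leaf 342 1974 (.cons 297 (.leaf 298 2354 (.leaf 317 2345 .nil)) .nil)) .nil)) .nil)) .nil)) .nil)) .nil)) (.cons 223 (.leaf 247 1791 (.cons 343 (.leaf 319 1982 (.cons 344 (.leaf 367 2174 (.cons 345 (.leaf 321 1988 (.leaf 369 2180 .nil)) .nil)) .nil)) .nil)) .nil)))) (.cons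 320 (.cons 225 (.leaf 249 1797 (.cons 224 (.leaf 201 1605 (.cons 321 (.leaf 297 1796 (.leaf 345 1988 .nil)) .nil)) .nil)) (.cons 225 (.leaf 249 1797 (.cons 224 (.leaf 201 1605 (.cons 319 (.leaf 295 1790 (.leaf 343 1982 .nil)) .nil)) .nil)) (.cons 319 (.leaf 343 1982 (.cons 224 (.leaf 295 1790 (.cons 321 (.leaf 297 1796 (.leaf 345 1988 .nil)) .nil)) .nil)) (.cons 225 (.leaf 249 1797 (.cons 343 (.leaf 319 1982 (.cons 344 (.leaf 367 2174 (.cons 345 (.leaf 321 1988 (.leaf 369 2180 .nil)) .nil)) .nil)) .nil)) .nil)))) .nil))))))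
noncomputable def top10 : T := .cons 199 (.cons 223 (.leaf 296 1599 (.cons 175 (.leaf 200 1407 (.leaf 247 1404 .nil)) .nil)) (.cons 200 (.leaf 175 1407 (.cons 201 (.leaf 177 1413 (.cons 225 (.leaf 296 1605 (.cons 198 (.leaf 197 1576 (.leaf 226 1584 .nil)) .nil)) .nil)) .nil)) (.cons 223 (.leaf 296 1599 (.cons 175 (.leaf 247 1404 (.leaf 151 1212 .nil)) .nil)) (.cons 296 (.leaf 223 1599 (.cons 225 (.leaf 201 1605 (.cons 320 (.leaf 249 1797 (.cons 321 (.leaf 297 1796 (.leaf 345 1988 .nil)) .nil)) .nil)) .nil)) (.cons 200 (.leaf 175 1407 (.cons 177 (.leaf 201 1413 (.cons 176 (.leaf 153 1221 (.cons 271 (.leaf 295 1598 (.leaf 247 1406 .nil)) .nil)) .nil)) .nil)) .nil))))) (.cons 296 (.cons 223 (.leaf 199 1599 (.cons 320 (.leaf 247 1791 (.cons 321 (.leaf 297 1796 (.leaf 345 1988 .nil)) .nil)) .nil)) (.cons 225 (.leaf 201 1605 (.cons 320 (.leaf 249 1797 (.cons 321 (.leaf 297 1796 (.leaf 345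 1988 .nil)) .nil)) .nil)) (.cons 223 (.leaf 199 1599 (.cons 225 (.leaf 201 1605 (.cons 249 (.leaf 320 1797 (.cons 222 (.leaf 221 1768 (.leaf 250 1776 .nil)) .nil)) .nil)) .nil)) (.cons 223 (.leaf 199 1599 (.cons 225 (.leaf 201 1605 (.cons 297 (.leaf 321 1796 (.cons 226 (.cons 247 (.leaf 227 1786 (.leaf 246 1778 .nil)) (.cons 251 (.leaf 250 1784 (.cons 202 (.leaf 203 1593 (.cons 227 (.leaf 299 1623 (.leaf 252 1792 .nil)) .nil)) .nil)) (.cons 247 (.leaf 246 1778 (.cons 202 (.leaf 203 1593 (.cons 250 (.leaf 251 1784 (.cons 249 (.leaf 274 1976 (.leaf 222 1776 .nil)) .nil)) .nil)) .nil)) .nil))) .nil)) .nil)) .nil)) .nil)))) (.cons 200 t123 (.cons 200 (.cons 175 (.leaf 199 1407 (.cons 176 (.leaf 151 1215 (.cons 177 (.leaf 201 1413 (.leaf 153 1221 .nil)) .nil)) .nil)) (.cons 271 (.leaf 295 1598 (.cons 175 (.leaf 199 1407 (.cons 176 (.leaf 151 1215 (.leaf 247 1406 .nil)) .nil)) .nil)) (.cons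 201 (.leaf 177 1413 (.cons 225 (.leaf 296 1605 (.cons 271 (.leaf 295 1598 (.cons 176 (.leaf 247 1406 (.cons 152 (.leaf 249 1220 (.leaf 128 1028 .nil)) .nil)) .nil)) .nil)) .nil)) (.cons 199 (.leaf 175 1407 (.cons 201 (.leaf 177 1413 (.cons 225 (.leaf 296 1605 (.cons 198 (.leaf 197 1576 (.leaf 226 1584 .nil)) .nil)) .nil)) .nil)) .nil)))) (.cons 200 (.cons 199 (.leaf 175 1407 (.cons 201 (.leaf 177 1413 (.cons 223 (.leaf 296 1599 (.cons 202 (.leaf 203 1594 (.leaf 222 1586 .nil)) .nil)) .nil)) .nil)) (.cons 271 (.leaf 295 1598 (.cons 176 (.leaf 247 1406 (.cons 151 (.leaf 175 1215 (.cons 152 (.leaf 127 1023 (.cons 177 (.leaf 201 1413 (.leaf 153 1221 .nil)) .nil)) .nil)) .nil)) .nil)) (.cons 271 (.leaf 295 1598 (.cons 176 (.leaf 247 1406 (.cons 177 (.leaf 201 1413 (.leaf 153 1221 .nil)) .nil)) .nil)) (.cons 175 (.leaf 199 1407 (.cons 176 (.leaf 151 1215 (.cons 271 (.leaf 295 1598 (.leaf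 247 1406 .nil)) .nil)) .nil)) .nil)))) (.cons 200 t122 (.cons 200 t121 (.cons 199 (.cons 223 (.leaf 296 1599 (.cons 175 (.leaf 200 1407 (.leaf 151 1212 .nil)) .nil)) (.cons 296 (.leaf 223 1599 (.cons 225 (.leaf 201 1605 (.cons 320 (.leaf 249 1797 (.cons 321 (.leaf 297 1796 (.leaf 345 1988 .nil)) .nil)) .nil)) .nil)) (.cons 200 (.leaf 175 1407 (.cons 201 (.leaf 177 1413 (.cons 225 (.leaf 296 1605 (.cons 198 (.leaf 197 1576 (.leaf 226 1584 .nil)) .nil)) .nil)) .nil)) (.cons 200 (.leaf 175 1407 (.cons 201 (.leaf 177 1413 (.cons 198 (.cons 225 (.leaf 197 1576 (.leaf 226 1584 .nil)) (.cons 173 (.leaf 174 1387 (.cons 197 (.leaf 172 1379 (.cons 221 (.leaf 220 1570 (.leaf 222 1578 .nil)) .nil)) .nil)) (.cons 173 (.leaf 174 1387 (.cons 221 (.leaf 222 1578 (.cons 226 (.leaf 225 1584 (.cons 202 (.leaf 227 1592 (.cons 203 (.leaf 223 1594 (.cons 179 (.leaf 178 1401 (.leaf 180 1409 .nil)) .nil))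 .nil)) .nil)) .nil)) .nil)) .nil))) .nil)) .nil)) .nil)))) .nil)))))))
noncomputable def top11 : T := .cons 320 (.cons 223 (.leaf 247 1791 (.cons 343 (.leaf 319 1982 (.cons 224 (.leaf 199 1599 (.cons 225 (.leaf 201 1605 (.leaf 249 1797 .nil)) .nil)) .nil)) .nil)) (.cons 247 (.leaf 223 1791 (.cons 249 (.leaf 225 1797 (.cons 250 (.leaf 274 1976 (.cons 271 (.leaf 344 1983 (.leaf 251 1978 .nil)) .nil)) .nil)) .nil)) (.cons 319 (.leaf 343 1982 (.cons 224 (.leaf 295 1790 (.cons 321 (.leaf 297 1796 (.leaf 345 1988 .nil)) .nil)) .nil)) .nil))) (.cons 224 t124 (.cons 320 (.cons 247 (.leaf 223 1791 (.cons 249 (.leaf 225 1797 (.cons 250 (.leaf 274 1976 (.cons 271 (.leaf 344 1983 (.leaf 251 1978 .nil)) .nil)) .nil)) .nil)) (.cons 225 (.leaf 249 1797 (.cons 343 (.leaf 319 1982 (.cons 344 (.leaf 367 2174 (.cons 345 (.leaf 321 1988 (.leaf 369 2180 .nil)) .nil)) .nil)) .nil)) (.cons 223 (.leaf 247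 1791 (.cons 343 (.leaf 319 1982 (.cons 344 (.leaf 367 2174 (.cons 345 (.leaf 321 1988 (.leaf 369 2180 .nil)) .nil)) .nil)) .nil)) (.cons 247 (.leaf 223 1791 (.cons 249 (.leaf 225 1797 (.cons 250 (.leaf 274 1976 (.cons 271 (.leaf 251 1978 (.leaf 270 1970 .nil)) .nil)) .nil)) .nil)) .nil)))) (.cons 320 (.cons 223 (.leaf 247 1791 (.cons 224 (.leaf 199 1599 (.cons 321 (.leaf 297 1796 (.leaf 345 1988 .nil)) .nil)) .nil)) (.cons 225 (.leaf 249 1797 (.cons 224 (.leaf 201 1605 (.cons 321 (.leaf 297 1796 (.leaf 345 1988 .nil)) .nil)) .nil)) (.cons 247 (.leaf 223 1791 (.cons 249 (.leaf 225 1797 (.cons 250 (.leaf 274 1976 (.cons 271 (.leaf 344 1983 (.leaf 251 1978 .nil)) .nil)) .nil)) .nil)) .nil))) (.cons 320 (.cons 319 (.leaf 343 1982 (.cons 224 (.leaf 295 1790 (.cons 321 (.leaf 297 1796 (.leaf 345 1988 .nil)) .nil)) .nil)) (.cons 321 (.leaf 345 1988 (.cons 224 (.leaf 297 1796 (.cons 225 (.leaf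 201 1605 (.leaf 249 1797 .nil)) .nil)) .nil)) (.cons 319 (.leaf 343 1982 (.cons 224 (.leaf 295 1790 (.cons 225 (.leaf 201 1605 (.leaf 249 1797 .nil)) .nil)) .nil)) (.cons 225 (.leaf 249 1797 (.cons 343 (.leaf 319 1982 (.cons 344 (.leaf 367 2174 (.cons 345 (.leaf 321 1988 (.leaf 369 2180 .nil)) .nil)) .nil)) .nil)) .nil)))) (.cons 320 (.cons 225 (.leaf 249 1797 (.cons 247 (.leaf 223 1791 (.cons 343 (.leaf 319 1982 (.cons 344 (.leaf 271 1983 (.leaf 367 2174 .nil)) .nil)) .nil)) .nil)) (.cons 223 (.leaf 247 1791 (.cons 224 (.leaf 199 1599 (.cons 225 (.leaf 201 1605 (.leaf 249 1797 .nil)) .nil)) .nil)) (.cons 319 (.leaf 343 1982 (.cons 224 (.leaf 295 1790 (.cons 225 (.leaf 201 1605 (.leaf 249 1797 .nil)) .nil)) .nil)) (.cons 223 (.leaf 247 1791 (.cons 224 (.leaf 199 1599 (.cons 319 (.leaf 295 1790 (.leaf 343 1982 .nil)) .nil)) .nil)) .nil)))) (.cons 320 (.cons 319 (.leaf 343 1982 (.cons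 247 (.leaf 223 1791 (.cons 321 (.leaf 345 1988 (.cons 318 (.cons 297 (.leaf 224 1796 (.leaf 317 2345 .nil)) (.cons 293 (.leaf 294 2347 (.cons 295 (.leaf 224 1790 (.cons 271 (.leaf 344 1980 (.leaf 342 1974 .nil)) .nil)) .nil)) (.cons 297 (.leaf 317 2345 (.leaf 298 2353 .nil)) .nil))) .nil)) .nil)) .nil)) (.cons 223 (.leaf 247 1791 (.cons 321 (.leaf 345 1988 (.cons 224 (.leaf 199 1599 (.leaf 297 1796 .nil)) .nil)) .nil)) (.cons 319 (.leaf 343 1982 (.cons 247 (.leaf 223 1791 (.cons 271 (.leaf 344 1983 (.cons 295 (.leaf 224 1789 (.cons 222 (.leaf 246 1783 (.cons 318 (.leaf 342 1974 (.cons 297 (.leaf 298 2354 (.leaf 317 2345 .nil)) .nil)) .nil)) .nil)) .nil)) .nil)) .nil)) (.cons 319 (.leaf 343 1982 (.cons 224 (.leaf 295 1790 (.cons 321 (.leaf 297 1796 (.leaf 345 1988 .nil)) .nil)) .nil)) (.cons 223 (.leaf 247 1791 (.cons 343 (.leaf 319 1982 (.cons 344 (.leaf 367 2174 (.cons 345 (.leaf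 321 1988 (.leaf 369 2180 .nil)) .nil)) .nil)) .nil)) .nil))))) .nil))))))
noncomputable def top12 : T := .cons 320 (.cons 247 (.leaf 223 1791 (.cons 271 (.leaf 344 1983 (.cons 319 (.leaf 343 1982 (.cons 249 (.leaf 225 1797 (.cons 250 (.leaf 274 1976 (.leaf 251 1978 .nil)) .nil)) .nil)) .nil)) .nil)) (.cons 247 (.leaf 223 1791 (.cons 249 (.leaf 225 1797 (.cons 250 (.leaf 274 1976 (.cons 271 (.leaf 344 1983 (.leaf 251 1978 .nil)) .nil)) .nil)) .nil)) (.cons 249 (.leaf 225 1797 (.cons 344 (.cons 343 (.leaf 319 1982 (.leaf 367 2174 .nil)) (.cons 345 (.leaf 321 1988 (.leaf 369 2180 .nil)) .nil)) .nil)) (.cons 223 (.leaf 247 1791 (.cons 224 (.leaf 199 1599 (.cons 321 (.leaf 297 1796 (.leaf 345 1988 .nil)) .nil)) .nil)) .nil)))) (.cons 224 t131 (.cons 320 (.cons 247 (.leaf 223 1791 (.cons 249 (.leaf 225 1797 (.cons 250 (.leaf 274 1976 (.cons 271 (.leaf 344 1983 (.leaf 251 1978 .nil)) .nil))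 .nil)) .nil)) (.cons 225 (.leaf 249 1797 (.cons 343 (.leaf 319 1982 (.cons 344 (.leaf 367 2174 (.cons 345 (.leaf 321 1988 (.leaf 369 2180 .nil)) .nil)) .nil)) .nil)) (.cons 223 (.leaf 247 1791 (.cons 343 (.leaf 319 1982 (.cons 344 (.leaf 367 2174 (.cons 345 (.leaf 321 1988 (.leaf 369 2180 .nil)) .nil)) .nil)) .nil)) (.cons 247 (.leaf 223 1791 (.cons 249 (.leaf 225 1797 (.cons 250 (.leaf 274 1976 (.cons 271 (.leaf 251 1978 (.leaf 270 1970 .nil)) .nil)) .nil)) .nil)) .nil)))) (.cons 320 (.cons 321 (.leaf 345 1988 (.cons 297 (.leaf 224 1796 (.cons 295 (.cons 247 (.leaf 223 1791 (.cons 249 (.leaf 225 1797 (.cons 322 (.leaf 294 2352 (.leaf 323 2363 .nil)) .nil)) .nil)) (.cons 247 (.leaf 223 1791 (.cons 249 (.leaf 225 1797 (.cons 271 (.leaf 344 1983 (.cons 270 (.leaf 269 2152 (.leaf 250 1970 .nil)) .nil)) .nil)) .nil)) (.cons 294 (.leaf 293 2344 (.leaf 322 2352 .nil)) .nil))) .nil)) .nil))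 (.cons 321 (.leaf 345 1988 (.cons 297 (.leaf 224 1796 (.cons 295 (.cons 294 (.leaf 293 2344 (.leaf 322 2352 .nil)) (.cons 298 (.leaf 274 2169 (.cons 271 (.leaf 299 2171 (.leaf 270 2163 .nil)) .nil)) .nil)) .nil)) .nil)) (.cons 247 (.leaf 223 1791 (.cons 249 (.leaf 225 1797 (.cons 250 (.leaf 274 1976 (.cons 271 (.leaf 344 1983 (.leaf 251 1978 .nil)) .nil)) .nil)) .nil)) (.cons 223 (.leaf 247 1791 (.cons 321 (.leaf 345 1988 (.cons 224 (.leaf 199 1599 (.leaf 297 1796 .nil)) .nil)) .nil)) .nil)))) (.cons 320 t127 (.cons 320 t126 (.cons 320 (.cons 223 (.leaf 247 1791 (.cons 224 (.leaf 199 1599 (.cons 321 (.leaf 297 1796 (.leaf 345 1988 .nil)) .nil)) .nil)) (.cons 319 (.leaf 343 1982 (.cons 223 (.leaf 247 1791 (.cons 224 (.leaf 199 1599 (.leaf 295 1790 .nil)) .nil)) .nil)) (.cons 225 (.leaf 249 1797 (.cons 319 (.leaf 343 1982 (.cons 224 (.leaf 295 1790 (.cons 321 (.leaf 297 1796 (.leaf 345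 1988 .nil)) .nil)) .nil)) .nil)) (.cons 223 (.leaf 247 1791 (.cons 343 (.leaf 319 1982 (.cons 225 (.leaf 249 1797 (.cons 344 (.leaf 367 2174 (.cons 345 (.leaf 321 1988 (.leaf 369 2180 .nil)) .nil)) .nil)) .nil)) .nil)) .nil)))) (.cons 320 t125 (.cons 320 (.cons 223 (.leaf 247 1791 (.cons 224 (.leaf 199 1599 (.cons 321 (.leaf 297 1796 (.leaf 345 1988 .nil)) .nil)) .nil)) (.cons 319 (.leaf 343 1982 (.cons 223 (.leaf 247 1791 (.cons 224 (.leaf 199 1599 (.leaf 295 1790 .nil)) .nil)) .nil)) (.cons 319 (.leaf 343 1982 (.cons 224 (.leaf 295 1790 (.cons 321 (.leaf 297 1796 (.leaf 345 1988 .nil)) .nil)) .nil)) (.cons 223 (.leaf 247 1791 (.cons 343 (.leaf 319 1982 (.cons 344 (.leaf 367 2174 (.cons 345 (.leaf 321 1988 (.leaf 369 2180 .nil)) .nil)) .nil)) .nil)) .nil)))) .nil))))))))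
noncomputable def top13 : T := .cons 224 (.cons 199 (.leaf 223 1599 (.cons 200 (.leaf 175 1407 (.cons 177 (.leaf 201 1413 (.cons 176 (.leaf 153 1221 (.cons 271 (.leaf 295 1598 (.leaf 247 1406 .nil)) .nil)) .nil)) .nil)) .nil)) (.cons 295 (.leaf 319 1790 (.cons 200 (.leaf 271 1598 (.cons 175 (.leaf 199 1407 (.cons 201 (.leaf 177 1413 (.leaf 225 1605 .nil)) .nil)) .nil)) .nil)) (.cons 199 (.leaf 223 1599 (.cons 200 (.leaf 175 1407 (.cons 201 (.leaf 177 1413 (.leaf 225 1605 .nil)) .nil)) .nil)) (.cons 295 (.leaf 319 1790 (.cons 271 (.leaf 200 1598 (.cons 297 (.leaf 321 1796 (.cons 270 (.leaf 269 2152 (.leaf 298 2163 .nil)) .nil)) .nil)) .nil)) (.cons 199 (.leaf 223 1599 (.cons 225 (.leaf 201 1605 (.cons 319 (.leaf 295 1790 (.cons 320 (.leaf 249 1797 (.leaf 343 1982 .nil)) .nil)) .nil)) .nil)) .nil))))) (.cons 320 (.cons 225 (.leaf 249 1797 (.cons 343 (.leaf 319 1982 (.cons 344 (.leaf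 367 2174 (.cons 345 (.leaf 321 1988 (.leaf 369 2180 .nil)) .nil)) .nil)) .nil)) (.cons 247 (.leaf 223 1791 (.cons 249 (.leaf 225 1797 (.cons 250 (.leaf 274 1976 (.cons 271 (.leaf 344 1983 (.leaf 251 1978 .nil)) .nil)) .nil)) .nil)) (.cons 223 (.leaf 247 1791 (.cons 343 (.leaf 319 1982 (.cons 344 (.leaf 367 2174 (.cons 345 (.leaf 321 1988 (.leaf 369 2180 .nil)) .nil)) .nil)) .nil)) (.cons 247 (.leaf 223 1791 (.cons 249 (.leaf 225 1797 (.cons 250 (.leaf 274 1976 (.cons 271 (.leaf 251 1978 (.leaf 270 1970 .nil)) .nil)) .nil)) .nil)) .nil)))) (.cons 224 t133 (.cons 320 (.cons 319 (.leaf 343 1982 (.cons 224 (.leaf 295 1790 (.cons 321 (.leaf 297 1796 (.leaf 345 1988 .nil)) .nil)) .nil)) (.cons 225 (.leaf 249 1797 (.cons 224 (.leaf 201 1605 (.cons 321 (.leaf 297 1796 (.leaf 345 1988 .nil)) .nil)) .nil)) (.cons 225 (.leaf 249 1797 (.cons 224 (.leaf 201 1605 (.cons 319 (.leaf 295 1790 (.leaf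 343 1982 .nil)) .nil)) .nil)) (.cons 343 (.leaf 319 1982 (.cons 344 (.leaf 367 2174 (.cons 345 (.leaf 321 1988 (.leaf 369 2180 .nil)) .nil)) .nil)) .nil)))) (.cons 224 (.cons 199 (.leaf 223 1599 (.cons 200 (.leaf 175 1407 (.cons 177 (.leaf 201 1413 (.cons 176 (.leaf 153 1221 (.cons 271 (.leaf 295 1598 (.leaf 247 1406 .nil)) .nil)) .nil)) .nil)) .nil)) (.cons 225 (.leaf 201 1605 (.cons 320 (.leaf 249 1797 (.cons 321 (.leaf 297 1796 (.leaf 345 1988 .nil)) .nil)) .nil)) (.cons 199 (.leaf 223 1599 (.cons 200 (.leaf 175 1407 (.cons 271 (.leaf 295 1598 (.cons 247 (.leaf 176 1406 (.cons 297 (.leaf 321 1796 (.cons 270 (.leaf 269 2152 (.cons 249 (.leaf 250 1970 (.cons 246 (.cons 245 (.leaf 244 1952 (.leaf 225 1769 .nil)) (.cons 221 (.leaf 222 1771 (.cons 245 (.leaf 244 1952 (.leaf 220 1763 .nil)) .nil)) (.cons 222 (.leaf 221 1771 (.cons 225 (.leaf 320 1797 (.leaf 226 1777 .nil)) .nil)) .nil)))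 .nil)) .nil)) .nil)) .nil)) .nil)) .nil)) .nil)) .nil))) (.cons 320 (.cons 223 (.leaf 247 1791 (.cons 224 (.leaf 199 1599 (.cons 321 (.leaf 297 1796 (.leaf 345 1988 .nil)) .nil)) .nil)) (.cons 343 (.leaf 319 1982 (.cons 344 (.leaf 367 2174 (.cons 345 (.leaf 321 1988 (.leaf 369 2180 .nil)) .nil)) .nil)) (.cons 223 (.leaf 247 1791 (.cons 224 (.leaf 199 1599 (.cons 319 (.leaf 295 1790 (.leaf 343 1982 .nil)) .nil)) .nil)) .nil))) (.cons 224 t132 .nil))))))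
noncomputable def top14 : T := .cons 224 t135 (.cons 320 (.cons 247 (.leaf 223 1791 (.cons 249 (.leaf 225 1797 (.cons 250 (.leaf 274 1976 (.cons 227 (.leaf 226 1785 (.cons 251 (.leaf 271 1978 (.leaf 228 1793 .nil)) .nil)) .nil)) .nil)) .nil)) (.cons 343 (.leaf 319 1982 (.cons 344 (.leaf 367 2174 (.cons 345 (.leaf 321 1988 (.leaf 369 2180 .nil)) .nil)) .nil)) .nil)) (.cons 224 (.cons 199 (.leaf 223 1599 (.cons 201 (.leaf 225 1605 (.cons 295 (.leaf 319 1790 (.cons 297 (.leaf 321 1796 (.cons 200 (.leaf 175 1407 (.leaf 177 1413 .nil)) .nil)) .nil)) .nil)) .nil)) (.cons 199 (.leaf 223 1599 (.cons 200 (.leaf 175 1407 (.cons 201 (.leaf 177 1413 (.leaf 225 1605 .nil)) .nil)) .nil)) (.cons 295 (.leaf 319 1790 (.cons 200 (.leaf 271 1598 (.cons 175 (.leaf 199 1407 (.cons 201 (.leaf 177 1413 (.leaf 225 1605 .nil)) .nil)) .nil)) .nil)) (.cons 295 (.leaf 319 1790 (.cons 271 (.leaf 200 1598 (.cons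 297 (.leaf 321 1796 (.cons 298 (.leaf 274 2169 (.leaf 299 2171 .nil)) .nil)) .nil)) .nil)) (.cons 223 (.leaf 199 1599 (.cons 201 (.leaf 225 1605 (.cons 295 (.leaf 319 1790 (.cons 297 (.leaf 321 1796 (.cons 298 (.leaf 274 2169 (.cons 299 (.leaf 271 2171 (.cons 323 (.leaf 322 2360 (.leaf 324 2368 .nil)) .nil)) .nil)) .nil)) .nil)) .nil)) .nil)) .nil))))) (.cons 320 (.cons 225 (.leaf 249 1797 (.cons 224 (.leaf 201 1605 (.cons 321 (.leaf 297 1796 (.leaf 345 1988 .nil)) .nil)) .nil)) (.cons 225 (.leaf 249 1797 (.cons 224 (.leaf 201 1605 (.cons 319 (.leaf 295 1790 (.leaf 343 1982 .nil)) .nil)) .nil)) (.cons 319 (.leaf 343 1982 (.cons 224 (.leaf 295 1790 (.cons 321 (.leaf 297 1796 (.leaf 345 1988 .nil)) .nil)) .nil)) (.cons 343 (.leaf 319 1982 (.cons 344 (.leaf 367 2174 (.cons 345 (.leaf 321 1988 (.leaf 369 2180 .nil)) .nil)) .nil)) .nil)))) (.cons 224 (.cons 199 (.leaf 223 1599 (.cons 200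 (.leaf 175 1407 (.cons 271 (.leaf 295 1598 (.cons 176 (.leaf 247 1406 (.cons 177 (.leaf 201 1413 (.leaf 153 1221 .nil)) .nil)) .nil)) .nil)) .nil)) (.cons 225 (.leaf 201 1605 (.cons 320 (.leaf 249 1797 (.cons 321 (.leaf 297 1796 (.leaf 345 1988 .nil)) .nil)) .nil)) (.cons 199 (.leaf 223 1599 (.cons 200 (.leaf 175 1407 (.cons 271 (.leaf 295 1598 (.cons 176 (.leaf 247 1406 (.cons 177 t134 .nil)) .nil)) .nil)) .nil)) .nil))) (.cons 320 (.cons 223 (.leaf 247 1791 (.cons 224 (.leaf 199 1599 (.cons 321 (.leaf 297 1796 (.leaf 345 1988 .nil)) .nil)) .nil)) (.cons 223 (.leaf 247 1791 (.cons 224 (.leaf 199 1599 (.cons 319 (.leaf 295 1790 (.leaf 343 1982 .nil)) .nil)) .nil)) (.cons 343 (.leaf 319 1982 (.cons 344 (.leaf 367 2174 (.cons 345 (.leaf 321 1988 (.leaf 369 2180 .nil)) .nil)) .nil)) .nil))) (.cons 224 (.cons 199 (.leaf 223 1599 (.cons 200 (.leaf 175 1407 (.cons 201 (.leaf 177 1413 (.leaf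 225 1605 .nil)) .nil)) .nil)) (.cons 225 (.leaf 201 1605 (.cons 249 (.leaf 320 1797 (.cons 295 (.leaf 319 1790 (.cons 200 (.leaf 271 1598 (.cons 175 (.leaf 199 1407 (.cons 176 (.leaf 151 1215 (.leaf 152 1220 .nil)) .nil)) .nil)) .nil)) .nil)) .nil)) (.cons 199 (.leaf 223 1599 (.cons 200 (.leaf 175 1407 (.cons 295 (.leaf 271 1598 (.leaf 319 1790 .nil)) .nil)) .nil)) (.cons 225 (.leaf 201 1605 (.cons 249 (.leaf 320 1797 (.cons 295 (.leaf 319 1790 (.cons 271 (.leaf 200 1598 (.cons 250 (.leaf 251 1978 (.cons 247 (.leaf 274 1976 (.cons 226 (.leaf 227 1785 (.leaf 246 1777 .nil)) .nil)) .nil)) .nil)) .nil)) .nil)) .nil)) (.cons 199 (.leaf 223 1599 (.cons 225 (.leaf 201 1605 (.cons 319 (.leaf 295 1790 (.cons 320 (.leaf 249 1797 (.leaf 343 1982 .nil)) .nil)) .nil)) .nil)) .nil))))) .nil))))))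
noncomputable def top15 : T := .cons 200 (.cons 201 (.leaf 177 1413 (.cons 295 (.leaf 271 1598 (.cons 296 (.leaf 225 1605 (.leaf 319 1790 .nil)) .nil)) .nil)) (.cons 199 (.leaf 175 1407 (.cons 271 (.leaf 295 1598 (.cons 176 (.leaf 247 1406 (.cons 153 (.leaf 177 1221 (.cons 152 (.leaf 129 1029 (.cons 127 (.leaf 151 1023 (.cons 128 (.leaf 103 831 (.leaf 223 1022 .nil)) .nil)) .nil)) .nil)) .nil)) .nil)) .nil)) (.cons 175 (.leaf 199 1407 (.cons 176 (.leaf 151 1215 (.cons 177 (.leaf 201 1413 (.leaf 153 1221 .nil)) .nil)) .nil)) (.cons 199 (.leaf 175 1407 (.cons 295 (.leaf 271 1598 (.cons 296 (.leaf 223 1599 (.leaf 319 1790 .nil)) .nil)) .nil)) .nil)))) (.cons 296 t140 (.cons 200 t139 (.cons 200 (.cons 177 (.leaf 201 1413 (.cons 176 (.leaf 153 1221 (.cons 271 (.leaf 295 1598 (.leaf 247 1406 .nil)) .nil)) .nil)) (.cons 175 (.leaf 199 1407 (.cons 176 (.leaf 151 1215 (.cons 271 (.leaf 295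 1598 (.leaf 247 1406 .nil)) .nil)) .nil)) (.cons 201 (.leaf 177 1413 (.cons 175 (.leaf 199 1407 (.cons 176 (.leaf 151 1215 (.cons 173 (.leaf 174 1384 (.cons 202 (.leaf 203 1403 (.cons 225 (.leaf 296 1605 (.cons 152 (.leaf 249 1220 (.leaf 128 1028 .nil)) .nil)) .nil)) .nil)) .nil)) .nil)) .nil)) (.cons 175 (.leaf 199 1407 (.cons 201 (.leaf 177 1413 (.cons 295 (.leaf 271 1598 (.cons 296 (.leaf 225 1605 (.leaf 319 1790 .nil)) .nil)) .nil)) .nil)) .nil)))) (.cons 200 (.cons 175 (.leaf 199 1407 (.cons 176 (.leaf 151 1215 (.cons 177 (.leaf 201 1413 (.leaf 153 1221 .nil)) .nil)) .nil)) (.cons 271 (.leaf 295 1598 (.cons 176 (.leaf 247 1406 (.cons 151 (.leaf 175 1215 (.cons 152 (.leaf 127 1023 (.cons 177 (.leaf 201 1413 (.leaf 153 1221 .nil)) .nil)) .nil)) .nil)) .nil)) (.cons 271 (.leaf 295 1598 (.cons 176 (.leaf 247 1406 (.cons 177 (.leaf 201 1413 (.leaf 153 1221 .nil)) .nil)) .nil)) (.cons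 175 (.leaf 199 1407 (.cons 176 (.leaf 151 1215 (.cons 271 (.leaf 295 1598 (.leaf 247 1406 .nil)) .nil)) .nil)) (.cons 177 (.leaf 201 1413 (.cons 199 (.leaf 175 1407 (.cons 295 (.leaf 271 1598 (.cons 296 (.leaf 223 1599 (.leaf 319 1790 .nil)) .nil)) .nil)) .nil)) .nil))))) (.cons 200 t138 (.cons 200 t137 (.cons 200 t136 (.cons 200 (.cons 201 (.leaf 177 1413 (.cons 295 (.leaf 271 1598 (.cons 296 (.leaf 225 1605 (.leaf 319 1790 .nil)) .nil)) .nil)) (.cons 199 (.leaf 175 1407 (.cons 295 (.leaf 271 1598 (.cons 296 (.leaf 223 1599 (.leaf 319 1790 .nil)) .nil)) .nil)) (.cons 175 (.leaf 199 1407 (.cons 176 (.leaf 151 1215 (.cons 177 (.leaf 201 1413 (.leaf 153 1221 .nil)) .nil)) .nil)) .nil))) .nil))))))))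
noncomputable def top16 : T := .cons 224 (.cons 199 (.leaf 223 1599 (.cons 225 (.leaf 201 1605 (.cons 319 (.leaf 295 1790 (.cons 320 (.leaf 249 1797 (.leaf 343 1982 .nil)) .nil)) .nil)) .nil)) (.cons 225 (.leaf 201 1605 (.cons 320 (.leaf 249 1797 (.cons 321 (.leaf 297 1796 (.leaf 345 1988 .nil)) .nil)) .nil)) (.cons 199 (.leaf 223 1599 (.cons 200 (.leaf 175 1407 (.cons 295 (.leaf 271 1598 (.leaf 319 1790 .nil)) .nil)) .nil)) .nil))) (.cons 320 t141 (.cons 224 (.cons 199 (.leaf 223 1599 (.cons 200 (.leaf 175 1407 (.cons 295 (.leaf 271 1598 (.leaf 319 1790 .nil)) .nil)) .nil)) (.cons 199 (.leaf 223 1599 (.cons 200 (.leaf 175 1407 (.cons 201 (.leaf 177 1413 (.leaf 225 1605 .nil)) .nil)) .nil)) (.cons 295 (.leaf 319 1790 (.cons 271 (.leaf 200 1598 (.cons 297 (.leaf 321 1796 (.cons 270 (.leaf 269 2152 (.leaf 298 2163 .nil)) .nil)) .nil)) .nil)) (.cons 223 (.leaf 199 1599 (.cons 225 (.leaf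 201 1605 (.cons 297 (.leaf 321 1796 (.cons 226 (.cons 251 (.leaf 250 1784 (.cons 202 (.leaf 203 1593 (.cons 227 (.leaf 299 1623 (.leaf 247 1786 .nil)) .nil)) .nil)) (.cons 251 (.leaf 250 1784 (.cons 202 (.leaf 203 1593 (.cons 227 (.leaf 299 1623 (.leaf 252 1792 .nil)) .nil)) .nil)) (.cons 246 (.leaf 247 1778 (.cons 222 (.leaf 245 1770 (.cons 249 (.leaf 221 1768 (.leaf 250 1776 .nil)) .nil)) .nil)) (.cons 247 (.leaf 227 1786 (.leaf 246 1778 .nil)) .nil)))) .nil)) .nil)) .nil)) .nil)))) (.cons 320 (.cons 225 (.leaf 249 1797 (.cons 321 (.leaf 345 1988 (.cons 343 (.leaf 319 1982 (.cons 344 (.leaf 367 2174 (.cons 271 (.leaf 247 1983 (.cons 295 (.leaf 368 2175 (.cons 294 (.leaf 293 2344 (.cons 342 (.leaf 341 2537 (.cons 322 (.leaf 297 2352 (.leaf 323 2554 .nil)) .nil)) .nil)) .nil)) .nil)) .nil)) .nil)) .nil)) .nil)) (.cons 321 (.leaf 345 1988 (.cons 224 (.leaf 297 1796 (.cons 225 (.leaf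 201 1605 (.leaf 249 1797 .nil)) .nil)) .nil)) (.cons 319 (.leaf 343 1982 (.cons 224 (.leaf 295 1790 (.cons 225 (.leaf 201 1605 (.leaf 249 1797 .nil)) .nil)) .nil)) (.cons 319 (.leaf 343 1982 (.cons 224 (.leaf 295 1790 (.cons 321 (.leaf 297 1796 (.leaf 345 1988 .nil)) .nil)) .nil)) .nil)))) (.cons 224 (.cons 199 (.leaf 223 1599 (.cons 225 (.leaf 201 1605 (.cons 320 (.leaf 249 1797 (.cons 321 (.leaf 297 1796 (.leaf 345 1988 .nil)) .nil)) .nil)) .nil)) (.cons 225 (.leaf 201 1605 (.cons 320 (.leaf 249 1797 (.cons 321 (.leaf 297 1796 (.leaf 345 1988 .nil)) .nil)) .nil)) (.cons 223 (.leaf 199 1599 (.cons 320 (.leaf 247 1791 (.cons 321 (.leaf 297 1796 (.leaf 345 1988 .nil)) .nil)) .nil)) (.cons 223 (.leaf 199 1599 (.cons 225 (.leaf 201 1605 (.cons 249 (.leaf 320 1797 (.cons 222 (.leaf 221 1768 (.leaf 250 1776 .nil)) .nil)) .nil)) .nil)) (.cons 199 (.leaf 223 1599 (.cons 200 (.leaf 175 1407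 (.cons 201 (.leaf 177 1413 (.leaf 225 1605 .nil)) .nil)) .nil)) .nil))))) (.cons 320 (.cons 223 (.leaf 247 1791 (.cons 224 (.leaf 199 1599 (.cons 321 (.leaf 297 1796 (.leaf 345 1988 .nil)) .nil)) .nil)) (.cons 223 (.leaf 247 1791 (.cons 224 (.leaf 199 1599 (.cons 319 (.leaf 295 1790 (.leaf 343 1982 .nil)) .nil)) .nil)) (.cons 319 (.leaf 343 1982 (.cons 224 (.leaf 295 1790 (.cons 321 (.leaf 297 1796 (.leaf 345 1988 .nil)) .nil)) .nil)) (.cons 223 (.leaf 247 1791 (.cons 343 (.leaf 319 1982 (.cons 344 (.leaf 367 2174 (.cons 345 (.leaf 321 1988 (.leaf 369 2180 .nil)) .nil)) .nil)) .nil)) .nil)))) (.cons 224 (.cons 199 (.leaf 223 1599 (.cons 200 (.leaf 175 1407 (.cons 295 (.leaf 271 1598 (.leaf 319 1790 .nil)) .nil)) .nil)) (.cons 201 (.leaf 225 1605 (.cons 200 (.leaf 177 1413 (.cons 295 (.leaf 271 1598 (.leaf 319 1790 .nil)) .nil)) .nil)) (.cons 223 (.leaf 199 1599 (.cons 225 (.leaf 201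 1605 (.cons 249 (.leaf 320 1797 (.cons 222 (.leaf 221 1768 (.leaf 250 1776 .nil)) .nil)) .nil)) .nil)) .nil))) .nil))))))

end Vale.Agent.P062.PB.N4D0
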