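import Vale.Agent.P062.Checker

namespace Vale.Agent.P062.PB.N5D0

open Vale.Agent.P062

noncomputable def t0 : T := .cons 224 (.leaf 200 1604 (.cons 296 (.leaf 321 1796 (.cons 223 (.leaf 199 1599 (.cons 225 (.leaf 201 1605 (.cons 247 (.leaf 320 1791 (.cons 246 (.leaf 245 1960 (.leaf 226 1778 .nil)) .nil)) .nil)) .nil)) .nil)) .nil)) (.cons 321 (.leaf 345 1991 (.cons 249 (.cons 320 (.leaf 344 1990 (.cons 225 (.leaf 296 1797 (.cons 322 (.leaf 298 1804 (.leaf 346 1996 .nil)) .nil)) .nil)) (.cons 250 (.leaf 226 1805 (.cons 251 (.leaf 271 1978 (.leaf 252 1986 .nil)) .nil)) .nil)) .nil)) (.cons 224 (.leaf 200 1604 (.cons 296 (.cons 223 (.leaf 199 1599 (.cons 225 (.leaf 201 1605 (.cons 247 (.leaf 320 1791 (.cons 246 (.leaf 245 1960 (.leaf 226 1778 .nil)) .nil)) .nil)) .nil)) (.cons 295 (.leaf 319 1790 (.cons 223 (.leaf 199 1599 (.cons 247 (.leaf 320 1791 (.cons 245 (.leaf 246 1960 (.cons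 294 (.leaf 293 2153 (.cons 318 (.leaf 317 2346 (.leaf 271 1782 .nil)) .nil)) .nil)) .nil)) .nil)) .nil)) (.cons 223 (.leaf 199 1599 (.cons 225 (.leaf 201 1605 (.cons 295 (.leaf 319 1790 (.cons 294 (.leaf 293 2153 (.cons 318 (.leaf 317 2346 (.cons 247 (.leaf 271 1782 (.cons 246 (.leaf 245 1960 (.leaf 226 1778 .nil)) .nil)) .nil)) .nil)) .nil)) .nil)) .nil)) (.cons 201 (.leaf 225 1605 (.cons 319 (.leaf 295 1790 (.cons 320 (.leaf 343 1982 (.cons 344 (.leaf 249 1989 (.leaf 368 2181 .nil)) .nil)) .nil)) .nil)) .nil)))) .nil)) (.cons 321 (.leaf 345 1991 (.cons 224 (.leaf 200 1604 (.leaf 249 1799 .nil)) .nil)) .nil)))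
noncomputable def t1 : T := .cons 274 (.leaf 247 1979 (.cons 251 (.leaf 252 1985 (.cons 271 (.leaf 250 1977 (.cons 295 (.leaf 296 2170 (.leaf 294 2162 .nil)) .nil)) .nil)) .nil)) (.cons 297 t0 (.cons 274 (.cons 295 (.leaf 296 2170 (.cons 271 (.leaf 294 2162 (.cons 299 (.leaf 300 2176 (.leaf 298 2168 .nil)) .nil)) .nil)) (.cons 251 (.leaf 252 1985 (.cons 299 (.leaf 300 2176 (.cons 298 (.leaf 271 2168 (.cons 227 (.leaf 203 1622 (.leaf 322 1814 .nil)) .nil)) .nil)) .nil)) (.cons 251 (.leaf 252 1985 (.cons 271 (.leaf 250 1977 (.cons 295 (.leaf 296 2170 (.leaf 294 2162 .nil)) .nil)) .nil)) (.cons 296 (.leaf 295 2170 (.cons 251 (.leaf 252 1985 (.cons 299 (.leaf 300 2176 (.cons 227 (.cons 202 (.leaf 226 1623 (.cons 178 (.leaf 203 1431 (.cons 228 (.leaf 204 1629 (.cons 249 (.leaf 250 1793 (.cons 225 (.leaf 201 1421 (.leaf 320 1797 .nil)) .nil)) .nil)) .nil)) .nil)) (.cons 298 (.leaf 203 1622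 (.leaf 322 1814 .nil)) (.cons 202 (.leaf 226 1623 (.cons 204 (.leaf 228 1629 (.cons 322 (.leaf 298 1814 (.cons 323 (.leaf 346 2006 (.cons 324 (.leaf 348 2012 (.cons 321 (.leaf 297 2371 (.cons 345 (.leaf 320 1988 (.leaf 344 2562 .nil)) .nil)) .nil)) .nil)) .nil)) .nil)) .nil)) .nil))) .nil)) .nil)) .nil)) .nil)))) (.cons 274 (.leaf 247 1979 (.cons 251 (.leaf 252 1985 (.cons 299 (.leaf 300 2176 (.cons 298 (.leaf 271 2168 (.cons 227 (.leaf 203 1622 (.leaf 322 1814 .nil)) .nil)) .nil)) .nil)) .nil)) (.cons 274 (.leaf 247 1979 (.cons 295 (.leaf 296 2170 (.cons 271 (.leaf 294 2162 (.cons 299 (.leaf 300 2176 (.leaf 298 2168 .nil)) .nil)) .nil)) .nil)) (.cons 274 (.leaf 247 1979 (.cons 296 (.leaf 295 2170 (.cons 251 (.leaf 252 1985 (.cons 299 (.leaf 300 2176 (.cons 227 (.cons 202 (.leaf 226 1623 (.cons 178 (.leaf 203 1431 (.cons 228 (.leaf 204 1629 (.cons 249 (.leaf 250 1793 (.cons 225 (.leaf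 201 1421 (.leaf 320 1797 .nil)) .nil)) .nil)) .nil)) .nil)) (.cons 298 (.leaf 203 1622 (.leaf 322 1814 .nil)) (.cons 202 (.leaf 226 1623 (.cons 204 (.leaf 228 1629 (.cons 322 (.leaf 298 1814 (.cons 323 (.leaf 346 2006 (.cons 324 (.leaf 348 2012 (.cons 321 (.leaf 297 2371 (.cons 345 (.leaf 320 1988 (.leaf 344 2562 .nil)) .nil)) .nil)) .nil)) .nil)) .nil)) .nil)) .nil))) .nil)) .nil)) .nil)) .nil)) .nil)))))
noncomputable def t2 : T := .leaf 245 1960 (.cons 249 (.cons 270 (.leaf 269 1962 (.cons 222 (.leaf 221 1771 (.cons 223 (.leaf 250 1779 (.cons 199 (.leaf 175 1404 (.leaf 294 1589 .nil)) .nil)) .nil)) .nil)) (.cons 222 (.leaf 221 1771 (.cons 250 (.leaf 223 1779 (.cons 251 (.leaf 271 1978 (.leaf 252 1986 .nil)) .nil)) .nil)) (.cons 270 (.leaf 269 1962 (.cons 250 (.leaf 271 1969 (.cons 251 (.leaf 252 1986 (.cons 224 (.leaf 223 1787 (.cons 200 (.leaf 297 1604 (.leaf 176 1412 .nil)) .nil))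 .nil)) .nil)) .nil)) (.cons 270 (.leaf 269 1962 (.cons 271 (.leaf 250 1969 (.cons 221 (.leaf 222 1771 (.cons 293 (.leaf 294 2154 (.cons 297 (.leaf 298 2160 (.cons 224 (.leaf 200 1604 (.leaf 321 1799 .nil)) .nil)) .nil)) .nil)) .nil)) .nil)) (.cons 270 (.leaf 269 1962 (.cons 222 (.leaf 221 1771 (.cons 223 (.cons 199 (.leaf 175 1404 (.leaf 294 1589 .nil)) (.cons 294 (.leaf 318 1781 (.cons 293 (.leaf 271 2154 (.leaf 317 1774 .nil)) .nil)) (.cons 199 (.leaf 175 1404 (.cons 296 (.leaf 224 1599 (.leaf 271 1596 .nil)) .nil)) .nil))) .nil)) .nil)) .nil))))) .nil)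
noncomputable def t3 : T := .cons 299 (.leaf 202 1620 (.cons 323 (.leaf 251 1815 (.leaf 347 2007 .nil)) .nil)) (.cons 298 (.cons 227 (.leaf 203 1621 (.cons 225 (.leaf 224 1786 (.leaf 201 1615 .nil)) .nil)) (.cons 201 (.leaf 225 1615 (.cons 299 (.leaf 323 1812 (.cons 321 (.leaf 297 1806 (.cons 322 (.leaf 345 1998 (.cons 346 (.leaf 251 2005 (.leaf 370 2197 .nil)) .nil)) .nil)) .nil)) .nil)) (.cons 203 (.leaf 227 1621 (.cons 299 (.leaf 323 1812 (.cons 321 (.leaf 297 1806 (.cons 322 (.leaf 345 1998 (.cons 346 (.leaf 251 2005 (.leaf 370 2197 .nil)) .nil)) .nil)) .nil)) .nil)) .nil))) (.cons 298 (.cons 201 (.leaf 225 1615 (.cons 177 (.leaf 202 1423 (.cons 203 (.leaf 227 1621 (.cons 321 (.leaf 297 1806 (.cons 322 (.leaf 345 1998 (.cons 346 (.leaf 251 2005 (.cons 347 (.leaf 323 2004 (.leaf 371 2196 .nil)) .nil)) .nil)) .nil)) .nil)) .nil)) .nil)) (.cons 201 (.leaf 225 1615 (.cons 177 (.leaf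 202 1423 (.cons 321 (.leaf 297 1806 (.cons 322 (.leaf 345 1998 (.cons 346 (.leaf 251 2005 (.cons 347 (.leaf 323 2004 (.leaf 371 2196 .nil)) .nil)) .nil)) .nil)) .nil)) .nil)) (.cons 203 (.leaf 227 1621 (.cons 179 (.leaf 202 1429 (.cons 321 (.leaf 297 1806 (.cons 322 (.leaf 345 1998 (.cons 346 (.leaf 251 2005 (.cons 347 (.leaf 323 2004 (.leaf 371 2196 .nil)) .nil)) .nil)) .nil)) .nil)) .nil)) (.cons 225 (.leaf 201 1615 (.cons 227 (.leaf 224 1786 (.leaf 203 1621 .nil)) .nil)) .nil)))) (.cons 202 (.leaf 299 1620 (.cons 177 (.leaf 201 1423 (.cons 178 (.leaf 153 1231 (.cons 179 (.leaf 203 1429 (.leaf 155 1237 .nil)) .nil)) .nil)) .nil)) .nil)))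
noncomputable def t4 : T := .cons 298 (.cons 203 (.leaf 227 1621 (.cons 299 (.leaf 202 1620 (.leaf 323 1812 .nil)) .nil)) (.cons 203 (.leaf 227 1621 (.cons 179 (.leaf 202 1429 (.cons 297 (.leaf 321 1806 (.cons 296 (.leaf 295 2169 (.cons 223 (.leaf 320 1791 (.cons 199 (.leaf 175 1404 (.leaf 224 1599 .nil)) .nil)) .nil)) .nil)) .nil)) .nil)) (.cons 201 (.leaf 225 1615 (.cons 177 (.leaf 202 1423 (.cons 297 (.leaf 321 1806 (.cons 296 (.leaf 295 2169 (.cons 223 (.leaf 320 1791 (.cons 199 (.leaf 175 1404 (.leaf 224 1599 .nil)) .nil)) .nil)) .nil)) .nil)) .nil)) (.cons 227 (.leaf 203 1621 (.cons 225 (.leaf 224 1786 (.leaf 201 1615 .nil)) .nil)) .nil)))) (.cons 298 (.cons 203 (.leaf 227 1621 (.cons 299 (.leaf 323 1812 (.cons 321 (.leaf 297 1806 (.cons 322 (.leaf 345 1998 (.cons 346 (.leaf 251 2005 (.leaf 370 2197 .nil)) .nil)) .nil)) .nil)) .nil)) (.cons 201 (.leaf 225 1615 (.cons 297 (.leaf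 321 1806 (.cons 296 (.leaf 295 2169 (.cons 299 (.leaf 271 2171 (.leaf 323 1812 .nil)) .nil)) .nil)) .nil)) (.cons 227 (.leaf 203 1621 (.cons 225 (.leaf 224 1786 (.leaf 201 1615 .nil)) .nil)) .nil))) (.cons 298 (.cons 201 (.leaf 225 1615 (.cons 177 (.leaf 202 1423 (.cons 297 (.leaf 321 1806 (.cons 296 (.leaf 295 2169 (.cons 223 (.leaf 320 1791 (.cons 199 (.leaf 175 1404 (.leaf 224 1599 .nil)) .nil)) .nil)) .nil)) .nil)) .nil)) (.cons 203 (.leaf 227 1621 (.cons 179 (.leaf 202 1429 (.cons 297 (.leaf 321 1806 (.cons 296 (.leaf 295 2169 (.cons 223 (.leaf 320 1791 (.cons 199 (.leaf 175 1404 (.leaf 224 1599 .nil)) .nil)) .nil)) .nil)) .nil)) .nil)) (.cons 227 (.leaf 203 1621 (.cons 225 (.leaf 224 1786 (.leaf 201 1615 .nil)) .nil)) (.cons 201 (.leaf 225 1615 (.cons 177 (.leaf 202 1423 (.cons 203 (.leaf 227 1621 (.cons 297 (.leaf 321 1806 (.cons 296 (.leaf 295 2169 (.cons 223 (.leaf 320 1791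 (.cons 199 (.leaf 175 1404 (.leaf 271 1596 .nil)) .nil)) .nil)) .nil)) .nil)) .nil)) .nil)) .nil)))) (.cons 202 (.leaf 299 1620 (.cons 177 (.leaf 201 1423 (.cons 178 (.leaf 251 1428 (.leaf 153 1231 .nil)) .nil)) .nil)) (.cons 299 (.leaf 202 1620 (.cons 323 (.leaf 251 1815 (.leaf 347 2007 .nil)) .nil)) .nil))))
noncomputable def t5 : T := .cons 246 (.cons 270 (.leaf 269 1962 (.cons 222 (.leaf 221 1771 (.cons 250 (.leaf 274 1976 (.leaf 223 1779 .nil)) .nil)) .nil)) (.cons 270 (.leaf 269 1962 (.cons 222 (.leaf 221 1771 (.cons 225 (.leaf 226 1777 (.cons 201 (.leaf 177 1414 (.cons 224 (.leaf 296 1605 (.leaf 245 1769 .nil)) .nil)) .nil)) .nil)) .nil)) (.cons 225 (.leaf 226 1777 (.cons 177 (.leaf 201 1414 (.cons 221 (.leaf 222 1771 (.cons 245 (.leaf 220 1763 (.leaf 224 1769 .nil)) .nil)) .nil)) .nil)) (.cons 225 (.leaf 226 1777 (.cons 177 (.leaf 201 1414 (.cons 245 (.leaf 224 1769 (.cons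 269 (.leaf 268 1954 (.leaf 270 1962 .nil)) .nil)) .nil)) .nil)) .nil)))) (.cons 246 (.cons 225 (.leaf 226 1777 (.cons 177 (.leaf 201 1414 (.cons 221 (.leaf 222 1771 (.cons 245 (.leaf 220 1763 (.leaf 224 1769 .nil)) .nil)) .nil)) .nil)) (.cons 269 (.leaf 270 1962 (.cons 221 (.leaf 222 1771 (.cons 245 (.leaf 220 1763 (.leaf 268 1954 .nil)) .nil)) .nil)) (.cons 225 (.leaf 226 1777 (.cons 177 (.leaf 201 1414 (.cons 245 (.leaf 224 1769 (.cons 269 (.leaf 268 1954 (.leaf 270 1962 .nil)) .nil)) .nil)) .nil)) (.cons 225 (.leaf 226 1777 (.cons 201 (.leaf 177 1414 (.cons 296 (.leaf 224 1605 (.leaf 320 1797 .nil)) .nil)) .nil)) .nil)))) (.cons 250 (.leaf 274 1976 (.cons 271 (.leaf 251 1978 (.leaf 270 1970 .nil)) .nil)) (.cons 250 (.leaf 274 1976 (.cons 222 (.leaf 223 1779 (.cons 226 (.leaf 227 1785 (.cons 246 (.leaf 221 1771 (.leaf 225 1777 .nil)) .nil)) .nil)) .nil)) .nil)))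
noncomputable def t6 : T := .cons 273 (.leaf 274 1979 (.cons 246 (.leaf 245 1960 (.cons 249 (.cons 222 (.leaf 221 1771 (.cons 250 (.leaf 223 1779 (.cons 251 (.leaf 271 1978 (.leaf 252 1986 .nil)) .nil)) .nil)) (.cons 225 (.leaf 226 1777 (.cons 201 (.leaf 177 1414 (.leaf 296 1606 .nil)) .nil)) .nil)) .nil)) .nil)) (.cons 249 t5 (.cons 223 (.cons 199 (.leaf 175 1404 (.cons 271 (.leaf 296 1596 (.cons 270 (.leaf 294 1590 (.cons 249 (.leaf 269 1961 (.leaf 250 1970 .nil)) .nil)) .nil)) .nil)) (.cons 296 (.leaf 320 1791 (.cons 224 (.cons 297 (.leaf 321 1796 (.cons 200 (.leaf 273 1604 (.cons 176 (.leaf 271 1406 (.leaf 152 1214 .nil)) .nil)) .nil)) (.cons 225 (.leaf 201 1605 (.cons 226 (.leaf 227 1786 (.leaf 246 1778 .nil)) .nil)) .nil)) .nil)) (.cons 199 (.leaf 175 1404 (.cons 271 (.cons 270 (.leaf 294 1590 (.cons 249 (.leaf 269 1961 (.leaf 250 1970 .nil)) .nil)) (.cons 200 (.leaf 176 1405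 (.cons 224 (.leaf 295 1597 (.cons 174 (.leaf 198 1399 (.cons 201 (.leaf 177 1413 (.cons 202 (.leaf 222 1586 (.leaf 203 1594 .nil)) .nil)) .nil)) .nil)) .nil)) .nil)) .nil)) (.cons 199 (.leaf 175 1404 (.cons 296 (.leaf 224 1599 (.leaf 320 1791 .nil)) .nil)) .nil)))) (.cons 273 (.leaf 274 1979 (.cons 246 (.leaf 245 1960 (.cons 223 (.cons 199 (.leaf 175 1404 (.cons 296 (.leaf 224 1599 (.leaf 271 1596 .nil)) .nil)) (.cons 296 (.leaf 320 1791 (.cons 224 (.cons 297 (.leaf 200 1604 (.leaf 321 1796 .nil)) (.cons 225 (.leaf 201 1605 (.leaf 226 1778 .nil)) .nil)) .nil)) (.cons 199 (.leaf 175 1404 (.cons 271 (.cons 174 (.leaf 198 1399 (.cons 200 (.leaf 176 1405 (.cons 224 (.leaf 295 1597 (.leaf 297 1604 .nil)) .nil)) .nil)) (.cons 270 (.leaf 294 1590 (.cons 198 (.leaf 174 1399 (.cons 269 (.leaf 268 1953 (.cons 293 (.leaf 292 2146 (.leaf 222 1582 .nil)) .nil)) .nil)) .nil)) (.cons 200 (.leaf 176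 1405 (.cons 224 (.leaf 295 1597 (.leaf 297 1604 .nil)) .nil)) .nil))) .nil)) (.cons 199 (.leaf 175 1404 (.cons 296 (.leaf 271 1596 (.leaf 320 1791 .nil)) .nil)) .nil)))) .nil)) .nil)) (.cons 273 (.leaf 274 1979 (.cons 246 (.leaf 245 1960 (.cons 249 (.cons 225 (.leaf 226 1777 (.cons 201 (.leaf 177 1414 (.leaf 296 1606 .nil)) .nil)) (.cons 270 (.leaf 269 1962 (.cons 250 (.leaf 271 1969 (.cons 227 (.leaf 226 1785 (.cons 251 (.leaf 252 1986 (.leaf 228 1793 .nil)) .nil)) .nil)) .nil)) (.cons 270 (.leaf 269 1962 (.cons 271 (.leaf 250 1969 (.cons 221 (.leaf 222 1771 (.cons 293 (.leaf 294 2154 (.cons 297 (.leaf 298 2160 (.cons 224 (.leaf 200 1604 (.leaf 321 1799 .nil)) .nil)) .nil)) .nil)) .nil)) .nil)) .nil))) .nil)) .nil)) (.cons 274 (.leaf 273 1979 (.cons 250 (.leaf 249 1976 (.cons 226 t4 .nil)) .nil)) (.cons 274 (.leaf 273 1979 (.cons 249 (.leaf 250 1976 (.cons 225 (.cons 246 (.leaf 226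 1777 (.cons 221 (.leaf 222 1771 (.cons 245 (.leaf 220 1763 (.leaf 224 1769 .nil)) .nil)) .nil)) (.cons 296 (.leaf 320 1797 (.cons 201 (.leaf 177 1414 (.leaf 224 1605 .nil)) .nil)) (.cons 246 (.leaf 226 1777 (.cons 177 (.leaf 201 1414 (.cons 221 (.leaf 222 1771 (.cons 245 (.leaf 220 1763 (.cons 269 (.leaf 268 1954 (.leaf 270 1962 .nil)) .nil)) .nil)) .nil)) .nil)) .nil))) .nil)) .nil)) (.cons 274 (.leaf 273 1979 (.cons 250 (.leaf 249 1976 (.cons 226 t3 .nil)) .nil)) (.cons 273 (.leaf 274 1979 (.cons 246 (.leaf 245 1960 (.cons 249 (.cons 270 (.leaf 269 1962 (.cons 250 (.leaf 271 1969 (.cons 251 (.leaf 252 1986 (.cons 224 (.leaf 223 1787 (.cons 200 (.leaf 297 1604 (.leaf 176 1412 .nil)) .nil)) .nil)) .nil)) .nil)) (.cons 222 (.leaf 221 1771 (.cons 250 (.leaf 223 1779 (.cons 251 (.leaf 271 1978 (.leaf 252 1986 .nil)) .nil)) .nil)) (.cons 270 (.leaf 269 1962 (.cons 222 (.leaf 221 1771 (.cons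 223 (.cons 199 (.leaf 175 1404 (.leaf 294 1589 .nil)) (.cons 294 (.leaf 318 1781 (.cons 293 (.leaf 271 2154 (.leaf 317 1774 .nil)) .nil)) (.cons 199 (.leaf 175 1404 (.cons 296 (.leaf 224 1599 (.leaf 271 1596 .nil)) .nil)) .nil))) .nil)) .nil)) (.cons 222 (.leaf 221 1771 (.cons 223 (.leaf 250 1779 (.cons 199 (.leaf 175 1404 (.cons 270 (.leaf 269 1962 (.leaf 294 1589 .nil)) .nil)) .nil)) .nil)) (.cons 270 (.leaf 269 1962 (.cons 250 (.leaf 271 1969 (.cons 227 (.leaf 226 1785 (.cons 251 (.leaf 252 1986 (.leaf 228 1793 .nil)) .nil)) .nil)) .nil)) .nil))))) .nil)) .nil)) (.cons 273 (.leaf 274 1979 (.cons 246 t2 .nil)) .nil)))))))))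
noncomputable def t7 : T := .cons 199 (.leaf 223 1599 (.cons 295 (.leaf 319 1790 (.cons 294 (.leaf 293 2153 (.cons 270 (.leaf 269 2155 (.cons 271 (.leaf 298 2160 (.cons 245 (.leaf 246 1963 (.cons 249 (.leaf 250 1969 (.cons 318 (.leaf 317 2346 (.cons 342 (.leaf 366 2165 (.leaf 247 1973 .nil)) .nil)) .nil)) .nil)) .nil)) .nil)) .nil)) .nil)) .nil)) (.cons 223 (.leaf 199 1599 (.cons 320 (.leaf 247 1791 (.cons 344 (.leaf 249 1989 (.leaf 368 2181 .nil)) .nil)) .nil)) (.cons 295 (.leaf 319 1790 (.cons 294 (.leaf 293 2153 (.cons 270 (.leaf 269 2155 (.cons 271 (.leaf 298 2160 (.cons 245 (.leaf 246 1963 (.cons 249 (.leaf 250 1969 (.cons 318 (.leaf 317 2346 (.cons 342 (.leaf 366 2165 (.leaf 247 1973 .nil)) .nil)) .nil)) .nil)) .nil)) .nil)) .nil)) .nil)) (.cons 199 (.leaf 223 1599 (.cons 295 (.leaf 319 1790 (.cons 294 (.leaf 293 2153 (.cons 270 (.leaf 269 2155 (.cons 271 (.leaf 298 2160 (.cons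 245 (.leaf 246 1963 (.cons 318 (.leaf 317 2346 (.cons 342 (.leaf 366 2165 (.leaf 247 1973 .nil)) .nil)) .nil)) .nil)) .nil)) .nil)) .nil)) .nil)) (.cons 199 (.leaf 223 1599 (.cons 295 (.leaf 319 1790 (.cons 294 (.leaf 293 2153 (.cons 270 (.leaf 269 2155 (.cons 298 (.leaf 271 2160 (.cons 299 (.leaf 300 2179 (.cons 323 (.leaf 322 2360 (.leaf 324 2368 .nil)) .nil)) .nil)) .nil)) .nil)) .nil)) .nil)) .nil))))
noncomputable def t8 : T := .cons 274 (.leaf 247 1979 (.cons 296 (.leaf 295 2170 (.cons 251 (.leaf 252 1985 (.cons 299 (.leaf 300 2176 (.cons 227 (.cons 202 (.leaf 226 1623 (.cons 204 (.leaf 228 1629 (.cons 322 (.leaf 298 1814 (.cons 323 (.leaf 346 2006 (.cons 324 (.leaf 348 2012 (.cons 321 (.leaf 297 2371 (.cons 345 (.leaf 320 1988 (.leaf 344 2562 .nil)) .nil)) .nil)) .nil)) .nil)) .nil)) .nil)) (.cons 202 (.leaf 226 1623 (.cons 178 (.leaf 203 1431 (.cons 228 (.leaf 204 1629 (.cons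 249 (.leaf 250 1793 (.cons 320 (.leaf 225 1797 (.leaf 344 1989 .nil)) .nil)) .nil)) .nil)) .nil)) (.cons 298 (.leaf 203 1622 (.leaf 322 1814 .nil)) .nil))) .nil)) .nil)) .nil)) .nil)) (.cons 297 (.cons 224 (.leaf 200 1604 (.cons 296 (.leaf 321 1796 (.cons 199 (.leaf 223 1599 (.cons 295 (.leaf 319 1790 (.cons 294 (.leaf 293 2153 (.cons 270 (.leaf 269 2155 (.cons 271 (.leaf 298 2160 (.cons 245 (.leaf 246 1963 (.cons 249 (.leaf 250 1969 (.cons 318 (.leaf 317 2346 (.cons 342 (.leaf 366 2165 (.leaf 247 1973 .nil)) .nil)) .nil)) .nil)) .nil)) .nil)) .nil)) .nil)) .nil)) .nil)) .nil)) (.cons 224 (.leaf 200 1604 (.cons 296 t7 .nil)) (.cons 321 (.leaf 345 1991 (.cons 249 (.cons 320 (.leaf 344 1990 (.cons 225 (.leaf 296 1797 (.cons 322 (.leaf 298 1804 (.leaf 346 1996 .nil)) .nil)) .nil)) (.cons 250 (.leaf 226 1805 (.cons 251 (.leaf 271 1978 (.leaf 252 1986 .nil)) .nil)) .nil)) .nil)) (.cons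 321 (.leaf 345 1991 (.cons 224 (.leaf 200 1604 (.leaf 249 1799 .nil)) .nil)) (.cons 321 (.leaf 345 1991 (.cons 224 (.leaf 200 1604 (.leaf 296 1796 .nil)) .nil)) .nil))))) (.cons 274 (.cons 251 (.leaf 252 1985 (.cons 271 (.leaf 250 1977 (.cons 295 (.leaf 296 2170 (.leaf 294 2162 .nil)) .nil)) .nil)) (.cons 295 (.leaf 296 2170 (.cons 271 (.leaf 294 2162 (.cons 299 (.leaf 300 2176 (.leaf 298 2168 .nil)) .nil)) .nil)) (.cons 251 (.leaf 252 1985 (.cons 299 (.leaf 300 2176 (.cons 298 (.leaf 271 2168 (.cons 227 (.leaf 203 1622 (.leaf 322 1814 .nil)) .nil)) .nil)) .nil)) (.cons 296 (.leaf 295 2170 (.cons 251 (.leaf 252 1985 (.cons 299 (.leaf 300 2176 (.cons 227 (.cons 202 (.leaf 226 1623 (.cons 204 (.leaf 228 1629 (.cons 322 (.leaf 298 1814 (.cons 323 (.leaf 346 2006 (.cons 324 (.leaf 348 2012 (.cons 321 (.leaf 297 2371 (.cons 345 (.leaf 320 1988 (.leaf 344 2562 .nil)) .nil)) .nil)) .nil))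 .nil)) .nil)) .nil)) (.cons 202 (.leaf 226 1623 (.cons 178 (.leaf 203 1431 (.cons 228 (.leaf 204 1629 (.cons 249 (.leaf 250 1793 (.cons 320 (.leaf 225 1797 (.leaf 344 1989 .nil)) .nil)) .nil)) .nil)) .nil)) (.cons 298 (.leaf 203 1622 (.leaf 322 1814 .nil)) .nil))) .nil)) .nil)) .nil)) .nil)))) (.cons 274 (.leaf 247 1979 (.cons 251 (.leaf 252 1985 (.cons 271 (.leaf 250 1977 (.cons 295 (.leaf 296 2170 (.leaf 294 2162 .nil)) .nil)) .nil)) .nil)) (.cons 274 (.leaf 247 1979 (.cons 251 (.leaf 252 1985 (.cons 299 (.leaf 300 2176 (.cons 298 (.leaf 271 2168 (.cons 227 (.leaf 203 1622 (.leaf 322 1814 .nil)) .nil)) .nil)) .nil)) .nil)) (.cons 274 (.leaf 247 1979 (.cons 295 (.leaf 296 2170 (.cons 271 (.leaf 294 2162 (.cons 299 (.leaf 300 2176 (.leaf 298 2168 .nil)) .nil)) .nil)) .nil)) .nil)))))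
noncomputable def t9 : T := .cons 270 (.leaf 269 1962 (.cons 222 (.leaf 221 1771 (.cons 223 (.leaf 250 1779 (.cons 199 (.leaf 175 1404 (.leaf 294 1589 .nil)) .nil)) .nil)) .nil)) (.cons 222 (.leaf 221 1771 (.cons 250 (.leaf 223 1779 (.cons 251 (.leaf 271 1978 (.leaf 252 1986 .nil)) .nil)) .nil)) (.cons 270 (.leaf 269 1962 (.cons 250 (.leaf 271 1969 (.cons 251 (.leaf 252 1986 (.cons 224 (.leaf 223 1787 (.cons 200 (.leaf 176 1412 (.cons 175 (.leaf 199 1407 (.cons 201 (.leaf 177 1413 (.cons 296 (.leaf 225 1605 (.cons 227 (.leaf 228 1793 (.cons 319 (.leaf 295 1790 (.cons 320 (.leaf 343 1982 (.leaf 344 1989 .nil)) .nil)) .nil)) .nil)) .nil)) .nil)) .nil)) .nil)) .nil)) .nil)) .nil)) (.cons 270 (.leaf 269 1962 (.cons 271 (.leaf 250 1969 (.cons 221 (.leaf 222 1771 (.cons 294 (.leaf 293 2154 (.cons 318 (.leaf 342 1973 (.cons 319 (.leaf 343 1972 (.cons 295 (.leaf 224 1789 (.cons 317 (.leaf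 341 1966 (.cons 316 (.leaf 315 2329 (.leaf 296 2337 .nil)) .nil)) .nil)) .nil)) .nil)) .nil)) .nil)) .nil)) .nil)) (.cons 270 (.leaf 269 1962 (.cons 222 (.leaf 221 1771 (.cons 223 (.cons 199 (.leaf 175 1404 (.leaf 294 1589 .nil)) (.cons 294 (.leaf 318 1781 (.cons 293 (.leaf 271 2154 (.leaf 317 1774 .nil)) .nil)) (.cons 199 (.leaf 175 1404 (.cons 296 (.leaf 224 1599 (.leaf 271 1596 .nil)) .nil)) .nil))) .nil)) .nil)) .nil))))
noncomputable def t10 : T := .leaf 274 1979 (.cons 246 (.leaf 245 1960 (.cons 249 (.cons 222 (.leaf 221 1771 (.cons 250 (.leaf 223 1779 (.cons 251 (.leaf 271 1978 (.leaf 252 1986 .nil)) .nil)) .nil)) (.cons 225 (.leaf 226 1777 (.cons 177 (.leaf 201 1414 (.cons 270 (.leaf 269 1962 (.cons 271 (.leaf 250 1969 (.cons 294 (.leaf 293 2154 (.cons 223 (.leaf 199 1590 (.leaf 318 1781 .nil)) .nil)) .nil)) .nil)) .nil)) .nil)) (.cons 222 (.leaf 221 1771 (.cons 225 (.leaf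 226 1777 (.cons 201 (.leaf 177 1414 (.cons 200 (.leaf 176 1415 (.cons 202 (.leaf 178 1421 (.cons 199 (.leaf 223 1586 (.cons 174 (.leaf 175 1395 (.cons 198 (.leaf 271 1396 (.leaf 173 1387 .nil)) .nil)) .nil)) .nil)) .nil)) .nil)) .nil)) .nil)) (.cons 222 (.leaf 221 1771 (.cons 225 (.leaf 226 1777 (.cons 201 (.leaf 177 1414 (.cons 202 (.leaf 178 1421 (.cons 223 (.leaf 250 1779 (.leaf 224 1585 .nil)) .nil)) .nil)) .nil)) .nil)) (.cons 270 (.leaf 269 1962 (.cons 250 (.leaf 271 1969 (.cons 227 (.leaf 226 1785 (.cons 251 (.leaf 252 1986 (.leaf 228 1793 .nil)) .nil)) .nil)) .nil)) .nil))))) .nil)) .nil)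
noncomputable def t11 : T := .cons 199 (.leaf 175 1404 (.cons 296 (.leaf 224 1599 (.leaf 271 1596 .nil)) .nil)) (.cons 296 (.leaf 320 1791 (.cons 224 (.cons 295 (.leaf 319 1790 (.cons 200 (.leaf 271 1597 (.cons 176 (.leaf 152 1214 (.cons 177 (.leaf 201 1413 (.leaf 153 1221 .nil)) .nil)) .nil)) .nil)) (.cons 225 (.leaf 201 1605 (.cons 226 (.leaf 227 1786 (.leaf 251 1784 .nil)) .nil)) (.cons 295 (.leaf 319 1790 (.cons 271 (.leaf 200 1597 (.cons 222 (.leaf 198 1591 (.cons 221 (.leaf 220 1760 (.cons 197 (.leaf 196 1571 (.cons 294 (.leaf 318 1782 (.cons 245 (.leaf 244 1762 (.cons 269 (.leaf 270 1580 (.cons 268 (.leaf 293 2147 (.leaf 292 1574 .nil)) .nil)) .nil)) .nil)) .nil)) .nil)) .nil)) .nil)) .nil)) .nil))) .nil)) (.cons 199 (.leaf 175 1404 (.cons 271 (.cons 176 (.leaf 200 1405 (.cons 294 (.leaf 270 1590 (.cons 295 (.leaf 318 1782 (.cons 319 (.leaf 343 1981 (.leaf 224 1789 .nil)) .nil))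 .nil)) .nil)) (.cons 198 (.leaf 174 1399 (.cons 270 (.leaf 294 1590 (.cons 269 (.leaf 268 1953 (.cons 245 (.leaf 244 1955 (.cons 293 (.leaf 292 2146 (.cons 221 (.leaf 222 1581 (.cons 196 (.leaf 220 1575 (.cons 197 (.leaf 224 1568 (.leaf 172 1383 .nil)) .nil)) .nil)) .nil)) .nil)) .nil)) .nil)) .nil)) (.cons 176 (.leaf 200 1405 (.cons 198 (.leaf 174 1399 (.cons 222 (.leaf 295 1591 (.cons 270 (.leaf 294 1590 (.cons 269 (.leaf 268 1953 (.cons 221 (.leaf 220 1760 (.cons 245 (.leaf 244 1955 (.leaf 293 1581 .nil)) .nil)) .nil)) .nil)) .nil)) .nil)) .nil)) (.cons 174 (.leaf 198 1399 (.cons 200 (.leaf 176 1405 (.cons 224 (.leaf 295 1597 (.cons 201 (.leaf 177 1413 (.cons 202 (.leaf 222 1586 (.leaf 203 1594 .nil)) .nil)) .nil)) .nil)) .nil)) .nil)))) .nil)) (.cons 199 (.leaf 175 1404 (.cons 296 (.leaf 271 1596 (.leaf 320 1791 .nil)) .nil)) (.cons 199 (.leaf 175 1404 (.cons 296 (.leaf 224 1599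 (.leaf 320 1791 .nil)) .nil)) .nil))))
noncomputable def t12 : T := .cons 199 (.leaf 175 1404 (.cons 296 (.leaf 224 1599 (.leaf 271 1596 .nil)) .nil)) (.cons 296 (.leaf 320 1791 (.cons 224 (.cons 225 (.leaf 201 1605 (.leaf 226 1778 .nil)) (.cons 295 (.leaf 319 1790 (.cons 200 (.leaf 271 1597 (.cons 176 (.leaf 152 1214 (.cons 177 (.leaf 201 1413 (.leaf 153 1221 .nil)) .nil)) .nil)) .nil)) (.cons 225 (.leaf 226 1778 (.cons 295 (.leaf 319 1790 (.cons 271 (.leaf 200 1597 (.cons 294 (.leaf 293 2153 (.leaf 318 1782 .nil)) .nil)) .nil)) .nil)) .nil))) .nil)) (.cons 199 (.leaf 175 1404 (.cons 271 (.cons 174 (.leaf 198 1399 (.cons 294 (.leaf 270 1590 (.cons 295 (.leaf 318 1782 (.cons 319 (.leaf 343 1981 (.leaf 224 1789 .nil)) .nil)) .nil)) .nil)) (.cons 200 (.leaf 176 1405 (.cons 224 (.leaf 295 1597 (.cons 201 (.leaf 177 1413 (.cons 202 (.leaf 222 1586 (.leaf 203 1594 .nil)) .nil)) .nil)) .nil))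 (.cons 270 (.leaf 294 1590 (.cons 198 (.leaf 174 1399 (.cons 269 (.leaf 268 1953 (.cons 293 (.leaf 292 2146 (.leaf 222 1582 .nil)) .nil)) .nil)) .nil)) .nil))) .nil)) (.cons 199 (.leaf 175 1404 (.cons 296 (.leaf 271 1596 (.leaf 320 1791 .nil)) .nil)) (.cons 199 (.leaf 175 1404 (.cons 296 (.leaf 224 1599 (.leaf 320 1791 .nil)) .nil)) .nil))))
noncomputable def t13 : T := .cons 199 (.leaf 175 1404 (.cons 296 (.leaf 224 1599 (.leaf 271 1596 .nil)) .nil)) (.cons 296 (.leaf 320 1791 (.cons 224 (.cons 295 (.leaf 319 1790 (.cons 271 (.leaf 200 1597 (.cons 198 (.leaf 222 1591 (.cons 294 (.leaf 318 1782 (.cons 293 (.leaf 292 2145 (.cons 269 (.leaf 268 2147 (.cons 249 (.leaf 270 1961 (.cons 250 (.leaf 274 1976 (.leaf 251 1978 .nil)) .nil)) .nil)) .nil)) .nil)) .nil)) .nil)) .nil)) (.cons 225 (.leaf 201 1605 (.cons 226 (.leaf 227 1786 (.leaf 246 1778 .nil)) .nil)) .nil)) .nil)) (.cons 199 (.leaf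 175 1404 (.cons 271 (.cons 270 (.leaf 294 1590 (.cons 249 (.leaf 269 1961 (.leaf 250 1970 .nil)) .nil)) (.cons 198 (.leaf 174 1399 (.cons 222 (.leaf 295 1591 (.cons 221 (.leaf 220 1760 (.cons 249 (.leaf 224 1768 (.leaf 246 1771 .nil)) .nil)) .nil)) .nil)) (.cons 174 (.leaf 198 1399 (.cons 200 (.leaf 176 1405 (.cons 224 (.leaf 295 1597 (.cons 201 (.leaf 177 1413 (.cons 202 (.leaf 222 1586 (.leaf 203 1594 .nil)) .nil)) .nil)) .nil)) .nil)) .nil))) .nil)) (.cons 199 (.leaf 175 1404 (.cons 296 (.leaf 271 1596 (.leaf 320 1791 .nil)) .nil)) (.cons 199 (.leaf 175 1404 (.cons 296 (.leaf 224 1599 (.leaf 320 1791 .nil)) .nil)) .nil))))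
noncomputable def t14 : T := .cons 296 (.leaf 320 1791 (.cons 199 (.leaf 175 1404 (.leaf 224 1599 .nil)) .nil)) (.cons 296 (.leaf 320 1791 (.cons 224 (.cons 201 (.leaf 225 1605 (.cons 200 (.leaf 177 1413 (.cons 176 (.leaf 271 1406 (.leaf 152 1214 .nil)) .nil)) .nil)) (.cons 295 (.leaf 319 1790 (.cons 200 (.leaf 271 1597 (.cons 176 (.leaf 152 1214 (.cons 177 (.leaf 201 1413 (.leaf 153 1221 .nil)) .nil)) .nil)) .nil)) (.cons 295 (.leaf 319 1790 (.cons 200 (.leaf 271 1597 (.cons 176 (.leaf 152 1214 (.cons 151 (.leaf 175 1215 (.cons 153 (.leaf 177 1221 (.cons 249 (.leaf 273 1412 (.cons 222 (.leaf 221 1768 (.leaf 250 1779 .nil)) .nil)) .nil)) .nil)) .nil)) .nil)) .nil)) (.cons 225 (.leaf 201 1605 (.cons 226 (.leaf 227 1786 (.leaf 246 1778 .nil)) .nil)) .nil)))) .nil)) (.cons 199 (.leaf 175 1404 (.cons 271 (.cons 270 (.leaf 294 1590 (.cons 249 (.leaf 269 1961 (.leaf 250 1970 .nil)) .nil))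 (.cons 198 (.leaf 174 1399 (.cons 222 (.leaf 295 1591 (.cons 221 (.leaf 220 1760 (.cons 249 (.leaf 224 1768 (.leaf 246 1771 .nil)) .nil)) .nil)) .nil)) (.cons 174 (.leaf 198 1399 (.cons 176 (.leaf 200 1405 (.cons 270 (.leaf 294 1590 (.cons 269 (.leaf 268 1953 (.cons 245 (.leaf 244 1955 (.cons 246 (.leaf 273 1960 (.cons 220 (.leaf 221 1763 (.cons 293 (.leaf 292 2146 (.cons 317 (.leaf 341 1965 (.leaf 222 1773 .nil)) .nil)) .nil)) .nil)) .nil)) .nil)) .nil)) .nil)) .nil)) .nil))) .nil)) (.cons 199 (.leaf 175 1404 (.cons 296 (.leaf 271 1596 (.leaf 320 1791 .nil)) .nil)) (.cons 296 (.leaf 320 1791 (.cons 199 (.leaf 224 1599 (.leaf 271 1596 .nil)) .nil)) .nil))))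
noncomputable def t15 : T := .cons 273 (.leaf 274 1979 (.cons 246 (.leaf 245 1960 (.cons 249 (.cons 222 (.leaf 221 1771 (.cons 250 (.leaf 223 1779 (.cons 251 (.leaf 271 1978 (.leaf 252 1986 .nil)) .nil)) .nil)) (.cons 222 (.leaf 221 1771 (.cons 225 (.leaf 226 1777 (.cons 201 (.leaf 177 1414 (.leaf 296 1606 .nil)) .nil)) .nil)) (.cons 225 (.leaf 226 1777 (.cons 201 (.leaf 177 1414 (.leaf 296 1606 .nil)) .nil)) .nil))) .nil)) .nil)) (.cons 223 t14 (.cons 223 t13 (.cons 273 (.leaf 274 1979 (.cons 246 (.leaf 245 1960 (.cons 223 t12 .nil)) .nil)) (.cons 273 (.leaf 274 1979 (.cons 246 (.leaf 245 1960 (.cons 249 (.cons 225 (.leaf 226 1777 (.cons 201 (.leaf 177 1414 (.leaf 296 1606 .nil)) .nil)) (.cons 270 (.leaf 269 1962 (.cons 271 (.leaf 250 1969 (.cons 221 (.leaf 222 1771 (.cons 294 (.leaf 293 2154 (.cons 318 (.leaf 342 1973 (.cons 319 (.leaf 343 1972 (.cons 295 (.leaf 224 1789 (.cons 317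 (.leaf 341 1966 (.cons 316 (.leaf 315 2329 (.leaf 296 2337 .nil)) .nil)) .nil)) .nil)) .nil)) .nil)) .nil)) .nil)) .nil)) (.cons 221 (.leaf 222 1771 (.cons 226 (.leaf 225 1777 (.cons 250 (.leaf 227 1785 (.cons 251 (.leaf 271 1978 (.leaf 252 1986 .nil)) .nil)) .nil)) .nil)) .nil))) .nil)) .nil)) (.cons 274 (.leaf 273 1979 (.cons 249 (.leaf 250 1976 (.cons 225 (.cons 177 (.leaf 201 1414 (.cons 226 (.leaf 246 1777 (.cons 227 (.leaf 224 1786 (.leaf 228 1794 .nil)) .nil)) .nil)) (.cons 201 (.leaf 177 1414 (.cons 296 (.leaf 224 1605 (.leaf 320 1797 .nil)) .nil)) (.cons 246 (.leaf 226 1777 (.cons 221 (.leaf 222 1771 (.cons 245 (.leaf 220 1763 (.leaf 224 1769 .nil)) .nil)) .nil)) (.cons 246 (.leaf 226 1777 (.cons 177 (.leaf 201 1414 (.cons 221 (.leaf 222 1771 (.cons 245 (.leaf 220 1763 (.cons 269 (.leaf 268 1954 (.leaf 270 1962 .nil)) .nil)) .nil)) .nil)) .nil)) .nil)))) .nil)) .nil)) (.cons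 274 (.leaf 273 1979 (.cons 250 (.leaf 249 1976 (.cons 223 t11 .nil)) .nil)) (.cons 273 t10 (.cons 273 (.leaf 274 1979 (.cons 246 (.leaf 245 1960 (.cons 249 (.cons 270 (.leaf 269 1962 (.cons 222 (.leaf 221 1771 (.cons 223 (.leaf 250 1779 (.cons 199 (.leaf 175 1404 (.leaf 294 1589 .nil)) .nil)) .nil)) .nil)) (.cons 222 (.leaf 221 1771 (.cons 250 (.leaf 223 1779 (.cons 251 (.leaf 271 1978 (.leaf 252 1986 .nil)) .nil)) .nil)) (.cons 270 (.leaf 269 1962 (.cons 250 (.leaf 271 1969 (.cons 227 (.leaf 226 1785 (.cons 251 (.leaf 252 1986 (.leaf 228 1793 .nil)) .nil)) .nil)) .nil)) (.cons 270 (.leaf 269 1962 (.cons 222 (.leaf 221 1771 (.cons 223 (.cons 199 (.leaf 175 1404 (.leaf 294 1589 .nil)) (.cons 294 (.leaf 318 1781 (.cons 293 (.leaf 271 2154 (.leaf 317 1774 .nil)) .nil)) (.cons 199 (.leaf 175 1404 (.cons 296 (.leaf 224 1599 (.leaf 271 1596 .nil)) .nil)) .nil))) .nil)) .nil)) .nil)))) .nil))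 .nil)) (.cons 273 (.leaf 274 1979 (.cons 246 (.leaf 245 1960 (.cons 249 (.cons 270 (.leaf 269 1962 (.cons 250 (.leaf 271 1969 (.cons 227 (.leaf 226 1785 (.cons 251 (.leaf 252 1986 (.leaf 228 1793 .nil)) .nil)) .nil)) .nil)) (.cons 225 (.leaf 226 1777 (.cons 201 (.leaf 177 1414 (.leaf 296 1606 .nil)) .nil)) (.cons 270 (.leaf 269 1962 (.cons 250 (.leaf 271 1969 (.cons 251 (.leaf 252 1986 (.cons 224 (.leaf 223 1787 (.cons 200 (.leaf 176 1412 (.cons 175 (.leaf 199 1407 (.cons 201 (.leaf 177 1413 (.cons 296 (.leaf 225 1605 (.cons 227 (.leaf 228 1793 (.cons 319 (.leaf 295 1790 (.cons 320 (.leaf 343 1982 (.leaf 344 1989 .nil)) .nil)) .nil)) .nil)) .nil)) .nil)) .nil)) .nil)) .nil)) .nil)) .nil)) .nil))) .nil)) .nil)) (.cons 273 (.leaf 274 1979 (.cons 246 (.leaf 245 1960 (.cons 249 t9 .nil)) .nil)) .nil))))))))))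
noncomputable def t16 : T := .cons 225 (.leaf 201 1605 (.cons 199 (.leaf 223 1599 (.cons 320 (.leaf 249 1797 (.cons 343 (.leaf 319 1982 (.cons 344 (.leaf 367 2174 (.cons 345 (.leaf 321 1988 (.leaf 369 2180 .nil)) .nil)) .nil)) .nil)) .nil)) .nil)) (.cons 321 (.leaf 297 1796 (.cons 295 (.leaf 319 1790 (.cons 293 (.leaf 294 2153 (.cons 320 (.leaf 345 1988 (.cons 322 (.leaf 323 2363 (.cons 344 (.leaf 249 1989 (.cons 271 (.leaf 247 1983 (.leaf 368 2175 .nil)) .nil)) .nil)) .nil)) .nil)) .nil)) .nil)) (.cons 225 (.leaf 201 1605 (.cons 199 (.leaf 223 1599 (.cons 320 (.leaf 249 1797 (.cons 343 (.leaf 319 1982 (.cons 344 (.leaf 367 2174 (.cons 247 (.leaf 271 1983 (.cons 245 (.leaf 246 1960 (.cons 226 (.leaf 227 1786 (.cons 368 (.leaf 297 2181 (.cons 369 (.leaf 345 2180 (.leaf 393 2372 .nil)) .nil)) .nil)) .nil)) .nil)) .nil)) .nil)) .nil)) .nil)) .nil)) (.cons 297 (.leaf 321 1796 (.cons 199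 (.leaf 223 1599 (.cons 295 (.leaf 319 1790 (.cons 294 (.leaf 293 2153 (.cons 270 (.leaf 269 2155 (.cons 271 (.leaf 298 2160 (.cons 245 (.leaf 246 1963 (.cons 318 (.leaf 317 2346 (.cons 342 (.leaf 366 2165 (.leaf 247 1973 .nil)) .nil)) .nil)) .nil)) .nil)) .nil)) .nil)) .nil)) .nil)) (.cons 297 (.leaf 321 1796 (.cons 225 (.leaf 201 1605 (.cons 223 (.leaf 199 1599 (.cons 247 (.leaf 320 1791 (.cons 246 (.leaf 245 1960 (.leaf 226 1778 .nil)) .nil)) .nil)) .nil)) .nil)) .nil))))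
noncomputable def t17 : T := .cons 296 (.cons 225 (.leaf 201 1605 (.cons 297 (.leaf 200 1604 (.leaf 321 1796 .nil)) .nil)) (.cons 225 (.leaf 201 1605 (.cons 199 (.leaf 223 1599 (.cons 320 (.leaf 249 1797 (.cons 343 (.leaf 319 1982 (.cons 344 (.leaf 367 2174 (.cons 345 (.leaf 321 1988 (.leaf 369 2180 .nil)) .nil)) .nil)) .nil)) .nil)) .nil)) (.cons 200 (.leaf 297 1604 (.cons 199 (.leaf 175 1407 (.leaf 223 1599 .nil)) .nil)) .nil))) (.cons 296 t16 (.cons 200 (.cons 176 (.leaf 249 1412 (.cons 177 (.leaf 201 1413 (.leaf 153 1221 .nil)) .nil)) (.cons 199 (.leaf 175 1407 (.cons 177 (.leaf 201 1413 (.cons 295 (.leaf 271 1598 (.cons 296 (.leaf 223 1599 (.leaf 319 1790 .nil)) .nil)) .nil)) .nil)) (.cons 175 (.leaf 199 1407 (.cons 176 (.leaf 151 1215 (.leaf 249 1412 .nil)) .nil)) .nil))) (.cons 200 (.leaf 297 1604 (.cons 176 (.leaf 249 1412 (.cons 177 (.leaf 201 1413 (.leaf 153 1221 .nil)) .nil))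 .nil)) (.cons 200 (.leaf 297 1604 (.cons 199 (.leaf 175 1407 (.cons 177 (.leaf 201 1413 (.cons 295 (.leaf 271 1598 (.cons 296 (.leaf 223 1599 (.leaf 319 1790 .nil)) .nil)) .nil)) .nil)) .nil)) (.cons 296 (.cons 297 (.leaf 200 1604 (.leaf 321 1796 .nil)) (.cons 295 (.leaf 319 1790 (.cons 199 (.leaf 223 1599 (.cons 200 (.leaf 175 1407 (.leaf 271 1598 .nil)) .nil)) .nil)) (.cons 297 (.leaf 321 1796 (.cons 199 (.leaf 223 1599 (.cons 295 (.leaf 319 1790 (.cons 294 (.leaf 293 2153 (.cons 270 (.leaf 269 2155 (.cons 271 (.leaf 298 2160 (.cons 245 (.leaf 246 1963 (.cons 318 (.leaf 317 2346 (.cons 342 (.leaf 366 2165 (.leaf 247 1973 .nil)) .nil)) .nil)) .nil)) .nil)) .nil)) .nil)) .nil)) .nil)) .nil))) .nil)))))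
noncomputable def t18 : T := .cons 296 (.cons 321 (.leaf 297 1796 (.cons 295 (.leaf 274 2170 (.leaf 319 1790 .nil)) .nil)) (.cons 274 (.leaf 247 1979 (.leaf 295 2170 .nil)) (.cons 297 (.leaf 200 1604 (.leaf 321 1796 .nil)) .nil))) (.cons 296 (.cons 274 (.leaf 247 1979 (.leaf 295 2170 .nil)) (.cons 297 (.leaf 321 1796 (.cons 199 (.leaf 223 1599 (.cons 295 (.leaf 319 1790 (.cons 294 (.leaf 293 2153 (.cons 270 (.leaf 269 2155 (.cons 271 (.leaf 298 2160 (.cons 245 (.leaf 246 1963 (.cons 318 (.leaf 317 2346 (.cons 342 (.leaf 366 2165 (.leaf 247 1973 .nil)) .nil)) .nil)) .nil)) .nil)) .nil)) .nil)) .nil)) .nil)) (.cons 297 (.leaf 321 1796 (.cons 225 (.leaf 201 1605 (.cons 223 (.leaf 199 1599 (.cons 247 (.leaf 274 1979 (.leaf 320 1791 .nil)) .nil)) .nil)) .nil)) (.cons 295 (.leaf 274 2170 (.leaf 319 1790 .nil)) .nil)))) (.cons 200 (.cons 176 (.leaf 249 1412 (.cons 177 (.leaf 201 1413 (.leaf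 153 1221 .nil)) .nil)) (.cons 199 (.leaf 175 1407 (.cons 177 (.leaf 201 1413 (.cons 295 (.leaf 271 1598 (.cons 296 (.leaf 274 2170 (.leaf 223 1599 .nil)) .nil)) .nil)) .nil)) (.cons 175 (.leaf 199 1407 (.cons 176 (.leaf 151 1215 (.leaf 249 1412 .nil)) .nil)) .nil))) (.cons 296 (.cons 297 (.leaf 200 1604 (.leaf 321 1796 .nil)) (.cons 225 (.leaf 201 1605 (.cons 199 (.leaf 223 1599 (.cons 320 (.leaf 249 1797 (.cons 343 (.leaf 319 1982 (.cons 344 (.leaf 367 2174 (.cons 345 (.leaf 321 1988 (.leaf 369 2180 .nil)) .nil)) .nil)) .nil)) .nil)) .nil)) (.cons 200 (.leaf 297 1604 (.cons 199 (.leaf 175 1407 (.leaf 223 1599 .nil)) .nil)) .nil))) (.cons 200 (.leaf 297 1604 (.cons 176 (.leaf 249 1412 (.cons 177 (.leaf 201 1413 (.leaf 153 1221 .nil)) .nil)) .nil)) .nil))))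
noncomputable def t19 : T := .cons 224 t18 (.cons 224 t17 (.cons 274 (.cons 295 (.leaf 296 2170 (.cons 271 (.leaf 294 2162 (.cons 299 (.leaf 300 2176 (.leaf 298 2168 .nil)) .nil)) .nil)) (.cons 251 (.leaf 252 1985 (.cons 299 (.leaf 300 2176 (.cons 298 (.leaf 271 2168 (.cons 227 (.leaf 203 1622 (.leaf 322 1814 .nil)) .nil)) .nil)) .nil)) (.cons 296 (.leaf 295 2170 (.cons 251 (.leaf 252 1985 (.cons 224 (.cons 199 (.leaf 223 1599 (.cons 175 (.leaf 200 1407 (.cons 225 (.leaf 201 1605 (.cons 320 (.leaf 249 1797 (.cons 343 (.leaf 319 1982 (.cons 344 (.leaf 367 2174 (.cons 345 (.leaf 321 1988 (.leaf 369 2180 .nil)) .nil)) .nil)) .nil)) .nil)) .nil)) .nil)) (.cons 199 (.leaf 223 1599 (.cons 201 (.leaf 225 1605 (.cons 321 (.leaf 297 1796 (.cons 320 (.leaf 345 1988 (.cons 343 (.leaf 319 1982 (.cons 344 (.leaf 249 1989 (.leaf 367 2174 .nil)) .nil)) .nil)) .nil)) .nil)) .nil)) (.cons 199 (.leaf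 223 1599 (.cons 200 (.leaf 175 1407 (.leaf 297 1604 .nil)) .nil)) (.cons 297 (.leaf 200 1604 (.leaf 321 1796 .nil)) .nil)))) .nil)) .nil)) .nil))) (.cons 274 (.leaf 247 1979 (.cons 251 (.leaf 252 1985 (.cons 299 (.leaf 300 2176 (.cons 298 (.leaf 271 2168 (.cons 227 (.leaf 203 1622 (.leaf 322 1814 .nil)) .nil)) .nil)) .nil)) .nil)) (.cons 274 (.leaf 247 1979 (.cons 296 (.leaf 295 2170 (.cons 251 (.leaf 252 1985 (.cons 224 (.cons 199 (.leaf 223 1599 (.cons 175 (.leaf 200 1407 (.cons 225 (.leaf 201 1605 (.cons 320 (.leaf 249 1797 (.cons 343 (.leaf 319 1982 (.cons 344 (.leaf 367 2174 (.cons 345 (.leaf 321 1988 (.leaf 369 2180 .nil)) .nil)) .nil)) .nil)) .nil)) .nil)) .nil)) (.cons 199 (.leaf 223 1599 (.cons 201 (.leaf 225 1605 (.cons 321 (.leaf 297 1796 (.cons 320 (.leaf 345 1988 (.cons 343 (.leaf 319 1982 (.cons 344 (.leaf 249 1989 (.leaf 367 2174 .nil)) .nil)) .nil)) .nil)) .nil)) .nil))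 (.cons 199 (.leaf 223 1599 (.cons 200 (.leaf 175 1407 (.leaf 297 1604 .nil)) .nil)) (.cons 297 (.leaf 200 1604 (.leaf 321 1796 .nil)) .nil)))) .nil)) .nil)) .nil)) .nil))))
noncomputable def t20 : T := .cons 295 (.leaf 296 2170 (.cons 271 (.leaf 294 2162 (.cons 299 (.leaf 300 2176 (.leaf 298 2168 .nil)) .nil)) .nil)) (.cons 251 (.leaf 252 1985 (.cons 271 (.leaf 250 1977 (.cons 295 (.leaf 296 2170 (.leaf 294 2162 .nil)) .nil)) .nil)) (.cons 251 (.leaf 252 1985 (.cons 299 (.leaf 300 2176 (.cons 298 (.leaf 271 2168 (.cons 227 (.leaf 203 1622 (.leaf 322 1814 .nil)) .nil)) .nil)) .nil)) (.cons 296 (.leaf 295 2170 (.cons 251 (.leaf 252 1985 (.cons 299 (.leaf 300 2176 (.cons 227 (.cons 202 (.leaf 226 1623 (.cons 204 (.leaf 228 1629 (.cons 322 (.leaf 298 1814 (.cons 323 (.leaf 346 2006 (.cons 324 (.leaf 348 2012 (.cons 321 (.leaf 297 2371 (.cons 345 (.leaf 320 1988 (.leaf 344 2562 .nil)) .nil))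 .nil)) .nil)) .nil)) .nil)) .nil)) (.cons 202 (.leaf 226 1623 (.cons 178 (.leaf 203 1431 (.cons 228 (.leaf 204 1629 (.cons 249 (.leaf 250 1793 (.cons 320 (.leaf 344 1989 (.cons 321 (.leaf 345 1988 (.cons 224 (.leaf 297 1796 (.cons 199 (.leaf 223 1599 (.cons 200 (.leaf 175 1407 (.leaf 176 1412 .nil)) .nil)) .nil)) .nil)) .nil)) .nil)) .nil)) .nil)) .nil)) (.cons 298 (.leaf 203 1622 (.leaf 322 1814 .nil)) .nil))) .nil)) .nil)) .nil)) .nil)))
noncomputable def t21 : T := .cons 199 (.leaf 223 1599 (.cons 295 (.leaf 319 1790 (.cons 293 (.leaf 294 2153 (.cons 321 (.leaf 297 1796 (.cons 320 (.leaf 345 1988 (.cons 322 (.leaf 323 2363 (.cons 344 (.leaf 249 1989 (.cons 367 (.leaf 343 2174 (.cons 368 (.leaf 271 2175 (.leaf 391 2366 .nil)) .nil)) .nil)) .nil)) .nil)) .nil)) .nil)) .nil)) .nil)) (.cons 223 (.leaf 199 1599 (.cons 247 (.leaf 320 1791 (.cons 245 (.leaf 246 1960 (.cons 295 (.leaf 319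 1790 (.cons 294 (.leaf 293 2153 (.cons 271 (.leaf 318 1782 (.cons 222 (.leaf 198 1591 (.cons 221 (.leaf 220 1760 (.leaf 249 1768 .nil)) .nil)) .nil)) .nil)) .nil)) .nil)) .nil)) .nil)) (.cons 321 (.leaf 297 1796 (.cons 199 (.leaf 223 1599 (.cons 320 (.leaf 345 1988 (.cons 343 (.leaf 319 1982 (.cons 344 (.leaf 249 1989 (.leaf 367 2174 .nil)) .nil)) .nil)) .nil)) .nil)) (.cons 321 (.leaf 297 1796 (.cons 295 (.leaf 319 1790 (.cons 293 (.leaf 294 2153 (.cons 320 (.leaf 345 1988 (.cons 322 (.leaf 323 2363 (.cons 344 (.leaf 249 1989 (.cons 271 (.leaf 247 1983 (.leaf 368 2175 .nil)) .nil)) .nil)) .nil)) .nil)) .nil)) .nil)) (.cons 321 (.leaf 297 1796 (.cons 199 (.leaf 223 1599 (.cons 320 (.leaf 345 1988 (.cons 344 (.leaf 249 1989 (.cons 271 (.leaf 247 1983 (.cons 367 (.leaf 343 2174 (.cons 368 (.leaf 295 2175 (.leaf 391 2366 .nil)) .nil)) .nil)) .nil)) .nil)) .nil)) .nil)) (.cons 297 (.leaf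 321 1796 (.cons 199 (.leaf 223 1599 (.cons 295 (.leaf 319 1790 (.cons 294 (.leaf 293 2153 (.cons 270 (.leaf 269 2155 (.cons 271 (.leaf 298 2160 (.cons 245 (.leaf 246 1963 (.cons 249 (.leaf 250 1969 (.cons 318 (.leaf 317 2346 (.cons 342 (.leaf 366 2165 (.leaf 247 1973 .nil)) .nil)) .nil)) .nil)) .nil)) .nil)) .nil)) .nil)) .nil)) .nil)) (.cons 297 (.leaf 321 1796 (.cons 199 (.leaf 223 1599 (.cons 295 (.leaf 319 1790 (.cons 294 (.leaf 293 2153 (.cons 270 (.leaf 269 2155 (.cons 271 (.leaf 298 2160 (.cons 245 (.leaf 246 1963 (.cons 318 (.leaf 317 2346 (.cons 342 (.leaf 366 2165 (.leaf 247 1973 .nil)) .nil)) .nil)) .nil)) .nil)) .nil)) .nil)) .nil)) .nil)) .nil))))))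
noncomputable def t22 : T := .cons 274 (.leaf 247 1979 (.cons 251 (.leaf 252 1985 (.cons 271 (.leaf 250 1977 (.cons 295 (.leaf 296 2170 (.leaf 294 2162 .nil)) .nil)) .nil)) .nil)) (.cons 224 (.cons 200 (.leaf 297 1604 (.cons 176 (.leaf 249 1412 (.cons 177 (.leaf 201 1413 (.leaf 153 1221 .nil)) .nil)) .nil)) (.cons 296 t21 (.cons 200 (.cons 176 (.leaf 249 1412 (.cons 177 (.leaf 201 1413 (.leaf 153 1221 .nil)) .nil)) (.cons 199 (.leaf 175 1407 (.cons 177 (.leaf 201 1413 (.cons 295 (.leaf 271 1598 (.cons 296 (.leaf 223 1599 (.leaf 319 1790 .nil)) .nil)) .nil)) .nil)) (.cons 175 (.leaf 199 1407 (.cons 176 (.leaf 151 1215 (.leaf 249 1412 .nil)) .nil)) .nil))) (.cons 200 (.leaf 297 1604 (.cons 199 (.leaf 175 1407 (.cons 177 (.leaf 201 1413 (.cons 295 (.leaf 271 1598 (.cons 296 (.leaf 223 1599 (.leaf 319 1790 .nil)) .nil)) .nil)) .nil)) .nil)) .nil)))) (.cons 274 t20 (.cons 274 (.leaf 247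 1979 (.cons 296 (.leaf 295 2170 (.cons 251 (.leaf 252 1985 (.cons 299 (.leaf 300 2176 (.cons 227 (.cons 202 (.leaf 226 1623 (.cons 204 (.leaf 228 1629 (.cons 322 (.leaf 298 1814 (.cons 323 (.leaf 346 2006 (.cons 324 (.leaf 348 2012 (.cons 321 (.leaf 297 2371 (.cons 345 (.leaf 320 1988 (.leaf 344 2562 .nil)) .nil)) .nil)) .nil)) .nil)) .nil)) .nil)) (.cons 202 (.leaf 226 1623 (.cons 178 (.leaf 203 1431 (.cons 228 (.leaf 204 1629 (.cons 249 (.leaf 250 1793 (.cons 320 (.leaf 344 1989 (.cons 321 (.leaf 345 1988 (.cons 224 (.leaf 297 1796 (.cons 199 (.leaf 223 1599 (.cons 200 (.leaf 175 1407 (.leaf 176 1412 .nil)) .nil)) .nil)) .nil)) .nil)) .nil)) .nil)) .nil)) .nil)) (.cons 298 (.leaf 203 1622 (.leaf 322 1814 .nil)) .nil))) .nil)) .nil)) .nil)) .nil)) (.cons 274 (.leaf 247 1979 (.cons 251 (.leaf 252 1985 (.cons 299 (.leaf 300 2176 (.cons 298 (.leaf 271 2168 (.cons 227 (.leaf 203 1622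 (.leaf 322 1814 .nil)) .nil)) .nil)) .nil)) .nil)) .nil))))
noncomputable def t23 : T := .cons 201 (.leaf 225 1605 (.cons 295 (.leaf 319 1790 (.cons 294 (.leaf 293 2153 (.cons 270 (.leaf 269 2155 (.cons 271 (.leaf 298 2160 (.cons 245 (.leaf 246 1963 (.cons 249 (.leaf 250 1969 (.cons 318 (.leaf 317 2346 (.cons 342 (.leaf 366 2165 (.leaf 247 1973 .nil)) .nil)) .nil)) .nil)) .nil)) .nil)) .nil)) .nil)) .nil)) (.cons 295 (.leaf 319 1790 (.cons 294 (.leaf 293 2153 (.cons 270 (.leaf 269 2155 (.cons 271 (.leaf 298 2160 (.cons 245 (.leaf 246 1963 (.cons 249 (.leaf 250 1969 (.cons 318 (.leaf 317 2346 (.cons 342 (.leaf 366 2165 (.leaf 247 1973 .nil)) .nil)) .nil)) .nil)) .nil)) .nil)) .nil)) .nil)) (.cons 225 (.leaf 201 1605 (.cons 249 (.leaf 320 1797 (.cons 202 (.leaf 226 1613 (.cons 298 (.leaf 322 1804 (.cons 271 (.leaf 270 2160 (.leaf 299 2171 .nil)) .nil)) .nil)) .nil)) .nil)) (.cons 295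 (.leaf 319 1790 (.cons 201 (.leaf 225 1605 (.cons 294 (.leaf 293 2153 (.cons 270 (.leaf 269 2155 (.cons 271 (.leaf 298 2160 (.cons 245 (.leaf 246 1963 (.cons 318 (.leaf 317 2346 (.cons 342 (.leaf 366 2165 (.leaf 247 1973 .nil)) .nil)) .nil)) .nil)) .nil)) .nil)) .nil)) .nil)) (.cons 225 (.leaf 201 1605 (.cons 249 (.leaf 320 1797 (.cons 226 (.leaf 202 1613 (.cons 227 (.leaf 247 1786 (.leaf 228 1794 .nil)) .nil)) .nil)) .nil)) .nil))))
noncomputable def t24 : T := .cons 274 (.leaf 247 1979 (.cons 296 (.leaf 295 2170 (.cons 299 (.leaf 300 2176 (.cons 251 (.leaf 252 1985 (.cons 298 (.leaf 271 2168 (.cons 227 (.leaf 203 1622 (.leaf 322 1814 .nil)) .nil)) .nil)) .nil)) .nil)) .nil)) (.cons 297 (.cons 224 (.leaf 200 1604 (.cons 296 (.leaf 321 1796 (.cons 201 (.leaf 225 1605 (.cons 295 (.leaf 319 1790 (.cons 294 (.leaf 293 2153 (.cons 270 (.leaf 269 2155 (.cons 271 (.leaf 298 2160 (.cons 245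 (.leaf 246 1963 (.cons 249 (.leaf 250 1969 (.cons 318 (.leaf 317 2346 (.cons 342 (.leaf 366 2165 (.leaf 247 1973 .nil)) .nil)) .nil)) .nil)) .nil)) .nil)) .nil)) .nil)) .nil)) .nil)) .nil)) (.cons 224 (.leaf 200 1604 (.cons 296 t23 .nil)) (.cons 321 (.leaf 345 1991 (.cons 249 (.cons 320 (.leaf 344 1990 (.cons 225 (.leaf 296 1797 (.cons 322 (.leaf 298 1804 (.leaf 346 1996 .nil)) .nil)) .nil)) (.cons 226 (.leaf 250 1805 (.cons 225 (.leaf 202 1613 (.cons 322 (.leaf 298 1804 (.leaf 346 1996 .nil)) .nil)) .nil)) (.cons 250 (.leaf 226 1805 (.cons 251 (.leaf 271 1978 (.leaf 252 1986 .nil)) .nil)) .nil))) .nil)) (.cons 224 (.leaf 200 1604 (.cons 321 (.leaf 296 1796 (.leaf 345 1991 .nil)) .nil)) (.cons 224 (.leaf 200 1604 (.cons 321 (.leaf 345 1991 (.leaf 249 1799 .nil)) .nil)) .nil))))) (.cons 274 (.cons 295 (.leaf 296 2170 (.cons 271 (.leaf 294 2162 (.cons 299 (.leaf 300 2176 (.leaf 298 2168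 .nil)) .nil)) .nil)) (.cons 251 (.leaf 252 1985 (.cons 299 (.leaf 300 2176 (.cons 298 (.leaf 271 2168 (.cons 227 (.leaf 203 1622 (.leaf 322 1814 .nil)) .nil)) .nil)) .nil)) (.cons 251 (.leaf 252 1985 (.cons 271 (.leaf 250 1977 (.cons 295 (.leaf 296 2170 (.leaf 294 2162 .nil)) .nil)) .nil)) (.cons 296 (.leaf 295 2170 (.cons 299 (.leaf 300 2176 (.cons 251 (.leaf 252 1985 (.cons 323 (.cons 250 (.leaf 226 1815 (.leaf 347 2007 .nil)) (.cons 322 (.leaf 346 2006 (.cons 227 (.leaf 298 1814 (.cons 202 (.leaf 226 1623 (.cons 178 (.leaf 203 1431 (.cons 324 (.leaf 348 2012 (.cons 321 (.leaf 297 2371 (.cons 345 (.leaf 320 1988 (.leaf 344 2562 .nil)) .nil)) .nil)) .nil)) .nil)) .nil)) .nil)) (.cons 250 (.leaf 347 2007 (.cons 322 (.leaf 346 2006 (.cons 227 (.leaf 298 1813 (.cons 179 (.leaf 203 1430 (.cons 228 (.leaf 204 1629 (.leaf 249 1793 .nil)) .nil)) .nil)) .nil)) .nil)) .nil))) .nil)) .nil))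 .nil)) .nil)))) (.cons 274 (.leaf 247 1979 (.cons 251 (.leaf 252 1985 (.cons 299 (.leaf 300 2176 (.cons 298 (.leaf 271 2168 (.cons 227 (.leaf 203 1622 (.leaf 322 1814 .nil)) .nil)) .nil)) .nil)) .nil)) (.cons 274 (.leaf 247 1979 (.cons 296 (.leaf 295 2170 (.cons 299 (.leaf 300 2176 (.cons 251 (.leaf 252 1985 (.cons 323 (.cons 250 (.leaf 226 1815 (.leaf 347 2007 .nil)) (.cons 322 (.leaf 346 2006 (.cons 227 (.leaf 298 1814 (.cons 202 (.leaf 226 1623 (.cons 178 (.leaf 203 1431 (.cons 324 (.leaf 348 2012 (.cons 321 (.leaf 297 2371 (.cons 345 (.leaf 320 1988 (.leaf 344 2562 .nil)) .nil)) .nil)) .nil)) .nil)) .nil)) .nil)) (.cons 250 (.leaf 347 2007 (.cons 322 (.leaf 346 2006 (.cons 227 (.leaf 298 1813 (.cons 179 (.leaf 203 1430 (.cons 228 (.leaf 204 1629 (.leaf 249 1793 .nil)) .nil)) .nil)) .nil)) .nil)) .nil))) .nil)) .nil)) .nil)) .nil)) (.cons 274 (.leaf 247 1979 (.cons 295 (.leaf 296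 2170 (.cons 271 (.leaf 294 2162 (.cons 299 (.leaf 300 2176 (.leaf 298 2168 .nil)) .nil)) .nil)) .nil)) (.cons 274 (.leaf 247 1979 (.cons 251 (.leaf 252 1985 (.cons 271 (.leaf 250 1977 (.cons 295 (.leaf 296 2170 (.leaf 294 2162 .nil)) .nil)) .nil)) .nil)) .nil))))))
noncomputable def t25 : T := .cons 202 (.leaf 299 1620 (.cons 177 (.leaf 201 1423 (.cons 178 (.leaf 251 1428 (.leaf 153 1231 .nil)) .nil)) .nil)) (.cons 298 (.cons 201 (.leaf 225 1615 (.cons 203 (.leaf 227 1621 (.cons 321 (.leaf 297 1806 (.cons 322 (.leaf 345 1998 (.cons 346 (.leaf 251 2005 (.cons 370 (.leaf 299 2197 (.cons 371 (.leaf 347 2196 (.leaf 395 2388 .nil)) .nil)) .nil)) .nil)) .nil)) .nil)) .nil)) (.cons 201 (.leaf 225 1615 (.cons 297 (.leaf 321 1806 (.cons 296 (.leaf 295 2169 (.cons 299 (.leaf 271 2171 (.leaf 323 1812 .nil)) .nil)) .nil)) .nil)) (.cons 227 (.leaf 203 1621 (.cons 225 (.leaf 224 1786 (.leaf 201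 1615 .nil)) .nil)) (.cons 323 (.leaf 299 1812 (.cons 203 (.leaf 227 1621 (.cons 321 (.leaf 297 1806 (.cons 322 (.leaf 345 1998 (.leaf 347 2004 .nil)) .nil)) .nil)) .nil)) .nil)))) (.cons 298 (.cons 203 (.leaf 227 1621 (.cons 179 (.leaf 202 1429 (.cons 321 (.leaf 297 1806 (.cons 322 (.leaf 345 1998 (.cons 346 (.leaf 251 2005 (.cons 347 (.leaf 323 2004 (.leaf 371 2196 .nil)) .nil)) .nil)) .nil)) .nil)) .nil)) (.cons 201 (.leaf 225 1615 (.cons 177 (.leaf 202 1423 (.cons 321 (.leaf 297 1806 (.cons 322 (.leaf 345 1998 (.cons 346 (.leaf 251 2005 (.cons 347 (.leaf 323 2004 (.leaf 371 2196 .nil)) .nil)) .nil)) .nil)) .nil)) .nil)) (.cons 227 (.leaf 203 1621 (.cons 225 (.leaf 224 1786 (.leaf 201 1615 .nil)) .nil)) .nil))) (.cons 202 (.leaf 299 1620 (.cons 177 (.leaf 201 1423 (.cons 178 (.leaf 153 1231 (.cons 179 (.leaf 203 1429 (.leaf 155 1237 .nil)) .nil)) .nil)) .nil)) (.cons 299 (.leaf 202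 1620 (.cons 323 (.leaf 251 1815 (.leaf 347 2007 .nil)) .nil)) .nil))))
noncomputable def t26 : T := .cons 200 (.leaf 297 1604 (.cons 175 (.leaf 199 1407 (.cons 176 (.leaf 151 1215 (.leaf 271 1406 .nil)) .nil)) .nil)) (.cons 296 (.cons 199 (.leaf 223 1599 (.cons 201 (.leaf 225 1605 (.cons 295 (.leaf 319 1790 (.cons 294 (.leaf 293 2153 (.cons 297 (.leaf 321 1796 (.cons 270 (.leaf 269 2155 (.cons 271 (.leaf 298 2160 (.cons 318 (.leaf 342 1973 (.leaf 317 2346 .nil)) .nil)) .nil)) .nil)) .nil)) .nil)) .nil)) .nil)) (.cons 201 (.leaf 225 1605 (.cons 295 (.leaf 319 1790 (.cons 294 (.leaf 293 2153 (.cons 297 (.leaf 321 1796 (.cons 270 (.leaf 269 2155 (.cons 271 (.leaf 298 2160 (.cons 318 (.leaf 342 1973 (.leaf 317 2346 .nil)) .nil)) .nil)) .nil)) .nil)) .nil)) .nil)) (.cons 223 (.leaf 199 1599 (.cons 225 (.leaf 201 1605 (.leaf 226 1778 .nil)) .nil)) (.cons 199 (.leaf 223 1599 (.cons 295 (.leaf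 319 1790 (.cons 294 (.leaf 293 2153 (.cons 297 (.leaf 321 1796 (.cons 270 (.leaf 269 2155 (.cons 271 (.leaf 298 2160 (.cons 318 (.leaf 342 1973 (.leaf 317 2346 .nil)) .nil)) .nil)) .nil)) .nil)) .nil)) .nil)) .nil)))) (.cons 200 (.cons 175 (.leaf 199 1407 (.cons 176 (.leaf 151 1215 (.leaf 271 1406 .nil)) .nil)) (.cons 175 (.leaf 199 1407 (.cons 151 (.leaf 176 1215 (.cons 201 (.leaf 177 1413 (.cons 225 (.leaf 296 1605 (.cons 226 (.leaf 227 1786 (.leaf 223 1778 .nil)) .nil)) .nil)) .nil)) .nil)) (.cons 271 (.leaf 295 1598 (.leaf 176 1406 .nil)) (.cons 175 (.leaf 199 1407 (.cons 201 (.leaf 177 1413 (.cons 225 (.leaf 296 1605 (.cons 226 (.leaf 227 1786 (.leaf 223 1778 .nil)) .nil)) .nil)) .nil)) .nil)))) (.cons 200 (.leaf 297 1604 (.cons 175 (.leaf 199 1407 (.cons 151 (.leaf 176 1215 (.cons 201 (.leaf 177 1413 (.cons 225 (.leaf 296 1605 (.cons 226 (.leaf 227 1786 (.leaf 223 1778 .nil))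 .nil)) .nil)) .nil)) .nil)) .nil)) (.cons 200 (.leaf 297 1604 (.cons 271 (.leaf 295 1598 (.leaf 176 1406 .nil)) .nil)) .nil))))
noncomputable def t27 : T := .cons 245 (.leaf 273 1960 (.cons 224 (.leaf 225 1769 (.cons 244 (.leaf 271 1952 (.leaf 223 1761 .nil)) .nil)) .nil)) (.cons 249 (.cons 222 (.leaf 221 1771 (.cons 223 (.leaf 250 1779 (.cons 175 (.leaf 199 1404 (.cons 270 (.leaf 269 1962 (.cons 294 (.leaf 318 1781 (.cons 293 (.leaf 317 1774 (.cons 271 (.leaf 273 2154 (.cons 295 (.leaf 292 2145 (.leaf 198 1588 .nil)) .nil)) .nil)) .nil)) .nil)) .nil)) .nil)) .nil)) (.cons 225 (.leaf 226 1777 (.cons 201 (.leaf 177 1414 (.cons 296 (.leaf 224 1605 (.leaf 273 1606 .nil)) .nil)) .nil)) (.cons 270 (.leaf 269 1962 (.cons 222 (.leaf 221 1771 (.cons 225 (.leaf 226 1777 (.cons 201 (.leaf 177 1414 (.cons 223 (.leaf 250 1779 (.cons 199 (.leaf 175 1404 (.leaf 294 1589 .nil)) .nil)) .nil)) .nil))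 .nil)) .nil)) .nil))) (.cons 245 (.cons 224 (.leaf 225 1769 (.cons 244 (.leaf 271 1952 (.leaf 223 1761 .nil)) .nil)) (.cons 220 (.leaf 221 1763 (.cons 269 (.leaf 268 1954 (.cons 249 (.leaf 270 1962 (.cons 226 (.leaf 225 1777 (.cons 250 (.leaf 227 1785 (.cons 223 (.leaf 222 1779 (.cons 199 (.leaf 175 1404 (.cons 271 (.leaf 296 1596 (.leaf 251 1978 .nil)) .nil)) .nil)) .nil)) .nil)) .nil)) .nil)) .nil)) (.cons 220 (.leaf 221 1763 (.cons 244 (.leaf 219 1755 (.cons 268 (.leaf 269 1954 (.leaf 267 1946 .nil)) .nil)) .nil)) .nil))) (.cons 245 (.leaf 273 1960 (.cons 220 (.leaf 221 1763 (.cons 244 (.leaf 219 1755 (.cons 268 (.leaf 269 1954 (.leaf 267 1946 .nil)) .nil)) .nil)) .nil)) .nil)))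
noncomputable def t28 : T := .cons 246 (.cons 221 (.leaf 222 1771 (.cons 225 (.leaf 226 1777 (.cons 245 (.leaf 220 1763 (.leaf 224 1769 .nil)) .nil)) .nil)) (.cons 250 (.leaf 274 1976 (.cons 222 (.leaf 221 1771 (.leaf 223 1779 .nil)) .nil)) (.cons 250 (.leaf 274 1976 (.cons 226 (.leaf 225 1777 (.leaf 227 1785 .nil)) .nil)) .nil))) (.cons 246 (.cons 221 (.leaf 222 1771 (.cons 225 (.leaf 226 1777 (.cons 245 (.leaf 220 1763 (.leaf 224 1769 .nil)) .nil)) .nil)) (.cons 269 (.leaf 270 1962 (.cons 221 (.leaf 222 1771 (.cons 245 (.leaf 220 1763 (.leaf 268 1954 .nil)) .nil)) .nil)) (.cons 225 (.leaf 226 1777 (.cons 177 (.leaf 201 1414 (.cons 245 (.leaf 224 1769 (.cons 269 (.leaf 268 1954 (.leaf 270 1962 .nil)) .nil)) .nil)) .nil)) (.cons 270 (.leaf 269 1962 (.cons 222 (.leaf 221 1771 (.cons 225 (.leaf 226 1777 (.cons 201 (.leaf 177 1414 (.cons 223 (.cons 199 (.leaf 175 1404 (.leaf 294 1589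 .nil)) (.cons 202 (.leaf 224 1585 (.cons 294 (.leaf 318 1781 (.cons 295 (.leaf 319 1780 (.cons 198 (.leaf 271 1588 (.cons 173 (.leaf 197 1391 (.cons 174 (.leaf 150 1204 (.leaf 149 1199 .nil)) .nil)) .nil)) .nil)) .nil)) .nil)) (.cons 175 (.leaf 199 1404 (.cons 224 (.leaf 296 1605 (.leaf 202 1585 .nil)) .nil)) .nil))) .nil)) .nil)) .nil)) .nil)) .nil)))) (.cons 250 (.leaf 274 1976 (.cons 271 (.leaf 251 1978 (.leaf 270 1970 .nil)) .nil)) .nil))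
noncomputable def t29 : T := .cons 273 (.leaf 274 1979 (.cons 246 (.leaf 245 1960 (.cons 249 (.cons 222 (.leaf 221 1771 (.cons 250 (.leaf 223 1779 (.cons 251 (.leaf 271 1978 (.leaf 252 1986 .nil)) .nil)) .nil)) (.cons 270 (.leaf 269 1962 (.cons 222 (.leaf 221 1771 (.cons 271 (.cons 198 (.leaf 174 1396 (.leaf 295 1588 .nil)) (.cons 174 (.leaf 198 1396 (.cons 293 (.leaf 294 2154 (.cons 297 (.leaf 298 2160 (.cons 224 (.leaf 200 1604 (.leaf 321 1799 .nil)) .nil)) .nil)) .nil)) (.cons 293 (.leaf 294 2154 (.cons 295 (.leaf 319 1783 (.cons 224 (.leaf 200 1598 (.cons 297 (.leaf 298 2160 (.leaf 321 1799 .nil)) .nil)) .nil)) .nil)) .nil))) .nil)) .nil)) (.cons 222 (.leaf 221 1771 (.cons 225 (.leaf 226 1777 (.cons 201 (.leaf 177 1414 (.leaf 296 1606 .nil)) .nil)) .nil)) (.cons 270 (.leaf 269 1962 (.cons 250 (.leaf 271 1969 (.cons 251 (.leaf 252 1986 (.cons 224 (.leaf 223 1787 (.cons 200 (.leaf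 297 1604 (.leaf 176 1412 .nil)) .nil)) .nil)) .nil)) .nil)) .nil)))) .nil)) .nil)) (.cons 249 t28 (.cons 246 t27 (.cons 273 (.leaf 274 1979 (.cons 246 (.leaf 245 1960 (.cons 224 t26 .nil)) .nil)) (.cons 274 (.leaf 273 1979 (.cons 250 (.leaf 249 1976 (.cons 226 t25 .nil)) .nil)) (.cons 273 (.leaf 274 1979 (.cons 246 (.leaf 245 1960 (.cons 249 (.cons 222 (.leaf 221 1771 (.cons 225 (.leaf 226 1777 (.cons 201 (.leaf 177 1414 (.leaf 296 1606 .nil)) .nil)) .nil)) (.cons 222 (.leaf 221 1771 (.cons 223 (.leaf 250 1779 (.cons 199 (.leaf 175 1404 (.cons 270 (.leaf 269 1962 (.leaf 294 1589 .nil)) .nil)) .nil)) .nil)) (.cons 225 (.leaf 226 1777 (.cons 201 (.leaf 177 1414 (.leaf 296 1606 .nil)) .nil)) .nil))) .nil)) .nil)) (.cons 273 (.leaf 274 1979 (.cons 246 (.leaf 245 1960 (.cons 249 (.cons 221 (.leaf 222 1771 (.cons 226 (.leaf 225 1777 (.cons 250 (.leaf 227 1785 (.cons 251 (.leaf 271 1978 (.leaf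 252 1986 .nil)) .nil)) .nil)) .nil)) (.cons 270 (.leaf 269 1962 (.cons 250 (.leaf 271 1969 (.cons 251 (.leaf 252 1986 (.cons 224 (.leaf 223 1787 (.cons 200 (.leaf 297 1604 (.leaf 176 1412 .nil)) .nil)) .nil)) .nil)) .nil)) (.cons 221 (.leaf 222 1771 (.cons 225 (.leaf 226 1777 (.cons 201 (.leaf 177 1414 (.cons 178 (.leaf 202 1421 (.cons 200 (.leaf 176 1415 (.cons 224 (.leaf 297 1604 (.cons 199 (.leaf 175 1407 (.cons 198 (.leaf 197 1576 (.cons 271 (.leaf 295 1598 (.cons 174 (.leaf 223 1399 (.leaf 173 1387 .nil)) .nil)) .nil)) .nil)) .nil)) .nil)) .nil)) .nil)) .nil)) .nil)) (.cons 225 (.leaf 226 1777 (.cons 177 (.leaf 201 1414 (.cons 222 (.leaf 221 1771 (.cons 223 (.leaf 250 1779 (.cons 199 (.leaf 175 1404 (.cons 270 (.leaf 269 1962 (.leaf 294 1589 .nil)) .nil)) .nil)) .nil)) .nil)) .nil)) .nil)))) .nil)) .nil)) (.cons 273 (.leaf 274 1979 (.cons 246 (.leaf 245 1960 (.cons 249 (.cons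 270 (.leaf 269 1962 (.cons 250 (.leaf 271 1969 (.cons 251 (.leaf 252 1986 (.cons 224 (.leaf 223 1787 (.cons 200 (.leaf 297 1604 (.leaf 176 1412 .nil)) .nil)) .nil)) .nil)) .nil)) (.cons 222 (.leaf 221 1771 (.cons 250 (.leaf 223 1779 (.cons 251 (.leaf 271 1978 (.leaf 252 1986 .nil)) .nil)) .nil)) (.cons 222 (.leaf 221 1771 (.cons 223 (.leaf 250 1779 (.cons 199 (.leaf 175 1404 (.cons 270 (.leaf 269 1962 (.leaf 294 1589 .nil)) .nil)) .nil)) .nil)) (.cons 270 (.leaf 269 1962 (.cons 222 (.leaf 221 1771 (.cons 271 (.cons 198 (.leaf 174 1396 (.leaf 295 1588 .nil)) (.cons 174 (.leaf 198 1396 (.cons 293 (.leaf 294 2154 (.cons 297 (.leaf 298 2160 (.cons 224 (.leaf 200 1604 (.leaf 321 1799 .nil)) .nil)) .nil)) .nil)) (.cons 293 (.leaf 294 2154 (.cons 295 (.leaf 319 1783 (.cons 224 (.leaf 200 1598 (.cons 297 (.leaf 298 2160 (.leaf 321 1799 .nil)) .nil)) .nil)) .nil)) .nil))) .nil)) .nil)) .nil))))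 .nil)) .nil)) .nil)))))))
noncomputable def t30 : T := .leaf 274 1979 (.cons 246 (.leaf 245 1960 (.cons 249 (.cons 270 (.leaf 269 1962 (.cons 271 (.leaf 250 1969 (.cons 221 (.leaf 222 1771 (.cons 294 (.leaf 293 2154 (.cons 223 (.leaf 199 1590 (.leaf 318 1781 .nil)) .nil)) .nil)) .nil)) .nil)) (.cons 222 (.leaf 221 1771 (.cons 250 (.leaf 223 1779 (.cons 251 (.leaf 271 1978 (.leaf 252 1986 .nil)) .nil)) .nil)) (.cons 270 (.leaf 269 1962 (.cons 271 (.leaf 250 1969 (.cons 293 (.leaf 294 2154 (.cons 297 (.leaf 298 2160 (.cons 321 (.leaf 345 1991 (.leaf 224 1799 .nil)) .nil)) .nil)) .nil)) .nil)) (.cons 222 (.leaf 221 1771 (.cons 223 (.leaf 250 1779 (.cons 199 (.leaf 175 1404 (.cons 270 (.leaf 269 1962 (.leaf 294 1589 .nil)) .nil)) .nil)) .nil)) (.cons 270 (.leaf 269 1962 (.cons 222 (.leaf 221 1771 (.cons 223 (.cons 199 (.leaf 175 1404 (.leaf 294 1589 .nil)) (.cons 294 (.leaf 318 1781 (.cons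 293 (.leaf 271 2154 (.leaf 317 1774 .nil)) .nil)) (.cons 199 (.leaf 175 1404 (.cons 296 (.leaf 224 1599 (.leaf 271 1596 .nil)) .nil)) .nil))) .nil)) .nil)) .nil))))) .nil)) .nil)
noncomputable def t31 : T := .cons 298 (.cons 227 (.leaf 203 1621 (.cons 201 (.leaf 225 1615 (.cons 322 (.leaf 251 1813 (.cons 323 (.leaf 299 1812 (.leaf 347 2004 .nil)) .nil)) .nil)) .nil)) (.cons 227 (.leaf 203 1621 (.cons 201 (.leaf 225 1615 (.cons 177 (.leaf 202 1423 (.cons 321 (.leaf 297 1806 (.cons 322 (.leaf 251 1813 (.leaf 345 1998 .nil)) .nil)) .nil)) .nil)) .nil)) (.cons 299 (.leaf 202 1620 (.leaf 323 1812 .nil)) .nil))) (.cons 298 (.cons 227 (.leaf 203 1621 (.cons 225 (.leaf 224 1786 (.leaf 201 1615 .nil)) .nil)) (.cons 323 (.leaf 299 1812 (.cons 201 (.leaf 225 1615 (.cons 321 (.leaf 297 1806 (.cons 322 (.leaf 345 1998 (.leaf 347 2004 .nil)) .nil)) .nil)) .nil)) (.cons 323 (.leaf 299 1812 (.cons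 203 (.leaf 227 1621 (.cons 321 (.leaf 297 1806 (.cons 322 (.leaf 345 1998 (.leaf 347 2004 .nil)) .nil)) .nil)) .nil)) .nil))) (.cons 298 (.cons 201 (.leaf 225 1615 (.cons 202 (.leaf 177 1423 (.cons 203 (.leaf 179 1429 (.leaf 227 1621 .nil)) .nil)) .nil)) (.cons 321 (.leaf 297 1806 (.cons 201 (.leaf 225 1615 (.cons 177 (.leaf 202 1423 (.cons 322 (.leaf 345 1998 (.cons 346 (.leaf 251 2005 (.cons 347 (.leaf 323 2004 (.leaf 371 2196 .nil)) .nil)) .nil)) .nil)) .nil)) .nil)) (.cons 227 (.leaf 203 1621 (.cons 321 (.leaf 297 1806 (.cons 322 (.leaf 251 1813 (.leaf 345 1998 .nil)) .nil)) .nil)) .nil))) (.cons 202 (.leaf 299 1620 (.cons 177 (.leaf 201 1423 (.cons 178 (.leaf 251 1428 (.leaf 153 1231 .nil)) .nil)) .nil)) (.cons 299 (.leaf 202 1620 (.cons 323 (.leaf 251 1815 (.leaf 347 2007 .nil)) .nil)) .nil))))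
noncomputable def t32 : T := .cons 202 (.leaf 299 1620 (.cons 177 (.leaf 201 1423 (.cons 178 (.leaf 251 1428 (.leaf 153 1231 .nil)) .nil)) .nil)) (.cons 298 (.cons 203 (.leaf 227 1621 (.cons 299 (.leaf 323 1812 (.cons 321 (.leaf 297 1806 (.cons 322 (.leaf 345 1998 (.cons 346 (.leaf 251 2005 (.leaf 370 2197 .nil)) .nil)) .nil)) .nil)) .nil)) (.cons 201 (.leaf 225 1615 (.cons 297 (.leaf 321 1806 (.cons 296 (.leaf 295 2169 (.cons 299 (.leaf 271 2171 (.leaf 323 1812 .nil)) .nil)) .nil)) .nil)) (.cons 227 (.leaf 203 1621 (.cons 225 (.leaf 224 1786 (.leaf 201 1615 .nil)) .nil)) .nil))) (.cons 298 (.cons 201 (.leaf 225 1615 (.cons 177 (.leaf 202 1423 (.cons 297 (.leaf 321 1806 (.cons 296 (.leaf 295 2169 (.cons 223 (.leaf 320 1791 (.cons 199 (.leaf 175 1404 (.leaf 224 1599 .nil)) .nil)) .nil)) .nil)) .nil)) .nil)) (.cons 203 (.leaf 227 1621 (.cons 179 (.leaf 202 1429 (.cons 297 (.leaf 321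 1806 (.cons 296 (.leaf 295 2169 (.cons 223 (.leaf 320 1791 (.cons 199 (.leaf 175 1404 (.leaf 224 1599 .nil)) .nil)) .nil)) .nil)) .nil)) .nil)) (.cons 227 (.leaf 203 1621 (.cons 225 (.leaf 224 1786 (.leaf 201 1615 .nil)) .nil)) (.cons 201 (.leaf 225 1615 (.cons 177 (.leaf 202 1423 (.cons 203 (.leaf 227 1621 (.cons 297 (.leaf 321 1806 (.cons 296 (.leaf 295 2169 (.cons 223 (.leaf 320 1791 (.cons 199 (.leaf 175 1404 (.leaf 271 1596 .nil)) .nil)) .nil)) .nil)) .nil)) .nil)) .nil)) .nil)))) (.cons 299 (.leaf 202 1620 (.cons 323 (.leaf 251 1815 (.leaf 347 2007 .nil)) .nil)) .nil)))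
noncomputable def t33 : T := .cons 199 (.leaf 175 1404 (.cons 296 (.leaf 224 1599 (.leaf 271 1596 .nil)) .nil)) (.cons 296 (.leaf 320 1791 (.cons 224 (.cons 225 (.leaf 201 1605 (.leaf 226 1778 .nil)) (.cons 295 (.leaf 319 1790 (.cons 294 (.leaf 293 2153 (.cons 318 (.leaf 270 1781 (.leaf 271 1782 .nil)) .nil)) .nil)) .nil)) .nil)) (.cons 199 (.leaf 175 1404 (.cons 271 (.cons 174 (.leaf 198 1399 (.cons 294 (.leaf 270 1590 (.cons 295 (.leaf 318 1782 (.cons 319 (.leaf 343 1981 (.leaf 224 1789 .nil)) .nil)) .nil)) .nil)) (.cons 198 (.leaf 174 1399 (.cons 295 (.leaf 222 1591 (.cons 319 (.leaf 343 1981 (.leaf 224 1789 .nil)) .nil)) .nil)) (.cons 294 (.leaf 270 1590 (.cons 295 (.leaf 318 1782 (.cons 319 (.leaf 343 1981 (.leaf 224 1789 .nil)) .nil)) .nil)) (.cons 270 (.leaf 294 1590 (.cons 198 (.leaf 174 1399 (.cons 269 (.leaf 268 1953 (.cons 293 (.leaf 292 2146 (.leaf 222 1582 .nil)) .nil))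 .nil)) .nil)) .nil)))) .nil)) (.cons 199 (.leaf 175 1404 (.cons 296 (.leaf 224 1599 (.leaf 320 1791 .nil)) .nil)) (.cons 199 (.leaf 175 1404 (.cons 296 (.leaf 271 1596 (.leaf 320 1791 .nil)) .nil)) .nil))))
noncomputable def t34 : T := .cons 245 (.leaf 273 1960 (.cons 220 (.leaf 221 1763 (.cons 269 (.leaf 268 1954 (.cons 249 (.leaf 270 1962 (.cons 226 (.leaf 225 1777 (.cons 250 (.leaf 227 1785 (.cons 223 (.leaf 222 1779 (.cons 199 (.leaf 175 1404 (.cons 271 (.leaf 296 1596 (.leaf 244 1952 .nil)) .nil)) .nil)) .nil)) .nil)) .nil)) .nil)) .nil)) .nil)) (.cons 249 (.cons 221 (.leaf 222 1771 (.cons 225 (.leaf 226 1777 (.cons 201 (.leaf 177 1414 (.cons 296 (.leaf 224 1605 (.leaf 273 1606 .nil)) .nil)) .nil)) .nil)) (.cons 270 (.leaf 269 1962 (.cons 222 (.leaf 221 1771 (.cons 250 (.leaf 223 1779 (.leaf 271 1970 .nil)) .nil)) .nil)) (.cons 270 (.leaf 269 1962 (.cons 226 (.leaf 225 1777 (.cons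 250 (.leaf 227 1785 (.leaf 271 1970 .nil)) .nil)) .nil)) .nil))) (.cons 245 (.leaf 273 1960 (.cons 220 (.leaf 221 1763 (.cons 244 (.leaf 271 1952 (.leaf 219 1755 .nil)) .nil)) .nil)) (.cons 245 (.cons 220 (.leaf 221 1763 (.cons 269 (.leaf 268 1954 (.cons 249 (.leaf 270 1962 (.cons 226 (.leaf 225 1777 (.cons 250 (.leaf 227 1785 (.cons 223 (.leaf 222 1779 (.cons 199 (.leaf 175 1404 (.cons 271 (.leaf 296 1596 (.leaf 244 1952 .nil)) .nil)) .nil)) .nil)) .nil)) .nil)) .nil)) .nil)) (.cons 220 (.leaf 221 1763 (.cons 269 (.leaf 268 1954 (.cons 249 (.leaf 270 1962 (.cons 226 (.leaf 225 1777 (.cons 250 (.leaf 227 1785 (.cons 223 (.leaf 222 1779 (.cons 199 (.leaf 175 1404 (.cons 271 (.leaf 296 1596 (.leaf 251 1978 .nil)) .nil)) .nil)) .nil)) .nil)) .nil)) .nil)) .nil)) (.cons 220 (.leaf 221 1763 (.cons 244 (.leaf 271 1952 (.leaf 219 1755 .nil)) .nil)) (.cons 224 (.leaf 225 1769 (.cons 220 (.leaf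 221 1763 (.cons 244 (.leaf 219 1755 (.leaf 223 1761 .nil)) .nil)) .nil)) (.cons 224 (.leaf 225 1769 (.cons 244 (.leaf 271 1952 (.leaf 223 1761 .nil)) .nil)) .nil))))) (.cons 245 (.leaf 273 1960 (.cons 224 (.leaf 225 1769 (.cons 220 (.leaf 221 1763 (.cons 244 (.leaf 219 1755 (.leaf 223 1761 .nil)) .nil)) .nil)) .nil)) (.cons 245 (.leaf 273 1960 (.cons 224 (.leaf 225 1769 (.cons 244 (.leaf 271 1952 (.leaf 223 1761 .nil)) .nil)) .nil)) .nil)))))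
noncomputable def t35 : T := .cons 296 (.leaf 320 1791 (.cons 224 (.leaf 199 1599 (.cons 295 (.leaf 319 1790 (.cons 297 (.leaf 321 1796 (.cons 274 (.leaf 298 2169 (.cons 249 (.leaf 250 1976 (.cons 222 (.leaf 221 1768 (.cons 271 (.leaf 198 1591 (.cons 270 (.leaf 269 2152 (.cons 225 (.leaf 201 1605 (.cons 246 (.leaf 245 1769 (.leaf 226 1777 .nil)) .nil)) .nil)) .nil)) .nil)) .nil)) .nil)) .nil)) .nil)) .nil)) .nil)) (.cons 199 (.leaf 175 1404 (.cons 271 (.cons 198 (.leaf 174 1399 (.cons 222 (.leaf 295 1591 (.cons 221 (.leaf 220 1760 (.cons 249 (.leaf 224 1768 (.leaf 246 1771 .nil)) .nil)) .nil)) .nil)) (.cons 174 (.leaf 198 1399 (.cons 294 (.leaf 270 1590 (.cons 295 (.leaf 318 1782 (.cons 319 (.leaf 343 1981 (.leaf 224 1789 .nil)) .nil)) .nil)) .nil)) (.cons 270 (.leaf 294 1590 (.cons 249 (.leaf 269 1961 (.leaf 250 1970 .nil)) .nil)) .nil))) .nil)) (.cons 296 (.leaf 320 1791 (.cons 224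 (.cons 295 (.leaf 319 1790 (.cons 297 (.leaf 321 1796 (.cons 274 (.leaf 298 2169 (.cons 249 (.leaf 250 1976 (.cons 222 (.leaf 221 1768 (.cons 271 (.leaf 198 1591 (.cons 270 (.leaf 269 2152 (.cons 225 (.leaf 201 1605 (.cons 246 (.leaf 245 1769 (.leaf 226 1777 .nil)) .nil)) .nil)) .nil)) .nil)) .nil)) .nil)) .nil)) .nil)) (.cons 295 (.leaf 319 1790 (.cons 297 (.leaf 321 1796 (.cons 274 (.leaf 298 2169 (.cons 249 (.leaf 250 1976 (.cons 222 (.leaf 221 1768 (.cons 271 (.leaf 198 1591 (.cons 294 (.leaf 318 1782 (.cons 269 (.leaf 270 2152 (.cons 293 (.leaf 292 2145 (.leaf 268 2147 .nil)) .nil)) .nil)) .nil)) .nil)) .nil)) .nil)) .nil)) .nil)) (.cons 225 (.leaf 201 1605 (.cons 226 (.leaf 227 1786 (.leaf 246 1778 .nil)) .nil)) .nil))) .nil)) (.cons 296 (.leaf 320 1791 (.cons 199 (.leaf 175 1404 (.leaf 224 1599 .nil)) .nil)) (.cons 296 (.leaf 320 1791 (.cons 199 (.leaf 175 1404 (.leaf 271 1596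 .nil)) .nil)) .nil))))
noncomputable def t36 : T := .cons 273 (.leaf 274 1979 (.cons 246 (.leaf 245 1960 (.cons 249 (.cons 270 (.leaf 269 1962 (.cons 250 (.leaf 271 1969 (.cons 227 (.leaf 226 1785 (.cons 251 (.leaf 252 1986 (.leaf 228 1793 .nil)) .nil)) .nil)) .nil)) (.cons 225 (.leaf 226 1777 (.cons 201 (.leaf 177 1414 (.leaf 296 1606 .nil)) .nil)) (.cons 270 (.leaf 269 1962 (.cons 271 (.leaf 250 1969 (.cons 221 (.leaf 222 1771 (.cons 294 (.leaf 293 2154 (.cons 223 (.leaf 199 1590 (.leaf 318 1781 .nil)) .nil)) .nil)) .nil)) .nil)) .nil))) .nil)) .nil)) (.cons 223 t35 (.cons 246 t34 (.cons 273 (.leaf 274 1979 (.cons 246 (.leaf 245 1960 (.cons 223 t33 .nil)) .nil)) (.cons 273 (.leaf 274 1979 (.cons 246 (.leaf 245 1960 (.cons 249 (.cons 225 (.leaf 226 1777 (.cons 177 (.leaf 201 1414 (.cons 270 (.leaf 269 1962 (.cons 271 (.leaf 250 1969 (.cons 294 (.leaf 293 2154 (.cons 223 (.leaf 199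 1590 (.leaf 318 1781 .nil)) .nil)) .nil)) .nil)) .nil)) .nil)) (.cons 221 (.leaf 222 1771 (.cons 226 (.leaf 225 1777 (.cons 250 (.leaf 227 1785 (.cons 251 (.leaf 271 1978 (.leaf 252 1986 .nil)) .nil)) .nil)) .nil)) (.cons 222 (.leaf 221 1771 (.cons 225 (.leaf 226 1777 (.cons 201 (.leaf 177 1414 (.cons 202 (.leaf 178 1421 (.cons 223 (.leaf 224 1585 (.cons 199 (.leaf 175 1404 (.cons 270 (.leaf 269 1962 (.leaf 294 1589 .nil)) .nil)) .nil)) .nil)) .nil)) .nil)) .nil)) (.cons 270 (.leaf 269 1962 (.cons 271 (.leaf 250 1969 (.cons 293 (.leaf 294 2154 (.cons 297 (.leaf 298 2160 (.cons 321 (.leaf 345 1991 (.leaf 224 1799 .nil)) .nil)) .nil)) .nil)) .nil)) .nil)))) .nil)) .nil)) (.cons 274 (.leaf 273 1979 (.cons 250 (.leaf 249 1976 (.cons 226 t32 .nil)) .nil)) (.cons 274 (.leaf 273 1979 (.cons 250 (.leaf 249 1976 (.cons 226 t31 .nil)) .nil)) (.cons 273 (.leaf 274 1979 (.cons 246 (.leaf 245 1960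 (.cons 249 (.cons 270 (.leaf 269 1962 (.cons 250 (.leaf 271 1969 (.cons 227 (.leaf 226 1785 (.cons 251 (.leaf 252 1986 (.leaf 228 1793 .nil)) .nil)) .nil)) .nil)) (.cons 222 (.leaf 221 1771 (.cons 250 (.leaf 223 1779 (.cons 251 (.leaf 271 1978 (.leaf 252 1986 .nil)) .nil)) .nil)) (.cons 270 (.leaf 269 1962 (.cons 222 (.leaf 221 1771 (.cons 223 (.cons 199 (.leaf 175 1404 (.leaf 294 1589 .nil)) (.cons 294 (.leaf 318 1781 (.cons 293 (.leaf 271 2154 (.leaf 317 1774 .nil)) .nil)) (.cons 199 (.leaf 175 1404 (.cons 296 (.leaf 224 1599 (.leaf 271 1596 .nil)) .nil)) .nil))) .nil)) .nil)) (.cons 222 (.leaf 221 1771 (.cons 223 (.leaf 250 1779 (.cons 199 (.leaf 175 1404 (.cons 270 (.leaf 269 1962 (.leaf 294 1589 .nil)) .nil)) .nil)) .nil)) .nil)))) .nil)) .nil)) (.cons 273 t30 .nil))))))))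
noncomputable def t37 : T := .leaf 245 1960 (.cons 249 (.cons 270 (.leaf 269 1962 (.cons 222 (.leaf 221 1771 (.cons 223 (.leaf 250 1779 (.cons 199 (.leaf 175 1404 (.leaf 294 1589 .nil)) .nil)) .nil)) .nil)) (.cons 222 (.leaf 221 1771 (.cons 250 (.leaf 223 1779 (.cons 251 (.leaf 271 1978 (.leaf 252 1986 .nil)) .nil)) .nil)) (.cons 270 (.leaf 269 1962 (.cons 222 (.leaf 221 1771 (.cons 223 (.cons 199 (.leaf 175 1404 (.leaf 294 1589 .nil)) (.cons 294 (.leaf 318 1781 (.cons 293 (.leaf 271 2154 (.leaf 317 1774 .nil)) .nil)) (.cons 199 (.leaf 175 1404 (.cons 296 (.leaf 224 1599 (.leaf 271 1596 .nil)) .nil)) .nil))) .nil)) .nil)) (.cons 270 (.leaf 269 1962 (.cons 250 (.leaf 271 1969 (.cons 251 (.leaf 252 1986 (.cons 224 (.leaf 223 1787 (.cons 200 (.leaf 297 1604 (.leaf 176 1412 .nil)) .nil)) .nil)) .nil)) .nil)) (.cons 270 (.leaf 269 1962 (.cons 271 (.leaf 250 1969 (.cons 221 (.leaf 222 1771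 (.cons 293 (.leaf 294 2154 (.cons 297 (.leaf 298 2160 (.cons 224 (.leaf 200 1604 (.leaf 321 1799 .nil)) .nil)) .nil)) .nil)) .nil)) .nil)) .nil))))) .nil)
noncomputable def t38 : T := .cons 202 (.leaf 299 1620 (.cons 177 (.leaf 201 1423 (.cons 178 (.leaf 251 1428 (.leaf 153 1231 .nil)) .nil)) .nil)) (.cons 298 (.cons 201 (.leaf 225 1615 (.cons 227 (.leaf 203 1621 (.cons 322 (.leaf 251 1813 (.cons 323 (.leaf 299 1812 (.leaf 347 2004 .nil)) .nil)) .nil)) .nil)) (.cons 323 (.leaf 299 1812 (.cons 201 (.leaf 225 1615 (.cons 321 (.leaf 297 1806 (.cons 322 (.leaf 345 1998 (.leaf 347 2004 .nil)) .nil)) .nil)) .nil)) (.cons 225 (.leaf 201 1615 (.cons 227 (.leaf 224 1786 (.leaf 203 1621 .nil)) .nil)) (.cons 323 (.leaf 299 1812 (.cons 203 (.leaf 227 1621 (.cons 321 (.leaf 297 1806 (.cons 322 (.leaf 345 1998 (.leaf 347 2004 .nil)) .nil)) .nil)) .nil)) .nil)))) (.cons 298 (.cons 203 (.leaf 227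 1621 (.cons 179 (.leaf 202 1429 (.cons 321 (.leaf 297 1806 (.cons 322 (.leaf 345 1998 (.cons 346 (.leaf 251 2005 (.cons 347 (.leaf 323 2004 (.leaf 371 2196 .nil)) .nil)) .nil)) .nil)) .nil)) .nil)) (.cons 201 (.leaf 225 1615 (.cons 177 (.leaf 202 1423 (.cons 200 (.leaf 224 1413 (.cons 321 (.leaf 297 1806 (.cons 322 (.leaf 345 1998 (.cons 346 (.leaf 251 2005 (.cons 347 (.leaf 323 2004 (.leaf 371 2196 .nil)) .nil)) .nil)) .nil)) .nil)) .nil)) .nil)) (.cons 227 (.leaf 203 1621 (.cons 225 (.leaf 224 1786 (.leaf 201 1615 .nil)) .nil)) .nil))) (.cons 202 (.leaf 299 1620 (.cons 177 (.leaf 201 1423 (.cons 178 (.leaf 153 1231 (.cons 179 (.leaf 203 1429 (.leaf 155 1237 .nil)) .nil)) .nil)) .nil)) (.cons 299 (.leaf 202 1620 (.cons 323 (.leaf 251 1815 (.leaf 347 2007 .nil)) .nil)) .nil))))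
noncomputable def t39 : T := .cons 202 (.leaf 299 1620 (.cons 177 (.leaf 201 1423 (.cons 178 (.leaf 251 1428 (.leaf 153 1231 .nil)) .nil)) .nil)) (.cons 298 (.cons 227 (.leaf 203 1621 (.cons 225 (.leaf 224 1786 (.leaf 201 1615 .nil)) .nil)) (.cons 323 (.leaf 299 1812 (.cons 201 (.leaf 225 1615 (.cons 321 (.leaf 297 1806 (.cons 322 (.leaf 345 1998 (.leaf 347 2004 .nil)) .nil)) .nil)) .nil)) (.cons 323 (.leaf 299 1812 (.cons 203 (.leaf 227 1621 (.cons 321 (.leaf 297 1806 (.cons 322 (.leaf 345 1998 (.leaf 347 2004 .nil)) .nil)) .nil)) .nil)) .nil))) (.cons 298 (.cons 227 (.leaf 203 1621 (.cons 225 (.leaf 224 1786 (.leaf 201 1615 .nil)) .nil)) (.cons 201 (.leaf 225 1615 (.cons 177 (.leaf 202 1423 (.cons 200 (.leaf 224 1413 (.cons 321 (.leaf 297 1806 (.cons 322 (.leaf 345 1998 (.cons 346 (.leaf 251 2005 (.cons 347 (.leaf 323 2004 (.leaf 371 2196 .nil)) .nil)) .nil)) .nil)) .nil)) .nil))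 .nil)) (.cons 227 (.leaf 203 1621 (.cons 251 (.leaf 322 1813 (.cons 202 (.leaf 178 1428 (.cons 201 (.leaf 177 1423 (.cons 199 (.leaf 200 1592 (.cons 223 (.leaf 175 1404 (.cons 296 (.leaf 224 1599 (.leaf 271 1596 .nil)) .nil)) .nil)) .nil)) .nil)) .nil)) .nil)) (.cons 227 (.leaf 203 1621 (.cons 224 (.leaf 225 1786 (.cons 321 (.leaf 297 1806 (.cons 322 (.leaf 251 1813 (.leaf 345 1998 .nil)) .nil)) .nil)) .nil)) (.cons 227 (.leaf 203 1621 (.cons 201 (.leaf 225 1615 (.cons 177 (.leaf 202 1423 (.cons 321 (.leaf 297 1806 (.cons 322 (.leaf 251 1813 (.leaf 345 1998 .nil)) .nil)) .nil)) .nil)) .nil)) .nil))))) (.cons 299 (.leaf 202 1620 (.cons 323 (.leaf 251 1815 (.leaf 347 2007 .nil)) .nil)) .nil)))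
noncomputable def t40 : T := .cons 320 (.leaf 223 1791 (.cons 225 (.leaf 249 1797 (.cons 224 (.leaf 201 1605 (.cons 321 (.leaf 297 1796 (.leaf 345 1988 .nil)) .nil)) .nil)) .nil)) (.cons 224 (.cons 199 (.leaf 223 1599 (.cons 175 (.leaf 200 1407 (.cons 225 (.leaf 201 1605 (.cons 226 (.leaf 227 1786 (.cons 246 (.leaf 245 1769 (.leaf 249 1777 .nil)) .nil)) .nil)) .nil)) .nil)) (.cons 225 (.leaf 201 1605 (.cons 226 (.leaf 227 1786 (.cons 246 (.leaf 245 1769 (.leaf 249 1777 .nil)) .nil)) .nil)) (.cons 199 (.leaf 223 1599 (.cons 200 (.leaf 175 1407 (.cons 297 (.leaf 273 1604 (.leaf 321 1796 .nil)) .nil)) .nil)) .nil))) (.cons 320 (.cons 271 (.leaf 344 1983 (.cons 319 (.leaf 343 1982 (.cons 321 (.leaf 345 1988 (.cons 224 (.leaf 297 1796 (.cons 200 (.leaf 176 1406 (.cons 201 (.leaf 177 1413 (.leaf 225 1605 .nil)) .nil)) .nil)) .nil)) .nil)) .nil)) (.cons 225 (.leaf 249 1797 (.cons 224 (.leaf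 201 1605 (.cons 321 (.leaf 297 1796 (.leaf 345 1988 .nil)) .nil)) .nil)) (.cons 344 (.leaf 271 1983 (.cons 249 (.leaf 225 1797 (.leaf 273 1989 .nil)) .nil)) (.cons 271 (.leaf 344 1983 (.cons 319 (.leaf 343 1982 (.cons 321 (.leaf 345 1988 (.cons 297 (.leaf 224 1796 (.cons 298 (.leaf 299 2362 (.leaf 318 2353 .nil)) .nil)) .nil)) .nil)) .nil)) .nil)))) (.cons 320 (.leaf 223 1791 (.cons 344 (.leaf 271 1983 (.cons 345 (.leaf 321 1988 (.leaf 369 2180 .nil)) .nil)) .nil)) (.cons 320 (.leaf 223 1791 (.cons 344 (.leaf 271 1983 (.cons 249 (.leaf 225 1797 (.leaf 273 1989 .nil)) .nil)) .nil)) .nil))))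
noncomputable def t41 : T := .cons 273 (.leaf 274 1979 (.cons 246 (.leaf 245 1960 (.cons 249 (.cons 222 (.leaf 221 1771 (.cons 250 (.leaf 223 1779 (.cons 251 (.leaf 271 1978 (.leaf 252 1986 .nil)) .nil)) .nil)) (.cons 225 (.leaf 226 1777 (.cons 201 (.leaf 177 1414 (.leaf 296 1606 .nil)) .nil)) .nil)) .nil)) .nil)) (.cons 249 (.cons 250 (.leaf 274 1976 (.cons 271 (.leaf 251 1978 (.leaf 270 1970 .nil)) .nil)) (.cons 225 (.cons 226 (.leaf 246 1777 (.cons 227 (.leaf 224 1786 (.leaf 228 1794 .nil)) .nil)) (.cons 201 (.leaf 177 1414 (.cons 296 (.leaf 224 1605 (.leaf 320 1797 .nil)) .nil)) (.cons 177 (.leaf 201 1414 (.cons 246 (.leaf 226 1777 (.cons 221 (.leaf 222 1771 (.cons 245 (.leaf 220 1763 (.cons 269 (.leaf 268 1954 (.leaf 270 1962 .nil)) .nil)) .nil)) .nil)) .nil)) .nil))) (.cons 250 (.leaf 274 1976 (.cons 222 (.leaf 223 1779 (.cons 226 (.leaf 227 1785 (.cons 246 (.leaf 221 1771 (.leaf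 225 1777 .nil)) .nil)) .nil)) .nil)) .nil))) (.cons 296 t40 (.cons 273 (.leaf 274 1979 (.cons 246 (.leaf 245 1960 (.cons 223 (.cons 199 (.leaf 175 1404 (.cons 296 (.leaf 224 1599 (.leaf 271 1596 .nil)) .nil)) (.cons 296 (.leaf 320 1791 (.cons 224 (.cons 297 (.leaf 200 1604 (.leaf 321 1796 .nil)) (.cons 225 (.leaf 201 1605 (.leaf 226 1778 .nil)) .nil)) .nil)) (.cons 199 (.leaf 175 1404 (.cons 271 (.cons 200 (.leaf 176 1405 (.cons 224 (.leaf 297 1604 (.cons 201 (.leaf 177 1413 (.cons 202 (.leaf 222 1586 (.leaf 203 1594 .nil)) .nil)) .nil)) .nil)) (.cons 198 (.leaf 174 1399 (.cons 270 (.leaf 294 1590 (.cons 269 (.leaf 268 1953 (.cons 293 (.leaf 292 2146 (.leaf 222 1582 .nil)) .nil)) .nil)) .nil)) (.cons 174 (.leaf 198 1399 (.cons 200 (.leaf 176 1405 (.cons 224 (.leaf 297 1604 (.cons 201 (.leaf 177 1413 (.cons 202 (.leaf 203 1594 (.cons 226 (.leaf 225 1778 (.leaf 227 1592 .nil)) .nil))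 .nil)) .nil)) .nil)) .nil)) .nil))) .nil)) (.cons 199 (.leaf 175 1404 (.cons 296 (.leaf 271 1596 (.leaf 320 1791 .nil)) .nil)) .nil)))) .nil)) .nil)) (.cons 273 (.leaf 274 1979 (.cons 246 (.leaf 245 1960 (.cons 249 (.cons 225 (.leaf 226 1777 (.cons 201 (.leaf 177 1414 (.leaf 296 1606 .nil)) .nil)) (.cons 270 (.leaf 269 1962 (.cons 271 (.leaf 250 1969 (.cons 221 (.leaf 222 1771 (.cons 293 (.leaf 294 2154 (.cons 297 (.leaf 298 2160 (.cons 224 (.leaf 200 1604 (.leaf 321 1799 .nil)) .nil)) .nil)) .nil)) .nil)) .nil)) .nil)) .nil)) .nil)) (.cons 274 (.leaf 273 1979 (.cons 250 (.leaf 249 1976 (.cons 226 t39 .nil)) .nil)) (.cons 274 (.leaf 273 1979 (.cons 250 (.leaf 249 1976 (.cons 226 t38 .nil)) .nil)) (.cons 273 (.leaf 274 1979 (.cons 246 t37 .nil)) .nil)))))))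
noncomputable def t42 : T := .cons 295 (.leaf 274 2170 (.cons 224 (.leaf 319 1790 (.cons 297 (.leaf 200 1604 (.leaf 321 1796 .nil)) .nil)) .nil)) (.cons 320 (.cons 319 (.leaf 343 1982 (.cons 321 (.leaf 345 1988 (.cons 224 (.leaf 297 1796 (.cons 199 (.leaf 223 1599 (.cons 200 (.leaf 175 1407 (.cons 201 (.leaf 177 1413 (.leaf 225 1605 .nil)) .nil)) .nil)) .nil)) .nil)) .nil)) (.cons 249 (.leaf 225 1797 (.leaf 344 1989 .nil)) (.cons 249 (.leaf 344 1989 (.cons 319 (.leaf 343 1982 (.cons 321 (.leaf 345 1988 (.cons 224 (.leaf 297 1796 (.cons 199 (.leaf 223 1599 (.cons 200 (.leaf 175 1407 (.leaf 176 1412 .nil)) .nil)) .nil)) .nil)) .nil)) .nil)) .nil))) (.cons 295 (.leaf 274 2170 (.cons 224 (.leaf 319 1790 (.cons 199 (.leaf 223 1599 (.cons 200 (.leaf 175 1407 (.leaf 271 1598 .nil)) .nil)) .nil)) .nil)) (.cons 295 (.leaf 274 2170 (.cons 294 (.leaf 293 2153 (.cons 297 (.cons 321 (.leaf 345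 1991 (.leaf 322 2352 .nil)) (.cons 269 (.leaf 270 2155 (.cons 318 (.leaf 317 2346 (.cons 298 (.leaf 319 2354 (.cons 299 (.leaf 271 2171 (.leaf 300 2179 .nil)) .nil)) .nil)) .nil)) .nil)) .nil)) .nil)) (.cons 295 (.leaf 274 2170 (.cons 294 (.leaf 293 2153 (.cons 297 (.cons 321 (.leaf 224 1796 (.leaf 345 1991 .nil)) (.cons 200 (.leaf 224 1604 (.cons 270 (.leaf 269 2155 (.cons 271 (.leaf 298 2160 (.cons 245 (.leaf 246 1963 (.cons 249 (.leaf 250 1969 (.cons 225 (.leaf 201 1606 (.leaf 320 1797 .nil)) .nil)) .nil)) .nil)) .nil)) .nil)) (.cons 321 (.leaf 345 1991 (.leaf 322 2352 .nil)) .nil))) .nil)) .nil)) .nil))))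
noncomputable def t43 : T := .cons 225 (.leaf 201 1605 (.cons 199 (.leaf 223 1599 (.cons 320 (.leaf 249 1797 (.cons 343 (.leaf 319 1982 (.cons 344 (.leaf 367 2174 (.cons 345 (.leaf 321 1988 (.leaf 369 2180 .nil)) .nil)) .nil)) .nil)) .nil)) .nil)) (.cons 225 (.leaf 201 1605 (.cons 199 (.leaf 223 1599 (.cons 320 (.leaf 249 1797 (.cons 343 (.leaf 319 1982 (.cons 344 (.leaf 367 2174 (.cons 247 (.leaf 271 1983 (.cons 245 (.leaf 246 1960 (.cons 226 (.leaf 227 1786 (.cons 368 (.leaf 297 2181 (.cons 369 (.leaf 345 2180 (.leaf 393 2372 .nil)) .nil)) .nil)) .nil)) .nil)) .nil)) .nil)) .nil)) .nil)) .nil)) (.cons 321 (.leaf 297 1796 (.cons 199 (.leaf 223 1599 (.cons 320 (.leaf 345 1988 (.cons 343 (.leaf 319 1982 (.cons 344 (.leaf 249 1989 (.leaf 367 2174 .nil)) .nil)) .nil)) .nil)) .nil)) (.cons 297 (.leaf 321 1796 (.cons 223 (.leaf 199 1599 (.cons 225 (.leaf 201 1605 (.cons 295 (.leaf 319 1790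 (.cons 294 (.leaf 293 2153 (.cons 270 (.leaf 269 2155 (.cons 318 (.leaf 317 2346 (.cons 246 (.leaf 247 1781 (.cons 245 (.leaf 271 1963 (.leaf 222 1770 .nil)) .nil)) .nil)) .nil)) .nil)) .nil)) .nil)) .nil)) .nil)) (.cons 297 (.leaf 321 1796 (.cons 201 (.leaf 225 1605 (.cons 295 (.leaf 319 1790 (.cons 294 (.leaf 293 2153 (.cons 270 (.leaf 269 2155 (.cons 271 (.leaf 298 2160 (.cons 245 (.leaf 246 1963 (.cons 249 (.leaf 250 1969 (.cons 318 (.leaf 317 2346 (.cons 342 (.leaf 366 2165 (.leaf 247 1973 .nil)) .nil)) .nil)) .nil)) .nil)) .nil)) .nil)) .nil)) .nil)) .nil)) (.cons 297 (.leaf 321 1796 (.cons 225 (.leaf 201 1605 (.cons 223 (.leaf 199 1599 (.cons 247 (.leaf 320 1791 (.cons 246 (.leaf 245 1960 (.leaf 226 1778 .nil)) .nil)) .nil)) .nil)) .nil)) .nil)))))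
noncomputable def t44 : T := .cons 296 (.cons 199 (.leaf 223 1599 (.cons 201 (.leaf 225 1605 (.cons 321 (.leaf 297 1796 (.cons 320 (.leaf 345 1988 (.cons 343 (.leaf 319 1982 (.cons 344 (.leaf 249 1989 (.leaf 367 2174 .nil)) .nil)) .nil)) .nil)) .nil)) .nil)) (.cons 225 (.leaf 201 1605 (.cons 199 (.leaf 223 1599 (.cons 320 (.leaf 249 1797 (.cons 343 (.leaf 319 1982 (.cons 344 (.leaf 367 2174 (.cons 345 (.leaf 321 1988 (.leaf 369 2180 .nil)) .nil)) .nil)) .nil)) .nil)) .nil)) (.cons 297 (.leaf 200 1604 (.leaf 321 1796 .nil)) (.cons 200 (.leaf 297 1604 (.cons 199 (.leaf 175 1407 (.leaf 223 1599 .nil)) .nil)) .nil)))) (.cons 296 t43 (.cons 200 (.cons 176 (.leaf 249 1412 (.cons 177 (.leaf 201 1413 (.leaf 153 1221 .nil)) .nil)) (.cons 199 (.leaf 175 1407 (.cons 177 (.leaf 201 1413 (.cons 295 (.leaf 271 1598 (.cons 296 (.leaf 223 1599 (.leaf 319 1790 .nil)) .nil)) .nil)) .nil)) (.cons 175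 (.leaf 199 1407 (.cons 176 (.leaf 151 1215 (.leaf 249 1412 .nil)) .nil)) .nil))) (.cons 200 (.leaf 297 1604 (.cons 176 (.leaf 249 1412 (.cons 177 (.leaf 201 1413 (.leaf 153 1221 .nil)) .nil)) .nil)) (.cons 200 (.leaf 297 1604 (.cons 199 (.leaf 175 1407 (.cons 177 (.leaf 201 1413 (.cons 295 (.leaf 271 1598 (.cons 296 (.leaf 223 1599 (.leaf 319 1790 .nil)) .nil)) .nil)) .nil)) .nil)) (.cons 200 (.leaf 297 1604 (.cons 175 (.leaf 199 1407 (.cons 176 (.leaf 151 1215 (.leaf 249 1412 .nil)) .nil)) .nil)) .nil)))))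
noncomputable def t45 : T := .cons 274 (.leaf 247 1979 (.cons 299 (.leaf 300 2176 (.cons 271 (.leaf 298 2168 (.cons 294 (.leaf 295 2162 (.cons 270 (.leaf 293 2154 (.cons 249 (.leaf 269 1961 (.leaf 250 1969 .nil)) .nil)) .nil)) .nil)) .nil)) .nil)) (.cons 224 t44 (.cons 296 t42 (.cons 274 (.leaf 247 1979 (.cons 295 (.leaf 296 2170 (.cons 271 (.leaf 294 2162 (.cons 299 (.leaf 300 2176 (.leaf 298 2168 .nil)) .nil)) .nil)) .nil)) (.cons 274 (.leaf 247 1979 (.cons 296 (.leaf 295 2170 (.cons 299 (.leaf 300 2176 (.cons 224 (.cons 199 (.leaf 223 1599 (.cons 175 (.leaf 200 1407 (.cons 225 (.leaf 201 1605 (.cons 320 (.leaf 249 1797 (.cons 343 (.leaf 319 1982 (.cons 344 (.leaf 367 2174 (.cons 345 (.leaf 321 1988 (.leaf 369 2180 .nil)) .nil)) .nil)) .nil)) .nil)) .nil)) .nil)) (.cons 199 (.leaf 223 1599 (.cons 201 (.leaf 225 1605 (.cons 321 (.leaf 297 1796 (.cons 320 (.leaf 345 1988 (.cons 319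 (.leaf 343 1982 (.cons 322 (.leaf 298 2361 (.cons 347 (.leaf 346 2552 (.cons 323 (.leaf 250 2007 (.leaf 348 2560 .nil)) .nil)) .nil)) .nil)) .nil)) .nil)) .nil)) .nil)) (.cons 199 (.leaf 223 1599 (.cons 200 (.leaf 175 1407 (.leaf 297 1604 .nil)) .nil)) (.cons 297 (.leaf 200 1604 (.leaf 321 1796 .nil)) .nil)))) .nil)) .nil)) .nil)) (.cons 247 (.leaf 274 1979 (.cons 246 (.leaf 245 1960 (.cons 249 (.cons 270 (.leaf 269 1962 (.cons 250 (.leaf 271 1969 (.cons 222 (.leaf 221 1771 (.leaf 223 1779 .nil)) .nil)) .nil)) (.cons 225 (.leaf 226 1777 (.cons 201 (.leaf 177 1414 (.leaf 296 1606 .nil)) .nil)) .nil)) .nil)) .nil)) .nil)))))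
noncomputable def t46 : T := .cons 224 (.cons 199 (.leaf 223 1599 (.cons 175 (.leaf 200 1407 (.cons 225 (.leaf 201 1605 (.cons 320 (.leaf 249 1797 (.cons 343 (.leaf 319 1982 (.cons 344 (.leaf 367 2174 (.cons 345 (.leaf 321 1988 (.leaf 369 2180 .nil)) .nil)) .nil)) .nil)) .nil)) .nil)) .nil)) (.cons 199 (.leaf 223 1599 (.cons 201 (.leaf 225 1605 (.cons 321 (.leaf 297 1796 (.cons 320 (.leaf 345 1988 (.cons 343 (.leaf 319 1982 (.cons 344 (.leaf 249 1989 (.leaf 367 2174 .nil)) .nil)) .nil)) .nil)) .nil)) .nil)) (.cons 199 (.leaf 223 1599 (.cons 200 (.leaf 175 1407 (.leaf 297 1604 .nil)) .nil)) (.cons 297 (.leaf 200 1604 (.leaf 321 1796 .nil)) .nil)))) (.cons 274 (.leaf 295 2170 (.cons 299 (.leaf 300 2176 (.cons 251 (.leaf 252 1985 (.cons 323 (.cons 250 (.leaf 226 1815 (.leaf 347 2007 .nil)) (.cons 322 (.leaf 346 2006 (.cons 227 (.leaf 298 1814 (.cons 202 (.leaf 226 1623 (.cons 178 (.leaf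 203 1431 (.cons 324 (.leaf 348 2012 (.cons 321 (.leaf 297 2371 (.cons 345 (.leaf 320 1988 (.leaf 344 2562 .nil)) .nil)) .nil)) .nil)) .nil)) .nil)) .nil)) (.cons 250 (.leaf 347 2007 (.cons 322 (.leaf 346 2006 (.cons 227 (.leaf 298 1813 (.cons 179 (.leaf 203 1430 (.cons 228 (.leaf 204 1629 (.leaf 249 1793 .nil)) .nil)) .nil)) .nil)) .nil)) .nil))) .nil)) .nil)) .nil)) (.cons 295 (.leaf 274 2170 (.cons 224 (.leaf 319 1790 (.cons 199 (.leaf 223 1599 (.cons 200 (.leaf 175 1407 (.cons 201 (.leaf 177 1413 (.leaf 225 1605 .nil)) .nil)) .nil)) .nil)) .nil)) .nil))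
noncomputable def t47 : T := .cons 224 (.leaf 200 1604 (.cons 296 (.leaf 321 1796 (.cons 199 (.leaf 223 1599 (.cons 319 (.leaf 295 1790 (.cons 320 (.leaf 343 1982 (.cons 344 (.leaf 249 1989 (.leaf 368 2181 .nil)) .nil)) .nil)) .nil)) .nil)) .nil)) (.cons 321 (.leaf 345 1991 (.cons 249 (.cons 250 (.leaf 226 1805 (.cons 251 (.leaf 252 1986 (.cons 227 (.leaf 228 1793 (.cons 320 (.leaf 344 1990 (.cons 322 (.leaf 346 1996 (.cons 298 (.leaf 299 1814 (.leaf 225 1804 .nil)) .nil)) .nil)) .nil)) .nil)) .nil)) (.cons 226 (.leaf 250 1805 (.cons 225 (.leaf 202 1613 (.cons 322 (.leaf 298 1804 (.leaf 346 1996 .nil)) .nil)) .nil)) (.cons 250 (.leaf 226 1805 (.cons 251 (.leaf 252 1986 (.cons 227 (.leaf 228 1793 (.cons 320 (.leaf 344 1990 (.cons 322 (.leaf 346 1996 (.cons 298 (.leaf 299 1814 (.cons 319 (.leaf 318 2353 (.cons 343 (.leaf 296 1982 (.leaf 342 2546 .nil)) .nil)) .nil)) .nil)) .nil)) .nil))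 .nil)) .nil)) (.cons 320 (.leaf 344 1990 (.cons 225 (.leaf 296 1797 (.cons 226 (.leaf 202 1613 (.leaf 250 1805 .nil)) .nil)) .nil)) (.cons 320 (.leaf 344 1990 (.cons 322 (.leaf 346 1996 (.cons 298 (.leaf 225 1804 (.cons 299 (.leaf 300 2370 (.leaf 319 2361 .nil)) .nil)) .nil)) .nil)) .nil))))) .nil)) (.cons 224 (.leaf 200 1604 (.cons 296 (.cons 199 (.leaf 223 1599 (.cons 319 (.leaf 295 1790 (.cons 320 (.leaf 343 1982 (.cons 344 (.leaf 249 1989 (.leaf 368 2181 .nil)) .nil)) .nil)) .nil)) (.cons 223 (.leaf 199 1599 (.cons 225 (.leaf 201 1605 (.cons 295 (.leaf 319 1790 (.cons 294 (.leaf 293 2153 (.cons 270 (.leaf 269 2155 (.cons 318 (.leaf 317 2346 (.cons 246 (.leaf 247 1781 (.cons 245 (.leaf 222 1770 (.leaf 221 1775 .nil)) .nil)) .nil)) .nil)) .nil)) .nil)) .nil)) .nil)) (.cons 201 (.leaf 225 1605 (.cons 319 (.leaf 295 1790 (.cons 320 (.leaf 343 1982 (.cons 344 (.leaf 249 1989 (.leaf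 368 2181 .nil)) .nil)) .nil)) .nil)) (.cons 225 (.leaf 201 1605 (.cons 223 (.leaf 199 1599 (.cons 247 (.leaf 320 1791 (.cons 246 (.leaf 245 1960 (.leaf 226 1778 .nil)) .nil)) .nil)) .nil)) .nil)))) .nil)) (.cons 321 (.leaf 345 1991 (.cons 224 (.leaf 200 1604 (.leaf 249 1799 .nil)) .nil)) (.cons 224 (.leaf 200 1604 (.cons 321 (.leaf 296 1796 (.leaf 345 1991 .nil)) .nil)) .nil))))
noncomputable def t48 : T := .cons 274 (.leaf 247 1979 (.cons 251 (.leaf 252 1985 (.cons 299 (.leaf 300 2176 (.cons 227 (.cons 298 (.leaf 203 1622 (.leaf 322 1814 .nil)) (.cons 202 (.leaf 226 1623 (.cons 203 (.leaf 178 1431 (.cons 204 (.leaf 180 1437 (.leaf 228 1629 .nil)) .nil)) .nil)) (.cons 202 (.leaf 226 1623 (.cons 204 (.leaf 228 1629 (.cons 322 (.leaf 298 1814 (.cons 323 (.leaf 346 2006 (.cons 347 (.leaf 250 2007 (.cons 348 (.leaf 324 2012 (.leaf 372 2204 .nil)) .nil)) .nil)) .nil)) .nil)) .nil)) .nil)))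 .nil)) .nil)) .nil)) (.cons 297 t47 (.cons 296 t46 (.cons 274 (.leaf 247 1979 (.cons 296 (.leaf 295 2170 (.cons 299 (.leaf 300 2176 (.cons 224 (.cons 199 (.leaf 223 1599 (.cons 175 (.leaf 200 1407 (.cons 225 (.leaf 201 1605 (.cons 320 (.leaf 249 1797 (.cons 343 (.leaf 319 1982 (.cons 344 (.leaf 367 2174 (.cons 345 (.leaf 321 1988 (.leaf 369 2180 .nil)) .nil)) .nil)) .nil)) .nil)) .nil)) .nil)) (.cons 199 (.leaf 223 1599 (.cons 201 (.leaf 225 1605 (.cons 321 (.leaf 297 1796 (.cons 320 (.leaf 345 1988 (.cons 319 (.leaf 343 1982 (.cons 322 (.leaf 298 2361 (.cons 347 (.leaf 346 2552 (.cons 323 (.leaf 250 2007 (.leaf 348 2560 .nil)) .nil)) .nil)) .nil)) .nil)) .nil)) .nil)) .nil)) (.cons 199 (.leaf 223 1599 (.cons 200 (.leaf 175 1407 (.leaf 297 1604 .nil)) .nil)) (.cons 297 (.leaf 200 1604 (.leaf 321 1796 .nil)) .nil)))) .nil)) .nil)) .nil)) (.cons 274 (.leaf 247 1979 (.cons 296 (.leaf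 295 2170 (.cons 251 (.leaf 252 1985 (.cons 224 (.cons 199 (.leaf 223 1599 (.cons 175 (.leaf 200 1407 (.cons 225 (.leaf 201 1605 (.cons 320 (.leaf 249 1797 (.cons 343 (.leaf 319 1982 (.cons 344 (.leaf 367 2174 (.cons 345 (.leaf 321 1988 (.leaf 369 2180 .nil)) .nil)) .nil)) .nil)) .nil)) .nil)) .nil)) (.cons 199 (.leaf 223 1599 (.cons 200 (.leaf 175 1407 (.leaf 297 1604 .nil)) .nil)) (.cons 199 (.leaf 223 1599 (.cons 201 (.leaf 225 1605 (.cons 321 (.leaf 297 1796 (.cons 320 (.leaf 345 1988 (.cons 343 (.leaf 319 1982 (.cons 344 (.leaf 249 1989 (.leaf 367 2174 .nil)) .nil)) .nil)) .nil)) .nil)) .nil)) (.cons 297 (.leaf 200 1604 (.leaf 321 1796 .nil)) .nil)))) .nil)) .nil)) .nil)) .nil))))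
noncomputable def t49 : T := .cons 296 (.leaf 295 2170 (.cons 251 (.leaf 252 1985 (.cons 299 (.leaf 300 2176 (.cons 298 (.leaf 271 2168 (.cons 227 (.leaf 203 1622 (.leaf 322 1814 .nil)) .nil)) .nil)) .nil)) .nil)) (.cons 295 (.leaf 296 2170 (.cons 251 (.leaf 252 1985 (.cons 271 (.leaf 250 1977 (.leaf 294 2162 .nil)) .nil)) .nil)) (.cons 295 (.leaf 296 2170 (.cons 271 (.leaf 294 2162 (.cons 299 (.leaf 300 2176 (.leaf 298 2168 .nil)) .nil)) .nil)) (.cons 299 (.leaf 300 2176 (.cons 251 (.leaf 252 1985 (.cons 298 (.leaf 271 2168 (.cons 227 (.leaf 203 1622 (.leaf 322 1814 .nil)) .nil)) .nil)) .nil)) (.cons 296 (.leaf 295 2170 (.cons 299 (.leaf 300 2176 (.cons 251 (.leaf 252 1985 (.cons 323 (.cons 250 (.leaf 226 1815 (.leaf 347 2007 .nil)) (.cons 322 (.leaf 346 2006 (.cons 227 (.leaf 298 1814 (.cons 202 (.leaf 226 1623 (.cons 178 (.leaf 203 1431 (.cons 324 (.leaf 348 2012 (.cons 321 (.leaf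 297 2371 (.cons 345 (.leaf 320 1988 (.leaf 344 2562 .nil)) .nil)) .nil)) .nil)) .nil)) .nil)) .nil)) (.cons 250 (.leaf 347 2007 (.cons 322 (.leaf 346 2006 (.cons 227 (.leaf 298 1813 (.cons 179 (.leaf 203 1430 (.cons 228 (.leaf 204 1629 (.cons 324 (.leaf 348 2012 (.cons 321 (.leaf 297 2371 (.cons 345 (.leaf 320 1988 (.leaf 344 2562 .nil)) .nil)) .nil)) .nil)) .nil)) .nil)) .nil)) .nil)) .nil))) .nil)) .nil)) .nil)) .nil))))
noncomputable def t50 : T := .cons 200 (.leaf 297 1604 (.cons 175 (.leaf 199 1407 (.cons 176 (.leaf 151 1215 (.cons 271 (.leaf 295 1598 (.leaf 247 1406 .nil)) .nil)) .nil)) .nil)) (.cons 296 (.cons 201 (.leaf 225 1605 (.cons 295 (.leaf 319 1790 (.cons 294 (.leaf 293 2153 (.cons 297 (.leaf 321 1796 (.cons 270 (.leaf 269 2155 (.cons 271 (.leaf 298 2160 (.cons 245 (.leaf 246 1963 (.cons 318 (.leaf 317 2346 (.cons 342 (.leaf 366 2165 (.leaf 247 1973 .nil)) .nil)) .nil))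 .nil)) .nil)) .nil)) .nil)) .nil)) .nil)) (.cons 223 (.leaf 199 1599 (.cons 201 (.leaf 225 1605 (.cons 247 (.leaf 320 1791 (.cons 245 (.leaf 246 1960 (.cons 295 (.leaf 319 1790 (.cons 294 (.leaf 293 2153 (.cons 271 (.leaf 318 1782 (.cons 222 (.leaf 198 1591 (.cons 221 (.leaf 220 1760 (.leaf 244 1762 .nil)) .nil)) .nil)) .nil)) .nil)) .nil)) .nil)) .nil)) .nil)) (.cons 321 (.leaf 297 1796 (.cons 201 (.leaf 225 1605 (.cons 223 (.leaf 199 1599 (.cons 320 (.leaf 247 1791 (.leaf 345 1988 .nil)) .nil)) .nil)) .nil)) (.cons 321 (.leaf 297 1796 (.cons 199 (.leaf 223 1599 (.cons 319 (.leaf 295 1790 (.cons 320 (.leaf 343 1982 (.leaf 345 1988 .nil)) .nil)) .nil)) .nil)) .nil)))) (.cons 200 (.cons 175 (.leaf 199 1407 (.cons 176 (.leaf 151 1215 (.cons 271 (.leaf 295 1598 (.leaf 247 1406 .nil)) .nil)) .nil)) (.cons 271 (.leaf 295 1598 (.cons 176 (.leaf 247 1406 (.cons 177 (.leaf 201 1413 (.leaf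 153 1221 .nil)) .nil)) .nil)) (.cons 199 (.leaf 175 1407 (.cons 177 (.leaf 201 1413 (.cons 176 (.leaf 153 1221 (.cons 178 (.leaf 179 1402 (.cons 197 (.leaf 198 1385 (.cons 223 (.leaf 296 1599 (.cons 152 (.leaf 247 1214 (.leaf 128 1022 .nil)) .nil)) .nil)) .nil)) .nil)) .nil)) .nil)) (.cons 199 (.leaf 175 1407 (.cons 177 (.leaf 201 1413 (.cons 295 (.leaf 271 1598 (.cons 296 (.leaf 223 1599 (.leaf 319 1790 .nil)) .nil)) .nil)) .nil)) .nil)))) (.cons 200 (.leaf 297 1604 (.cons 199 (.leaf 175 1407 (.cons 177 (.leaf 201 1413 (.cons 295 (.leaf 271 1598 (.cons 296 (.leaf 223 1599 (.leaf 319 1790 .nil)) .nil)) .nil)) .nil)) .nil)) (.cons 200 (.leaf 297 1604 (.cons 199 (.leaf 175 1407 (.cons 177 (.leaf 201 1413 (.cons 176 (.leaf 153 1221 (.cons 178 (.leaf 179 1402 (.cons 197 (.leaf 198 1385 (.cons 223 (.leaf 296 1599 (.cons 152 (.leaf 247 1214 (.leaf 128 1022 .nil)) .nil)) .nil)) .nil)) .nil))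 .nil)) .nil)) .nil)) (.cons 200 (.leaf 297 1604 (.cons 271 (.leaf 295 1598 (.cons 176 (.leaf 247 1406 (.cons 177 (.leaf 201 1413 (.leaf 153 1221 .nil)) .nil)) .nil)) .nil)) .nil)))))
noncomputable def t51 : T := .cons 274 (.leaf 247 1979 (.cons 296 (.leaf 295 2170 (.cons 251 (.leaf 252 1985 (.cons 299 (.leaf 300 2176 (.cons 298 (.leaf 271 2168 (.cons 227 (.leaf 203 1622 (.leaf 322 1814 .nil)) .nil)) .nil)) .nil)) .nil)) .nil)) (.cons 224 t50 (.cons 274 t49 (.cons 274 (.leaf 247 1979 (.cons 251 (.leaf 252 1985 (.cons 299 (.leaf 300 2176 (.cons 298 (.leaf 271 2168 (.cons 227 (.leaf 203 1622 (.leaf 322 1814 .nil)) .nil)) .nil)) .nil)) .nil)) (.cons 274 (.leaf 247 1979 (.cons 296 (.leaf 295 2170 (.cons 299 (.leaf 300 2176 (.cons 251 (.leaf 252 1985 (.cons 323 (.cons 250 (.leaf 226 1815 (.leaf 347 2007 .nil)) (.cons 322 (.leaf 346 2006 (.cons 227 (.leaf 298 1814 (.cons 202 (.leaf 226 1623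 (.cons 178 (.leaf 203 1431 (.cons 324 (.leaf 348 2012 (.cons 321 (.leaf 297 2371 (.cons 345 (.leaf 320 1988 (.leaf 344 2562 .nil)) .nil)) .nil)) .nil)) .nil)) .nil)) .nil)) (.cons 250 (.leaf 347 2007 (.cons 322 (.leaf 346 2006 (.cons 227 (.leaf 298 1813 (.cons 179 (.leaf 203 1430 (.cons 228 (.leaf 204 1629 (.cons 324 (.leaf 348 2012 (.cons 321 (.leaf 297 2371 (.cons 345 (.leaf 320 1988 (.leaf 344 2562 .nil)) .nil)) .nil)) .nil)) .nil)) .nil)) .nil)) .nil)) .nil))) .nil)) .nil)) .nil)) .nil)) (.cons 274 (.leaf 247 1979 (.cons 295 (.leaf 296 2170 (.cons 251 (.leaf 252 1985 (.cons 271 (.leaf 250 1977 (.leaf 294 2162 .nil)) .nil)) .nil)) .nil)) .nil)))))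
noncomputable def t52 : T := .cons 175 (.leaf 199 1407 (.cons 176 (.leaf 151 1215 (.cons 177 (.leaf 201 1413 (.leaf 153 1221 .nil)) .nil)) .nil)) (.cons 201 (.leaf 177 1413 (.cons 225 (.leaf 296 1605 (.cons 273 (.leaf 297 1604 (.cons 176 (.leaf 249 1412 (.cons 128 (.leaf 152 1028 (.cons 151 (.leaf 175 1215 (.cons 247 (.leaf 271 1406 (.cons 246 (.leaf 245 1960 (.cons 226 (.leaf 227 1786 (.leaf 223 1778 .nil)) .nil)) .nil)) .nil)) .nil)) .nil)) .nil)) .nil)) .nil)) (.cons 199 (.leaf 175 1407 (.cons 223 (.leaf 296 1599 (.cons 273 (.leaf 297 1604 (.cons 176 (.leaf 249 1412 (.cons 247 (.leaf 271 1405 (.leaf 152 1214 .nil)) .nil)) .nil)) .nil)) .nil)) (.cons 201 (.leaf 177 1413 (.cons 225 (.leaf 296 1605 (.cons 273 (.leaf 297 1604 (.cons 176 (.leaf 249 1412 (.cons 128 (.leaf 152 1028 (.cons 247 (.leaf 271 1406 (.cons 246 (.leaf 245 1960 (.cons 226 (.leaf 227 1786 (.leaf 223 1778 .nil)) .nil))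 .nil)) .nil)) .nil)) .nil)) .nil)) .nil)) (.cons 199 (.leaf 175 1407 (.cons 177 (.leaf 201 1413 (.cons 296 (.leaf 223 1599 (.cons 297 (.leaf 273 1604 (.leaf 321 1796 .nil)) .nil)) .nil)) .nil)) .nil))))
noncomputable def t53 : T := .cons 271 (.leaf 295 1598 (.cons 175 (.leaf 199 1407 (.cons 176 (.leaf 151 1215 (.leaf 247 1406 .nil)) .nil)) .nil)) (.cons 273 (.leaf 297 1604 (.cons 175 (.leaf 199 1407 (.cons 176 (.leaf 151 1215 (.leaf 249 1412 .nil)) .nil)) .nil)) (.cons 271 (.leaf 295 1598 (.cons 176 (.leaf 247 1406 (.cons 177 (.leaf 201 1413 (.leaf 153 1221 .nil)) .nil)) .nil)) (.cons 199 (.leaf 175 1407 (.cons 201 (.leaf 177 1413 (.cons 271 (.leaf 295 1598 (.cons 273 (.leaf 297 1604 (.cons 198 (.cons 173 (.leaf 174 1387 (.cons 172 (.leaf 197 1379 (.cons 222 (.leaf 221 1578 (.cons 202 (.leaf 223 1586 (.cons 179 (.leaf 178 1401 (.cons 203 (.leaf 180 1409 (.cons 227 (.leaf 226 1592 (.leaf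 228 1600 .nil)) .nil)) .nil)) .nil)) .nil)) .nil)) .nil)) (.cons 173 (.leaf 174 1387 (.cons 197 (.leaf 225 1576 (.leaf 172 1379 .nil)) .nil)) (.cons 173 (.leaf 174 1387 (.cons 221 (.leaf 222 1578 (.cons 226 (.leaf 225 1584 (.cons 202 (.leaf 227 1592 (.cons 178 (.leaf 179 1401 (.cons 250 (.leaf 251 1428 (.leaf 249 1422 .nil)) .nil)) .nil)) .nil)) .nil)) .nil)) (.cons 225 (.leaf 197 1576 (.leaf 226 1584 .nil)) .nil)))) .nil)) .nil)) .nil)) .nil)) .nil)))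
noncomputable def t54 : T := .cons 223 (.leaf 199 1599 (.cons 225 (.leaf 201 1605 (.cons 297 (.leaf 321 1796 (.cons 295 (.leaf 319 1790 (.cons 222 (.cons 197 (.leaf 198 1579 (.cons 196 (.leaf 221 1571 (.cons 246 (.leaf 245 1770 (.cons 226 (.leaf 247 1778 (.cons 249 (.leaf 320 1797 (.leaf 250 1776 .nil)) .nil)) .nil)) .nil)) .nil)) (.cons 197 (.leaf 198 1579 (.cons 196 (.leaf 221 1571 (.cons 246 (.leaf 245 1770 (.cons 226 (.leaf 247 1778 (.cons 251 (.leaf 250 1784 (.cons 202 (.leaf 203 1593 (.cons 227 (.leaf 299 1623 (.leaf 252 1792 .nil)) .nil)) .nil)) .nil)) .nil)) .nil)) .nil)) (.cons 197 (.leaf 198 1579 (.cons 221 (.leaf 249 1768 (.leaf 196 1571 .nil)) .nil)) (.cons 197 (.leaf 198 1579 (.cons 245 (.leaf 246 1770 (.cons 250 (.leaf 249 1776 (.cons 226 (.leaf 251 1784 (.cons 203 (.leaf 202 1593 (.cons 227 (.leaf 247 1786 (.leaf 204 1601 .nil)) .nil)) .nil)) .nil)) .nil)) .nil)) (.cons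 249 (.leaf 320 1797 (.leaf 221 1768 .nil)) .nil))))) .nil)) .nil)) .nil)) .nil)) (.cons 225 (.leaf 201 1605 (.cons 295 (.leaf 319 1790 (.cons 320 (.leaf 249 1797 (.cons 321 (.leaf 297 1796 (.leaf 345 1988 .nil)) .nil)) .nil)) .nil)) (.cons 223 (.leaf 199 1599 (.cons 320 (.leaf 247 1791 (.cons 321 (.leaf 297 1796 (.leaf 345 1988 .nil)) .nil)) .nil)) (.cons 223 (.leaf 199 1599 (.cons 201 (.leaf 225 1605 (.cons 319 (.leaf 295 1790 (.cons 320 (.leaf 247 1791 (.leaf 343 1982 .nil)) .nil)) .nil)) .nil)) (.cons 223 (.leaf 199 1599 (.cons 225 (.leaf 201 1605 (.cons 297 (.leaf 321 1796 (.cons 295 (.leaf 319 1790 (.cons 222 (.cons 197 (.leaf 198 1579 (.cons 196 (.leaf 221 1571 (.cons 246 (.leaf 245 1770 (.cons 226 (.leaf 247 1778 (.cons 251 (.leaf 250 1784 (.cons 202 (.leaf 203 1593 (.cons 227 (.leaf 299 1623 (.leaf 252 1792 .nil)) .nil)) .nil)) .nil)) .nil)) .nil)) .nil)) (.cons 197 (.leaf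 198 1579 (.cons 245 (.leaf 246 1770 (.cons 250 (.leaf 249 1776 (.cons 226 (.leaf 251 1784 (.cons 203 (.leaf 202 1593 (.cons 227 (.leaf 247 1786 (.leaf 204 1601 .nil)) .nil)) .nil)) .nil)) .nil)) .nil)) (.cons 197 (.leaf 198 1579 (.cons 221 (.leaf 249 1768 (.leaf 196 1571 .nil)) .nil)) (.cons 249 (.leaf 221 1768 (.leaf 250 1776 .nil)) .nil)))) .nil)) .nil)) .nil)) .nil)) .nil))))
noncomputable def t55 : T := .cons 200 (.cons 177 (.leaf 201 1413 (.cons 176 (.leaf 153 1221 (.cons 271 (.leaf 295 1598 (.leaf 247 1406 .nil)) .nil)) .nil)) (.cons 175 (.leaf 199 1407 (.cons 295 (.leaf 271 1598 (.cons 296 (.leaf 319 1790 (.cons 297 (.leaf 273 1604 (.leaf 321 1796 .nil)) .nil)) .nil)) .nil)) (.cons 177 (.leaf 201 1413 (.cons 176 (.leaf 153 1221 (.cons 273 (.leaf 297 1604 (.leaf 249 1412 .nil)) .nil)) .nil)) .nil))) (.cons 296 t54 (.cons 200 t53 (.cons 296 (.cons 201 (.leaf 225 1605 (.cons 200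 (.leaf 177 1413 (.cons 271 (.leaf 295 1598 (.cons 247 (.leaf 176 1406 (.cons 320 (.leaf 223 1791 (.leaf 344 1983 .nil)) .nil)) .nil)) .nil)) .nil)) (.cons 295 (.leaf 319 1790 (.cons 271 (.leaf 200 1598 (.cons 297 (.leaf 321 1796 (.cons 298 (.leaf 299 2171 (.leaf 270 2163 .nil)) .nil)) .nil)) .nil)) (.cons 201 (.leaf 225 1605 (.cons 200 (.leaf 177 1413 (.cons 297 (.leaf 273 1604 (.leaf 321 1796 .nil)) .nil)) .nil)) (.cons 201 (.leaf 225 1605 (.cons 297 (.leaf 321 1796 (.cons 319 (.leaf 295 1790 (.cons 320 (.leaf 343 1982 (.cons 247 (.leaf 223 1791 (.cons 271 (.leaf 344 1983 (.cons 298 (.leaf 299 2362 (.cons 270 (.leaf 269 2152 (.leaf 273 2160 .nil)) .nil)) .nil)) .nil)) .nil)) .nil)) .nil)) .nil)) .nil)))) (.cons 296 (.cons 199 (.leaf 223 1599 (.cons 200 (.leaf 175 1407 (.cons 295 (.leaf 271 1598 (.leaf 319 1790 .nil)) .nil)) .nil)) (.cons 297 (.leaf 321 1796 (.cons 200 (.leaf 273 1604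 (.cons 295 (.leaf 271 1598 (.leaf 319 1790 .nil)) .nil)) .nil)) (.cons 223 (.leaf 199 1599 (.cons 320 (.leaf 247 1791 (.cons 321 (.leaf 297 1796 (.leaf 345 1988 .nil)) .nil)) .nil)) .nil))) (.cons 200 t52 (.cons 200 (.cons 175 (.leaf 199 1407 (.cons 201 (.leaf 177 1413 (.cons 295 (.leaf 271 1598 (.cons 296 (.leaf 225 1605 (.leaf 319 1790 .nil)) .nil)) .nil)) .nil)) (.cons 177 (.leaf 201 1413 (.cons 176 (.leaf 153 1221 (.cons 271 (.leaf 295 1598 (.leaf 247 1406 .nil)) .nil)) .nil)) (.cons 175 (.leaf 199 1407 (.cons 176 (.leaf 151 1215 (.cons 271 (.leaf 295 1598 (.leaf 247 1406 .nil)) .nil)) .nil)) (.cons 201 (.leaf 177 1413 (.cons 175 (.leaf 199 1407 (.cons 176 (.leaf 151 1215 (.cons 173 (.leaf 174 1384 (.cons 202 (.leaf 203 1403 (.cons 225 (.leaf 296 1605 (.cons 249 (.leaf 273 1412 (.leaf 152 1220 .nil)) .nil)) .nil)) .nil)) .nil)) .nil)) .nil)) .nil)))) (.cons 200 (.cons 177 (.leaf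 201 1413 (.cons 176 (.leaf 153 1221 (.cons 273 (.leaf 297 1604 (.leaf 249 1412 .nil)) .nil)) .nil)) (.cons 175 (.leaf 199 1407 (.cons 151 (.leaf 176 1215 (.cons 295 (.leaf 271 1598 (.cons 296 (.leaf 319 1790 (.cons 297 (.leaf 273 1604 (.leaf 321 1796 .nil)) .nil)) .nil)) .nil)) .nil)) (.cons 201 (.leaf 177 1413 (.cons 175 (.leaf 199 1407 (.cons 295 (.leaf 271 1598 (.cons 296 (.leaf 225 1605 (.leaf 319 1790 .nil)) .nil)) .nil)) .nil)) .nil))) .nil)))))))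
noncomputable def t56 : T := .leaf 245 1960 (.cons 249 (.cons 221 (.leaf 222 1771 (.cons 226 (.leaf 225 1777 (.cons 250 (.leaf 227 1785 (.cons 251 (.leaf 271 1978 (.leaf 252 1986 .nil)) .nil)) .nil)) .nil)) (.cons 222 (.leaf 221 1771 (.cons 225 (.leaf 226 1777 (.cons 201 (.leaf 177 1414 (.cons 200 (.leaf 176 1415 (.cons 202 (.leaf 178 1421 (.cons 199 (.leaf 223 1586 (.cons 174 (.leaf 175 1395 (.cons 198 (.leaf 271 1396 (.leaf 173 1387 .nil)) .nil)) .nil)) .nil)) .nil)) .nil)) .nil)) .nil)) (.cons 225 (.leaf 226 1777 (.cons 177 (.leaf 201 1414 (.cons 270 (.leaf 269 1962 (.cons 271 (.leaf 250 1969 (.cons 294 (.leaf 293 2154 (.cons 223 (.leaf 199 1590 (.leaf 318 1781 .nil)) .nil)) .nil)) .nil)) .nil)) .nil)) (.cons 270 (.leaf 269 1962 (.cons 250 (.leaf 271 1969 (.cons 222 (.leaf 221 1771 (.leaf 223 1779 .nil)) .nil)) .nil)) (.cons 225 (.leaf 226 1777 (.cons 177 (.leaf 201 1414 (.cons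 222 (.leaf 221 1771 (.cons 223 (.leaf 250 1779 (.cons 199 (.leaf 175 1404 (.cons 270 (.leaf 269 1962 (.leaf 294 1589 .nil)) .nil)) .nil)) .nil)) .nil)) .nil)) .nil))))) .nil)
noncomputable def t57 : T := .cons 323 (.leaf 347 2007 (.cons 226 (.leaf 202 1620 (.leaf 251 1815 .nil)) .nil)) (.cons 226 (.leaf 202 1620 (.cons 298 (.cons 201 (.leaf 225 1615 (.cons 321 (.leaf 297 1806 (.cons 322 (.leaf 345 1998 (.cons 346 (.leaf 251 2005 (.leaf 370 2197 .nil)) .nil)) .nil)) .nil)) (.cons 225 (.leaf 201 1615 (.cons 227 (.leaf 203 1621 (.cons 251 (.leaf 322 1813 (.cons 228 (.leaf 204 1629 (.cons 253 (.leaf 252 1800 (.cons 229 (.leaf 230 1810 (.leaf 254 1808 .nil)) .nil)) .nil)) .nil)) .nil)) .nil)) (.cons 201 (.leaf 225 1615 (.cons 203 (.leaf 227 1621 (.cons 297 (.leaf 321 1806 (.cons 296 (.leaf 295 2169 (.leaf 271 2171 .nil)) .nil)) .nil)) .nil)) (.cons 203 (.leaf 227 1621 (.cons 321 (.leaf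 297 1806 (.cons 322 (.leaf 345 1998 (.cons 346 (.leaf 251 2005 (.leaf 370 2197 .nil)) .nil)) .nil)) .nil)) .nil)))) .nil)) (.cons 323 (.leaf 347 2007 (.cons 251 (.cons 322 (.leaf 346 2006 (.cons 227 (.leaf 298 1813 (.cons 324 (.leaf 300 1820 (.leaf 348 2012 .nil)) .nil)) .nil)) (.cons 228 (.leaf 252 1821 (.cons 227 (.leaf 204 1629 (.cons 203 (.leaf 298 1622 (.leaf 179 1430 .nil)) .nil)) .nil)) (.cons 252 (.leaf 228 1821 (.cons 253 (.leaf 254 2002 (.cons 229 (.leaf 230 1809 (.cons 277 (.leaf 278 2000 (.cons 324 (.leaf 348 2012 (.cons 301 (.leaf 300 1830 (.cons 302 (.leaf 326 1836 (.cons 322 (.leaf 346 2006 (.leaf 325 2385 .nil)) .nil)) .nil)) .nil)) .nil)) .nil)) .nil)) .nil)) .nil))) .nil)) (.cons 226 (.leaf 202 1620 (.cons 323 (.leaf 347 2007 (.leaf 298 1812 .nil)) .nil)) .nil)))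
noncomputable def t58 : T := .cons 295 (.leaf 293 2153 (.cons 271 (.cons 223 (.leaf 199 1596 (.leaf 318 1782 .nil)) (.cons 319 (.leaf 343 1981 (.leaf 222 1783 .nil)) .nil)) .nil)) (.cons 270 (.cons 223 (.leaf 318 1781 (.cons 199 (.leaf 175 1404 (.leaf 271 1596 .nil)) .nil)) (.cons 223 (.leaf 318 1781 (.cons 199 (.leaf 175 1404 (.leaf 222 1589 .nil)) .nil)) (.cons 271 (.leaf 293 2154 (.cons 269 (.leaf 297 2152 (.leaf 268 1953 .nil)) .nil)) .nil))) (.cons 223 (.cons 318 (.leaf 270 1781 (.cons 295 (.leaf 271 1782 (.cons 297 (.leaf 317 2346 (.cons 321 (.leaf 345 1991 (.leaf 322 2352 .nil)) .nil)) .nil)) .nil)) (.cons 199 (.leaf 175 1404 (.leaf 271 1596 .nil)) (.cons 199 (.leaf 175 1404 (.cons 270 (.leaf 318 1781 (.leaf 222 1589 .nil)) .nil)) .nil))) (.cons 295 (.leaf 293 2153 (.cons 297 (.cons 321 (.leaf 345 1991 (.leaf 322 2352 .nil)) (.cons 269 (.leaf 270 2155 (.cons 318 (.leaf 317 2346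 (.cons 298 (.leaf 319 2354 (.cons 299 (.leaf 300 2179 (.cons 323 (.leaf 322 2360 (.leaf 324 2368 .nil)) .nil)) .nil)) .nil)) .nil)) (.cons 270 (.leaf 269 2155 (.cons 318 (.leaf 223 1781 (.leaf 317 2346 .nil)) .nil)) .nil))) .nil)) (.cons 293 (.leaf 295 2153 (.cons 270 (.leaf 271 2154 (.cons 222 (.leaf 317 1774 (.cons 197 (.leaf 221 1583 (.cons 198 (.leaf 173 1391 (.leaf 269 1582 .nil)) .nil)) .nil)) .nil)) .nil)) .nil))))
noncomputable def t59 : T := .cons 320 (.leaf 223 1791 (.cons 345 (.leaf 321 1988 (.cons 319 (.leaf 343 1982 (.cons 344 (.leaf 271 1983 (.leaf 369 2180 .nil)) .nil)) .nil)) .nil)) (.cons 294 t58 (.cons 320 (.cons 345 (.leaf 321 1988 (.cons 319 (.leaf 343 1982 (.cons 344 (.leaf 271 1983 (.leaf 369 2180 .nil)) .nil)) .nil)) (.cons 321 (.leaf 345 1988 (.cons 319 (.leaf 343 1982 (.cons 295 (.cons 294 (.leaf 293 2344 (.leaf 322 2355 .nil)) (.cons 222 (.leaf 271 1783 (.cons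 322 (.leaf 323 2363 (.cons 298 (.leaf 299 2361 (.cons 297 (.leaf 318 2353 (.cons 346 (.leaf 370 2191 (.leaf 347 2552 .nil)) .nil)) .nil)) .nil)) .nil)) (.cons 293 (.leaf 294 2344 (.cons 271 (.leaf 222 1783 (.cons 318 (.leaf 342 1974 (.cons 297 (.leaf 298 2353 (.leaf 317 2345 .nil)) .nil)) .nil)) .nil)) .nil))) .nil)) .nil)) (.cons 344 (.leaf 271 1983 (.cons 343 (.leaf 319 1982 (.leaf 367 2174 .nil)) .nil)) (.cons 344 (.leaf 271 1983 (.cons 345 (.leaf 321 1988 (.leaf 369 2180 .nil)) .nil)) (.cons 345 (.leaf 321 1988 (.cons 319 (.leaf 343 1982 (.cons 344 (.leaf 369 2180 (.cons 297 (.leaf 368 2181 (.cons 318 (.leaf 317 2536 (.cons 298 (.leaf 295 2354 (.leaf 299 2362 .nil)) .nil)) .nil)) .nil)) .nil)) .nil)) .nil))))) (.cons 320 (.leaf 223 1791 (.cons 345 (.leaf 321 1988 (.cons 319 (.leaf 343 1982 (.cons 344 (.leaf 369 2180 (.cons 297 (.leaf 368 2181 (.cons 318 (.leaf 317 2536 (.cons 298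 (.leaf 295 2354 (.leaf 299 2362 .nil)) .nil)) .nil)) .nil)) .nil)) .nil)) .nil)) (.cons 223 (.leaf 320 1791 (.cons 199 (.leaf 175 1404 (.leaf 271 1596 .nil)) .nil)) .nil))))
noncomputable def t60 : T := .cons 225 (.leaf 226 1777 (.cons 177 (.leaf 201 1414 (.cons 269 (.leaf 270 1962 (.cons 245 (.leaf 268 1954 (.cons 220 (.leaf 221 1763 (.cons 244 (.leaf 271 1952 (.leaf 219 1755 .nil)) .nil)) .nil)) .nil)) .nil)) .nil)) (.cons 225 (.leaf 226 1777 (.cons 177 (.leaf 201 1414 (.cons 221 (.leaf 222 1771 (.cons 245 (.leaf 220 1763 (.cons 244 (.leaf 271 1952 (.cons 268 (.leaf 269 1954 (.leaf 267 1946 .nil)) .nil)) .nil)) .nil)) .nil)) .nil)) (.cons 225 (.leaf 226 1777 (.cons 177 (.leaf 201 1414 (.cons 221 (.leaf 222 1771 (.cons 245 (.leaf 220 1763 (.cons 271 (.leaf 244 1952 (.cons 250 (.leaf 251 1978 (.leaf 270 1970 .nil)) .nil)) .nil)) .nil)) .nil)) .nil)) (.cons 225 (.leaf 226 1777 (.cons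 177 (.leaf 201 1414 (.cons 221 (.leaf 222 1771 (.cons 245 (.leaf 220 1763 (.cons 269 (.leaf 268 1954 (.leaf 270 1962 .nil)) .nil)) .nil)) .nil)) .nil)) (.cons 270 (.leaf 269 1962 (.cons 222 (.leaf 221 1771 (.cons 250 (.leaf 223 1779 (.leaf 271 1970 .nil)) .nil)) .nil)) (.cons 270 (.leaf 269 1962 (.cons 226 (.leaf 225 1777 (.cons 250 (.leaf 227 1785 (.leaf 271 1970 .nil)) .nil)) .nil)) .nil)))))
noncomputable def t61 : T := .cons 222 (.leaf 221 1771 (.cons 223 (.leaf 250 1779 (.cons 175 (.leaf 199 1404 (.cons 270 (.leaf 269 1962 (.cons 294 (.leaf 318 1781 (.cons 293 (.leaf 317 1774 (.cons 271 (.leaf 273 2154 (.cons 295 (.leaf 292 2145 (.leaf 198 1588 .nil)) .nil)) .nil)) .nil)) .nil)) .nil)) .nil)) .nil)) (.cons 225 (.leaf 226 1777 (.cons 177 (.leaf 201 1414 (.cons 222 (.leaf 221 1771 (.cons 223 (.leaf 250 1779 (.cons 296 (.leaf 320 1797 (.cons 199 (.leaf 175 1404 (.leaf 271 1596 .nil))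 .nil)) .nil)) .nil)) .nil)) .nil)) (.cons 225 (.leaf 226 1777 (.cons 177 (.leaf 201 1414 (.cons 270 (.leaf 269 1962 (.cons 271 (.leaf 250 1970 (.cons 296 (.leaf 320 1797 (.cons 223 (.leaf 199 1596 (.cons 294 (.leaf 318 1781 (.cons 293 (.leaf 273 2154 (.cons 292 (.leaf 295 2145 (.leaf 291 2137 .nil)) .nil)) .nil)) .nil)) .nil)) .nil)) .nil)) .nil)) .nil)) (.cons 225 (.leaf 226 1777 (.cons 177 (.leaf 201 1414 (.cons 222 (.leaf 221 1771 (.cons 223 (.leaf 250 1779 (.cons 296 (.leaf 320 1797 (.cons 175 (.leaf 199 1404 (.cons 270 (.leaf 269 1962 (.cons 294 (.leaf 318 1781 (.cons 293 (.leaf 317 1774 (.cons 295 (.leaf 273 2153 (.leaf 319 1780 .nil)) .nil)) .nil)) .nil)) .nil)) .nil)) .nil)) .nil)) .nil)) .nil)) (.cons 225 (.leaf 226 1777 (.cons 201 (.leaf 177 1414 (.cons 296 (.leaf 273 1606 (.leaf 320 1797 .nil)) .nil)) .nil)) .nil))))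
noncomputable def t62 : T := .cons 269 (.leaf 270 1962 (.cons 221 (.leaf 222 1771 (.cons 245 (.leaf 220 1763 (.leaf 268 1954 .nil)) .nil)) .nil)) (.cons 225 (.leaf 226 1777 (.cons 296 (.leaf 320 1797 (.cons 222 (.leaf 221 1771 (.cons 177 (.leaf 201 1414 (.cons 271 (.cons 223 (.leaf 199 1596 (.cons 295 (.leaf 198 1591 (.leaf 319 1783 .nil)) .nil)) (.cons 199 (.leaf 223 1596 (.cons 198 (.leaf 174 1396 (.cons 175 (.leaf 270 1397 (.cons 127 (.leaf 151 1014 (.cons 176 (.leaf 178 1394 (.cons 197 (.leaf 200 1385 (.leaf 196 1377 .nil)) .nil)) .nil)) .nil)) .nil)) .nil)) (.cons 295 (.leaf 319 1783 (.cons 198 (.leaf 174 1396 (.leaf 270 1588 .nil)) .nil)) (.cons 295 (.leaf 319 1783 (.cons 223 (.leaf 199 1596 (.cons 294 (.leaf 318 1782 (.cons 293 (.leaf 292 2145 (.cons 317 (.leaf 270 1774 (.leaf 316 2338 .nil)) .nil)) .nil)) .nil)) .nil)) .nil)))) .nil)) .nil)) .nil)) .nil)) (.cons 225 (.leaf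 226 1777 (.cons 177 (.leaf 201 1414 (.cons 221 (.leaf 222 1771 (.cons 245 (.leaf 220 1763 (.cons 244 (.leaf 271 1952 (.cons 268 (.leaf 269 1954 (.leaf 267 1946 .nil)) .nil)) .nil)) .nil)) .nil)) .nil)) (.cons 269 (.leaf 270 1962 (.cons 225 (.leaf 226 1777 (.cons 245 (.leaf 268 1954 (.cons 296 (.leaf 320 1797 (.cons 271 (.leaf 244 1952 (.cons 223 (.leaf 199 1596 (.cons 201 (.leaf 177 1414 (.cons 295 (.cons 222 (.leaf 198 1591 (.leaf 319 1783 .nil)) (.cons 318 (.leaf 294 1782 (.cons 319 (.leaf 343 1981 (.leaf 342 1974 .nil)) .nil)) (.cons 222 (.leaf 198 1591 (.cons 293 (.leaf 317 1773 (.cons 294 (.leaf 292 2145 (.leaf 318 1782 .nil)) .nil)) .nil)) .nil))) .nil)) .nil)) .nil)) .nil)) .nil)) .nil)) .nil)) (.cons 269 (.leaf 270 1962 (.cons 225 (.leaf 226 1777 (.cons 177 (.leaf 201 1414 (.cons 245 (.leaf 268 1954 (.cons 220 (.leaf 221 1763 (.cons 244 (.leaf 271 1952 (.leaf 219 1755 .nil))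 .nil)) .nil)) .nil)) .nil)) .nil)) .nil))))
noncomputable def t63 : T := .cons 293 (.leaf 295 2153 (.cons 270 (.leaf 271 2154 (.cons 222 (.leaf 317 1774 (.cons 223 (.leaf 318 1781 (.leaf 199 1589 .nil)) .nil)) .nil)) .nil)) (.cons 295 (.leaf 293 2153 (.cons 271 (.cons 223 (.leaf 199 1596 (.leaf 318 1782 .nil)) (.cons 319 (.leaf 343 1981 (.leaf 222 1783 .nil)) .nil)) .nil)) (.cons 249 (.cons 225 (.leaf 201 1606 (.leaf 226 1777 .nil)) (.cons 221 (.leaf 222 1771 (.cons 270 (.leaf 269 1962 (.cons 271 (.leaf 250 1969 (.leaf 293 2154 .nil)) .nil)) .nil)) .nil)) (.cons 249 (.cons 201 (.leaf 225 1606 (.cons 221 (.leaf 222 1771 (.cons 270 (.leaf 269 1962 (.cons 250 (.leaf 271 1969 (.cons 251 (.leaf 252 1986 (.cons 318 (.leaf 223 1781 (.cons 317 (.leaf 341 1966 (.cons 295 (.leaf 297 2346 (.cons 316 (.leaf 319 2337 (.leaf 315 2329 .nil)) .nil)) .nil)) .nil)) .nil)) .nil)) .nil)) .nil)) .nil))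 (.cons 225 (.leaf 201 1606 (.leaf 226 1777 .nil)) (.cons 221 (.leaf 222 1771 (.cons 270 (.leaf 269 1962 (.cons 250 (.leaf 271 1969 (.cons 223 (.leaf 318 1781 (.cons 175 (.leaf 199 1404 (.cons 227 (.leaf 226 1785 (.cons 251 (.leaf 252 1986 (.leaf 228 1793 .nil)) .nil)) .nil)) .nil)) .nil)) .nil)) .nil)) .nil))) (.cons 295 (.leaf 293 2153 (.cons 297 (.cons 321 (.leaf 345 1991 (.leaf 322 2352 .nil)) (.cons 269 (.leaf 270 2155 (.cons 318 (.leaf 317 2346 (.cons 298 (.leaf 319 2354 (.cons 299 (.leaf 300 2179 (.cons 323 (.leaf 322 2360 (.leaf 324 2368 .nil)) .nil)) .nil)) .nil)) .nil)) (.cons 270 (.leaf 269 2155 (.cons 318 (.leaf 223 1781 (.leaf 317 2346 .nil)) .nil)) .nil))) .nil)) .nil))))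
noncomputable def t64 : T := .leaf 274 1979 (.cons 246 (.leaf 245 1960 (.cons 296 (.cons 223 (.leaf 320 1791 (.cons 294 (.cons 318 (.leaf 270 1781 (.cons 295 (.leaf 293 2153 (.leaf 271 1782 .nil)) .nil)) (.cons 199 (.leaf 175 1404 (.leaf 271 1596 .nil)) (.cons 199 (.leaf 175 1404 (.cons 270 (.leaf 318 1781 (.leaf 222 1589 .nil)) .nil)) .nil))) .nil)) (.cons 294 t63 (.cons 320 (.cons 344 (.leaf 271 1983 (.leaf 249 1989 .nil)) (.cons 344 (.leaf 271 1983 (.cons 345 (.leaf 321 1988 (.leaf 369 2180 .nil)) .nil)) (.cons 249 (.leaf 225 1797 (.cons 221 (.leaf 222 1771 (.cons 270 (.leaf 269 1962 (.cons 250 (.leaf 271 1969 (.cons 226 (.leaf 227 1785 (.cons 321 (.leaf 345 1988 (.leaf 297 1805 .nil)) .nil)) .nil)) .nil)) .nil)) .nil)) (.cons 345 (.leaf 321 1988 (.cons 319 (.leaf 343 1982 (.cons 344 (.leaf 249 1989 (.leaf 369 2180 .nil)) .nil)) .nil)) .nil)))) (.cons 320 (.leaf 223 1791 (.cons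 345 (.leaf 321 1988 (.cons 319 (.leaf 343 1982 (.cons 344 (.leaf 249 1989 (.leaf 369 2180 .nil)) .nil)) .nil)) .nil)) .nil)))) .nil)) .nil)
noncomputable def t65 : T := .cons 273 t64 (.cons 249 (.cons 250 (.leaf 274 1976 (.cons 271 (.leaf 251 1978 (.leaf 270 1970 .nil)) .nil)) (.cons 246 t62 (.cons 250 (.leaf 274 1976 (.cons 222 (.leaf 223 1779 (.cons 226 (.leaf 227 1785 (.cons 246 (.leaf 221 1771 (.leaf 225 1777 .nil)) .nil)) .nil)) .nil)) .nil))) (.cons 246 (.cons 245 (.leaf 273 1960 (.cons 220 (.leaf 221 1763 (.cons 269 (.leaf 268 1954 (.cons 249 (.leaf 270 1962 (.cons 226 (.leaf 225 1777 (.cons 250 (.leaf 227 1785 (.cons 223 (.leaf 222 1779 (.cons 199 (.leaf 175 1404 (.cons 271 (.leaf 296 1596 (.leaf 244 1952 .nil)) .nil)) .nil)) .nil)) .nil)) .nil)) .nil)) .nil)) .nil)) (.cons 249 t61 (.cons 245 (.leaf 273 1960 (.cons 220 (.leaf 221 1763 (.cons 244 (.leaf 271 1952 (.leaf 219 1755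 .nil)) .nil)) .nil)) (.cons 249 t60 (.cons 245 (.leaf 273 1960 (.cons 220 (.leaf 221 1763 (.cons 244 (.leaf 219 1755 (.cons 268 (.leaf 269 1954 (.leaf 267 1946 .nil)) .nil)) .nil)) .nil)) (.cons 245 (.leaf 273 1960 (.cons 244 (.leaf 271 1952 (.cons 268 (.leaf 269 1954 (.leaf 267 1946 .nil)) .nil)) .nil)) .nil)))))) (.cons 273 (.leaf 274 1979 (.cons 246 (.leaf 245 1960 (.cons 296 t59 .nil)) .nil)) (.cons 274 (.leaf 273 1979 (.cons 250 (.leaf 249 1976 (.cons 299 t57 .nil)) .nil)) (.cons 273 (.leaf 274 1979 (.cons 246 (.leaf 245 1960 (.cons 249 (.cons 222 (.leaf 221 1771 (.cons 223 (.leaf 250 1779 (.cons 199 (.leaf 175 1404 (.cons 270 (.leaf 269 1962 (.leaf 294 1589 .nil)) .nil)) .nil)) .nil)) (.cons 225 (.leaf 226 1777 (.cons 201 (.leaf 177 1414 (.leaf 296 1606 .nil)) .nil)) .nil)) .nil)) .nil)) (.cons 273 (.leaf 274 1979 (.cons 246 t56 .nil)) .nil))))))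
noncomputable def t66 : T := .cons 224 (.leaf 200 1604 (.cons 270 (.leaf 298 2160 (.cons 269 (.leaf 244 1955 (.leaf 268 1953 .nil)) .nil)) .nil)) (.cons 270 (.leaf 298 2160 (.cons 269 (.leaf 244 1955 (.leaf 268 1953 .nil)) .nil)) (.cons 321 (.leaf 345 1991 (.cons 223 (.cons 199 (.leaf 175 1404 (.cons 200 (.leaf 224 1604 (.leaf 176 1405 .nil)) .nil)) (.cons 199 (.leaf 175 1404 (.cons 198 (.leaf 174 1399 (.cons 200 (.leaf 176 1405 (.cons 222 (.leaf 295 1591 (.cons 221 (.leaf 220 1760 (.leaf 201 1578 .nil)) .nil)) .nil)) .nil)) .nil)) (.cons 199 (.leaf 175 1404 (.cons 198 (.leaf 174 1399 (.cons 222 (.leaf 295 1591 (.cons 221 (.leaf 220 1760 (.cons 224 (.leaf 244 1762 (.cons 197 (.leaf 196 1568 (.leaf 225 1579 .nil)) .nil)) .nil)) .nil)) .nil)) .nil)) (.cons 224 (.leaf 200 1604 (.cons 295 (.leaf 319 1789 (.cons 222 (.leaf 198 1591 (.cons 221 (.leaf 220 1760 (.leaf 244 1762 .nil)) .nil))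 .nil)) .nil)) .nil)))) .nil)) (.cons 224 (.leaf 200 1604 (.cons 298 (.leaf 270 2160 (.cons 299 (.leaf 300 2179 (.cons 319 (.leaf 295 1789 (.cons 321 (.leaf 345 1991 (.cons 320 (.leaf 318 2353 (.leaf 322 2361 .nil)) .nil)) .nil)) .nil)) .nil)) .nil)) .nil)))
noncomputable def t67 : T := .leaf 246 1960 (.cons 297 (.cons 224 (.leaf 200 1604 (.cons 270 (.leaf 298 2160 (.cons 269 (.leaf 244 1955 (.leaf 249 1961 .nil)) .nil)) .nil)) (.cons 321 (.leaf 345 1991 (.cons 223 (.cons 224 (.leaf 200 1604 (.leaf 249 1799 .nil)) (.cons 199 (.leaf 175 1404 (.cons 198 (.leaf 174 1399 (.cons 200 (.leaf 176 1405 (.cons 222 (.leaf 295 1591 (.cons 221 (.leaf 220 1760 (.leaf 201 1578 .nil)) .nil)) .nil)) .nil)) .nil)) (.cons 175 (.leaf 199 1404 (.cons 224 (.leaf 249 1799 (.cons 295 (.leaf 319 1789 (.cons 222 (.leaf 198 1591 (.cons 221 (.leaf 220 1760 (.leaf 244 1762 .nil)) .nil)) .nil)) .nil)) .nil)) .nil)))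 .nil)) (.cons 270 (.leaf 298 2160 (.cons 269 (.leaf 244 1955 (.leaf 249 1961 .nil)) .nil)) (.cons 224 (.leaf 200 1604 (.cons 270 (.leaf 298 2160 (.cons 269 (.leaf 244 1955 (.leaf 268 1953 .nil)) .nil)) .nil)) (.cons 224 (.leaf 200 1604 (.cons 298 (.leaf 270 2160 (.cons 299 (.leaf 300 2179 (.cons 319 (.leaf 295 1789 (.cons 321 (.leaf 345 1991 (.leaf 249 1799 .nil)) .nil)) .nil)) .nil)) .nil)) .nil))))) .nil)
noncomputable def t68 : T := .cons 245 t67 (.cons 246 (.leaf 245 1960 (.cons 222 (.cons 174 (.leaf 198 1396 (.cons 221 (.leaf 249 1771 (.cons 220 (.leaf 223 1760 (.leaf 219 1752 .nil)) .nil)) .nil)) (.cons 295 (.leaf 319 1783 (.cons 198 (.leaf 174 1396 (.leaf 223 1591 .nil)) .nil)) (.cons 221 (.leaf 249 1771 (.cons 220 (.leaf 223 1760 (.leaf 219 1752 .nil)) .nil)) (.cons 198 (.leaf 174 1396 (.cons 221 (.leaf 249 1771 (.cons 220 (.leaf 219 1752 (.cons 295 (.leaf 319 1783 (.cons 200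 (.leaf 224 1598 (.cons 199 (.leaf 201 1578 (.leaf 197 1570 .nil)) .nil)) .nil)) .nil)) .nil)) .nil)) .nil)))) .nil)) (.cons 270 (.cons 249 (.leaf 269 1961 (.leaf 250 1969 .nil)) (.cons 269 (.leaf 268 1953 (.cons 293 (.leaf 292 2146 (.leaf 294 2154 .nil)) .nil)) (.cons 249 (.leaf 250 1969 (.cons 293 (.leaf 294 2154 (.cons 297 (.leaf 298 2160 (.cons 224 (.leaf 200 1604 (.leaf 321 1799 .nil)) .nil)) .nil)) .nil)) .nil))) (.cons 245 (.leaf 246 1960 (.cons 297 t66 .nil)) (.cons 246 (.leaf 245 1960 (.cons 270 (.cons 249 (.leaf 269 1961 (.leaf 250 1969 .nil)) (.cons 294 (.leaf 293 2154 (.cons 223 (.leaf 199 1590 (.leaf 318 1781 .nil)) .nil)) .nil)) .nil)) .nil))))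
noncomputable def t69 : T := .cons 224 (.leaf 200 1598 (.leaf 319 1789 .nil)) (.cons 319 (.leaf 343 1981 (.cons 318 (.leaf 342 1974 (.cons 294 (.leaf 223 1782 (.cons 292 (.leaf 293 2145 (.cons 320 (.leaf 344 1980 (.cons 321 (.leaf 322 2355 (.cons 297 (.leaf 345 1991 (.leaf 298 2353 .nil)) .nil)) .nil)) .nil)) .nil)) .nil)) .nil)) (.cons 223 (.cons 224 (.leaf 200 1597 (.cons 175 (.leaf 199 1404 (.cons 222 (.leaf 198 1591 (.cons 221 (.leaf 220 1760 (.leaf 244 1762 .nil)) .nil)) .nil)) .nil)) (.cons 175 (.leaf 199 1404 (.cons 222 (.leaf 198 1591 (.cons 221 (.leaf 220 1760 (.cons 244 (.leaf 224 1762 (.cons 294 (.leaf 318 1782 (.cons 292 (.leaf 293 2145 (.cons 268 (.leaf 316 1765 (.cons 197 (.leaf 173 1382 (.leaf 269 1574 .nil)) .nil)) .nil)) .nil)) .nil)) .nil)) .nil)) .nil)) (.cons 198 (.leaf 222 1591 (.cons 199 (.leaf 175 1404 (.leaf 174 1399 .nil)) .nil)) (.cons 224 (.leaf 200 1597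 (.cons 222 (.leaf 198 1591 (.cons 221 (.leaf 220 1760 (.leaf 244 1762 .nil)) .nil)) .nil)) (.cons 200 (.leaf 224 1597 (.cons 199 (.leaf 175 1404 (.leaf 176 1405 .nil)) .nil)) .nil))))) .nil))
noncomputable def t70 : T := .cons 224 (.leaf 200 1604 (.cons 270 (.leaf 298 2160 (.cons 269 (.leaf 244 1955 (.leaf 268 1953 .nil)) .nil)) .nil)) (.cons 270 (.leaf 298 2160 (.cons 269 (.leaf 244 1955 (.leaf 268 1953 .nil)) .nil)) (.cons 321 (.leaf 345 1991 (.cons 223 (.cons 224 (.leaf 200 1604 (.cons 199 (.leaf 175 1404 (.cons 198 (.leaf 174 1399 (.cons 197 (.leaf 196 1568 (.cons 225 (.leaf 222 1579 (.leaf 226 1587 .nil)) .nil)) .nil)) .nil)) .nil)) (.cons 199 (.leaf 175 1404 (.cons 198 (.leaf 174 1399 (.cons 200 (.leaf 176 1405 (.cons 222 (.leaf 295 1591 (.cons 221 (.leaf 220 1760 (.leaf 201 1578 .nil)) .nil)) .nil)) .nil)) .nil)) (.cons 199 (.leaf 175 1404 (.cons 198 (.leaf 174 1399 (.cons 222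 (.leaf 295 1591 (.cons 221 (.leaf 220 1760 (.cons 224 (.leaf 244 1762 (.cons 197 (.leaf 196 1568 (.leaf 225 1579 .nil)) .nil)) .nil)) .nil)) .nil)) .nil)) (.cons 224 (.leaf 200 1604 (.cons 295 (.leaf 319 1789 (.cons 222 (.leaf 198 1591 (.cons 221 (.leaf 220 1760 (.leaf 244 1762 .nil)) .nil)) .nil)) .nil)) (.cons 199 (.leaf 175 1404 (.cons 200 (.leaf 224 1604 (.leaf 176 1405 .nil)) .nil)) .nil))))) .nil)) (.cons 224 (.leaf 200 1604 (.cons 298 (.leaf 270 2160 (.cons 299 (.leaf 300 2179 (.cons 319 (.leaf 295 1789 (.cons 321 (.leaf 345 1991 (.cons 320 (.leaf 318 2353 (.leaf 322 2361 .nil)) .nil)) .nil)) .nil)) .nil)) .nil)) .nil)))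
noncomputable def t71 : T := .cons 245 (.leaf 246 1960 (.cons 297 t70 .nil)) (.cons 224 (.cons 200 (.leaf 295 1598 (.leaf 297 1604 .nil)) (.cons 295 (.leaf 319 1789 (.cons 223 (.cons 175 (.leaf 199 1404 (.cons 198 (.leaf 222 1591 (.cons 294 (.leaf 318 1782 (.cons 293 (.leaf 270 2154 (.leaf 292 2145 .nil)) .nil)) .nil)) .nil)) (.cons 198 (.leaf 222 1591 (.cons 294 (.leaf 318 1782 (.cons 293 (.leaf 270 2154 (.leaf 292 2145 .nil)) .nil)) .nil)) (.cons 198 (.leaf 222 1591 (.cons 199 (.leaf 175 1404 (.leaf 174 1399 .nil)) .nil)) (.cons 175 (.leaf 199 1404 (.cons 294 (.leaf 318 1782 (.cons 293 (.leaf 270 2154 (.leaf 292 2145 .nil)) .nil)) .nil)) .nil)))) .nil)) (.cons 200 (.leaf 297 1604 (.leaf 176 1406 .nil)) .nil))) (.cons 245 (.leaf 246 1960 (.cons 270 (.cons 269 (.leaf 244 1955 (.leaf 268 1953 .nil)) (.cons 294 (.leaf 293 2154 (.cons 223 (.leaf 199 1590 (.cons 318 (.leaf 295 1782 (.leaf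 342 1973 .nil)) .nil)) .nil)) .nil)) .nil)) (.cons 245 (.leaf 246 1960 (.cons 295 t69 .nil)) (.cons 270 (.cons 269 (.leaf 268 1953 (.cons 293 (.leaf 292 2146 (.leaf 294 2154 .nil)) .nil)) (.cons 246 (.leaf 245 1960 (.cons 294 (.leaf 293 2154 (.cons 223 (.leaf 199 1590 (.leaf 318 1781 .nil)) .nil)) .nil)) (.cons 245 (.leaf 246 1960 (.cons 269 (.leaf 244 1955 (.leaf 268 1953 .nil)) .nil)) .nil))) (.cons 270 (.cons 245 (.leaf 246 1960 (.cons 269 (.leaf 244 1955 (.leaf 268 1953 .nil)) .nil)) (.cons 269 (.leaf 268 1953 (.cons 293 (.leaf 292 2146 (.leaf 294 2154 .nil)) .nil)) (.cons 246 (.leaf 245 1960 (.cons 294 (.leaf 293 2154 (.cons 297 (.leaf 298 2160 (.cons 200 (.leaf 224 1604 (.cons 318 (.leaf 342 1973 (.cons 317 (.leaf 341 1966 (.cons 319 (.leaf 343 1972 (.cons 222 (.leaf 295 1780 (.cons 197 (.leaf 221 1583 (.cons 198 (.leaf 174 1396 (.leaf 173 1391 .nil)) .nil)) .nil)) .nil)) .nil))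 .nil)) .nil)) .nil)) .nil)) .nil)) .nil))) (.cons 245 (.leaf 246 1960 (.cons 270 (.cons 269 (.leaf 244 1955 (.leaf 268 1953 .nil)) (.cons 294 (.leaf 293 2154 (.cons 223 (.leaf 199 1590 (.cons 297 (.leaf 298 2160 (.cons 224 (.leaf 200 1604 (.cons 295 (.leaf 319 1789 (.cons 222 (.leaf 198 1591 (.cons 221 (.leaf 220 1760 (.leaf 244 1762 .nil)) .nil)) .nil)) .nil)) .nil)) .nil)) .nil)) (.cons 269 (.leaf 268 1953 (.cons 293 (.leaf 292 2146 (.leaf 294 2154 .nil)) .nil)) .nil))) .nil)) .nil))))))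
noncomputable def t72 : T := .cons 299 (.leaf 202 1620 (.cons 323 (.leaf 251 1815 (.leaf 347 2007 .nil)) .nil)) (.cons 298 (.cons 203 (.leaf 227 1621 (.cons 299 (.leaf 323 1812 (.cons 321 (.leaf 297 1806 (.cons 322 (.leaf 345 1998 (.cons 346 (.leaf 251 2005 (.leaf 370 2197 .nil)) .nil)) .nil)) .nil)) .nil)) (.cons 201 (.leaf 225 1615 (.cons 299 (.leaf 323 1812 (.cons 321 (.leaf 297 1806 (.cons 322 (.leaf 345 1998 (.cons 346 (.leaf 251 2005 (.leaf 370 2197 .nil)) .nil)) .nil)) .nil)) .nil)) (.cons 227 (.leaf 203 1621 (.cons 225 (.leaf 224 1786 (.leaf 201 1615 .nil)) .nil)) .nil))) (.cons 298 (.cons 201 (.leaf 225 1615 (.cons 177 (.leaf 202 1423 (.cons 200 (.leaf 224 1413 (.cons 321 (.leaf 297 1806 (.cons 322 (.leaf 345 1998 (.cons 346 (.leaf 251 2005 (.cons 347 (.leaf 323 2004 (.leaf 371 2196 .nil)) .nil)) .nil)) .nil)) .nil)) .nil)) .nil)) (.cons 203 (.leaf 227 1621 (.cons 179 (.leaf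 202 1429 (.cons 321 (.leaf 297 1806 (.cons 322 (.leaf 345 1998 (.cons 346 (.leaf 251 2005 (.cons 347 (.leaf 323 2004 (.leaf 371 2196 .nil)) .nil)) .nil)) .nil)) .nil)) .nil)) (.cons 227 (.leaf 203 1621 (.cons 225 (.leaf 224 1786 (.leaf 201 1615 .nil)) .nil)) .nil))) (.cons 202 (.leaf 299 1620 (.cons 177 (.leaf 201 1423 (.cons 178 (.leaf 153 1231 (.cons 179 (.leaf 203 1429 (.leaf 155 1237 .nil)) .nil)) .nil)) .nil)) .nil)))
noncomputable def t73 : T := .cons 270 (.leaf 269 1962 (.cons 222 (.leaf 221 1771 (.cons 225 (.leaf 226 1777 (.cons 201 (.leaf 177 1414 (.cons 223 (.leaf 250 1779 (.cons 199 (.leaf 175 1404 (.leaf 294 1589 .nil)) .nil)) .nil)) .nil)) .nil)) .nil)) (.cons 222 (.leaf 221 1771 (.cons 223 (.leaf 250 1779 (.cons 175 (.leaf 199 1404 (.cons 225 (.leaf 226 1777 (.cons 201 (.leaf 177 1414 (.cons 224 (.leaf 202 1585 (.cons 198 (.leaf 197 1579 (.cons 174 (.leaf 150 1204 (.leaf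 271 1396 .nil)) .nil)) .nil)) .nil)) .nil)) .nil)) .nil)) .nil)) (.cons 270 (.leaf 269 1962 (.cons 226 (.leaf 225 1777 (.cons 250 (.leaf 227 1785 (.leaf 271 1970 .nil)) .nil)) .nil)) (.cons 270 (.leaf 269 1962 (.cons 222 (.leaf 221 1771 (.cons 250 (.leaf 223 1779 (.leaf 271 1970 .nil)) .nil)) .nil)) (.cons 270 (.leaf 269 1962 (.cons 222 (.leaf 221 1771 (.cons 225 (.leaf 226 1777 (.cons 201 (.leaf 177 1414 (.cons 223 (.cons 199 (.leaf 175 1404 (.leaf 294 1589 .nil)) (.cons 202 (.leaf 224 1585 (.cons 294 (.leaf 318 1781 (.cons 295 (.leaf 319 1780 (.cons 198 (.leaf 271 1588 (.cons 173 (.leaf 197 1391 (.cons 174 (.leaf 150 1204 (.leaf 149 1199 .nil)) .nil)) .nil)) .nil)) .nil)) .nil)) (.cons 175 (.leaf 199 1404 (.cons 224 (.leaf 202 1585 (.cons 198 (.leaf 197 1579 (.cons 174 (.leaf 150 1204 (.leaf 271 1396 .nil)) .nil)) .nil)) .nil)) .nil))) .nil)) .nil)) .nil)) .nil)) .nil))))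
noncomputable def t74 : T := .cons 246 (.cons 222 (.leaf 221 1771 (.cons 223 (.leaf 250 1779 (.cons 175 (.leaf 199 1404 (.cons 225 (.leaf 226 1777 (.cons 201 (.leaf 177 1414 (.cons 224 (.leaf 245 1769 (.leaf 202 1585 .nil)) .nil)) .nil)) .nil)) .nil)) .nil)) (.cons 225 (.leaf 226 1777 (.cons 177 (.leaf 201 1414 (.cons 221 (.leaf 222 1771 (.cons 245 (.leaf 220 1763 (.leaf 224 1769 .nil)) .nil)) .nil)) .nil)) (.cons 225 (.leaf 226 1777 (.cons 177 (.leaf 201 1414 (.cons 245 (.leaf 224 1769 (.cons 269 (.leaf 268 1954 (.leaf 270 1962 .nil)) .nil)) .nil)) .nil)) (.cons 270 (.leaf 269 1962 (.cons 222 (.leaf 221 1771 (.cons 250 (.leaf 274 1976 (.leaf 223 1779 .nil)) .nil)) .nil)) .nil)))) (.cons 246 (.cons 225 (.leaf 226 1777 (.cons 177 (.leaf 201 1414 (.cons 221 (.leaf 222 1771 (.cons 245 (.leaf 220 1763 (.leaf 224 1769 .nil)) .nil)) .nil)) .nil)) (.cons 269 (.leaf 270 1962 (.cons 221 (.leaf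 222 1771 (.cons 245 (.leaf 220 1763 (.leaf 268 1954 .nil)) .nil)) .nil)) (.cons 225 (.leaf 226 1777 (.cons 177 (.leaf 201 1414 (.cons 245 (.leaf 224 1769 (.cons 269 (.leaf 268 1954 (.leaf 270 1962 .nil)) .nil)) .nil)) .nil)) (.cons 270 (.leaf 269 1962 (.cons 222 (.leaf 221 1771 (.cons 225 (.leaf 226 1777 (.cons 201 (.leaf 177 1414 (.cons 223 (.cons 199 (.leaf 175 1404 (.leaf 294 1589 .nil)) (.cons 202 (.leaf 224 1585 (.cons 294 (.leaf 318 1781 (.cons 295 (.leaf 319 1780 (.cons 198 (.leaf 271 1588 (.cons 173 (.leaf 197 1391 (.cons 174 (.leaf 150 1204 (.leaf 149 1199 .nil)) .nil)) .nil)) .nil)) .nil)) .nil)) (.cons 175 (.leaf 199 1404 (.cons 224 (.leaf 202 1585 (.cons 198 (.leaf 197 1579 (.cons 174 (.leaf 150 1204 (.leaf 271 1396 .nil)) .nil)) .nil)) .nil)) .nil))) .nil)) .nil)) .nil)) .nil)) .nil)))) (.cons 250 (.leaf 274 1976 (.cons 271 (.leaf 251 1978 (.leaf 270 1970 .nil)) .nil))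 (.cons 250 (.leaf 274 1976 (.cons 222 (.leaf 223 1779 (.cons 226 (.leaf 227 1785 (.cons 246 (.leaf 221 1771 (.leaf 225 1777 .nil)) .nil)) .nil)) .nil)) .nil)))
noncomputable def t75 : T := .cons 273 (.leaf 274 1979 (.cons 246 (.leaf 245 1960 (.cons 249 (.cons 222 (.leaf 221 1771 (.cons 225 (.leaf 226 1777 (.cons 201 (.leaf 177 1414 (.cons 200 (.leaf 176 1415 (.cons 202 (.leaf 178 1421 (.cons 199 (.leaf 223 1586 (.cons 174 (.leaf 175 1395 (.cons 198 (.leaf 271 1396 (.leaf 173 1387 .nil)) .nil)) .nil)) .nil)) .nil)) .nil)) .nil)) .nil)) (.cons 222 (.leaf 221 1771 (.cons 223 (.leaf 250 1779 (.cons 199 (.leaf 175 1404 (.cons 270 (.leaf 269 1962 (.leaf 294 1589 .nil)) .nil)) .nil)) .nil)) (.cons 270 (.leaf 269 1962 (.cons 250 (.leaf 271 1969 (.cons 227 (.leaf 226 1785 (.cons 251 (.leaf 252 1986 (.leaf 228 1793 .nil)) .nil)) .nil)) .nil)) .nil))) .nil)) .nil)) (.cons 249 t74 (.cons 246 (.cons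 245 (.leaf 273 1960 (.cons 224 (.leaf 225 1769 (.cons 244 (.leaf 271 1952 (.leaf 223 1761 .nil)) .nil)) .nil)) (.cons 249 t73 (.cons 245 (.leaf 273 1960 (.cons 220 (.leaf 221 1763 (.cons 244 (.leaf 219 1755 (.cons 268 (.leaf 269 1954 (.leaf 267 1946 .nil)) .nil)) .nil)) .nil)) .nil))) (.cons 274 (.leaf 273 1979 (.cons 250 (.leaf 249 1976 (.cons 226 t72 .nil)) .nil)) (.cons 273 (.leaf 274 1979 (.cons 271 t71 .nil)) (.cons 273 (.leaf 274 1979 (.cons 246 (.leaf 245 1960 (.cons 249 (.cons 222 (.leaf 221 1771 (.cons 223 (.leaf 250 1779 (.cons 199 (.leaf 175 1404 (.cons 270 (.leaf 269 1962 (.leaf 294 1589 .nil)) .nil)) .nil)) .nil)) (.cons 222 (.leaf 221 1771 (.cons 250 (.leaf 223 1779 (.cons 251 (.leaf 271 1978 (.leaf 252 1986 .nil)) .nil)) .nil)) (.cons 270 (.leaf 269 1962 (.cons 250 (.leaf 271 1969 (.cons 227 (.leaf 226 1785 (.cons 251 (.leaf 252 1986 (.leaf 228 1793 .nil)) .nil)) .nil))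 .nil)) (.cons 270 (.leaf 269 1962 (.cons 222 (.leaf 221 1771 (.cons 271 (.cons 198 (.leaf 174 1396 (.leaf 295 1588 .nil)) (.cons 174 (.leaf 198 1396 (.cons 293 (.leaf 294 2154 (.cons 297 (.leaf 298 2160 (.cons 224 (.leaf 200 1604 (.leaf 321 1799 .nil)) .nil)) .nil)) .nil)) (.cons 293 (.leaf 294 2154 (.cons 295 (.leaf 319 1783 (.cons 224 (.leaf 200 1598 (.cons 297 (.leaf 298 2160 (.leaf 321 1799 .nil)) .nil)) .nil)) .nil)) .nil))) .nil)) .nil)) .nil)))) .nil)) .nil)) (.cons 273 (.leaf 274 1979 (.cons 271 t68 .nil)) .nil))))))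
noncomputable def t76 : T := .cons 199 (.leaf 223 1599 (.cons 175 (.leaf 200 1407 (.cons 225 (.leaf 201 1605 (.cons 320 (.leaf 249 1797 (.cons 321 (.leaf 297 1796 (.leaf 345 1988 .nil)) .nil)) .nil)) .nil)) .nil)) (.cons 297 (.leaf 321 1796 (.cons 199 (.leaf 223 1599 (.cons 200 (.leaf 175 1407 (.leaf 273 1604 .nil)) .nil)) .nil)) (.cons 225 (.leaf 201 1605 (.cons 199 (.leaf 223 1599 (.cons 175 (.leaf 200 1407 (.cons 320 (.leaf 249 1797 (.cons 343 (.leaf 319 1982 (.cons 344 (.leaf 367 2174 (.cons 345 (.leaf 321 1988 (.leaf 369 2180 .nil)) .nil)) .nil)) .nil)) .nil)) .nil)) .nil)) (.cons 225 (.leaf 201 1605 (.cons 199 (.leaf 223 1599 (.cons 200 (.leaf 175 1407 (.cons 197 (.leaf 198 1576 (.cons 226 (.leaf 227 1595 (.cons 249 (.leaf 320 1797 (.cons 273 (.leaf 297 1604 (.leaf 176 1412 .nil)) .nil)) .nil)) .nil)) .nil)) .nil)) .nil)) (.cons 297 (.leaf 321 1796 (.cons 200 (.leaf 273 1604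 (.cons 201 (.leaf 177 1413 (.leaf 225 1605 .nil)) .nil)) .nil)) (.cons 225 (.leaf 201 1605 (.cons 199 (.leaf 223 1599 (.cons 320 (.leaf 249 1797 (.cons 321 (.leaf 297 1796 (.leaf 345 1988 .nil)) .nil)) .nil)) .nil)) .nil)))))
noncomputable def t77 : T := .cons 224 (.cons 199 (.leaf 223 1599 (.cons 201 (.leaf 225 1605 (.cons 295 (.leaf 319 1790 (.cons 297 (.leaf 321 1796 (.cons 298 (.leaf 274 2169 (.cons 200 (.leaf 175 1407 (.leaf 177 1413 .nil)) .nil)) .nil)) .nil)) .nil)) .nil)) (.cons 297 (.leaf 321 1796 (.cons 199 (.leaf 223 1599 (.cons 200 (.leaf 175 1407 (.leaf 273 1604 .nil)) .nil)) .nil)) (.cons 199 (.leaf 223 1599 (.cons 200 (.leaf 175 1407 (.cons 201 (.leaf 177 1413 (.leaf 225 1605 .nil)) .nil)) .nil)) (.cons 295 (.leaf 319 1790 (.cons 271 (.leaf 200 1598 (.cons 297 (.leaf 321 1796 (.cons 298 (.leaf 274 2169 (.leaf 299 2171 .nil)) .nil)) .nil)) .nil)) (.cons 199 (.leaf 223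 1599 (.cons 201 (.leaf 225 1605 (.cons 295 (.leaf 319 1790 (.cons 297 (.leaf 321 1796 (.cons 298 (.leaf 274 2169 (.cons 271 (.leaf 299 2171 (.leaf 270 2163 .nil)) .nil)) .nil)) .nil)) .nil)) .nil)) .nil))))) (.cons 224 t76 (.cons 224 (.cons 201 (.leaf 225 1605 (.cons 200 (.leaf 177 1413 (.cons 295 (.leaf 271 1598 (.leaf 319 1790 .nil)) .nil)) .nil)) (.cons 225 (.leaf 201 1605 (.cons 199 (.leaf 223 1599 (.cons 175 (.leaf 200 1407 (.cons 320 (.leaf 249 1797 (.cons 321 (.leaf 297 1796 (.leaf 345 1988 .nil)) .nil)) .nil)) .nil)) .nil)) (.cons 199 (.leaf 223 1599 (.cons 175 (.leaf 200 1407 (.cons 295 (.leaf 319 1790 (.cons 297 (.leaf 321 1796 (.cons 298 (.leaf 274 2169 (.cons 271 (.leaf 299 2171 (.leaf 270 2163 .nil)) .nil)) .nil)) .nil)) .nil)) .nil)) (.cons 225 (.leaf 201 1605 (.cons 199 (.leaf 223 1599 (.cons 320 (.leaf 249 1797 (.cons 321 (.leaf 297 1796 (.leaf 345 1988 .nil)) .nil))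 .nil)) .nil)) .nil)))) (.cons 224 (.cons 199 (.leaf 223 1599 (.cons 200 (.leaf 175 1407 (.cons 201 (.leaf 177 1413 (.leaf 225 1605 .nil)) .nil)) .nil)) (.cons 199 (.leaf 223 1599 (.cons 200 (.leaf 175 1407 (.cons 295 (.leaf 271 1598 (.leaf 319 1790 .nil)) .nil)) .nil)) (.cons 295 (.leaf 319 1790 (.cons 200 (.leaf 271 1598 (.cons 201 (.leaf 177 1413 (.leaf 225 1605 .nil)) .nil)) .nil)) (.cons 199 (.leaf 223 1599 (.cons 225 (.leaf 201 1605 (.cons 295 (.leaf 319 1790 (.cons 273 (.leaf 274 2170 (.cons 293 (.leaf 294 2153 (.cons 320 (.leaf 249 1797 (.cons 345 (.leaf 321 1988 (.cons 344 (.leaf 369 2180 (.cons 367 (.leaf 343 2174 (.cons 368 (.leaf 271 2175 (.leaf 391 2366 .nil)) .nil)) .nil)) .nil)) .nil)) .nil)) .nil)) .nil)) .nil)) .nil)) .nil)))) (.cons 224 (.cons 199 (.leaf 223 1599 (.cons 200 (.leaf 175 1407 (.cons 201 (.leaf 177 1413 (.leaf 225 1605 .nil)) .nil)) .nil)) (.cons 199 (.leaf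 223 1599 (.cons 200 (.leaf 175 1407 (.cons 295 (.leaf 271 1598 (.leaf 319 1790 .nil)) .nil)) .nil)) (.cons 295 (.leaf 319 1790 (.cons 200 (.leaf 271 1598 (.cons 201 (.leaf 177 1413 (.leaf 225 1605 .nil)) .nil)) .nil)) (.cons 199 (.leaf 223 1599 (.cons 225 (.leaf 201 1605 (.cons 249 (.leaf 320 1797 (.cons 295 (.leaf 319 1790 (.cons 274 (.leaf 273 2170 (.cons 298 (.leaf 297 2169 (.cons 250 (.leaf 322 1807 (.cons 251 (.leaf 271 1978 (.leaf 252 1795 .nil)) .nil)) .nil)) .nil)) .nil)) .nil)) .nil)) .nil)) .nil)))) (.cons 224 (.cons 199 (.leaf 223 1599 (.cons 200 (.leaf 175 1407 (.cons 201 (.leaf 177 1413 (.leaf 225 1605 .nil)) .nil)) .nil)) (.cons 199 (.leaf 223 1599 (.cons 200 (.leaf 175 1407 (.cons 297 (.leaf 273 1604 (.leaf 321 1796 .nil)) .nil)) .nil)) (.cons 201 (.leaf 225 1605 (.cons 200 (.leaf 177 1413 (.cons 297 (.leaf 273 1604 (.leaf 321 1796 .nil)) .nil)) .nil)) (.cons 199 (.leaf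 223 1599 (.cons 225 (.leaf 201 1605 (.cons 320 (.leaf 249 1797 (.cons 321 (.leaf 297 1796 (.leaf 345 1988 .nil)) .nil)) .nil)) .nil)) .nil)))) (.cons 224 (.cons 199 (.leaf 223 1599 (.cons 200 (.leaf 175 1407 (.cons 295 (.leaf 271 1598 (.leaf 319 1790 .nil)) .nil)) .nil)) (.cons 297 (.leaf 321 1796 (.cons 199 (.leaf 223 1599 (.cons 200 (.leaf 175 1407 (.leaf 273 1604 .nil)) .nil)) .nil)) (.cons 295 (.leaf 319 1790 (.cons 271 (.leaf 200 1598 (.cons 297 (.leaf 321 1796 (.cons 298 (.leaf 274 2169 (.leaf 299 2171 .nil)) .nil)) .nil)) .nil)) (.cons 199 (.leaf 223 1599 (.cons 295 (.leaf 319 1790 (.cons 273 (.leaf 274 2170 (.cons 293 (.leaf 294 2153 (.cons 321 (.leaf 297 1796 (.cons 320 (.leaf 345 1988 (.cons 322 (.leaf 323 2363 (.cons 344 (.leaf 249 1989 (.cons 367 (.leaf 343 2174 (.cons 368 (.leaf 271 2175 (.leaf 391 2366 .nil)) .nil)) .nil)) .nil)) .nil)) .nil)) .nil)) .nil)) .nil)) .nil))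 .nil)))) .nil))))))
noncomputable def t78 : T := .cons 224 (.cons 295 (.leaf 319 1790 (.cons 200 (.leaf 271 1598 (.cons 175 (.leaf 199 1407 (.cons 176 (.leaf 151 1215 (.cons 177 (.leaf 201 1413 (.leaf 153 1221 .nil)) .nil)) .nil)) .nil)) .nil)) (.cons 297 (.leaf 321 1796 (.cons 199 (.leaf 223 1599 (.cons 200 (.leaf 175 1407 (.leaf 273 1604 .nil)) .nil)) .nil)) (.cons 295 (.leaf 319 1790 (.cons 271 (.leaf 200 1598 (.cons 297 (.leaf 321 1796 (.cons 298 (.leaf 274 2169 (.leaf 299 2171 .nil)) .nil)) .nil)) .nil)) (.cons 199 (.leaf 223 1599 (.cons 225 (.leaf 201 1605 (.cons 319 (.leaf 295 1790 (.cons 320 (.leaf 249 1797 (.leaf 343 1982 .nil)) .nil)) .nil)) .nil)) .nil)))) (.cons 320 (.cons 249 (.leaf 225 1797 (.cons 273 (.leaf 344 1989 (.cons 274 (.leaf 295 2170 (.cons 251 (.leaf 252 1985 (.cons 250 (.leaf 271 1977 (.cons 227 (.leaf 228 1793 (.cons 203 (.leaf 298 1622 (.leaf 179 1430 .nil))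 .nil)) .nil)) .nil)) .nil)) .nil)) .nil)) (.cons 343 (.leaf 319 1982 (.cons 344 (.leaf 367 2174 (.cons 345 (.leaf 321 1988 (.leaf 369 2180 .nil)) .nil)) .nil)) (.cons 319 (.leaf 343 1982 (.cons 321 (.leaf 345 1988 (.cons 249 (.leaf 225 1797 (.cons 295 (.cons 294 (.leaf 293 2344 (.leaf 322 2355 .nil)) (.cons 273 (.leaf 274 2170 (.cons 322 (.leaf 323 2363 (.cons 346 (.leaf 347 2552 (.leaf 297 1996 .nil)) .nil)) .nil)) (.cons 274 (.leaf 273 2170 (.cons 294 (.leaf 293 2344 (.cons 297 (.leaf 298 2169 (.cons 318 (.leaf 317 2345 (.cons 270 (.leaf 269 2155 (.cons 246 (.leaf 222 1780 (.cons 342 (.leaf 341 2538 (.cons 366 (.leaf 390 2357 (.leaf 271 2165 .nil)) .nil)) .nil)) .nil)) .nil)) .nil)) .nil)) .nil)) .nil))) .nil)) .nil)) .nil)) .nil))) t77)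
noncomputable def t79 : T := .cons 199 (.leaf 223 1599 (.cons 225 (.leaf 201 1605 (.cons 319 (.leaf 295 1790 (.cons 320 (.leaf 249 1797 (.leaf 343 1982 .nil)) .nil)) .nil)) .nil)) (.cons 295 (.leaf 319 1790 (.cons 200 (.leaf 271 1598 (.cons 175 (.leaf 199 1407 (.cons 176 (.leaf 151 1215 (.cons 177 (.leaf 201 1413 (.leaf 153 1221 .nil)) .nil)) .nil)) .nil)) .nil)) (.cons 223 (.leaf 199 1599 (.cons 201 (.leaf 225 1605 (.cons 200 (.leaf 177 1413 (.cons 202 (.leaf 203 1594 (.cons 221 (.leaf 222 1577 (.cons 247 (.leaf 320 1791 (.cons 176 (.leaf 271 1406 (.leaf 152 1214 .nil)) .nil)) .nil)) .nil)) .nil)) .nil)) .nil)) (.cons 225 (.leaf 201 1605 (.cons 249 (.leaf 320 1797 (.cons 295 (.leaf 319 1790 (.cons 271 (.leaf 200 1598 (.cons 250 (.leaf 251 1978 (.cons 247 (.leaf 274 1976 (.leaf 270 1970 .nil)) .nil)) .nil)) .nil)) .nil)) .nil)) (.cons 223 (.leaf 199 1599 (.cons 247 (.leaf 320 1791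 (.cons 295 (.leaf 319 1790 (.cons 271 (.leaf 200 1597 (.cons 198 (.leaf 222 1591 (.cons 294 (.leaf 318 1782 (.cons 293 (.leaf 292 2145 (.cons 269 (.leaf 268 2147 (.cons 249 (.leaf 270 1961 (.cons 250 (.leaf 274 1976 (.leaf 251 1978 .nil)) .nil)) .nil)) .nil)) .nil)) .nil)) .nil)) .nil)) .nil)) .nil)) .nil))))
noncomputable def t80 : T := .cons 224 (.cons 199 (.leaf 223 1599 (.cons 200 (.leaf 175 1407 (.cons 295 (.leaf 271 1598 (.leaf 319 1790 .nil)) .nil)) .nil)) (.cons 295 (.leaf 319 1790 (.cons 200 (.leaf 271 1598 (.cons 175 (.leaf 199 1407 (.cons 176 (.leaf 151 1215 (.cons 177 (.leaf 201 1413 (.leaf 153 1221 .nil)) .nil)) .nil)) .nil)) .nil)) (.cons 223 (.leaf 199 1599 (.cons 320 (.leaf 247 1791 (.cons 321 (.leaf 297 1796 (.leaf 345 1988 .nil)) .nil)) .nil)) (.cons 295 (.leaf 319 1790 (.cons 271 (.leaf 200 1598 (.cons 297 (.leaf 321 1796 (.cons 298 (.leaf 274 2169 (.leaf 299 2171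 .nil)) .nil)) .nil)) .nil)) .nil)))) (.cons 320 (.cons 343 (.leaf 319 1982 (.cons 344 (.leaf 367 2174 (.cons 345 (.leaf 321 1988 (.leaf 369 2180 .nil)) .nil)) .nil)) (.cons 247 (.leaf 223 1791 (.cons 344 (.leaf 271 1983 (.cons 345 (.leaf 321 1988 (.leaf 369 2180 .nil)) .nil)) .nil)) (.cons 247 (.leaf 223 1791 (.cons 249 (.leaf 225 1797 (.cons 250 (.leaf 274 1976 (.cons 271 (.leaf 344 1983 (.leaf 251 1978 .nil)) .nil)) .nil)) .nil)) (.cons 247 (.leaf 223 1791 (.cons 249 (.leaf 225 1797 (.cons 250 (.leaf 274 1976 (.cons 271 (.leaf 251 1978 (.leaf 270 1970 .nil)) .nil)) .nil)) .nil)) .nil)))) (.cons 224 (.cons 199 (.leaf 223 1599 (.cons 201 (.leaf 225 1605 (.cons 295 (.leaf 319 1790 (.cons 297 (.leaf 321 1796 (.cons 298 (.leaf 274 2169 (.cons 200 (.leaf 175 1407 (.leaf 177 1413 .nil)) .nil)) .nil)) .nil)) .nil)) .nil)) (.cons 199 (.leaf 223 1599 (.cons 200 (.leaf 175 1407 (.cons 201 (.leaf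 177 1413 (.leaf 225 1605 .nil)) .nil)) .nil)) (.cons 295 (.leaf 319 1790 (.cons 200 (.leaf 271 1598 (.cons 175 (.leaf 199 1407 (.cons 176 (.leaf 151 1215 (.cons 177 (.leaf 201 1413 (.leaf 153 1221 .nil)) .nil)) .nil)) .nil)) .nil)) (.cons 295 (.leaf 319 1790 (.cons 271 (.leaf 200 1598 (.cons 297 (.leaf 321 1796 (.cons 298 (.leaf 274 2169 (.leaf 299 2171 .nil)) .nil)) .nil)) .nil)) (.cons 199 (.leaf 223 1599 (.cons 201 (.leaf 225 1605 (.cons 295 (.leaf 319 1790 (.cons 297 (.leaf 321 1796 (.cons 298 (.leaf 274 2169 (.cons 271 (.leaf 299 2171 (.leaf 270 2163 .nil)) .nil)) .nil)) .nil)) .nil)) .nil)) .nil))))) (.cons 320 (.cons 225 (.leaf 249 1797 (.cons 224 (.leaf 201 1605 (.cons 321 (.leaf 297 1796 (.leaf 345 1988 .nil)) .nil)) .nil)) (.cons 225 (.leaf 249 1797 (.cons 224 (.leaf 201 1605 (.cons 319 (.leaf 295 1790 (.leaf 343 1982 .nil)) .nil)) .nil)) (.cons 319 (.leaf 343 1982 (.cons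 224 (.leaf 295 1790 (.cons 321 (.leaf 297 1796 (.leaf 345 1988 .nil)) .nil)) .nil)) (.cons 343 (.leaf 319 1982 (.cons 344 (.leaf 367 2174 (.cons 345 (.leaf 321 1988 (.leaf 369 2180 .nil)) .nil)) .nil)) .nil)))) (.cons 224 (.cons 201 (.leaf 225 1605 (.cons 200 (.leaf 177 1413 (.cons 271 (.leaf 295 1598 (.cons 247 (.leaf 176 1406 (.cons 320 (.leaf 223 1791 (.leaf 344 1983 .nil)) .nil)) .nil)) .nil)) .nil)) (.cons 225 (.leaf 201 1605 (.cons 320 (.leaf 249 1797 (.cons 321 (.leaf 297 1796 (.leaf 345 1988 .nil)) .nil)) .nil)) (.cons 223 (.leaf 199 1599 (.cons 320 (.leaf 247 1791 (.cons 321 (.leaf 297 1796 (.leaf 345 1988 .nil)) .nil)) .nil)) (.cons 199 (.leaf 223 1599 (.cons 200 (.leaf 175 1407 (.cons 177 (.leaf 201 1413 (.cons 176 (.leaf 153 1221 (.cons 271 (.leaf 295 1598 (.leaf 247 1406 .nil)) .nil)) .nil)) .nil)) .nil)) .nil)))) (.cons 224 t79 .nil)))))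
noncomputable def t81 : T := .cons 270 (.leaf 269 1962 (.cons 250 (.leaf 271 1969 (.cons 251 (.leaf 252 1986 (.cons 224 (.leaf 223 1787 (.cons 200 (.leaf 297 1604 (.leaf 176 1412 .nil)) .nil)) .nil)) .nil)) .nil)) (.cons 222 (.leaf 221 1771 (.cons 250 (.leaf 223 1779 (.cons 251 (.leaf 271 1978 (.leaf 252 1986 .nil)) .nil)) .nil)) (.cons 222 (.leaf 221 1771 (.cons 223 (.leaf 250 1779 (.cons 199 (.leaf 175 1404 (.cons 270 (.leaf 269 1962 (.leaf 294 1589 .nil)) .nil)) .nil)) .nil)) (.cons 270 (.leaf 269 1962 (.cons 271 (.leaf 250 1969 (.cons 221 (.leaf 222 1771 (.cons 294 (.leaf 293 2154 (.cons 318 (.leaf 342 1973 (.cons 319 (.leaf 343 1972 (.cons 295 (.leaf 224 1789 (.cons 317 (.leaf 341 1966 (.cons 316 (.leaf 315 2329 (.leaf 296 2337 .nil)) .nil)) .nil)) .nil)) .nil)) .nil)) .nil)) .nil)) .nil)) (.cons 270 (.leaf 269 1962 (.cons 222 (.leaf 221 1771 (.cons 271 (.cons 198 (.leaf 174 1396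 (.leaf 295 1588 .nil)) (.cons 174 (.leaf 198 1396 (.cons 293 (.leaf 294 2154 (.cons 297 (.leaf 298 2160 (.cons 224 (.leaf 200 1604 (.leaf 321 1799 .nil)) .nil)) .nil)) .nil)) (.cons 293 (.leaf 294 2154 (.cons 295 (.leaf 319 1783 (.cons 224 (.leaf 200 1598 (.cons 297 (.leaf 298 2160 (.leaf 321 1799 .nil)) .nil)) .nil)) .nil)) .nil))) .nil)) .nil)) .nil))))
noncomputable def t82 : T := .cons 202 (.leaf 299 1620 (.cons 177 (.leaf 201 1423 (.cons 178 (.leaf 251 1428 (.leaf 153 1231 .nil)) .nil)) .nil)) (.cons 298 (.cons 203 (.leaf 227 1621 (.cons 299 (.leaf 323 1812 (.cons 321 (.leaf 297 1806 (.cons 322 (.leaf 345 1998 (.cons 346 (.leaf 251 2005 (.leaf 370 2197 .nil)) .nil)) .nil)) .nil)) .nil)) (.cons 201 (.leaf 225 1615 (.cons 297 (.leaf 321 1806 (.cons 296 (.leaf 295 2169 (.cons 299 (.leaf 271 2171 (.leaf 323 1812 .nil)) .nil)) .nil)) .nil)) (.cons 225 (.leaf 201 1615 (.cons 227 (.leaf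 224 1786 (.leaf 203 1621 .nil)) .nil)) .nil))) (.cons 298 (.cons 201 (.leaf 225 1615 (.cons 177 (.leaf 202 1423 (.cons 200 (.leaf 224 1413 (.cons 297 (.leaf 321 1806 (.cons 296 (.leaf 295 2169 (.cons 223 (.leaf 320 1791 (.cons 199 (.leaf 175 1404 (.leaf 271 1596 .nil)) .nil)) .nil)) .nil)) .nil)) .nil)) .nil)) (.cons 203 (.leaf 227 1621 (.cons 179 (.leaf 202 1429 (.cons 297 (.leaf 321 1806 (.cons 296 (.leaf 295 2169 (.cons 223 (.leaf 320 1791 (.cons 199 (.leaf 175 1404 (.leaf 224 1599 .nil)) .nil)) .nil)) .nil)) .nil)) .nil)) (.cons 227 (.leaf 203 1621 (.cons 225 (.leaf 224 1786 (.leaf 201 1615 .nil)) .nil)) (.cons 201 (.leaf 225 1615 (.cons 177 (.leaf 202 1423 (.cons 203 (.leaf 227 1621 (.cons 297 (.leaf 321 1806 (.cons 296 (.leaf 295 2169 (.cons 223 (.leaf 320 1791 (.cons 199 (.leaf 175 1404 (.leaf 271 1596 .nil)) .nil)) .nil)) .nil)) .nil)) .nil)) .nil)) .nil)))) (.cons 299 (.leaf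 202 1620 (.cons 323 (.leaf 251 1815 (.leaf 347 2007 .nil)) .nil)) .nil)))
noncomputable def t83 : T := .cons 221 (.leaf 222 1771 (.cons 225 (.leaf 226 1777 (.cons 177 (.leaf 201 1414 (.cons 270 (.leaf 269 1962 (.cons 271 (.leaf 250 1969 (.cons 294 (.leaf 293 2154 (.cons 223 (.leaf 199 1590 (.leaf 318 1781 .nil)) .nil)) .nil)) .nil)) .nil)) .nil)) .nil)) (.cons 221 (.leaf 222 1771 (.cons 225 (.leaf 226 1777 (.cons 201 (.leaf 177 1414 (.cons 178 (.leaf 202 1421 (.cons 200 (.leaf 176 1415 (.cons 224 (.leaf 297 1604 (.cons 199 (.leaf 175 1407 (.cons 198 (.leaf 197 1576 (.cons 271 (.leaf 295 1598 (.cons 174 (.leaf 223 1399 (.leaf 173 1387 .nil)) .nil)) .nil)) .nil)) .nil)) .nil)) .nil)) .nil)) .nil)) .nil)) (.cons 221 (.leaf 222 1771 (.cons 270 (.leaf 269 1962 (.cons 271 (.leaf 250 1969 (.cons 294 (.leaf 293 2154 (.cons 223 (.leaf 199 1590 (.leaf 318 1781 .nil)) .nil)) .nil)) .nil)) .nil))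 (.cons 225 (.leaf 226 1777 (.cons 177 (.leaf 201 1414 (.cons 270 (.leaf 269 1962 (.cons 250 (.leaf 271 1969 (.cons 251 (.leaf 252 1986 (.cons 224 (.leaf 223 1787 (.cons 200 (.leaf 297 1604 (.leaf 176 1412 .nil)) .nil)) .nil)) .nil)) .nil)) .nil)) .nil)) (.cons 225 (.leaf 226 1777 (.cons 177 (.leaf 201 1414 (.cons 222 (.leaf 221 1771 (.cons 223 (.leaf 250 1779 (.cons 199 (.leaf 175 1404 (.cons 270 (.leaf 269 1962 (.leaf 294 1589 .nil)) .nil)) .nil)) .nil)) .nil)) .nil)) (.cons 221 (.leaf 222 1771 (.cons 270 (.leaf 269 1962 (.cons 271 (.leaf 250 1969 (.cons 293 (.leaf 294 2154 (.cons 297 (.leaf 298 2160 (.cons 224 (.leaf 200 1604 (.leaf 321 1799 .nil)) .nil)) .nil)) .nil)) .nil)) .nil)) .nil)))))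
noncomputable def t84 : T := .cons 223 (.cons 199 (.leaf 175 1404 (.cons 296 (.leaf 224 1599 (.leaf 271 1596 .nil)) .nil)) (.cons 296 (.leaf 320 1791 (.cons 224 (.cons 295 (.leaf 319 1790 (.cons 271 (.leaf 200 1597 (.cons 198 (.leaf 222 1591 (.cons 294 (.leaf 318 1782 (.cons 293 (.leaf 292 2145 (.cons 269 (.leaf 268 2147 (.cons 249 (.leaf 270 1961 (.cons 250 (.leaf 274 1976 (.leaf 251 1978 .nil)) .nil)) .nil)) .nil)) .nil)) .nil)) .nil)) .nil)) (.cons 225 (.leaf 201 1605 (.cons 226 (.leaf 227 1786 (.leaf 246 1778 .nil)) .nil)) .nil)) .nil)) (.cons 199 (.leaf 175 1404 (.cons 271 (.cons 174 (.leaf 198 1399 (.cons 200 (.leaf 176 1405 (.cons 224 (.leaf 295 1597 (.cons 201 (.leaf 177 1413 (.cons 202 (.leaf 222 1586 (.leaf 203 1594 .nil)) .nil)) .nil)) .nil)) .nil)) (.cons 270 (.leaf 294 1590 (.cons 249 (.leaf 269 1961 (.leaf 250 1970 .nil)) .nil)) .nil)) .nil)) (.cons 199 (.leaf 175 1404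 (.cons 296 (.leaf 271 1596 (.leaf 320 1791 .nil)) .nil)) (.cons 296 (.leaf 320 1791 (.cons 199 (.leaf 175 1404 (.leaf 224 1599 .nil)) .nil)) .nil))))) (.cons 223 (.cons 199 (.leaf 175 1404 (.cons 296 (.leaf 224 1599 (.leaf 271 1596 .nil)) .nil)) (.cons 296 (.leaf 320 1791 (.cons 224 (.cons 297 (.leaf 321 1796 (.cons 200 (.leaf 273 1604 (.cons 176 (.leaf 271 1406 (.leaf 152 1214 .nil)) .nil)) .nil)) (.cons 225 (.leaf 201 1605 (.cons 226 (.leaf 227 1786 (.leaf 246 1778 .nil)) .nil)) .nil)) .nil)) (.cons 199 (.leaf 175 1404 (.cons 271 (.cons 174 (.leaf 198 1399 (.cons 176 (.leaf 200 1405 (.cons 270 (.leaf 294 1590 (.cons 249 (.leaf 269 1961 (.leaf 250 1970 .nil)) .nil)) .nil)) .nil)) (.cons 174 (.leaf 198 1399 (.cons 200 (.leaf 176 1405 (.cons 224 (.leaf 295 1597 (.cons 201 (.leaf 177 1413 (.cons 202 (.leaf 222 1586 (.leaf 203 1594 .nil)) .nil)) .nil)) .nil)) .nil)) (.cons 270 (.leaf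 294 1590 (.cons 249 (.leaf 269 1961 (.leaf 250 1970 .nil)) .nil)) .nil))) .nil)) (.cons 199 (.leaf 175 1404 (.cons 296 (.leaf 271 1596 (.leaf 320 1791 .nil)) .nil)) (.cons 296 (.leaf 320 1791 (.cons 199 (.leaf 175 1404 (.leaf 224 1599 .nil)) .nil)) .nil))))) (.cons 273 (.leaf 274 1979 (.cons 246 (.leaf 245 1960 (.cons 223 (.cons 199 (.leaf 175 1404 (.cons 296 (.leaf 224 1599 (.leaf 271 1596 .nil)) .nil)) (.cons 296 (.leaf 320 1791 (.cons 224 (.cons 225 (.leaf 201 1605 (.leaf 226 1778 .nil)) (.cons 297 (.leaf 200 1604 (.leaf 321 1796 .nil)) .nil)) .nil)) (.cons 199 (.leaf 175 1404 (.cons 271 (.cons 200 (.leaf 176 1405 (.cons 174 (.leaf 198 1399 (.cons 224 (.leaf 295 1597 (.leaf 297 1604 .nil)) .nil)) .nil)) (.cons 198 (.leaf 174 1399 (.cons 270 (.leaf 294 1590 (.cons 269 (.leaf 268 1953 (.cons 293 (.leaf 292 2146 (.leaf 222 1582 .nil)) .nil)) .nil)) .nil)) (.cons 200 (.leaf 176 1405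 (.cons 224 (.leaf 295 1597 (.leaf 297 1604 .nil)) .nil)) .nil))) .nil)) (.cons 199 (.leaf 175 1404 (.cons 296 (.leaf 271 1596 (.leaf 320 1791 .nil)) .nil)) .nil)))) .nil)) .nil)) (.cons 273 (.leaf 274 1979 (.cons 246 (.leaf 245 1960 (.cons 249 t83 .nil)) .nil)) (.cons 273 (.leaf 274 1979 (.cons 246 (.leaf 245 1960 (.cons 249 (.cons 225 (.leaf 226 1777 (.cons 201 (.leaf 177 1414 (.leaf 296 1606 .nil)) .nil)) (.cons 270 (.leaf 269 1962 (.cons 271 (.leaf 250 1969 (.cons 221 (.leaf 222 1771 (.cons 294 (.leaf 293 2154 (.cons 318 (.leaf 342 1973 (.cons 319 (.leaf 343 1972 (.cons 295 (.leaf 224 1789 (.cons 317 (.leaf 341 1966 (.cons 316 (.leaf 315 2329 (.leaf 296 2337 .nil)) .nil)) .nil)) .nil)) .nil)) .nil)) .nil)) .nil)) .nil)) (.cons 270 (.leaf 269 1962 (.cons 271 (.leaf 250 1969 (.cons 221 (.leaf 222 1771 (.cons 293 (.leaf 294 2154 (.cons 297 (.leaf 298 2160 (.cons 224 (.leaf 200 1604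 (.leaf 321 1799 .nil)) .nil)) .nil)) .nil)) .nil)) .nil)) .nil))) .nil)) .nil)) (.cons 274 (.leaf 273 1979 (.cons 250 (.leaf 249 1976 (.cons 226 t82 .nil)) .nil)) (.cons 273 (.leaf 274 1979 (.cons 246 (.leaf 245 1960 (.cons 249 (.cons 222 (.leaf 221 1771 (.cons 223 (.leaf 250 1779 (.cons 199 (.leaf 175 1404 (.cons 270 (.leaf 269 1962 (.leaf 294 1589 .nil)) .nil)) .nil)) .nil)) (.cons 222 (.leaf 221 1771 (.cons 250 (.leaf 223 1779 (.cons 251 (.leaf 271 1978 (.leaf 252 1986 .nil)) .nil)) .nil)) (.cons 270 (.leaf 269 1962 (.cons 250 (.leaf 271 1969 (.cons 227 (.leaf 226 1785 (.cons 251 (.leaf 252 1986 (.leaf 228 1793 .nil)) .nil)) .nil)) .nil)) (.cons 270 (.leaf 269 1962 (.cons 222 (.leaf 221 1771 (.cons 271 (.cons 198 (.leaf 174 1396 (.leaf 295 1588 .nil)) (.cons 174 (.leaf 198 1396 (.cons 293 (.leaf 294 2154 (.cons 297 (.leaf 298 2160 (.cons 224 (.leaf 200 1604 (.leaf 321 1799 .nil))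 .nil)) .nil)) .nil)) (.cons 293 (.leaf 294 2154 (.cons 295 (.leaf 319 1783 (.cons 224 (.leaf 200 1598 (.cons 297 (.leaf 298 2160 (.leaf 321 1799 .nil)) .nil)) .nil)) .nil)) .nil))) .nil)) .nil)) .nil)))) .nil)) .nil)) (.cons 273 (.leaf 274 1979 (.cons 246 (.leaf 245 1960 (.cons 249 t81 .nil)) .nil)) .nil)))))))
noncomputable def t85 : T := .cons 177 (.leaf 201 1413 (.cons 176 (.leaf 153 1221 (.cons 249 (.leaf 273 1412 (.cons 225 (.leaf 152 1220 (.cons 271 (.leaf 295 1598 (.leaf 247 1406 .nil)) .nil)) .nil)) .nil)) .nil)) (.cons 199 (.leaf 175 1407 (.cons 223 (.leaf 296 1599 (.cons 271 (.leaf 295 1598 (.cons 176 (.leaf 247 1405 (.cons 128 (.leaf 152 1022 (.cons 153 (.leaf 177 1221 (.cons 249 (.leaf 273 1412 (.cons 250 (.leaf 251 1978 (.cons 222 (.leaf 221 1768 (.leaf 225 1776 .nil)) .nil)) .nil)) .nil)) .nil)) .nil)) .nil)) .nil)) .nil)) (.cons 175 (.leaf 199 1407 (.cons 176 (.leaf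 151 1215 (.cons 177 (.leaf 201 1413 (.leaf 153 1221 .nil)) .nil)) .nil)) (.cons 199 (.leaf 175 1407 (.cons 223 (.leaf 296 1599 (.cons 271 (.leaf 295 1598 (.cons 176 (.leaf 247 1405 (.cons 128 (.leaf 152 1022 (.cons 249 (.leaf 273 1412 (.cons 250 (.leaf 251 1978 (.cons 222 (.leaf 221 1768 (.leaf 225 1776 .nil)) .nil)) .nil)) .nil)) .nil)) .nil)) .nil)) .nil)) (.cons 175 (.leaf 199 1407 (.cons 201 (.leaf 177 1413 (.cons 295 (.leaf 271 1598 (.cons 296 (.leaf 225 1605 (.leaf 319 1790 .nil)) .nil)) .nil)) .nil)) .nil))))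
noncomputable def t86 : T := .cons 271 (.leaf 295 1598 (.cons 176 (.leaf 247 1406 (.cons 151 (.leaf 175 1215 (.cons 152 (.leaf 127 1023 (.cons 153 (.leaf 177 1221 (.leaf 129 1029 .nil)) .nil)) .nil)) .nil)) .nil)) (.cons 273 (.leaf 297 1604 (.cons 176 (.leaf 249 1412 (.cons 177 (.leaf 201 1413 (.leaf 153 1221 .nil)) .nil)) .nil)) (.cons 271 (.leaf 295 1598 (.cons 176 (.leaf 247 1406 (.cons 273 (.leaf 297 1604 (.leaf 249 1412 .nil)) .nil)) .nil)) (.cons 199 (.leaf 175 1407 (.cons 201 (.leaf 177 1413 (.cons 271 (.leaf 295 1598 (.cons 198 (.cons 226 (.leaf 225 1584 (.cons 173 (.leaf 174 1387 (.cons 202 (.leaf 227 1592 (.cons 222 (.leaf 221 1578 (.leaf 223 1586 .nil)) .nil)) .nil)) .nil)) (.cons 222 (.leaf 221 1578 (.cons 173 (.leaf 174 1387 (.cons 172 (.leaf 197 1379 (.cons 202 (.leaf 223 1586 (.cons 179 (.leaf 178 1401 (.cons 203 (.leaf 180 1409 (.cons 227 (.leaf 226 1592 (.leaf 228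 1600 .nil)) .nil)) .nil)) .nil)) .nil)) .nil)) .nil)) (.cons 197 (.leaf 225 1576 (.cons 173 (.leaf 172 1379 (.leaf 174 1387 .nil)) .nil)) (.cons 225 (.leaf 197 1576 (.leaf 226 1584 .nil)) .nil)))) .nil)) .nil)) .nil)) .nil)))
noncomputable def t87 : T := .cons 223 (.leaf 199 1599 (.cons 201 (.leaf 225 1605 (.cons 319 (.leaf 295 1790 (.cons 320 (.leaf 247 1791 (.leaf 343 1982 .nil)) .nil)) .nil)) .nil)) (.cons 225 (.leaf 201 1605 (.cons 320 (.leaf 249 1797 (.cons 321 (.leaf 297 1796 (.leaf 345 1988 .nil)) .nil)) .nil)) (.cons 223 (.leaf 199 1599 (.cons 295 (.leaf 319 1790 (.cons 320 (.leaf 247 1791 (.cons 321 (.leaf 297 1796 (.leaf 345 1988 .nil)) .nil)) .nil)) .nil)) (.cons 223 (.leaf 199 1599 (.cons 225 (.leaf 201 1605 (.cons 295 (.leaf 319 1790 (.cons 222 (.cons 250 (.leaf 249 1776 (.cons 197 (.leaf 198 1579 (.cons 226 (.leaf 251 1784 (.cons 246 (.leaf 245 1770 (.leaf 247 1778 .nil))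 .nil)) .nil)) .nil)) (.cons 246 (.leaf 245 1770 (.cons 197 (.leaf 198 1579 (.cons 196 (.leaf 221 1571 (.cons 226 (.leaf 247 1778 (.cons 203 (.leaf 202 1593 (.cons 227 (.leaf 204 1601 (.cons 251 (.leaf 250 1784 (.leaf 252 1792 .nil)) .nil)) .nil)) .nil)) .nil)) .nil)) .nil)) (.cons 249 (.leaf 221 1768 (.leaf 250 1776 .nil)) (.cons 221 (.leaf 249 1768 (.cons 197 (.leaf 196 1571 (.leaf 198 1579 .nil)) .nil)) .nil)))) .nil)) .nil)) .nil)) .nil)))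
noncomputable def t88 : T := .cons 175 (.leaf 199 1407 (.cons 151 (.leaf 176 1215 (.cons 201 (.leaf 177 1413 (.cons 296 (.leaf 225 1605 (.cons 319 (.leaf 295 1790 (.cons 320 (.leaf 343 1982 (.cons 321 (.leaf 297 1796 (.leaf 345 1988 .nil)) .nil)) .nil)) .nil)) .nil)) .nil)) .nil)) (.cons 201 (.leaf 177 1413 (.cons 271 (.leaf 295 1598 (.cons 176 (.leaf 247 1406 (.cons 273 (.leaf 297 1604 (.leaf 249 1412 .nil)) .nil)) .nil)) .nil)) (.cons 271 (.leaf 295 1598 (.cons 176 (.leaf 247 1406 (.cons 151 (.leaf 175 1215 (.cons 152 (.leaf 127 1023 (.cons 153 (.leaf 177 1221 (.leaf 129 1029 .nil)) .nil)) .nil)) .nil)) .nil)) (.cons 271 (.leaf 295 1598 (.cons 176 (.leaf 247 1406 (.cons 273 (.leaf 297 1604 (.leaf 249 1412 .nil)) .nil)) .nil)) (.cons 175 (.leaf 199 1407 (.cons 201 (.leaf 177 1413 (.cons 271 (.leaf 295 1598 (.cons 296 (.leaf 225 1605 (.cons 321 (.leaf 297 1796 (.cons 320 (.leaf 345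 1988 (.cons 343 (.leaf 319 1982 (.cons 344 (.leaf 247 1983 (.leaf 367 2174 .nil)) .nil)) .nil)) .nil)) .nil)) .nil)) .nil)) .nil)) (.cons 175 (.leaf 199 1407 (.cons 151 (.leaf 176 1215 (.cons 201 (.leaf 177 1413 (.cons 296 (.leaf 225 1605 (.cons 297 (.leaf 273 1604 (.leaf 321 1796 .nil)) .nil)) .nil)) .nil)) .nil)) .nil)))))
noncomputable def t89 : T := .cons 200 t88 (.cons 296 t87 (.cons 200 t86 (.cons 200 (.cons 175 (.leaf 199 1407 (.cons 177 (.leaf 201 1413 (.cons 295 (.leaf 271 1598 (.cons 296 (.leaf 319 1790 (.cons 297 (.leaf 273 1604 (.leaf 321 1796 .nil)) .nil)) .nil)) .nil)) .nil)) (.cons 175 (.leaf 199 1407 (.cons 176 (.leaf 151 1215 (.cons 273 (.leaf 297 1604 (.leaf 249 1412 .nil)) .nil)) .nil)) (.cons 273 (.leaf 297 1604 (.cons 176 (.leaf 249 1412 (.cons 177 (.leaf 201 1413 (.leaf 153 1221 .nil)) .nil)) .nil)) (.cons 175 (.leaf 199 1407 (.cons 176 (.leaf 151 1215 (.cons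 271 (.leaf 295 1598 (.leaf 247 1406 .nil)) .nil)) .nil)) .nil)))) (.cons 200 (.cons 177 (.leaf 201 1413 (.cons 176 (.leaf 153 1221 (.cons 273 (.leaf 297 1604 (.leaf 249 1412 .nil)) .nil)) .nil)) (.cons 271 (.leaf 295 1598 (.cons 176 (.leaf 247 1406 (.cons 151 (.leaf 175 1215 (.cons 152 (.leaf 127 1023 (.cons 153 (.leaf 177 1221 (.leaf 129 1029 .nil)) .nil)) .nil)) .nil)) .nil)) (.cons 271 (.leaf 295 1598 (.cons 176 (.leaf 247 1406 (.cons 273 (.leaf 297 1604 (.leaf 249 1412 .nil)) .nil)) .nil)) (.cons 177 (.leaf 201 1413 (.cons 295 (.leaf 271 1598 (.cons 296 (.leaf 319 1790 (.cons 297 (.leaf 273 1604 (.leaf 321 1796 .nil)) .nil)) .nil)) .nil)) .nil)))) (.cons 200 (.cons 175 (.leaf 199 1407 (.cons 295 (.leaf 271 1598 (.cons 176 (.leaf 151 1215 (.cons 273 (.leaf 297 1604 (.leaf 249 1412 .nil)) .nil)) .nil)) .nil)) (.cons 175 (.leaf 199 1407 (.cons 176 (.leaf 151 1215 (.cons 273 (.leaf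 297 1604 (.leaf 249 1412 .nil)) .nil)) .nil)) (.cons 271 (.leaf 295 1598 (.cons 176 (.leaf 247 1406 (.cons 151 (.leaf 175 1215 (.cons 152 (.leaf 127 1023 (.cons 153 (.leaf 177 1221 (.leaf 129 1029 .nil)) .nil)) .nil)) .nil)) .nil)) (.cons 271 (.leaf 295 1598 (.cons 176 (.leaf 247 1406 (.cons 273 (.leaf 297 1604 (.leaf 249 1412 .nil)) .nil)) .nil)) (.cons 175 (.leaf 199 1407 (.cons 295 (.leaf 271 1598 (.cons 296 (.leaf 319 1790 (.cons 297 (.leaf 273 1604 (.leaf 321 1796 .nil)) .nil)) .nil)) .nil)) .nil))))) (.cons 200 t85 (.cons 200 (.cons 199 (.leaf 175 1407 (.cons 201 (.leaf 177 1413 (.cons 296 (.leaf 223 1599 (.leaf 225 1605 .nil)) .nil)) .nil)) (.cons 201 (.leaf 177 1413 (.cons 271 (.leaf 295 1598 (.cons 296 (.leaf 225 1605 (.cons 247 (.leaf 176 1406 (.cons 320 (.leaf 223 1791 (.leaf 344 1983 .nil)) .nil)) .nil)) .nil)) .nil)) (.cons 199 (.leaf 175 1407 (.cons 296 (.leaf 223 1599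 (.cons 295 (.leaf 271 1598 (.leaf 319 1790 .nil)) .nil)) .nil)) (.cons 271 (.leaf 295 1598 (.cons 175 (.leaf 199 1407 (.cons 176 (.leaf 151 1215 (.leaf 247 1406 .nil)) .nil)) .nil)) .nil)))) (.cons 200 (.cons 175 (.leaf 199 1407 (.cons 295 (.leaf 271 1598 (.cons 176 (.leaf 151 1215 (.cons 273 (.leaf 297 1604 (.leaf 249 1412 .nil)) .nil)) .nil)) .nil)) (.cons 201 (.leaf 177 1413 (.cons 271 (.leaf 295 1598 (.cons 296 (.leaf 225 1605 (.cons 297 (.leaf 273 1604 (.leaf 321 1796 .nil)) .nil)) .nil)) .nil)) (.cons 175 (.leaf 199 1407 (.cons 176 (.leaf 151 1215 (.cons 177 (.leaf 201 1413 (.leaf 153 1221 .nil)) .nil)) .nil)) .nil))) (.cons 200 (.cons 175 (.leaf 199 1407 (.cons 176 (.leaf 151 1215 (.cons 273 (.leaf 297 1604 (.leaf 249 1412 .nil)) .nil)) .nil)) (.cons 177 (.leaf 201 1413 (.cons 176 (.leaf 153 1221 (.cons 273 (.leaf 297 1604 (.leaf 249 1412 .nil)) .nil)) .nil)) (.cons 199 (.leaf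 175 1407 (.cons 177 (.leaf 201 1413 (.cons 176 (.leaf 153 1221 (.cons 178 (.leaf 179 1402 (.cons 197 (.leaf 198 1385 (.cons 223 (.leaf 296 1599 (.cons 247 (.leaf 271 1405 (.leaf 152 1214 .nil)) .nil)) .nil)) .nil)) .nil)) .nil)) .nil)) (.cons 175 (.leaf 199 1407 (.cons 201 (.leaf 177 1413 (.cons 296 (.leaf 225 1605 (.cons 297 (.leaf 273 1604 (.leaf 321 1796 .nil)) .nil)) .nil)) .nil)) .nil)))) .nil)))))))))
noncomputable def t90 : T := .cons 225 (.leaf 249 1797 (.cons 321 (.leaf 345 1988 (.cons 224 (.leaf 297 1796 (.cons 295 (.leaf 319 1790 (.cons 271 (.leaf 200 1598 (.cons 344 (.leaf 247 1983 (.leaf 368 2175 .nil)) .nil)) .nil)) .nil)) .nil)) .nil)) (.cons 321 (.leaf 345 1988 (.cons 224 (.leaf 297 1796 (.cons 249 (.leaf 225 1797 (.cons 273 (.leaf 344 1989 (.cons 200 (.leaf 176 1412 (.cons 175 (.leaf 199 1407 (.cons 271 (.leaf 295 1598 (.cons 250 (.leaf 251 1978 (.leaf 270 1969 .nil))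 .nil)) .nil)) .nil)) .nil)) .nil)) .nil)) .nil)) (.cons 319 (.leaf 343 1982 (.cons 224 (.leaf 295 1790 (.cons 249 (.leaf 225 1797 (.cons 273 (.leaf 344 1989 (.cons 200 (.leaf 297 1604 (.leaf 176 1412 .nil)) .nil)) .nil)) .nil)) .nil)) (.cons 319 (.leaf 343 1982 (.cons 224 (.leaf 295 1790 (.cons 321 (.leaf 297 1796 (.leaf 345 1988 .nil)) .nil)) .nil)) (.cons 319 (.leaf 343 1982 (.cons 224 (.leaf 295 1790 (.cons 249 (.leaf 225 1797 (.cons 344 (.leaf 273 1989 (.cons 345 (.leaf 321 1988 (.leaf 369 2180 .nil)) .nil)) .nil)) .nil)) .nil)) (.cons 321 (.leaf 345 1988 (.cons 224 (.leaf 297 1796 (.cons 249 (.leaf 225 1797 (.cons 343 (.leaf 319 1982 (.cons 344 (.leaf 273 1989 (.leaf 367 2174 .nil)) .nil)) .nil)) .nil)) .nil)) (.cons 249 (.leaf 225 1797 (.cons 319 (.leaf 343 1982 (.cons 344 (.leaf 273 1989 (.cons 345 (.leaf 321 1988 (.leaf 369 2180 .nil)) .nil)) .nil)) .nil)) .nil))))))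
noncomputable def t91 : T := .cons 223 (.leaf 247 1791 (.cons 199 (.leaf 224 1599 (.cons 249 (.leaf 225 1797 (.cons 344 (.leaf 273 1989 (.cons 367 (.leaf 343 2174 (.cons 368 (.leaf 391 2366 (.cons 369 (.leaf 345 2180 (.leaf 393 2372 .nil)) .nil)) .nil)) .nil)) .nil)) .nil)) .nil)) (.cons 319 (.leaf 343 1982 (.cons 224 (.leaf 295 1790 (.cons 199 (.leaf 223 1599 (.cons 175 (.leaf 200 1407 (.cons 249 (.leaf 225 1797 (.cons 344 (.leaf 273 1989 (.cons 345 (.leaf 321 1988 (.leaf 369 2180 .nil)) .nil)) .nil)) .nil)) .nil)) .nil)) .nil)) (.cons 247 (.leaf 223 1791 (.cons 344 (.leaf 271 1983 (.cons 345 (.leaf 321 1988 (.leaf 369 2180 .nil)) .nil)) .nil)) (.cons 319 (.leaf 343 1982 (.cons 224 (.leaf 295 1790 (.cons 249 (.leaf 225 1797 (.cons 344 (.leaf 273 1989 (.cons 345 (.leaf 321 1988 (.leaf 369 2180 .nil)) .nil)) .nil)) .nil)) .nil)) (.cons 247 (.leaf 223 1791 (.cons 225 (.leaf 249 1797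 (.cons 343 (.leaf 319 1982 (.cons 344 (.leaf 271 1983 (.leaf 367 2174 .nil)) .nil)) .nil)) .nil)) (.cons 319 (.leaf 343 1982 (.cons 223 (.leaf 247 1791 (.cons 295 (.leaf 224 1790 (.cons 321 (.leaf 345 1988 (.cons 294 (.leaf 293 2344 (.leaf 322 2355 .nil)) .nil)) .nil)) .nil)) .nil)) .nil)))))
noncomputable def t92 : T := .cons 225 (.leaf 249 1797 (.cons 345 (.leaf 321 1988 (.cons 344 (.leaf 369 2180 (.cons 271 (.leaf 247 1983 (.cons 367 (.leaf 343 2174 (.cons 368 (.leaf 295 2175 (.leaf 391 2366 .nil)) .nil)) .nil)) .nil)) .nil)) .nil)) (.cons 247 (.leaf 223 1791 (.cons 225 (.leaf 249 1797 (.cons 344 (.leaf 271 1983 (.cons 367 (.leaf 343 2174 (.cons 368 (.leaf 391 2366 (.cons 369 (.leaf 345 2180 (.leaf 393 2372 .nil)) .nil)) .nil)) .nil)) .nil)) .nil)) (.cons 321 (.leaf 345 1988 (.cons 224 (.leaf 297 1796 (.cons 199 (.leaf 223 1599 (.cons 200 (.leaf 175 1407 (.cons 249 (.leaf 225 1797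 (.cons 273 (.leaf 344 1989 (.leaf 176 1412 .nil)) .nil)) .nil)) .nil)) .nil)) .nil)) (.cons 223 (.leaf 247 1791 (.cons 224 (.leaf 199 1599 (.cons 321 (.leaf 297 1796 (.leaf 345 1988 .nil)) .nil)) .nil)) (.cons 247 (.leaf 223 1791 (.cons 225 (.leaf 249 1797 (.cons 344 (.leaf 271 1983 (.cons 367 (.leaf 343 2174 (.cons 368 (.leaf 391 2366 (.cons 297 (.leaf 273 2181 (.cons 321 (.leaf 224 1796 (.leaf 392 2373 .nil)) .nil)) .nil)) .nil)) .nil)) .nil)) .nil)) .nil))))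
noncomputable def t93 : T := .cons 223 (.leaf 199 1599 (.cons 297 (.leaf 321 1796 (.cons 295 (.leaf 319 1790 (.cons 294 (.cons 269 (.leaf 270 2155 (.cons 293 (.leaf 273 2153 (.leaf 268 2147 .nil)) .nil)) (.cons 270 (.leaf 269 2155 (.cons 271 (.leaf 200 1598 (.leaf 298 2163 .nil)) .nil)) (.cons 293 (.leaf 273 2153 (.cons 317 (.leaf 316 2338 (.leaf 318 2346 .nil)) .nil)) .nil))) .nil)) .nil)) .nil)) (.cons 295 (.leaf 319 1790 (.cons 199 (.leaf 223 1599 (.cons 200 (.leaf 175 1407 (.leaf 271 1598 .nil)) .nil)) .nil)) (.cons 297 (.leaf 321 1796 (.cons 199 (.leaf 223 1599 (.cons 200 (.leaf 175 1407 (.leaf 273 1604 .nil)) .nil)) .nil)) (.cons 297 (.leaf 321 1796 (.cons 200 (.leaf 273 1604 (.cons 295 (.leaf 271 1598 (.leaf 319 1790 .nil)) .nil)) .nil)) (.cons 223 (.leaf 199 1599 (.cons 297 (.leaf 321 1796 (.cons 295 (.leaf 319 1790 (.cons 294 (.cons 269 (.leaf 270 2155 (.cons 293 (.leaf 273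 2153 (.leaf 268 2147 .nil)) .nil)) (.cons 293 (.leaf 273 2153 (.cons 317 (.leaf 316 2338 (.leaf 318 2346 .nil)) .nil)) (.cons 270 (.leaf 269 2155 (.cons 271 (.leaf 298 2163 (.cons 318 (.leaf 317 2346 (.leaf 247 1782 .nil)) .nil)) .nil)) .nil))) .nil)) .nil)) .nil)) .nil))))
noncomputable def t94 : T := .cons 225 (.leaf 249 1797 (.cons 321 (.leaf 345 1988 (.cons 224 (.leaf 297 1796 (.cons 295 (.leaf 319 1790 (.cons 271 (.leaf 200 1598 (.cons 344 (.leaf 247 1983 (.leaf 368 2175 .nil)) .nil)) .nil)) .nil)) .nil)) .nil)) (.cons 223 (.leaf 247 1791 (.cons 224 (.leaf 199 1599 (.cons 297 (.leaf 321 1796 (.cons 273 (.leaf 200 1604 (.cons 344 (.leaf 249 1989 (.leaf 368 2181 .nil)) .nil)) .nil)) .nil)) .nil)) (.cons 319 (.leaf 343 1982 (.cons 224 (.leaf 295 1790 (.cons 247 (.leaf 223 1791 (.cons 344 (.leaf 271 1983 (.cons 273 (.leaf 249 1989 (.cons 297 (.leaf 200 1604 (.leaf 368 2181 .nil))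 .nil)) .nil)) .nil)) .nil)) .nil)) (.cons 225 (.leaf 249 1797 (.cons 319 (.leaf 343 1982 (.cons 295 (.leaf 224 1790 (.cons 321 (.leaf 345 1988 (.cons 294 (.leaf 293 2344 (.leaf 322 2355 .nil)) .nil)) .nil)) .nil)) .nil)) (.cons 319 (.leaf 343 1982 (.cons 224 (.leaf 295 1790 (.cons 321 (.leaf 297 1796 (.leaf 345 1988 .nil)) .nil)) .nil)) (.cons 223 (.leaf 247 1791 (.cons 225 (.leaf 249 1797 (.cons 343 (.leaf 319 1982 (.cons 344 (.leaf 367 2174 (.cons 345 (.leaf 321 1988 (.leaf 369 2180 .nil)) .nil)) .nil)) .nil)) .nil)) .nil)))))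
noncomputable def t95 : T := .cons 320 t94 (.cons 224 t93 (.cons 320 (.cons 249 (.leaf 225 1797 (.cons 319 (.leaf 343 1982 (.cons 344 (.leaf 273 1989 (.cons 345 (.leaf 321 1988 (.leaf 369 2180 .nil)) .nil)) .nil)) .nil)) (.cons 247 (.leaf 223 1791 (.cons 344 (.leaf 271 1983 (.cons 345 (.leaf 321 1988 (.leaf 369 2180 .nil)) .nil)) .nil)) (.cons 247 (.leaf 223 1791 (.cons 343 (.leaf 319 1982 (.cons 344 (.leaf 271 1983 (.leaf 367 2174 .nil)) .nil)) .nil)) (.cons 319 (.leaf 343 1982 (.cons 321 (.leaf 345 1988 (.cons 249 (.leaf 225 1797 (.cons 247 (.leaf 223 1791 (.cons 318 (.cons 297 (.leaf 317 2345 (.leaf 298 2353 .nil)) (.cons 293 (.leaf 294 2347 (.cons 317 (.leaf 292 2339 (.cons 341 (.leaf 340 2530 (.leaf 342 2538 .nil)) .nil)) .nil)) (.cons 298 (.leaf 297 2353 (.cons 293 (.leaf 294 2347 (.cons 322 (.leaf 299 2361 (.cons 323 (.leaf 295 2363 (.cons 347 (.leaf 346 2552 (.leaf 348 2560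 .nil)) .nil)) .nil)) .nil)) .nil)) .nil))) .nil)) .nil)) .nil)) .nil)) .nil)))) (.cons 320 t92 (.cons 320 t91 (.cons 320 t90 (.cons 320 (.cons 223 (.leaf 247 1791 (.cons 199 (.leaf 224 1599 (.cons 249 (.leaf 225 1797 (.cons 344 (.leaf 273 1989 (.cons 367 (.leaf 343 2174 (.cons 368 (.leaf 391 2366 (.cons 369 (.leaf 345 2180 (.leaf 393 2372 .nil)) .nil)) .nil)) .nil)) .nil)) .nil)) .nil)) (.cons 319 (.leaf 343 1982 (.cons 224 (.leaf 295 1790 (.cons 249 (.leaf 225 1797 (.cons 273 (.leaf 344 1989 (.cons 200 (.leaf 297 1604 (.leaf 176 1412 .nil)) .nil)) .nil)) .nil)) .nil)) (.cons 223 (.leaf 247 1791 (.cons 224 (.leaf 199 1599 (.cons 319 (.leaf 295 1790 (.leaf 343 1982 .nil)) .nil)) .nil)) (.cons 247 (.leaf 223 1791 (.cons 249 (.leaf 225 1797 (.cons 344 (.leaf 271 1983 (.leaf 273 1989 .nil)) .nil)) .nil)) .nil)))) (.cons 320 (.cons 225 (.leaf 249 1797 (.cons 343 (.leaf 319 1982 (.cons 344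 (.leaf 367 2174 (.cons 345 (.leaf 321 1988 (.leaf 369 2180 .nil)) .nil)) .nil)) .nil)) (.cons 319 (.leaf 343 1982 (.cons 224 (.leaf 295 1790 (.cons 249 (.leaf 225 1797 (.cons 273 (.leaf 344 1989 (.cons 200 (.leaf 297 1604 (.leaf 176 1412 .nil)) .nil)) .nil)) .nil)) .nil)) (.cons 321 (.leaf 345 1988 (.cons 224 (.leaf 297 1796 (.cons 199 (.leaf 223 1599 (.cons 200 (.leaf 175 1407 (.cons 249 (.leaf 225 1797 (.cons 273 (.leaf 344 1989 (.leaf 176 1412 .nil)) .nil)) .nil)) .nil)) .nil)) .nil)) (.cons 319 (.leaf 343 1982 (.cons 224 (.leaf 295 1790 (.cons 321 (.leaf 297 1796 (.leaf 345 1988 .nil)) .nil)) .nil)) .nil)))) (.cons 320 (.cons 223 (.leaf 247 1791 (.cons 224 (.leaf 199 1599 (.cons 297 (.leaf 321 1796 (.cons 273 (.leaf 200 1604 (.cons 344 (.leaf 249 1989 (.leaf 368 2181 .nil)) .nil)) .nil)) .nil)) .nil)) (.cons 223 (.leaf 247 1791 (.cons 199 (.leaf 224 1599 (.cons 249 (.leaf 225 1797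 (.cons 344 (.leaf 273 1989 (.cons 367 (.leaf 343 2174 (.cons 368 (.leaf 391 2366 (.cons 369 (.leaf 345 2180 (.leaf 393 2372 .nil)) .nil)) .nil)) .nil)) .nil)) .nil)) .nil)) (.cons 321 (.leaf 345 1988 (.cons 224 (.leaf 297 1796 (.cons 249 (.leaf 225 1797 (.cons 343 (.leaf 319 1982 (.cons 344 (.leaf 273 1989 (.leaf 367 2174 .nil)) .nil)) .nil)) .nil)) .nil)) (.cons 223 (.leaf 247 1791 (.cons 224 (.leaf 199 1599 (.cons 321 (.leaf 297 1796 (.leaf 345 1988 .nil)) .nil)) .nil)) (.cons 247 (.leaf 223 1791 (.cons 249 (.leaf 225 1797 (.cons 344 (.leaf 271 1983 (.leaf 273 1989 .nil)) .nil)) .nil)) .nil))))) (.cons 320 (.cons 223 (.leaf 247 1791 (.cons 224 (.leaf 199 1599 (.cons 319 (.leaf 295 1790 (.leaf 343 1982 .nil)) .nil)) .nil)) (.cons 321 (.leaf 345 1988 (.cons 223 (.leaf 247 1791 (.cons 224 (.leaf 199 1599 (.leaf 297 1796 .nil)) .nil)) .nil)) (.cons 225 (.leaf 249 1797 (.cons 343 (.leaf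 319 1982 (.cons 344 (.leaf 367 2174 (.cons 345 (.leaf 321 1988 (.leaf 369 2180 .nil)) .nil)) .nil)) .nil)) .nil))) .nil)))))))))
noncomputable def t96 : T := .cons 177 (.leaf 201 1413 (.cons 176 (.leaf 153 1221 (.cons 249 (.leaf 273 1412 (.cons 225 (.leaf 152 1220 (.cons 271 (.leaf 295 1598 (.leaf 247 1406 .nil)) .nil)) .nil)) .nil)) .nil)) (.cons 199 (.leaf 175 1407 (.cons 223 (.leaf 296 1599 (.cons 271 (.leaf 295 1598 (.cons 176 (.leaf 247 1405 (.cons 128 (.leaf 152 1022 (.cons 153 (.leaf 177 1221 (.cons 249 (.leaf 273 1412 (.cons 250 (.leaf 251 1978 (.cons 222 (.leaf 221 1768 (.leaf 225 1776 .nil)) .nil)) .nil)) .nil)) .nil)) .nil)) .nil)) .nil)) .nil)) (.cons 175 (.leaf 199 1407 (.cons 176 (.leaf 151 1215 (.cons 177 (.leaf 201 1413 (.leaf 153 1221 .nil)) .nil)) .nil)) (.cons 199 (.leaf 175 1407 (.cons 223 (.leaf 296 1599 (.cons 271 (.leaf 295 1598 (.cons 176 (.leaf 247 1405 (.cons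 128 (.leaf 152 1022 (.cons 249 (.leaf 273 1412 (.cons 250 (.leaf 251 1978 (.cons 222 (.leaf 221 1768 (.leaf 225 1776 .nil)) .nil)) .nil)) .nil)) .nil)) .nil)) .nil)) .nil)) (.cons 199 (.leaf 175 1407 (.cons 201 (.leaf 177 1413 (.cons 296 (.leaf 223 1599 (.leaf 225 1605 .nil)) .nil)) .nil)) .nil))))
noncomputable def t97 : T := .cons 200 (.cons 271 (.leaf 295 1598 (.cons 176 (.leaf 247 1406 (.cons 151 (.leaf 175 1215 (.cons 152 (.leaf 127 1023 (.cons 153 (.leaf 177 1221 (.leaf 129 1029 .nil)) .nil)) .nil)) .nil)) .nil)) (.cons 271 (.leaf 295 1598 (.cons 176 (.leaf 247 1406 (.cons 273 (.leaf 297 1604 (.leaf 249 1412 .nil)) .nil)) .nil)) (.cons 201 (.leaf 177 1413 (.cons 175 (.leaf 199 1407 (.cons 176 (.leaf 151 1215 (.cons 173 (.leaf 174 1384 (.cons 202 (.leaf 203 1403 (.cons 225 (.leaf 296 1605 (.cons 249 (.leaf 273 1412 (.leaf 152 1220 .nil)) .nil)) .nil)) .nil)) .nil)) .nil)) .nil))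 (.cons 175 (.leaf 199 1407 (.cons 201 (.leaf 177 1413 (.cons 271 (.leaf 295 1598 (.cons 296 (.leaf 225 1605 (.cons 297 (.leaf 273 1604 (.leaf 321 1796 .nil)) .nil)) .nil)) .nil)) .nil)) .nil)))) (.cons 200 (.cons 201 (.leaf 177 1413 (.cons 271 (.leaf 295 1598 (.cons 176 (.leaf 247 1406 (.cons 273 (.leaf 297 1604 (.leaf 249 1412 .nil)) .nil)) .nil)) .nil)) (.cons 271 (.leaf 295 1598 (.cons 176 (.leaf 247 1406 (.cons 151 (.leaf 175 1215 (.cons 152 (.leaf 127 1023 (.cons 153 (.leaf 177 1221 (.leaf 129 1029 .nil)) .nil)) .nil)) .nil)) .nil)) (.cons 201 (.leaf 177 1413 (.cons 225 (.leaf 296 1605 (.cons 273 (.leaf 297 1604 (.cons 249 (.leaf 176 1412 (.cons 202 (.leaf 178 1421 (.cons 203 (.leaf 223 1594 (.leaf 204 1602 .nil)) .nil)) .nil)) .nil)) .nil)) .nil)) (.cons 273 (.leaf 297 1604 (.cons 176 (.leaf 249 1412 (.cons 271 (.leaf 295 1598 (.leaf 247 1406 .nil)) .nil)) .nil)) (.cons 201 (.leaf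 177 1413 (.cons 271 (.leaf 295 1598 (.cons 296 (.leaf 225 1605 (.cons 297 (.leaf 273 1604 (.leaf 321 1796 .nil)) .nil)) .nil)) .nil)) .nil))))) (.cons 200 (.cons 175 (.leaf 199 1407 (.cons 176 (.leaf 151 1215 (.cons 271 (.leaf 295 1598 (.leaf 247 1406 .nil)) .nil)) .nil)) (.cons 273 (.leaf 297 1604 (.cons 176 (.leaf 249 1412 (.cons 271 (.leaf 295 1598 (.leaf 247 1406 .nil)) .nil)) .nil)) (.cons 199 (.leaf 175 1407 (.cons 223 (.leaf 296 1599 (.cons 273 (.leaf 297 1604 (.cons 176 (.leaf 249 1412 (.cons 152 (.leaf 247 1214 (.leaf 128 1022 .nil)) .nil)) .nil)) .nil)) .nil)) (.cons 199 (.leaf 175 1407 (.cons 271 (.leaf 295 1598 (.cons 296 (.leaf 223 1599 (.cons 297 (.leaf 273 1604 (.leaf 321 1796 .nil)) .nil)) .nil)) .nil)) .nil)))) (.cons 200 t96 (.cons 200 (.cons 199 (.leaf 175 1407 (.cons 201 (.leaf 177 1413 (.cons 296 (.leaf 223 1599 (.leaf 225 1605 .nil)) .nil)) .nil)) (.cons 201 (.leaf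 177 1413 (.cons 271 (.leaf 295 1598 (.cons 296 (.leaf 225 1605 (.cons 247 (.leaf 176 1406 (.cons 320 (.leaf 223 1791 (.leaf 344 1983 .nil)) .nil)) .nil)) .nil)) .nil)) (.cons 199 (.leaf 175 1407 (.cons 223 (.leaf 296 1599 (.cons 271 (.leaf 295 1598 (.cons 176 (.leaf 247 1405 (.cons 152 (.leaf 128 1022 (.cons 153 (.leaf 177 1221 (.leaf 129 1029 .nil)) .nil)) .nil)) .nil)) .nil)) .nil)) (.cons 199 (.leaf 175 1407 (.cons 223 (.leaf 296 1599 (.cons 271 (.leaf 295 1598 (.cons 247 (.leaf 176 1405 (.cons 174 (.leaf 198 1399 (.cons 270 (.leaf 294 1590 (.cons 269 (.leaf 268 1953 (.cons 245 (.leaf 244 1955 (.cons 246 (.leaf 273 1960 (.leaf 225 1769 .nil)) .nil)) .nil)) .nil)) .nil)) .nil)) .nil)) .nil)) .nil)) (.cons 175 (.leaf 199 1407 (.cons 176 (.leaf 151 1215 (.cons 271 (.leaf 295 1598 (.leaf 247 1406 .nil)) .nil)) .nil)) .nil))))) (.cons 200 (.cons 175 (.leaf 199 1407 (.cons 201 (.leaf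 177 1413 (.cons 176 (.leaf 151 1215 (.cons 173 (.leaf 174 1384 (.cons 202 (.leaf 203 1403 (.cons 225 (.leaf 296 1605 (.cons 249 (.leaf 273 1412 (.leaf 152 1220 .nil)) .nil)) .nil)) .nil)) .nil)) .nil)) .nil)) (.cons 175 (.leaf 199 1407 (.cons 176 (.leaf 151 1215 (.cons 273 (.leaf 297 1604 (.leaf 249 1412 .nil)) .nil)) .nil)) (.cons 177 (.leaf 201 1413 (.cons 176 (.leaf 153 1221 (.cons 273 (.leaf 297 1604 (.leaf 249 1412 .nil)) .nil)) .nil)) (.cons 201 (.leaf 177 1413 (.cons 175 (.leaf 199 1407 (.cons 176 (.leaf 151 1215 (.cons 173 (.leaf 174 1384 (.cons 202 (.leaf 203 1403 (.cons 225 (.leaf 296 1605 (.cons 152 (.leaf 249 1220 (.leaf 128 1028 .nil)) .nil)) .nil)) .nil)) .nil)) .nil)) .nil)) (.cons 175 (.leaf 199 1407 (.cons 201 (.leaf 177 1413 (.cons 271 (.leaf 295 1598 (.cons 296 (.leaf 225 1605 (.cons 297 (.leaf 273 1604 (.leaf 321 1796 .nil)) .nil)) .nil)) .nil)) .nil)) .nil)))))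 .nil)))))
noncomputable def t98 : T := .cons 271 (.leaf 295 1598 (.cons 273 (.leaf 297 1604 (.cons 249 (.leaf 176 1412 (.cons 250 (.leaf 251 1978 (.leaf 270 1969 .nil)) .nil)) .nil)) .nil)) (.cons 177 (.leaf 201 1413 (.cons 176 (.leaf 153 1221 (.cons 273 (.leaf 297 1604 (.leaf 249 1412 .nil)) .nil)) .nil)) (.cons 271 (.leaf 295 1598 (.cons 175 (.leaf 199 1407 (.cons 176 (.leaf 151 1215 (.leaf 247 1406 .nil)) .nil)) .nil)) (.cons 199 (.leaf 175 1407 (.cons 201 (.leaf 177 1413 (.cons 271 (.leaf 295 1598 (.cons 198 (.cons 226 (.leaf 225 1584 (.cons 173 (.leaf 174 1387 (.cons 202 (.leaf 227 1592 (.cons 222 (.leaf 221 1578 (.leaf 223 1586 .nil)) .nil)) .nil)) .nil)) (.cons 222 (.leaf 221 1578 (.cons 173 (.leaf 174 1387 (.cons 172 (.leaf 197 1379 (.cons 202 (.leaf 223 1586 (.cons 179 (.leaf 178 1401 (.cons 203 (.leaf 180 1409 (.cons 227 (.leaf 226 1592 (.leaf 228 1600 .nil)) .nil)) .nil))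 .nil)) .nil)) .nil)) .nil)) (.cons 197 (.leaf 225 1576 (.cons 173 (.leaf 172 1379 (.leaf 174 1387 .nil)) .nil)) (.cons 225 (.leaf 197 1576 (.leaf 226 1584 .nil)) .nil)))) .nil)) .nil)) .nil)) .nil)))
noncomputable def t99 : T := .cons 225 (.leaf 201 1605 (.cons 320 (.leaf 249 1797 (.cons 321 (.leaf 297 1796 (.leaf 345 1988 .nil)) .nil)) .nil)) (.cons 223 (.leaf 199 1599 (.cons 320 (.leaf 247 1791 (.cons 321 (.leaf 297 1796 (.leaf 345 1988 .nil)) .nil)) .nil)) (.cons 223 (.leaf 199 1599 (.cons 225 (.leaf 201 1605 (.cons 320 (.leaf 247 1791 (.leaf 249 1797 .nil)) .nil)) .nil)) (.cons 223 (.leaf 199 1599 (.cons 225 (.leaf 201 1605 (.cons 297 (.leaf 321 1796 (.cons 222 (.cons 197 (.leaf 198 1579 (.cons 196 (.leaf 221 1571 (.cons 246 (.leaf 245 1770 (.cons 226 (.leaf 247 1778 (.cons 203 (.leaf 202 1593 (.cons 227 (.leaf 204 1601 (.cons 251 (.leaf 250 1784 (.leaf 252 1792 .nil)) .nil)) .nil))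 .nil)) .nil)) .nil)) .nil)) (.cons 197 (.leaf 198 1579 (.cons 245 (.leaf 246 1770 (.cons 250 (.leaf 249 1776 (.cons 226 (.leaf 251 1784 (.cons 203 (.leaf 202 1593 (.cons 227 (.leaf 247 1786 (.leaf 204 1601 .nil)) .nil)) .nil)) .nil)) .nil)) .nil)) (.cons 197 (.leaf 198 1579 (.cons 221 (.leaf 249 1768 (.leaf 196 1571 .nil)) .nil)) (.cons 249 (.leaf 221 1768 (.leaf 250 1776 .nil)) .nil)))) .nil)) .nil)) .nil)) .nil)))
noncomputable def t100 : T := .cons 223 (.leaf 247 1791 (.cons 225 (.leaf 249 1797 (.cons 224 (.leaf 201 1605 (.cons 321 (.leaf 297 1796 (.leaf 345 1988 .nil)) .nil)) .nil)) .nil)) (.cons 321 (.leaf 345 1988 (.cons 224 (.leaf 297 1796 (.cons 201 (.leaf 225 1605 (.cons 200 (.leaf 177 1413 (.cons 247 (.leaf 223 1791 (.cons 271 (.leaf 295 1598 (.leaf 344 1983 .nil)) .nil)) .nil)) .nil)) .nil)) .nil)) (.cons 249 (.leaf 225 1797 (.cons 223 (.leaf 247 1791 (.cons 344 (.leaf 273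 1989 (.cons 367 (.leaf 343 2174 (.cons 368 (.leaf 391 2366 (.cons 369 (.leaf 345 2180 (.leaf 393 2372 .nil)) .nil)) .nil)) .nil)) .nil)) .nil)) (.cons 321 (.leaf 345 1988 (.cons 224 (.leaf 297 1796 (.cons 225 (.leaf 201 1605 (.leaf 249 1797 .nil)) .nil)) .nil)) (.cons 321 (.leaf 345 1988 (.cons 224 (.leaf 297 1796 (.cons 247 (.leaf 223 1791 (.cons 271 (.leaf 344 1983 (.cons 200 (.leaf 295 1598 (.leaf 176 1406 .nil)) .nil)) .nil)) .nil)) .nil)) (.cons 249 (.leaf 225 1797 (.cons 247 (.leaf 223 1791 (.cons 344 (.leaf 271 1983 (.leaf 273 1989 .nil)) .nil)) .nil)) .nil)))))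
noncomputable def t101 : T := .cons 320 (.cons 249 (.leaf 225 1797 (.cons 344 (.leaf 273 1989 (.cons 345 (.leaf 321 1988 (.leaf 369 2180 .nil)) .nil)) .nil)) (.cons 343 (.leaf 319 1982 (.cons 344 (.leaf 367 2174 (.cons 345 (.leaf 321 1988 (.leaf 369 2180 .nil)) .nil)) .nil)) (.cons 249 (.leaf 225 1797 (.cons 343 (.leaf 319 1982 (.cons 344 (.leaf 273 1989 (.leaf 367 2174 .nil)) .nil)) .nil)) (.cons 319 (.leaf 343 1982 (.cons 321 (.leaf 345 1988 (.cons 249 (.leaf 225 1797 (.cons 247 (.leaf 223 1791 (.cons 318 (.cons 298 (.leaf 297 2353 (.cons 293 (.leaf 294 2347 (.cons 322 (.leaf 299 2361 (.cons 323 (.leaf 295 2363 (.cons 347 (.leaf 346 2552 (.leaf 348 2560 .nil)) .nil)) .nil)) .nil)) .nil)) (.cons 293 (.leaf 294 2347 (.cons 317 (.leaf 292 2339 (.cons 341 (.leaf 340 2530 (.leaf 342 2538 .nil)) .nil)) .nil)) (.cons 297 (.leaf 317 2345 (.leaf 298 2353 .nil)) .nil))) .nil)) .nil)) .nil))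 .nil)) .nil)))) (.cons 320 t100 (.cons 320 (.cons 223 (.leaf 247 1791 (.cons 319 (.leaf 343 1982 (.cons 295 (.leaf 224 1790 (.cons 321 (.leaf 345 1988 (.cons 294 (.leaf 293 2344 (.leaf 322 2355 .nil)) .nil)) .nil)) .nil)) .nil)) (.cons 249 (.leaf 225 1797 (.cons 344 (.leaf 273 1989 (.cons 345 (.leaf 321 1988 (.leaf 369 2180 .nil)) .nil)) .nil)) (.cons 225 (.leaf 249 1797 (.cons 224 (.leaf 201 1605 (.cons 319 (.leaf 295 1790 (.leaf 343 1982 .nil)) .nil)) .nil)) .nil))) (.cons 320 (.cons 223 (.leaf 247 1791 (.cons 249 (.leaf 225 1797 (.cons 344 (.leaf 273 1989 (.cons 367 (.leaf 343 2174 (.cons 368 (.leaf 391 2366 (.cons 369 (.leaf 345 2180 (.leaf 393 2372 .nil)) .nil)) .nil)) .nil)) .nil)) .nil)) (.cons 247 (.leaf 223 1791 (.cons 343 (.leaf 319 1982 (.cons 344 (.leaf 271 1983 (.leaf 367 2174 .nil)) .nil)) .nil)) (.cons 319 (.leaf 343 1982 (.cons 224 (.leaf 295 1790 (.cons 225 (.leaf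 201 1605 (.leaf 249 1797 .nil)) .nil)) .nil)) (.cons 223 (.leaf 247 1791 (.cons 249 (.leaf 225 1797 (.cons 344 (.leaf 273 1989 (.cons 369 (.leaf 345 2180 (.cons 368 (.leaf 393 2372 (.cons 295 (.leaf 271 2175 (.cons 319 (.leaf 224 1790 (.leaf 392 2367 .nil)) .nil)) .nil)) .nil)) .nil)) .nil)) .nil)) .nil)))) (.cons 320 (.cons 223 (.leaf 247 1791 (.cons 225 (.leaf 249 1797 (.cons 343 (.leaf 319 1982 (.cons 344 (.leaf 367 2174 (.cons 345 (.leaf 321 1988 (.leaf 369 2180 .nil)) .nil)) .nil)) .nil)) .nil)) (.cons 321 (.leaf 345 1988 (.cons 223 (.leaf 247 1791 (.cons 297 (.leaf 224 1796 (.cons 319 (.leaf 343 1982 (.cons 298 (.leaf 299 2362 (.leaf 318 2353 .nil)) .nil)) .nil)) .nil)) .nil)) (.cons 249 (.leaf 225 1797 (.cons 223 (.leaf 247 1791 (.cons 344 (.leaf 273 1989 (.cons 367 (.leaf 343 2174 (.cons 368 (.leaf 391 2366 (.cons 369 (.leaf 345 2180 (.leaf 393 2372 .nil)) .nil)) .nil)) .nil))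 .nil)) .nil)) (.cons 249 (.leaf 225 1797 (.cons 247 (.leaf 223 1791 (.cons 344 (.leaf 271 1983 (.leaf 273 1989 .nil)) .nil)) .nil)) (.cons 249 (.leaf 225 1797 (.cons 344 (.leaf 273 1989 (.cons 345 (.leaf 321 1988 (.leaf 369 2180 .nil)) .nil)) .nil)) .nil))))) (.cons 320 (.cons 319 (.leaf 343 1982 (.cons 295 (.leaf 224 1790 (.cons 321 (.leaf 345 1988 (.cons 294 (.leaf 293 2344 (.leaf 322 2355 .nil)) .nil)) .nil)) .nil)) (.cons 321 (.leaf 345 1988 (.cons 224 (.leaf 297 1796 (.cons 247 (.leaf 223 1791 (.cons 271 (.leaf 344 1983 (.cons 200 (.leaf 295 1598 (.leaf 176 1406 .nil)) .nil)) .nil)) .nil)) .nil)) (.cons 319 (.leaf 343 1982 (.cons 224 (.leaf 295 1790 (.cons 247 (.leaf 223 1791 (.cons 344 (.leaf 271 1983 (.cons 273 (.leaf 249 1989 (.cons 297 (.leaf 200 1604 (.leaf 368 2181 .nil)) .nil)) .nil)) .nil)) .nil)) .nil)) (.cons 321 (.leaf 345 1988 (.cons 223 (.leaf 247 1791 (.cons 297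 (.leaf 224 1796 (.cons 319 (.leaf 343 1982 (.cons 298 (.leaf 299 2362 (.leaf 318 2353 .nil)) .nil)) .nil)) .nil)) .nil)) (.cons 343 (.leaf 319 1982 (.cons 344 (.leaf 367 2174 (.cons 345 (.leaf 321 1988 (.leaf 369 2180 .nil)) .nil)) .nil)) .nil))))) (.cons 320 (.cons 225 (.leaf 249 1797 (.cons 224 (.leaf 201 1605 (.cons 321 (.leaf 297 1796 (.leaf 345 1988 .nil)) .nil)) .nil)) (.cons 225 (.leaf 249 1797 (.cons 224 (.leaf 201 1605 (.cons 319 (.leaf 295 1790 (.leaf 343 1982 .nil)) .nil)) .nil)) (.cons 343 (.leaf 319 1982 (.cons 344 (.leaf 367 2174 (.cons 345 (.leaf 321 1988 (.leaf 369 2180 .nil)) .nil)) .nil)) .nil))) .nil))))))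
noncomputable def t102 : T := .cons 320 (.cons 223 (.leaf 247 1791 (.cons 225 (.leaf 249 1797 (.cons 343 (.leaf 319 1982 (.cons 344 (.leaf 367 2174 (.cons 345 (.leaf 321 1988 (.leaf 369 2180 .nil)) .nil)) .nil)) .nil)) .nil)) (.cons 223 (.leaf 247 1791 (.cons 225 (.leaf 249 1797 (.cons 224 (.leaf 201 1605 (.cons 321 (.leaf 297 1796 (.leaf 345 1988 .nil)) .nil)) .nil)) .nil)) (.cons 223 (.leaf 247 1791 (.cons 225 (.leaf 249 1797 (.cons 224 (.leaf 201 1605 (.cons 319 (.leaf 295 1790 (.leaf 343 1982 .nil)) .nil)) .nil)) .nil)) (.cons 319 (.leaf 343 1982 (.cons 321 (.leaf 345 1988 (.cons 297 (.leaf 224 1796 (.cons 298 (.leaf 299 2362 (.leaf 318 2353 .nil)) .nil)) .nil)) .nil)) .nil)))) (.cons 224 (.cons 297 (.leaf 321 1796 (.cons 200 (.leaf 273 1604 (.cons 201 (.leaf 177 1413 (.leaf 225 1605 .nil)) .nil)) .nil)) (.cons 295 (.leaf 319 1790 (.cons 200 (.leaf 271 1598 (.cons 201 (.leaf 177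 1413 (.leaf 225 1605 .nil)) .nil)) .nil)) (.cons 297 (.leaf 321 1796 (.cons 200 (.leaf 273 1604 (.cons 295 (.leaf 271 1598 (.leaf 319 1790 .nil)) .nil)) .nil)) (.cons 225 (.leaf 201 1605 (.cons 297 (.leaf 321 1796 (.cons 295 (.leaf 319 1790 (.cons 294 (.cons 269 (.leaf 270 2155 (.cons 293 (.leaf 273 2153 (.leaf 268 2147 .nil)) .nil)) (.cons 270 (.leaf 269 2155 (.cons 271 (.leaf 298 2163 (.cons 318 (.leaf 317 2346 (.cons 342 (.leaf 366 2165 (.leaf 247 1973 .nil)) .nil)) .nil)) .nil)) (.cons 293 (.leaf 273 2153 (.cons 317 (.leaf 316 2338 (.leaf 318 2346 .nil)) .nil)) .nil))) .nil)) .nil)) .nil)) .nil)))) t101)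
noncomputable def t103 : T := .cons 223 (.leaf 199 1599 (.cons 225 (.leaf 201 1605 (.cons 295 (.leaf 319 1790 (.cons 222 (.cons 250 (.leaf 249 1776 (.cons 197 (.leaf 198 1579 (.cons 226 (.leaf 251 1784 (.cons 246 (.leaf 245 1770 (.leaf 247 1778 .nil)) .nil)) .nil)) .nil)) (.cons 246 (.leaf 245 1770 (.cons 197 (.leaf 198 1579 (.cons 196 (.leaf 221 1571 (.cons 226 (.leaf 247 1778 (.cons 203 (.leaf 202 1593 (.cons 227 (.leaf 204 1601 (.cons 251 (.leaf 250 1784 (.leaf 252 1792 .nil)) .nil)) .nil)) .nil)) .nil)) .nil)) .nil)) (.cons 221 (.leaf 249 1768 (.cons 197 (.leaf 196 1571 (.leaf 198 1579 .nil)) .nil)) (.cons 249 (.leaf 221 1768 (.leaf 250 1776 .nil)) .nil)))) .nil)) .nil)) .nil)) (.cons 295 (.leaf 319 1790 (.cons 200 (.leaf 271 1598 (.cons 175 (.leaf 199 1407 (.cons 176 (.leaf 151 1215 (.cons 201 (.leaf 177 1413 (.leaf 225 1605 .nil)) .nil)) .nil)) .nil)) .nil)) (.cons 295 (.leaf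 319 1790 (.cons 200 (.leaf 271 1598 (.cons 201 (.leaf 177 1413 (.leaf 225 1605 .nil)) .nil)) .nil)) (.cons 199 (.leaf 223 1599 (.cons 200 (.leaf 175 1407 (.cons 201 (.leaf 177 1413 (.leaf 225 1605 .nil)) .nil)) .nil)) (.cons 295 (.leaf 319 1790 (.cons 199 (.leaf 223 1599 (.cons 200 (.leaf 175 1407 (.leaf 271 1598 .nil)) .nil)) .nil)) .nil))))
noncomputable def t104 : T := .cons 320 (.cons 249 (.leaf 225 1797 (.cons 344 (.leaf 273 1989 (.cons 345 (.leaf 321 1988 (.leaf 369 2180 .nil)) .nil)) .nil)) (.cons 223 (.leaf 247 1791 (.cons 224 (.leaf 199 1599 (.cons 319 (.leaf 295 1790 (.leaf 343 1982 .nil)) .nil)) .nil)) .nil)) (.cons 224 t103 (.cons 320 (.cons 247 (.leaf 223 1791 (.cons 343 (.leaf 319 1982 (.cons 344 (.leaf 271 1983 (.leaf 367 2174 .nil)) .nil)) .nil)) (.cons 249 (.leaf 225 1797 (.cons 344 (.leaf 273 1989 (.cons 345 (.leaf 321 1988 (.leaf 369 2180 .nil)) .nil)) .nil)) (.cons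 247 (.leaf 223 1791 (.cons 249 (.leaf 225 1797 (.cons 319 (.leaf 343 1982 (.cons 321 (.leaf 345 1988 (.cons 322 (.cons 295 (.leaf 323 2363 (.leaf 294 2355 .nil)) (.cons 299 (.leaf 298 2361 (.cons 323 (.leaf 300 2369 (.cons 346 (.leaf 251 2006 (.leaf 347 2552 .nil)) .nil)) .nil)) (.cons 294 (.leaf 295 2355 (.cons 298 (.leaf 299 2361 (.cons 318 (.leaf 293 2347 (.cons 341 (.leaf 342 2538 (.cons 317 (.leaf 340 2530 (.cons 246 (.leaf 270 1966 (.cons 221 (.leaf 222 1771 (.cons 245 (.leaf 273 1960 (.leaf 220 1763 .nil)) .nil)) .nil)) .nil)) .nil)) .nil)) .nil)) .nil)) .nil))) .nil)) .nil)) .nil)) .nil)) .nil))) (.cons 320 (.cons 225 (.leaf 249 1797 (.cons 224 (.leaf 201 1605 (.cons 319 (.leaf 295 1790 (.leaf 343 1982 .nil)) .nil)) .nil)) (.cons 249 (.leaf 225 1797 (.cons 344 (.leaf 273 1989 (.cons 345 (.leaf 321 1988 (.leaf 369 2180 .nil)) .nil)) .nil)) (.cons 319 (.leaf 343 1982 (.cons 295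 (.leaf 224 1790 (.cons 321 (.leaf 345 1988 (.cons 294 (.leaf 293 2344 (.leaf 322 2355 .nil)) .nil)) .nil)) .nil)) .nil))) (.cons 320 (.cons 247 (.leaf 223 1791 (.cons 343 (.leaf 319 1982 (.cons 344 (.leaf 271 1983 (.leaf 367 2174 .nil)) .nil)) .nil)) (.cons 247 (.leaf 223 1791 (.cons 344 (.leaf 271 1983 (.cons 345 (.leaf 321 1988 (.leaf 369 2180 .nil)) .nil)) .nil)) (.cons 319 (.leaf 343 1982 (.cons 295 (.leaf 224 1790 (.cons 321 (.leaf 345 1988 (.cons 294 (.leaf 293 2344 (.leaf 322 2355 .nil)) .nil)) .nil)) .nil)) .nil))) (.cons 320 (.cons 249 (.leaf 225 1797 (.cons 344 (.leaf 273 1989 (.cons 345 (.leaf 321 1988 (.leaf 369 2180 .nil)) .nil)) .nil)) (.cons 247 (.leaf 223 1791 (.cons 344 (.leaf 271 1983 (.cons 345 (.leaf 321 1988 (.leaf 369 2180 .nil)) .nil)) .nil)) (.cons 223 (.leaf 247 1791 (.cons 224 (.leaf 199 1599 (.cons 225 (.leaf 201 1605 (.leaf 249 1797 .nil)) .nil)) .nil))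 .nil))) .nil)))))
noncomputable def t105 : T := .cons 297 (.leaf 321 1796 (.cons 200 (.leaf 273 1604 (.cons 201 (.leaf 177 1413 (.leaf 225 1605 .nil)) .nil)) .nil)) (.cons 199 (.leaf 223 1599 (.cons 200 (.leaf 175 1407 (.cons 201 (.leaf 177 1413 (.leaf 225 1605 .nil)) .nil)) .nil)) (.cons 297 (.leaf 321 1796 (.cons 199 (.leaf 223 1599 (.cons 200 (.leaf 175 1407 (.leaf 273 1604 .nil)) .nil)) .nil)) (.cons 223 (.leaf 199 1599 (.cons 225 (.leaf 201 1605 (.cons 297 (.leaf 321 1796 (.cons 222 (.cons 197 (.leaf 198 1579 (.cons 196 (.leaf 221 1571 (.cons 246 (.leaf 245 1770 (.cons 226 (.leaf 247 1778 (.cons 203 (.leaf 202 1593 (.cons 227 (.leaf 204 1601 (.cons 251 (.leaf 250 1784 (.leaf 252 1792 .nil)) .nil)) .nil)) .nil)) .nil)) .nil)) .nil)) (.cons 197 (.leaf 198 1579 (.cons 245 (.leaf 246 1770 (.cons 250 (.leaf 249 1776 (.cons 226 (.leaf 251 1784 (.cons 203 (.leaf 202 1593 (.cons 227 (.leaf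 247 1786 (.leaf 204 1601 .nil)) .nil)) .nil)) .nil)) .nil)) .nil)) (.cons 197 (.leaf 198 1579 (.cons 221 (.leaf 249 1768 (.leaf 196 1571 .nil)) .nil)) (.cons 249 (.leaf 221 1768 (.leaf 250 1776 .nil)) .nil)))) .nil)) .nil)) .nil)) .nil)))
noncomputable def t106 : T := .cons 320 (.cons 223 (.leaf 247 1791 (.cons 199 (.leaf 224 1599 (.cons 249 (.leaf 225 1797 (.cons 344 (.leaf 273 1989 (.cons 367 (.leaf 343 2174 (.cons 368 (.leaf 391 2366 (.cons 369 (.leaf 345 2180 (.leaf 393 2372 .nil)) .nil)) .nil)) .nil)) .nil)) .nil)) .nil)) (.cons 247 (.leaf 223 1791 (.cons 343 (.leaf 319 1982 (.cons 344 (.leaf 271 1983 (.leaf 367 2174 .nil)) .nil)) .nil)) (.cons 225 (.leaf 249 1797 (.cons 224 (.leaf 201 1605 (.cons 321 (.leaf 297 1796 (.leaf 345 1988 .nil)) .nil)) .nil)) .nil))) (.cons 224 t105 (.cons 320 (.cons 249 (.leaf 225 1797 (.cons 344 (.leaf 273 1989 (.cons 345 (.leaf 321 1988 (.leaf 369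 2180 .nil)) .nil)) .nil)) (.cons 247 (.leaf 223 1791 (.cons 343 (.leaf 319 1982 (.cons 344 (.leaf 271 1983 (.leaf 367 2174 .nil)) .nil)) .nil)) (.cons 249 (.leaf 225 1797 (.cons 247 (.leaf 223 1791 (.cons 321 (.leaf 345 1988 (.cons 319 (.leaf 343 1982 (.cons 318 (.cons 297 (.leaf 317 2345 (.leaf 298 2353 .nil)) (.cons 293 (.leaf 294 2347 (.cons 317 (.leaf 292 2339 (.cons 341 (.leaf 340 2530 (.leaf 342 2538 .nil)) .nil)) .nil)) (.cons 298 (.leaf 297 2353 (.cons 294 (.leaf 293 2347 (.cons 322 (.leaf 299 2361 (.cons 342 (.leaf 341 2538 (.cons 270 (.leaf 271 1973 (.cons 269 (.leaf 246 1962 (.leaf 245 1967 .nil)) .nil)) .nil)) .nil)) .nil)) .nil)) .nil))) .nil)) .nil)) .nil)) .nil)) .nil))) (.cons 224 (.cons 199 (.leaf 223 1599 (.cons 200 (.leaf 175 1407 (.cons 201 (.leaf 177 1413 (.leaf 225 1605 .nil)) .nil)) .nil)) (.cons 297 (.leaf 321 1796 (.cons 200 (.leaf 273 1604 (.cons 201 (.leaf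 177 1413 (.leaf 225 1605 .nil)) .nil)) .nil)) (.cons 297 (.leaf 321 1796 (.cons 199 (.leaf 223 1599 (.cons 200 (.leaf 175 1407 (.leaf 273 1604 .nil)) .nil)) .nil)) (.cons 201 (.leaf 225 1605 (.cons 223 (.leaf 199 1599 (.cons 297 (.leaf 321 1796 (.cons 320 (.leaf 247 1791 (.cons 343 (.leaf 319 1982 (.cons 344 (.leaf 367 2174 (.cons 368 (.leaf 273 2181 (.cons 369 (.leaf 345 2180 (.leaf 393 2372 .nil)) .nil)) .nil)) .nil)) .nil)) .nil)) .nil)) .nil)) .nil)))) (.cons 320 (.cons 247 (.leaf 223 1791 (.cons 343 (.leaf 319 1982 (.cons 344 (.leaf 271 1983 (.leaf 367 2174 .nil)) .nil)) .nil)) (.cons 319 (.leaf 343 1982 (.cons 321 (.leaf 345 1988 (.cons 297 (.leaf 224 1796 (.cons 298 (.leaf 299 2362 (.leaf 318 2353 .nil)) .nil)) .nil)) .nil)) (.cons 223 (.leaf 247 1791 (.cons 224 (.leaf 199 1599 (.cons 297 (.leaf 321 1796 (.cons 273 (.leaf 200 1604 (.cons 344 (.leaf 249 1989 (.leaf 368 2181 .nil))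 .nil)) .nil)) .nil)) .nil)) .nil))) (.cons 320 (.cons 249 (.leaf 225 1797 (.cons 344 (.leaf 273 1989 (.cons 345 (.leaf 321 1988 (.leaf 369 2180 .nil)) .nil)) .nil)) (.cons 321 (.leaf 345 1988 (.cons 297 (.leaf 224 1796 (.cons 319 (.leaf 343 1982 (.cons 298 (.leaf 299 2362 (.leaf 318 2353 .nil)) .nil)) .nil)) .nil)) (.cons 249 (.leaf 225 1797 (.cons 343 (.leaf 319 1982 (.cons 344 (.leaf 273 1989 (.leaf 367 2174 .nil)) .nil)) .nil)) .nil))) (.cons 320 (.cons 247 (.leaf 223 1791 (.cons 343 (.leaf 319 1982 (.cons 344 (.leaf 271 1983 (.leaf 367 2174 .nil)) .nil)) .nil)) (.cons 249 (.leaf 225 1797 (.cons 343 (.leaf 319 1982 (.cons 344 (.leaf 273 1989 (.leaf 367 2174 .nil)) .nil)) .nil)) (.cons 223 (.leaf 247 1791 (.cons 224 (.leaf 199 1599 (.cons 225 (.leaf 201 1605 (.leaf 249 1797 .nil)) .nil)) .nil)) .nil))) (.cons 320 (.cons 225 (.leaf 249 1797 (.cons 224 (.leaf 201 1605 (.cons 321 (.leaf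 297 1796 (.leaf 345 1988 .nil)) .nil)) .nil)) (.cons 223 (.leaf 247 1791 (.cons 224 (.leaf 199 1599 (.cons 225 (.leaf 201 1605 (.leaf 249 1797 .nil)) .nil)) .nil)) (.cons 321 (.leaf 345 1988 (.cons 297 (.leaf 224 1796 (.cons 319 (.leaf 343 1982 (.cons 298 (.leaf 299 2362 (.leaf 318 2353 .nil)) .nil)) .nil)) .nil)) (.cons 247 (.leaf 223 1791 (.cons 343 (.leaf 319 1982 (.cons 344 (.leaf 271 1983 (.leaf 367 2174 .nil)) .nil)) .nil)) .nil)))) .nil)))))))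
noncomputable def t107 : T := .cons 199 (.leaf 223 1599 (.cons 200 (.leaf 175 1407 (.cons 201 (.leaf 177 1413 (.leaf 225 1605 .nil)) .nil)) .nil)) (.cons 295 (.leaf 319 1790 (.cons 200 (.leaf 271 1598 (.cons 175 (.leaf 199 1407 (.cons 176 (.leaf 151 1215 (.cons 201 (.leaf 177 1413 (.leaf 225 1605 .nil)) .nil)) .nil)) .nil)) .nil)) (.cons 295 (.leaf 319 1790 (.cons 200 (.leaf 271 1598 (.cons 201 (.leaf 177 1413 (.leaf 225 1605 .nil)) .nil)) .nil)) (.cons 199 (.leaf 223 1599 (.cons 200 (.leaf 175 1407 (.cons 295 (.leaf 271 1598 (.leaf 319 1790 .nil)) .nil)) .nil)) (.cons 223 (.leaf 199 1599 (.cons 225 (.leaf 201 1605 (.cons 295 (.leaf 319 1790 (.cons 222 (.cons 249 (.leaf 221 1768 (.leaf 250 1776 .nil)) (.cons 246 (.leaf 245 1770 (.cons 197 (.leaf 198 1579 (.cons 196 (.leaf 221 1571 (.cons 226 (.leaf 247 1778 (.cons 203 (.leaf 202 1593 (.cons 227 (.leaf 204 1601 (.cons 251 (.leaf 250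 1784 (.leaf 252 1792 .nil)) .nil)) .nil)) .nil)) .nil)) .nil)) .nil)) (.cons 250 (.leaf 249 1776 (.cons 197 (.leaf 198 1579 (.cons 226 (.leaf 251 1784 (.cons 246 (.leaf 245 1770 (.leaf 247 1778 .nil)) .nil)) .nil)) .nil)) (.cons 221 (.leaf 249 1768 (.cons 197 (.leaf 196 1571 (.leaf 198 1579 .nil)) .nil)) .nil)))) .nil)) .nil)) .nil)) .nil))))
noncomputable def t108 : T := .cons 224 (.cons 199 (.leaf 223 1599 (.cons 200 (.leaf 175 1407 (.cons 201 (.leaf 177 1413 (.leaf 225 1605 .nil)) .nil)) .nil)) (.cons 225 (.leaf 201 1605 (.cons 320 (.leaf 249 1797 (.cons 321 (.leaf 297 1796 (.leaf 345 1988 .nil)) .nil)) .nil)) (.cons 199 (.leaf 223 1599 (.cons 200 (.leaf 175 1407 (.cons 295 (.leaf 271 1598 (.leaf 319 1790 .nil)) .nil)) .nil)) .nil))) (.cons 320 (.cons 247 (.leaf 223 1791 (.cons 343 (.leaf 319 1982 (.cons 344 (.leaf 271 1983 (.leaf 367 2174 .nil)) .nil)) .nil)) (.cons 343 (.leaf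 319 1982 (.cons 344 (.leaf 367 2174 (.cons 345 (.leaf 321 1988 (.leaf 369 2180 .nil)) .nil)) .nil)) (.cons 247 (.leaf 223 1791 (.cons 344 (.leaf 271 1983 (.cons 345 (.leaf 321 1988 (.leaf 369 2180 .nil)) .nil)) .nil)) (.cons 319 (.leaf 343 1982 (.cons 321 (.leaf 345 1988 (.cons 249 (.leaf 225 1797 (.cons 247 (.leaf 223 1791 (.cons 318 (.cons 298 (.leaf 297 2353 (.cons 293 (.leaf 294 2347 (.cons 322 (.leaf 299 2361 (.cons 323 (.leaf 295 2363 (.cons 347 (.leaf 346 2552 (.leaf 348 2560 .nil)) .nil)) .nil)) .nil)) .nil)) (.cons 294 (.leaf 293 2347 (.cons 295 (.leaf 322 2355 (.cons 317 (.leaf 316 2337 (.cons 341 (.leaf 340 2530 (.leaf 342 2538 .nil)) .nil)) .nil)) .nil)) (.cons 297 (.leaf 317 2345 (.leaf 298 2353 .nil)) .nil))) .nil)) .nil)) .nil)) .nil)) .nil)))) (.cons 224 t107 (.cons 320 (.cons 225 (.leaf 249 1797 (.cons 224 (.leaf 201 1605 (.cons 321 (.leaf 297 1796 (.leaf 345 1988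 .nil)) .nil)) .nil)) (.cons 225 (.leaf 249 1797 (.cons 224 (.leaf 201 1605 (.cons 319 (.leaf 295 1790 (.leaf 343 1982 .nil)) .nil)) .nil)) (.cons 319 (.leaf 343 1982 (.cons 224 (.leaf 295 1790 (.cons 321 (.leaf 297 1796 (.leaf 345 1988 .nil)) .nil)) .nil)) (.cons 343 (.leaf 319 1982 (.cons 344 (.leaf 367 2174 (.cons 345 (.leaf 321 1988 (.leaf 369 2180 .nil)) .nil)) .nil)) .nil)))) (.cons 224 (.cons 199 (.leaf 223 1599 (.cons 200 (.leaf 175 1407 (.cons 271 (.leaf 295 1598 (.cons 247 (.leaf 176 1406 (.cons 297 (.leaf 321 1796 (.cons 270 (.leaf 269 2152 (.cons 249 (.leaf 250 1970 (.cons 320 (.leaf 225 1797 (.leaf 344 1983 .nil)) .nil)) .nil)) .nil)) .nil)) .nil)) .nil)) .nil)) (.cons 225 (.leaf 201 1605 (.cons 320 (.leaf 249 1797 (.cons 321 (.leaf 297 1796 (.leaf 345 1988 .nil)) .nil)) .nil)) (.cons 223 (.leaf 199 1599 (.cons 320 (.leaf 247 1791 (.cons 321 (.leaf 297 1796 (.leaf 345 1988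 .nil)) .nil)) .nil)) (.cons 223 (.leaf 199 1599 (.cons 201 (.leaf 225 1605 (.cons 200 (.leaf 177 1413 (.cons 202 (.leaf 203 1594 (.cons 221 (.leaf 222 1577 (.cons 247 (.leaf 320 1791 (.cons 271 (.leaf 295 1597 (.leaf 176 1406 .nil)) .nil)) .nil)) .nil)) .nil)) .nil)) .nil)) (.cons 199 (.leaf 223 1599 (.cons 200 (.leaf 175 1407 (.cons 177 (.leaf 201 1413 (.cons 176 (.leaf 153 1221 (.cons 271 (.leaf 295 1598 (.leaf 247 1406 .nil)) .nil)) .nil)) .nil)) .nil)) .nil))))) (.cons 320 (.cons 343 (.leaf 319 1982 (.cons 344 (.leaf 367 2174 (.cons 345 (.leaf 321 1988 (.leaf 369 2180 .nil)) .nil)) .nil)) (.cons 223 (.leaf 247 1791 (.cons 224 (.leaf 199 1599 (.cons 225 (.leaf 201 1605 (.leaf 249 1797 .nil)) .nil)) .nil)) .nil)) (.cons 320 (.cons 223 (.leaf 247 1791 (.cons 224 (.leaf 199 1599 (.cons 319 (.leaf 295 1790 (.leaf 343 1982 .nil)) .nil)) .nil)) (.cons 223 (.leaf 247 1791 (.cons 224 (.leaf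 199 1599 (.cons 321 (.leaf 297 1796 (.leaf 345 1988 .nil)) .nil)) .nil)) (.cons 319 (.leaf 343 1982 (.cons 224 (.leaf 295 1790 (.cons 321 (.leaf 297 1796 (.leaf 345 1988 .nil)) .nil)) .nil)) (.cons 223 (.leaf 247 1791 (.cons 343 (.leaf 319 1982 (.cons 344 (.leaf 367 2174 (.cons 345 (.leaf 321 1988 (.leaf 369 2180 .nil)) .nil)) .nil)) .nil)) .nil)))) .nil))))))
noncomputable def t109 : T := .cons 296 (.cons 297 (.leaf 321 1796 (.cons 295 (.leaf 319 1790 (.cons 223 (.leaf 199 1599 (.cons 294 (.cons 269 (.leaf 270 2155 (.cons 293 (.leaf 273 2153 (.leaf 268 2147 .nil)) .nil)) (.cons 293 (.leaf 273 2153 (.cons 317 (.leaf 316 2338 (.leaf 318 2346 .nil)) .nil)) (.cons 270 (.leaf 269 2155 (.cons 271 (.leaf 298 2163 (.cons 318 (.leaf 317 2346 (.leaf 247 1782 .nil)) .nil)) .nil)) .nil))) .nil)) .nil)) .nil)) (.cons 319 (.leaf 295 1790 (.cons 320 (.leaf 343 1982 (.cons 321 (.leaf 297 1796 (.leaf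 345 1988 .nil)) .nil)) .nil)) (.cons 223 (.leaf 199 1599 (.cons 320 (.leaf 247 1791 (.cons 321 (.leaf 297 1796 (.leaf 345 1988 .nil)) .nil)) .nil)) (.cons 223 (.leaf 199 1599 (.cons 319 (.leaf 295 1790 (.cons 320 (.leaf 247 1791 (.leaf 343 1982 .nil)) .nil)) .nil)) .nil)))) (.cons 200 (.cons 271 (.leaf 295 1598 (.cons 273 (.leaf 297 1604 (.cons 249 (.leaf 176 1412 (.cons 250 (.leaf 251 1978 (.leaf 270 1969 .nil)) .nil)) .nil)) .nil)) (.cons 175 (.leaf 199 1407 (.cons 176 (.leaf 151 1215 (.cons 273 (.leaf 297 1604 (.leaf 249 1412 .nil)) .nil)) .nil)) (.cons 271 (.leaf 295 1598 (.cons 175 (.leaf 199 1407 (.cons 176 (.leaf 151 1215 (.leaf 247 1406 .nil)) .nil)) .nil)) (.cons 271 (.leaf 295 1598 (.cons 273 (.leaf 297 1604 (.cons 199 (.leaf 175 1407 (.cons 270 (.cons 249 (.leaf 269 1961 (.leaf 250 1969 .nil)) (.cons 245 (.leaf 246 1963 (.cons 269 (.leaf 244 1955 (.cons 293 (.leaf 292 2146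 (.leaf 294 2154 .nil)) .nil)) .nil)) (.cons 246 (.leaf 245 1963 (.cons 249 (.leaf 250 1969 (.cons 294 (.leaf 293 2154 (.cons 223 (.leaf 247 1590 (.leaf 222 1589 .nil)) .nil)) .nil)) .nil)) .nil))) .nil)) .nil)) .nil)) .nil)))) (.cons 200 (.cons 177 (.leaf 201 1413 (.cons 176 (.leaf 153 1221 (.cons 273 (.leaf 297 1604 (.leaf 249 1412 .nil)) .nil)) .nil)) (.cons 175 (.leaf 199 1407 (.cons 176 (.leaf 151 1215 (.cons 177 (.leaf 201 1413 (.leaf 153 1221 .nil)) .nil)) .nil)) (.cons 199 (.leaf 175 1407 (.cons 223 (.leaf 296 1599 (.cons 273 (.leaf 297 1604 (.cons 176 (.leaf 249 1412 (.cons 152 (.leaf 247 1214 (.leaf 128 1022 .nil)) .nil)) .nil)) .nil)) .nil)) (.cons 177 (.leaf 201 1413 (.cons 199 (.leaf 175 1407 (.cons 296 (.leaf 223 1599 (.cons 297 (.leaf 273 1604 (.leaf 321 1796 .nil)) .nil)) .nil)) .nil)) .nil)))) (.cons 200 (.cons 175 (.leaf 199 1407 (.cons 176 (.leaf 151 1215 (.cons 271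 (.leaf 295 1598 (.leaf 247 1406 .nil)) .nil)) .nil)) (.cons 177 (.leaf 201 1413 (.cons 176 (.leaf 153 1221 (.cons 273 (.leaf 297 1604 (.leaf 249 1412 .nil)) .nil)) .nil)) (.cons 175 (.leaf 199 1407 (.cons 177 (.leaf 201 1413 (.cons 295 (.leaf 271 1598 (.cons 296 (.leaf 319 1790 (.cons 297 (.leaf 273 1604 (.leaf 321 1796 .nil)) .nil)) .nil)) .nil)) .nil)) .nil))) (.cons 200 (.cons 271 (.leaf 295 1598 (.cons 176 (.leaf 247 1406 (.cons 151 (.leaf 175 1215 (.cons 152 (.leaf 127 1023 (.cons 153 (.leaf 177 1221 (.leaf 129 1029 .nil)) .nil)) .nil)) .nil)) .nil)) (.cons 273 (.leaf 297 1604 (.cons 176 (.leaf 249 1412 (.cons 177 (.leaf 201 1413 (.leaf 153 1221 .nil)) .nil)) .nil)) (.cons 271 (.leaf 295 1598 (.cons 176 (.leaf 247 1406 (.cons 273 (.leaf 297 1604 (.leaf 249 1412 .nil)) .nil)) .nil)) (.cons 177 (.leaf 201 1413 (.cons 295 (.leaf 271 1598 (.cons 296 (.leaf 319 1790 (.cons 297 (.leaf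 273 1604 (.leaf 321 1796 .nil)) .nil)) .nil)) .nil)) .nil)))) (.cons 200 (.cons 177 (.leaf 201 1413 (.cons 199 (.leaf 175 1407 (.cons 295 (.leaf 271 1598 (.cons 296 (.leaf 223 1599 (.leaf 319 1790 .nil)) .nil)) .nil)) .nil)) (.cons 175 (.leaf 199 1407 (.cons 176 (.leaf 151 1215 (.cons 177 (.leaf 201 1413 (.leaf 153 1221 .nil)) .nil)) .nil)) (.cons 177 (.leaf 201 1413 (.cons 176 (.leaf 153 1221 (.cons 271 (.leaf 295 1598 (.leaf 247 1406 .nil)) .nil)) .nil)) (.cons 271 (.leaf 295 1598 (.cons 175 (.leaf 199 1407 (.cons 176 (.leaf 151 1215 (.leaf 247 1406 .nil)) .nil)) .nil)) .nil)))) (.cons 200 (.cons 175 (.leaf 199 1407 (.cons 176 (.leaf 151 1215 (.cons 273 (.leaf 297 1604 (.leaf 249 1412 .nil)) .nil)) .nil)) (.cons 177 (.leaf 201 1413 (.cons 295 (.leaf 271 1598 (.cons 296 (.leaf 319 1790 (.cons 297 (.leaf 273 1604 (.leaf 321 1796 .nil)) .nil)) .nil)) .nil)) (.cons 199 (.leaf 175 1407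 (.cons 295 (.leaf 271 1598 (.cons 296 (.leaf 223 1599 (.leaf 319 1790 .nil)) .nil)) .nil)) .nil))) .nil))))))
noncomputable def t110 : T := .cons 175 (.leaf 199 1407 (.cons 201 (.leaf 177 1413 (.cons 271 (.leaf 295 1598 (.cons 296 (.leaf 225 1605 (.cons 321 (.leaf 297 1796 (.cons 320 (.leaf 345 1988 (.cons 343 (.leaf 319 1982 (.cons 344 (.leaf 247 1983 (.leaf 367 2174 .nil)) .nil)) .nil)) .nil)) .nil)) .nil)) .nil)) .nil)) (.cons 175 (.leaf 199 1407 (.cons 176 (.leaf 151 1215 (.cons 271 (.leaf 295 1598 (.leaf 247 1406 .nil)) .nil)) .nil)) (.cons 201 (.leaf 177 1413 (.cons 175 (.leaf 199 1407 (.cons 151 (.leaf 176 1215 (.cons 296 (.leaf 225 1605 (.cons 319 (.leaf 295 1790 (.cons 320 (.leaf 343 1982 (.cons 321 (.leaf 297 1796 (.leaf 345 1988 .nil)) .nil)) .nil)) .nil)) .nil)) .nil)) .nil)) (.cons 201 (.leaf 177 1413 (.cons 175 (.leaf 199 1407 (.cons 176 (.leaf 151 1215 (.cons 173 (.leaf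 174 1384 (.cons 202 (.leaf 203 1403 (.cons 225 (.leaf 296 1605 (.cons 152 (.leaf 249 1220 (.leaf 128 1028 .nil)) .nil)) .nil)) .nil)) .nil)) .nil)) .nil)) (.cons 271 (.leaf 295 1598 (.cons 176 (.leaf 247 1406 (.cons 177 (.leaf 201 1413 (.leaf 153 1221 .nil)) .nil)) .nil)) .nil))))
noncomputable def t111 : T := .cons 175 (.leaf 199 1407 (.cons 176 (.leaf 151 1215 (.cons 249 (.leaf 273 1412 (.cons 225 (.leaf 152 1220 (.cons 296 (.leaf 201 1605 (.leaf 320 1797 .nil)) .nil)) .nil)) .nil)) .nil)) (.cons 273 (.leaf 297 1604 (.cons 175 (.leaf 199 1407 (.cons 176 (.leaf 151 1215 (.leaf 249 1412 .nil)) .nil)) .nil)) (.cons 201 (.leaf 177 1413 (.cons 175 (.leaf 199 1407 (.cons 151 (.leaf 176 1215 (.cons 296 (.leaf 225 1605 (.cons 319 (.leaf 295 1790 (.cons 320 (.leaf 343 1982 (.cons 321 (.leaf 297 1796 (.leaf 345 1988 .nil)) .nil)) .nil)) .nil)) .nil)) .nil)) .nil)) (.cons 201 (.leaf 177 1413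 (.cons 225 (.leaf 296 1605 (.cons 273 (.leaf 297 1604 (.cons 249 (.leaf 176 1412 (.cons 202 (.leaf 178 1421 (.cons 203 (.leaf 204 1602 (.cons 179 (.leaf 180 1409 (.cons 227 (.leaf 228 1600 (.cons 226 (.leaf 247 1786 (.leaf 199 1592 .nil)) .nil)) .nil)) .nil)) .nil)) .nil)) .nil)) .nil)) .nil)) (.cons 201 (.leaf 177 1413 (.cons 225 (.leaf 296 1605 (.cons 273 (.leaf 297 1604 (.cons 249 (.leaf 176 1412 (.cons 202 (.leaf 178 1421 (.cons 203 (.leaf 204 1602 (.cons 179 (.leaf 180 1409 (.cons 227 (.leaf 228 1600 (.cons 226 (.leaf 247 1786 (.cons 251 (.leaf 299 1623 (.leaf 252 1792 .nil)) .nil)) .nil)) .nil)) .nil)) .nil)) .nil)) .nil)) .nil)) .nil)) (.cons 201 (.leaf 177 1413 (.cons 175 (.leaf 199 1407 (.cons 296 (.leaf 225 1605 (.cons 297 (.leaf 273 1604 (.leaf 321 1796 .nil)) .nil)) .nil)) .nil)) .nil)))))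
noncomputable def t112 : T := .cons 200 (.cons 273 (.leaf 297 1604 (.cons 175 (.leaf 199 1407 (.cons 176 (.leaf 151 1215 (.leaf 249 1412 .nil)) .nil)) .nil)) (.cons 175 (.leaf 199 1407 (.cons 176 (.leaf 151 1215 (.cons 271 (.leaf 295 1598 (.leaf 247 1406 .nil)) .nil)) .nil)) (.cons 271 (.leaf 295 1598 (.cons 273 (.leaf 297 1604 (.cons 249 (.leaf 176 1412 (.cons 250 (.leaf 251 1978 (.leaf 270 1969 .nil)) .nil)) .nil)) .nil)) (.cons 271 (.leaf 295 1598 (.cons 273 (.leaf 297 1604 (.cons 201 (.leaf 177 1413 (.cons 199 (.leaf 175 1407 (.cons 198 (.cons 225 (.leaf 197 1576 (.leaf 226 1584 .nil)) (.cons 173 (.leaf 174 1387 (.cons 197 (.leaf 172 1379 (.cons 221 (.leaf 220 1570 (.leaf 222 1578 .nil)) .nil)) .nil)) (.cons 173 (.leaf 174 1387 (.cons 221 (.leaf 222 1578 (.cons 226 (.leaf 225 1584 (.cons 202 (.leaf 227 1592 (.cons 178 (.leaf 179 1401 (.cons 250 (.leaf 251 1428 (.leaf 249 1422 .nil))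 .nil)) .nil)) .nil)) .nil)) .nil)) .nil))) .nil)) .nil)) .nil)) .nil)) .nil)))) (.cons 200 t111 (.cons 200 (.cons 175 (.leaf 199 1407 (.cons 201 (.leaf 177 1413 (.cons 295 (.leaf 271 1598 (.cons 296 (.leaf 225 1605 (.leaf 319 1790 .nil)) .nil)) .nil)) .nil)) (.cons 175 (.leaf 199 1407 (.cons 176 (.leaf 151 1215 (.cons 271 (.leaf 295 1598 (.leaf 247 1406 .nil)) .nil)) .nil)) (.cons 201 (.leaf 177 1413 (.cons 175 (.leaf 199 1407 (.cons 176 (.leaf 151 1215 (.cons 173 (.leaf 174 1384 (.cons 202 (.leaf 203 1403 (.cons 225 (.leaf 296 1605 (.cons 249 (.leaf 273 1412 (.leaf 152 1220 .nil)) .nil)) .nil)) .nil)) .nil)) .nil)) .nil)) (.cons 177 (.leaf 201 1413 (.cons 176 (.leaf 153 1221 (.cons 271 (.leaf 295 1598 (.leaf 247 1406 .nil)) .nil)) .nil)) .nil)))) (.cons 200 (.cons 175 (.leaf 199 1407 (.cons 176 (.leaf 151 1215 (.cons 271 (.leaf 295 1598 (.leaf 247 1406 .nil)) .nil)) .nil)) (.cons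 175 (.leaf 199 1407 (.cons 176 (.leaf 151 1215 (.cons 177 (.leaf 201 1413 (.leaf 153 1221 .nil)) .nil)) .nil)) (.cons 271 (.leaf 295 1598 (.cons 273 (.leaf 297 1604 (.cons 249 (.leaf 176 1412 (.cons 250 (.leaf 251 1978 (.leaf 270 1969 .nil)) .nil)) .nil)) .nil)) (.cons 175 (.leaf 199 1407 (.cons 177 (.leaf 201 1413 (.cons 295 (.leaf 271 1598 (.cons 296 (.leaf 319 1790 (.cons 297 (.leaf 273 1604 (.leaf 321 1796 .nil)) .nil)) .nil)) .nil)) .nil)) .nil)))) (.cons 200 (.cons 175 (.leaf 199 1407 (.cons 176 (.leaf 151 1215 (.cons 271 (.leaf 295 1598 (.leaf 247 1406 .nil)) .nil)) .nil)) (.cons 175 (.leaf 199 1407 (.cons 176 (.leaf 151 1215 (.cons 273 (.leaf 297 1604 (.leaf 249 1412 .nil)) .nil)) .nil)) (.cons 271 (.leaf 295 1598 (.cons 273 (.leaf 297 1604 (.cons 249 (.leaf 176 1412 (.cons 250 (.leaf 251 1978 (.leaf 270 1969 .nil)) .nil)) .nil)) .nil)) (.cons 175 (.leaf 199 1407 (.cons 295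 (.leaf 271 1598 (.cons 296 (.leaf 319 1790 (.cons 297 (.leaf 273 1604 (.leaf 321 1796 .nil)) .nil)) .nil)) .nil)) .nil)))) (.cons 200 (.cons 175 (.leaf 199 1407 (.cons 176 (.leaf 151 1215 (.cons 273 (.leaf 297 1604 (.leaf 249 1412 .nil)) .nil)) .nil)) (.cons 175 (.leaf 199 1407 (.cons 176 (.leaf 151 1215 (.cons 177 (.leaf 201 1413 (.leaf 153 1221 .nil)) .nil)) .nil)) (.cons 177 (.leaf 201 1413 (.cons 176 (.leaf 153 1221 (.cons 273 (.leaf 297 1604 (.leaf 249 1412 .nil)) .nil)) .nil)) (.cons 175 (.leaf 199 1407 (.cons 201 (.leaf 177 1413 (.cons 296 (.leaf 225 1605 (.cons 297 (.leaf 273 1604 (.leaf 321 1796 .nil)) .nil)) .nil)) .nil)) .nil)))) (.cons 200 t110 (.cons 200 (.cons 271 (.leaf 295 1598 (.cons 176 (.leaf 247 1406 (.cons 151 (.leaf 175 1215 (.cons 152 (.leaf 127 1023 (.cons 153 (.leaf 177 1221 (.leaf 129 1029 .nil)) .nil)) .nil)) .nil)) .nil)) (.cons 201 (.leaf 177 1413 (.cons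 175 (.leaf 199 1407 (.cons 176 (.leaf 151 1215 (.cons 173 (.leaf 174 1384 (.cons 202 (.leaf 203 1403 (.cons 296 (.leaf 225 1605 (.cons 297 (.leaf 273 1604 (.leaf 321 1796 .nil)) .nil)) .nil)) .nil)) .nil)) .nil)) .nil)) (.cons 271 (.leaf 295 1598 (.cons 175 (.leaf 199 1407 (.cons 176 (.leaf 151 1215 (.leaf 247 1406 .nil)) .nil)) .nil)) (.cons 271 (.leaf 295 1598 (.cons 176 (.leaf 247 1406 (.cons 177 (.leaf 201 1413 (.leaf 153 1221 .nil)) .nil)) .nil)) (.cons 201 (.leaf 177 1413 (.cons 175 (.leaf 199 1407 (.cons 271 (.leaf 295 1598 (.cons 296 (.leaf 225 1605 (.cons 321 (.leaf 297 1796 (.cons 320 (.leaf 345 1988 (.cons 343 (.leaf 319 1982 (.cons 344 (.leaf 247 1983 (.leaf 367 2174 .nil)) .nil)) .nil)) .nil)) .nil)) .nil)) .nil)) .nil)) .nil))))) .nil)))))))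
noncomputable def t113 : T := .cons 200 (.cons 175 (.leaf 199 1407 (.cons 176 (.leaf 151 1215 (.cons 271 (.leaf 295 1598 (.leaf 247 1406 .nil)) .nil)) .nil)) (.cons 201 (.leaf 177 1413 (.cons 296 (.leaf 225 1605 (.cons 273 (.leaf 297 1604 (.cons 249 (.leaf 176 1412 (.cons 320 (.leaf 344 1989 (.cons 319 (.leaf 295 1790 (.leaf 343 1982 .nil)) .nil)) .nil)) .nil)) .nil)) .nil)) (.cons 201 (.leaf 177 1413 (.cons 296 (.leaf 225 1605 (.cons 297 (.leaf 273 1604 (.leaf 321 1796 .nil)) .nil)) .nil)) .nil))) (.cons 296 (.cons 297 (.leaf 321 1796 (.cons 295 (.leaf 319 1790 (.cons 225 (.leaf 201 1605 (.cons 294 (.cons 269 (.leaf 270 2155 (.cons 293 (.leaf 273 2153 (.leaf 268 2147 .nil)) .nil)) (.cons 270 (.leaf 269 2155 (.cons 271 (.leaf 298 2163 (.cons 318 (.leaf 317 2346 (.cons 342 (.leaf 366 2165 (.leaf 247 1973 .nil)) .nil)) .nil)) .nil)) (.cons 293 (.leaf 273 2153 (.cons 317 (.leaf 316 2338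 (.leaf 318 2346 .nil)) .nil)) .nil))) .nil)) .nil)) .nil)) (.cons 319 (.leaf 295 1790 (.cons 320 (.leaf 343 1982 (.cons 321 (.leaf 297 1796 (.leaf 345 1988 .nil)) .nil)) .nil)) (.cons 225 (.leaf 201 1605 (.cons 320 (.leaf 249 1797 (.cons 321 (.leaf 297 1796 (.leaf 345 1988 .nil)) .nil)) .nil)) (.cons 225 (.leaf 201 1605 (.cons 319 (.leaf 295 1790 (.cons 320 (.leaf 249 1797 (.leaf 343 1982 .nil)) .nil)) .nil)) .nil)))) t112)
noncomputable def t114 : T := .cons 297 (.leaf 321 1796 (.cons 295 (.leaf 319 1790 (.cons 225 (.leaf 201 1605 (.cons 223 (.leaf 199 1599 (.cons 222 (.cons 249 (.leaf 221 1768 (.leaf 250 1776 .nil)) (.cons 197 (.leaf 198 1579 (.cons 221 (.leaf 196 1571 (.cons 245 (.leaf 244 1762 (.leaf 246 1770 .nil)) .nil)) .nil)) (.cons 198 (.leaf 197 1579 (.cons 246 (.leaf 245 1770 (.cons 249 (.leaf 250 1776 (.cons 270 (.leaf 271 1588 (.cons 269 (.leaf 247 1962 (.leaf 294 2155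 .nil)) .nil)) .nil)) .nil)) .nil)) .nil))) .nil)) .nil)) .nil)) .nil)) (.cons 297 (.leaf 321 1796 (.cons 295 (.leaf 319 1790 (.cons 225 (.leaf 201 1605 (.cons 294 (.cons 269 (.leaf 270 2155 (.cons 293 (.leaf 273 2153 (.leaf 268 2147 .nil)) .nil)) (.cons 270 (.leaf 269 2155 (.cons 271 (.leaf 298 2163 (.cons 318 (.leaf 317 2346 (.cons 342 (.leaf 366 2165 (.leaf 247 1973 .nil)) .nil)) .nil)) .nil)) (.cons 293 (.leaf 273 2153 (.cons 317 (.leaf 316 2338 (.leaf 318 2346 .nil)) .nil)) .nil))) .nil)) .nil)) .nil)) (.cons 297 (.leaf 321 1796 (.cons 295 (.leaf 319 1790 (.cons 223 (.leaf 199 1599 (.cons 294 (.cons 269 (.leaf 270 2155 (.cons 293 (.leaf 273 2153 (.leaf 268 2147 .nil)) .nil)) (.cons 293 (.leaf 273 2153 (.cons 317 (.leaf 316 2338 (.leaf 318 2346 .nil)) .nil)) (.cons 270 (.leaf 269 2155 (.cons 271 (.leaf 298 2163 (.cons 318 (.leaf 317 2346 (.leaf 247 1782 .nil)) .nil)) .nil)) .nil)))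 .nil)) .nil)) .nil)) (.cons 223 (.leaf 199 1599 (.cons 225 (.leaf 201 1605 (.cons 295 (.leaf 319 1790 (.cons 222 (.cons 249 (.leaf 221 1768 (.leaf 250 1776 .nil)) (.cons 246 (.leaf 245 1770 (.cons 197 (.leaf 198 1579 (.cons 196 (.leaf 221 1571 (.cons 226 (.leaf 247 1778 (.cons 203 (.leaf 202 1593 (.cons 227 (.leaf 204 1601 (.cons 251 (.leaf 250 1784 (.leaf 252 1792 .nil)) .nil)) .nil)) .nil)) .nil)) .nil)) .nil)) (.cons 250 (.leaf 249 1776 (.cons 197 (.leaf 198 1579 (.cons 226 (.leaf 251 1784 (.cons 246 (.leaf 245 1770 (.leaf 247 1778 .nil)) .nil)) .nil)) .nil)) (.cons 221 (.leaf 249 1768 (.cons 197 (.leaf 196 1571 (.leaf 198 1579 .nil)) .nil)) .nil)))) .nil)) .nil)) .nil)) (.cons 223 (.leaf 199 1599 (.cons 225 (.leaf 201 1605 (.cons 297 (.leaf 321 1796 (.cons 222 (.cons 197 (.leaf 198 1579 (.cons 196 (.leaf 221 1571 (.cons 246 (.leaf 245 1770 (.cons 226 (.leaf 247 1778 (.cons 203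 (.leaf 202 1593 (.cons 227 (.leaf 204 1601 (.cons 251 (.leaf 250 1784 (.leaf 252 1792 .nil)) .nil)) .nil)) .nil)) .nil)) .nil)) .nil)) (.cons 197 (.leaf 198 1579 (.cons 245 (.leaf 246 1770 (.cons 250 (.leaf 249 1776 (.cons 226 (.leaf 251 1784 (.cons 203 (.leaf 202 1593 (.cons 227 (.leaf 247 1786 (.leaf 204 1601 .nil)) .nil)) .nil)) .nil)) .nil)) .nil)) (.cons 197 (.leaf 198 1579 (.cons 221 (.leaf 249 1768 (.leaf 196 1571 .nil)) .nil)) (.cons 249 (.leaf 221 1768 (.leaf 250 1776 .nil)) .nil)))) .nil)) .nil)) .nil)) (.cons 297 (.leaf 321 1796 (.cons 295 (.leaf 319 1790 (.cons 225 (.leaf 201 1605 (.cons 223 (.leaf 199 1599 (.cons 222 (.cons 249 (.leaf 221 1768 (.leaf 250 1776 .nil)) (.cons 197 (.leaf 198 1579 (.cons 221 (.leaf 196 1571 (.cons 245 (.leaf 244 1762 (.leaf 246 1770 .nil)) .nil)) .nil)) (.cons 198 (.leaf 197 1579 (.cons 246 (.leaf 245 1770 (.cons 249 (.leaf 250 1776 (.cons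 270 (.leaf 271 1588 (.cons 269 (.leaf 294 2155 (.leaf 293 1582 .nil)) .nil)) .nil)) .nil)) .nil)) .nil))) .nil)) .nil)) .nil)) .nil)) .nil)))))
noncomputable def t115 : T := .cons 320 (.cons 223 (.leaf 247 1791 (.cons 249 (.leaf 225 1797 (.cons 344 (.leaf 273 1989 (.cons 345 (.leaf 321 1988 (.leaf 369 2180 .nil)) .nil)) .nil)) .nil)) (.cons 223 (.leaf 247 1791 (.cons 249 (.leaf 225 1797 (.cons 344 (.leaf 273 1989 (.cons 367 (.leaf 343 2174 (.cons 368 (.leaf 391 2366 (.cons 369 (.leaf 345 2180 (.leaf 393 2372 .nil)) .nil)) .nil)) .nil)) .nil)) .nil)) (.cons 223 (.leaf 247 1791 (.cons 224 (.leaf 199 1599 (.cons 319 (.leaf 295 1790 (.leaf 343 1982 .nil)) .nil)) .nil)) (.cons 321 (.leaf 345 1988 (.cons 224 (.leaf 297 1796 (.cons 319 (.leaf 295 1790 (.leaf 343 1982 .nil)) .nil)) .nil)) .nil)))) (.cons 224 t114 (.cons 320 (.cons 249 (.leaf 225 1797 (.cons 344 (.leaf 273 1989 (.cons 345 (.leaf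 321 1988 (.leaf 369 2180 .nil)) .nil)) .nil)) (.cons 247 (.leaf 223 1791 (.cons 343 (.leaf 319 1982 (.cons 344 (.leaf 271 1983 (.leaf 367 2174 .nil)) .nil)) .nil)) (.cons 319 (.leaf 343 1982 (.cons 321 (.leaf 345 1988 (.cons 249 (.leaf 225 1797 (.cons 247 (.leaf 223 1791 (.cons 318 (.cons 298 (.leaf 297 2353 (.cons 293 (.leaf 294 2347 (.cons 322 (.leaf 299 2361 (.cons 323 (.leaf 295 2363 (.cons 347 (.leaf 346 2552 (.leaf 348 2560 .nil)) .nil)) .nil)) .nil)) .nil)) (.cons 294 (.leaf 293 2347 (.cons 295 (.leaf 322 2355 (.cons 317 (.leaf 316 2337 (.cons 341 (.leaf 340 2530 (.leaf 342 2538 .nil)) .nil)) .nil)) .nil)) (.cons 297 (.leaf 317 2345 (.leaf 298 2353 .nil)) .nil))) .nil)) .nil)) .nil)) .nil)) .nil))) (.cons 320 (.cons 225 (.leaf 249 1797 (.cons 224 (.leaf 201 1605 (.cons 321 (.leaf 297 1796 (.leaf 345 1988 .nil)) .nil)) .nil)) (.cons 223 (.leaf 247 1791 (.cons 224 (.leaf 199 1599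 (.cons 321 (.leaf 297 1796 (.leaf 345 1988 .nil)) .nil)) .nil)) (.cons 223 (.leaf 247 1791 (.cons 224 (.leaf 199 1599 (.cons 225 (.leaf 201 1605 (.leaf 249 1797 .nil)) .nil)) .nil)) (.cons 249 (.leaf 225 1797 (.cons 344 (.leaf 273 1989 (.cons 345 (.leaf 321 1988 (.leaf 369 2180 .nil)) .nil)) .nil)) .nil)))) (.cons 320 (.cons 225 (.leaf 249 1797 (.cons 224 (.leaf 201 1605 (.cons 319 (.leaf 295 1790 (.leaf 343 1982 .nil)) .nil)) .nil)) (.cons 223 (.leaf 247 1791 (.cons 224 (.leaf 199 1599 (.cons 225 (.leaf 201 1605 (.leaf 249 1797 .nil)) .nil)) .nil)) (.cons 223 (.leaf 247 1791 (.cons 224 (.leaf 199 1599 (.cons 319 (.leaf 295 1790 (.leaf 343 1982 .nil)) .nil)) .nil)) (.cons 223 (.leaf 247 1791 (.cons 249 (.leaf 225 1797 (.cons 344 (.leaf 273 1989 (.cons 367 (.leaf 343 2174 (.cons 368 (.leaf 391 2366 (.cons 369 (.leaf 345 2180 (.leaf 393 2372 .nil)) .nil)) .nil)) .nil)) .nil)) .nil))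 .nil)))) (.cons 320 (.cons 225 (.leaf 249 1797 (.cons 224 (.leaf 201 1605 (.cons 321 (.leaf 297 1796 (.leaf 345 1988 .nil)) .nil)) .nil)) (.cons 319 (.leaf 343 1982 (.cons 224 (.leaf 295 1790 (.cons 225 (.leaf 201 1605 (.leaf 249 1797 .nil)) .nil)) .nil)) (.cons 319 (.leaf 343 1982 (.cons 224 (.leaf 295 1790 (.cons 321 (.leaf 297 1796 (.leaf 345 1988 .nil)) .nil)) .nil)) (.cons 225 (.leaf 249 1797 (.cons 343 (.leaf 319 1982 (.cons 344 (.leaf 367 2174 (.cons 345 (.leaf 321 1988 (.leaf 369 2180 .nil)) .nil)) .nil)) .nil)) .nil)))) (.cons 320 (.cons 223 (.leaf 247 1791 (.cons 224 (.leaf 199 1599 (.cons 319 (.leaf 295 1790 (.leaf 343 1982 .nil)) .nil)) .nil)) (.cons 223 (.leaf 247 1791 (.cons 224 (.leaf 199 1599 (.cons 321 (.leaf 297 1796 (.leaf 345 1988 .nil)) .nil)) .nil)) (.cons 319 (.leaf 343 1982 (.cons 224 (.leaf 295 1790 (.cons 321 (.leaf 297 1796 (.leaf 345 1988 .nil)) .nil)) .nil))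 (.cons 223 (.leaf 247 1791 (.cons 343 (.leaf 319 1982 (.cons 344 (.leaf 367 2174 (.cons 345 (.leaf 321 1988 (.leaf 369 2180 .nil)) .nil)) .nil)) .nil)) .nil)))) .nil))))))
noncomputable def t116 : T := .cons 201 (.leaf 177 1413 (.cons 199 (.leaf 175 1407 (.cons 273 (.leaf 297 1604 (.cons 198 (.cons 222 (.leaf 221 1578 (.cons 173 (.leaf 174 1387 (.cons 172 (.leaf 197 1379 (.cons 202 (.leaf 223 1586 (.cons 179 (.leaf 178 1401 (.cons 203 (.leaf 180 1409 (.cons 227 (.leaf 226 1592 (.leaf 228 1600 .nil)) .nil)) .nil)) .nil)) .nil)) .nil)) .nil)) (.cons 225 (.leaf 226 1584 (.cons 176 (.leaf 249 1412 (.cons 128 (.leaf 152 1028 (.cons 173 (.leaf 174 1387 (.cons 222 (.leaf 221 1578 (.cons 202 (.leaf 223 1585 (.cons 178 (.leaf 179 1401 (.cons 203 (.leaf 204 1602 (.cons 227 (.leaf 251 1431 (.leaf 228 1600 .nil)) .nil)) .nil)) .nil)) .nil)) .nil)) .nil)) .nil)) .nil)) (.cons 225 (.leaf 197 1576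 (.leaf 226 1584 .nil)) (.cons 197 (.leaf 225 1576 (.cons 173 (.leaf 172 1379 (.leaf 174 1387 .nil)) .nil)) .nil)))) .nil)) .nil)) .nil)) (.cons 273 (.leaf 297 1604 (.cons 175 (.leaf 199 1407 (.cons 176 (.leaf 151 1215 (.leaf 249 1412 .nil)) .nil)) .nil)) (.cons 273 (.leaf 297 1604 (.cons 176 (.leaf 249 1412 (.cons 177 (.leaf 201 1413 (.leaf 153 1221 .nil)) .nil)) .nil)) (.cons 177 (.leaf 201 1413 (.cons 175 (.leaf 199 1407 (.cons 176 (.leaf 151 1215 (.leaf 153 1221 .nil)) .nil)) .nil)) (.cons 201 (.leaf 177 1413 (.cons 199 (.leaf 175 1407 (.cons 273 (.leaf 297 1604 (.cons 198 (.cons 222 (.leaf 221 1578 (.cons 173 (.leaf 174 1387 (.cons 172 (.leaf 197 1379 (.cons 202 (.leaf 223 1586 (.cons 179 (.leaf 178 1401 (.cons 203 (.leaf 180 1409 (.cons 227 (.leaf 226 1592 (.leaf 228 1600 .nil)) .nil)) .nil)) .nil)) .nil)) .nil)) .nil)) (.cons 226 (.leaf 225 1584 (.cons 173 (.leaf 174 1387 (.cons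 202 (.leaf 227 1592 (.cons 222 (.leaf 221 1578 (.leaf 223 1586 .nil)) .nil)) .nil)) .nil)) (.cons 197 (.leaf 225 1576 (.cons 173 (.leaf 172 1379 (.leaf 174 1387 .nil)) .nil)) (.cons 225 (.leaf 197 1576 (.leaf 226 1584 .nil)) .nil)))) .nil)) .nil)) .nil)) .nil))))
noncomputable def t117 : T := .cons 225 (.leaf 201 1605 (.cons 199 (.leaf 223 1599 (.cons 319 (.leaf 295 1790 (.cons 320 (.leaf 249 1797 (.leaf 343 1982 .nil)) .nil)) .nil)) .nil)) (.cons 321 (.leaf 297 1796 (.cons 199 (.leaf 223 1599 (.cons 319 (.leaf 295 1790 (.cons 320 (.leaf 343 1982 (.leaf 345 1988 .nil)) .nil)) .nil)) .nil)) (.cons 225 (.leaf 201 1605 (.cons 199 (.leaf 223 1599 (.cons 320 (.leaf 249 1797 (.cons 321 (.leaf 297 1796 (.leaf 345 1988 .nil)) .nil)) .nil)) .nil)) (.cons 225 (.leaf 201 1605 (.cons 319 (.leaf 295 1790 (.cons 320 (.leaf 249 1797 (.leaf 343 1982 .nil)) .nil)) .nil)) (.cons 297 (.leaf 321 1796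 (.cons 295 (.leaf 319 1790 (.cons 225 (.leaf 201 1605 (.cons 223 (.leaf 199 1599 (.cons 222 (.cons 249 (.leaf 221 1768 (.leaf 250 1776 .nil)) (.cons 197 (.leaf 198 1579 (.cons 221 (.leaf 196 1571 (.cons 245 (.leaf 244 1762 (.leaf 246 1770 .nil)) .nil)) .nil)) (.cons 198 (.leaf 197 1579 (.cons 246 (.leaf 245 1770 (.cons 249 (.leaf 250 1776 (.cons 270 (.leaf 271 1588 (.cons 269 (.leaf 294 2155 (.leaf 293 1582 .nil)) .nil)) .nil)) .nil)) .nil)) .nil))) .nil)) .nil)) .nil)) .nil)) .nil))))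
noncomputable def t118 : T := .cons 200 (.cons 271 (.leaf 295 1598 (.cons 273 (.leaf 297 1604 (.cons 249 (.leaf 176 1412 (.cons 250 (.leaf 251 1978 (.leaf 270 1969 .nil)) .nil)) .nil)) .nil)) (.cons 201 (.leaf 177 1413 (.cons 295 (.leaf 271 1598 (.cons 296 (.leaf 225 1605 (.leaf 319 1790 .nil)) .nil)) .nil)) (.cons 201 (.leaf 177 1413 (.cons 296 (.leaf 225 1605 (.cons 297 (.leaf 273 1604 (.leaf 321 1796 .nil)) .nil)) .nil)) .nil))) (.cons 296 t117 (.cons 200 t116 (.cons 296 (.cons 199 (.leaf 223 1599 (.cons 319 (.leaf 295 1790 (.cons 320 (.leaf 343 1982 (.cons 321 (.leaf 297 1796 (.leaf 345 1988 .nil)) .nil)) .nil)) .nil)) (.cons 199 (.leaf 223 1599 (.cons 200 (.leaf 175 1407 (.cons 295 (.leaf 271 1598 (.leaf 319 1790 .nil)) .nil)) .nil)) (.cons 199 (.leaf 223 1599 (.cons 200 (.leaf 175 1407 (.cons 297 (.leaf 273 1604 (.leaf 321 1796 .nil)) .nil)) .nil)) (.cons 295 (.leaf 319 1790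 (.cons 200 (.leaf 271 1598 (.cons 297 (.leaf 273 1604 (.leaf 321 1796 .nil)) .nil)) .nil)) .nil)))) (.cons 200 (.cons 177 (.leaf 201 1413 (.cons 175 (.leaf 199 1407 (.cons 176 (.leaf 151 1215 (.leaf 153 1221 .nil)) .nil)) .nil)) (.cons 199 (.leaf 175 1407 (.cons 295 (.leaf 271 1598 (.cons 296 (.leaf 223 1599 (.leaf 319 1790 .nil)) .nil)) .nil)) (.cons 201 (.leaf 177 1413 (.cons 295 (.leaf 271 1598 (.cons 296 (.leaf 225 1605 (.leaf 319 1790 .nil)) .nil)) .nil)) .nil))) .nil))))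
noncomputable def t119 : T := .cons 271 (.leaf 295 1598 (.cons 176 (.leaf 247 1406 (.cons 151 (.leaf 175 1215 (.cons 152 (.leaf 127 1023 (.cons 153 (.leaf 177 1221 (.leaf 129 1029 .nil)) .nil)) .nil)) .nil)) .nil)) (.cons 271 (.leaf 295 1598 (.cons 176 (.leaf 247 1406 (.cons 177 (.leaf 201 1413 (.leaf 153 1221 .nil)) .nil)) .nil)) (.cons 175 (.leaf 199 1407 (.cons 176 (.leaf 151 1215 (.cons 177 (.leaf 201 1413 (.leaf 153 1221 .nil)) .nil)) .nil)) (.cons 271 (.leaf 295 1598 (.cons 175 (.leaf 199 1407 (.cons 176 (.leaf 151 1215 (.leaf 247 1406 .nil)) .nil)) .nil)) (.cons 199 (.leaf 175 1407 (.cons 201 (.leaf 177 1413 (.cons 271 (.leaf 295 1598 (.cons 198 (.cons 226 (.leaf 225 1584 (.cons 173 (.leaf 174 1387 (.cons 202 (.leaf 227 1592 (.cons 222 (.leaf 221 1578 (.leaf 223 1586 .nil)) .nil)) .nil)) .nil)) (.cons 222 (.leaf 221 1578 (.cons 173 (.leaf 174 1387 (.cons 172 (.leaf 197 1379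 (.cons 202 (.leaf 223 1586 (.cons 179 (.leaf 178 1401 (.cons 203 (.leaf 180 1409 (.cons 227 (.leaf 226 1592 (.leaf 228 1600 .nil)) .nil)) .nil)) .nil)) .nil)) .nil)) .nil)) (.cons 225 (.leaf 197 1576 (.leaf 226 1584 .nil)) (.cons 197 (.leaf 225 1576 (.cons 173 (.leaf 172 1379 (.leaf 174 1387 .nil)) .nil)) .nil)))) .nil)) .nil)) .nil)) .nil))))
noncomputable def t120 : T := .cons 223 (.leaf 199 1599 (.cons 201 (.leaf 225 1605 (.cons 319 (.leaf 295 1790 (.cons 320 (.leaf 247 1791 (.leaf 343 1982 .nil)) .nil)) .nil)) .nil)) (.cons 319 (.leaf 295 1790 (.cons 201 (.leaf 225 1605 (.cons 320 (.leaf 343 1982 (.cons 321 (.leaf 297 1796 (.leaf 345 1988 .nil)) .nil)) .nil)) .nil)) (.cons 223 (.leaf 199 1599 (.cons 201 (.leaf 225 1605 (.cons 320 (.leaf 247 1791 (.cons 321 (.leaf 297 1796 (.leaf 345 1988 .nil)) .nil)) .nil)) .nil)) (.cons 223 (.leaf 199 1599 (.cons 295 (.leaf 319 1790 (.cons 320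 (.leaf 247 1791 (.cons 321 (.leaf 297 1796 (.leaf 345 1988 .nil)) .nil)) .nil)) .nil)) (.cons 295 (.leaf 319 1790 (.cons 297 (.leaf 321 1796 (.cons 225 (.leaf 201 1605 (.cons 294 (.cons 269 (.leaf 270 2155 (.cons 293 (.leaf 273 2153 (.leaf 268 2147 .nil)) .nil)) (.cons 270 (.leaf 269 2155 (.cons 271 (.leaf 298 2163 (.cons 318 (.leaf 317 2346 (.cons 342 (.leaf 366 2165 (.leaf 247 1973 .nil)) .nil)) .nil)) .nil)) (.cons 293 (.leaf 273 2153 (.cons 317 (.leaf 316 2338 (.leaf 318 2346 .nil)) .nil)) .nil))) .nil)) .nil)) .nil)) .nil))))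
noncomputable def t121 : T := .cons 296 (.cons 199 (.leaf 223 1599 (.cons 201 (.leaf 225 1605 (.cons 319 (.leaf 295 1790 (.cons 320 (.leaf 343 1982 (.cons 321 (.leaf 297 1796 (.leaf 345 1988 .nil)) .nil)) .nil)) .nil)) .nil)) (.cons 199 (.leaf 223 1599 (.cons 200 (.leaf 175 1407 (.cons 201 (.leaf 177 1413 (.leaf 225 1605 .nil)) .nil)) .nil)) (.cons 201 (.leaf 225 1605 (.cons 177 (.leaf 200 1413 (.cons 319 (.leaf 295 1790 (.cons 320 (.leaf 343 1982 (.cons 321 (.leaf 297 1796 (.leaf 345 1988 .nil)) .nil)) .nil)) .nil)) .nil)) (.cons 199 (.leaf 223 1599 (.cons 175 (.leaf 200 1407 (.cons 319 (.leaf 295 1790 (.cons 320 (.leaf 343 1982 (.cons 321 (.leaf 297 1796 (.leaf 345 1988 .nil)) .nil)) .nil)) .nil)) .nil)) .nil)))) (.cons 296 t120 (.cons 200 t119 (.cons 296 (.cons 201 (.leaf 225 1605 (.cons 200 (.leaf 177 1413 (.cons 297 (.leaf 273 1604 (.leaf 321 1796 .nil)) .nil)) .nil)) (.cons 201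 (.leaf 225 1605 (.cons 200 (.leaf 177 1413 (.cons 295 (.leaf 271 1598 (.leaf 319 1790 .nil)) .nil)) .nil)) (.cons 295 (.leaf 319 1790 (.cons 200 (.leaf 271 1598 (.cons 297 (.leaf 273 1604 (.leaf 321 1796 .nil)) .nil)) .nil)) (.cons 319 (.leaf 295 1790 (.cons 201 (.leaf 225 1605 (.cons 320 (.leaf 343 1982 (.cons 321 (.leaf 297 1796 (.leaf 345 1988 .nil)) .nil)) .nil)) .nil)) .nil)))) (.cons 200 (.cons 175 (.leaf 199 1407 (.cons 201 (.leaf 177 1413 (.cons 296 (.leaf 225 1605 (.cons 297 (.leaf 273 1604 (.leaf 321 1796 .nil)) .nil)) .nil)) .nil)) (.cons 201 (.leaf 177 1413 (.cons 296 (.leaf 225 1605 (.cons 297 (.leaf 273 1604 (.leaf 321 1796 .nil)) .nil)) .nil)) (.cons 199 (.leaf 175 1407 (.cons 296 (.leaf 223 1599 (.cons 297 (.leaf 273 1604 (.leaf 321 1796 .nil)) .nil)) .nil)) (.cons 199 (.leaf 175 1407 (.cons 177 (.leaf 201 1413 (.cons 176 (.leaf 153 1221 (.cons 178 (.leaf 179 1402 (.cons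 197 (.leaf 198 1385 (.cons 223 (.leaf 296 1599 (.cons 247 (.leaf 271 1405 (.leaf 152 1214 .nil)) .nil)) .nil)) .nil)) .nil)) .nil)) .nil)) (.cons 175 (.leaf 199 1407 (.cons 176 (.leaf 151 1215 (.cons 177 (.leaf 201 1413 (.leaf 153 1221 .nil)) .nil)) .nil)) .nil))))) (.cons 296 (.cons 199 (.leaf 223 1599 (.cons 319 (.leaf 295 1790 (.cons 320 (.leaf 343 1982 (.cons 321 (.leaf 297 1796 (.leaf 345 1988 .nil)) .nil)) .nil)) .nil)) (.cons 199 (.leaf 223 1599 (.cons 200 (.leaf 175 1407 (.cons 297 (.leaf 273 1604 (.leaf 321 1796 .nil)) .nil)) .nil)) (.cons 199 (.leaf 223 1599 (.cons 200 (.leaf 175 1407 (.cons 295 (.leaf 271 1598 (.leaf 319 1790 .nil)) .nil)) .nil)) (.cons 295 (.leaf 319 1790 (.cons 200 (.leaf 271 1598 (.cons 297 (.leaf 273 1604 (.leaf 321 1796 .nil)) .nil)) .nil)) .nil)))) .nil)))))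
noncomputable def t122 : T := .leaf 201 1605 (.cons 223 (.leaf 199 1599 (.cons 295 (.leaf 319 1790 (.cons 222 (.cons 197 (.leaf 198 1579 (.cons 196 (.leaf 221 1571 (.cons 249 (.leaf 250 1776 (.cons 245 (.leaf 246 1770 (.cons 297 (.leaf 321 1796 (.cons 273 (.leaf 200 1604 (.cons 226 (.leaf 202 1613 (.cons 227 (.leaf 247 1786 (.leaf 228 1794 .nil)) .nil)) .nil)) .nil)) .nil)) .nil)) .nil)) .nil)) (.cons 246 (.leaf 245 1770 (.cons 197 (.leaf 198 1579 (.cons 196 (.leaf 221 1571 (.cons 226 (.leaf 247 1778 (.cons 203 (.leaf 202 1593 (.cons 227 (.leaf 204 1601 (.cons 251 (.leaf 250 1784 (.leaf 252 1792 .nil)) .nil)) .nil)) .nil)) .nil)) .nil)) .nil)) (.cons 249 (.leaf 250 1776 (.cons 197 (.leaf 198 1579 (.cons 245 (.leaf 246 1770 (.cons 297 (.leaf 321 1796 (.cons 273 (.leaf 200 1604 (.cons 226 (.leaf 202 1613 (.cons 227 (.leaf 247 1786 (.leaf 228 1794 .nil)) .nil)) .nil)) .nil)) .nil)) .nil))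 .nil)) (.cons 249 (.leaf 221 1768 (.leaf 250 1776 .nil)) (.cons 221 (.leaf 249 1768 (.cons 197 (.leaf 196 1571 (.leaf 198 1579 .nil)) .nil)) .nil))))) .nil)) .nil)) .nil)
noncomputable def t123 : T := .cons 224 (.cons 225 t122 (.cons 297 (.leaf 321 1796 (.cons 199 (.leaf 223 1599 (.cons 200 (.leaf 175 1407 (.leaf 273 1604 .nil)) .nil)) .nil)) (.cons 225 (.leaf 201 1605 (.cons 223 (.leaf 199 1599 (.cons 295 (.leaf 319 1790 (.cons 222 (.cons 221 (.leaf 249 1768 (.cons 197 (.leaf 196 1571 (.leaf 198 1579 .nil)) .nil)) (.cons 246 (.leaf 245 1770 (.cons 197 (.leaf 198 1579 (.cons 196 (.leaf 221 1571 (.cons 226 (.leaf 247 1778 (.cons 203 (.leaf 202 1593 (.cons 227 (.leaf 204 1601 (.cons 251 (.leaf 250 1784 (.leaf 252 1792 .nil)) .nil)) .nil)) .nil)) .nil)) .nil)) .nil)) (.cons 250 (.leaf 249 1776 (.cons 197 (.leaf 198 1579 (.cons 226 (.leaf 251 1784 (.cons 246 (.leaf 245 1770 (.leaf 247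 1778 .nil)) .nil)) .nil)) .nil)) (.cons 249 (.leaf 221 1768 (.leaf 250 1776 .nil)) .nil)))) .nil)) .nil)) .nil)) (.cons 297 (.leaf 321 1796 (.cons 200 (.leaf 273 1604 (.cons 201 (.leaf 177 1413 (.leaf 225 1605 .nil)) .nil)) .nil)) .nil)))) (.cons 320 (.cons 223 (.leaf 247 1791 (.cons 224 (.leaf 199 1599 (.cons 297 (.leaf 321 1796 (.cons 273 (.leaf 200 1604 (.cons 344 (.leaf 249 1989 (.leaf 368 2181 .nil)) .nil)) .nil)) .nil)) .nil)) (.cons 319 (.leaf 343 1982 (.cons 223 (.leaf 247 1791 (.cons 224 (.leaf 199 1599 (.leaf 295 1790 .nil)) .nil)) .nil)) (.cons 319 (.leaf 343 1982 (.cons 224 (.leaf 295 1790 (.cons 321 (.leaf 297 1796 (.leaf 345 1988 .nil)) .nil)) .nil)) (.cons 345 (.leaf 321 1988 (.cons 223 (.leaf 247 1791 (.cons 344 (.leaf 369 2180 (.cons 273 (.leaf 249 1989 (.cons 343 (.leaf 319 1982 (.leaf 367 2174 .nil)) .nil)) .nil)) .nil)) .nil)) .nil)))) (.cons 224 (.cons 199 (.leaf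 223 1599 (.cons 200 (.leaf 175 1407 (.cons 273 (.leaf 297 1604 (.cons 249 (.leaf 176 1412 (.cons 320 (.leaf 225 1797 (.leaf 344 1989 .nil)) .nil)) .nil)) .nil)) .nil)) (.cons 223 (.leaf 199 1599 (.cons 319 (.leaf 295 1790 (.cons 320 (.leaf 247 1791 (.leaf 343 1982 .nil)) .nil)) .nil)) (.cons 225 (.leaf 201 1605 (.cons 319 (.leaf 295 1790 (.cons 320 (.leaf 249 1797 (.leaf 343 1982 .nil)) .nil)) .nil)) (.cons 201 (.leaf 225 1605 (.cons 199 (.leaf 223 1599 (.cons 200 (.leaf 175 1407 (.leaf 177 1413 .nil)) .nil)) .nil)) .nil)))) (.cons 320 (.cons 225 (.leaf 249 1797 (.cons 224 (.leaf 201 1605 (.cons 321 (.leaf 297 1796 (.leaf 345 1988 .nil)) .nil)) .nil)) (.cons 225 (.leaf 249 1797 (.cons 224 (.leaf 201 1605 (.cons 319 (.leaf 295 1790 (.leaf 343 1982 .nil)) .nil)) .nil)) (.cons 321 (.leaf 345 1988 (.cons 224 (.leaf 297 1796 (.cons 319 (.leaf 295 1790 (.leaf 343 1982 .nil)) .nil)) .nil))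 (.cons 225 (.leaf 249 1797 (.cons 343 (.leaf 319 1982 (.cons 344 (.leaf 367 2174 (.cons 345 (.leaf 321 1988 (.leaf 369 2180 .nil)) .nil)) .nil)) .nil)) .nil)))) (.cons 224 (.cons 201 (.leaf 225 1605 (.cons 199 (.leaf 223 1599 (.cons 200 (.leaf 175 1407 (.leaf 177 1413 .nil)) .nil)) .nil)) (.cons 223 (.leaf 199 1599 (.cons 247 (.leaf 320 1791 (.cons 297 (.leaf 321 1796 (.cons 200 (.leaf 273 1604 (.cons 176 (.leaf 152 1214 (.cons 177 (.leaf 201 1413 (.leaf 153 1221 .nil)) .nil)) .nil)) .nil)) .nil)) .nil)) (.cons 225 (.leaf 201 1605 (.cons 249 (.leaf 320 1797 (.cons 297 (.leaf 321 1796 (.cons 273 (.leaf 200 1604 (.cons 226 (.leaf 202 1613 (.cons 227 (.leaf 247 1786 (.leaf 228 1794 .nil)) .nil)) .nil)) .nil)) .nil)) .nil)) (.cons 223 (.leaf 199 1599 (.cons 297 (.leaf 321 1796 (.cons 273 (.leaf 200 1604 (.cons 320 (.leaf 247 1791 (.cons 344 (.leaf 249 1989 (.leaf 368 2181 .nil)) .nil))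 .nil)) .nil)) .nil)) (.cons 225 (.leaf 201 1605 (.cons 199 (.leaf 223 1599 (.cons 320 (.leaf 249 1797 (.cons 321 (.leaf 297 1796 (.leaf 345 1988 .nil)) .nil)) .nil)) .nil)) .nil))))) (.cons 224 (.cons 199 (.leaf 223 1599 (.cons 201 (.leaf 225 1605 (.cons 319 (.leaf 295 1790 (.cons 320 (.leaf 343 1982 (.cons 321 (.leaf 297 1796 (.leaf 345 1988 .nil)) .nil)) .nil)) .nil)) .nil)) (.cons 201 (.leaf 225 1605 (.cons 177 (.leaf 200 1413 (.cons 319 (.leaf 295 1790 (.cons 320 (.leaf 343 1982 (.cons 321 (.leaf 297 1796 (.leaf 345 1988 .nil)) .nil)) .nil)) .nil)) .nil)) (.cons 199 (.leaf 223 1599 (.cons 200 (.leaf 175 1407 (.cons 201 (.leaf 177 1413 (.leaf 225 1605 .nil)) .nil)) .nil)) (.cons 223 (.leaf 199 1599 (.cons 319 (.leaf 295 1790 (.cons 320 (.leaf 247 1791 (.leaf 343 1982 .nil)) .nil)) .nil)) .nil)))) (.cons 320 (.cons 223 (.leaf 247 1791 (.cons 199 (.leaf 224 1599 (.cons 249 (.leaf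 225 1797 (.cons 344 (.leaf 273 1989 (.cons 367 (.leaf 343 2174 (.cons 368 (.leaf 391 2366 (.cons 369 (.leaf 345 2180 (.leaf 393 2372 .nil)) .nil)) .nil)) .nil)) .nil)) .nil)) .nil)) (.cons 223 (.leaf 247 1791 (.cons 224 (.leaf 199 1599 (.cons 319 (.leaf 295 1790 (.leaf 343 1982 .nil)) .nil)) .nil)) (.cons 249 (.leaf 225 1797 (.cons 344 (.leaf 273 1989 (.cons 345 (.leaf 321 1988 (.leaf 369 2180 .nil)) .nil)) .nil)) .nil))) .nil))))))
noncomputable def t124 : T := .cons 224 (.cons 199 (.leaf 223 1599 (.cons 200 (.leaf 175 1407 (.cons 297 (.leaf 273 1604 (.leaf 321 1796 .nil)) .nil)) .nil)) (.cons 201 (.leaf 225 1605 (.cons 177 (.leaf 200 1413 (.cons 319 (.leaf 295 1790 (.cons 320 (.leaf 343 1982 (.cons 321 (.leaf 297 1796 (.leaf 345 1988 .nil)) .nil)) .nil)) .nil)) .nil)) (.cons 199 (.leaf 223 1599 (.cons 200 (.leaf 175 1407 (.cons 201 (.leaf 177 1413 (.leaf 225 1605 .nil)) .nil)) .nil))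 (.cons 225 (.leaf 201 1605 (.cons 223 (.leaf 199 1599 (.cons 320 (.leaf 247 1791 (.leaf 249 1797 .nil)) .nil)) .nil)) .nil)))) (.cons 320 (.cons 249 (.leaf 225 1797 (.cons 344 (.leaf 273 1989 (.cons 345 (.leaf 321 1988 (.leaf 369 2180 .nil)) .nil)) .nil)) (.cons 249 (.leaf 225 1797 (.cons 343 (.leaf 319 1982 (.cons 344 (.leaf 273 1989 (.leaf 367 2174 .nil)) .nil)) .nil)) (.cons 345 (.leaf 321 1988 (.cons 223 (.leaf 247 1791 (.cons 344 (.leaf 369 2180 (.cons 343 (.leaf 319 1982 (.leaf 367 2174 .nil)) .nil)) .nil)) .nil)) (.cons 321 (.leaf 345 1988 (.cons 319 (.leaf 343 1982 (.cons 249 (.leaf 225 1797 (.cons 247 (.leaf 223 1791 (.cons 318 (.cons 297 (.leaf 317 2345 (.leaf 298 2353 .nil)) (.cons 294 (.leaf 293 2347 (.cons 295 (.leaf 322 2355 (.cons 317 (.leaf 316 2337 (.cons 341 (.leaf 340 2530 (.leaf 342 2538 .nil)) .nil)) .nil)) .nil)) (.cons 298 (.leaf 297 2353 (.cons 293 (.leaf 294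 2347 (.cons 322 (.leaf 299 2361 (.cons 323 (.leaf 295 2363 (.cons 347 (.leaf 346 2552 (.leaf 348 2560 .nil)) .nil)) .nil)) .nil)) .nil)) .nil))) .nil)) .nil)) .nil)) .nil)) .nil)))) t123)
noncomputable def t125 : T := .cons 199 (.leaf 175 1407 (.cons 201 (.leaf 177 1413 (.cons 271 (.leaf 295 1598 (.cons 273 (.leaf 297 1604 (.cons 270 (.cons 249 (.leaf 269 1961 (.leaf 250 1969 .nil)) (.cons 245 (.leaf 246 1963 (.cons 269 (.leaf 244 1955 (.cons 293 (.leaf 292 2146 (.leaf 294 2154 .nil)) .nil)) .nil)) (.cons 245 (.leaf 246 1963 (.cons 294 (.leaf 293 2154 (.cons 223 (.leaf 247 1590 (.cons 202 (.leaf 203 1594 (.cons 178 (.leaf 179 1401 (.cons 249 (.leaf 250 1969 (.leaf 176 1412 .nil)) .nil)) .nil)) .nil)) .nil)) .nil)) .nil))) .nil)) .nil)) .nil)) .nil)) (.cons 273 (.leaf 297 1604 (.cons 175 (.leaf 199 1407 (.cons 176 (.leaf 151 1215 (.leaf 249 1412 .nil)) .nil)) .nil)) (.cons 271 (.leaf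 295 1598 (.cons 176 (.leaf 247 1406 (.cons 177 (.leaf 201 1413 (.leaf 153 1221 .nil)) .nil)) .nil)) (.cons 199 (.leaf 175 1407 (.cons 201 (.leaf 177 1413 (.cons 271 (.leaf 295 1598 (.cons 273 (.leaf 297 1604 (.cons 270 (.cons 249 (.leaf 269 1961 (.leaf 250 1969 .nil)) (.cons 245 (.leaf 246 1963 (.cons 269 (.leaf 244 1955 (.cons 293 (.leaf 292 2146 (.leaf 294 2154 .nil)) .nil)) .nil)) (.cons 245 (.leaf 246 1963 (.cons 294 (.leaf 293 2154 (.cons 223 (.leaf 247 1590 (.cons 202 (.leaf 203 1594 (.cons 178 (.leaf 179 1401 (.cons 249 (.leaf 250 1969 (.leaf 225 1421 .nil)) .nil)) .nil)) .nil)) .nil)) .nil)) .nil))) .nil)) .nil)) .nil)) .nil)) .nil)))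
noncomputable def t126 : T := .cons 199 (.leaf 175 1407 (.cons 201 (.leaf 177 1413 (.cons 273 (.leaf 297 1604 (.cons 198 (.cons 226 (.leaf 225 1584 (.cons 173 (.leaf 174 1387 (.cons 202 (.leaf 227 1592 (.cons 222 (.leaf 221 1578 (.leaf 223 1586 .nil)) .nil)) .nil)) .nil)) (.cons 222 (.leaf 221 1578 (.cons 173 (.leaf 174 1387 (.cons 172 (.leaf 197 1379 (.cons 202 (.leaf 223 1586 (.cons 179 (.leaf 178 1401 (.cons 203 (.leaf 180 1409 (.cons 227 (.leaf 226 1592 (.leaf 228 1600 .nil)) .nil)) .nil)) .nil)) .nil)) .nil)) .nil)) (.cons 197 (.leaf 225 1576 (.cons 173 (.leaf 172 1379 (.leaf 174 1387 .nil)) .nil)) (.cons 225 (.leaf 197 1576 (.leaf 226 1584 .nil)) .nil)))) .nil)) .nil)) .nil)) (.cons 271 (.leaf 295 1598 (.cons 273 (.leaf 297 1604 (.cons 201 (.leaf 177 1413 (.cons 270 (.cons 249 (.leaf 269 1961 (.leaf 250 1969 .nil)) (.cons 245 (.leaf 246 1963 (.cons 269 (.leaf 244 1955 (.cons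 293 (.leaf 292 2146 (.leaf 294 2154 .nil)) .nil)) .nil)) (.cons 249 (.leaf 250 1969 (.cons 246 (.leaf 245 1963 (.cons 294 (.leaf 293 2154 (.cons 223 (.cons 222 (.leaf 221 1768 (.cons 202 (.leaf 203 1594 (.leaf 225 1585 .nil)) .nil)) (.cons 318 (.leaf 247 1781 (.cons 202 (.leaf 203 1594 (.cons 341 (.leaf 317 1966 (.cons 342 (.leaf 365 2158 (.cons 343 (.leaf 319 1972 (.leaf 367 2164 .nil)) .nil)) .nil)) .nil)) .nil)) (.cons 221 (.leaf 222 1768 (.cons 318 (.leaf 247 1781 (.cons 341 (.leaf 317 1966 (.cons 342 (.leaf 365 2158 (.cons 343 (.leaf 319 1972 (.leaf 367 2164 .nil)) .nil)) .nil)) .nil)) .nil)) .nil))) .nil)) .nil)) .nil)) .nil))) .nil)) .nil)) .nil)) (.cons 271 (.leaf 295 1598 (.cons 273 (.leaf 297 1604 (.cons 199 (.leaf 175 1407 (.cons 270 (.cons 249 (.leaf 269 1961 (.leaf 250 1969 .nil)) (.cons 245 (.leaf 246 1963 (.cons 269 (.leaf 244 1955 (.cons 293 (.leaf 292 2146 (.leaf 294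 2154 .nil)) .nil)) .nil)) (.cons 246 (.leaf 245 1963 (.cons 249 (.leaf 250 1969 (.cons 294 (.leaf 293 2154 (.cons 223 (.leaf 247 1590 (.leaf 222 1589 .nil)) .nil)) .nil)) .nil)) .nil))) .nil)) .nil)) .nil)) (.cons 199 (.leaf 175 1407 (.cons 201 (.leaf 177 1413 (.cons 271 (.leaf 295 1598 (.cons 198 (.cons 173 (.leaf 174 1387 (.cons 172 (.leaf 197 1379 (.cons 222 (.leaf 221 1578 (.cons 202 (.leaf 223 1586 (.cons 179 (.leaf 178 1401 (.cons 203 (.leaf 180 1409 (.cons 226 (.leaf 225 1584 (.leaf 227 1592 .nil)) .nil)) .nil)) .nil)) .nil)) .nil)) .nil)) (.cons 222 (.leaf 221 1578 (.cons 173 (.leaf 174 1387 (.cons 172 (.leaf 197 1379 (.cons 202 (.leaf 223 1586 (.cons 179 (.leaf 178 1401 (.cons 203 (.leaf 180 1409 (.cons 227 (.leaf 226 1592 (.leaf 228 1600 .nil)) .nil)) .nil)) .nil)) .nil)) .nil)) .nil)) (.cons 173 (.leaf 174 1387 (.cons 197 (.leaf 172 1379 (.leaf 225 1576 .nil)) .nil)) (.cons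 226 (.leaf 225 1584 (.cons 173 (.leaf 174 1387 (.cons 202 (.leaf 227 1592 (.cons 222 (.leaf 221 1578 (.leaf 223 1586 .nil)) .nil)) .nil)) .nil)) (.cons 225 (.leaf 197 1576 (.leaf 226 1584 .nil)) .nil))))) .nil)) .nil)) .nil)) (.cons 271 (.leaf 295 1598 (.cons 273 (.leaf 297 1604 (.cons 201 (.leaf 177 1413 (.cons 199 (.leaf 175 1407 (.cons 198 (.cons 225 (.leaf 197 1576 (.leaf 226 1584 .nil)) (.cons 173 (.leaf 174 1387 (.cons 197 (.leaf 172 1379 (.cons 221 (.leaf 220 1570 (.leaf 222 1578 .nil)) .nil)) .nil)) (.cons 173 (.leaf 174 1387 (.cons 221 (.leaf 222 1578 (.cons 226 (.leaf 225 1584 (.cons 202 (.leaf 227 1592 (.cons 178 (.leaf 179 1401 (.cons 250 (.leaf 251 1428 (.leaf 249 1422 .nil)) .nil)) .nil)) .nil)) .nil)) .nil)) .nil))) .nil)) .nil)) .nil)) .nil)) (.cons 199 (.leaf 175 1407 (.cons 201 (.leaf 177 1413 (.cons 271 (.leaf 295 1598 (.cons 273 (.leaf 297 1604 (.cons 270 (.cons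 249 (.leaf 269 1961 (.leaf 250 1969 .nil)) (.cons 245 (.leaf 246 1963 (.cons 269 (.leaf 244 1955 (.cons 293 (.leaf 292 2146 (.leaf 294 2154 .nil)) .nil)) .nil)) (.cons 245 (.leaf 246 1963 (.cons 294 (.leaf 293 2154 (.cons 223 (.leaf 247 1590 (.cons 202 (.leaf 203 1594 (.cons 178 (.leaf 179 1401 (.cons 249 (.leaf 250 1969 (.leaf 225 1421 .nil)) .nil)) .nil)) .nil)) .nil)) .nil)) .nil))) .nil)) .nil)) .nil)) .nil)) .nil)))))
noncomputable def t127 : T := .cons 271 (.leaf 295 1598 (.cons 176 (.leaf 247 1406 (.cons 177 (.leaf 201 1413 (.leaf 153 1221 .nil)) .nil)) .nil)) (.cons 175 (.leaf 199 1407 (.cons 176 (.leaf 151 1215 (.cons 177 (.leaf 201 1413 (.leaf 153 1221 .nil)) .nil)) .nil)) (.cons 271 (.leaf 295 1598 (.cons 175 (.leaf 199 1407 (.cons 176 (.leaf 151 1215 (.leaf 247 1406 .nil)) .nil)) .nil)) (.cons 199 (.leaf 175 1407 (.cons 201 (.leaf 177 1413 (.cons 271 (.leaf 295 1598 (.cons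 198 (.cons 173 (.leaf 174 1387 (.cons 172 (.leaf 197 1379 (.cons 222 (.leaf 221 1578 (.cons 202 (.leaf 223 1586 (.cons 179 (.leaf 178 1401 (.cons 203 (.leaf 180 1409 (.cons 226 (.leaf 225 1584 (.leaf 227 1592 .nil)) .nil)) .nil)) .nil)) .nil)) .nil)) .nil)) (.cons 173 (.leaf 174 1387 (.cons 172 (.leaf 197 1379 (.cons 222 (.leaf 221 1578 (.cons 202 (.leaf 223 1586 (.cons 179 (.leaf 178 1401 (.cons 203 (.leaf 180 1409 (.cons 227 (.leaf 226 1592 (.leaf 228 1600 .nil)) .nil)) .nil)) .nil)) .nil)) .nil)) .nil)) (.cons 173 (.leaf 174 1387 (.cons 197 (.leaf 172 1379 (.leaf 225 1576 .nil)) .nil)) (.cons 173 (.leaf 174 1387 (.cons 221 (.leaf 222 1578 (.cons 226 (.leaf 225 1584 (.cons 202 (.leaf 227 1592 (.cons 179 (.leaf 178 1401 (.cons 203 (.leaf 180 1409 (.leaf 223 1594 .nil)) .nil)) .nil)) .nil)) .nil)) .nil)) (.cons 225 (.leaf 197 1576 (.leaf 226 1584 .nil)) .nil))))) .nil)) .nil)) .nil))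 .nil)))
noncomputable def t128 : T := .cons 271 (.leaf 295 1598 (.cons 273 (.leaf 297 1604 (.cons 199 (.leaf 175 1407 (.cons 270 (.cons 249 (.leaf 269 1961 (.leaf 250 1969 .nil)) (.cons 245 (.leaf 246 1963 (.cons 269 (.leaf 244 1955 (.cons 247 (.leaf 176 1406 (.leaf 268 1953 .nil)) .nil)) .nil)) (.cons 246 (.leaf 245 1963 (.cons 249 (.leaf 250 1969 (.leaf 176 1412 .nil)) .nil)) .nil))) .nil)) .nil)) .nil)) (.cons 273 (.leaf 297 1604 (.cons 175 (.leaf 199 1407 (.cons 176 (.leaf 151 1215 (.leaf 249 1412 .nil)) .nil)) .nil)) (.cons 271 (.leaf 295 1598 (.cons 175 (.leaf 199 1407 (.cons 176 (.leaf 151 1215 (.leaf 247 1406 .nil)) .nil)) .nil)) (.cons 271 (.leaf 295 1598 (.cons 176 (.leaf 247 1406 (.cons 273 (.leaf 297 1604 (.leaf 249 1412 .nil)) .nil)) .nil)) (.cons 271 (.leaf 295 1598 (.cons 273 (.leaf 297 1604 (.cons 199 (.leaf 175 1407 (.cons 270 (.cons 249 (.leaf 269 1961 (.leaf 250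 1969 .nil)) (.cons 245 (.leaf 246 1963 (.cons 269 (.leaf 244 1955 (.cons 293 (.leaf 292 2146 (.leaf 294 2154 .nil)) .nil)) .nil)) (.cons 246 (.leaf 245 1963 (.cons 249 (.leaf 250 1969 (.cons 294 (.leaf 293 2154 (.cons 223 (.leaf 247 1590 (.leaf 222 1589 .nil)) .nil)) .nil)) .nil)) .nil))) .nil)) .nil)) .nil)) .nil))))
noncomputable def t129 : T := .cons 271 (.leaf 295 1598 (.cons 273 (.leaf 297 1604 (.cons 201 (.leaf 177 1413 (.cons 270 (.cons 249 (.leaf 269 1961 (.leaf 250 1969 .nil)) (.cons 245 (.leaf 246 1963 (.cons 269 (.leaf 244 1955 (.cons 293 (.leaf 292 2146 (.leaf 294 2154 .nil)) .nil)) .nil)) (.cons 249 (.leaf 250 1969 (.leaf 176 1412 .nil)) .nil))) .nil)) .nil)) .nil)) (.cons 273 (.leaf 297 1604 (.cons 176 (.leaf 249 1412 (.cons 177 (.leaf 201 1413 (.leaf 153 1221 .nil)) .nil)) .nil)) (.cons 271 (.leaf 295 1598 (.cons 176 (.leaf 247 1406 (.cons 177 (.leaf 201 1413 (.leaf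 153 1221 .nil)) .nil)) .nil)) (.cons 271 (.leaf 295 1598 (.cons 176 (.leaf 247 1406 (.cons 273 (.leaf 297 1604 (.leaf 249 1412 .nil)) .nil)) .nil)) (.cons 271 (.leaf 295 1598 (.cons 273 (.leaf 297 1604 (.cons 201 (.leaf 177 1413 (.cons 270 (.cons 249 (.leaf 269 1961 (.leaf 250 1969 .nil)) (.cons 245 (.leaf 246 1963 (.cons 269 (.leaf 244 1955 (.cons 293 (.leaf 292 2146 (.leaf 294 2154 .nil)) .nil)) .nil)) (.cons 249 (.leaf 250 1969 (.cons 246 (.leaf 245 1963 (.cons 294 (.leaf 293 2154 (.cons 223 (.cons 247 (.leaf 318 1781 (.cons 222 (.leaf 221 1768 (.cons 225 (.leaf 226 1777 (.leaf 202 1585 .nil)) .nil)) .nil)) (.cons 318 (.leaf 247 1781 (.cons 202 (.leaf 203 1594 (.cons 341 (.leaf 317 1966 (.cons 342 (.leaf 365 2158 (.cons 343 (.leaf 319 1972 (.leaf 367 2164 .nil)) .nil)) .nil)) .nil)) .nil)) (.cons 222 (.leaf 221 1768 (.cons 202 (.leaf 203 1594 (.leaf 225 1585 .nil)) .nil)) (.cons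 221 (.leaf 222 1768 (.cons 318 (.leaf 247 1781 (.cons 341 (.leaf 317 1966 (.cons 342 (.leaf 365 2158 (.cons 343 (.leaf 319 1972 (.leaf 367 2164 .nil)) .nil)) .nil)) .nil)) .nil)) .nil)))) .nil)) .nil)) .nil)) .nil))) .nil)) .nil)) .nil)) .nil))))
noncomputable def t130 : T := .cons 273 (.leaf 297 1604 (.cons 175 (.leaf 199 1407 (.cons 176 (.leaf 151 1215 (.leaf 249 1412 .nil)) .nil)) .nil)) (.cons 273 (.leaf 297 1604 (.cons 176 (.leaf 249 1412 (.cons 177 (.leaf 201 1413 (.leaf 153 1221 .nil)) .nil)) .nil)) (.cons 175 (.leaf 199 1407 (.cons 176 (.leaf 151 1215 (.cons 177 (.leaf 201 1413 (.leaf 153 1221 .nil)) .nil)) .nil)) (.cons 199 (.leaf 175 1407 (.cons 201 (.leaf 177 1413 (.cons 273 (.leaf 297 1604 (.cons 198 (.cons 173 (.leaf 174 1387 (.cons 225 (.leaf 197 1576 (.leaf 226 1584 .nil)) .nil)) (.cons 222 (.leaf 221 1578 (.cons 173 (.leaf 174 1387 (.cons 172 (.leaf 197 1379 (.cons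 202 (.leaf 223 1586 (.cons 179 (.leaf 178 1401 (.cons 203 (.leaf 180 1409 (.cons 227 (.leaf 226 1592 (.leaf 228 1600 .nil)) .nil)) .nil)) .nil)) .nil)) .nil)) .nil)) (.cons 226 (.leaf 225 1584 (.cons 173 (.leaf 174 1387 (.cons 202 (.leaf 227 1592 (.cons 222 (.leaf 221 1578 (.leaf 223 1586 .nil)) .nil)) .nil)) .nil)) (.cons 197 (.leaf 225 1576 (.cons 173 (.leaf 172 1379 (.leaf 174 1387 .nil)) .nil)) (.cons 225 (.leaf 197 1576 (.leaf 226 1584 .nil)) .nil))))) .nil)) .nil)) .nil)) .nil)))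
noncomputable def t131 : T := .cons 270 (.leaf 269 1962 (.cons 271 (.leaf 250 1970 (.cons 223 (.cons 199 (.leaf 175 1404 (.leaf 176 1405 .nil)) (.cons 294 (.leaf 318 1781 (.cons 293 (.leaf 273 2154 (.cons 292 (.leaf 295 2145 (.leaf 291 2137 .nil)) .nil)) .nil)) .nil)) .nil)) .nil)) (.cons 222 (.leaf 221 1771 (.cons 223 (.leaf 250 1779 (.cons 199 (.leaf 175 1404 (.cons 201 (.leaf 202 1586 (.cons 271 (.leaf 176 1405 (.cons 198 (.leaf 174 1396 (.leaf 295 1591 .nil)) .nil)) .nil)) .nil)) .nil)) .nil)) (.cons 222 (.leaf 221 1771 (.cons 223 (.leaf 250 1779 (.cons 199 (.leaf 175 1404 (.cons 270 (.leaf 269 1962 (.leaf 294 1589 .nil)) .nil)) .nil)) .nil)) (.cons 270 (.leaf 269 1962 (.cons 222 (.leaf 221 1771 (.cons 198 (.cons 173 (.leaf 197 1391 (.cons 174 (.leaf 271 1396 (.leaf 149 1199 .nil)) .nil)) (.cons 173 (.leaf 197 1391 (.cons 174 (.leaf 149 1199 (.cons 175 (.leaf 151 1205 (.leaf 199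 1397 .nil)) .nil)) .nil)) (.cons 173 (.leaf 197 1391 (.cons 175 (.leaf 199 1397 (.cons 295 (.leaf 271 1588 (.cons 294 (.leaf 319 1780 (.cons 317 (.leaf 293 1774 (.cons 318 (.leaf 223 1781 (.leaf 341 1966 .nil)) .nil)) .nil)) .nil)) .nil)) .nil)) (.cons 271 (.leaf 174 1396 (.leaf 295 1588 .nil)) .nil)))) .nil)) .nil)) (.cons 270 (.leaf 269 1962 (.cons 222 (.leaf 221 1771 (.cons 271 (.leaf 250 1970 (.cons 198 (.leaf 174 1396 (.leaf 295 1588 .nil)) .nil)) .nil)) .nil)) .nil))))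
noncomputable def t132 : T := .cons 245 (.leaf 273 1960 (.cons 244 (.leaf 271 1952 (.cons 268 (.leaf 269 1954 (.leaf 267 1946 .nil)) .nil)) .nil)) (.cons 249 t131 (.cons 245 (.cons 244 (.leaf 271 1952 (.cons 268 (.leaf 269 1954 (.leaf 267 1946 .nil)) .nil)) (.cons 221 (.leaf 220 1763 (.cons 222 (.leaf 249 1771 (.cons 269 (.leaf 268 1954 (.cons 198 (.leaf 174 1390 (.leaf 293 1581 .nil)) .nil)) .nil)) .nil)) (.cons 220 (.leaf 221 1763 (.cons 244 (.leaf 271 1952 (.leaf 219 1755 .nil)) .nil)) .nil))) (.cons 245 (.leaf 273 1960 (.cons 221 (.leaf 220 1763 (.cons 222 (.leaf 249 1771 (.cons 198 (.cons 174 (.leaf 269 1390 (.leaf 150 1198 .nil)) (.cons 174 (.leaf 150 1198 (.cons 151 (.leaf 175 1205 (.cons 173 (.leaf 149 1199 (.cons 197 (.leaf 270 1388 (.cons 172 (.leaf 199 1379 (.leaf 148 1191 .nil)) .nil)) .nil)) .nil)) .nil)) (.cons 199 (.leaf 201 1578 (.cons 175 (.leaf 223 1404 (.leaf 270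 1397 .nil)) .nil)) .nil))) .nil)) .nil)) .nil)) (.cons 245 (.leaf 273 1960 (.cons 220 (.leaf 221 1763 (.cons 244 (.leaf 271 1952 (.leaf 219 1755 .nil)) .nil)) .nil)) .nil))))
noncomputable def t133 : T := .cons 225 (.leaf 226 1777 (.cons 177 (.leaf 201 1414 (.cons 269 (.leaf 270 1962 (.cons 245 (.leaf 268 1954 (.cons 220 (.leaf 221 1763 (.cons 244 (.leaf 271 1952 (.leaf 219 1755 .nil)) .nil)) .nil)) .nil)) .nil)) .nil)) (.cons 222 (.leaf 221 1771 (.cons 223 (.leaf 250 1779 (.cons 199 (.leaf 175 1404 (.cons 176 (.leaf 271 1405 (.cons 128 (.leaf 152 1022 (.cons 201 (.leaf 202 1586 (.cons 225 (.leaf 177 1414 (.leaf 226 1777 .nil)) .nil)) .nil)) .nil)) .nil)) .nil)) .nil)) (.cons 225 (.leaf 226 1777 (.cons 177 (.leaf 201 1414 (.cons 269 (.leaf 270 1962 (.cons 245 (.leaf 268 1954 (.cons 271 (.leaf 244 1952 (.cons 250 (.leaf 251 1978 (.cons 223 (.leaf 222 1779 (.cons 199 (.leaf 175 1404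 (.leaf 176 1405 .nil)) .nil)) .nil)) .nil)) .nil)) .nil)) .nil)) .nil)) (.cons 270 (.leaf 269 1962 (.cons 221 (.leaf 222 1771 (.cons 245 (.leaf 220 1763 (.cons 271 (.leaf 244 1952 (.leaf 250 1970 .nil)) .nil)) .nil)) .nil)) (.cons 222 (.leaf 221 1771 (.cons 223 (.leaf 250 1779 (.cons 199 (.leaf 175 1404 (.cons 270 (.leaf 269 1962 (.leaf 294 1589 .nil)) .nil)) .nil)) .nil)) .nil))))
noncomputable def t134 : T := .cons 222 (.leaf 221 1771 (.cons 223 (.leaf 250 1779 (.cons 199 (.leaf 175 1404 (.cons 176 (.leaf 271 1405 (.cons 128 (.leaf 152 1022 (.cons 201 (.leaf 202 1586 (.cons 225 (.leaf 177 1414 (.leaf 226 1777 .nil)) .nil)) .nil)) .nil)) .nil)) .nil)) .nil)) (.cons 225 (.leaf 226 1777 (.cons 201 (.leaf 177 1414 (.cons 270 (.leaf 269 1962 (.cons 271 (.leaf 250 1970 (.cons 273 (.leaf 176 1415 (.cons 178 (.leaf 202 1421 (.cons 294 (.leaf 293 2154 (.cons 318 (.leaf 223 1781 (.leaf 342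 1973 .nil)) .nil)) .nil)) .nil)) .nil)) .nil)) .nil)) .nil)) (.cons 222 (.leaf 221 1771 (.cons 223 (.leaf 250 1779 (.cons 199 (.leaf 175 1404 (.cons 176 (.leaf 271 1405 (.cons 128 (.leaf 152 1022 (.cons 201 (.leaf 202 1586 (.cons 225 (.leaf 177 1414 (.leaf 273 1415 .nil)) .nil)) .nil)) .nil)) .nil)) .nil)) .nil)) (.cons 222 (.leaf 221 1771 (.cons 223 (.leaf 250 1779 (.cons 199 (.leaf 175 1404 (.cons 270 (.leaf 269 1962 (.leaf 294 1589 .nil)) .nil)) .nil)) .nil)) (.cons 270 (.leaf 269 1962 (.cons 222 (.leaf 221 1771 (.cons 225 (.leaf 226 1777 (.cons 201 (.leaf 177 1414 (.cons 273 (.leaf 176 1415 (.cons 202 (.leaf 178 1421 (.cons 223 (.leaf 199 1586 (.cons 294 (.leaf 318 1781 (.cons 293 (.leaf 271 2154 (.leaf 317 1774 .nil)) .nil)) .nil)) .nil)) .nil)) .nil)) .nil)) .nil)) .nil)) (.cons 221 (.leaf 222 1771 (.cons 226 (.leaf 225 1777 (.cons 250 (.leaf 227 1785 (.cons 270 (.leaf 269 1962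 (.leaf 271 1970 .nil)) .nil)) .nil)) .nil)) .nil)))))
noncomputable def t135 : T := .cons 222 (.leaf 221 1771 (.cons 223 (.leaf 250 1779 (.cons 199 (.leaf 175 1404 (.cons 176 (.leaf 271 1405 (.cons 128 (.leaf 152 1022 (.cons 201 (.leaf 202 1586 (.cons 225 (.leaf 177 1414 (.leaf 273 1415 .nil)) .nil)) .nil)) .nil)) .nil)) .nil)) .nil)) (.cons 270 (.leaf 269 1962 (.cons 271 (.leaf 250 1970 (.cons 223 (.cons 199 (.leaf 175 1404 (.leaf 176 1405 .nil)) (.cons 294 (.leaf 318 1781 (.cons 293 (.leaf 273 2154 (.cons 292 (.leaf 295 2145 (.leaf 291 2137 .nil)) .nil)) .nil)) .nil)) .nil)) .nil)) (.cons 222 (.leaf 221 1771 (.cons 223 (.leaf 250 1779 (.cons 199 (.leaf 175 1404 (.cons 270 (.leaf 269 1962 (.leaf 294 1589 .nil)) .nil)) .nil)) .nil)) (.cons 270 (.leaf 269 1962 (.cons 222 (.leaf 221 1771 (.cons 198 (.cons 173 (.leaf 197 1391 (.cons 174 (.leaf 271 1396 (.leaf 149 1199 .nil)) .nil)) (.cons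 173 (.leaf 197 1391 (.cons 174 (.leaf 149 1199 (.cons 175 (.leaf 151 1205 (.leaf 199 1397 .nil)) .nil)) .nil)) (.cons 173 (.leaf 197 1391 (.cons 175 (.leaf 199 1397 (.cons 295 (.leaf 271 1588 (.cons 294 (.leaf 319 1780 (.cons 317 (.leaf 293 1774 (.cons 318 (.leaf 223 1781 (.leaf 341 1966 .nil)) .nil)) .nil)) .nil)) .nil)) .nil)) (.cons 271 (.leaf 174 1396 (.leaf 295 1588 .nil)) .nil)))) .nil)) .nil)) (.cons 270 (.leaf 269 1962 (.cons 222 (.leaf 221 1771 (.cons 271 (.leaf 250 1970 (.cons 198 (.leaf 174 1396 (.leaf 295 1588 .nil)) .nil)) .nil)) .nil)) .nil))))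
noncomputable def t136 : T := .cons 245 (.leaf 273 1960 (.cons 221 (.leaf 220 1763 (.cons 222 (.leaf 249 1771 (.cons 198 (.cons 174 (.leaf 271 1396 (.leaf 269 1390 .nil)) (.cons 199 (.leaf 201 1578 (.cons 175 (.leaf 223 1404 (.leaf 270 1397 .nil)) .nil)) .nil)) .nil)) .nil)) .nil)) (.cons 249 t135 (.cons 245 (.cons 221 (.leaf 220 1763 (.cons 222 (.leaf 249 1771 (.cons 198 (.cons 174 (.leaf 271 1396 (.leaf 269 1390 .nil)) (.cons 199 (.leaf 201 1578 (.cons 175 (.leaf 223 1404 (.leaf 270 1397 .nil)) .nil)) .nil)) .nil)) .nil)) (.cons 244 (.leaf 271 1952 (.cons 219 (.leaf 220 1755 (.cons 243 (.leaf 218 1747 (.cons 267 (.leaf 268 1946 (.leaf 266 1938 .nil)) .nil)) .nil)) .nil)) (.cons 221 (.leaf 220 1763 (.cons 222 (.leaf 249 1771 (.cons 198 (.cons 174 (.leaf 269 1390 (.leaf 150 1198 .nil)) (.cons 174 (.leaf 150 1198 (.cons 151 (.leaf 175 1205 (.cons 173 (.leaf 149 1199 (.cons 197 (.leaf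 270 1388 (.cons 172 (.leaf 199 1379 (.leaf 148 1191 .nil)) .nil)) .nil)) .nil)) .nil)) (.cons 199 (.leaf 201 1578 (.cons 175 (.leaf 223 1404 (.leaf 270 1397 .nil)) .nil)) .nil))) .nil)) .nil)) (.cons 244 (.leaf 271 1952 (.cons 268 (.leaf 269 1954 (.leaf 267 1946 .nil)) .nil)) .nil)))) (.cons 245 (.leaf 273 1960 (.cons 221 (.leaf 220 1763 (.cons 222 (.leaf 249 1771 (.cons 269 (.leaf 268 1954 (.cons 198 (.leaf 174 1390 (.leaf 293 1581 .nil)) .nil)) .nil)) .nil)) .nil)) (.cons 245 (.leaf 273 1960 (.cons 244 (.leaf 271 1952 (.cons 268 (.leaf 269 1954 (.leaf 267 1946 .nil)) .nil)) .nil)) (.cons 245 (.leaf 273 1960 (.cons 244 (.leaf 271 1952 (.cons 219 (.leaf 220 1755 (.cons 243 (.leaf 218 1747 (.cons 267 (.leaf 268 1946 (.leaf 266 1938 .nil)) .nil)) .nil)) .nil)) .nil)) .nil)))))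
noncomputable def t137 : T := .cons 225 (.leaf 226 1777 (.cons 201 (.leaf 177 1414 (.cons 222 (.leaf 221 1771 (.cons 270 (.leaf 269 1962 (.cons 199 (.cons 175 (.leaf 223 1404 (.leaf 198 1397 .nil)) (.cons 175 (.leaf 198 1397 (.cons 174 (.leaf 202 1395 (.cons 173 (.leaf 172 1376 (.leaf 176 1384 .nil)) .nil)) .nil)) (.cons 223 (.leaf 250 1779 (.leaf 202 1586 .nil)) .nil))) .nil)) .nil)) .nil)) .nil)) (.cons 222 (.leaf 221 1771 (.cons 223 (.leaf 250 1779 (.cons 199 (.leaf 175 1404 (.cons 176 (.leaf 271 1405 (.cons 128 (.leaf 152 1022 (.cons 201 (.leaf 202 1586 (.cons 225 (.leaf 177 1414 (.leaf 226 1777 .nil)) .nil)) .nil)) .nil)) .nil)) .nil)) .nil)) (.cons 270 (.leaf 269 1962 (.cons 225 (.leaf 226 1777 (.cons 201 (.leaf 177 1414 (.cons 271 (.leaf 250 1970 (.cons 273 (.leaf 176 1415 (.cons 178 (.leaf 202 1421 (.cons 294 (.leaf 293 2154 (.cons 318 (.leaf 223 1781 (.leaf 342 1973 .nil))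 .nil)) .nil)) .nil)) .nil)) .nil)) .nil)) .nil)) (.cons 222 (.leaf 221 1771 (.cons 223 (.leaf 250 1779 (.cons 199 (.leaf 175 1404 (.cons 201 (.leaf 202 1586 (.cons 271 (.leaf 176 1405 (.cons 198 (.leaf 174 1396 (.leaf 295 1591 .nil)) .nil)) .nil)) .nil)) .nil)) .nil)) (.cons 270 (.leaf 269 1962 (.cons 222 (.leaf 221 1771 (.cons 225 (.leaf 226 1777 (.cons 201 (.leaf 177 1414 (.cons 199 (.cons 175 (.leaf 223 1404 (.leaf 198 1397 .nil)) (.cons 175 (.leaf 198 1397 (.cons 174 (.leaf 202 1395 (.cons 173 (.leaf 172 1376 (.leaf 176 1384 .nil)) .nil)) .nil)) (.cons 223 (.leaf 202 1586 (.leaf 294 1589 .nil)) .nil))) .nil)) .nil)) .nil)) .nil)) (.cons 270 (.leaf 269 1962 (.cons 222 (.leaf 221 1771 (.cons 225 (.leaf 226 1777 (.cons 177 (.leaf 201 1414 (.cons 271 (.leaf 250 1970 (.cons 295 (.leaf 319 1783 (.leaf 198 1588 .nil)) .nil)) .nil)) .nil)) .nil)) .nil)) (.cons 270 (.leaf 269 1962 (.cons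 222 (.leaf 221 1771 (.cons 250 (.leaf 223 1779 (.leaf 271 1970 .nil)) .nil)) .nil)) .nil))))))
noncomputable def t138 : T := .cons 245 (.leaf 273 1960 (.cons 244 (.leaf 271 1952 (.cons 268 (.leaf 269 1954 (.leaf 267 1946 .nil)) .nil)) .nil)) (.cons 249 t137 (.cons 249 (.cons 221 (.leaf 222 1771 (.cons 245 (.leaf 220 1763 (.cons 244 (.leaf 271 1952 (.cons 268 (.leaf 269 1954 (.leaf 267 1946 .nil)) .nil)) .nil)) .nil)) (.cons 269 (.leaf 270 1962 (.cons 245 (.leaf 268 1954 (.cons 220 (.leaf 221 1763 (.cons 244 (.leaf 271 1952 (.leaf 219 1755 .nil)) .nil)) .nil)) .nil)) (.cons 222 (.leaf 221 1771 (.cons 223 (.leaf 250 1779 (.cons 199 (.leaf 175 1404 (.cons 201 (.leaf 202 1586 (.cons 271 (.leaf 176 1405 (.cons 198 (.leaf 174 1396 (.leaf 295 1591 .nil)) .nil)) .nil)) .nil)) .nil)) .nil)) (.cons 269 (.leaf 270 1962 (.cons 245 (.leaf 268 1954 (.cons 271 (.leaf 244 1952 (.cons 250 (.leaf 251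 1978 (.cons 223 (.leaf 222 1779 (.cons 199 (.leaf 175 1404 (.leaf 176 1405 .nil)) .nil)) .nil)) .nil)) .nil)) .nil)) (.cons 222 (.leaf 221 1771 (.cons 223 (.leaf 250 1779 (.cons 199 (.leaf 175 1404 (.cons 270 (.leaf 269 1962 (.leaf 294 1589 .nil)) .nil)) .nil)) .nil)) .nil))))) (.cons 245 (.leaf 273 1960 (.cons 220 (.leaf 221 1763 (.cons 244 (.leaf 219 1755 (.cons 268 (.leaf 269 1954 (.leaf 267 1946 .nil)) .nil)) .nil)) .nil)) (.cons 245 (.leaf 273 1960 (.cons 220 (.leaf 221 1763 (.cons 244 (.leaf 271 1952 (.leaf 219 1755 .nil)) .nil)) .nil)) .nil))))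
noncomputable def t139 : T := .cons 222 (.leaf 221 1771 (.cons 225 (.leaf 226 1777 (.cons 177 (.leaf 201 1414 (.cons 269 (.leaf 270 1962 (.cons 245 (.leaf 268 1954 (.cons 198 (.leaf 174 1390 (.cons 223 (.leaf 250 1779 (.cons 199 (.leaf 175 1404 (.cons 197 (.leaf 176 1385 (.cons 172 (.leaf 173 1379 (.cons 196 (.leaf 195 1560 (.leaf 171 1371 .nil)) .nil)) .nil)) .nil)) .nil)) .nil)) .nil)) .nil)) .nil)) .nil)) .nil)) (.cons 222 (.leaf 221 1771 (.cons 223 (.leaf 250 1779 (.cons 199 (.leaf 175 1404 (.cons 201 (.leaf 202 1586 (.cons 271 (.leaf 176 1405 (.cons 198 (.leaf 174 1396 (.leaf 295 1591 .nil)) .nil)) .nil)) .nil)) .nil)) .nil)) (.cons 270 (.leaf 269 1962 (.cons 226 (.leaf 225 1777 (.cons 250 (.leaf 227 1785 (.leaf 271 1970 .nil)) .nil)) .nil)) (.cons 222 (.leaf 221 1771 (.cons 225 (.leaf 226 1777 (.cons 177 (.leaf 201 1414 (.cons 269 (.leaf 270 1962 (.cons 245 (.leaf 268 1954 (.cons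 174 (.leaf 198 1390 (.cons 244 (.leaf 271 1952 (.cons 243 (.leaf 223 1753 (.cons 218 (.leaf 219 1747 (.cons 242 (.leaf 217 1739 (.cons 266 (.leaf 267 1938 (.leaf 265 1930 .nil)) .nil)) .nil)) .nil)) .nil)) .nil)) .nil)) .nil)) .nil)) .nil)) .nil)) .nil)))
noncomputable def t140 : T := .cons 222 (.leaf 221 1771 (.cons 223 (.leaf 250 1779 (.cons 199 (.leaf 175 1404 (.cons 176 (.leaf 271 1405 (.cons 128 (.leaf 152 1022 (.cons 201 (.leaf 202 1586 (.cons 225 (.leaf 177 1414 (.leaf 226 1777 .nil)) .nil)) .nil)) .nil)) .nil)) .nil)) .nil)) (.cons 270 (.leaf 269 1962 (.cons 226 (.leaf 225 1777 (.cons 250 (.leaf 227 1785 (.leaf 271 1970 .nil)) .nil)) .nil)) (.cons 222 (.leaf 221 1771 (.cons 223 (.leaf 250 1779 (.cons 199 (.leaf 175 1404 (.cons 176 (.leaf 271 1405 (.cons 128 (.leaf 152 1022 (.cons 201 (.leaf 202 1586 (.cons 225 (.leaf 177 1414 (.leaf 273 1415 .nil)) .nil)) .nil)) .nil)) .nil))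 .nil)) .nil)) (.cons 222 (.leaf 221 1771 (.cons 223 (.leaf 250 1779 (.cons 199 (.leaf 175 1404 (.cons 201 (.leaf 202 1586 (.cons 271 (.leaf 176 1405 (.cons 198 (.leaf 174 1396 (.leaf 295 1591 .nil)) .nil)) .nil)) .nil)) .nil)) .nil)) (.cons 222 (.leaf 221 1771 (.cons 223 (.leaf 250 1779 (.cons 199 (.leaf 175 1404 (.cons 270 (.leaf 269 1962 (.leaf 294 1589 .nil)) .nil)) .nil)) .nil)) (.cons 270 (.leaf 269 1962 (.cons 222 (.leaf 221 1771 (.cons 225 (.leaf 226 1777 (.cons 201 (.leaf 177 1414 (.cons 198 (.cons 173 (.leaf 197 1391 (.cons 174 (.leaf 199 1387 (.leaf 271 1396 .nil)) .nil)) (.cons 173 (.leaf 197 1391 (.cons 174 (.leaf 199 1387 (.leaf 149 1199 .nil)) .nil)) (.cons 176 (.leaf 273 1415 (.cons 128 (.leaf 152 1028 (.cons 173 (.leaf 197 1391 (.cons 174 (.leaf 175 1384 (.leaf 271 1396 .nil)) .nil)) .nil)) .nil)) (.cons 202 (.cons 273 (.leaf 176 1415 (.leaf 178 1421 .nil)) (.cons 175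 (.leaf 199 1397 (.cons 203 (.leaf 176 1403 (.cons 180 (.leaf 179 1409 (.cons 204 (.leaf 181 1417 (.cons 227 (.leaf 251 1437 (.leaf 228 1600 .nil)) .nil)) .nil)) .nil)) .nil)) (.cons 178 (.leaf 273 1421 (.cons 199 (.leaf 179 1401 (.leaf 223 1586 .nil)) .nil)) .nil))) .nil)))) .nil)) .nil)) .nil)) .nil)) .nil)))))
noncomputable def t141 : T := .cons 245 (.leaf 273 1960 (.cons 269 (.leaf 268 1954 (.cons 249 (.leaf 270 1962 (.cons 271 (.leaf 244 1952 (.cons 250 (.leaf 251 1978 (.cons 223 (.leaf 222 1779 (.cons 199 (.leaf 175 1404 (.leaf 176 1405 .nil)) .nil)) .nil)) .nil)) .nil)) .nil)) .nil)) (.cons 249 t140 (.cons 249 t139 (.cons 245 (.leaf 273 1960 (.cons 244 (.leaf 271 1952 (.cons 268 (.leaf 269 1954 (.leaf 267 1946 .nil)) .nil)) .nil)) (.cons 245 (.leaf 273 1960 (.cons 269 (.leaf 268 1954 (.cons 249 (.leaf 270 1962 (.cons 226 (.leaf 225 1777 (.cons 227 (.leaf 250 1785 (.cons 202 (.cons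 251 (.leaf 299 1623 (.cons 178 (.leaf 203 1431 (.leaf 154 1236 .nil)) .nil)) (.cons 201 (.leaf 199 1592 (.cons 228 (.leaf 203 1600 (.leaf 229 1611 .nil)) .nil)) (.cons 201 (.leaf 199 1592 (.cons 251 (.leaf 299 1623 (.cons 178 (.leaf 154 1236 (.cons 228 (.leaf 229 1611 (.cons 180 (.cons 179 (.leaf 177 1410 (.leaf 181 1418 .nil)) (.cons 204 (.leaf 252 1438 (.leaf 156 1246 .nil)) .nil)) .nil)) .nil)) .nil)) .nil)) .nil))) .nil)) .nil)) .nil)) .nil)) .nil)) (.cons 245 (.leaf 273 1960 (.cons 244 (.leaf 271 1952 (.cons 267 (.leaf 268 1946 (.cons 243 (.leaf 266 1938 (.cons 218 (.leaf 219 1747 (.cons 222 (.leaf 223 1753 (.cons 221 (.leaf 249 1771 (.leaf 242 1745 .nil)) .nil)) .nil)) .nil)) .nil)) .nil)) .nil)) .nil)))))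
noncomputable def t142 : T := .cons 270 (.leaf 269 1962 (.cons 222 (.leaf 221 1771 (.cons 225 (.leaf 226 1777 (.cons 201 (.leaf 177 1414 (.cons 199 (.cons 175 (.leaf 223 1404 (.leaf 198 1397 .nil)) (.cons 175 (.leaf 198 1397 (.cons 202 (.leaf 174 1395 (.cons 178 (.leaf 179 1401 (.leaf 273 1421 .nil)) .nil)) .nil)) (.cons 223 (.leaf 250 1779 (.leaf 202 1586 .nil)) .nil))) .nil)) .nil)) .nil)) .nil)) (.cons 222 (.leaf 221 1771 (.cons 226 (.leaf 225 1777 (.cons 250 (.leaf 223 1779 (.leaf 227 1785 .nil)) .nil)) .nil)) (.cons 270 (.leaf 269 1962 (.cons 226 (.leaf 225 1777 (.cons 250 (.leaf 227 1785 (.leaf 271 1970 .nil)) .nil)) .nil)) (.cons 270 (.leaf 269 1962 (.cons 222 (.leaf 221 1771 (.cons 250 (.leaf 223 1779 (.leaf 271 1970 .nil)) .nil)) .nil)) (.cons 270 (.leaf 269 1962 (.cons 222 (.leaf 221 1771 (.cons 225 (.leaf 226 1777 (.cons 201 (.leaf 177 1414 (.cons 199 (.cons 175 (.leaf 223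 1404 (.leaf 198 1397 .nil)) (.cons 175 (.leaf 198 1397 (.cons 202 (.leaf 174 1395 (.cons 178 (.leaf 179 1401 (.leaf 273 1421 .nil)) .nil)) .nil)) (.cons 223 (.leaf 202 1586 (.leaf 294 1589 .nil)) .nil))) .nil)) .nil)) .nil)) .nil)) .nil))))
noncomputable def t143 : T := .cons 245 (.leaf 273 1960 (.cons 220 (.leaf 221 1763 (.cons 244 (.leaf 271 1952 (.leaf 219 1755 .nil)) .nil)) .nil)) (.cons 249 t142 (.cons 249 (.cons 221 (.leaf 222 1771 (.cons 225 (.leaf 226 1777 (.cons 177 (.leaf 201 1414 (.cons 245 (.leaf 220 1763 (.cons 269 (.leaf 268 1954 (.leaf 270 1962 .nil)) .nil)) .nil)) .nil)) .nil)) (.cons 221 (.leaf 222 1771 (.cons 245 (.leaf 220 1763 (.cons 244 (.leaf 271 1952 (.cons 268 (.leaf 269 1954 (.leaf 267 1946 .nil)) .nil)) .nil)) .nil)) (.cons 270 (.leaf 269 1962 (.cons 226 (.leaf 225 1777 (.cons 250 (.leaf 227 1785 (.leaf 271 1970 .nil)) .nil)) .nil)) (.cons 221 (.leaf 222 1771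 (.cons 220 (.leaf 245 1763 (.cons 226 (.leaf 225 1777 (.cons 250 (.leaf 227 1785 (.cons 271 (.leaf 251 1978 (.leaf 270 1970 .nil)) .nil)) .nil)) .nil)) .nil)) .nil)))) (.cons 245 (.leaf 273 1960 (.cons 221 (.leaf 220 1763 (.cons 222 (.leaf 249 1771 (.cons 198 (.cons 174 (.leaf 269 1390 (.leaf 150 1198 .nil)) (.cons 174 (.leaf 150 1198 (.cons 151 (.leaf 175 1205 (.cons 173 (.leaf 149 1199 (.cons 197 (.leaf 270 1388 (.cons 172 (.leaf 199 1379 (.leaf 148 1191 .nil)) .nil)) .nil)) .nil)) .nil)) (.cons 199 (.leaf 201 1578 (.cons 175 (.leaf 223 1404 (.leaf 270 1397 .nil)) .nil)) .nil))) .nil)) .nil)) .nil)) (.cons 245 (.leaf 273 1960 (.cons 244 (.leaf 271 1952 (.cons 268 (.leaf 269 1954 (.leaf 267 1946 .nil)) .nil)) .nil)) .nil))))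
noncomputable def t144 : T := .cons 270 (.leaf 269 1962 (.cons 222 (.leaf 221 1771 (.cons 198 (.cons 173 (.leaf 197 1391 (.cons 174 (.leaf 271 1396 (.leaf 149 1199 .nil)) .nil)) (.cons 173 (.leaf 197 1391 (.cons 174 (.leaf 149 1199 (.cons 175 (.leaf 151 1205 (.leaf 199 1397 .nil)) .nil)) .nil)) (.cons 173 (.leaf 197 1391 (.cons 175 (.leaf 199 1397 (.cons 295 (.leaf 271 1588 (.cons 294 (.leaf 319 1780 (.cons 317 (.leaf 293 1774 (.cons 318 (.leaf 223 1781 (.leaf 341 1966 .nil)) .nil)) .nil)) .nil)) .nil)) .nil)) (.cons 271 (.leaf 174 1396 (.leaf 295 1588 .nil)) .nil)))) .nil)) .nil)) (.cons 225 (.leaf 226 1777 (.cons 201 (.leaf 177 1414 (.cons 222 (.leaf 221 1771 (.cons 273 (.leaf 176 1415 (.cons 202 (.leaf 178 1421 (.cons 199 (.leaf 223 1586 (.cons 174 (.leaf 175 1395 (.cons 198 (.leaf 173 1387 (.leaf 271 1396 .nil)) .nil)) .nil)) .nil)) .nil)) .nil)) .nil)) .nil)) (.cons 270 (.leaf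 269 1962 (.cons 225 (.leaf 226 1777 (.cons 201 (.leaf 177 1414 (.cons 202 (.cons 273 (.leaf 176 1415 (.leaf 178 1421 .nil)) (.cons 175 (.cons 199 (.leaf 223 1404 (.leaf 174 1395 .nil)) (.cons 203 (.leaf 176 1403 (.cons 180 (.leaf 179 1409 (.cons 204 (.leaf 181 1417 (.cons 227 (.leaf 251 1437 (.leaf 228 1600 .nil)) .nil)) .nil)) .nil)) .nil)) (.cons 178 (.leaf 273 1421 (.cons 130 (.leaf 154 1038 (.cons 179 (.leaf 199 1401 (.cons 180 (.leaf 203 1409 (.leaf 181 1418 .nil)) .nil)) .nil)) .nil)) .nil))) .nil)) .nil)) .nil)) (.cons 270 (.leaf 269 1962 (.cons 222 (.leaf 221 1771 (.cons 225 (.leaf 226 1777 (.cons 201 (.leaf 177 1414 (.cons 273 (.leaf 176 1415 (.cons 202 (.leaf 178 1421 (.cons 271 (.cons 198 (.leaf 174 1396 (.leaf 295 1588 .nil)) (.cons 174 (.leaf 198 1396 (.cons 294 (.leaf 293 2154 (.cons 318 (.leaf 223 1781 (.leaf 342 1973 .nil)) .nil)) .nil)) (.cons 294 (.leaf 293 2154 (.cons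 295 (.leaf 319 1780 (.cons 318 (.leaf 223 1781 (.leaf 342 1973 .nil)) .nil)) .nil)) .nil))) .nil)) .nil)) .nil)) .nil)) .nil)) .nil)) (.cons 270 (.leaf 269 1962 (.cons 222 (.leaf 221 1771 (.cons 225 (.leaf 226 1777 (.cons 201 (.leaf 177 1414 (.cons 198 (.cons 173 (.leaf 197 1391 (.cons 174 (.leaf 199 1387 (.leaf 271 1396 .nil)) .nil)) (.cons 173 (.leaf 197 1391 (.cons 174 (.leaf 199 1387 (.leaf 149 1199 .nil)) .nil)) (.cons 202 (.cons 273 (.leaf 176 1415 (.leaf 178 1421 .nil)) (.cons 175 (.leaf 199 1397 (.cons 203 (.leaf 176 1403 (.cons 180 (.leaf 179 1409 (.cons 204 (.leaf 181 1417 (.cons 227 (.leaf 251 1437 (.leaf 228 1600 .nil)) .nil)) .nil)) .nil)) .nil)) (.cons 178 (.leaf 273 1421 (.cons 199 (.leaf 179 1401 (.leaf 175 1397 .nil)) .nil)) .nil))) (.cons 176 (.leaf 273 1415 (.cons 128 (.leaf 152 1028 (.cons 173 (.leaf 197 1391 (.cons 174 (.leaf 175 1384 (.leaf 271 1396 .nil)) .nil))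 .nil)) .nil)) .nil)))) .nil)) .nil)) .nil)) .nil)) (.cons 270 (.leaf 269 1962 (.cons 222 (.leaf 221 1771 (.cons 225 (.leaf 226 1777 (.cons 201 (.leaf 177 1414 (.cons 273 (.leaf 176 1415 (.cons 202 (.leaf 178 1421 (.cons 223 (.leaf 199 1586 (.cons 294 (.leaf 318 1781 (.cons 293 (.leaf 271 2154 (.leaf 317 1774 .nil)) .nil)) .nil)) .nil)) .nil)) .nil)) .nil)) .nil)) .nil)) .nil)))))
noncomputable def t145 : T := .cons 245 (.leaf 273 1960 (.cons 220 (.leaf 221 1763 (.cons 244 (.leaf 271 1952 (.leaf 219 1755 .nil)) .nil)) .nil)) (.cons 249 t144 (.cons 245 (.cons 220 (.leaf 221 1763 (.cons 244 (.leaf 271 1952 (.leaf 219 1755 .nil)) .nil)) (.cons 221 (.leaf 220 1763 (.cons 222 (.leaf 249 1771 (.cons 269 (.leaf 268 1954 (.cons 198 (.leaf 174 1390 (.leaf 293 1581 .nil)) .nil)) .nil)) .nil)) (.cons 244 (.leaf 271 1952 (.cons 268 (.leaf 269 1954 (.leaf 267 1946 .nil)) .nil)) .nil))) (.cons 245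 (.leaf 273 1960 (.cons 221 (.leaf 220 1763 (.cons 222 (.leaf 249 1771 (.cons 198 (.cons 174 (.leaf 269 1390 (.leaf 150 1198 .nil)) (.cons 174 (.leaf 150 1198 (.cons 151 (.leaf 175 1205 (.cons 173 (.leaf 149 1199 (.cons 197 (.leaf 270 1388 (.cons 172 (.leaf 199 1379 (.leaf 148 1191 .nil)) .nil)) .nil)) .nil)) .nil)) (.cons 199 (.leaf 201 1578 (.cons 175 (.leaf 223 1404 (.leaf 270 1397 .nil)) .nil)) .nil))) .nil)) .nil)) .nil)) (.cons 245 (.leaf 273 1960 (.cons 244 (.leaf 271 1952 (.cons 268 (.leaf 269 1954 (.leaf 267 1946 .nil)) .nil)) .nil)) .nil))))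
noncomputable def t146 : T := .cons 249 (.cons 222 (.leaf 221 1771 (.cons 226 (.leaf 225 1777 (.cons 250 (.leaf 223 1779 (.leaf 227 1785 .nil)) .nil)) .nil)) (.cons 245 (.leaf 273 1960 (.cons 269 (.leaf 268 1954 (.leaf 270 1962 .nil)) .nil)) .nil)) (.cons 249 (.cons 222 (.leaf 221 1771 (.cons 226 (.leaf 225 1777 (.cons 250 (.leaf 223 1779 (.leaf 227 1785 .nil)) .nil)) .nil)) (.cons 270 (.leaf 269 1962 (.cons 226 (.leaf 225 1777 (.cons 250 (.leaf 227 1785 (.leaf 271 1970 .nil)) .nil)) .nil)) (.cons 270 (.leaf 269 1962 (.cons 222 (.leaf 221 1771 (.cons 271 (.leaf 250 1970 (.cons 198 (.leaf 174 1396 (.leaf 295 1588 .nil)) .nil)) .nil)) .nil)) (.cons 270 (.leaf 269 1962 (.cons 222 (.leaf 221 1771 (.cons 225 (.leaf 226 1777 (.cons 198 (.cons 173 (.leaf 197 1391 (.cons 174 (.leaf 271 1396 (.leaf 149 1199 .nil)) .nil)) (.cons 173 (.leaf 197 1391 (.cons 174 (.leaf 149 1199 (.cons 175 (.leaf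 151 1205 (.leaf 199 1397 .nil)) .nil)) .nil)) (.cons 173 (.leaf 197 1391 (.cons 199 (.leaf 175 1397 (.cons 223 (.leaf 294 1589 (.cons 271 (.leaf 176 1405 (.leaf 295 1588 .nil)) .nil)) .nil)) .nil)) (.cons 271 (.leaf 174 1396 (.leaf 295 1588 .nil)) .nil)))) .nil)) .nil)) .nil)) .nil)))) (.cons 245 (.leaf 273 1960 (.cons 220 (.leaf 221 1763 (.cons 244 (.leaf 271 1952 (.leaf 219 1755 .nil)) .nil)) .nil)) (.cons 245 (.leaf 273 1960 (.cons 244 (.leaf 271 1952 (.cons 268 (.leaf 269 1954 (.leaf 267 1946 .nil)) .nil)) .nil)) .nil)))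
noncomputable def t147 : T := .cons 225 (.leaf 226 1777 (.cons 201 (.leaf 177 1414 (.cons 223 (.cons 199 (.leaf 175 1404 (.cons 222 (.leaf 250 1779 (.leaf 202 1586 .nil)) .nil)) (.cons 269 (.leaf 270 1962 (.cons 245 (.leaf 268 1954 (.cons 244 (.leaf 271 1952 (.cons 219 (.leaf 220 1755 (.cons 243 (.leaf 218 1747 (.leaf 222 1753 .nil)) .nil)) .nil)) .nil)) .nil)) (.cons 199 (.leaf 175 1404 (.cons 269 (.leaf 270 1962 (.cons 245 (.leaf 268 1954 (.cons 271 (.leaf 244 1952 (.leaf 176 1405 .nil)) .nil)) .nil)) .nil)) .nil))) .nil)) .nil)) (.cons 226 (.leaf 225 1777 (.cons 250 (.leaf 227 1785 (.cons 223 (.leaf 222 1779 (.cons 199 (.leaf 175 1404 (.cons 271 (.leaf 251 1978 (.leaf 176 1405 .nil)) .nil)) .nil)) .nil)) .nil)) (.cons 226 (.leaf 225 1777 (.cons 227 (.leaf 250 1785 (.cons 270 (.leaf 269 1962 (.cons 199 (.cons 223 (.leaf 175 1404 (.cons 202 (.leaf 201 1592 (.cons 251 (.leaf 299 1623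 (.cons 178 (.leaf 203 1431 (.leaf 154 1236 .nil)) .nil)) .nil)) .nil)) (.cons 202 (.leaf 201 1592 (.cons 251 (.leaf 299 1623 (.cons 178 (.leaf 203 1431 (.leaf 154 1236 .nil)) .nil)) .nil)) (.cons 223 (.leaf 175 1404 (.cons 294 (.leaf 318 1781 (.leaf 222 1589 .nil)) .nil)) .nil))) .nil)) .nil)) .nil)) (.cons 269 (.leaf 270 1962 (.cons 245 (.leaf 268 1954 (.cons 271 (.leaf 244 1952 (.cons 250 (.leaf 251 1978 (.cons 223 (.leaf 222 1779 (.cons 199 (.leaf 175 1404 (.leaf 176 1405 .nil)) .nil)) .nil)) .nil)) .nil)) .nil)) (.cons 225 (.leaf 226 1777 (.cons 201 (.leaf 177 1414 (.cons 223 (.cons 199 (.leaf 175 1404 (.cons 222 (.leaf 202 1586 (.cons 271 (.leaf 176 1405 (.cons 270 (.leaf 269 1961 (.leaf 294 1589 .nil)) .nil)) .nil)) .nil)) (.cons 269 (.leaf 270 1962 (.cons 245 (.leaf 268 1954 (.cons 244 (.leaf 271 1952 (.cons 219 (.leaf 220 1755 (.cons 243 (.leaf 218 1747 (.leaf 222 1753 .nil))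 .nil)) .nil)) .nil)) .nil)) (.cons 199 (.leaf 175 1404 (.cons 222 (.leaf 202 1586 (.cons 271 (.leaf 176 1405 (.cons 198 (.leaf 174 1396 (.leaf 295 1591 .nil)) .nil)) .nil)) .nil)) (.cons 199 (.leaf 175 1404 (.cons 222 (.leaf 202 1586 (.cons 270 (.leaf 269 1962 (.leaf 294 1589 .nil)) .nil)) .nil)) (.cons 199 (.leaf 175 1404 (.cons 269 (.leaf 270 1962 (.cons 245 (.leaf 268 1954 (.cons 271 (.leaf 244 1952 (.leaf 176 1405 .nil)) .nil)) .nil)) .nil)) .nil))))) .nil)) .nil)) (.cons 270 (.leaf 269 1962 (.cons 226 (.leaf 225 1777 (.cons 250 (.leaf 227 1785 (.leaf 271 1970 .nil)) .nil)) .nil)) .nil)))))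
noncomputable def t148 : T := .cons 270 (.leaf 269 1962 (.cons 225 (.leaf 226 1777 (.cons 201 (.leaf 177 1414 (.cons 271 (.leaf 250 1970 (.cons 273 (.leaf 176 1415 (.cons 178 (.leaf 202 1421 (.cons 294 (.leaf 293 2154 (.cons 318 (.leaf 223 1781 (.leaf 342 1973 .nil)) .nil)) .nil)) .nil)) .nil)) .nil)) .nil)) .nil)) (.cons 226 (.leaf 225 1777 (.cons 250 (.leaf 227 1785 (.cons 223 (.leaf 222 1779 (.cons 199 (.leaf 175 1404 (.cons 271 (.leaf 251 1978 (.leaf 176 1405 .nil)) .nil)) .nil)) .nil)) .nil)) (.cons 270 (.leaf 269 1962 (.cons 271 (.leaf 250 1970 (.cons 223 (.cons 199 (.leaf 175 1404 (.leaf 176 1405 .nil)) (.cons 294 (.leaf 318 1781 (.cons 293 (.leaf 273 2154 (.cons 292 (.leaf 295 2145 (.leaf 291 2137 .nil)) .nil)) .nil)) .nil)) .nil)) .nil)) (.cons 226 (.leaf 225 1777 (.cons 227 (.leaf 250 1785 (.cons 270 (.leaf 269 1962 (.cons 199 (.cons 223 (.leaf 175 1404 (.cons 202 (.leaf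 201 1592 (.cons 251 (.leaf 299 1623 (.cons 178 (.leaf 203 1431 (.leaf 154 1236 .nil)) .nil)) .nil)) .nil)) (.cons 202 (.leaf 201 1592 (.cons 251 (.leaf 299 1623 (.cons 178 (.leaf 203 1431 (.leaf 154 1236 .nil)) .nil)) .nil)) (.cons 223 (.leaf 175 1404 (.cons 294 (.leaf 318 1781 (.leaf 222 1589 .nil)) .nil)) .nil))) .nil)) .nil)) .nil)) (.cons 270 (.leaf 269 1962 (.cons 225 (.leaf 226 1777 (.cons 201 (.leaf 177 1414 (.cons 202 (.cons 273 (.leaf 176 1415 (.leaf 178 1421 .nil)) (.cons 175 (.cons 199 (.leaf 223 1404 (.leaf 174 1395 .nil)) (.cons 203 (.leaf 176 1403 (.cons 180 (.leaf 179 1409 (.cons 204 (.leaf 181 1417 (.cons 227 (.leaf 251 1437 (.leaf 228 1600 .nil)) .nil)) .nil)) .nil)) .nil)) (.cons 178 (.leaf 273 1421 (.cons 130 (.leaf 154 1038 (.cons 179 (.leaf 199 1401 (.cons 180 (.leaf 203 1409 (.leaf 181 1418 .nil)) .nil)) .nil)) .nil)) .nil))) .nil)) .nil)) .nil)) (.cons 270 (.leaf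 269 1962 (.cons 226 (.leaf 225 1777 (.cons 250 (.leaf 227 1785 (.leaf 271 1970 .nil)) .nil)) .nil)) .nil)))))
noncomputable def t149 : T := .cons 270 (.leaf 269 1962 (.cons 271 (.leaf 250 1970 (.cons 225 (.leaf 226 1777 (.cons 201 (.leaf 177 1414 (.cons 273 (.leaf 176 1415 (.cons 178 (.leaf 202 1421 (.cons 294 (.leaf 293 2154 (.cons 318 (.leaf 223 1781 (.leaf 342 1973 .nil)) .nil)) .nil)) .nil)) .nil)) .nil)) .nil)) .nil)) (.cons 250 (.cons 251 (.leaf 271 1978 (.cons 228 (.leaf 227 1793 (.cons 252 (.leaf 273 1986 (.leaf 229 1801 .nil)) .nil)) .nil)) (.cons 226 (.leaf 225 1777 (.leaf 227 1785 .nil)) (.cons 225 (.leaf 226 1777 (.cons 201 (.leaf 177 1414 (.cons 251 (.leaf 271 1978 (.cons 273 (.leaf 252 1986 (.leaf 176 1415 .nil)) .nil)) .nil)) .nil)) .nil))) (.cons 270 (.leaf 269 1962 (.cons 271 (.leaf 250 1970 (.cons 223 (.cons 199 (.leaf 175 1404 (.leaf 176 1405 .nil)) (.cons 294 (.leaf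 318 1781 (.cons 293 (.leaf 273 2154 (.cons 292 (.leaf 295 2145 (.leaf 291 2137 .nil)) .nil)) .nil)) .nil)) .nil)) .nil)) (.cons 225 (.leaf 226 1777 (.cons 201 (.leaf 177 1414 (.cons 270 (.leaf 269 1962 (.cons 202 (.cons 273 (.leaf 176 1415 (.leaf 178 1421 .nil)) (.cons 175 (.cons 199 (.leaf 223 1404 (.leaf 174 1395 .nil)) (.cons 203 (.leaf 176 1403 (.cons 180 (.leaf 179 1409 (.cons 204 (.leaf 181 1417 (.cons 227 (.leaf 251 1437 (.leaf 228 1600 .nil)) .nil)) .nil)) .nil)) .nil)) (.cons 178 (.leaf 273 1421 (.cons 130 (.leaf 154 1038 (.cons 179 (.leaf 199 1401 (.cons 180 (.leaf 203 1409 (.leaf 181 1418 .nil)) .nil)) .nil)) .nil)) .nil))) .nil)) .nil)) .nil)) (.cons 270 (.leaf 269 1962 (.cons 226 (.leaf 225 1777 (.cons 250 (.leaf 227 1785 (.leaf 271 1970 .nil)) .nil)) .nil)) .nil))))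
noncomputable def t150 : T := .cons 222 (.leaf 221 1771 (.cons 223 (.leaf 250 1779 (.cons 199 (.leaf 175 1404 (.cons 201 (.leaf 202 1586 (.cons 271 (.leaf 176 1405 (.cons 198 (.leaf 174 1396 (.leaf 295 1591 .nil)) .nil)) .nil)) .nil)) .nil)) .nil)) (.cons 226 (.leaf 225 1777 (.cons 250 (.leaf 227 1785 (.cons 271 (.leaf 251 1978 (.leaf 270 1970 .nil)) .nil)) .nil)) (.cons 222 (.leaf 221 1771 (.cons 226 (.leaf 225 1777 (.cons 250 (.leaf 223 1779 (.leaf 227 1785 .nil)) .nil)) .nil)) (.cons 225 (.leaf 226 1777 (.cons 201 (.leaf 177 1414 (.cons 245 (.cons 244 (.leaf 271 1952 (.cons 219 (.leaf 220 1755 (.cons 221 (.leaf 222 1771 (.cons 243 (.leaf 218 1747 (.cons 267 (.leaf 268 1946 (.leaf 266 1938 .nil)) .nil)) .nil)) .nil)) .nil)) (.cons 244 (.leaf 271 1952 (.cons 219 (.leaf 220 1755 (.cons 243 (.leaf 218 1747 (.cons 267 (.leaf 268 1946 (.leaf 266 1938 .nil)) .nil)) .nil)) .nil)) (.cons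 221 (.leaf 220 1763 (.leaf 222 1771 .nil)) (.cons 222 (.leaf 221 1771 (.cons 244 (.leaf 271 1952 (.cons 223 (.leaf 243 1753 (.cons 199 (.leaf 175 1404 (.leaf 202 1586 .nil)) .nil)) .nil)) .nil)) .nil)))) .nil)) .nil)) .nil)))
noncomputable def t151 : T := .cons 222 (.leaf 221 1771 (.cons 223 (.leaf 250 1779 (.cons 199 (.leaf 175 1404 (.cons 176 (.leaf 271 1405 (.cons 128 (.leaf 152 1022 (.cons 201 (.leaf 202 1586 (.cons 225 (.leaf 177 1414 (.leaf 226 1777 .nil)) .nil)) .nil)) .nil)) .nil)) .nil)) .nil)) (.cons 226 (.leaf 225 1777 (.cons 250 (.leaf 227 1785 (.cons 271 (.leaf 251 1978 (.leaf 270 1970 .nil)) .nil)) .nil)) (.cons 222 (.leaf 221 1771 (.cons 223 (.leaf 250 1779 (.cons 199 (.leaf 175 1404 (.cons 176 (.leaf 271 1405 (.cons 128 (.leaf 152 1022 (.cons 201 (.leaf 202 1586 (.cons 225 (.leaf 177 1414 (.leaf 273 1415 .nil)) .nil)) .nil)) .nil)) .nil)) .nil)) .nil)) (.cons 222 (.leaf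 221 1771 (.cons 223 (.leaf 250 1779 (.cons 199 (.leaf 175 1404 (.cons 201 (.leaf 202 1586 (.cons 271 (.leaf 176 1405 (.cons 198 (.leaf 174 1396 (.leaf 295 1591 .nil)) .nil)) .nil)) .nil)) .nil)) .nil)) (.cons 225 (.leaf 226 1777 (.cons 201 (.leaf 177 1414 (.cons 222 (.leaf 221 1771 (.cons 273 (.leaf 176 1415 (.cons 202 (.leaf 178 1421 (.cons 199 (.leaf 223 1586 (.cons 174 (.leaf 175 1395 (.cons 198 (.leaf 173 1387 (.leaf 271 1396 .nil)) .nil)) .nil)) .nil)) .nil)) .nil)) .nil)) .nil)) (.cons 222 (.leaf 221 1771 (.cons 226 (.leaf 225 1777 (.cons 250 (.leaf 223 1779 (.leaf 227 1785 .nil)) .nil)) .nil)) .nil)))))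
noncomputable def t152 : T := .cons 245 (.leaf 273 1960 (.cons 244 (.leaf 271 1952 (.cons 219 (.leaf 220 1755 (.cons 243 (.leaf 218 1747 (.cons 267 (.leaf 268 1946 (.leaf 266 1938 .nil)) .nil)) .nil)) .nil)) .nil)) (.cons 249 t151 (.cons 249 t150 (.cons 245 (.leaf 273 1960 (.cons 221 (.leaf 220 1763 (.cons 222 (.leaf 249 1771 (.cons 198 (.cons 199 (.leaf 201 1578 (.cons 174 (.leaf 150 1198 (.cons 173 (.leaf 149 1199 (.cons 197 (.leaf 172 1379 (.leaf 270 1388 .nil)) .nil)) .nil)) .nil)) (.cons 174 (.leaf 150 1198 (.cons 151 (.leaf 175 1205 (.cons 173 (.leaf 149 1199 (.cons 197 (.leaf 270 1388 (.cons 172 (.leaf 148 1191 (.cons 171 (.leaf 170 1360 (.cons 244 (.leaf 268 1382 (.cons 243 (.leaf 223 1753 (.leaf 242 1745 .nil)) .nil)) .nil)) .nil)) .nil)) .nil)) .nil)) .nil)) (.cons 199 (.leaf 201 1578 (.cons 175 (.leaf 223 1404 (.leaf 270 1397 .nil)) .nil)) (.cons 174 (.leaf 150 1198 (.cons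 149 (.leaf 173 1199 (.cons 175 (.leaf 151 1205 (.cons 199 (.leaf 223 1404 (.leaf 201 1578 .nil)) .nil)) .nil)) .nil)) .nil)))) .nil)) .nil)) .nil)) .nil)))
noncomputable def t153 : T := .cons 222 (.leaf 221 1771 (.cons 223 (.leaf 250 1779 (.cons 199 (.leaf 175 1404 (.cons 176 (.leaf 271 1405 (.cons 128 (.leaf 152 1022 (.cons 201 (.leaf 202 1586 (.cons 225 (.leaf 177 1414 (.leaf 226 1777 .nil)) .nil)) .nil)) .nil)) .nil)) .nil)) .nil)) (.cons 250 (.cons 251 (.leaf 271 1978 (.cons 228 (.leaf 227 1793 (.cons 252 (.leaf 273 1986 (.leaf 229 1801 .nil)) .nil)) .nil)) (.cons 226 (.leaf 225 1777 (.leaf 227 1785 .nil)) (.cons 225 (.leaf 226 1777 (.cons 201 (.leaf 177 1414 (.cons 251 (.leaf 271 1978 (.cons 273 (.leaf 252 1986 (.leaf 176 1415 .nil)) .nil)) .nil)) .nil)) .nil))) (.cons 222 (.leaf 221 1771 (.cons 223 (.leaf 250 1779 (.cons 199 (.leaf 175 1404 (.cons 176 (.leaf 271 1405 (.cons 128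 (.leaf 152 1022 (.cons 201 (.leaf 202 1586 (.cons 225 (.leaf 177 1414 (.leaf 273 1415 .nil)) .nil)) .nil)) .nil)) .nil)) .nil)) .nil)) (.cons 222 (.leaf 221 1771 (.cons 223 (.leaf 250 1779 (.cons 199 (.leaf 175 1404 (.cons 201 (.leaf 202 1586 (.cons 271 (.leaf 176 1405 (.cons 198 (.leaf 174 1396 (.leaf 295 1591 .nil)) .nil)) .nil)) .nil)) .nil)) .nil)) (.cons 225 (.leaf 226 1777 (.cons 201 (.leaf 177 1414 (.cons 222 (.leaf 221 1771 (.cons 273 (.leaf 176 1415 (.cons 202 (.leaf 178 1421 (.cons 199 (.leaf 223 1586 (.cons 174 (.leaf 175 1395 (.cons 198 (.leaf 173 1387 (.leaf 271 1396 .nil)) .nil)) .nil)) .nil)) .nil)) .nil)) .nil)) .nil)) (.cons 222 (.leaf 221 1771 (.cons 226 (.leaf 225 1777 (.cons 250 (.leaf 223 1779 (.leaf 227 1785 .nil)) .nil)) .nil)) .nil)))))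
noncomputable def t154 : T := .cons 226 (.leaf 225 1777 (.cons 250 (.leaf 227 1785 (.cons 271 (.leaf 251 1978 (.leaf 270 1970 .nil)) .nil)) .nil)) (.cons 225 (.leaf 226 1777 (.cons 201 (.leaf 177 1414 (.cons 176 (.leaf 273 1415 (.cons 222 (.leaf 221 1771 (.cons 174 (.cons 198 (.leaf 271 1396 (.cons 173 (.leaf 175 1384 (.leaf 199 1387 .nil)) .nil)) (.cons 198 (.leaf 271 1396 (.cons 173 (.leaf 199 1387 (.leaf 149 1199 .nil)) .nil)) (.cons 175 (.leaf 173 1384 (.cons 202 (.leaf 199 1395 (.leaf 203 1403 .nil)) .nil)) (.cons 198 (.leaf 271 1396 (.cons 151 (.leaf 175 1205 (.cons 150 (.leaf 127 1013 (.cons 125 (.leaf 149 1007 (.cons 126 (.leaf 101 815 (.cons 152 (.leaf 128 1028 (.leaf 153 1003 .nil)) .nil)) .nil)) .nil)) .nil)) .nil)) .nil)))) .nil)) .nil)) .nil)) .nil)) (.cons 270 (.leaf 269 1962 (.cons 222 (.leaf 221 1771 (.cons 271 (.leaf 250 1970 (.cons 198 (.leaf 174 1396 (.leaf 295 1588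 .nil)) .nil)) .nil)) .nil)) (.cons 225 (.leaf 226 1777 (.cons 201 (.leaf 177 1414 (.cons 222 (.leaf 221 1771 (.cons 270 (.leaf 269 1962 (.cons 198 (.cons 173 (.leaf 197 1391 (.cons 174 (.leaf 199 1387 (.leaf 149 1199 .nil)) .nil)) (.cons 202 (.cons 273 (.leaf 176 1415 (.leaf 178 1421 .nil)) (.cons 175 (.leaf 199 1397 (.cons 203 (.leaf 176 1403 (.cons 180 (.leaf 179 1409 (.cons 204 (.leaf 181 1417 (.cons 227 (.leaf 251 1437 (.leaf 228 1600 .nil)) .nil)) .nil)) .nil)) .nil)) (.cons 178 (.leaf 273 1421 (.cons 199 (.leaf 179 1401 (.leaf 175 1397 .nil)) .nil)) .nil))) (.cons 176 (.leaf 273 1415 (.cons 128 (.leaf 152 1028 (.cons 173 (.leaf 197 1391 (.cons 174 (.leaf 175 1384 (.leaf 149 1199 .nil)) .nil)) .nil)) .nil)) .nil))) .nil)) .nil)) .nil)) .nil)) .nil)))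
noncomputable def t155 : T := .cons 249 (.cons 226 (.leaf 225 1777 (.cons 250 (.leaf 227 1785 (.cons 271 (.leaf 251 1978 (.leaf 270 1970 .nil)) .nil)) .nil)) (.cons 245 (.leaf 273 1960 (.cons 221 (.leaf 220 1763 (.leaf 222 1771 .nil)) .nil)) .nil)) (.cons 249 t154 (.cons 249 (.cons 270 (.leaf 269 1962 (.cons 222 (.leaf 221 1771 (.cons 271 (.leaf 250 1970 (.cons 198 (.leaf 174 1396 (.leaf 295 1588 .nil)) .nil)) .nil)) .nil)) (.cons 226 (.leaf 225 1777 (.cons 221 (.leaf 222 1771 (.cons 227 (.leaf 250 1785 (.cons 245 (.leaf 220 1763 (.cons 244 (.leaf 271 1952 (.cons 268 (.leaf 269 1954 (.leaf 267 1946 .nil)) .nil)) .nil)) .nil)) .nil)) .nil)) (.cons 226 (.leaf 225 1777 (.cons 221 (.leaf 222 1771 (.cons 220 (.leaf 245 1763 (.cons 250 (.leaf 227 1785 (.cons 271 (.leaf 251 1978 (.leaf 270 1970 .nil)) .nil)) .nil)) .nil)) .nil)) (.cons 270 (.leaf 269 1962 (.cons 226 (.leaf 225 1777 (.cons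 250 (.leaf 227 1785 (.leaf 271 1970 .nil)) .nil)) .nil)) (.cons 226 (.leaf 225 1777 (.cons 221 (.leaf 222 1771 (.cons 227 (.leaf 250 1785 (.cons 245 (.leaf 220 1763 (.cons 269 (.leaf 268 1954 (.leaf 270 1962 .nil)) .nil)) .nil)) .nil)) .nil)) (.cons 269 (.leaf 270 1962 (.cons 245 (.leaf 268 1954 (.cons 221 (.leaf 220 1763 (.leaf 222 1771 .nil)) .nil)) .nil)) .nil)))))) (.cons 245 (.leaf 273 1960 (.cons 244 (.leaf 271 1952 (.cons 268 (.leaf 269 1954 (.leaf 267 1946 .nil)) .nil)) .nil)) (.cons 245 (.leaf 273 1960 (.cons 220 (.leaf 221 1763 (.cons 244 (.leaf 219 1755 (.cons 268 (.leaf 269 1954 (.leaf 267 1946 .nil)) .nil)) .nil)) .nil)) .nil))))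
noncomputable def t156 : T := .leaf 175 1404 (.cons 271 (.cons 270 (.leaf 294 1590 (.cons 269 (.leaf 268 1953 (.cons 245 (.leaf 244 1955 (.cons 246 (.leaf 273 1960 (.cons 198 (.leaf 174 1399 (.cons 222 (.leaf 295 1588 (.leaf 293 1582 .nil)) .nil)) .nil)) .nil)) .nil)) .nil)) (.cons 270 (.leaf 294 1590 (.cons 269 (.leaf 268 1953 (.cons 245 (.leaf 244 1955 (.cons 246 (.leaf 273 1960 (.cons 221 (.leaf 220 1763 (.cons 197 (.leaf 173 1388 (.cons 293 (.leaf 292 2146 (.cons 317 (.leaf 341 1965 (.leaf 222 1773 .nil)) .nil)) .nil)) .nil)) .nil)) .nil)) .nil)) .nil)) (.cons 198 (.leaf 174 1399 (.cons 222 (.leaf 295 1591 (.cons 221 (.leaf 220 1760 (.leaf 201 1578 .nil)) .nil)) .nil)) (.cons 198 (.leaf 174 1399 (.cons 245 (.cons 246 (.leaf 244 1952 (.leaf 273 1960 .nil)) (.cons 270 (.leaf 294 1590 (.cons 269 (.leaf 244 1955 (.leaf 268 1953 .nil)) .nil)) (.cons 246 (.leaf 273 1960 (.cons 221 (.leaf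 220 1763 (.cons 269 (.leaf 268 1954 (.cons 294 (.leaf 270 1590 (.cons 318 (.leaf 295 1782 (.leaf 293 1772 .nil)) .nil)) .nil)) .nil)) .nil)) .nil))) .nil)) .nil)))) .nil)
noncomputable def t157 : T := .cons 226 (.cons 202 (.leaf 222 1586 (.leaf 227 1592 .nil)) (.cons 198 (.leaf 225 1584 (.cons 173 (.leaf 174 1387 (.cons 177 (.leaf 178 1393 (.cons 197 (.leaf 172 1379 (.leaf 176 1385 .nil)) .nil)) .nil)) .nil)) .nil)) (.cons 226 (.cons 202 (.leaf 227 1592 (.cons 178 (.leaf 179 1401 (.cons 177 (.leaf 198 1393 (.cons 153 (.leaf 129 1036 (.leaf 250 1231 .nil)) .nil)) .nil)) .nil)) (.cons 198 (.leaf 225 1584 (.cons 173 (.leaf 174 1387 (.cons 177 (.leaf 178 1393 (.cons 197 (.leaf 172 1379 (.leaf 176 1385 .nil)) .nil)) .nil)) .nil)) (.cons 202 (.leaf 227 1592 (.cons 178 (.leaf 179 1401 (.cons 250 (.leaf 251 1428 (.cons 153 (.leaf 177 1231 (.cons 154 (.leaf 129 1039 (.cons 130 (.leaf 225 1038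 (.cons 131 (.leaf 155 1045 (.leaf 107 853 .nil)) .nil)) .nil)) .nil)) .nil)) .nil)) .nil)) (.cons 225 (.leaf 198 1584 (.cons 227 (.leaf 202 1592 (.leaf 228 1603 .nil)) .nil)) .nil)))) (.cons 198 (.cons 177 (.leaf 178 1393 (.cons 197 (.leaf 176 1385 (.cons 221 (.leaf 220 1570 (.leaf 222 1578 .nil)) .nil)) .nil)) (.cons 177 (.leaf 178 1393 (.cons 173 (.leaf 174 1387 (.cons 197 (.leaf 172 1379 (.leaf 176 1385 .nil)) .nil)) .nil)) (.cons 173 (.leaf 174 1387 (.cons 197 (.leaf 172 1379 (.cons 221 (.leaf 220 1570 (.leaf 222 1578 .nil)) .nil)) .nil)) (.cons 174 (.leaf 173 1387 (.cons 150 (.leaf 222 1204 (.leaf 126 1012 .nil)) .nil)) .nil)))) (.cons 202 (.leaf 222 1586 (.cons 227 (.leaf 226 1592 (.cons 203 (.leaf 228 1600 (.cons 180 (.leaf 179 1409 (.cons 204 (.leaf 251 1437 (.leaf 181 1417 .nil)) .nil)) .nil)) .nil)) .nil)) .nil)))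
noncomputable def t158 : T := .cons 270 (.leaf 294 1590 (.cons 269 (.leaf 268 1953 (.cons 245 (.leaf 244 1955 (.cons 246 (.leaf 273 1960 (.cons 198 (.leaf 174 1399 (.cons 222 (.leaf 295 1588 (.leaf 293 1582 .nil)) .nil)) .nil)) .nil)) .nil)) .nil)) (.cons 270 (.leaf 294 1590 (.cons 269 (.leaf 268 1953 (.cons 245 (.leaf 244 1955 (.cons 246 (.leaf 273 1960 (.cons 221 (.leaf 220 1763 (.cons 197 (.leaf 173 1388 (.cons 293 (.leaf 292 2146 (.cons 317 (.leaf 341 1965 (.leaf 222 1773 .nil)) .nil)) .nil)) .nil)) .nil)) .nil)) .nil)) .nil)) (.cons 198 (.leaf 174 1399 (.cons 222 (.leaf 295 1591 (.cons 221 (.leaf 220 1760 (.leaf 201 1578 .nil)) .nil)) .nil)) (.cons 198 (.leaf 174 1399 (.cons 245 (.cons 270 (.leaf 294 1590 (.cons 246 (.leaf 244 1952 (.leaf 273 1960 .nil)) .nil)) (.cons 270 (.leaf 294 1590 (.cons 269 (.leaf 244 1955 (.leaf 268 1953 .nil)) .nil)) (.cons 246 (.leaf 244 1952 (.leaf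 273 1960 .nil)) (.cons 246 (.leaf 273 1960 (.cons 221 (.leaf 220 1763 (.cons 269 (.leaf 268 1954 (.cons 294 (.leaf 270 1590 (.cons 318 (.leaf 295 1782 (.leaf 293 1772 .nil)) .nil)) .nil)) .nil)) .nil)) .nil)))) .nil)) .nil)))
noncomputable def t159 : T := .cons 202 (.leaf 222 1586 (.cons 178 (.leaf 179 1401 (.cons 177 (.leaf 198 1393 (.cons 226 (.leaf 227 1592 (.cons 153 (.leaf 129 1036 (.leaf 250 1231 .nil)) .nil)) .nil)) .nil)) .nil)) (.cons 226 (.cons 202 (.leaf 227 1592 (.cons 178 (.leaf 179 1401 (.cons 177 (.leaf 198 1393 (.cons 153 (.leaf 129 1036 (.leaf 250 1231 .nil)) .nil)) .nil)) .nil)) (.cons 198 (.leaf 225 1584 (.cons 173 (.leaf 174 1387 (.cons 177 (.leaf 178 1393 (.cons 197 (.leaf 172 1379 (.leaf 176 1385 .nil)) .nil)) .nil)) .nil)) (.cons 202 (.leaf 227 1592 (.cons 178 (.leaf 179 1401 (.cons 250 (.leaf 251 1428 (.cons 153 (.leaf 177 1231 (.cons 154 (.leaf 129 1039 (.cons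 130 (.leaf 225 1038 (.cons 131 (.leaf 155 1045 (.leaf 107 853 .nil)) .nil)) .nil)) .nil)) .nil)) .nil)) .nil)) (.cons 225 (.leaf 198 1584 (.cons 227 (.leaf 202 1592 (.leaf 228 1603 .nil)) .nil)) .nil)))) (.cons 198 (.cons 173 (.leaf 174 1387 (.cons 177 (.leaf 178 1393 (.cons 197 (.leaf 172 1379 (.leaf 176 1385 .nil)) .nil)) .nil)) (.cons 177 (.leaf 178 1393 (.cons 197 (.leaf 176 1385 (.cons 221 (.leaf 220 1570 (.leaf 222 1578 .nil)) .nil)) .nil)) (.cons 173 (.leaf 174 1387 (.cons 197 (.leaf 172 1379 (.cons 221 (.leaf 220 1570 (.leaf 222 1578 .nil)) .nil)) .nil)) (.cons 174 (.leaf 173 1387 (.cons 150 (.leaf 222 1204 (.leaf 126 1012 .nil)) .nil)) .nil)))) (.cons 202 (.leaf 222 1586 (.cons 227 (.leaf 226 1592 (.cons 203 (.leaf 228 1600 (.cons 180 (.leaf 179 1409 (.cons 204 (.leaf 251 1437 (.leaf 181 1417 .nil)) .nil)) .nil)) .nil)) .nil)) .nil)))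
noncomputable def t160 : T := .cons 271 (.leaf 176 1405 (.cons 270 (.leaf 294 1590 (.cons 269 (.leaf 268 1953 (.cons 245 (.leaf 244 1955 (.cons 246 (.leaf 273 1960 (.cons 198 (.leaf 174 1399 (.cons 222 (.leaf 295 1588 (.leaf 293 1582 .nil)) .nil)) .nil)) .nil)) .nil)) .nil)) .nil)) (.cons 201 t159 (.cons 271 t158 (.cons 271 (.leaf 176 1405 (.cons 198 (.leaf 174 1399 (.cons 245 (.cons 246 (.leaf 244 1952 (.leaf 273 1960 .nil)) (.cons 270 (.leaf 294 1590 (.cons 269 (.leaf 244 1955 (.leaf 268 1953 .nil)) .nil)) (.cons 246 (.leaf 273 1960 (.cons 221 (.leaf 220 1763 (.cons 269 (.leaf 268 1954 (.cons 294 (.leaf 270 1590 (.cons 318 (.leaf 295 1782 (.leaf 293 1772 .nil)) .nil)) .nil)) .nil)) .nil)) .nil))) .nil)) .nil)) (.cons 271 (.leaf 176 1405 (.cons 270 (.leaf 294 1590 (.cons 269 (.leaf 268 1953 (.cons 245 (.leaf 244 1955 (.cons 246 (.leaf 273 1960 (.cons 221 (.leaf 220 1763 (.cons 197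 (.leaf 173 1388 (.cons 293 (.leaf 292 2146 (.cons 317 (.leaf 341 1965 (.leaf 222 1773 .nil)) .nil)) .nil)) .nil)) .nil)) .nil)) .nil)) .nil)) .nil)) .nil))))
noncomputable def t161 : T := .cons 201 (.cons 173 (.leaf 174 1387 (.cons 178 (.leaf 177 1393 (.cons 202 (.leaf 179 1401 (.cons 172 (.leaf 197 1379 (.cons 227 (.leaf 226 1592 (.cons 203 (.leaf 251 1431 (.leaf 228 1600 .nil)) .nil)) .nil)) .nil)) .nil)) .nil)) (.cons 177 (.leaf 178 1393 (.cons 197 (.leaf 176 1385 (.cons 221 (.leaf 220 1570 (.leaf 222 1578 .nil)) .nil)) .nil)) (.cons 173 (.leaf 174 1387 (.cons 197 (.leaf 172 1379 (.cons 221 (.leaf 220 1570 (.leaf 222 1578 .nil)) .nil)) .nil)) (.cons 173 (.leaf 174 1387 (.cons 178 (.leaf 177 1393 (.cons 202 (.leaf 179 1401 (.cons 227 (.leaf 226 1592 (.cons 203 (.leaf 251 1431 (.leaf 228 1600 .nil)) .nil)) .nil)) .nil)) .nil)) .nil)))) (.cons 197 (.cons 176 (.leaf 177 1385 (.cons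 196 (.leaf 175 1377 (.cons 220 (.leaf 221 1570 (.leaf 219 1562 .nil)) .nil)) .nil)) (.cons 176 (.leaf 177 1385 (.cons 172 (.leaf 173 1379 (.cons 196 (.leaf 171 1371 (.leaf 175 1377 .nil)) .nil)) .nil)) (.cons 221 (.leaf 220 1570 (.cons 173 (.leaf 172 1379 (.cons 245 (.cons 174 (.leaf 269 1389 (.leaf 150 1197 .nil)) (.cons 246 (.leaf 273 1960 (.leaf 270 1388 .nil)) .nil)) .nil)) .nil)) .nil))) (.cons 201 (.cons 174 (.leaf 173 1387 (.cons 177 (.leaf 178 1393 (.cons 222 (.leaf 221 1578 (.cons 225 (.leaf 226 1584 (.cons 246 (.leaf 271 1396 (.cons 175 (.leaf 202 1395 (.leaf 270 1397 .nil)) .nil)) .nil)) .nil)) .nil)) .nil)) (.cons 178 (.leaf 177 1393 (.cons 202 (.leaf 179 1401 (.cons 226 (.leaf 225 1584 (.leaf 227 1592 .nil)) .nil)) .nil)) (.cons 174 (.leaf 173 1387 (.cons 175 (.leaf 202 1395 (.cons 222 (.leaf 221 1578 (.cons 246 (.leaf 271 1396 (.leaf 270 1397 .nil)) .nil)) .nil)) .nil))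 (.cons 174 (.leaf 173 1387 (.cons 177 (.leaf 178 1393 (.cons 222 (.leaf 221 1578 (.cons 225 (.leaf 226 1584 (.cons 246 (.leaf 271 1396 (.cons 175 (.leaf 270 1397 (.leaf 151 1205 .nil)) .nil)) .nil)) .nil)) .nil)) .nil)) .nil)))) (.cons 201 (.cons 221 (.leaf 222 1578 (.cons 197 (.leaf 220 1570 (.cons 226 (.leaf 225 1584 (.cons 202 (.leaf 227 1592 (.cons 175 (.leaf 174 1395 (.cons 176 (.leaf 203 1403 (.leaf 177 1385 .nil)) .nil)) .nil)) .nil)) .nil)) .nil)) (.cons 221 (.leaf 222 1578 (.cons 197 (.leaf 220 1570 (.cons 226 (.leaf 225 1584 (.cons 202 (.leaf 227 1592 (.cons 175 (.leaf 174 1395 (.cons 176 (.leaf 203 1403 (.leaf 196 1377 .nil)) .nil)) .nil)) .nil)) .nil)) .nil)) (.cons 177 (.leaf 178 1393 (.cons 176 (.leaf 197 1385 (.cons 226 (.leaf 225 1584 (.cons 202 (.leaf 227 1592 (.cons 203 (.leaf 175 1403 (.leaf 204 1411 .nil)) .nil)) .nil)) .nil)) .nil)) (.cons 177 (.leaf 178 1393 (.cons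 197 (.leaf 176 1385 (.cons 221 (.leaf 220 1570 (.leaf 222 1578 .nil)) .nil)) .nil)) (.cons 178 (.leaf 177 1393 (.cons 202 (.leaf 179 1401 (.cons 226 (.leaf 225 1584 (.leaf 227 1592 .nil)) .nil)) .nil)) .nil))))) (.cons 197 (.cons 176 (.leaf 177 1385 (.cons 196 (.leaf 175 1377 (.cons 220 (.leaf 221 1570 (.leaf 219 1562 .nil)) .nil)) .nil)) (.cons 176 (.leaf 177 1385 (.cons 172 (.leaf 173 1379 (.cons 196 (.leaf 171 1371 (.leaf 175 1377 .nil)) .nil)) .nil)) (.cons 172 (.leaf 173 1379 (.cons 196 (.leaf 171 1371 (.cons 220 (.leaf 221 1570 (.leaf 219 1562 .nil)) .nil)) .nil)) (.cons 172 (.leaf 173 1379 (.cons 176 (.leaf 177 1385 (.cons 221 (.leaf 220 1570 (.cons 201 (.leaf 222 1578 (.cons 226 (.leaf 225 1584 (.cons 202 (.leaf 227 1592 (.cons 179 (.leaf 178 1401 (.cons 203 (.leaf 175 1403 (.leaf 180 1409 .nil)) .nil)) .nil)) .nil)) .nil)) .nil)) .nil)) .nil)) .nil)))) (.cons 201 (.cons 173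 (.leaf 174 1387 (.cons 177 (.leaf 178 1393 (.cons 197 (.leaf 172 1379 (.leaf 176 1385 .nil)) .nil)) .nil)) (.cons 178 (.leaf 177 1393 (.cons 202 (.leaf 179 1401 (.cons 226 (.leaf 225 1584 (.leaf 227 1592 .nil)) .nil)) .nil)) (.cons 174 (.leaf 173 1387 (.cons 202 (.leaf 175 1395 (.cons 226 (.leaf 225 1584 (.leaf 227 1592 .nil)) .nil)) .nil)) .nil))) (.cons 201 (.cons 221 (.leaf 222 1578 (.cons 197 (.leaf 220 1570 (.cons 172 (.leaf 173 1379 (.cons 196 (.leaf 171 1371 (.cons 245 (.leaf 269 1383 (.cons 246 (.leaf 273 1960 (.cons 244 (.leaf 271 1952 (.cons 267 (.leaf 268 1946 (.cons 243 (.leaf 266 1938 (.cons 219 (.leaf 195 1373 (.leaf 218 1747 .nil)) .nil)) .nil)) .nil)) .nil)) .nil)) .nil)) .nil)) .nil)) .nil)) (.cons 221 (.leaf 222 1578 (.cons 197 (.leaf 220 1570 (.cons 226 (.leaf 225 1584 (.cons 202 (.leaf 227 1592 (.cons 175 (.leaf 174 1395 (.cons 176 (.leaf 203 1403 (.leaf 196 1377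 .nil)) .nil)) .nil)) .nil)) .nil)) .nil)) (.cons 174 (.leaf 173 1387 (.cons 202 (.leaf 175 1395 (.cons 226 (.leaf 225 1584 (.leaf 227 1592 .nil)) .nil)) .nil)) .nil))) .nil))))))
noncomputable def t162 : T := .cons 223 (.leaf 175 1404 (.cons 271 (.leaf 176 1405 (.cons 198 (.leaf 174 1399 (.cons 222 (.leaf 295 1591 (.cons 221 (.leaf 220 1760 (.leaf 201 1578 .nil)) .nil)) .nil)) .nil)) .nil)) (.cons 198 (t161) (.cons 223 t160 (.cons 223 (.leaf 175 1404 (.cons 201 t157 .nil)) (.cons 223 (.leaf 175 1404 (.cons 271 (.leaf 176 1405 (.cons 270 (.leaf 294 1590 (.cons 269 (.leaf 268 1953 (.cons 245 (.leaf 244 1955 (.cons 246 (.leaf 273 1960 (.cons 221 (.leaf 220 1763 (.cons 197 (.leaf 173 1388 (.cons 293 (.leaf 292 2146 (.cons 317 (.leaf 341 1965 (.leaf 222 1773 .nil)) .nil)) .nil)) .nil)) .nil)) .nil)) .nil)) .nil)) .nil)) .nil)) (.cons 223 t156 (.cons 223 (.leaf 175 1404 (.cons 271 (.leaf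 176 1405 (.cons 198 (.leaf 174 1399 (.cons 245 (.cons 246 (.leaf 244 1952 (.leaf 273 1960 .nil)) (.cons 270 (.leaf 294 1590 (.cons 269 (.leaf 244 1955 (.leaf 268 1953 .nil)) .nil)) (.cons 246 (.leaf 273 1960 (.cons 221 (.leaf 220 1763 (.cons 269 (.leaf 268 1954 (.cons 294 (.leaf 270 1590 (.cons 318 (.leaf 295 1782 (.leaf 293 1772 .nil)) .nil)) .nil)) .nil)) .nil)) .nil))) .nil)) .nil)) .nil)) (.cons 223 (.leaf 175 1404 (.cons 271 (.leaf 176 1405 (.cons 270 (.leaf 294 1590 (.cons 174 (.leaf 198 1399 (.cons 269 (.leaf 268 1953 (.cons 245 (.leaf 244 1955 (.cons 246 (.leaf 273 1960 (.cons 293 (.leaf 292 2146 (.cons 317 (.leaf 341 1965 (.leaf 222 1773 .nil)) .nil)) .nil)) .nil)) .nil)) .nil)) .nil)) .nil)) .nil)) .nil)))))))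
noncomputable def t163 : T := .cons 245 (.leaf 273 1960 (.cons 244 (.leaf 271 1952 (.cons 268 (.leaf 269 1954 (.leaf 267 1946 .nil)) .nil)) .nil)) (.cons 249 (.cons 270 (.leaf 269 1962 (.cons 222 (.leaf 221 1771 (.cons 271 (.leaf 250 1970 (.cons 198 (.leaf 174 1396 (.leaf 295 1588 .nil)) .nil)) .nil)) .nil)) (.cons 222 (.leaf 221 1771 (.cons 226 (.leaf 225 1777 (.cons 250 (.leaf 223 1779 (.leaf 227 1785 .nil)) .nil)) .nil)) (.cons 270 (.leaf 269 1962 (.cons 226 (.leaf 225 1777 (.cons 250 (.leaf 227 1785 (.leaf 271 1970 .nil)) .nil)) .nil)) (.cons 270 (.leaf 269 1962 (.cons 222 (.leaf 221 1771 (.cons 225 (.leaf 226 1777 (.cons 201 (.leaf 177 1414 (.cons 273 (.leaf 176 1415 (.cons 202 (.leaf 178 1421 (.cons 271 (.cons 198 (.leaf 174 1396 (.leaf 295 1588 .nil)) (.cons 174 (.leaf 198 1396 (.cons 294 (.leaf 293 2154 (.cons 318 (.leaf 223 1781 (.leaf 342 1973 .nil)) .nil)) .nil)) (.cons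 294 (.leaf 293 2154 (.cons 295 (.leaf 319 1780 (.cons 318 (.leaf 223 1781 (.leaf 342 1973 .nil)) .nil)) .nil)) .nil))) .nil)) .nil)) .nil)) .nil)) .nil)) .nil)) .nil)))) (.cons 249 (.cons 221 (.leaf 222 1771 (.cons 225 (.leaf 226 1777 (.cons 177 (.leaf 201 1414 (.cons 245 (.leaf 220 1763 (.cons 269 (.leaf 268 1954 (.leaf 270 1962 .nil)) .nil)) .nil)) .nil)) .nil)) (.cons 221 (.leaf 222 1771 (.cons 245 (.leaf 220 1763 (.cons 244 (.leaf 271 1952 (.cons 268 (.leaf 269 1954 (.leaf 267 1946 .nil)) .nil)) .nil)) .nil)) (.cons 221 (.leaf 222 1771 (.cons 220 (.leaf 245 1763 (.cons 226 (.leaf 225 1777 (.cons 250 (.leaf 227 1785 (.cons 271 (.leaf 251 1978 (.leaf 270 1970 .nil)) .nil)) .nil)) .nil)) .nil)) (.cons 270 (.leaf 269 1962 (.cons 226 (.leaf 225 1777 (.cons 250 (.leaf 227 1785 (.leaf 271 1970 .nil)) .nil)) .nil)) .nil)))) (.cons 245 (.leaf 273 1960 (.cons 220 (.leaf 221 1763 (.cons 244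 (.leaf 219 1755 (.cons 268 (.leaf 269 1954 (.leaf 267 1946 .nil)) .nil)) .nil)) .nil)) (.cons 245 (.leaf 273 1960 (.cons 220 (.leaf 221 1763 (.cons 244 (.leaf 271 1952 (.leaf 219 1755 .nil)) .nil)) .nil)) .nil))))
noncomputable def t164 : T := .cons 245 (.leaf 268 1954 (.cons 221 (.leaf 220 1763 (.cons 197 (.cons 172 (.leaf 196 1383 (.cons 148 (.leaf 173 1191 (.cons 198 (.leaf 174 1389 (.cons 293 (.leaf 222 1581 (.cons 316 (.leaf 292 1766 (.cons 317 (.leaf 340 1958 (.cons 318 (.leaf 294 1772 (.leaf 342 1964 .nil)) .nil)) .nil)) .nil)) .nil)) .nil)) .nil)) (.cons 172 (.leaf 196 1383 (.cons 173 (.leaf 270 1388 (.leaf 148 1191 .nil)) .nil)) (.cons 172 (.leaf 196 1383 (.cons 174 (.leaf 198 1389 (.cons 294 (.leaf 270 1580 (.cons 293 (.leaf 318 1772 (.cons 316 (.leaf 292 1766 (.cons 317 (.leaf 222 1773 (.leaf 340 1958 .nil)) .nil)) .nil)) .nil)) .nil)) .nil)) (.cons 270 (.leaf 249 1962 (.leaf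 173 1388 .nil)) .nil)))) .nil)) .nil)) (.cons 249 (.leaf 270 1962 (.cons 222 (.leaf 221 1771 (.cons 223 (.leaf 250 1779 (.cons 199 (.leaf 175 1404 (.cons 201 (.leaf 202 1586 (.cons 225 (.leaf 177 1414 (.leaf 226 1777 .nil)) .nil)) .nil)) .nil)) .nil)) .nil)) (.cons 245 (.leaf 268 1954 (.cons 221 (.leaf 220 1763 (.cons 222 (.leaf 249 1771 (.cons 198 (.leaf 174 1390 (.leaf 293 1581 .nil)) .nil)) .nil)) .nil)) (.cons 245 (.leaf 268 1954 (.cons 221 (.leaf 220 1763 (.cons 197 (.cons 172 (.leaf 196 1383 (.cons 148 (.leaf 173 1191 (.cons 198 (.leaf 174 1389 (.cons 293 (.leaf 222 1581 (.cons 316 (.leaf 292 1766 (.cons 317 (.leaf 340 1958 (.cons 318 (.leaf 294 1772 (.leaf 342 1964 .nil)) .nil)) .nil)) .nil)) .nil)) .nil)) .nil)) (.cons 172 (.leaf 196 1383 (.cons 174 (.leaf 198 1389 (.cons 294 (.leaf 270 1580 (.cons 293 (.leaf 318 1772 (.cons 316 (.leaf 292 1766 (.cons 317 (.leaf 222 1773 (.leaf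 340 1958 .nil)) .nil)) .nil)) .nil)) .nil)) .nil)) (.cons 172 (.leaf 196 1383 (.cons 173 (.leaf 270 1388 (.leaf 148 1191 .nil)) .nil)) (.cons 270 (.leaf 173 1388 (.leaf 294 1580 .nil)) .nil)))) .nil)) .nil)) (.cons 270 (.leaf 249 1962 (.cons 268 (.leaf 245 1954 (.leaf 267 1945 .nil)) .nil)) .nil))))
noncomputable def t165 : T := .cons 222 (.leaf 221 1771 (.cons 226 (.leaf 225 1777 (.cons 250 (.leaf 223 1779 (.leaf 227 1785 .nil)) .nil)) .nil)) (.cons 225 (.leaf 226 1777 (.cons 201 (.leaf 177 1414 (.cons 270 (.leaf 269 1962 (.cons 202 (.cons 273 (.leaf 176 1415 (.leaf 178 1421 .nil)) (.cons 175 (.cons 199 (.leaf 223 1404 (.leaf 174 1395 .nil)) (.cons 203 (.leaf 176 1403 (.cons 180 (.leaf 179 1409 (.cons 204 (.leaf 181 1417 (.cons 227 (.leaf 251 1437 (.leaf 228 1600 .nil)) .nil)) .nil)) .nil)) .nil)) (.cons 178 (.leaf 273 1421 (.cons 130 (.leaf 154 1038 (.cons 179 (.leaf 199 1401 (.cons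 180 (.leaf 203 1409 (.leaf 181 1418 .nil)) .nil)) .nil)) .nil)) .nil))) .nil)) .nil)) .nil)) (.cons 222 (.leaf 221 1771 (.cons 223 (.leaf 250 1779 (.cons 199 (.leaf 175 1404 (.cons 270 (.leaf 269 1962 (.leaf 294 1589 .nil)) .nil)) .nil)) .nil)) (.cons 225 (.leaf 226 1777 (.cons 201 (.leaf 177 1414 (.cons 222 (.leaf 221 1771 (.cons 270 (.leaf 269 1962 (.cons 198 (.cons 173 (.leaf 197 1391 (.cons 174 (.leaf 199 1387 (.leaf 149 1199 .nil)) .nil)) (.cons 202 (.cons 273 (.leaf 176 1415 (.leaf 178 1421 .nil)) (.cons 175 (.leaf 199 1397 (.cons 203 (.leaf 176 1403 (.cons 180 (.leaf 179 1409 (.cons 204 (.leaf 181 1417 (.cons 227 (.leaf 251 1437 (.leaf 228 1600 .nil)) .nil)) .nil)) .nil)) .nil)) (.cons 178 (.leaf 273 1421 (.cons 199 (.leaf 179 1401 (.leaf 175 1397 .nil)) .nil)) .nil))) (.cons 176 (.leaf 273 1415 (.cons 128 (.leaf 152 1028 (.cons 173 (.leaf 197 1391 (.cons 174 (.leaf 175 1384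 (.leaf 149 1199 .nil)) .nil)) .nil)) .nil)) .nil))) .nil)) .nil)) .nil)) .nil)) .nil)))
noncomputable def t166 : T := .cons 245 (.leaf 273 1960 (.cons 221 (.leaf 220 1763 (.cons 222 (.leaf 249 1771 (.cons 198 (.cons 174 (.leaf 269 1390 (.leaf 150 1198 .nil)) (.cons 174 (.leaf 150 1198 (.cons 151 (.leaf 175 1205 (.cons 173 (.leaf 149 1199 (.cons 197 (.leaf 270 1388 (.cons 172 (.leaf 199 1379 (.leaf 148 1191 .nil)) .nil)) .nil)) .nil)) .nil)) (.cons 199 (.leaf 201 1578 (.cons 175 (.leaf 223 1404 (.leaf 270 1397 .nil)) .nil)) .nil))) .nil)) .nil)) .nil)) (.cons 249 t165 (.cons 269 t164 (.cons 245 (.leaf 273 1960 (.cons 220 (.leaf 221 1763 (.cons 244 (.leaf 219 1755 (.cons 268 (.leaf 269 1954 (.leaf 267 1946 .nil)) .nil)) .nil)) .nil)) (.cons 245 (.leaf 273 1960 (.cons 269 (.leaf 268 1954 (.cons 249 (.leaf 270 1962 (.cons 226 (.leaf 225 1777 (.cons 227 (.leaf 250 1785 (.cons 202 (.cons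 251 (.leaf 299 1623 (.cons 178 (.leaf 203 1431 (.leaf 154 1236 .nil)) .nil)) (.cons 201 (.leaf 199 1592 (.cons 228 (.leaf 203 1600 (.leaf 229 1611 .nil)) .nil)) (.cons 201 (.leaf 199 1592 (.cons 251 (.leaf 299 1623 (.cons 178 (.leaf 154 1236 (.cons 228 (.leaf 229 1611 (.cons 180 (.cons 179 (.leaf 177 1410 (.leaf 181 1418 .nil)) (.cons 204 (.leaf 252 1438 (.leaf 156 1246 .nil)) .nil)) .nil)) .nil)) .nil)) .nil)) .nil))) .nil)) .nil)) .nil)) .nil)) .nil)) (.cons 245 (.leaf 273 1960 (.cons 221 (.leaf 220 1763 (.cons 222 (.leaf 249 1771 (.cons 198 (.cons 174 (.leaf 150 1198 (.cons 151 (.leaf 175 1205 (.cons 173 (.leaf 149 1199 (.cons 197 (.leaf 270 1388 (.cons 172 (.leaf 199 1379 (.leaf 148 1191 .nil)) .nil)) .nil)) .nil)) .nil)) (.cons 174 (.leaf 150 1198 (.cons 151 (.leaf 175 1205 (.cons 173 (.leaf 149 1199 (.cons 197 (.leaf 270 1388 (.cons 172 (.leaf 148 1191 (.cons 171 (.leaf 170 1360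 (.cons 244 (.leaf 268 1382 (.cons 243 (.leaf 223 1753 (.leaf 242 1745 .nil)) .nil)) .nil)) .nil)) .nil)) .nil)) .nil)) .nil)) (.cons 199 (.leaf 201 1578 (.cons 175 (.leaf 223 1404 (.leaf 270 1397 .nil)) .nil)) (.cons 174 (.leaf 150 1198 (.cons 149 (.leaf 173 1199 (.cons 175 (.leaf 151 1205 (.cons 199 (.leaf 223 1404 (.leaf 201 1578 .nil)) .nil)) .nil)) .nil)) (.cons 174 (.leaf 150 1198 (.cons 173 (.leaf 149 1199 (.cons 197 (.leaf 270 1388 (.cons 199 (.leaf 172 1379 (.leaf 201 1578 .nil)) .nil)) .nil)) .nil)) .nil))))) .nil)) .nil)) .nil)) .nil)))))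
noncomputable def t167 : T := .cons 198 (.leaf 225 1584 (.cons 173 (.leaf 174 1387 (.cons 172 (.leaf 197 1379 (.cons 178 (.leaf 177 1393 (.cons 202 (.leaf 179 1401 (.leaf 227 1592 .nil)) .nil)) .nil)) .nil)) .nil)) (.cons 198 (.leaf 225 1584 (.cons 173 (.leaf 174 1387 (.cons 177 (.leaf 178 1393 (.cons 197 (.leaf 172 1379 (.leaf 176 1385 .nil)) .nil)) .nil)) .nil)) (.cons 202 (.leaf 227 1592 (.cons 178 (.leaf 179 1401 (.cons 177 (.leaf 198 1393 (.cons 153 (.leaf 129 1036 (.leaf 250 1231 .nil)) .nil)) .nil)) .nil)) (.cons 202 (.leaf 227 1592 (.cons 178 (.leaf 179 1401 (.cons 250 (.leaf 251 1428 (.cons 153 (.leaf 177 1231 (.cons 154 (.leaf 129 1039 (.cons 225 (.leaf 130 1038 (.leaf 249 1230 .nil)) .nil)) .nil)) .nil)) .nil)) .nil)) (.cons 202 (.leaf 227 1592 (.cons 178 (.leaf 179 1401 (.cons 225 (.leaf 198 1584 (.cons 154 (.leaf 130 1038 (.leaf 249 1230 .nil)) .nil)) .nil)) .nil)) (.cons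 202 (.leaf 227 1592 (.cons 225 (.leaf 198 1584 (.cons 177 (.leaf 249 1414 (.cons 153 (.leaf 129 1036 (.leaf 250 1228 .nil)) .nil)) .nil)) .nil)) .nil)))))
noncomputable def t168 : T := .cons 202 (.leaf 222 1586 (.cons 178 (.leaf 179 1401 (.cons 177 (.leaf 198 1393 (.cons 225 (.leaf 249 1414 (.cons 130 (.leaf 154 1038 (.cons 226 (.leaf 227 1592 (.cons 153 (.leaf 129 1036 (.leaf 250 1228 .nil)) .nil)) .nil)) .nil)) .nil)) .nil)) .nil)) (.cons 226 t167 (.cons 198 (.cons 173 (.leaf 174 1387 (.cons 177 (.leaf 178 1393 (.cons 197 (.leaf 172 1379 (.leaf 176 1385 .nil)) .nil)) .nil)) (.cons 173 (.leaf 174 1387 (.cons 197 (.leaf 172 1379 (.cons 221 (.leaf 220 1570 (.leaf 222 1578 .nil)) .nil)) .nil)) (.cons 177 (.leaf 178 1393 (.cons 225 (.leaf 249 1414 (.leaf 226 1584 .nil)) .nil)) .nil))) (.cons 202 (.leaf 222 1586 (.cons 227 (.leaf 226 1592 (.cons 203 (.leaf 228 1600 (.cons 180 (.leaf 179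 1409 (.cons 204 (.leaf 251 1437 (.leaf 181 1417 .nil)) .nil)) .nil)) .nil)) .nil)) (.cons 198 (.cons 173 (.leaf 174 1387 (.cons 177 (.leaf 178 1393 (.cons 197 (.leaf 172 1379 (.leaf 176 1385 .nil)) .nil)) .nil)) (.cons 173 (.leaf 174 1387 (.cons 197 (.leaf 172 1379 (.cons 221 (.leaf 220 1570 (.leaf 222 1578 .nil)) .nil)) .nil)) (.cons 222 (.leaf 221 1578 (.leaf 202 1586 .nil)) .nil))) .nil))))
noncomputable def t169 : T := .cons 226 (.leaf 227 1592 (.cons 198 (.leaf 225 1584 (.cons 221 (.leaf 222 1578 (.cons 197 (.leaf 220 1570 (.cons 172 (.leaf 173 1379 (.cons 176 (.leaf 177 1385 (.cons 175 (.leaf 203 1403 (.leaf 196 1377 .nil)) .nil)) .nil)) .nil)) .nil)) .nil)) .nil)) (.cons 179 (.leaf 178 1401 (.cons 203 (.leaf 180 1409 (.cons 176 (.leaf 175 1403 (.cons 204 (.leaf 177 1411 (.cons 228 (.leaf 227 1600 (.leaf 229 1608 .nil)) .nil)) .nil)) .nil)) .nil)) (.cons 179 (.leaf 178 1401 (.cons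 203 (.leaf 180 1409 (.cons 176 (.leaf 175 1403 (.cons 177 (.leaf 204 1411 (.cons 198 (.leaf 197 1385 (.cons 225 (.leaf 249 1414 (.leaf 226 1584 .nil)) .nil)) .nil)) .nil)) .nil)) .nil)) (.cons 178 (.leaf 179 1401 (.cons 226 (.leaf 227 1592 (.cons 250 (.leaf 251 1428 (.cons 153 (.leaf 177 1231 (.cons 154 (.leaf 129 1039 (.cons 225 (.leaf 198 1584 (.leaf 130 1038 .nil)) .nil)) .nil)) .nil)) .nil)) .nil)) (.cons 226 (.leaf 227 1592 (.cons 178 (.leaf 179 1401 (.cons 225 (.leaf 198 1584 (.cons 154 (.leaf 130 1038 (.leaf 249 1230 .nil)) .nil)) .nil)) .nil)) .nil))))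
noncomputable def t170 : T := .cons 198 (.cons 173 (.leaf 174 1387 (.cons 177 (.leaf 178 1393 (.cons 197 (.leaf 172 1379 (.leaf 176 1385 .nil)) .nil)) .nil)) (.cons 173 (.leaf 174 1387 (.cons 197 (.leaf 172 1379 (.cons 221 (.leaf 220 1570 (.leaf 222 1578 .nil)) .nil)) .nil)) (.cons 177 (.leaf 178 1393 (.cons 225 (.leaf 249 1414 (.leaf 226 1584 .nil)) .nil)) .nil))) (.cons 202 (.cons 174 (.leaf 175 1395 (.cons 178 (.leaf 179 1401 (.cons 226 (.leaf 227 1592 (.cons 250 (.leaf 251 1428 (.cons 153 (.leaf 177 1231 (.cons 154 (.leaf 129 1039 (.cons 225 (.leaf 130 1038 (.leaf 249 1230 .nil)) .nil)) .nil)) .nil)) .nil)) .nil)) .nil)) (.cons 175 (.leaf 174 1395 (.cons 179 (.leaf 178 1401 (.cons 203 (.leaf 176 1403 (.leaf 180 1409 .nil)) .nil)) .nil)) (.cons 175 (.leaf 174 1395 (.cons 203 (.leaf 176 1403 (.cons 227 (.leaf 226 1592 (.leaf 228 1600 .nil)) .nil)) .nil)) (.cons 178 (.leaf 179 1401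 (.cons 226 (.leaf 227 1592 (.cons 250 (.leaf 251 1428 (.cons 153 (.leaf 177 1231 (.cons 154 (.leaf 129 1039 (.cons 225 (.leaf 130 1038 (.leaf 249 1230 .nil)) .nil)) .nil)) .nil)) .nil)) .nil)) .nil)))) (.cons 202 (.cons 174 (.leaf 175 1395 (.cons 227 (.leaf 226 1592 (.cons 203 (.leaf 228 1600 (.cons 180 (.leaf 179 1409 (.cons 204 (.leaf 251 1437 (.leaf 181 1417 .nil)) .nil)) .nil)) .nil)) .nil)) (.cons 175 (.leaf 174 1395 (.cons 179 (.leaf 178 1401 (.cons 203 (.leaf 176 1403 (.leaf 180 1409 .nil)) .nil)) .nil)) (.cons 226 (.leaf 227 1592 (.cons 178 (.leaf 179 1401 (.cons 198 (.leaf 225 1584 (.cons 173 (.leaf 174 1387 (.cons 197 (.leaf 172 1379 (.cons 221 (.leaf 220 1570 (.leaf 222 1578 .nil)) .nil)) .nil)) .nil)) .nil)) .nil)) (.cons 226 (.leaf 227 1592 (.cons 178 (.leaf 179 1401 (.cons 225 (.leaf 198 1584 (.cons 154 (.leaf 130 1038 (.leaf 249 1230 .nil)) .nil)) .nil)) .nil)) (.cons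 226 (.leaf 227 1592 (.cons 174 (.leaf 175 1395 (.cons 198 (.leaf 173 1387 (.leaf 225 1584 .nil)) .nil)) .nil)) .nil))))) (.cons 198 (.cons 173 (.leaf 174 1387 (.cons 197 (.leaf 172 1379 (.cons 221 (.leaf 220 1570 (.leaf 222 1578 .nil)) .nil)) .nil)) (.cons 225 (.leaf 226 1584 (.cons 177 (.leaf 249 1414 (.cons 197 (.leaf 176 1385 (.cons 221 (.leaf 220 1570 (.leaf 222 1578 .nil)) .nil)) .nil)) .nil)) (.cons 173 (.leaf 174 1387 (.cons 197 (.leaf 172 1379 (.cons 176 (.leaf 177 1385 (.cons 175 (.leaf 196 1377 (.cons 202 (.leaf 203 1403 (.cons 226 (.leaf 225 1584 (.leaf 227 1592 .nil)) .nil)) .nil)) .nil)) .nil)) .nil)) (.cons 174 (.leaf 173 1387 (.cons 202 (.leaf 175 1395 (.cons 226 (.leaf 225 1584 (.leaf 227 1592 .nil)) .nil)) .nil)) .nil)))) (.cons 198 (.cons 173 (.leaf 174 1387 (.cons 178 (.leaf 177 1393 (.cons 202 (.leaf 179 1401 (.cons 172 (.leaf 197 1379 (.cons 227 (.leaf 226 1592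 (.cons 203 (.leaf 251 1431 (.leaf 228 1600 .nil)) .nil)) .nil)) .nil)) .nil)) .nil)) (.cons 177 (.leaf 178 1393 (.cons 197 (.leaf 176 1385 (.cons 221 (.leaf 220 1570 (.leaf 222 1578 .nil)) .nil)) .nil)) (.cons 173 (.leaf 174 1387 (.cons 197 (.leaf 172 1379 (.cons 221 (.leaf 220 1570 (.leaf 222 1578 .nil)) .nil)) .nil)) (.cons 173 (.leaf 174 1387 (.cons 178 (.leaf 177 1393 (.cons 202 (.leaf 179 1401 (.cons 227 (.leaf 226 1592 (.cons 203 (.leaf 251 1431 (.leaf 228 1600 .nil)) .nil)) .nil)) .nil)) .nil)) .nil)))) (.cons 198 (.cons 173 (.leaf 174 1387 (.cons 177 (.leaf 178 1393 (.cons 197 (.leaf 172 1379 (.leaf 176 1385 .nil)) .nil)) .nil)) (.cons 174 (.leaf 173 1387 (.cons 175 (.leaf 202 1395 (.cons 221 (.leaf 222 1578 (.cons 197 (.leaf 220 1570 (.cons 196 (.leaf 176 1377 (.leaf 195 1369 .nil)) .nil)) .nil)) .nil)) .nil)) (.cons 177 (.leaf 178 1393 (.cons 197 (.leaf 176 1385 (.cons 221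 (.leaf 220 1570 (.leaf 222 1578 .nil)) .nil)) .nil)) (.cons 174 (.leaf 173 1387 (.cons 178 (.leaf 177 1393 (.cons 202 (.leaf 175 1395 (.leaf 179 1401 .nil)) .nil)) .nil)) .nil)))) (.cons 202 t169 (.cons 198 (.cons 173 (.leaf 174 1387 (.cons 178 (.leaf 177 1393 (.cons 202 (.leaf 179 1401 (.cons 172 (.leaf 197 1379 (.cons 227 (.leaf 226 1592 (.cons 203 (.leaf 251 1431 (.leaf 228 1600 .nil)) .nil)) .nil)) .nil)) .nil)) .nil)) (.cons 177 (.leaf 178 1393 (.cons 225 (.leaf 249 1414 (.leaf 226 1584 .nil)) .nil)) (.cons 173 (.leaf 174 1387 (.cons 197 (.leaf 172 1379 (.cons 221 (.leaf 220 1570 (.leaf 222 1578 .nil)) .nil)) .nil)) .nil))) .nil)))))))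
noncomputable def t171 : T := .cons 202 (.leaf 222 1586 (.cons 178 (.leaf 179 1401 (.cons 177 (.leaf 198 1393 (.cons 225 (.leaf 249 1414 (.cons 130 (.leaf 154 1038 (.cons 176 (.leaf 271 1405 (.cons 128 (.leaf 152 1028 (.cons 203 (.leaf 204 1411 (.cons 227 (.leaf 251 1431 (.leaf 226 1592 .nil)) .nil)) .nil)) .nil)) .nil)) .nil)) .nil)) .nil)) .nil)) (.cons 226 (.cons 202 (.leaf 227 1592 (.cons 225 (.leaf 198 1584 (.cons 177 (.leaf 249 1414 (.cons 153 (.leaf 129 1036 (.leaf 250 1228 .nil)) .nil)) .nil)) .nil)) (.cons 202 (.leaf 227 1592 (.cons 178 (.leaf 179 1401 (.cons 250 (.leaf 251 1428 (.cons 153 (.leaf 177 1231 (.cons 154 (.leaf 129 1039 (.cons 225 (.leaf 130 1038 (.leaf 249 1230 .nil)) .nil)) .nil)) .nil)) .nil)) .nil)) (.cons 176 (.leaf 271 1405 (.cons 128 (.leaf 152 1022 (.cons 198 (.leaf 225 1584 (.cons 177 (.leaf 197 1385 (.leaf 178 1393 .nil)) .nil)) .nil)) .nil)) (.cons 202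 (.leaf 227 1592 (.cons 178 (.leaf 179 1401 (.cons 177 (.leaf 198 1393 (.cons 153 (.leaf 129 1036 (.leaf 250 1231 .nil)) .nil)) .nil)) .nil)) (.cons 225 (.leaf 198 1584 (.cons 227 (.leaf 202 1592 (.leaf 228 1603 .nil)) .nil)) .nil))))) (.cons 226 (.cons 202 (.leaf 222 1586 (.leaf 227 1592 .nil)) (.cons 198 (.leaf 225 1584 (.cons 173 (.leaf 174 1387 (.cons 177 (.leaf 178 1393 (.cons 197 (.leaf 172 1379 (.leaf 176 1385 .nil)) .nil)) .nil)) .nil)) .nil)) (.cons 198 (.cons 174 (.leaf 173 1387 (.leaf 271 1399 .nil)) (.cons 173 (.leaf 174 1387 (.cons 177 (.leaf 178 1393 (.cons 197 (.leaf 172 1379 (.leaf 176 1385 .nil)) .nil)) .nil)) (.cons 176 (.leaf 271 1405 (.cons 177 (.leaf 197 1385 (.leaf 178 1393 .nil)) .nil)) .nil))) (.cons 202 (.leaf 222 1586 (.cons 227 (.leaf 226 1592 (.cons 203 (.leaf 228 1600 (.cons 180 (.leaf 179 1409 (.cons 204 (.leaf 251 1437 (.leaf 181 1417 .nil)) .nil)) .nil))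 .nil)) .nil)) .nil))))
noncomputable def t172 : T := .cons 223 (.leaf 175 1404 (.cons 201 t171 .nil)) (.cons 201 (t170) (.cons 223 (.cons 271 (.leaf 176 1405 (.cons 270 (.leaf 294 1590 (.cons 249 (.leaf 269 1961 (.leaf 250 1970 .nil)) .nil)) .nil)) (.cons 201 t168 (.cons 271 (.cons 270 (.leaf 294 1590 (.cons 249 (.leaf 269 1961 (.leaf 250 1970 .nil)) .nil)) (.cons 198 (.leaf 174 1399 (.cons 222 (.leaf 295 1591 (.cons 221 (.leaf 220 1760 (.leaf 201 1578 .nil)) .nil)) .nil)) .nil)) (.cons 271 (.leaf 176 1405 (.cons 198 (.leaf 174 1399 (.cons 222 (.leaf 295 1591 (.cons 221 (.leaf 220 1760 (.leaf 201 1578 .nil)) .nil)) .nil)) .nil)) .nil)))) (.cons 223 (.leaf 175 1404 (.cons 271 (.cons 270 (.leaf 294 1590 (.cons 249 (.leaf 269 1961 (.leaf 250 1970 .nil)) .nil)) (.cons 198 (.leaf 174 1399 (.cons 222 (.leaf 295 1591 (.cons 221 (.leaf 220 1760 (.leaf 201 1578 .nil)) .nil)) .nil)) .nil)) .nil))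 (.cons 223 (.leaf 175 1404 (.cons 271 (.leaf 176 1405 (.cons 270 (.leaf 294 1590 (.cons 249 (.leaf 269 1961 (.leaf 250 1970 .nil)) .nil)) .nil)) .nil)) (.cons 223 (.leaf 175 1404 (.cons 271 (.leaf 176 1405 (.cons 198 (.leaf 174 1399 (.cons 222 (.leaf 295 1591 (.cons 221 (.leaf 220 1760 (.leaf 201 1578 .nil)) .nil)) .nil)) .nil)) .nil)) .nil)))))
noncomputable def t173 : T := .cons 222 (.leaf 221 1771 (.cons 225 (.leaf 226 1777 (.cons 201 (.leaf 177 1414 (.cons 270 (.leaf 269 1962 (.cons 273 (.leaf 176 1415 (.cons 202 (.leaf 178 1421 (.cons 199 (.leaf 223 1586 (.cons 175 (.leaf 174 1395 (.leaf 198 1397 .nil)) .nil)) .nil)) .nil)) .nil)) .nil)) .nil)) .nil)) (.cons 222 (.leaf 221 1771 (.cons 223 (.leaf 250 1779 (.cons 199 (.leaf 175 1404 (.cons 176 (.leaf 271 1405 (.cons 128 (.leaf 152 1022 (.cons 201 (.leaf 202 1586 (.cons 225 (.leaf 177 1414 (.leaf 226 1777 .nil)) .nil)) .nil)) .nil))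 .nil)) .nil)) .nil)) (.cons 270 (.leaf 269 1962 (.cons 225 (.leaf 226 1777 (.cons 201 (.leaf 177 1414 (.cons 271 (.leaf 250 1970 (.cons 273 (.leaf 176 1415 (.cons 178 (.leaf 202 1421 (.cons 294 (.leaf 293 2154 (.cons 318 (.leaf 223 1781 (.leaf 342 1973 .nil)) .nil)) .nil)) .nil)) .nil)) .nil)) .nil)) .nil)) (.cons 222 (.leaf 221 1771 (.cons 223 (.leaf 250 1779 (.cons 199 (.leaf 175 1404 (.cons 176 (.leaf 271 1405 (.cons 128 (.leaf 152 1022 (.cons 201 (.leaf 202 1586 (.cons 225 (.leaf 177 1414 (.leaf 273 1415 .nil)) .nil)) .nil)) .nil)) .nil)) .nil)) .nil)) (.cons 270 (.leaf 269 1962 (.cons 222 (.leaf 221 1771 (.cons 271 (.leaf 250 1970 (.cons 198 (.leaf 174 1396 (.leaf 295 1588 .nil)) .nil)) .nil)) .nil)) .nil))))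
noncomputable def t174 : T := .cons 245 (.leaf 273 1960 (.cons 220 (.leaf 221 1763 (.cons 244 (.leaf 271 1952 (.leaf 219 1755 .nil)) .nil)) .nil)) (.cons 249 t173 (.cons 249 (.cons 221 (.leaf 222 1771 (.cons 220 (.leaf 245 1763 (.cons 226 (.leaf 225 1777 (.cons 250 (.leaf 227 1785 (.cons 270 (.leaf 269 1962 (.leaf 271 1970 .nil)) .nil)) .nil)) .nil)) .nil)) (.cons 222 (.leaf 221 1771 (.cons 223 (.leaf 250 1779 (.cons 199 (.leaf 175 1404 (.cons 201 (.leaf 202 1586 (.cons 271 (.leaf 176 1405 (.cons 198 (.leaf 174 1396 (.leaf 295 1591 .nil)) .nil)) .nil)) .nil)) .nil)) .nil)) (.cons 270 (.leaf 269 1962 (.cons 226 (.leaf 225 1777 (.cons 250 (.leaf 227 1785 (.leaf 271 1970 .nil)) .nil)) .nil)) (.cons 221 (.leaf 222 1771 (.cons 225 (.leaf 226 1777 (.cons 177 (.leaf 201 1414 (.cons 245 (.leaf 220 1763 (.cons 269 (.leaf 268 1954 (.leaf 270 1962 .nil)) .nil)) .nil)) .nil)) .nil)) .nil)))) (.cons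 245 (.leaf 273 1960 (.cons 220 (.leaf 221 1763 (.cons 244 (.leaf 219 1755 (.cons 268 (.leaf 269 1954 (.leaf 267 1946 .nil)) .nil)) .nil)) .nil)) (.cons 245 (.leaf 273 1960 (.cons 244 (.leaf 271 1952 (.cons 268 (.leaf 269 1954 (.leaf 267 1946 .nil)) .nil)) .nil)) .nil))))
noncomputable def t175 : T := .cons 246 t174 (.cons 199 t172 (.cons 246 t166 (.cons 246 t163 (.cons 199 t162 (.cons 246 t155 (.cons 246 (.cons 245 (.leaf 273 1960 (.cons 244 (.leaf 271 1952 (.cons 268 (.leaf 269 1954 (.leaf 267 1946 .nil)) .nil)) .nil)) (.cons 249 t153 (.cons 245 (.cons 244 (.leaf 271 1952 (.cons 268 (.leaf 269 1954 (.leaf 267 1946 .nil)) .nil)) (.cons 221 (.leaf 220 1763 (.cons 222 (.leaf 249 1771 (.cons 269 (.leaf 268 1954 (.cons 198 (.leaf 174 1390 (.leaf 293 1581 .nil)) .nil)) .nil)) .nil)) (.cons 220 (.leaf 221 1763 (.cons 244 (.leaf 271 1952 (.leaf 219 1755 .nil)) .nil)) .nil))) (.cons 245 (.leaf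 273 1960 (.cons 221 (.leaf 220 1763 (.cons 222 (.leaf 249 1771 (.cons 269 (.leaf 268 1954 (.cons 198 (.leaf 174 1390 (.leaf 293 1581 .nil)) .nil)) .nil)) .nil)) .nil)) .nil)))) (.cons 246 t152 (.cons 246 (.cons 245 (.leaf 273 1960 (.cons 244 (.leaf 271 1952 (.cons 268 (.leaf 269 1954 (.leaf 267 1946 .nil)) .nil)) .nil)) (.cons 249 t149 (.cons 245 (.cons 244 (.leaf 271 1952 (.cons 268 (.leaf 269 1954 (.leaf 267 1946 .nil)) .nil)) (.cons 221 (.leaf 220 1763 (.cons 269 (.leaf 268 1954 (.cons 270 (.leaf 249 1962 (.cons 197 (.leaf 173 1388 (.leaf 294 1580 .nil)) .nil)) .nil)) .nil)) (.cons 220 (.leaf 221 1763 (.cons 244 (.leaf 271 1952 (.leaf 219 1755 .nil)) .nil)) .nil))) (.cons 245 (.leaf 273 1960 (.cons 221 (.leaf 220 1763 (.cons 269 (.leaf 268 1954 (.cons 270 (.leaf 249 1962 (.cons 197 (.leaf 173 1388 (.leaf 294 1580 .nil)) .nil)) .nil)) .nil)) .nil)) (.cons 245 (.leaf 273 1960 (.cons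 220 (.leaf 221 1763 (.cons 244 (.leaf 271 1952 (.leaf 219 1755 .nil)) .nil)) .nil)) .nil))))) (.cons 246 (.cons 245 (.leaf 273 1960 (.cons 244 (.leaf 271 1952 (.cons 268 (.leaf 269 1954 (.leaf 267 1946 .nil)) .nil)) .nil)) (.cons 249 t148 (.cons 249 t147 (.cons 245 (.leaf 273 1960 (.cons 269 (.leaf 268 1954 (.cons 249 (.leaf 270 1962 (.cons 226 (.leaf 225 1777 (.cons 227 (.leaf 250 1785 (.cons 202 (.cons 251 (.leaf 299 1623 (.cons 178 (.leaf 203 1431 (.leaf 154 1236 .nil)) .nil)) (.cons 201 (.leaf 199 1592 (.cons 228 (.leaf 203 1600 (.leaf 229 1611 .nil)) .nil)) (.cons 201 (.leaf 199 1592 (.cons 251 (.leaf 299 1623 (.cons 178 (.leaf 154 1236 (.cons 228 (.leaf 229 1611 (.cons 180 (.cons 179 (.leaf 177 1410 (.leaf 181 1418 .nil)) (.cons 204 (.leaf 252 1438 (.leaf 156 1246 .nil)) .nil)) .nil)) .nil)) .nil)) .nil)) .nil))) .nil)) .nil)) .nil)) .nil)) .nil)) (.cons 245 (.leaf 273 1960 (.cons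 244 (.leaf 271 1952 (.cons 219 (.leaf 220 1755 (.cons 243 (.leaf 218 1747 (.cons 267 (.leaf 268 1946 (.leaf 266 1938 .nil)) .nil)) .nil)) .nil)) .nil)) .nil))))) (.cons 246 t146 (.cons 246 t145 (.cons 246 t143 (.cons 246 t141 (.cons 246 t138 (.cons 246 t136 (.cons 246 (.cons 245 (.leaf 273 1960 (.cons 220 (.leaf 221 1763 (.cons 244 (.leaf 271 1952 (.leaf 219 1755 .nil)) .nil)) .nil)) (.cons 249 t134 (.cons 249 t133 (.cons 245 (.leaf 273 1960 (.cons 220 (.leaf 221 1763 (.cons 244 (.leaf 219 1755 (.cons 268 (.leaf 269 1954 (.leaf 267 1946 .nil)) .nil)) .nil)) .nil)) (.cons 245 (.leaf 273 1960 (.cons 244 (.leaf 271 1952 (.cons 268 (.leaf 269 1954 (.leaf 267 1946 .nil)) .nil)) .nil)) .nil))))) (.cons 246 t132 .nil)))))))))))))))))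
noncomputable def t176 : T := .cons 271 (.leaf 295 1598 (.cons 273 (.leaf 297 1604 (.cons 201 (.leaf 177 1413 (.cons 270 (.cons 249 (.leaf 269 1961 (.leaf 250 1969 .nil)) (.cons 245 (.leaf 246 1963 (.cons 269 (.leaf 244 1955 (.cons 293 (.leaf 292 2146 (.leaf 294 2154 .nil)) .nil)) .nil)) (.cons 249 (.leaf 250 1969 (.leaf 176 1412 .nil)) .nil))) .nil)) .nil)) .nil)) (.cons 175 (.leaf 199 1407 (.cons 176 (.leaf 151 1215 (.cons 177 (.leaf 201 1413 (.leaf 153 1221 .nil)) .nil)) .nil)) (.cons 271 (.leaf 295 1598 (.cons 176 (.leaf 247 1406 (.cons 175 (.leaf 199 1407 (.leaf 151 1215 .nil)) .nil)) .nil)) (.cons 199 (.leaf 175 1407 (.cons 201 (.leaf 177 1413 (.cons 273 (.leaf 297 1604 (.cons 198 (.cons 173 (.leaf 174 1387 (.cons 225 (.leaf 197 1576 (.leaf 226 1584 .nil)) .nil)) (.cons 173 (.leaf 174 1387 (.cons 197 (.leaf 172 1379 (.cons 221 (.leaf 220 1570 (.leaf 222 1578 .nil)) .nil)) .nil))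 (.cons 173 (.leaf 174 1387 (.cons 226 (.leaf 225 1584 (.cons 202 (.leaf 227 1592 (.cons 222 (.leaf 221 1578 (.leaf 223 1586 .nil)) .nil)) .nil)) .nil)) (.cons 225 (.leaf 197 1576 (.leaf 226 1584 .nil)) .nil)))) .nil)) .nil)) .nil)) .nil)))
noncomputable def t177 : T := .cons 224 t176 (.cons 247 t175 (.cons 224 t130 (.cons 224 t129 (.cons 224 t128 (.cons 224 t127 (.cons 224 t126 (.cons 224 (.cons 175 (.leaf 199 1407 (.cons 176 (.leaf 151 1215 (.cons 177 (.leaf 201 1413 (.leaf 153 1221 .nil)) .nil)) .nil)) (.cons 271 (.leaf 295 1598 (.cons 175 (.leaf 199 1407 (.cons 176 (.leaf 151 1215 (.leaf 247 1406 .nil)) .nil)) .nil)) (.cons 271 (.leaf 295 1598 (.cons 176 (.leaf 247 1406 (.cons 177 (.leaf 201 1413 (.leaf 153 1221 .nil)) .nil)) .nil)) (.cons 271 (.leaf 295 1598 (.cons 273 (.leaf 297 1604 (.cons 201 (.leaf 177 1413 (.cons 199 (.leaf 175 1407 (.cons 198 (.cons 225 (.leaf 197 1576 (.leaf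 226 1584 .nil)) (.cons 173 (.leaf 174 1387 (.cons 197 (.leaf 172 1379 (.cons 221 (.leaf 220 1570 (.leaf 222 1578 .nil)) .nil)) .nil)) (.cons 173 (.leaf 174 1387 (.cons 221 (.leaf 222 1578 (.cons 226 (.leaf 225 1584 (.cons 202 (.leaf 227 1592 (.cons 178 (.leaf 179 1401 (.cons 250 (.leaf 251 1428 (.leaf 249 1422 .nil)) .nil)) .nil)) .nil)) .nil)) .nil)) .nil))) .nil)) .nil)) .nil)) .nil)) .nil)))) (.cons 224 t125 .nil))))))))
noncomputable def t178 : T := .cons 245 (.leaf 273 1963 (.cons 244 (.leaf 247 1952 (.leaf 243 1944 .nil)) .nil)) (.cons 225 (.cons 247 (.leaf 226 1777 (.cons 221 (.leaf 222 1771 (.cons 296 (.leaf 320 1797 (.cons 223 (.leaf 199 1596 (.cons 294 (.leaf 318 1781 (.cons 273 (.leaf 201 1606 (.leaf 293 2154 .nil)) .nil)) .nil)) .nil)) .nil)) .nil)) (.cons 201 (.leaf 177 1414 (.cons 296 (.leaf 273 1606 (.leaf 320 1797 .nil)) .nil)) (.cons 247 (.leaf 226 1777 (.cons 222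 (.leaf 221 1771 (.cons 295 (.leaf 198 1588 (.leaf 319 1783 .nil)) .nil)) .nil)) .nil))) (.cons 222 (.cons 198 (.leaf 295 1588 (.cons 247 (.leaf 221 1771 (.leaf 174 1396 .nil)) .nil)) (.cons 295 (.leaf 198 1588 (.cons 319 (.leaf 343 1981 (.leaf 294 1780 .nil)) .nil)) (.cons 221 (.leaf 247 1771 (.cons 197 (.leaf 294 1583 (.cons 173 (.leaf 198 1391 (.leaf 245 1388 .nil)) .nil)) .nil)) (.cons 221 (.leaf 247 1771 (.cons 197 (.leaf 294 1583 (.cons 173 (.leaf 245 1388 (.leaf 149 1196 .nil)) .nil)) .nil)) .nil)))) (.cons 273 (.leaf 245 1963 (.cons 294 (.leaf 293 2154 (.cons 298 (.leaf 297 2160 (.cons 318 (.cons 341 (.leaf 317 1966 (.cons 342 (.leaf 365 2158 (.cons 295 (.leaf 366 2165 (.cons 222 (.leaf 198 1588 (.leaf 319 1780 .nil)) .nil)) .nil)) .nil)) (.cons 341 (.leaf 317 1966 (.cons 342 (.leaf 365 2158 (.cons 366 (.leaf 295 2165 (.cons 367 (.leaf 343 2164 (.leaf 391 2356 .nil)) .nil))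 .nil)) .nil)) (.cons 319 (.leaf 343 1972 (.cons 222 (.leaf 295 1780 (.cons 199 (.leaf 223 1589 (.cons 197 (.leaf 221 1583 (.cons 198 (.leaf 173 1391 (.leaf 175 1397 .nil)) .nil)) .nil)) .nil)) .nil)) (.cons 343 (.leaf 319 1972 (.cons 341 (.leaf 317 1966 (.cons 342 (.leaf 365 2158 (.leaf 367 2164 .nil)) .nil)) .nil)) .nil)))) .nil)) .nil)) .nil)) .nil)))
noncomputable def t179 : T := .cons 270 (.leaf 269 1961 (.cons 226 (.leaf 247 1777 (.cons 198 (.leaf 200 1584 (.cons 222 (.leaf 295 1588 (.leaf 175 1397 .nil)) .nil)) .nil)) .nil)) (.cons 247 (.leaf 226 1777 (.cons 221 (.leaf 222 1771 (.cons 245 (.leaf 244 1952 (.leaf 220 1763 .nil)) .nil)) .nil)) (.cons 198 (.cons 200 (.leaf 226 1584 (.cons 173 (.leaf 174 1387 (.cons 172 (.leaf 197 1379 (.cons 222 (.leaf 221 1578 (.cons 270 (.leaf 269 1961 (.leaf 295 1588 .nil)) .nil)) .nil)) .nil)) .nil)) (.cons 200 (.leaf 226 1584 (.cons 173 (.leaf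 174 1387 (.cons 197 (.leaf 172 1379 (.cons 221 (.leaf 222 1578 (.leaf 220 1570 .nil)) .nil)) .nil)) .nil)) (.cons 270 (.leaf 269 1961 (.cons 222 (.leaf 295 1588 (.leaf 175 1397 .nil)) .nil)) (.cons 200 (.leaf 226 1584 (.cons 173 (.leaf 174 1387 (.cons 197 (.leaf 172 1379 (.cons 221 (.leaf 220 1570 (.cons 270 (.leaf 269 1961 (.leaf 245 1388 .nil)) .nil)) .nil)) .nil)) .nil)) .nil)))) (.cons 247 (.cons 221 (.leaf 222 1771 (.cons 245 (.leaf 244 1952 (.leaf 220 1763 .nil)) .nil)) (.cons 270 (.leaf 269 1961 (.cons 222 (.leaf 221 1771 (.cons 198 (.leaf 174 1396 (.leaf 295 1588 .nil)) .nil)) .nil)) (.cons 269 (.leaf 270 1961 (.cons 245 (.leaf 244 1952 (.leaf 268 1954 .nil)) .nil)) .nil))) (.cons 270 (.leaf 269 1961 (.cons 226 (.leaf 247 1777 (.cons 200 (.leaf 198 1584 (.cons 227 (.leaf 228 1794 (.leaf 202 1592 .nil)) .nil)) .nil)) .nil)) .nil))))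
noncomputable def t180 : T := .cons 226 (.leaf 198 1584 (.cons 227 (.leaf 228 1794 (.leaf 202 1592 .nil)) .nil)) (.cons 202 (.cons 175 (.leaf 174 1395 (.cons 176 (.leaf 203 1403 (.cons 128 (.leaf 152 1028 (.cons 178 (.leaf 179 1401 (.cons 154 (.leaf 226 1230 (.leaf 130 1038 .nil)) .nil)) .nil)) .nil)) .nil)) (.cons 175 (.leaf 174 1395 (.cons 178 (.leaf 179 1401 (.cons 203 (.leaf 176 1403 (.cons 227 (.leaf 251 1431 (.leaf 228 1600 .nil)) .nil)) .nil)) .nil)) (.cons 174 (.leaf 175 1395 (.cons 227 (.leaf 226 1592 (.cons 203 (.leaf 228 1600 (.cons 180 (.leaf 179 1409 (.cons 204 (.leaf 251 1437 (.leaf 181 1417 .nil)) .nil)) .nil)) .nil)) .nil)) (.cons 178 (.leaf 179 1401 (.cons 154 (.leaf 226 1230 (.leaf 130 1038 .nil)) .nil)) (.cons 175 (.leaf 174 1395 (.cons 203 (.leaf 176 1403 (.cons 227 (.leaf 226 1592 (.leaf 228 1600 .nil)) .nil)) .nil)) .nil))))) (.cons 202 (.cons 174 (.leaf 175 1395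 (.cons 198 (.leaf 173 1387 (.cons 222 (.leaf 221 1578 (.leaf 223 1586 .nil)) .nil)) .nil)) (.cons 178 (.leaf 179 1401 (.cons 222 (.leaf 223 1586 (.cons 198 (.leaf 221 1578 (.cons 130 (.leaf 154 1038 (.cons 173 (.leaf 174 1387 (.cons 197 (.leaf 172 1379 (.leaf 246 1391 .nil)) .nil)) .nil)) .nil)) .nil)) .nil)) (.cons 175 (.leaf 174 1395 (.cons 178 (.leaf 179 1401 (.cons 203 (.leaf 176 1403 (.cons 227 (.leaf 251 1431 (.leaf 228 1600 .nil)) .nil)) .nil)) .nil)) (.cons 178 (.leaf 179 1401 (.cons 222 (.leaf 223 1586 (.cons 198 (.leaf 221 1578 (.cons 246 (.leaf 295 1588 (.leaf 175 1397 .nil)) .nil)) .nil)) .nil)) .nil)))) (.cons 198 (.leaf 226 1584 (.cons 173 (.leaf 174 1387 (.cons 197 (.leaf 172 1379 (.cons 221 (.leaf 222 1578 (.leaf 220 1570 .nil)) .nil)) .nil)) .nil)) .nil)))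
noncomputable def t181 : T := .cons 247 (.leaf 223 1596 (.cons 246 (.leaf 226 1777 (.cons 221 (.leaf 222 1771 (.cons 245 (.leaf 244 1952 (.leaf 220 1763 .nil)) .nil)) .nil)) .nil)) (.cons 270 (.leaf 269 1961 (.cons 200 t180 .nil)) (.cons 246 t179 (.cons 247 (.leaf 223 1596 (.cons 246 (.cons 221 (.leaf 222 1771 (.cons 245 (.leaf 244 1952 (.leaf 220 1763 .nil)) .nil)) (.cons 270 (.leaf 269 1961 (.cons 222 (.leaf 221 1771 (.cons 198 (.leaf 174 1396 (.leaf 295 1588 .nil)) .nil)) .nil)) (.cons 269 (.leaf 270 1961 (.cons 245 (.leaf 244 1952 (.leaf 268 1954 .nil)) .nil)) .nil))) .nil)) (.cons 270 (.leaf 269 1961 (.cons 223 (.leaf 247 1596 (.cons 200 (.cons 198 (.leaf 226 1584 (.cons 222 (.leaf 221 1578 (.leaf 202 1586 .nil)) .nil)) (.cons 198 (.leaf 226 1584 (.cons 173 (.leaf 174 1387 (.cons 197 (.leaf 172 1379 (.cons 221 (.leaf 222 1578 (.leaf 220 1570 .nil)) .nil)) .nil)) .nil)) (.cons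 202 (.leaf 222 1586 (.cons 175 (.leaf 174 1395 (.cons 178 (.leaf 179 1401 (.cons 203 (.leaf 176 1403 (.cons 227 (.leaf 251 1431 (.leaf 228 1600 .nil)) .nil)) .nil)) .nil)) .nil)) (.cons 226 (.leaf 198 1584 (.cons 227 (.leaf 228 1794 (.leaf 202 1592 .nil)) .nil)) .nil)))) .nil)) .nil)) (.cons 247 (.leaf 223 1596 (.cons 226 (.leaf 246 1777 (.cons 200 (.leaf 198 1584 (.cons 227 (.leaf 228 1794 (.leaf 202 1592 .nil)) .nil)) .nil)) .nil)) .nil)))))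
noncomputable def t182 : T := .cons 296 (.leaf 320 1797 (.cons 201 (.leaf 177 1414 (.leaf 273 1606 .nil)) .nil)) (.cons 270 (.leaf 269 1961 (.cons 201 (.leaf 177 1414 (.cons 246 (.cons 273 (.leaf 245 1963 (.cons 176 (.leaf 200 1415 (.cons 202 (.leaf 178 1421 (.cons 297 (.leaf 298 2160 (.leaf 226 1613 .nil)) .nil)) .nil)) .nil)) (.cons 247 (.leaf 226 1777 (.cons 221 (.leaf 222 1771 (.cons 245 (.leaf 244 1952 (.leaf 220 1763 .nil)) .nil)) .nil)) (.cons 247 (.leaf 226 1777 (.cons 222 (.leaf 221 1771 (.cons 198 (.leaf 174 1396 (.leaf 295 1588 .nil)) .nil)) .nil)) (.cons 245 (.leaf 273 1963 (.cons 244 (.leaf 247 1952 (.leaf 243 1944 .nil)) .nil)) .nil)))) .nil)) .nil)) (.cons 270 (.leaf 269 1961 (.cons 320 (.leaf 296 1797 (.cons 246 (.cons 247 (.leaf 226 1777 (.cons 222 (.leaf 221 1771 (.cons 198 (.leaf 174 1396 (.leaf 295 1588 .nil)) .nil)) .nil)) (.cons 273 (.leaf 245 1963 (.cons 297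 (.leaf 298 2160 (.cons 321 (.leaf 345 1991 (.leaf 344 1990 .nil)) .nil)) .nil)) .nil)) .nil)) .nil)) (.cons 296 (.leaf 320 1797 (.cons 201 (.leaf 177 1414 (.cons 199 t181 .nil)) .nil)) .nil)))
noncomputable def t183 : T := .cons 249 (.leaf 250 1969 (.cons 246 (.leaf 245 1963 (.cons 294 (.leaf 293 2154 (.cons 297 (.leaf 298 2160 (.cons 321 (.leaf 345 1991 (.cons 320 (.leaf 344 1990 (.cons 322 (.leaf 346 1996 (.cons 319 (.leaf 295 2355 (.cons 343 (.leaf 296 1982 (.leaf 318 1972 .nil)) .nil)) .nil)) .nil)) .nil)) .nil)) .nil)) .nil)) .nil)) (.cons 246 (.leaf 245 1963 (.cons 294 (.leaf 293 2154 (.cons 297 (.leaf 298 2160 (.cons 321 (.leaf 345 1991 (.cons 295 (.cons 319 (.leaf 343 1981 (.leaf 222 1780 .nil)) (.cons 198 (.leaf 222 1588 (.cons 296 (.leaf 322 2352 (.cons 318 (.leaf 317 2346 (.cons 342 (.leaf 247 1973 (.leaf 366 2165 .nil)) .nil)) .nil)) .nil)) (.cons 319 (.leaf 343 1981 (.cons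 322 (.leaf 296 2352 (.leaf 320 2355 .nil)) .nil)) .nil))) .nil)) .nil)) .nil)) .nil)) (.cons 249 (.leaf 250 1969 (.cons 293 (.leaf 294 2154 (.cons 297 (.leaf 298 2160 (.cons 321 (.leaf 345 1991 (.cons 320 (.leaf 344 1990 (.cons 225 (.leaf 296 1797 (.cons 201 (.leaf 177 1414 (.cons 202 (.leaf 178 1421 (.leaf 226 1613 .nil)) .nil)) .nil)) .nil)) .nil)) .nil)) .nil)) .nil)) (.cons 249 (.leaf 250 1969 (.cons 246 (.leaf 245 1963 (.cons 225 (.cons 247 (.leaf 226 1777 (.cons 222 (.leaf 221 1771 (.cons 198 (.leaf 174 1396 (.leaf 295 1588 .nil)) .nil)) .nil)) (.cons 201 (.leaf 177 1414 (.leaf 296 1606 .nil)) .nil)) .nil)) .nil)) (.cons 249 (.leaf 250 1969 (.cons 246 (.leaf 245 1963 (.cons 294 (.leaf 293 2154 (.cons 297 (.leaf 298 2160 (.cons 321 (.leaf 345 1991 (.cons 320 (.leaf 344 1990 (.cons 322 (.leaf 346 1996 (.cons 319 (.leaf 295 2355 (.cons 343 (.leaf 318 1972 (.leaf 342 2546 .nil))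 .nil)) .nil)) .nil)) .nil)) .nil)) .nil)) .nil)) .nil)) .nil))))
noncomputable def t184 : T := .cons 269 (.leaf 249 1961 (.cons 244 (.leaf 245 1955 (.cons 268 (.leaf 247 1953 (.leaf 243 1947 .nil)) .nil)) .nil)) (.cons 273 t183 (.cons 269 (.cons 244 (.leaf 245 1955 (.cons 268 (.leaf 247 1953 (.leaf 243 1947 .nil)) .nil)) (.cons 245 (.leaf 244 1955 (.cons 246 (.leaf 273 1963 (.cons 293 (.leaf 292 2146 (.cons 222 (.leaf 198 1582 (.leaf 317 1773 .nil)) .nil)) .nil)) .nil)) (.cons 247 (.leaf 268 1953 (.cons 293 (.leaf 292 2146 (.cons 296 (.leaf 297 2152 (.cons 294 (.leaf 273 2154 (.cons 318 (.leaf 342 1973 (.cons 320 (.leaf 344 1983 (.cons 321 (.leaf 345 1988 (.leaf 295 2344 .nil)) .nil)) .nil)) .nil)) .nil)) .nil)) .nil)) .nil))) (.cons 269 (.leaf 249 1961 (.cons 244 (.leaf 245 1955 (.cons 268 (.leaf 243 1947 (.cons 296 (.leaf 297 2152 (.leaf 295 2144 .nil)) .nil)) .nil)) .nil)) (.cons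 269 (.leaf 249 1961 (.cons 247 (.leaf 268 1953 (.cons 293 (.leaf 292 2146 (.cons 296 (.leaf 297 2152 (.cons 294 (.leaf 273 2154 (.cons 318 (.leaf 342 1973 (.cons 320 (.leaf 344 1983 (.cons 321 (.leaf 345 1988 (.leaf 295 2344 .nil)) .nil)) .nil)) .nil)) .nil)) .nil)) .nil)) .nil)) .nil))))
noncomputable def t185 : T := .cons 246 (.leaf 245 1963 (.cons 225 (.cons 247 (.leaf 226 1777 (.cons 222 (.leaf 221 1771 (.cons 198 (.leaf 174 1396 (.leaf 295 1588 .nil)) .nil)) .nil)) (.cons 201 (.leaf 177 1414 (.leaf 296 1606 .nil)) .nil)) .nil)) (.cons 297 (.leaf 298 2160 (.cons 321 (.leaf 345 1991 (.cons 320 (.leaf 344 1990 (.cons 225 (.leaf 296 1797 (.cons 201 (.leaf 177 1414 (.cons 202 (.leaf 178 1421 (.leaf 226 1613 .nil)) .nil)) .nil)) .nil)) .nil)) .nil)) (.cons 246 (.leaf 245 1963 (.cons 297 (.leaf 298 2160 (.cons 321 (.leaf 345 1991 (.cons 322 (.leaf 346 1996 (.cons 222 (.cons 221 (.leaf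 247 1771 (.cons 295 (.leaf 198 1588 (.cons 319 (.leaf 343 1981 (.leaf 294 1780 .nil)) .nil)) .nil)) (.cons 295 (.leaf 198 1588 (.cons 319 (.leaf 343 1981 (.leaf 294 1780 .nil)) .nil)) (.cons 221 (.leaf 247 1771 (.cons 197 (.leaf 294 1583 (.cons 173 (.leaf 198 1391 (.leaf 149 1196 .nil)) .nil)) .nil)) (.cons 247 (.leaf 221 1771 (.cons 225 (.leaf 226 1777 (.cons 319 (.leaf 295 1783 (.cons 320 (.leaf 344 1990 (.cons 342 (.leaf 343 2546 (.cons 318 (.leaf 294 1973 (.leaf 341 2538 .nil)) .nil)) .nil)) .nil)) .nil)) .nil)) (.cons 247 (.leaf 221 1771 (.cons 198 (.leaf 174 1396 (.leaf 295 1588 .nil)) .nil)) .nil))))) .nil)) .nil)) .nil)) .nil)) (.cons 246 (.leaf 245 1963 (.cons 297 (.leaf 298 2160 (.cons 321 (.leaf 345 1991 (.cons 322 (.leaf 346 1996 (.cons 222 (.cons 221 (.leaf 247 1771 (.cons 295 (.leaf 198 1588 (.cons 319 (.leaf 343 1981 (.leaf 294 1780 .nil)) .nil)) .nil)) (.cons 221 (.leaf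 247 1771 (.cons 197 (.leaf 294 1583 (.cons 173 (.leaf 198 1391 (.leaf 149 1196 .nil)) .nil)) .nil)) (.cons 295 (.leaf 198 1588 (.cons 319 (.leaf 343 1981 (.leaf 294 1780 .nil)) .nil)) (.cons 320 (.leaf 344 1990 (.cons 247 (.leaf 221 1771 (.cons 223 (.leaf 296 1791 (.cons 199 (.leaf 175 1404 (.leaf 294 1589 .nil)) .nil)) .nil)) .nil)) (.cons 247 (.leaf 221 1771 (.cons 198 (.leaf 174 1396 (.leaf 295 1588 .nil)) .nil)) .nil))))) .nil)) .nil)) .nil)) .nil)) .nil)))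
noncomputable def t186 : T := .cons 225 (.cons 247 (.leaf 226 1777 (.cons 221 (.leaf 222 1771 (.cons 245 (.leaf 244 1952 (.leaf 273 1960 .nil)) .nil)) .nil)) (.cons 201 (.leaf 177 1414 (.cons 273 (.leaf 296 1606 (.leaf 245 1963 .nil)) .nil)) (.cons 247 (.leaf 226 1777 (.cons 221 (.leaf 222 1771 (.cons 296 (.leaf 320 1797 (.cons 223 (.leaf 199 1596 (.cons 294 (.leaf 318 1781 (.cons 273 (.leaf 201 1606 (.leaf 293 2154 .nil)) .nil)) .nil)) .nil)) .nil)) .nil)) (.cons 247 (.leaf 226 1777 (.cons 222 (.leaf 221 1771 (.cons 295 (.leaf 198 1588 (.leaf 319 1783 .nil)) .nil)) .nil)) .nil)))) (.cons 225 (.cons 247 (.leaf 226 1777 (.cons 221 (.leaf 222 1771 (.cons 296 (.leaf 320 1797 (.cons 223 (.leaf 199 1596 (.cons 294 (.leaf 318 1781 (.cons 273 (.leaf 201 1606 (.leaf 293 2154 .nil)) .nil)) .nil)) .nil)) .nil)) .nil)) (.cons 201 (.leaf 177 1414 (.cons 296 (.leaf 273 1606 (.leaf 320 1797 .nil))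 .nil)) (.cons 247 (.leaf 226 1777 (.cons 222 (.leaf 221 1771 (.cons 295 (.leaf 198 1588 (.leaf 319 1783 .nil)) .nil)) .nil)) .nil))) (.cons 273 (.leaf 245 1963 (.cons 294 (.leaf 293 2154 (.cons 222 (.cons 295 (.leaf 198 1588 (.leaf 319 1780 .nil)) (.cons 197 (.leaf 221 1583 (.cons 198 (.leaf 173 1391 (.cons 199 (.leaf 175 1397 (.leaf 223 1589 .nil)) .nil)) .nil)) (.cons 197 (.leaf 221 1583 (.cons 319 (.leaf 295 1780 (.cons 318 (.leaf 343 1972 (.cons 341 (.leaf 317 1966 (.cons 342 (.leaf 365 2158 (.cons 199 (.leaf 223 1589 (.cons 320 (.leaf 321 2538 (.cons 296 (.leaf 225 1797 (.leaf 344 1989 .nil)) .nil)) .nil)) .nil)) .nil)) .nil)) .nil)) .nil)) .nil))) .nil)) .nil)) (.cons 222 (.cons 198 (.leaf 295 1588 (.cons 247 (.leaf 221 1771 (.leaf 174 1396 .nil)) .nil)) (.cons 295 (.leaf 198 1588 (.cons 319 (.leaf 343 1981 (.leaf 294 1780 .nil)) .nil)) (.cons 221 (.leaf 247 1771 (.cons 197 (.leaf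 294 1583 (.cons 173 (.leaf 198 1391 (.leaf 245 1388 .nil)) .nil)) .nil)) (.cons 221 (.leaf 247 1771 (.cons 197 (.leaf 294 1583 (.cons 173 (.leaf 245 1388 (.leaf 149 1196 .nil)) .nil)) .nil)) .nil)))) (.cons 245 (.leaf 273 1963 (.cons 244 (.leaf 247 1952 (.leaf 243 1944 .nil)) .nil)) .nil))))
noncomputable def t187 : T := .cons 225 (.cons 247 (.leaf 226 1777 (.leaf 250 1970 .nil)) (.cons 201 (.leaf 177 1414 (.cons 273 (.leaf 296 1606 (.leaf 245 1963 .nil)) .nil)) .nil)) (.cons 225 (.cons 247 (.leaf 226 1777 (.cons 221 (.leaf 222 1771 (.cons 245 (.leaf 244 1952 (.leaf 273 1960 .nil)) .nil)) .nil)) (.cons 201 (.leaf 177 1414 (.cons 273 (.leaf 296 1606 (.leaf 245 1963 .nil)) .nil)) (.cons 247 (.leaf 226 1777 (.cons 221 (.leaf 222 1771 (.cons 296 (.leaf 320 1797 (.cons 223 (.leaf 199 1596 (.cons 294 (.leaf 318 1781 (.cons 273 (.leaf 201 1606 (.leaf 293 2154 .nil)) .nil)) .nil)) .nil)) .nil))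 .nil)) (.cons 247 (.leaf 226 1777 (.cons 222 (.leaf 221 1771 (.cons 295 (.leaf 198 1588 (.leaf 319 1783 .nil)) .nil)) .nil)) .nil)))) (.cons 273 (.leaf 245 1963 (.leaf 250 1969 .nil)) (.cons 222 (.cons 198 (.leaf 295 1588 (.cons 247 (.leaf 221 1771 (.leaf 250 1970 .nil)) .nil)) (.cons 295 (.leaf 198 1588 (.cons 319 (.leaf 343 1981 (.leaf 294 1780 .nil)) .nil)) (.cons 221 (.leaf 247 1771 (.cons 197 (.leaf 294 1583 (.cons 173 (.leaf 198 1391 (.leaf 245 1388 .nil)) .nil)) .nil)) (.cons 221 (.leaf 247 1771 (.cons 197 (.leaf 294 1583 (.cons 173 (.leaf 245 1388 (.leaf 149 1196 .nil)) .nil)) .nil)) .nil)))) (.cons 225 (.cons 247 (.leaf 226 1777 (.leaf 250 1970 .nil)) (.cons 247 (.leaf 226 1777 (.cons 221 (.leaf 222 1771 (.cons 296 (.leaf 320 1797 (.cons 223 (.leaf 199 1596 (.cons 294 (.leaf 318 1781 (.cons 273 (.leaf 201 1606 (.leaf 293 2154 .nil)) .nil)) .nil)) .nil)) .nil)) .nil)) (.cons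 201 (.leaf 177 1414 (.cons 273 (.leaf 296 1606 (.leaf 250 1969 .nil)) .nil)) .nil))) .nil))))
noncomputable def t188 : T := .cons 292 (.leaf 295 2145 (.leaf 291 2137 .nil)) (.cons 320 (.cons 296 (.leaf 225 1797 (.cons 247 (.leaf 223 1791 (.leaf 344 1983 .nil)) .nil)) (.cons 318 (.cons 319 (.leaf 321 2347 (.cons 295 (.leaf 343 1981 (.cons 247 (.leaf 223 1782 (.leaf 342 1973 .nil)) .nil)) .nil)) (.cons 319 (.leaf 321 2347 (.cons 295 (.leaf 343 1981 (.cons 247 (.leaf 223 1782 (.leaf 344 1980 .nil)) .nil)) .nil)) (.cons 247 (.leaf 342 1973 (.cons 223 (.leaf 199 1590 (.leaf 295 1782 .nil)) .nil)) (.cons 319 (.leaf 321 2347 (.cons 295 (.leaf 343 1981 (.cons 342 (.leaf 366 2165 (.cons 341 (.leaf 365 2158 (.cons 340 (.leaf 317 2530 (.leaf 339 2521 .nil)) .nil)) .nil)) .nil)) .nil)) (.cons 319 (.leaf 321 2347 (.cons 342 (.leaf 247 1973 (.cons 341 (.leaf 365 2158 (.cons 340 (.leaf 317 2530 (.leaf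 343 2529 .nil)) .nil)) .nil)) .nil)) .nil))))) (.cons 296 (.leaf 225 1797 (.cons 321 (.leaf 345 1988 (.leaf 295 2344 .nil)) .nil)) .nil))) (.cons 292 (.leaf 291 2137 (.cons 320 (.cons 296 (.leaf 225 1797 (.cons 247 (.leaf 223 1791 (.leaf 344 1983 .nil)) .nil)) (.cons 318 (.cons 319 (.leaf 321 2347 (.leaf 317 2339 .nil)) (.cons 342 (.leaf 247 1973 (.cons 365 (.leaf 341 2158 (.cons 366 (.leaf 389 2350 (.cons 367 (.leaf 343 2164 (.leaf 391 2356 .nil)) .nil)) .nil)) .nil)) .nil)) (.cons 296 (.leaf 225 1797 (.cons 319 (.leaf 343 1982 (.cons 318 (.leaf 321 2347 (.leaf 317 2339 .nil)) .nil)) .nil)) .nil))) .nil)) .nil))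
noncomputable def t189 : T := .cons 296 (.leaf 320 1797 (.cons 228 (.leaf 252 1821 (.cons 297 (.leaf 298 2171 (.cons 324 (.leaf 348 2012 (.cons 321 (.leaf 322 2371 (.cons 345 (.leaf 273 1991 (.leaf 369 2183 .nil)) .nil)) .nil)) .nil)) .nil)) .nil)) (.cons 346 (.leaf 322 2006 (.cons 228 (.leaf 252 1821 (.cons 347 (.leaf 370 2198 (.cons 348 (.leaf 324 2012 (.leaf 372 2204 .nil)) .nil)) .nil)) .nil)) (.cons 348 (.leaf 324 2012 (.cons 228 (.leaf 252 1821 (.cons 347 (.leaf 372 2204 (.cons 346 (.leaf 370 2198 (.cons 320 (.leaf 296 1797 (.cons 345 (.leaf 321 2563 (.cons 344 (.leaf 319 2555 (.cons 368 (.leaf 369 2754 (.leaf 367 2746 .nil)) .nil)) .nil)) .nil)) .nil)) .nil)) .nil)) .nil)) (.cons 296 (.leaf 320 1797 (.cons 228 (.leaf 252 1821 (.cons 297 (.leaf 298 2171 (.cons 322 (.leaf 346 2006 (.cons 321 (.leaf 324 2371 (.cons 345 (.leaf 273 1991 (.leaf 369 2183 .nil)) .nil)) .nil)) .nil))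 .nil)) .nil)) (.cons 296 (.leaf 320 1797 (.cons 228 (.leaf 252 1821 (.cons 346 (.leaf 322 2006 (.cons 347 (.leaf 370 2198 (.cons 372 (.leaf 348 2204 (.cons 371 (.leaf 396 2396 (.cons 297 (.leaf 298 2171 (.cons 345 (.leaf 344 2752 (.cons 321 (.leaf 273 1991 (.leaf 369 2183 .nil)) .nil)) .nil)) .nil)) .nil)) .nil)) .nil)) .nil)) .nil)) (.cons 296 (.leaf 320 1797 (.cons 297 (.leaf 298 2171 (.cons 322 (.leaf 346 2006 (.cons 324 (.leaf 348 2012 (.leaf 321 2371 .nil)) .nil)) .nil)) .nil)) .nil)))))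
noncomputable def t190 : T := .cons 296 (.leaf 320 1797 (.cons 298 (.leaf 297 2171 (.cons 227 (.leaf 322 1814 (.cons 226 (.leaf 202 1623 (.leaf 228 1794 .nil)) .nil)) .nil)) .nil)) (.cons 227 (.cons 226 (.leaf 202 1623 (.leaf 228 1794 .nil)) (.cons 322 (.leaf 298 1814 (.cons 323 (.leaf 346 2006 (.cons 324 (.leaf 300 1820 (.leaf 348 2012 .nil)) .nil)) .nil)) .nil)) (.cons 323 t189 (.cons 296 (.leaf 320 1797 (.cons 298 (.leaf 297 2171 (.cons 322 (.leaf 227 1814 (.cons 346 (.leaf 323 2006 (.leaf 370 2197 .nil)) .nil)) .nil)) .nil)) (.cons 296 (.leaf 320 1797 (.cons 228 (.cons 227 (.leaf 204 1629 (.leaf 226 1794 .nil)) (.cons 323 (.leaf 252 1821 (.cons 348 (.leaf 324 2012 (.cons 346 (.leaf 322 2006 (.cons 347 (.leaf 370 2198 (.leaf 372 2204 .nil)) .nil)) .nil)) .nil)) .nil)) .nil)) (.cons 320 (.leaf 296 1797 (.cons 323 (.cons 228 (.leaf 252 1821 (.cons 227 (.leaf 204 1629 (.leaf 226 1794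 .nil)) .nil)) (.cons 348 (.leaf 324 2012 (.cons 347 (.leaf 372 2204 (.cons 346 (.leaf 370 2198 (.cons 345 (.leaf 321 2563 (.cons 344 (.leaf 319 2555 (.cons 368 (.leaf 369 2754 (.leaf 367 2746 .nil)) .nil)) .nil)) .nil)) .nil)) .nil)) .nil)) .nil)) .nil)))))
noncomputable def t191 : T := .cons 228 (.leaf 226 1794 (.cons 204 (.leaf 299 1629 (.cons 180 (.leaf 203 1437 (.leaf 252 1438 .nil)) .nil)) .nil)) (.cons 202 (.cons 178 (.leaf 203 1431 (.leaf 273 1421 .nil)) (.cons 226 (.leaf 299 1623 (.cons 200 (.leaf 199 1592 (.cons 273 (.leaf 176 1415 (.leaf 297 1613 .nil)) .nil)) .nil)) (.cons 178 (.leaf 203 1431 (.cons 154 (.leaf 226 1236 (.leaf 130 1038 .nil)) .nil)) .nil))) (.cons 299 (.cons 228 (.leaf 204 1629 (.cons 323 (.leaf 252 1821 (.cons 324 (.leaf 300 1820 (.leaf 348 2012 .nil)) .nil)) .nil)) (.cons 322 (.leaf 298 1814 (.cons 323 (.leaf 346 2006 (.cons 324 (.leaf 300 1820 (.leaf 348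 2012 .nil)) .nil)) .nil)) (.cons 228 (.leaf 204 1629 (.cons 322 (.leaf 298 1814 (.cons 323 (.leaf 252 1821 (.leaf 346 2006 .nil)) .nil)) .nil)) (.cons 228 (.leaf 204 1629 (.cons 298 (.leaf 322 1814 (.cons 300 (.leaf 324 1820 (.cons 273 (.leaf 297 2179 (.cons 200 (.leaf 176 1415 (.cons 202 (.leaf 178 1421 (.leaf 203 1600 .nil)) .nil)) .nil)) .nil)) .nil)) .nil)) .nil)))) (.cons 226 (.leaf 228 1794 (.cons 202 (.cons 178 (.leaf 203 1431 (.leaf 154 1236 .nil)) (.cons 200 (.leaf 199 1592 (.cons 273 (.leaf 176 1415 (.leaf 297 1613 .nil)) .nil)) .nil)) .nil)) (.cons 226 (.leaf 228 1794 (.cons 202 (.leaf 299 1623 (.cons 178 (.leaf 154 1236 (.leaf 273 1421 .nil)) .nil)) .nil)) .nil))))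
noncomputable def t192 : T := .cons 201 (.leaf 177 1414 (.cons 227 (.cons 228 (.leaf 226 1794 (.cons 204 (.leaf 299 1629 (.cons 180 (.leaf 203 1437 (.leaf 252 1438 .nil)) .nil)) .nil)) (.cons 296 (.leaf 273 1606 (.leaf 320 1797 .nil)) .nil)) .nil)) (.cons 201 (.leaf 177 1414 (.cons 227 t191 .nil)) (.cons 299 t190 (.cons 296 (.leaf 320 1797 (.cons 201 (.leaf 177 1414 (.leaf 273 1606 .nil)) .nil)) (.cons 296 (.leaf 320 1797 (.cons 201 (.leaf 177 1414 (.cons 227 (.cons 299 (.cons 298 (.leaf 322 1814 (.leaf 297 2171 .nil)) (.cons 202 (.leaf 226 1623 (.cons 203 (.leaf 178 1431 (.cons 180 (.leaf 204 1437 (.cons 179 (.leaf 156 1245 (.leaf 200 1409 .nil)) .nil)) .nil)) .nil)) .nil)) (.cons 299 (.cons 298 (.leaf 322 1814 (.leaf 297 2171 .nil)) (.cons 228 (.leaf 204 1629 (.cons 323 (.leaf 252 1821 (.cons 324 (.leaf 300 1820 (.leaf 348 2012 .nil)) .nil)) .nil)) .nil)) (.cons 228 (.leaf 226 1794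 (.cons 203 (.cons 202 (.leaf 178 1431 (.leaf 200 1600 .nil)) (.cons 180 (.leaf 204 1437 (.cons 179 (.leaf 156 1245 (.cons 154 (.leaf 178 1239 (.cons 155 (.leaf 130 1047 (.leaf 252 1244 .nil)) .nil)) .nil)) .nil)) (.cons 202 (.leaf 200 1600 (.cons 204 (.leaf 180 1437 (.leaf 229 1608 .nil)) .nil)) .nil))) .nil)) (.cons 226 (.leaf 228 1794 (.cons 202 (.leaf 299 1623 (.cons 178 (.leaf 203 1431 (.leaf 154 1236 .nil)) .nil)) .nil)) .nil)))) .nil)) .nil)) .nil))))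
noncomputable def t193 : T := .cons 270 (.leaf 269 1961 (.cons 250 (.leaf 251 1978 (.leaf 273 1969 .nil)) .nil)) (.cons 251 (.leaf 250 1978 (.cons 225 t192 .nil)) (.cons 270 (.leaf 269 1961 (.cons 294 (.cons 293 (.leaf 273 2154 (.cons 292 (.leaf 295 2145 (.leaf 291 2137 .nil)) .nil)) (.cons 296 (.cons 320 (.leaf 225 1797 (.cons 247 (.leaf 223 1791 (.leaf 344 1983 .nil)) .nil)) (.cons 297 (.cons 298 (.leaf 273 2160 (.leaf 299 2171 .nil)) (.cons 295 (.cons 318 (.leaf 317 2346 (.cons 247 (.leaf 223 1782 (.leaf 342 1973 .nil)) .nil)) (.cons 319 (.leaf 343 1981 (.cons 321 (.leaf 322 2352 (.cons 345 (.leaf 273 1991 (.leaf 369 2183 .nil)) .nil)) .nil)) .nil)) (.cons 298 (.leaf 299 2171 (.leaf 295 2163 .nil)) .nil))) (.cons 225 (.leaf 320 1797 (.cons 201 (.leaf 177 1414 (.leaf 273 1606 .nil)) .nil)) .nil))) (.cons 293 t188 (.cons 273 (.leaf 293 2154 (.cons 297 (.leaf 298 2160 (.cons 321 (.leaf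 345 1991 (.cons 320 (.leaf 344 1990 (.cons 225 (.leaf 296 1797 (.cons 201 (.leaf 177 1414 (.cons 202 (.leaf 178 1421 (.leaf 226 1613 .nil)) .nil)) .nil)) .nil)) .nil)) .nil)) .nil)) .nil)))) .nil)) (.cons 270 (.leaf 269 1961 (.cons 250 (.leaf 251 1978 (.leaf 247 1970 .nil)) .nil)) .nil)))
noncomputable def t194 : T := .cons 269 (.leaf 270 1961 (.cons 246 (.cons 221 (.leaf 222 1771 (.cons 245 (.leaf 244 1952 (.leaf 220 1763 .nil)) .nil)) (.cons 222 (.leaf 221 1771 (.cons 225 (.leaf 226 1777 (.cons 295 (.leaf 319 1783 (.cons 296 (.leaf 320 1797 (.cons 223 (.leaf 199 1596 (.leaf 250 1779 .nil)) .nil)) .nil)) .nil)) .nil)) (.cons 245 (.leaf 244 1952 (.leaf 268 1954 .nil)) .nil))) .nil)) (.cons 250 (.leaf 251 1978 (.cons 226 (.leaf 227 1785 (.cons 223 (.leaf 222 1779 (.cons 199 (.leaf 175 1404 (.leaf 296 1596 .nil)) .nil)) .nil)) .nil)) (.cons 269 (.leaf 270 1961 (.cons 246 (.cons 221 (.leaf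 222 1771 (.cons 245 (.leaf 244 1952 (.leaf 220 1763 .nil)) .nil)) (.cons 222 (.leaf 221 1771 (.cons 225 (.leaf 226 1777 (.cons 295 (.leaf 319 1783 (.cons 296 (.leaf 320 1797 (.cons 223 (.leaf 199 1596 (.cons 294 (.leaf 318 1782 (.cons 293 (.leaf 292 2145 (.leaf 268 2147 .nil)) .nil)) .nil)) .nil)) .nil)) .nil)) .nil)) (.cons 245 (.leaf 244 1952 (.leaf 268 1954 .nil)) .nil))) .nil)) (.cons 250 (.leaf 251 1978 (.leaf 270 1970 .nil)) .nil)))
noncomputable def t195 : T := .cons 295 (.cons 320 (.leaf 296 1788 (.cons 319 (.leaf 343 1981 (.leaf 344 1980 .nil)) .nil)) (.cons 198 (.leaf 222 1591 (.cons 318 (.leaf 294 1782 (.cons 319 (.leaf 343 1981 (.leaf 342 1974 .nil)) .nil)) .nil)) (.cons 296 (.leaf 199 1596 (.leaf 320 1788 .nil)) .nil))) (.cons 295 (.cons 320 (.leaf 296 1788 (.cons 319 (.leaf 343 1981 (.leaf 344 1980 .nil)) .nil)) (.cons 198 (.leaf 222 1591 (.cons 318 (.leaf 294 1782 (.cons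 319 (.leaf 343 1981 (.leaf 342 1974 .nil)) .nil)) .nil)) (.cons 296 (.leaf 320 1788 (.cons 198 (.leaf 222 1591 (.cons 294 (.leaf 318 1782 (.cons 293 (.leaf 292 2145 (.cons 269 (.leaf 268 2147 (.cons 297 (.leaf 270 2152 (.cons 298 (.leaf 299 2171 (.cons 322 (.leaf 321 2352 (.leaf 323 2360 .nil)) .nil)) .nil)) .nil)) .nil)) .nil)) .nil)) .nil)) .nil))) (.cons 199 (.leaf 175 1404 (.cons 198 (.leaf 174 1399 (.cons 200 (.leaf 176 1405 (.cons 222 (.leaf 295 1591 (.cons 221 (.leaf 220 1760 (.leaf 201 1578 .nil)) .nil)) .nil)) .nil)) .nil)) (.cons 199 (.leaf 175 1404 (.leaf 296 1596 .nil)) .nil)))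
noncomputable def t196 : T := .cons 199 (.leaf 175 1404 (.leaf 296 1596 .nil)) (.cons 296 (.leaf 320 1791 (.cons 295 (.cons 294 (.leaf 318 1782 (.cons 293 (.leaf 292 2145 (.cons 269 (.leaf 268 2147 (.cons 270 (.leaf 297 2152 (.cons 244 (.leaf 245 1955 (.cons 317 (.leaf 316 2338 (.cons 222 (.leaf 198 1591 (.leaf 246 1774 .nil)) .nil)) .nil)) .nil)) .nil)) .nil)) .nil)) (.cons 319 (.leaf 343 1981 (.cons 222 (.leaf 198 1591 (.leaf 246 1783 .nil)) .nil)) (.cons 294 (.leaf 318 1782 (.cons 293 (.leaf 292 2145 (.cons 269 (.leaf 268 2147 (.cons 270 (.leaf 297 2152 (.cons 244 (.leaf 245 1955 (.cons 317 (.leaf 316 2338 (.cons 341 (.leaf 365 2157 (.leaf 246 1965 .nil)) .nil)) .nil)) .nil)) .nil)) .nil)) .nil)) (.cons 198 (.leaf 222 1591 (.cons 294 (.leaf 318 1782 (.cons 293 (.leaf 292 2145 (.cons 269 (.leaf 268 2147 (.cons 297 (.leaf 270 2152 (.cons 298 (.leaf 299 2171 (.cons 322 (.leaf 321 2352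 (.leaf 323 2360 .nil)) .nil)) .nil)) .nil)) .nil)) .nil)) .nil)) .nil)))) .nil)) (.cons 199 (.leaf 175 1404 (.cons 198 (.leaf 174 1399 (.cons 200 (.leaf 176 1405 (.cons 222 (.leaf 295 1591 (.cons 221 (.leaf 220 1760 (.leaf 201 1578 .nil)) .nil)) .nil)) .nil)) .nil)) .nil))
noncomputable def t197 : T := .cons 249 (.cons 250 (.leaf 251 1978 (.leaf 270 1970 .nil)) (.cons 250 (.leaf 251 1978 (.cons 226 (.leaf 227 1785 (.cons 223 (.leaf 222 1779 (.cons 199 (.leaf 175 1404 (.leaf 296 1596 .nil)) .nil)) .nil)) .nil)) (.cons 269 (.leaf 270 1961 (.cons 246 (.cons 221 (.leaf 222 1771 (.cons 245 (.leaf 244 1952 (.leaf 220 1763 .nil)) .nil)) (.cons 222 (.leaf 221 1771 (.cons 225 (.leaf 226 1777 (.cons 295 (.leaf 319 1783 (.cons 296 (.leaf 320 1797 (.cons 223 (.leaf 199 1596 (.leaf 198 1591 .nil)) .nil)) .nil)) .nil)) .nil)) (.cons 245 (.leaf 244 1952 (.leaf 268 1954 .nil)) .nil))) .nil)) .nil)))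 (.cons 223 (.cons 199 (.leaf 175 1404 (.leaf 296 1596 .nil)) (.cons 199 (.leaf 175 1404 (.cons 198 (.leaf 174 1399 (.cons 200 (.leaf 176 1405 (.cons 222 (.leaf 295 1591 (.cons 221 (.leaf 220 1760 (.leaf 201 1578 .nil)) .nil)) .nil)) .nil)) .nil)) (.cons 296 (.leaf 320 1791 (.cons 222 (.cons 221 (.leaf 220 1760 (.cons 249 (.leaf 246 1771 (.leaf 250 1779 .nil)) .nil)) (.cons 198 (.leaf 295 1591 (.cons 174 (.leaf 246 1396 (.leaf 150 1204 .nil)) .nil)) (.cons 220 (.leaf 221 1760 (.cons 249 (.leaf 250 1779 (.cons 295 (.leaf 198 1591 (.cons 318 (.leaf 294 1782 (.cons 319 (.leaf 343 1981 (.leaf 342 1974 .nil)) .nil)) .nil)) .nil)) .nil)) .nil))) .nil)) .nil))) (.cons 249 (.cons 246 (.cons 269 (.leaf 270 1961 (.cons 221 (.leaf 222 1771 (.cons 245 (.leaf 244 1952 (.leaf 220 1763 .nil)) .nil)) .nil)) (.cons 245 (.leaf 244 1952 (.cons 221 (.leaf 220 1763 (.leaf 222 1771 .nil)) .nil)) (.cons 270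 (.leaf 269 1961 (.leaf 250 1970 .nil)) .nil))) (.cons 250 (.leaf 251 1978 (.cons 226 (.leaf 227 1785 (.cons 246 (.leaf 225 1777 (.cons 221 (.leaf 222 1771 (.cons 245 (.leaf 244 1952 (.leaf 220 1763 .nil)) .nil)) .nil)) .nil)) .nil)) (.cons 246 (.cons 245 (.leaf 244 1952 (.cons 221 (.leaf 220 1763 (.leaf 222 1771 .nil)) .nil)) (.cons 270 (.leaf 269 1961 (.cons 222 (.leaf 221 1771 (.cons 198 (.leaf 174 1396 (.leaf 295 1588 .nil)) .nil)) .nil)) (.cons 269 (.leaf 270 1961 (.cons 245 (.leaf 244 1952 (.leaf 268 1954 .nil)) .nil)) .nil))) (.cons 270 (.leaf 269 1961 (.leaf 250 1970 .nil)) .nil)))) (.cons 223 t196 (.cons 223 t195 (.cons 249 (.cons 246 (.cons 245 (.leaf 244 1952 (.cons 221 (.leaf 220 1763 (.leaf 222 1771 .nil)) .nil)) (.cons 270 (.leaf 269 1961 (.leaf 250 1970 .nil)) .nil)) (.cons 250 (.leaf 251 1978 (.cons 226 (.leaf 227 1785 (.cons 223 (.leaf 222 1779 (.cons 199 (.leaf 175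 1404 (.leaf 296 1596 .nil)) .nil)) .nil)) .nil)) (.cons 246 (.cons 245 (.leaf 244 1952 (.cons 221 (.leaf 220 1763 (.leaf 222 1771 .nil)) .nil)) (.cons 270 (.leaf 269 1961 (.cons 222 (.leaf 221 1771 (.cons 198 (.leaf 174 1396 (.cons 199 (.leaf 175 1397 (.cons 223 (.leaf 296 1596 (.leaf 294 1589 .nil)) .nil)) .nil)) .nil)) .nil)) (.cons 269 (.leaf 270 1961 (.cons 245 (.leaf 244 1952 (.leaf 268 1954 .nil)) .nil)) .nil))) (.cons 270 (.leaf 269 1961 (.leaf 250 1970 .nil)) .nil)))) (.cons 223 (.cons 199 (.leaf 175 1404 (.leaf 296 1596 .nil)) (.cons 295 (.cons 320 (.leaf 296 1788 (.cons 319 (.leaf 343 1981 (.leaf 344 1980 .nil)) .nil)) (.cons 318 (.leaf 294 1782 (.cons 319 (.leaf 343 1981 (.leaf 342 1974 .nil)) .nil)) (.cons 296 (.leaf 320 1788 (.cons 294 (.leaf 318 1782 (.cons 293 (.leaf 292 2145 (.cons 269 (.leaf 268 2147 (.cons 270 (.leaf 249 1961 (.leaf 297 2152 .nil)) .nil)) .nil)) .nil))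 .nil)) .nil))) (.cons 199 (.leaf 175 1404 (.cons 174 (.leaf 198 1399 (.cons 176 (.leaf 200 1405 (.cons 270 (.leaf 294 1590 (.cons 249 (.leaf 269 1961 (.leaf 250 1970 .nil)) .nil)) .nil)) .nil)) .nil)) .nil))) (.cons 249 t194 .nil)))))))
noncomputable def t198 : T := .cons 222 (.cons 198 (.leaf 295 1588 (.cons 247 (.leaf 221 1771 (.leaf 174 1396 .nil)) .nil)) (.cons 295 (.leaf 198 1588 (.cons 319 (.leaf 343 1981 (.leaf 294 1780 .nil)) .nil)) (.cons 221 (.leaf 247 1771 (.cons 294 (.leaf 197 1583 (.cons 245 (.leaf 273 1963 (.leaf 318 1775 .nil)) .nil)) .nil)) .nil))) (.cons 222 (.cons 198 (.leaf 295 1588 (.cons 247 (.leaf 221 1771 (.leaf 174 1396 .nil)) .nil)) (.cons 295 (.leaf 198 1588 (.cons 319 (.leaf 343 1981 (.leaf 294 1780 .nil)) .nil)) (.cons 221 (.leaf 247 1771 (.cons 294 (.leaf 197 1583 (.cons 293 (.leaf 273 2154 (.leaf 317 1774 .nil)) .nil)) .nil)) .nil))) (.cons 222 (.cons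 198 (.leaf 295 1588 (.cons 247 (.leaf 221 1771 (.leaf 174 1396 .nil)) .nil)) (.cons 295 (.leaf 198 1588 (.cons 319 (.leaf 343 1981 (.leaf 294 1780 .nil)) .nil)) (.cons 221 (.leaf 247 1771 (.cons 197 (.leaf 294 1583 (.cons 173 (.leaf 198 1391 (.leaf 245 1388 .nil)) .nil)) .nil)) (.cons 221 (.leaf 247 1771 (.cons 197 (.leaf 294 1583 (.cons 173 (.leaf 245 1388 (.leaf 149 1196 .nil)) .nil)) .nil)) .nil)))) (.cons 273 (.leaf 245 1963 (.cons 294 (.leaf 293 2154 (.cons 297 (.leaf 298 2160 (.cons 321 (.leaf 345 1991 (.cons 322 (.leaf 346 1996 (.cons 295 (.leaf 296 2352 (.cons 319 (.leaf 343 1981 (.leaf 222 1780 .nil)) .nil)) .nil)) .nil)) .nil)) .nil)) .nil)) (.cons 245 (.leaf 273 1963 (.cons 244 (.leaf 247 1952 (.leaf 243 1944 .nil)) .nil)) .nil))))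
noncomputable def t199 : T := .cons 246 (.leaf 245 1963 (.cons 294 (.leaf 293 2154 (.cons 247 (.cons 223 (.leaf 199 1590 (.leaf 318 1781 .nil)) (.cons 221 (.leaf 222 1771 (.cons 225 (.leaf 226 1777 (.cons 201 (.leaf 177 1414 (.leaf 296 1606 .nil)) .nil)) .nil)) .nil)) .nil)) .nil)) (.cons 297 (.leaf 298 2160 (.cons 321 (.leaf 345 1991 (.cons 293 (.leaf 294 2154 (.cons 320 (.leaf 344 1990 (.cons 225 (.leaf 296 1797 (.cons 201 (.leaf 177 1414 (.cons 202 (.leaf 178 1421 (.leaf 226 1613 .nil)) .nil)) .nil)) .nil)) .nil)) .nil)) .nil)) (.cons 297 (.leaf 298 2160 (.cons 321 (.leaf 345 1991 (.cons 320 (.leaf 344 1990 (.cons 225 (.leaf 296 1797 (.cons 177 (.leaf 201 1414 (.cons 226 (.leaf 202 1613 (.cons 246 (.leaf 245 1963 (.leaf 247 1777 .nil)) .nil)) .nil)) .nil)) .nil)) .nil)) .nil)) (.cons 246 (.leaf 245 1963 (.cons 297 (.leaf 298 2160 (.cons 321 (.leaf 345 1991 (.cons 294 (.leaf 293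 2154 (.cons 322 (.leaf 346 1996 (.cons 222 (.cons 221 (.leaf 247 1771 (.leaf 197 1583 .nil)) (.cons 199 (.leaf 223 1589 (.cons 197 (.leaf 221 1583 (.cons 198 (.leaf 295 1588 (.leaf 173 1391 .nil)) .nil)) .nil)) (.cons 198 (.leaf 295 1588 (.cons 199 (.leaf 175 1397 (.leaf 223 1589 .nil)) .nil)) .nil))) .nil)) .nil)) .nil)) .nil)) .nil)) .nil)))
noncomputable def t200 : T := .cons 249 (.cons 270 (.leaf 269 1961 (.cons 250 (.leaf 251 1978 (.leaf 273 1969 .nil)) .nil)) (.cons 250 (.leaf 251 1978 (.cons 247 (.cons 226 (.leaf 227 1785 (.cons 223 (.leaf 222 1779 (.cons 199 (.leaf 175 1404 (.leaf 296 1596 .nil)) .nil)) .nil)) (.cons 226 (.leaf 227 1785 (.cons 246 (.leaf 225 1777 (.cons 245 (.leaf 244 1952 (.leaf 273 1960 .nil)) .nil)) .nil)) (.cons 223 (.leaf 222 1779 (.cons 296 (.leaf 199 1596 (.leaf 320 1791 .nil)) .nil)) .nil))) .nil)) (.cons 270 (.leaf 269 1961 (.cons 273 t199 .nil)) (.cons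 270 (.leaf 269 1961 (.cons 250 (.leaf 251 1978 (.leaf 247 1970 .nil)) .nil)) .nil)))) (.cons 249 (.cons 270 (.leaf 269 1961 (.cons 246 (.cons 245 (.leaf 273 1963 (.cons 244 (.leaf 247 1952 (.leaf 243 1944 .nil)) .nil)) (.cons 250 (.leaf 251 1978 (.leaf 247 1970 .nil)) (.cons 273 (.leaf 245 1963 (.leaf 250 1969 .nil)) .nil))) .nil)) (.cons 250 (.leaf 251 1978 (.cons 247 (.cons 226 (.leaf 227 1785 (.cons 223 (.leaf 222 1779 (.cons 199 (.leaf 175 1404 (.leaf 296 1596 .nil)) .nil)) .nil)) (.cons 226 (.leaf 227 1785 (.cons 246 (.leaf 225 1777 (.cons 245 (.leaf 244 1952 (.leaf 273 1960 .nil)) .nil)) .nil)) (.cons 223 (.leaf 222 1779 (.cons 199 (.leaf 175 1404 (.leaf 296 1596 .nil)) .nil)) .nil))) .nil)) (.cons 270 (.leaf 269 1961 (.cons 246 t198 .nil)) (.cons 270 (.leaf 269 1961 (.cons 250 (.leaf 251 1978 (.leaf 273 1969 .nil)) .nil)) (.cons 270 (.leaf 269 1961 (.cons 250 (.leaf 251 1978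 (.leaf 247 1970 .nil)) .nil)) .nil))))) (.cons 247 t197 (.cons 249 t193 (.cons 249 (.cons 270 (.leaf 269 1961 (.cons 246 t187 .nil)) (.cons 250 (.leaf 251 1978 (.cons 247 (.cons 226 (.leaf 227 1785 (.cons 223 (.leaf 222 1779 (.cons 199 (.leaf 175 1404 (.leaf 296 1596 .nil)) .nil)) .nil)) (.cons 226 (.leaf 227 1785 (.cons 246 (.leaf 225 1777 (.cons 245 (.leaf 244 1952 (.leaf 273 1960 .nil)) .nil)) .nil)) (.cons 223 (.leaf 222 1779 (.cons 199 (.leaf 175 1404 (.leaf 296 1596 .nil)) .nil)) .nil))) .nil)) (.cons 270 (.leaf 269 1961 (.cons 246 t186 .nil)) (.cons 270 (.leaf 269 1961 (.cons 250 (.leaf 251 1978 (.leaf 273 1969 .nil)) .nil)) (.cons 270 (.leaf 269 1961 (.cons 250 (.leaf 251 1978 (.leaf 247 1970 .nil)) .nil)) .nil))))) (.cons 249 (.cons 270 (.leaf 269 1961 (.cons 273 (.leaf 250 1969 (.cons 246 (.leaf 245 1963 (.cons 225 (.cons 247 (.leaf 226 1777 (.cons 222 (.leaf 221 1771 (.cons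 198 (.leaf 174 1396 (.leaf 295 1588 .nil)) .nil)) .nil)) (.cons 201 (.leaf 177 1414 (.leaf 296 1606 .nil)) .nil)) .nil)) .nil)) .nil)) (.cons 250 (.leaf 251 1978 (.cons 247 (.cons 226 (.leaf 227 1785 (.cons 223 (.leaf 222 1779 (.cons 199 (.leaf 175 1404 (.leaf 296 1596 .nil)) .nil)) .nil)) (.cons 226 (.leaf 227 1785 (.cons 246 (.leaf 225 1777 (.cons 245 (.leaf 244 1952 (.leaf 273 1960 .nil)) .nil)) .nil)) (.cons 223 (.leaf 222 1779 (.cons 199 (.leaf 175 1404 (.leaf 296 1596 .nil)) .nil)) .nil))) .nil)) (.cons 270 (.leaf 269 1961 (.cons 273 t185 .nil)) (.cons 270 (.leaf 269 1961 (.cons 250 (.leaf 251 1978 (.leaf 273 1969 .nil)) .nil)) (.cons 270 (.leaf 269 1961 (.cons 250 (.leaf 251 1978 (.leaf 247 1970 .nil)) .nil)) .nil))))) (.cons 270 t184 (.cons 249 (.cons 270 (.leaf 269 1961 (.cons 250 (.leaf 251 1978 (.leaf 273 1969 .nil)) .nil)) (.cons 250 (.leaf 251 1978 (.cons 247 (.cons 226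 (.leaf 227 1785 (.cons 223 (.leaf 222 1779 (.cons 199 (.leaf 175 1404 (.leaf 296 1596 .nil)) .nil)) .nil)) (.cons 226 (.leaf 227 1785 (.cons 246 (.leaf 225 1777 (.cons 245 (.leaf 244 1952 (.leaf 273 1960 .nil)) .nil)) .nil)) (.cons 223 (.leaf 222 1779 (.cons 199 (.leaf 175 1404 (.leaf 296 1596 .nil)) .nil)) .nil))) .nil)) (.cons 225 t182 (.cons 270 (.leaf 269 1961 (.cons 250 (.leaf 273 1969 (.leaf 247 1970 .nil)) .nil)) (.cons 270 (.leaf 269 1961 (.cons 250 (.leaf 251 1978 (.leaf 247 1970 .nil)) .nil)) .nil))))) (.cons 249 (.cons 270 (.leaf 269 1961 (.cons 250 (.leaf 251 1978 (.leaf 273 1969 .nil)) .nil)) (.cons 250 (.leaf 251 1978 (.cons 247 (.cons 226 (.leaf 227 1785 (.cons 223 (.leaf 222 1779 (.cons 199 (.leaf 175 1404 (.leaf 296 1596 .nil)) .nil)) .nil)) (.cons 226 (.leaf 227 1785 (.cons 246 (.leaf 225 1777 (.cons 245 (.leaf 244 1952 (.leaf 273 1960 .nil)) .nil)) .nil)) (.cons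 223 (.leaf 222 1779 (.cons 199 (.leaf 175 1404 (.leaf 296 1596 .nil)) .nil)) .nil))) .nil)) (.cons 270 (.leaf 269 1961 (.cons 246 t178 .nil)) (.cons 270 (.leaf 269 1961 (.cons 250 (.leaf 251 1978 (.leaf 247 1970 .nil)) .nil)) .nil)))) .nil))))))))
noncomputable def t201 : T := .cons 246 (.leaf 245 1963 (.cons 294 (.leaf 293 2154 (.cons 247 (.cons 223 (.leaf 199 1590 (.leaf 318 1781 .nil)) (.cons 221 (.leaf 222 1771 (.cons 225 (.leaf 226 1777 (.cons 201 (.leaf 177 1414 (.leaf 296 1606 .nil)) .nil)) .nil)) .nil)) .nil)) .nil)) (.cons 293 (.leaf 294 2154 (.cons 297 (.leaf 298 2160 (.cons 321 (.leaf 345 1991 (.cons 320 (.leaf 344 1990 (.cons 225 (.leaf 296 1797 (.cons 201 (.leaf 177 1414 (.cons 202 (.leaf 178 1421 (.leaf 226 1613 .nil)) .nil)) .nil)) .nil)) .nil)) .nil)) .nil)) (.cons 297 (.leaf 298 2160 (.cons 321 (.leaf 345 1991 (.cons 320 (.leaf 344 1990 (.cons 225 (.leaf 296 1797 (.cons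 177 (.leaf 201 1414 (.cons 226 (.leaf 202 1613 (.cons 246 (.leaf 245 1963 (.leaf 247 1777 .nil)) .nil)) .nil)) .nil)) .nil)) .nil)) .nil)) (.cons 246 (.leaf 245 1963 (.cons 297 (.leaf 298 2160 (.cons 321 (.leaf 345 1991 (.cons 294 (.leaf 293 2154 (.cons 322 (.leaf 346 1996 (.cons 222 (.cons 199 (.leaf 223 1589 (.cons 221 (.leaf 247 1771 (.leaf 197 1583 .nil)) .nil)) (.cons 199 (.leaf 223 1589 (.cons 197 (.leaf 221 1583 (.cons 198 (.leaf 173 1391 (.leaf 175 1397 .nil)) .nil)) .nil)) (.cons 223 (.leaf 199 1589 (.cons 318 (.leaf 247 1781 (.cons 319 (.leaf 343 1972 (.cons 320 (.leaf 344 1990 (.cons 341 (.leaf 317 1966 (.leaf 342 2538 .nil)) .nil)) .nil)) .nil)) .nil)) (.cons 221 (.leaf 247 1771 (.leaf 197 1583 .nil)) .nil)))) .nil)) .nil)) .nil)) .nil)) .nil)) .nil)))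
noncomputable def t202 : T := .cons 223 (.cons 199 (.leaf 175 1404 (.leaf 296 1596 .nil)) (.cons 199 (.leaf 175 1404 (.cons 176 (.leaf 200 1405 (.cons 198 (.leaf 174 1399 (.cons 294 (.leaf 270 1590 (.cons 295 (.leaf 222 1591 (.leaf 318 1782 .nil)) .nil)) .nil)) .nil)) .nil)) (.cons 295 (.cons 296 (.leaf 320 1788 (.cons 198 (.leaf 222 1591 (.cons 294 (.leaf 318 1782 (.cons 293 (.leaf 292 2145 (.leaf 273 2153 .nil)) .nil)) .nil)) .nil)) (.cons 198 (.leaf 222 1591 (.cons 318 (.leaf 294 1782 (.cons 319 (.leaf 343 1981 (.leaf 342 1974 .nil)) .nil)) .nil)) (.cons 320 (.leaf 296 1788 (.cons 319 (.leaf 343 1981 (.leaf 344 1980 .nil)) .nil)) .nil))) .nil))) (.cons 246 (.cons 222 (.leaf 221 1771 (.cons 198 (.leaf 174 1396 (.cons 295 (.leaf 223 1591 (.leaf 270 1588 .nil)) .nil)) .nil)) (.cons 245 (.leaf 244 1952 (.leaf 273 1960 .nil)) .nil)) (.cons 246 (.cons 221 (.leaf 222 1771 (.cons 225 (.leaf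 226 1777 (.cons 245 (.leaf 244 1952 (.leaf 273 1960 .nil)) .nil)) .nil)) (.cons 221 (.leaf 222 1771 (.cons 225 (.leaf 226 1777 (.cons 296 (.leaf 320 1797 (.cons 201 (.leaf 177 1414 (.leaf 273 1606 .nil)) .nil)) .nil)) .nil)) (.cons 245 (.leaf 244 1952 (.leaf 273 1960 .nil)) (.cons 222 (.leaf 221 1771 (.cons 198 (.leaf 174 1396 (.cons 295 (.leaf 270 1588 (.leaf 319 1783 .nil)) .nil)) .nil)) .nil)))) (.cons 246 (.cons 221 (.leaf 222 1771 (.cons 225 (.leaf 226 1777 (.cons 245 (.leaf 244 1952 (.leaf 273 1960 .nil)) .nil)) .nil)) (.cons 221 (.leaf 222 1771 (.cons 225 (.leaf 226 1777 (.cons 296 (.leaf 320 1797 (.cons 201 (.leaf 177 1414 (.leaf 273 1606 .nil)) .nil)) .nil)) .nil)) (.cons 245 (.leaf 244 1952 (.leaf 273 1960 .nil)) (.cons 225 (.leaf 226 1777 (.cons 177 (.leaf 201 1414 (.cons 221 (.leaf 222 1771 (.cons 245 (.leaf 244 1952 (.leaf 220 1763 .nil)) .nil)) .nil)) .nil)) .nil))))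 (.cons 296 (.cons 223 (.leaf 199 1596 (.leaf 320 1791 .nil)) (.cons 223 (.leaf 199 1596 (.cons 222 (.cons 221 (.leaf 220 1760 (.leaf 246 1771 .nil)) (.cons 295 (.leaf 198 1591 (.cons 220 (.leaf 221 1760 (.cons 318 (.leaf 294 1782 (.cons 319 (.leaf 343 1981 (.leaf 342 1974 .nil)) .nil)) .nil)) .nil)) (.cons 295 (.leaf 198 1591 (.cons 319 (.leaf 343 1981 (.leaf 246 1783 .nil)) .nil)) .nil))) .nil)) (.cons 320 (.leaf 225 1797 (.leaf 344 1983 .nil)) .nil))) (.cons 225 (.cons 246 (.leaf 226 1777 (.cons 245 (.leaf 244 1952 (.leaf 273 1960 .nil)) .nil)) (.cons 201 (.leaf 177 1414 (.cons 296 (.leaf 273 1606 (.leaf 320 1797 .nil)) .nil)) (.cons 201 (.leaf 177 1414 (.cons 226 (.leaf 246 1777 (.cons 227 (.leaf 228 1794 (.cons 296 (.leaf 320 1797 (.cons 199 (.leaf 223 1596 (.cons 200 (.leaf 198 1584 (.leaf 202 1592 .nil)) .nil)) .nil)) .nil)) .nil)) .nil)) .nil))) .nil)))))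
noncomputable def t203 : T := .cons 250 (.leaf 251 1978 (.cons 247 (.leaf 270 1970 (.cons 222 (.leaf 223 1779 (.cons 246 (.leaf 221 1771 (.cons 245 (.leaf 244 1952 (.leaf 273 1960 .nil)) .nil)) .nil)) .nil)) .nil)) (.cons 247 t202 (.cons 250 (.leaf 251 1978 (.cons 273 (.leaf 270 1969 (.cons 225 (.cons 201 (.leaf 177 1414 (.leaf 296 1606 .nil)) (.cons 201 (.leaf 177 1414 (.cons 176 (.leaf 200 1415 (.cons 202 (.leaf 178 1421 (.cons 297 (.leaf 226 1613 (.cons 321 (.leaf 345 1991 (.cons 322 (.leaf 298 1804 (.leaf 346 1996 .nil)) .nil)) .nil)) .nil)) .nil)) .nil)) (.cons 296 (.leaf 320 1797 (.cons 297 (.cons 226 (.leaf 202 1613 (.leaf 321 1805 .nil)) (.cons 298 (.leaf 299 2171 (.leaf 322 1804 .nil)) .nil)) .nil)) .nil))) .nil)) .nil)) (.cons 250 (.leaf 251 1978 (.cons 247 (.leaf 270 1970 (.cons 226 (.leaf 227 1785 (.cons 223 (.leaf 222 1779 (.cons 199 (.leaf 175 1404 (.leaf 296 1596 .nil))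 .nil)) .nil)) .nil)) .nil)) (.cons 250 (.leaf 251 1978 (.cons 247 (.cons 226 (.leaf 227 1785 (.cons 223 (.leaf 222 1779 (.cons 199 (.leaf 175 1404 (.leaf 296 1596 .nil)) .nil)) .nil)) (.cons 226 (.leaf 227 1785 (.cons 246 (.leaf 225 1777 (.cons 245 (.leaf 244 1952 (.leaf 273 1960 .nil)) .nil)) .nil)) (.cons 223 (.leaf 222 1779 (.cons 296 (.leaf 199 1596 (.leaf 320 1791 .nil)) .nil)) .nil))) .nil)) .nil))))
noncomputable def t204 : T := .cons 222 (.cons 221 (.leaf 247 1771 (.cons 294 (.leaf 197 1583 (.cons 245 (.leaf 273 1963 (.leaf 318 1775 .nil)) .nil)) .nil)) (.cons 198 (.leaf 295 1588 (.cons 173 (.leaf 197 1391 (.cons 149 (.leaf 174 1199 (.cons 199 (.leaf 175 1397 (.cons 294 (.leaf 223 1589 (.cons 293 (.leaf 273 2154 (.leaf 317 1774 .nil)) .nil)) .nil)) .nil)) .nil)) .nil)) (.cons 221 (.leaf 247 1771 (.cons 197 (.leaf 294 1583 (.cons 173 (.leaf 198 1391 (.leaf 245 1388 .nil)) .nil))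 .nil)) (.cons 198 (.leaf 295 1588 (.cons 247 (.leaf 221 1771 (.leaf 174 1396 .nil)) .nil)) .nil)))) (.cons 222 (.cons 221 (.leaf 247 1771 (.cons 294 (.leaf 197 1583 (.cons 295 (.leaf 198 1588 (.leaf 319 1780 .nil)) .nil)) .nil)) (.cons 198 (.leaf 295 1588 (.cons 173 (.leaf 197 1391 (.cons 149 (.leaf 174 1199 (.cons 199 (.leaf 175 1397 (.cons 294 (.leaf 223 1589 (.cons 293 (.leaf 273 2154 (.leaf 317 1774 .nil)) .nil)) .nil)) .nil)) .nil)) .nil)) (.cons 221 (.leaf 247 1771 (.cons 294 (.leaf 197 1583 (.cons 293 (.leaf 273 2154 (.leaf 317 1774 .nil)) .nil)) .nil)) (.cons 198 (.leaf 295 1588 (.cons 247 (.leaf 221 1771 (.leaf 174 1396 .nil)) .nil)) .nil)))) (.cons 222 (.cons 221 (.leaf 247 1771 (.cons 197 (.leaf 294 1583 (.cons 173 (.leaf 198 1391 (.leaf 245 1388 .nil)) .nil)) .nil)) (.cons 295 (.leaf 198 1588 (.cons 319 (.leaf 343 1981 (.leaf 294 1780 .nil)) .nil)) (.cons 221 (.leaf 247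 1771 (.cons 197 (.leaf 294 1583 (.cons 173 (.leaf 245 1388 (.leaf 149 1196 .nil)) .nil)) .nil)) (.cons 198 (.leaf 295 1588 (.cons 247 (.leaf 221 1771 (.leaf 174 1396 .nil)) .nil)) .nil)))) (.cons 273 (.leaf 245 1963 (.cons 294 (.leaf 293 2154 (.cons 297 (.leaf 298 2160 (.cons 321 (.leaf 345 1991 (.cons 320 (.leaf 344 1990 (.cons 322 (.leaf 346 1996 (.cons 319 (.leaf 295 2355 (.cons 343 (.leaf 318 1972 (.leaf 342 2546 .nil)) .nil)) .nil)) .nil)) .nil)) .nil)) .nil)) .nil)) (.cons 245 (.leaf 273 1963 (.cons 244 (.leaf 247 1952 (.leaf 243 1944 .nil)) .nil)) .nil))))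
noncomputable def t205 : T := .cons 297 (.leaf 298 2160 (.cons 294 (.leaf 293 2154 (.cons 246 (.leaf 245 1963 (.cons 321 (.leaf 345 1991 (.cons 249 (.leaf 250 1969 (.cons 320 (.leaf 344 1990 (.cons 322 (.leaf 346 1996 (.cons 319 (.leaf 295 2355 (.cons 343 (.leaf 296 1982 (.leaf 318 1972 .nil)) .nil)) .nil)) .nil)) .nil)) .nil)) .nil)) .nil)) .nil)) (.cons 297 (.leaf 298 2160 (.cons 294 (.leaf 293 2154 (.cons 246 (.leaf 245 1963 (.cons 321 (.leaf 345 1991 (.cons 319 (.cons 295 (.leaf 343 1981 (.leaf 222 1780 .nil)) (.cons 318 (.leaf 343 1972 (.cons 341 (.leaf 317 1966 (.cons 342 (.leaf 365 2158 (.leaf 320 2538 .nil)) .nil)) .nil)) (.cons 222 (.leaf 295 1780 (.cons 197 (.leaf 221 1583 (.cons 198 (.leaf 173 1391 (.cons 199 (.leaf 175 1397 (.leaf 223 1589 .nil)) .nil)) .nil)) .nil)) .nil))) .nil)) .nil)) .nil)) .nil)) (.cons 249 (.leaf 250 1969 (.cons 294 (.leaf 293 2154 (.cons 246 (.leaf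 245 1963 (.cons 222 (.cons 295 (.leaf 198 1588 (.leaf 319 1780 .nil)) (.cons 197 (.leaf 221 1583 (.cons 198 (.leaf 173 1391 (.cons 199 (.leaf 175 1397 (.leaf 223 1589 .nil)) .nil)) .nil)) (.cons 197 (.leaf 221 1583 (.cons 319 (.leaf 295 1780 (.cons 318 (.leaf 343 1972 (.cons 341 (.leaf 317 1966 (.cons 342 (.leaf 365 2158 (.cons 199 (.leaf 223 1589 (.cons 320 (.leaf 321 2538 (.cons 296 (.leaf 225 1797 (.leaf 344 1989 .nil)) .nil)) .nil)) .nil)) .nil)) .nil)) .nil)) .nil)) .nil))) .nil)) .nil)) .nil)) (.cons 249 (.leaf 250 1969 (.cons 245 (.leaf 246 1963 (.cons 297 (.leaf 298 2160 (.cons 321 (.leaf 345 1991 (.cons 320 (.leaf 344 1990 (.cons 225 (.leaf 296 1797 (.cons 201 (.leaf 177 1414 (.cons 202 (.leaf 178 1421 (.leaf 226 1613 .nil)) .nil)) .nil)) .nil)) .nil)) .nil)) .nil)) .nil)) (.cons 249 (.leaf 250 1969 (.cons 293 (.leaf 294 2154 (.cons 297 (.leaf 298 2160 (.cons 321 (.leaf 345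 1991 (.cons 320 (.leaf 344 1990 (.cons 225 (.leaf 296 1797 (.cons 201 (.leaf 177 1414 (.cons 202 (.leaf 178 1421 (.leaf 226 1613 .nil)) .nil)) .nil)) .nil)) .nil)) .nil)) .nil)) .nil)) (.cons 249 (.leaf 250 1969 (.cons 294 (.leaf 293 2154 (.cons 246 (.leaf 245 1963 (.cons 298 (.leaf 297 2160 (.cons 318 (.cons 319 (.leaf 343 1972 (.cons 222 (.leaf 295 1780 (.cons 341 (.leaf 317 1966 (.cons 197 (.leaf 221 1583 (.cons 198 (.leaf 173 1391 (.cons 199 (.leaf 175 1397 (.leaf 223 1589 .nil)) .nil)) .nil)) .nil)) .nil)) .nil)) (.cons 341 (.leaf 317 1966 (.cons 342 (.leaf 365 2158 (.cons 295 (.leaf 366 2165 (.cons 222 (.leaf 198 1588 (.leaf 319 1780 .nil)) .nil)) .nil)) .nil)) (.cons 341 (.leaf 317 1966 (.cons 342 (.leaf 365 2158 (.cons 366 (.leaf 295 2165 (.cons 367 (.leaf 343 2164 (.leaf 391 2356 .nil)) .nil)) .nil)) .nil)) (.cons 319 (.leaf 343 1972 (.cons 222 (.leaf 295 1780 (.cons 199 (.leaf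 223 1589 (.cons 197 (.leaf 221 1583 (.cons 198 (.leaf 173 1391 (.leaf 175 1397 .nil)) .nil)) .nil)) .nil)) .nil)) (.cons 343 (.leaf 319 1972 (.cons 341 (.leaf 317 1966 (.cons 342 (.leaf 365 2158 (.leaf 367 2164 .nil)) .nil)) .nil)) .nil))))) .nil)) .nil)) .nil)) .nil)) .nil)))))
noncomputable def t206 : T := .cons 269 (.leaf 249 1961 (.cons 292 (.leaf 293 2146 (.cons 268 (.leaf 291 2138 (.cons 296 (.leaf 297 2152 (.leaf 295 2144 .nil)) .nil)) .nil)) .nil)) (.cons 273 t205 (.cons 269 (.cons 244 (.leaf 245 1955 (.cons 268 (.leaf 243 1947 (.cons 296 (.leaf 297 2152 (.leaf 295 2144 .nil)) .nil)) .nil)) (.cons 292 (.leaf 293 2146 (.cons 268 (.leaf 291 2138 (.cons 296 (.leaf 297 2152 (.leaf 295 2144 .nil)) .nil)) .nil)) (.cons 244 (.leaf 245 1955 (.cons 268 (.leaf 243 1947 (.cons 292 (.leaf 293 2146 (.leaf 291 2138 .nil)) .nil)) .nil)) (.cons 244 (.leaf 245 1955 (.cons 293 (.leaf 292 2146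 (.cons 297 (.leaf 296 2152 (.cons 273 (.leaf 294 2154 (.leaf 298 2160 .nil)) .nil)) .nil)) .nil)) .nil)))) (.cons 269 (.leaf 249 1961 (.cons 296 (.leaf 297 2152 (.cons 244 (.leaf 245 1955 (.cons 268 (.leaf 243 1947 (.leaf 295 2144 .nil)) .nil)) .nil)) .nil)) (.cons 269 (.leaf 249 1961 (.cons 244 (.leaf 245 1955 (.cons 268 (.leaf 243 1947 (.cons 292 (.leaf 293 2146 (.leaf 291 2138 .nil)) .nil)) .nil)) .nil)) .nil))))
noncomputable def t207 : T := .cons 246 (.cons 222 (.leaf 198 1588 (.leaf 294 1780 .nil)) (.cons 245 (.leaf 273 1963 (.cons 244 (.leaf 269 1955 (.leaf 243 1944 .nil)) .nil)) .nil)) (.cons 269 (.cons 244 (.leaf 245 1955 (.cons 268 (.leaf 243 1947 (.leaf 296 2144 .nil)) .nil)) (.cons 244 (.leaf 245 1955 (.cons 268 (.leaf 243 1947 (.cons 292 (.leaf 293 2146 (.leaf 291 2138 .nil)) .nil)) .nil)) (.cons 297 (.leaf 296 2152 (.cons 245 (.leaf 244 1955 (.cons 273 (.leaf 246 1963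 (.leaf 298 2160 .nil)) .nil)) .nil)) (.cons 296 (.leaf 297 2152 (.leaf 268 2144 .nil)) .nil)))) (.cons 294 (.cons 293 (.leaf 273 2154 (.leaf 292 2145 .nil)) (.cons 246 (.leaf 222 1780 (.cons 245 (.leaf 273 1963 (.cons 243 (.leaf 244 1944 (.cons 318 (.leaf 221 1775 (.cons 317 (.leaf 341 1966 (.cons 296 (.leaf 297 2346 (.leaf 316 2337 .nil)) .nil)) .nil)) .nil)) .nil)) .nil)) (.cons 293 (.leaf 292 2145 (.cons 246 (.leaf 222 1780 (.cons 296 (.cons 297 (.leaf 298 2163 (.cons 317 (.leaf 316 2338 (.leaf 318 2346 .nil)) .nil)) (.cons 321 (.leaf 320 2344 (.cons 297 (.leaf 298 2163 (.leaf 322 2352 .nil)) .nil)) (.cons 320 (.leaf 321 2344 (.cons 317 (.leaf 316 2338 (.cons 341 (.leaf 318 1966 (.leaf 365 2157 .nil)) .nil)) .nil)) .nil))) .nil)) .nil)) .nil))) (.cons 269 (.cons 244 (.leaf 245 1955 (.cons 268 (.leaf 243 1947 (.leaf 296 2144 .nil)) .nil)) (.cons 244 (.leaf 245 1955 (.cons 268 (.leaf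 243 1947 (.cons 292 (.leaf 293 2146 (.leaf 291 2138 .nil)) .nil)) .nil)) (.cons 244 (.leaf 245 1955 (.cons 293 (.leaf 292 2146 (.cons 273 (.leaf 294 2154 (.cons 297 (.leaf 296 2152 (.leaf 298 2160 .nil)) .nil)) .nil)) .nil)) (.cons 296 (.leaf 297 2152 (.leaf 268 2144 .nil)) .nil)))) (.cons 269 (.cons 296 (.leaf 297 2152 (.leaf 268 2144 .nil)) (.cons 292 (.leaf 293 2146 (.cons 244 (.leaf 245 1955 (.cons 268 (.leaf 243 1947 (.leaf 291 2138 .nil)) .nil)) .nil)) (.cons 296 (.leaf 297 2152 (.cons 293 (.leaf 292 2146 (.cons 245 (.leaf 244 1955 (.cons 294 (.cons 221 (.leaf 197 1580 (.leaf 318 1772 .nil)) (.cons 197 (.leaf 221 1580 (.cons 246 (.leaf 222 1780 (.cons 317 (.leaf 316 2338 (.leaf 341 1965 .nil)) .nil)) .nil)) (.cons 222 (.leaf 246 1780 (.cons 317 (.leaf 316 2338 (.cons 318 (.leaf 342 1964 (.cons 320 (.leaf 321 2344 (.cons 341 (.leaf 340 2530 (.leaf 365 2157 .nil)) .nil)) .nil))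 .nil)) .nil)) .nil))) .nil)) .nil)) .nil)) .nil))) (.cons 269 (.cons 292 (.leaf 293 2146 (.cons 268 (.leaf 291 2138 (.leaf 296 2144 .nil)) .nil)) (.cons 292 (.leaf 293 2146 (.cons 268 (.leaf 291 2138 (.cons 243 (.leaf 244 1947 (.cons 267 (.leaf 294 2136 (.leaf 242 1939 .nil)) .nil)) .nil)) .nil)) (.cons 296 (.leaf 297 2152 (.leaf 268 2144 .nil)) (.cons 293 (.leaf 292 2146 (.cons 273 (.leaf 294 2154 (.cons 297 (.leaf 296 2152 (.leaf 298 2160 .nil)) .nil)) .nil)) .nil)))) (.cons 297 (.cons 273 (.leaf 298 2160 (.cons 294 (.leaf 293 2154 (.cons 246 (.leaf 245 1963 (.leaf 222 1780 .nil)) .nil)) .nil)) (.cons 269 (.leaf 296 2152 (.cons 292 (.leaf 293 2146 (.cons 268 (.leaf 291 2138 (.cons 294 (.leaf 267 2136 (.cons 246 (.leaf 222 1780 (.cons 245 (.leaf 273 1963 (.cons 221 (.leaf 197 1580 (.leaf 318 1775 .nil)) .nil)) .nil)) .nil)) .nil)) .nil)) .nil)) (.cons 296 (.leaf 269 2152 (.leaf 298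 2163 .nil)) .nil))) .nil))))))
noncomputable def t208 : T := .cons 223 (.cons 296 (.leaf 199 1596 (.leaf 320 1788 .nil)) (.cons 175 (.leaf 199 1404 (.cons 294 (.leaf 318 1782 (.cons 293 (.leaf 292 2145 (.cons 270 (.leaf 273 2154 (.cons 222 (.leaf 198 1591 (.cons 246 (.leaf 319 1780 (.leaf 317 1774 .nil)) .nil)) .nil)) .nil)) .nil)) .nil)) (.cons 296 (.leaf 320 1788 (.cons 294 (.leaf 318 1782 (.cons 293 (.leaf 292 2145 (.leaf 273 2153 .nil)) .nil)) .nil)) .nil))) (.cons 246 (.cons 245 (.leaf 244 1952 (.leaf 273 1960 .nil)) (.cons 222 (.leaf 319 1783 (.cons 198 (.leaf 174 1396 (.leaf 270 1588 .nil)) .nil)) .nil)) (.cons 223 (.cons 296 (.leaf 199 1596 (.leaf 320 1788 .nil)) (.cons 175 (.leaf 199 1404 (.cons 222 (.leaf 198 1591 (.cons 294 (.leaf 318 1782 (.cons 221 (.leaf 220 1760 (.cons 293 (.leaf 292 2145 (.cons 270 (.leaf 273 2154 (.cons 269 (.leaf 268 1953 (.cons 245 (.leaf 244 1955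 (.leaf 197 1580 .nil)) .nil)) .nil)) .nil)) .nil)) .nil)) .nil)) .nil)) (.cons 296 (.leaf 320 1788 (.cons 198 (.leaf 222 1591 (.cons 294 (.leaf 318 1782 (.cons 293 (.leaf 292 2145 (.leaf 273 2153 .nil)) .nil)) .nil)) .nil)) .nil))) (.cons 223 (.cons 175 (.leaf 199 1404 (.cons 222 (.leaf 198 1591 (.cons 220 (.leaf 221 1760 (.cons 246 (.leaf 319 1783 (.cons 245 (.leaf 244 1952 (.leaf 273 1960 .nil)) .nil)) .nil)) .nil)) .nil)) (.cons 296 (.leaf 320 1788 (.cons 198 (.leaf 222 1591 (.cons 294 (.leaf 318 1782 (.cons 293 (.leaf 292 2145 (.leaf 273 2153 .nil)) .nil)) .nil)) .nil)) (.cons 296 (.leaf 199 1596 (.leaf 320 1788 .nil)) .nil))) (.cons 223 (.cons 296 (.leaf 199 1596 (.leaf 320 1788 .nil)) (.cons 175 (.leaf 199 1404 (.cons 294 (.leaf 318 1782 (.cons 293 (.leaf 292 2145 (.cons 270 (.leaf 273 2154 (.cons 269 (.leaf 268 1953 (.cons 245 (.leaf 244 1955 (.cons 221 (.leaf 197 1580 (.cons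 220 (.leaf 246 1763 (.leaf 196 1575 .nil)) .nil)) .nil)) .nil)) .nil)) .nil)) .nil)) .nil)) (.cons 296 (.leaf 320 1788 (.cons 294 (.leaf 318 1782 (.cons 293 (.leaf 292 2145 (.leaf 273 2153 .nil)) .nil)) .nil)) .nil))) (.cons 223 (.cons 296 (.leaf 199 1596 (.leaf 320 1788 .nil)) (.cons 175 (.leaf 199 1404 (.cons 222 (.leaf 198 1591 (.cons 220 (.leaf 221 1760 (.cons 246 (.leaf 319 1783 (.cons 245 (.leaf 244 1952 (.cons 269 (.leaf 268 1954 (.cons 293 (.leaf 317 1773 (.cons 294 (.leaf 292 2145 (.leaf 318 1782 .nil)) .nil)) .nil)) .nil)) .nil)) .nil)) .nil)) .nil)) (.cons 296 (.leaf 320 1788 (.cons 294 (.leaf 318 1782 (.cons 293 (.leaf 292 2145 (.cons 269 (.leaf 268 2147 (.cons 270 (.leaf 297 2152 (.cons 244 (.leaf 245 1955 (.cons 317 (.leaf 316 2338 (.cons 222 (.leaf 198 1591 (.leaf 246 1774 .nil)) .nil)) .nil)) .nil)) .nil)) .nil)) .nil)) .nil)) .nil))) .nil)))))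
noncomputable def t209 : T := .cons 246 (.cons 245 (.leaf 273 1963 (.cons 244 (.leaf 247 1952 (.leaf 243 1944 .nil)) .nil)) (.cons 222 (.leaf 198 1588 (.cons 197 (.leaf 221 1583 (.cons 293 (.leaf 292 2145 (.leaf 317 1774 .nil)) .nil)) .nil)) .nil)) (.cons 246 (.cons 245 (.leaf 273 1963 (.cons 244 (.leaf 247 1952 (.leaf 243 1944 .nil)) .nil)) (.cons 222 (.leaf 198 1588 (.cons 197 (.leaf 221 1583 (.cons 223 (.leaf 199 1589 (.cons 318 (.leaf 247 1781 (.cons 317 (.leaf 341 1966 (.cons 297 (.leaf 296 2346 (.cons 273 (.leaf 298 2160 (.cons 342 (.leaf 366 2165 (.cons 343 (.leaf 367 2164 (.cons 345 (.leaf 321 1991 (.leaf 344 2539 .nil)) .nil)) .nil)) .nil)) .nil)) .nil)) .nil)) .nil)) .nil)) .nil)) (.cons 198 (.leaf 222 1588 (.cons 245 (.leaf 273 1963 (.cons 243 (.leaf 244 1944 (.cons 318 (.leaf 221 1775 (.cons 342 (.leaf 366 2165 (.cons 341 (.leaf 317 1966 (.leaf 365 2158 .nil)) .nil)) .nil))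 .nil)) .nil)) .nil)) (.cons 222 (.leaf 198 1588 (.cons 197 (.leaf 221 1583 (.cons 223 (.leaf 199 1589 (.cons 318 (.leaf 247 1781 (.cons 341 (.leaf 317 1966 (.cons 342 (.leaf 366 2165 (.leaf 365 2158 .nil)) .nil)) .nil)) .nil)) .nil)) .nil)) .nil)))) (.cons 293 (.leaf 292 2145 (.cons 296 (.cons 297 (.leaf 298 2163 (.cons 317 (.leaf 316 2338 (.leaf 318 2346 .nil)) .nil)) (.cons 320 (.leaf 321 2344 (.cons 247 (.leaf 223 1788 (.leaf 344 1983 .nil)) .nil)) .nil)) .nil)) (.cons 293 (.leaf 273 2154 (.leaf 292 2145 .nil)) .nil)))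
noncomputable def t210 : T := .cons 269 (.cons 293 (.leaf 292 2146 (.cons 273 (.leaf 294 2154 (.cons 297 (.leaf 296 2152 (.leaf 298 2160 .nil)) .nil)) .nil)) (.cons 247 (.leaf 268 1953 (.cons 293 (.leaf 292 2146 (.cons 245 (.leaf 244 1955 (.cons 273 (.leaf 246 1960 (.leaf 294 2154 .nil)) .nil)) .nil)) .nil)) (.cons 268 (.leaf 247 1953 (.leaf 296 2144 .nil)) .nil))) (.cons 294 t209 (.cons 269 (.cons 245 (.leaf 244 1955 (.cons 246 (.leaf 273 1963 (.cons 198 (.leaf 222 1588 (.cons 293 (.leaf 292 2146 (.cons 317 (.leaf 341 1965 (.cons 316 (.leaf 340 1958 (.cons 318 (.leaf 342 1964 (.cons 294 (.leaf 315 2329 (.leaf 221 1772 .nil)) .nil)) .nil)) .nil)) .nil)) .nil)) .nil)) .nil)) (.cons 244 (.leaf 245 1955 (.cons 268 (.leaf 247 1953 (.leaf 243 1947 .nil)) .nil)) (.cons 268 (.leaf 247 1953 (.cons 292 (.leaf 293 2146 (.leaf 291 2138 .nil)) .nil)) .nil))) (.cons 269 (.cons 268 (.leaf 247 1953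 (.leaf 296 2144 .nil)) (.cons 245 (.leaf 244 1955 (.cons 246 (.leaf 273 1963 (.cons 222 (.leaf 198 1588 (.cons 293 (.leaf 292 2146 (.leaf 317 1773 .nil)) .nil)) .nil)) .nil)) .nil)) (.cons 269 (.cons 268 (.leaf 247 1953 (.leaf 296 2144 .nil)) (.cons 245 (.leaf 244 1955 (.cons 273 (.leaf 246 1963 (.cons 297 (.leaf 296 2152 (.leaf 298 2160 .nil)) .nil)) .nil)) (.cons 268 (.leaf 247 1953 (.cons 244 (.leaf 245 1955 (.leaf 243 1947 .nil)) .nil)) .nil))) (.cons 269 (.cons 296 (.leaf 297 2152 (.leaf 268 2144 .nil)) (.cons 244 (.leaf 245 1955 (.cons 268 (.leaf 243 1947 (.cons 292 (.leaf 293 2146 (.leaf 291 2138 .nil)) .nil)) .nil)) (.cons 297 (.leaf 296 2152 (.cons 244 (.leaf 245 1955 (.cons 273 (.leaf 298 2160 (.cons 293 (.leaf 292 2146 (.leaf 294 2154 .nil)) .nil)) .nil)) .nil)) .nil))) (.cons 269 (.cons 268 (.leaf 247 1953 (.leaf 296 2144 .nil)) (.cons 296 (.leaf 297 2152 (.cons 293 (.leaf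 292 2146 (.cons 245 (.leaf 244 1955 (.cons 320 (.cons 247 (.leaf 223 1788 (.leaf 344 1983 .nil)) (.cons 321 (.leaf 345 1988 (.leaf 294 2344 .nil)) .nil)) .nil)) .nil)) .nil)) (.cons 268 (.leaf 247 1953 (.cons 244 (.leaf 245 1955 (.leaf 243 1947 .nil)) .nil)) (.cons 296 (.leaf 297 2152 (.leaf 268 2144 .nil)) .nil)))) (.cons 269 (.cons 293 (.leaf 292 2146 (.cons 273 (.leaf 294 2154 (.cons 297 (.leaf 296 2152 (.leaf 298 2160 .nil)) .nil)) .nil)) (.cons 247 (.leaf 268 1953 (.cons 293 (.leaf 292 2146 (.cons 294 (.leaf 273 2154 (.cons 223 (.leaf 199 1590 (.leaf 318 1782 .nil)) .nil)) .nil)) .nil)) (.cons 296 (.leaf 297 2152 (.leaf 268 2144 .nil)) .nil))) .nil)))))))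
noncomputable def t211 : T := .cons 319 (.leaf 343 1981 (.cons 247 (.cons 246 (.leaf 222 1783 (.cons 245 (.leaf 244 1952 (.leaf 273 1960 .nil)) .nil)) (.cons 320 (.leaf 344 1980 (.cons 318 (.leaf 342 1974 (.cons 294 (.leaf 223 1782 (.cons 293 (.leaf 292 2336 (.leaf 321 2347 .nil)) .nil)) .nil)) .nil)) .nil)) .nil)) (.cons 270 t210 (.cons 247 t208 (.cons 319 (.leaf 343 1981 (.cons 270 t207 .nil)) (.cons 319 (.leaf 343 1981 (.cons 247 (.cons 318 (.leaf 342 1974 (.cons 320 (.leaf 344 1980 (.cons 296 (.leaf 223 1788 (.cons 297 (.leaf 298 2354 (.leaf 317 2345 .nil)) .nil)) .nil)) .nil)) (.cons 246 (.leaf 222 1783 (.cons 245 (.leaf 244 1952 (.leaf 273 1960 .nil)) .nil)) .nil)) .nil)) (.cons 319 (.leaf 343 1981 (.cons 247 (.cons 318 (.leaf 342 1974 (.cons 223 (.leaf 294 1782 (.cons 198 (.leaf 222 1591 (.cons 199 (.leaf 175 1404 (.leaf 296 1596 .nil)) .nil)) .nil)) .nil)) (.cons 246 (.leaf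 222 1783 (.cons 245 (.leaf 244 1952 (.leaf 273 1960 .nil)) .nil)) (.cons 318 (.leaf 342 1974 (.cons 223 (.leaf 294 1782 (.cons 199 (.leaf 175 1404 (.leaf 296 1596 .nil)) .nil)) .nil)) .nil))) .nil)) (.cons 319 (.leaf 343 1981 (.cons 247 (.cons 318 (.leaf 342 1974 (.cons 320 (.leaf 344 1980 (.cons 294 (.leaf 223 1782 (.cons 293 (.leaf 292 2336 (.leaf 321 2347 .nil)) .nil)) .nil)) .nil)) (.cons 318 (.leaf 342 1974 (.cons 223 (.leaf 294 1782 (.cons 198 (.leaf 222 1591 (.cons 199 (.leaf 175 1404 (.leaf 296 1596 .nil)) .nil)) .nil)) .nil)) (.cons 320 (.leaf 344 1980 (.cons 223 (.leaf 296 1788 (.cons 198 (.leaf 222 1591 (.cons 199 (.leaf 175 1404 (.leaf 174 1399 .nil)) .nil)) .nil)) .nil)) (.cons 320 (.leaf 344 1980 (.cons 318 (.leaf 342 1974 (.cons 321 (.cons 294 (.leaf 322 2355 (.leaf 293 2347 .nil)) (.cons 345 (.leaf 296 1988 (.leaf 346 2544 .nil)) .nil)) .nil)) .nil)) .nil)))) .nil))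 (.cons 319 (.leaf 343 1981 (.cons 247 (.cons 246 (.leaf 222 1783 (.cons 245 (.leaf 244 1952 (.leaf 273 1960 .nil)) .nil)) (.cons 320 (.leaf 344 1980 (.cons 296 (.leaf 223 1788 (.cons 321 (.leaf 345 1988 (.cons 294 (.leaf 293 2344 (.leaf 322 2355 .nil)) .nil)) .nil)) .nil)) .nil)) .nil)) (.cons 319 (.leaf 343 1981 (.cons 247 (.cons 318 (.leaf 342 1974 (.cons 320 (.leaf 344 1980 (.cons 294 (.leaf 223 1782 (.cons 293 (.leaf 292 2336 (.leaf 321 2347 .nil)) .nil)) .nil)) .nil)) (.cons 318 (.leaf 342 1974 (.cons 223 (.leaf 294 1782 (.cons 199 (.leaf 175 1404 (.leaf 296 1596 .nil)) .nil)) .nil)) (.cons 320 (.leaf 344 1980 (.cons 296 (.leaf 223 1788 (.cons 321 (.leaf 345 1988 (.cons 294 (.leaf 293 2344 (.leaf 322 2355 .nil)) .nil)) .nil)) .nil)) (.cons 320 (.leaf 344 1980 (.cons 318 (.leaf 342 1974 (.cons 321 (.cons 294 (.leaf 322 2355 (.leaf 293 2347 .nil)) (.cons 345 (.leaf 296 1988 (.leaf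 346 2544 .nil)) .nil)) .nil)) .nil)) (.cons 320 (.leaf 344 1980 (.cons 296 (.leaf 223 1788 (.cons 318 (.leaf 342 1974 (.cons 297 (.leaf 298 2354 (.leaf 317 2345 .nil)) .nil)) .nil)) .nil)) .nil))))) .nil)) .nil))))))))
noncomputable def t212 : T := .cons 293 (.leaf 294 2347 (.cons 292 (.leaf 317 2339 (.cons 297 (.leaf 298 2353 (.cons 273 (.leaf 345 1991 (.cons 249 (.leaf 344 1990 (.cons 250 (.leaf 251 1978 (.leaf 226 1805 .nil)) .nil)) .nil)) .nil)) .nil)) .nil)) (.cons 293 (.leaf 294 2347 (.cons 292 (.leaf 317 2339 (.cons 298 (.leaf 297 2353 (.cons 322 (.leaf 299 2361 (.cons 323 (.leaf 344 2554 (.cons 347 (.leaf 346 2552 (.leaf 348 2560 .nil)) .nil)) .nil)) .nil)) .nil)) .nil)) (.cons 293 (.leaf 294 2347 (.cons 292 (.leaf 317 2339 (.cons 346 (.leaf 345 2544 (.cons 322 (.leaf 347 2552 (.cons 299 (.leaf 298 2361 (.cons 323 (.leaf 251 2006 (.leaf 344 2554 .nil)) .nil)) .nil)) .nil))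 .nil)) .nil)) (.cons 346 (.leaf 345 2544 (.cons 293 (.leaf 294 2347 (.cons 292 (.leaf 317 2339 (.cons 322 (.leaf 347 2552 (.cons 299 (.leaf 298 2361 (.cons 323 (.leaf 251 2006 (.leaf 300 2369 .nil)) .nil)) .nil)) .nil)) .nil)) .nil)) (.cons 345 (.leaf 346 2544 (.cons 297 (.leaf 273 1991 (.leaf 298 2353 .nil)) .nil)) (.cons 293 (.leaf 294 2347 (.cons 292 (.leaf 317 2339 (.cons 346 (.leaf 345 2544 (.cons 322 (.leaf 347 2552 (.cons 323 (.leaf 344 2554 (.cons 299 (.leaf 251 2006 (.leaf 300 2369 .nil)) .nil)) .nil)) .nil)) .nil)) .nil)) .nil)))))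
noncomputable def t213 : T := .cons 341 (.leaf 342 2538 (.cons 317 (.leaf 340 2530 (.cons 345 (.leaf 344 2536 (.leaf 346 2544 .nil)) .nil)) .nil)) (.cons 293 (.leaf 294 2347 (.cons 292 (.leaf 317 2339 (.cons 346 (.leaf 345 2544 (.cons 322 (.leaf 347 2552 (.cons 299 (.leaf 298 2361 (.cons 323 (.leaf 251 2006 (.leaf 300 2369 .nil)) .nil)) .nil)) .nil)) .nil)) .nil)) (.cons 342 (.leaf 341 2538 (.cons 293 (.leaf 294 2347 (.cons 292 (.leaf 317 2339 (.cons 322 (.leaf 343 2546 (.cons 299 (.leaf 298 2361 (.cons 323 (.leaf 300 2369 (.cons 346 (.leaf 251 2006 (.leaf 347 2552 .nil)) .nil)) .nil)) .nil)) .nil)) .nil)) .nil)) (.cons 342 (.leaf 341 2538 (.cons 293 (.leaf 294 2347 (.cons 317 (.leaf 292 2339 (.cons 245 (.leaf 269 1964 (.cons 322 (.leaf 343 2546 (.cons 299 (.leaf 298 2361 (.cons 323 (.leaf 300 2369 (.cons 344 (.leaf 345 2536 (.cons 348 (.leaf 347 2560 (.cons 324 (.leaf 251 2012 (.leaf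 349 2568 .nil)) .nil)) .nil)) .nil)) .nil)) .nil)) .nil)) .nil)) .nil)) .nil)) (.cons 293 (.leaf 294 2347 (.cons 341 (.leaf 342 2538 (.cons 346 (.leaf 345 2544 (.cons 322 (.leaf 347 2552 (.cons 299 (.leaf 298 2361 (.cons 323 (.leaf 251 2006 (.leaf 300 2369 .nil)) .nil)) .nil)) .nil)) .nil)) .nil)) .nil))))
noncomputable def t214 : T := .cons 297 (.cons 273 (.leaf 345 1991 (.cons 249 (.leaf 344 1990 (.cons 250 (.leaf 251 1978 (.leaf 226 1805 .nil)) .nil)) .nil)) (.cons 298 (.leaf 318 2353 (.cons 299 (.leaf 322 2361 (.leaf 300 2370 .nil)) .nil)) .nil)) (.cons 322 (.cons 299 (.leaf 298 2361 (.cons 323 (.leaf 300 2369 (.cons 343 (.leaf 342 2546 (.leaf 344 2554 .nil)) .nil)) .nil)) (.cons 343 (.leaf 342 2546 (.cons 323 (.leaf 344 2554 (.cons 347 (.leaf 346 2552 (.leaf 348 2560 .nil)) .nil)) .nil)) (.cons 299 (.leaf 298 2361 (.cons 323 (.leaf 300 2369 (.cons 346 (.leaf 251 2006 (.leaf 347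 2552 .nil)) .nil)) .nil)) (.cons 346 (.leaf 347 2552 (.cons 298 (.leaf 299 2361 (.cons 343 (.leaf 342 2546 (.cons 297 (.cons 273 (.leaf 345 1991 (.leaf 249 1996 .nil)) (.cons 370 (.leaf 394 2383 (.cons 371 (.leaf 395 2388 (.cons 344 (.leaf 345 2744 (.cons 368 (.leaf 392 2373 (.leaf 369 2747 .nil)) .nil)) .nil)) .nil)) (.cons 273 (.leaf 249 1996 (.leaf 370 2191 .nil)) .nil))) .nil)) .nil)) .nil)) .nil)))) (.cons 318 (.cons 293 (.leaf 294 2347 (.cons 317 (.leaf 292 2339 (.cons 341 (.leaf 340 2530 (.leaf 342 2538 .nil)) .nil)) .nil)) (.cons 293 (.leaf 294 2347 (.cons 292 (.leaf 317 2339 (.cons 297 (.leaf 298 2353 (.cons 345 (.leaf 273 1991 (.leaf 346 2544 .nil)) .nil)) .nil)) .nil)) (.cons 297 (.leaf 298 2353 (.cons 345 (.leaf 273 1991 (.leaf 346 2544 .nil)) .nil)) .nil))) (.cons 322 (.cons 299 (.leaf 298 2361 (.cons 323 (.leaf 300 2369 (.cons 343 (.leaf 342 2546 (.leaf 344 2554 .nil))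 .nil)) .nil)) (.cons 343 (.leaf 342 2546 (.cons 323 (.leaf 344 2554 (.cons 347 (.leaf 346 2552 (.leaf 348 2560 .nil)) .nil)) .nil)) (.cons 299 (.leaf 298 2361 (.cons 323 (.leaf 300 2369 (.cons 346 (.leaf 251 2006 (.leaf 347 2552 .nil)) .nil)) .nil)) (.cons 298 (.leaf 299 2361 (.cons 318 (.leaf 297 2353 (.cons 342 (.leaf 341 2538 (.leaf 343 2546 .nil)) .nil)) .nil)) .nil)))) (.cons 318 t213 (.cons 318 (.cons 293 (.leaf 294 2347 (.cons 317 (.leaf 292 2339 (.cons 341 (.leaf 340 2530 (.leaf 342 2538 .nil)) .nil)) .nil)) (.cons 293 (.leaf 294 2347 (.cons 317 (.leaf 292 2339 (.cons 345 (.leaf 344 2536 (.leaf 346 2544 .nil)) .nil)) .nil)) (.cons 341 (.leaf 342 2538 (.cons 317 (.leaf 340 2530 (.cons 345 (.leaf 344 2536 (.leaf 346 2544 .nil)) .nil)) .nil)) (.cons 293 (.leaf 294 2347 (.cons 342 (.leaf 341 2538 (.cons 322 (.leaf 343 2546 (.cons 346 (.leaf 345 2544 (.leaf 347 2552 .nil)) .nil))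 .nil)) .nil)) .nil)))) .nil)))))
noncomputable def t215 : T := .cons 246 (.cons 222 (.leaf 295 1783 (.cons 174 (.leaf 198 1396 (.cons 245 (.leaf 244 1952 (.leaf 273 1960 .nil)) .nil)) .nil)) (.cons 222 (.leaf 295 1783 (.cons 174 (.leaf 198 1396 (.cons 249 (.leaf 221 1771 (.cons 225 (.leaf 226 1777 (.cons 250 (.leaf 251 1978 (.leaf 223 1779 .nil)) .nil)) .nil)) .nil)) .nil)) (.cons 245 (.leaf 244 1952 (.leaf 273 1960 .nil)) .nil))) (.cons 246 (.cons 222 (.leaf 295 1783 (.cons 174 (.leaf 198 1396 (.cons 245 (.leaf 244 1952 (.leaf 273 1960 .nil)) .nil)) .nil)) (.cons 222 (.leaf 295 1783 (.cons 174 (.leaf 198 1396 (.cons 249 (.leaf 221 1771 (.cons 225 (.leaf 226 1777 (.cons 296 (.leaf 320 1797 (.cons 201 (.leaf 177 1414 (.leaf 273 1606 .nil)) .nil)) .nil)) .nil)) .nil)) .nil)) (.cons 245 (.leaf 244 1952 (.leaf 273 1960 .nil)) (.cons 222 (.leaf 295 1783 (.cons 174 (.leaf 198 1396 (.cons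 245 (.leaf 244 1952 (.cons 221 (.leaf 220 1763 (.leaf 249 1771 .nil)) .nil)) .nil)) .nil)) .nil)))) (.cons 246 (.cons 245 (.leaf 244 1952 (.leaf 273 1960 .nil)) (.cons 249 (.cons 226 (.leaf 225 1777 (.cons 250 (.leaf 251 1978 (.leaf 227 1785 .nil)) .nil)) (.cons 222 (.leaf 221 1771 (.cons 250 (.leaf 251 1978 (.leaf 223 1779 .nil)) .nil)) (.cons 221 (.leaf 222 1771 (.cons 225 (.leaf 226 1777 (.cons 201 (.leaf 177 1414 (.cons 296 (.leaf 273 1606 (.leaf 320 1797 .nil)) .nil)) .nil)) .nil)) .nil))) (.cons 245 (.leaf 244 1952 (.cons 221 (.leaf 220 1763 (.cons 222 (.leaf 249 1771 (.cons 198 (.leaf 174 1396 (.cons 269 (.leaf 268 1954 (.leaf 293 1581 .nil)) .nil)) .nil)) .nil)) .nil)) .nil))) (.cons 223 (.cons 199 (.leaf 175 1404 (.leaf 296 1596 .nil)) (.cons 199 (.leaf 175 1404 (.cons 176 (.leaf 200 1405 (.cons 198 (.leaf 174 1399 (.cons 295 (.leaf 222 1591 (.cons 318 (.leaf 294 1782 (.leaf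 342 1974 .nil)) .nil)) .nil)) .nil)) .nil)) (.cons 320 (.leaf 296 1791 (.cons 295 (.leaf 344 1980 (.cons 318 (.leaf 294 1782 (.leaf 342 1974 .nil)) .nil)) .nil)) .nil))) (.cons 320 (.cons 344 (.leaf 296 1983 (.leaf 295 1980 .nil)) (.cons 295 (.leaf 344 1980 (.cons 318 (.leaf 342 1974 (.cons 294 (.leaf 223 1782 (.cons 293 (.leaf 292 2336 (.leaf 321 2347 .nil)) .nil)) .nil)) .nil)) (.cons 296 (.leaf 223 1791 (.cons 249 (.leaf 225 1797 (.cons 250 (.leaf 251 1978 (.cons 321 (.leaf 345 1988 (.cons 226 (.leaf 227 1785 (.cons 297 (.leaf 273 1805 (.cons 298 (.leaf 299 2362 (.leaf 318 2353 .nil)) .nil)) .nil)) .nil)) .nil)) .nil)) .nil)) .nil))) .nil))))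
noncomputable def t216 : T := .cons 295 (.leaf 343 1981 (.cons 247 (.cons 318 (.leaf 342 1974 (.cons 320 (.leaf 344 1980 (.cons 294 (.leaf 223 1782 (.cons 293 (.leaf 292 2336 (.leaf 321 2347 .nil)) .nil)) .nil)) .nil)) (.cons 246 (.leaf 222 1783 (.cons 245 (.leaf 244 1952 (.leaf 273 1960 .nil)) .nil)) .nil)) .nil)) (.cons 247 t215 (.cons 320 (.cons 296 (.leaf 343 1982 (.cons 247 (.leaf 223 1791 (.leaf 344 1983 .nil)) .nil)) (.cons 321 t214 (.cons 296 (.cons 247 (.leaf 223 1791 (.leaf 344 1983 .nil)) (.cons 249 (.leaf 225 1797 (.cons 344 (.leaf 273 1989 (.cons 345 (.leaf 321 1988 (.leaf 369 2180 .nil)) .nil)) .nil)) (.cons 247 (.leaf 223 1791 (.cons 249 (.leaf 225 1797 (.cons 250 (.leaf 251 1978 (.cons 321 (.leaf 345 1988 (.cons 226 (.leaf 227 1785 (.cons 297 (.leaf 273 1805 (.cons 298 (.leaf 299 2362 (.leaf 318 2353 .nil)) .nil)) .nil)) .nil)) .nil)) .nil)) .nil)) .nil))) (.cons 296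 (.leaf 343 1982 (.cons 247 (.leaf 223 1791 (.cons 249 (.leaf 225 1797 (.cons 250 (.leaf 251 1978 (.cons 321 (.leaf 345 1988 (.cons 226 (.leaf 227 1785 (.cons 297 (.leaf 273 1805 (.cons 298 (.leaf 299 2362 (.leaf 318 2353 .nil)) .nil)) .nil)) .nil)) .nil)) .nil)) .nil)) .nil)) .nil)))) (.cons 295 (.leaf 343 1981 (.cons 247 (.cons 246 (.leaf 222 1783 (.cons 245 (.leaf 244 1952 (.leaf 273 1960 .nil)) .nil)) (.cons 318 (.leaf 342 1974 (.cons 223 (.leaf 294 1782 (.cons 198 (.leaf 222 1591 (.cons 199 (.leaf 175 1404 (.leaf 296 1596 .nil)) .nil)) .nil)) .nil)) (.cons 318 (.leaf 342 1974 (.cons 223 (.leaf 294 1782 (.cons 199 (.leaf 175 1404 (.leaf 296 1596 .nil)) .nil)) .nil)) .nil))) .nil)) (.cons 343 (.leaf 295 1981 (.cons 320 (.leaf 296 1982 (.cons 321 (.cons 322 (.leaf 342 2546 (.cons 323 (.leaf 344 2554 (.cons 347 (.leaf 346 2552 (.leaf 348 2560 .nil)) .nil)) .nil)) (.cons 318 (.cons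 297 (.leaf 298 2353 (.cons 345 (.leaf 273 1991 (.leaf 346 2544 .nil)) .nil)) (.cons 293 (.leaf 294 2347 (.cons 297 (.leaf 298 2353 (.cons 317 (.leaf 292 2339 (.cons 341 (.leaf 340 2530 (.leaf 342 2538 .nil)) .nil)) .nil)) .nil)) (.cons 293 (.leaf 294 2347 (.cons 317 (.leaf 292 2339 (.cons 341 (.leaf 340 2530 (.leaf 342 2538 .nil)) .nil)) .nil)) .nil))) (.cons 318 t212 (.cons 342 (.leaf 322 2546 (.cons 341 (.leaf 318 2538 (.leaf 340 2529 .nil)) .nil)) .nil)))) .nil)) .nil)) (.cons 295 (.leaf 343 1981 (.cons 247 (.cons 246 (.leaf 222 1783 (.cons 245 (.leaf 244 1952 (.leaf 273 1960 .nil)) .nil)) (.cons 320 (.leaf 344 1980 (.cons 296 (.leaf 223 1788 (.cons 225 (.leaf 249 1797 (.cons 321 (.leaf 345 1988 (.cons 294 (.leaf 322 2355 (.leaf 293 2344 .nil)) .nil)) .nil)) .nil)) .nil)) .nil)) .nil)) (.cons 295 (.leaf 343 1981 (.cons 247 (.cons 320 (.leaf 344 1980 (.cons 318 (.leaf 342 1974 (.cons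 294 (.leaf 223 1782 (.cons 293 (.leaf 292 2336 (.leaf 321 2347 .nil)) .nil)) .nil)) .nil)) (.cons 222 (.leaf 246 1783 (.cons 223 (.leaf 198 1591 (.cons 199 (.leaf 175 1404 (.leaf 296 1596 .nil)) .nil)) .nil)) (.cons 246 (.leaf 222 1783 (.cons 245 (.leaf 244 1952 (.cons 221 (.leaf 220 1763 (.cons 269 (.leaf 268 1954 (.cons 318 (.leaf 342 1974 (.cons 293 (.leaf 294 1772 (.cons 320 (.leaf 344 1980 (.cons 292 (.leaf 317 2339 (.leaf 316 1766 .nil)) .nil)) .nil)) .nil)) .nil)) .nil)) .nil)) .nil)) .nil))) .nil)) (.cons 295 (.leaf 343 1981 (.cons 247 (.cons 222 (.leaf 246 1783 (.cons 223 (.leaf 198 1591 (.cons 199 (.leaf 175 1404 (.leaf 296 1596 .nil)) .nil)) .nil)) (.cons 320 (.leaf 344 1980 (.cons 296 (.leaf 223 1788 (.cons 318 (.leaf 342 1974 (.cons 297 (.leaf 298 2354 (.leaf 317 2345 .nil)) .nil)) .nil)) .nil)) (.cons 246 (.leaf 222 1783 (.cons 245 (.leaf 244 1952 (.leaf 273 1960 .nil))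 .nil)) .nil))) .nil)) .nil)))))))
noncomputable def t217 : T := .cons 249 (.leaf 250 1969 (.cons 297 (.leaf 298 2160 (.cons 321 (.leaf 345 1991 (.cons 293 (.leaf 294 2154 (.cons 320 (.leaf 344 1990 (.cons 225 (.leaf 296 1797 (.cons 177 (.leaf 201 1414 (.cons 226 (.leaf 202 1613 (.cons 246 (.leaf 245 1963 (.leaf 247 1777 .nil)) .nil)) .nil)) .nil)) .nil)) .nil)) .nil)) .nil)) .nil)) (.cons 246 (.leaf 245 1963 (.cons 294 (.leaf 293 2154 (.cons 297 (.leaf 298 2160 (.cons 321 (.leaf 345 1991 (.cons 295 (.cons 319 (.leaf 343 1981 (.leaf 222 1780 .nil)) (.cons 198 (.leaf 222 1588 (.cons 296 (.leaf 322 2352 (.cons 318 (.leaf 317 2346 (.cons 247 (.leaf 223 1781 (.leaf 342 1973 .nil)) .nil)) .nil)) .nil)) (.cons 319 (.leaf 343 1981 (.cons 322 (.leaf 296 2352 (.leaf 320 2355 .nil)) .nil)) .nil))) .nil)) .nil)) .nil)) .nil)) (.cons 249 (.leaf 250 1969 (.cons 297 (.leaf 298 2160 (.cons 321 (.leaf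 345 1991 (.cons 293 (.leaf 294 2154 (.cons 320 (.leaf 344 1990 (.cons 225 (.leaf 296 1797 (.cons 201 (.leaf 177 1414 (.cons 202 (.leaf 178 1421 (.leaf 226 1613 .nil)) .nil)) .nil)) .nil)) .nil)) .nil)) .nil)) .nil)) (.cons 249 (.leaf 250 1969 (.cons 246 (.leaf 245 1963 (.cons 225 (.cons 247 (.leaf 226 1777 (.cons 222 (.leaf 221 1771 (.cons 198 (.leaf 174 1396 (.leaf 295 1588 .nil)) .nil)) .nil)) (.cons 201 (.leaf 177 1414 (.leaf 296 1606 .nil)) .nil)) .nil)) .nil)) (.cons 249 (.leaf 250 1969 (.cons 246 (.leaf 245 1963 (.cons 297 (.leaf 298 2160 (.cons 321 (.leaf 345 1991 (.cons 294 (.leaf 293 2154 (.cons 320 (.leaf 344 1990 (.cons 322 (.leaf 346 1996 (.cons 319 (.leaf 295 2355 (.cons 343 (.leaf 318 1972 (.leaf 342 2546 .nil)) .nil)) .nil)) .nil)) .nil)) .nil)) .nil)) .nil)) .nil)) .nil))))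
noncomputable def t218 : T := .cons 270 (.cons 269 (.leaf 249 1961 (.cons 244 (.leaf 245 1955 (.cons 268 (.leaf 247 1953 (.leaf 243 1947 .nil)) .nil)) .nil)) (.cons 273 t217 (.cons 269 (.cons 244 (.leaf 245 1955 (.cons 268 (.leaf 247 1953 (.leaf 243 1947 .nil)) .nil)) (.cons 244 (.leaf 245 1955 (.cons 293 (.leaf 292 2146 (.cons 297 (.leaf 296 2152 (.cons 273 (.leaf 294 2154 (.leaf 298 2160 .nil)) .nil)) .nil)) .nil)) (.cons 268 (.leaf 247 1953 (.cons 292 (.leaf 293 2146 (.leaf 291 2138 .nil)) .nil)) .nil))) (.cons 269 (.leaf 249 1961 (.cons 244 (.leaf 245 1955 (.cons 268 (.leaf 243 1947 (.cons 296 (.leaf 297 2152 (.leaf 295 2144 .nil)) .nil)) .nil)) .nil)) (.cons 269 (.leaf 249 1961 (.cons 268 (.leaf 247 1953 (.cons 292 (.leaf 293 2146 (.leaf 291 2138 .nil)) .nil)) .nil)) .nil))))) (.cons 319 t216 (.cons 295 t211 (.cons 270 t206 (.cons 249 (.cons 250 (.leaf 251 1978 (.cons 270 (.leaf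 269 1961 (.leaf 273 1969 .nil)) .nil)) (.cons 250 (.leaf 251 1978 (.cons 247 (.cons 222 (.leaf 223 1779 (.cons 246 (.leaf 221 1771 (.cons 245 (.leaf 244 1952 (.leaf 273 1960 .nil)) .nil)) .nil)) (.cons 226 (.leaf 227 1785 (.cons 246 (.leaf 225 1777 (.cons 245 (.leaf 244 1952 (.leaf 273 1960 .nil)) .nil)) .nil)) (.cons 223 (.leaf 222 1779 (.cons 199 (.leaf 175 1404 (.cons 226 (.leaf 227 1785 (.cons 198 (.leaf 174 1399 (.cons 200 (.leaf 176 1405 (.cons 201 (.leaf 225 1584 (.cons 178 (.leaf 177 1393 (.cons 202 (.leaf 273 1422 (.leaf 179 1401 .nil)) .nil)) .nil)) .nil)) .nil)) .nil)) .nil)) .nil)) (.cons 226 (.leaf 227 1785 (.cons 246 (.leaf 225 1777 (.cons 221 (.leaf 222 1771 (.cons 245 (.leaf 244 1952 (.leaf 220 1763 .nil)) .nil)) .nil)) .nil)) .nil)))) .nil)) (.cons 270 (.leaf 269 1961 (.cons 246 t204 .nil)) (.cons 270 (.leaf 269 1961 (.cons 250 (.leaf 251 1978 (.leaf 247 1970 .nil))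 .nil)) .nil)))) (.cons 249 t203 (.cons 249 (.cons 270 (.leaf 269 1961 (.cons 250 (.leaf 251 1978 (.leaf 273 1969 .nil)) .nil)) (.cons 250 (.leaf 251 1978 (.cons 247 (.cons 226 (.leaf 227 1785 (.cons 223 (.leaf 222 1779 (.cons 199 (.leaf 175 1404 (.leaf 296 1596 .nil)) .nil)) .nil)) (.cons 226 (.leaf 227 1785 (.cons 246 (.leaf 225 1777 (.cons 245 (.leaf 244 1952 (.leaf 273 1960 .nil)) .nil)) .nil)) (.cons 223 (.leaf 222 1779 (.cons 296 (.leaf 199 1596 (.leaf 320 1791 .nil)) .nil)) .nil))) .nil)) (.cons 270 (.leaf 269 1961 (.cons 273 t201 .nil)) (.cons 270 (.leaf 269 1961 (.cons 250 (.leaf 251 1978 (.leaf 247 1970 .nil)) .nil)) .nil)))) t200))))))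
noncomputable def t219 : T := .cons 223 (.leaf 199 1599 (.cons 201 (.leaf 225 1605 (.cons 319 (.leaf 295 1790 (.cons 320 (.leaf 247 1791 (.leaf 343 1982 .nil)) .nil)) .nil)) .nil)) (.cons 225 (.leaf 201 1605 (.cons 249 (.leaf 320 1797 (.cons 295 (.leaf 319 1790 (.cons 200 (.leaf 271 1598 (.cons 176 (.leaf 152 1220 (.cons 175 (.leaf 199 1407 (.leaf 151 1215 .nil)) .nil)) .nil)) .nil)) .nil)) .nil)) (.cons 223 (.leaf 199 1599 (.cons 247 (.leaf 320 1791 (.cons 295 (.leaf 319 1790 (.cons 200 (.leaf 271 1597 (.cons 176 (.leaf 152 1214 (.cons 177 (.leaf 201 1413 (.leaf 153 1221 .nil)) .nil)) .nil)) .nil)) .nil)) .nil)) (.cons 223 (.leaf 199 1599 (.cons 201 (.leaf 225 1605 (.cons 320 (.leaf 247 1791 (.cons 321 (.leaf 297 1796 (.leaf 345 1988 .nil)) .nil)) .nil)) .nil)) (.cons 225 (.leaf 201 1605 (.cons 249 (.leaf 320 1797 (.cons 295 (.leaf 319 1790 (.cons 271 (.leaf 200 1598 (.cons 270 (.leaf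 269 1961 (.cons 250 (.leaf 251 1978 (.leaf 247 1970 .nil)) .nil)) .nil)) .nil)) .nil)) .nil)) (.cons 223 (.leaf 199 1599 (.cons 247 (.leaf 320 1791 (.cons 295 (.leaf 319 1790 (.cons 271 (.leaf 200 1597 (.cons 198 (.leaf 222 1591 (.cons 294 (.leaf 318 1782 (.cons 292 (.leaf 293 2145 (.cons 297 (.leaf 321 1796 (.cons 270 (.leaf 269 2152 (.leaf 298 2163 .nil)) .nil)) .nil)) .nil)) .nil)) .nil)) .nil)) .nil)) .nil)) (.cons 295 (.leaf 319 1790 (.cons 271 (.leaf 200 1598 (.cons 297 (.leaf 321 1796 (.cons 270 (.leaf 269 2152 (.leaf 298 2163 .nil)) .nil)) .nil)) .nil)) .nil))))))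
noncomputable def t220 : T := .cons 199 (.leaf 223 1599 (.cons 225 (.leaf 201 1605 (.cons 200 (.leaf 175 1407 (.cons 197 (.leaf 198 1576 (.cons 226 (.leaf 227 1595 (.cons 295 (.leaf 271 1598 (.leaf 319 1790 .nil)) .nil)) .nil)) .nil)) .nil)) .nil)) (.cons 225 (.leaf 201 1605 (.cons 249 (.leaf 320 1797 (.cons 295 (.leaf 319 1790 (.cons 200 (.leaf 271 1598 (.cons 273 (.leaf 297 1604 (.leaf 176 1412 .nil)) .nil)) .nil)) .nil)) .nil)) (.cons 223 (.leaf 199 1599 (.cons 247 (.leaf 320 1791 (.cons 295 (.leaf 319 1790 (.cons 200 (.leaf 271 1597 (.cons 176 (.leaf 152 1214 (.cons 177 (.leaf 201 1413 (.leaf 153 1221 .nil)) .nil)) .nil)) .nil)) .nil)) .nil)) (.cons 225 (.leaf 201 1605 (.cons 199 (.leaf 223 1599 (.cons 200 (.leaf 175 1407 (.cons 197 (.leaf 198 1576 (.cons 226 (.leaf 227 1595 (.cons 249 (.leaf 320 1797 (.cons 273 (.leaf 297 1604 (.leaf 176 1412 .nil)) .nil)) .nil)) .nil)) .nil))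 .nil)) .nil)) (.cons 223 (.leaf 199 1599 (.cons 247 (.leaf 320 1791 (.cons 295 (.leaf 319 1790 (.cons 200 (.leaf 271 1597 (.cons 176 (.leaf 152 1214 (.cons 273 (.leaf 297 1604 (.leaf 249 1412 .nil)) .nil)) .nil)) .nil)) .nil)) .nil)) (.cons 223 (.leaf 199 1599 (.cons 201 (.leaf 225 1605 (.cons 319 (.leaf 295 1790 (.cons 320 (.leaf 247 1791 (.leaf 343 1982 .nil)) .nil)) .nil)) .nil)) .nil)))))
noncomputable def t221 : T := .cons 223 (.leaf 247 1791 (.cons 319 (.leaf 343 1982 (.cons 345 (.leaf 321 1988 (.cons 344 (.leaf 369 2180 (.cons 273 (.leaf 249 1989 (.cons 297 (.leaf 368 2181 (.cons 317 (.leaf 318 2536 (.cons 298 (.leaf 299 2362 (.cons 346 (.leaf 347 2555 (.cons 322 (.leaf 370 2191 (.cons 295 (.leaf 224 1790 (.leaf 323 2360 .nil)) .nil)) .nil)) .nil)) .nil)) .nil)) .nil)) .nil)) .nil)) .nil)) .nil)) (.cons 223 (.leaf 247 1791 (.cons 224 (.leaf 199 1599 (.cons 297 (.leaf 321 1796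 (.cons 273 (.leaf 200 1604 (.cons 344 (.leaf 249 1989 (.leaf 368 2181 .nil)) .nil)) .nil)) .nil)) .nil)) (.cons 319 (.leaf 343 1982 (.cons 223 (.leaf 247 1791 (.cons 224 (.leaf 199 1599 (.leaf 295 1790 .nil)) .nil)) .nil)) (.cons 321 (.leaf 345 1988 (.cons 224 (.leaf 297 1796 (.cons 319 (.leaf 295 1790 (.leaf 343 1982 .nil)) .nil)) .nil)) (.cons 223 (.leaf 247 1791 (.cons 319 (.leaf 343 1982 (.cons 345 (.leaf 321 1988 (.cons 344 (.leaf 369 2180 (.cons 273 (.leaf 249 1989 (.cons 297 (.leaf 368 2181 (.cons 317 (.leaf 318 2536 (.cons 298 (.leaf 299 2362 (.cons 346 (.leaf 347 2555 (.cons 322 (.leaf 370 2191 (.cons 295 (.leaf 323 2360 (.cons 270 (.leaf 271 2160 (.cons 294 (.leaf 293 2153 (.leaf 269 2155 .nil)) .nil)) .nil)) .nil)) .nil)) .nil)) .nil)) .nil)) .nil)) .nil)) .nil)) .nil)) .nil)) .nil))))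
noncomputable def t222 : T := .cons 223 (.leaf 199 1599 (.cons 225 (.leaf 201 1605 (.cons 295 (.leaf 319 1790 (.cons 222 (.cons 197 (.leaf 198 1579 (.cons 196 (.leaf 221 1571 (.cons 246 (.leaf 245 1770 (.cons 226 (.leaf 247 1778 (.cons 203 (.leaf 202 1593 (.cons 227 (.leaf 204 1601 (.cons 251 (.leaf 250 1784 (.leaf 252 1792 .nil)) .nil)) .nil)) .nil)) .nil)) .nil)) .nil)) (.cons 197 (.leaf 198 1579 (.cons 221 (.leaf 249 1768 (.leaf 196 1571 .nil)) .nil)) (.cons 197 (.leaf 198 1579 (.cons 245 (.leaf 246 1770 (.cons 249 (.leaf 250 1776 (.cons 200 (.leaf 271 1598 (.cons 273 (.leaf 297 1604 (.leaf 176 1412 .nil)) .nil)) .nil)) .nil)) .nil)) (.cons 249 (.leaf 221 1768 (.leaf 250 1776 .nil)) .nil)))) .nil)) .nil)) .nil)) (.cons 295 (.leaf 319 1790 (.cons 200 (.leaf 271 1598 (.cons 175 (.leaf 199 1407 (.cons 176 (.leaf 151 1215 (.cons 177 (.leaf 201 1413 (.leaf 153 1221 .nil)) .nil)) .nil))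 .nil)) .nil)) (.cons 223 (.leaf 199 1599 (.cons 225 (.leaf 201 1605 (.cons 297 (.leaf 321 1796 (.cons 222 (.cons 197 (.leaf 198 1579 (.cons 196 (.leaf 221 1571 (.cons 246 (.leaf 245 1770 (.cons 226 (.leaf 247 1778 (.cons 203 (.leaf 202 1593 (.cons 227 (.leaf 204 1601 (.cons 251 (.leaf 250 1784 (.leaf 252 1792 .nil)) .nil)) .nil)) .nil)) .nil)) .nil)) .nil)) (.cons 197 (.leaf 198 1579 (.cons 245 (.leaf 246 1770 (.cons 250 (.leaf 249 1776 (.cons 226 (.leaf 251 1784 (.cons 203 (.leaf 202 1593 (.cons 227 (.leaf 247 1786 (.leaf 204 1601 .nil)) .nil)) .nil)) .nil)) .nil)) .nil)) (.cons 197 (.leaf 198 1579 (.cons 221 (.leaf 249 1768 (.leaf 196 1571 .nil)) .nil)) (.cons 249 (.leaf 221 1768 (.leaf 250 1776 .nil)) .nil)))) .nil)) .nil)) .nil)) (.cons 295 (.leaf 319 1790 (.cons 271 (.leaf 200 1598 (.cons 297 (.leaf 321 1796 (.cons 270 (.leaf 269 2152 (.leaf 298 2163 .nil)) .nil)) .nil)) .nil))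 .nil)))
noncomputable def t223 : T := .cons 224 (.cons 199 (.leaf 223 1599 (.cons 200 (.leaf 175 1407 (.cons 295 (.leaf 271 1598 (.leaf 319 1790 .nil)) .nil)) .nil)) (.cons 295 (.leaf 319 1790 (.cons 271 (.leaf 200 1598 (.cons 297 (.leaf 321 1796 (.cons 270 (.leaf 269 2152 (.leaf 298 2163 .nil)) .nil)) .nil)) .nil)) (.cons 199 (.leaf 223 1599 (.cons 200 (.leaf 175 1407 (.cons 297 (.leaf 273 1604 (.leaf 321 1796 .nil)) .nil)) .nil)) (.cons 199 (.leaf 223 1599 (.cons 295 (.leaf 319 1790 (.cons 321 (.leaf 297 1796 (.cons 320 (.leaf 345 1988 (.cons 249 (.leaf 225 1797 (.cons 293 (.leaf 294 2344 (.cons 322 (.leaf 323 2363 (.cons 344 (.leaf 273 1989 (.cons 271 (.leaf 247 1983 (.leaf 368 2175 .nil)) .nil)) .nil)) .nil)) .nil)) .nil)) .nil)) .nil)) .nil)) .nil)))) (.cons 320 (.cons 247 (.leaf 223 1791 (.cons 343 (.leaf 319 1982 (.cons 344 (.leaf 271 1983 (.leaf 367 2174 .nil)) .nil)) .nil))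 (.cons 249 (.leaf 225 1797 (.cons 344 (.leaf 273 1989 (.cons 345 (.leaf 321 1988 (.leaf 369 2180 .nil)) .nil)) .nil)) (.cons 319 (.leaf 343 1982 (.cons 321 (.leaf 345 1988 (.cons 249 (.leaf 225 1797 (.cons 247 (.leaf 223 1791 (.cons 318 (.cons 294 (.leaf 293 2347 (.cons 297 (.leaf 317 2345 (.leaf 298 2353 .nil)) .nil)) (.cons 293 (.leaf 294 2347 (.cons 317 (.leaf 292 2339 (.cons 341 (.leaf 340 2530 (.leaf 342 2538 .nil)) .nil)) .nil)) (.cons 294 (.leaf 293 2347 (.cons 297 (.leaf 298 2353 (.cons 342 (.leaf 341 2538 (.cons 270 (.leaf 271 1973 (.cons 269 (.leaf 246 1962 (.leaf 295 2155 .nil)) .nil)) .nil)) .nil)) .nil)) (.cons 297 (.leaf 317 2345 (.leaf 298 2353 .nil)) .nil)))) .nil)) .nil)) .nil)) .nil)) .nil))) (.cons 224 t222 (.cons 320 (.cons 319 (.leaf 343 1982 (.cons 321 (.leaf 345 1988 (.cons 297 (.leaf 224 1796 (.cons 298 (.leaf 299 2362 (.leaf 318 2353 .nil)) .nil)) .nil)) .nil))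 (.cons 249 (.leaf 225 1797 (.cons 344 (.leaf 273 1989 (.cons 345 (.leaf 321 1988 (.leaf 369 2180 .nil)) .nil)) .nil)) (.cons 319 (.leaf 343 1982 (.cons 224 (.leaf 295 1790 (.cons 225 (.leaf 201 1605 (.leaf 249 1797 .nil)) .nil)) .nil)) .nil))) (.cons 224 (.cons 199 (.leaf 223 1599 (.cons 200 (.leaf 175 1407 (.cons 297 (.leaf 273 1604 (.leaf 321 1796 .nil)) .nil)) .nil)) (.cons 297 (.leaf 321 1796 (.cons 200 (.leaf 273 1604 (.cons 201 (.leaf 177 1413 (.leaf 225 1605 .nil)) .nil)) .nil)) (.cons 199 (.leaf 223 1599 (.cons 200 (.leaf 175 1407 (.cons 201 (.leaf 177 1413 (.leaf 225 1605 .nil)) .nil)) .nil)) (.cons 199 (.leaf 223 1599 (.cons 225 (.leaf 201 1605 (.cons 320 (.leaf 249 1797 (.cons 321 (.leaf 297 1796 (.leaf 345 1988 .nil)) .nil)) .nil)) .nil)) .nil)))) (.cons 224 (.cons 199 (.leaf 223 1599 (.cons 201 (.leaf 225 1605 (.cons 319 (.leaf 295 1790 (.cons 320 (.leaf 343 1982 (.cons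 321 (.leaf 297 1796 (.leaf 345 1988 .nil)) .nil)) .nil)) .nil)) .nil)) (.cons 297 (.leaf 321 1796 (.cons 200 (.leaf 273 1604 (.cons 201 (.leaf 177 1413 (.leaf 225 1605 .nil)) .nil)) .nil)) (.cons 295 (.leaf 319 1790 (.cons 200 (.leaf 271 1598 (.cons 175 (.leaf 199 1407 (.cons 176 (.leaf 151 1215 (.cons 177 (.leaf 201 1413 (.leaf 153 1221 .nil)) .nil)) .nil)) .nil)) .nil)) (.cons 199 (.leaf 223 1599 (.cons 175 (.leaf 200 1407 (.cons 319 (.leaf 295 1790 (.cons 320 (.leaf 343 1982 (.cons 321 (.leaf 297 1796 (.leaf 345 1988 .nil)) .nil)) .nil)) .nil)) .nil)) .nil)))) (.cons 320 (.cons 319 (.leaf 343 1982 (.cons 224 (.leaf 295 1790 (.cons 225 (.leaf 201 1605 (.leaf 249 1797 .nil)) .nil)) .nil)) (.cons 249 (.leaf 225 1797 (.cons 344 (.leaf 273 1989 (.cons 345 (.leaf 321 1988 (.leaf 369 2180 .nil)) .nil)) .nil)) (.cons 223 (.leaf 247 1791 (.cons 199 (.leaf 224 1599 (.cons 343 (.leaf 319 1982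 (.cons 344 (.leaf 367 2174 (.cons 345 (.leaf 321 1988 (.leaf 369 2180 .nil)) .nil)) .nil)) .nil)) .nil)) .nil))) (.cons 320 t221 (.cons 224 t220 (.cons 224 t219 .nil)))))))))
noncomputable def top0 : T := .cons 247 (.cons 273 (.leaf 274 1979 (.cons 246 (.leaf 245 1960 (.cons 249 (.cons 222 (.leaf 221 1771 (.cons 225 (.leaf 226 1777 (.cons 201 (.leaf 177 1414 (.leaf 296 1606 .nil)) .nil)) .nil)) (.cons 222 (.leaf 221 1771 (.cons 223 (.leaf 250 1779 (.cons 199 (.leaf 175 1404 (.cons 270 (.leaf 269 1962 (.leaf 294 1589 .nil)) .nil)) .nil)) .nil)) (.cons 225 (.leaf 226 1777 (.cons 201 (.leaf 177 1414 (.leaf 296 1606 .nil)) .nil)) .nil))) .nil)) .nil)) t84) (.cons 296 t80 (.cons 296 t78 (.cons 247 t75 (.cons 247 t65 (.cons 224 t55 (.cons 273 t51 (.cons 273 t48 (.cons 273 t45 (.cons 247 t41 (.cons 247 t36 (.cons 247 t29 (.cons 273 t24 (.cons 273 t22 (.cons 273 t19 (.cons 247 t15 (.cons 273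 t8 (.cons 247 (t6) (.cons 273 t1 .nil))))))))))))))))))
noncomputable def top1 : T := .cons 296 t223 (.cons 271 t218 (.cons 200 t177 (.cons 296 t124 (.cons 224 t121 (.cons 224 t118 (.cons 296 t115 (.cons 224 t113 (.cons 224 (.cons 200 (.cons 175 (.leaf 199 1407 (.cons 176 (.leaf 151 1215 (.cons 271 (.leaf 295 1598 (.leaf 247 1406 .nil)) .nil)) .nil)) (.cons 175 (.leaf 199 1407 (.cons 176 (.leaf 151 1215 (.cons 273 (.leaf 297 1604 (.leaf 249 1412 .nil)) .nil)) .nil)) (.cons 271 (.leaf 295 1598 (.cons 176 (.leaf 247 1406 (.cons 151 (.leaf 175 1215 (.cons 152 (.leaf 127 1023 (.cons 153 (.leaf 177 1221 (.leaf 129 1029 .nil)) .nil)) .nil)) .nil)) .nil)) (.cons 271 (.leaf 295 1598 (.cons 176 (.leaf 247 1406 (.cons 177 (.leaf 201 1413 (.leaf 153 1221 .nil)) .nil)) .nil)) (.cons 177 (.leaf 201 1413 (.cons 199 (.leaf 175 1407 (.cons 295 (.leaf 271 1598 (.cons 296 (.leaf 223 1599 (.leaf 319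 1790 .nil)) .nil)) .nil)) .nil)) .nil))))) t109) (.cons 296 t108 (.cons 296 t106 (.cons 296 t104 (.cons 296 t102 (.cons 224 (.cons 200 (.cons 175 (.leaf 199 1407 (.cons 176 (.leaf 151 1215 (.cons 271 (.leaf 295 1598 (.leaf 247 1406 .nil)) .nil)) .nil)) (.cons 177 (.leaf 201 1413 (.cons 176 (.leaf 153 1221 (.cons 273 (.leaf 297 1604 (.leaf 249 1412 .nil)) .nil)) .nil)) (.cons 199 (.leaf 175 1407 (.cons 271 (.leaf 295 1598 (.cons 296 (.leaf 223 1599 (.cons 297 (.leaf 273 1604 (.leaf 321 1796 .nil)) .nil)) .nil)) .nil)) .nil))) (.cons 296 t99 (.cons 200 t98 t97))) (.cons 296 t95 (.cons 224 t89 .nil)))))))))))))))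

end Vale.Agent.P062.PB.N5D0
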