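import Vale.Agent.P062.Checker

namespace Vale.Agent.P062.PB.N5D1

open Vale.Agent.P062

noncomputable def t0 : T := .cons 347 (.leaf 250 2007 (.cons 298 (.leaf 371 2199 (.cons 346 (.leaf 370 2198 (.cons 251 (.leaf 322 2005 (.cons 348 (.leaf 324 2012 (.leaf 372 2204 .nil)) .nil)) .nil)) .nil)) .nil)) (.cons 251 (.cons 226 (.leaf 250 1815 (.cons 322 (.leaf 346 2006 (.cons 227 (.leaf 298 1814 (.cons 324 (.leaf 300 1820 (.leaf 348 2012 .nil)) .nil)) .nil)) .nil)) (.cons 250 (.leaf 226 1815 (.cons 324 (.leaf 348 2012 (.cons 227 (.leaf 300 1820 (.cons 203 (.leaf 298 1622 (.leaf 179 1430 .nil)) .nil)) .nil)) .nil)) (.cons 322 (.leaf 346 2006 (.cons 227 (.leaf 298 1814 (.cons 228 (.leaf 204 1629 (.leaf 252 1821 .nil)) .nil)) .nil)) (.cons 324 (.leaf 348 2012 (.cons 227 (.leaf 300 1820 (.cons 228 (.leaf 204 1629 (.leaf 252 1821 .nil)) .nil)) .nil)) (.cons 250 (.leaf 226 1815 (.cons 252 (.leaf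 228 1821 (.cons 253 (.leaf 254 2002 (.cons 229 (.leaf 230 1809 (.cons 324 (.leaf 348 2012 (.cons 277 (.leaf 278 2000 (.cons 301 (.leaf 300 1830 (.cons 326 (.leaf 302 1836 (.cons 325 (.leaf 298 2387 (.leaf 350 2028 .nil)) .nil)) .nil)) .nil)) .nil)) .nil)) .nil)) .nil)) .nil)) .nil))))) (.cons 251 (.cons 324 (.leaf 348 2012 (.cons 227 (.leaf 300 1820 (.cons 228 (.leaf 204 1629 (.leaf 252 1821 .nil)) .nil)) .nil)) (.cons 322 (.leaf 346 2006 (.cons 227 (.leaf 298 1814 (.cons 228 (.leaf 204 1629 (.leaf 252 1821 .nil)) .nil)) .nil)) (.cons 322 (.leaf 346 2006 (.cons 227 (.leaf 298 1814 (.cons 324 (.leaf 300 1820 (.leaf 348 2012 .nil)) .nil)) .nil)) (.cons 228 (.leaf 252 1821 (.cons 324 (.leaf 348 2012 (.cons 346 (.leaf 322 2006 (.cons 347 (.leaf 370 2198 (.cons 298 (.leaf 371 2199 (.cons 325 (.leaf 326 2578 (.cons 297 (.leaf 296 2368 (.leaf 300 2376 .nil)) .nil)) .nil)) .nil)) .nil)) .nil))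 .nil)) .nil)))) (.cons 347 (.leaf 250 2007 (.cons 370 (.leaf 346 2198 (.cons 371 (.leaf 298 2199 (.leaf 394 2390 .nil)) .nil)) .nil)) (.cons 347 (.leaf 250 2007 (.cons 346 (.leaf 370 2198 (.cons 348 (.leaf 372 2204 (.cons 324 (.leaf 251 2012 (.cons 325 (.leaf 326 2578 (.leaf 345 2569 .nil)) .nil)) .nil)) .nil)) .nil)) (.cons 347 (.leaf 250 2007 (.cons 298 (.leaf 371 2199 (.cons 348 (.leaf 372 2204 (.cons 251 (.leaf 324 2012 (.cons 227 (.leaf 203 1622 (.leaf 322 1814 .nil)) .nil)) .nil)) .nil)) .nil)) .nil)))))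
noncomputable def t1 : T := .cons 273 (.leaf 300 2176 (.cons 251 (.leaf 252 1985 (.cons 296 (.leaf 295 2170 (.cons 271 (.leaf 250 1977 (.leaf 298 2168 .nil)) .nil)) .nil)) .nil)) (.cons 323 t0 (.cons 273 (.cons 251 (.leaf 252 1985 (.cons 296 (.leaf 295 2170 (.cons 271 (.leaf 250 1977 (.leaf 298 2168 .nil)) .nil)) .nil)) (.cons 251 (.leaf 252 1985 (.cons 296 (.leaf 295 2170 (.cons 323 (.cons 250 (.leaf 226 1815 (.leaf 347 2007 .nil)) (.cons 322 (.leaf 346 2006 (.cons 298 (.leaf 227 1814 (.cons 324 (.leaf 348 2012 (.leaf 297 2368 .nil)) .nil)) .nil)) .nil)) .nil)) .nil)) (.cons 271 (.leaf 298 2168 (.cons 295 (.leaf 296 2170 (.leaf 294 2162 .nil)) .nil)) (.cons 251 (.leaf 252 1985 (.cons 271 (.leaf 250 1977 (.cons 295 (.leaf 296 2170 (.leaf 294 2162 .nil)) .nil)) .nil)) (.cons 251 (.leaf 252 1985 (.cons 271 (.leaf 250 1977 (.leaf 298 2168 .nil)) .nil)) .nil))))) (.cons 273 (.leaf 300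 2176 (.cons 251 (.leaf 252 1985 (.cons 271 (.leaf 250 1977 (.cons 295 (.leaf 296 2170 (.leaf 294 2162 .nil)) .nil)) .nil)) .nil)) (.cons 273 (.leaf 300 2176 (.cons 271 (.leaf 298 2168 (.cons 295 (.leaf 296 2170 (.leaf 294 2162 .nil)) .nil)) .nil)) (.cons 273 (.leaf 300 2176 (.cons 251 (.leaf 252 1985 (.cons 271 (.leaf 250 1977 (.leaf 298 2168 .nil)) .nil)) .nil)) .nil)))))
noncomputable def t2 : T := .leaf 273 2176 (.cons 301 (.leaf 302 2195 (.cons 251 (.cons 298 (.cons 322 (.leaf 227 1814 (.leaf 346 2005 .nil)) (.cons 227 (.leaf 203 1622 (.leaf 324 1820 .nil)) (.cons 322 (.leaf 346 2005 (.leaf 321 2378 .nil)) .nil))) (.cons 323 (.cons 347 (.leaf 250 2007 (.cons 346 (.leaf 322 2006 (.leaf 370 2198 .nil)) .nil)) (.cons 347 (.leaf 250 2007 (.cons 348 (.leaf 324 2012 (.leaf 372 2204 .nil)) .nil)) (.cons 228 (.leaf 252 1821 (.cons 322 (.leaf 346 2006 (.cons 321 (.leaf 298 2378 (.leaf 320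 2369 .nil)) .nil)) .nil)) .nil))) (.cons 298 (.cons 322 (.leaf 227 1814 (.leaf 346 2005 .nil)) (.cons 227 (.leaf 203 1622 (.cons 228 (.leaf 204 1629 (.cons 277 (.leaf 278 2193 (.cons 323 (.leaf 252 1821 (.cons 347 (.leaf 250 2007 (.leaf 371 2199 .nil)) .nil)) .nil)) .nil)) .nil)) (.cons 322 (.leaf 346 2005 (.leaf 321 2378 .nil)) .nil))) (.cons 227 (.leaf 324 1820 (.cons 204 (.leaf 228 1629 (.cons 203 (.leaf 180 1437 (.cons 178 (.leaf 202 1431 (.cons 179 (.leaf 250 1430 (.leaf 154 1239 .nil)) .nil)) .nil)) .nil)) .nil)) .nil)))) .nil)) .nil)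
noncomputable def t3 : T := .cons 324 (.leaf 227 1820 (.cons 348 (.leaf 323 2012 (.leaf 372 2207 .nil)) .nil)) (.cons 227 (.cons 204 (.leaf 228 1629 (.cons 203 (.leaf 180 1437 (.leaf 298 1622 .nil)) .nil)) (.cons 228 (.leaf 204 1629 (.cons 252 (.leaf 323 1821 (.cons 253 (.leaf 254 2002 (.cons 277 (.leaf 325 1831 (.cons 278 (.leaf 298 2193 (.leaf 250 2000 .nil)) .nil)) .nil)) .nil)) .nil)) (.cons 204 (.leaf 228 1629 (.cons 203 (.leaf 180 1437 (.cons 178 (.leaf 202 1431 (.cons 179 (.leaf 250 1430 (.leaf 154 1239 .nil)) .nil)) .nil)) .nil)) (.cons 203 (.leaf 298 1622 (.cons 178 (.leaf 202 1431 (.cons 179 (.leaf 250 1430 (.leaf 154 1239 .nil)) .nil)) .nil)) .nil)))) (.cons 323 (.cons 252 (.leaf 228 1821 (.cons 253 (.leaf 254 2002 (.cons 324 (.leaf 348 2012 (.cons 277 (.leaf 229 1830 (.cons 298 (.leaf 278 2193 (.cons 347 (.leaf 250 2007 (.leaf 371 2199 .nil)) .nil)) .nil)) .nil)) .nil))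 .nil)) (.cons 252 (.leaf 228 1821 (.cons 253 (.leaf 254 2002 (.cons 324 (.leaf 348 2012 (.cons 277 (.leaf 229 1830 (.cons 298 (.leaf 278 2193 (.cons 325 (.leaf 297 2376 (.leaf 326 2384 .nil)) .nil)) .nil)) .nil)) .nil)) .nil)) (.cons 228 (.leaf 252 1821 (.cons 347 (.leaf 250 2007 (.cons 346 (.leaf 370 2198 (.cons 371 (.leaf 298 2199 (.cons 372 (.leaf 348 2204 (.leaf 396 2396 .nil)) .nil)) .nil)) .nil)) .nil)) (.cons 228 (.leaf 252 1821 (.cons 347 (.leaf 250 2007 (.cons 298 (.leaf 371 2199 (.cons 277 (.leaf 278 2193 (.cons 325 (.leaf 326 2384 (.cons 297 (.leaf 324 2376 (.cons 296 (.leaf 295 2169 (.leaf 271 2171 .nil)) .nil)) .nil)) .nil)) .nil)) .nil)) .nil)) (.cons 347 (.leaf 250 2007 (.cons 348 (.leaf 324 2012 (.leaf 372 2204 .nil)) .nil)) .nil))))) (.cons 227 (.leaf 324 1820 (.cons 204 (.leaf 228 1629 (.cons 203 (.leaf 180 1437 (.leaf 298 1622 .nil)) .nil)) .nil)) .nil)))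
noncomputable def t4 : T := .cons 321 (.leaf 322 2378 (.cons 297 (.leaf 320 2370 (.cons 325 (.leaf 324 2376 (.leaf 326 2384 .nil)) .nil)) .nil)) (.cons 325 (.leaf 326 2384 (.cons 277 (.leaf 278 2193 (.cons 253 (.cons 348 (.leaf 324 2022 (.cons 228 (.leaf 252 1831 (.cons 349 (.leaf 372 2214 (.cons 374 (.leaf 350 2220 (.cons 373 (.leaf 398 2412 (.cons 230 (.leaf 254 1837 (.cons 347 (.leaf 346 2768 (.cons 323 (.leaf 250 2007 (.leaf 371 2199 .nil)) .nil)) .nil)) .nil)) .nil)) .nil)) .nil)) .nil)) (.cons 228 (.leaf 252 1831 (.cons 229 (.leaf 204 1639 (.cons 230 (.leaf 206 1645 (.leaf 254 1837 .nil)) .nil)) .nil)) (.cons 324 (.leaf 297 2376 (.leaf 229 1830 .nil)) .nil))) .nil)) .nil)) (.cons 322 (.leaf 321 2378 (.cons 277 (.leaf 278 2193 (.cons 346 (.leaf 370 2197 (.cons 345 (.leaf 369 2190 (.cons 347 (.leaf 371 2196 (.cons 323 (.leaf 250 2004 (.cons 344 (.leaf 343 2553 (.leaf 324 2561 .nil))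 .nil)) .nil)) .nil)) .nil)) .nil)) .nil)) (.cons 321 (.leaf 322 2378 (.cons 297 (.leaf 320 2370 (.cons 296 (.leaf 295 2169 (.leaf 271 2171 .nil)) .nil)) .nil)) .nil)))
noncomputable def t5 : T := .cons 228 (.leaf 252 1821 (.cons 322 (.leaf 346 2006 (.cons 320 (.leaf 321 2369 (.cons 347 (.leaf 250 2007 (.cons 371 (.leaf 298 2199 (.cons 372 (.leaf 348 2204 (.leaf 396 2396 .nil)) .nil)) .nil)) .nil)) .nil)) .nil)) (.cons 228 (.leaf 252 1821 (.cons 322 (.leaf 346 2006 (.cons 321 (.leaf 320 2369 (.cons 324 (.leaf 348 2012 (.cons 297 (.leaf 296 2371 (.cons 298 (.leaf 325 2376 (.cons 345 (.leaf 250 1998 (.leaf 369 2189 .nil)) .nil)) .nil)) .nil)) .nil)) .nil)) .nil)) (.cons 347 (.leaf 250 2007 (.cons 348 (.leaf 324 2012 (.leaf 372 2204 .nil)) .nil)) (.cons 322 (.leaf 346 2006 (.cons 228 (.leaf 252 1821 (.cons 320 (.leaf 321 2369 (.cons 347 (.leaf 250 2007 (.cons 371 (.leaf 298 2199 (.cons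 370 (.leaf 394 2390 (.cons 395 (.leaf 324 2397 (.cons 396 (.leaf 372 2396 (.leaf 420 2588 .nil)) .nil)) .nil)) .nil)) .nil)) .nil)) .nil)) .nil)) (.cons 228 (.leaf 252 1821 (.cons 322 (.leaf 346 2006 (.cons 321 (.leaf 320 2369 (.cons 324 (.leaf 348 2012 (.cons 297 (.leaf 296 2371 (.cons 298 (.leaf 325 2376 (.cons 345 (.leaf 369 2189 (.leaf 344 2562 .nil)) .nil)) .nil)) .nil)) .nil)) .nil)) .nil)) .nil))))
noncomputable def t6 : T := .cons 274 (.leaf 273 2176 (.cons 347 (.leaf 250 2007 (.cons 348 (.leaf 372 2204 (.cons 346 (.leaf 370 2198 (.cons 301 (.leaf 302 2195 (.cons 321 (.cons 345 (.leaf 320 2563 (.cons 324 (.leaf 251 2012 (.leaf 322 2377 .nil)) .nil)) (.cons 345 (.leaf 320 2563 (.cons 324 (.leaf 251 2012 (.leaf 344 2561 .nil)) .nil)) (.cons 322 (.leaf 251 2006 (.leaf 320 2560 .nil)) (.cons 322 (.leaf 251 2006 (.leaf 324 2377 .nil)) (.cons 345 (.leaf 320 2563 (.cons 324 (.leaf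 322 2377 (.leaf 344 2561 .nil)) .nil)) .nil))))) .nil)) .nil)) .nil)) .nil)) .nil)) (.cons 322 (.cons 301 (.leaf 302 2386 (.cons 321 (.leaf 320 2369 (.leaf 324 2377 .nil)) .nil)) (.cons 301 (.leaf 302 2386 (.cons 346 (.leaf 251 2006 (.cons 370 (.leaf 347 2198 (.leaf 394 2389 .nil)) .nil)) .nil)) (.cons 320 (.leaf 321 2369 (.cons 346 (.leaf 251 2006 (.cons 370 (.leaf 347 2198 (.leaf 394 2389 .nil)) .nil)) .nil)) .nil))) (.cons 274 (.leaf 273 2176 (.cons 301 (.leaf 302 2195 (.cons 347 (.leaf 250 2007 (.cons 346 (.leaf 370 2198 (.cons 322 (.leaf 251 2006 (.cons 321 (.leaf 320 2369 (.cons 348 (.leaf 372 2204 (.leaf 349 2571 .nil)) .nil)) .nil)) .nil)) .nil)) .nil)) .nil)) (.cons 274 (.leaf 273 2176 (.cons 301 (.leaf 302 2195 (.cons 347 (.leaf 250 2007 (.cons 372 (.leaf 348 2204 (.cons 346 (.leaf 370 2198 (.cons 371 (.leaf 396 2396 (.cons 324 (.leaf 395 2397 (.cons 344 (.leaf 345 2752 (.cons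 322 (.leaf 321 2377 (.cons 325 (.leaf 326 2578 (.cons 349 (.leaf 350 2576 (.cons 373 (.leaf 397 2407 (.leaf 374 2771 .nil)) .nil)) .nil)) .nil)) .nil)) .nil)) .nil)) .nil)) .nil)) .nil)) .nil)) .nil)) (.cons 273 (.leaf 274 2176 (.cons 251 (.cons 322 (.leaf 346 2006 (.cons 301 (.leaf 302 2386 (.cons 321 (.leaf 320 2369 (.leaf 324 2377 .nil)) .nil)) .nil)) (.cons 322 (.leaf 346 2006 (.cons 252 (.leaf 228 1821 (.cons 249 (.leaf 250 1986 (.cons 301 (.leaf 302 2386 (.cons 320 (.leaf 321 2369 (.cons 296 (.leaf 344 1989 (.cons 225 (.leaf 201 1606 (.leaf 297 1798 .nil)) .nil)) .nil)) .nil)) .nil)) .nil)) .nil)) (.cons 324 (.leaf 227 1820 (.leaf 348 2012 .nil)) .nil))) .nil)) (.cons 274 (.leaf 273 2176 (.cons 301 (.leaf 302 2195 (.cons 347 (.leaf 250 2007 (.cons 372 (.leaf 348 2204 (.cons 371 (.leaf 396 2396 (.cons 394 (.leaf 370 2390 (.cons 395 (.leaf 324 2397 (.leaf 418 2582 .nil)) .nil))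 .nil)) .nil)) .nil)) .nil)) .nil)) (.cons 274 (.leaf 273 2176 (.cons 347 (.leaf 250 2007 (.cons 346 (.leaf 370 2198 (.cons 251 (.leaf 322 2006 (.cons 324 (.leaf 227 1820 (.leaf 348 2012 .nil)) .nil)) .nil)) .nil)) .nil)) .nil))))))
noncomputable def t7 : T := .cons 302 (.leaf 274 2195 (.cons 279 (.leaf 278 2201 (.cons 303 (.leaf 280 2209 (.cons 323 (.leaf 322 2386 (.leaf 324 2394 .nil)) .nil)) .nil)) .nil)) (.cons 298 (.cons 321 (.leaf 322 2378 (.cons 297 (.leaf 320 2370 (.cons 325 (.leaf 324 2376 (.leaf 326 2384 .nil)) .nil)) .nil)) (.cons 277 (.leaf 278 2193 (.cons 325 (.leaf 326 2384 (.cons 297 (.leaf 324 2376 (.cons 296 (.leaf 271 2171 (.cons 320 (.leaf 319 2362 (.leaf 321 2370 .nil)) .nil)) .nil)) .nil)) .nil)) (.cons 277 (.leaf 278 2193 (.cons 322 (.leaf 321 2378 (.cons 251 (.leaf 227 1814 (.cons 346 (.leaf 274 2005 (.leaf 323 2006 .nil)) .nil)) .nil)) .nil)) (.cons 277 (.leaf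 278 2193 (.cons 325 (.leaf 326 2384 (.cons 297 (.leaf 324 2376 (.cons 296 (.leaf 271 2171 (.cons 295 (.leaf 274 2169 (.cons 319 (.leaf 320 2362 (.leaf 318 2354 .nil)) .nil)) .nil)) .nil)) .nil)) .nil)) .nil)))) (.cons 302 (.leaf 274 2195 (.cons 279 (.leaf 278 2201 (.cons 303 (.leaf 280 2209 (.cons 327 (.leaf 326 2392 (.leaf 328 2400 .nil)) .nil)) .nil)) .nil)) (.cons 298 (.cons 321 (.leaf 322 2378 (.cons 297 (.leaf 320 2370 (.cons 325 (.leaf 324 2376 (.leaf 326 2384 .nil)) .nil)) .nil)) (.cons 277 (.leaf 278 2193 (.cons 325 (.leaf 326 2384 (.cons 297 (.leaf 324 2376 (.cons 296 (.leaf 271 2171 (.cons 320 (.leaf 319 2362 (.leaf 321 2370 .nil)) .nil)) .nil)) .nil)) .nil)) (.cons 277 (.leaf 278 2193 (.cons 322 (.leaf 321 2378 (.cons 323 (.leaf 302 2386 (.cons 346 (.leaf 251 2006 (.leaf 370 2197 .nil)) .nil)) .nil)) .nil)) (.cons 277 (.leaf 278 2193 (.cons 325 (.leaf 326 2384 (.cons 324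 (.leaf 297 2376 (.cons 348 (.leaf 372 2213 (.leaf 253 2022 .nil)) .nil)) .nil)) .nil)) .nil)))) (.cons 302 (.leaf 274 2195 (.cons 323 (.leaf 322 2386 (.cons 303 (.leaf 324 2394 (.cons 327 (.leaf 326 2392 (.leaf 328 2400 .nil)) .nil)) .nil)) .nil)) .nil))))
noncomputable def t8 : T := .cons 297 (.leaf 273 2179 (.cons 271 (.leaf 296 2171 (.cons 321 (.leaf 320 2370 (.cons 301 (.leaf 322 2378 (.cons 278 (.leaf 277 2193 (.cons 302 (.leaf 279 2201 (.cons 326 (.leaf 325 2384 (.leaf 327 2392 .nil)) .nil)) .nil)) .nil)) .nil)) .nil)) .nil)) (.cons 322 (.cons 301 (.leaf 321 2378 (.cons 277 (.leaf 278 2193 (.cons 302 (.leaf 323 2386 (.cons 326 (.leaf 325 2384 (.leaf 327 2392 .nil)) .nil)) .nil)) .nil)) (.cons 251 (.leaf 227 1814 (.cons 346 (.leaf 323 2006 (.leaf 370 2197 .nil)) .nil)) (.cons 227 (.leaf 251 1814 (.cons 301 (.leaf 321 2378 (.cons 278 (.leaf 277 2193 (.cons 302 (.leaf 279 2201 (.cons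 326 (.leaf 325 2384 (.leaf 327 2392 .nil)) .nil)) .nil)) .nil)) .nil)) .nil))) (.cons 297 (.leaf 273 2179 (.cons 271 (.leaf 296 2171 (.cons 320 (.leaf 321 2370 (.cons 324 (.leaf 325 2376 (.cons 348 (.leaf 372 2207 (.cons 251 (.leaf 227 1820 (.leaf 323 2012 .nil)) .nil)) .nil)) .nil)) .nil)) .nil)) (.cons 297 (.leaf 273 2179 (.cons 271 (.leaf 296 2171 (.cons 321 (.leaf 320 2370 (.cons 322 (.leaf 301 2378 (.cons 346 (.leaf 370 2197 (.cons 251 (.leaf 227 1814 (.leaf 323 2006 .nil)) .nil)) .nil)) .nil)) .nil)) .nil)) (.cons 297 (.leaf 273 2179 (.cons 271 (.leaf 296 2171 (.cons 324 (.leaf 325 2376 (.cons 251 (.leaf 227 1820 (.cons 348 (.leaf 323 2012 (.leaf 372 2207 .nil)) .nil)) .nil)) .nil)) .nil)) .nil))))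
noncomputable def t9 : T := .cons 323 (.cons 324 (.leaf 227 1820 (.leaf 348 2012 .nil)) (.cons 322 (.leaf 346 2006 (.cons 298 (.leaf 227 1814 (.leaf 321 2378 .nil)) .nil)) (.cons 322 (.leaf 346 2006 (.cons 321 (.leaf 298 2378 (.leaf 320 2369 .nil)) .nil)) .nil))) (.cons 324 (.leaf 227 1820 (.cons 348 (.leaf 323 2012 (.leaf 372 2207 .nil)) .nil)) (.cons 323 (.cons 322 (.leaf 346 2006 (.cons 321 (.leaf 298 2378 (.leaf 320 2369 .nil)) .nil)) (.cons 347 (.leaf 250 2007 (.cons 348 (.leaf 324 2012 (.leaf 372 2204 .nil)) .nil)) .nil)) (.cons 298 (.cons 227 (.leaf 203 1622 (.leaf 322 1814 .nil)) (.cons 227 (.leaf 203 1622 (.cons 228 (.leaf 204 1629 (.cons 252 (.leaf 323 1821 (.cons 253 (.leaf 254 2002 (.cons 277 (.leaf 278 2193 (.leaf 325 1831 .nil)) .nil)) .nil)) .nil)) .nil)) (.cons 322 (.leaf 346 2005 (.leaf 321 2378 .nil)) .nil))) (.cons 227 (.leaf 324 1820 (.cons 203 (.leaf 298 1622 (.cons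 179 (.leaf 250 1430 (.cons 154 (.leaf 178 1239 (.cons 155 (.leaf 130 1047 (.cons 156 (.leaf 180 1245 (.leaf 132 1053 .nil)) .nil)) .nil)) .nil)) .nil)) .nil)) .nil))))
noncomputable def t10 : T := .cons 274 (.leaf 273 2176 (.cons 301 (.leaf 302 2195 (.cons 251 t9 .nil)) .nil)) (.cons 298 t8 (.cons 301 t7 (.cons 323 t6 (.cons 273 (.leaf 274 2176 (.cons 298 (.leaf 297 2179 (.cons 301 (.cons 322 (.leaf 321 2378 (.cons 302 (.leaf 323 2386 (.cons 326 (.leaf 325 2384 (.leaf 327 2392 .nil)) .nil)) .nil)) (.cons 278 (.leaf 277 2193 (.cons 302 (.leaf 279 2201 (.cons 326 (.leaf 325 2384 (.leaf 327 2392 .nil)) .nil)) .nil)) (.cons 322 (.leaf 321 2378 (.cons 278 (.leaf 277 2193 (.cons 302 (.leaf 279 2201 (.leaf 323 2386 .nil)) .nil)) .nil)) (.cons 322 (.leaf 321 2378 (.cons 251 (.leaf 227 1814 (.cons 346 (.leaf 323 2006 (.leaf 370 2197 .nil)) .nil)) .nil)) .nil)))) .nil)) .nil)) (.cons 274 (.leaf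 273 2176 (.cons 251 (.cons 324 (.leaf 227 1820 (.cons 348 (.leaf 323 2012 (.leaf 372 2207 .nil)) .nil)) (.cons 323 t5 (.cons 227 (.cons 228 (.leaf 204 1629 (.cons 298 (.leaf 203 1622 (.leaf 322 1814 .nil)) .nil)) (.cons 204 (.leaf 228 1629 (.cons 203 (.leaf 180 1437 (.cons 178 (.leaf 202 1431 (.cons 179 (.leaf 250 1430 (.leaf 154 1239 .nil)) .nil)) .nil)) .nil)) (.cons 228 (.leaf 204 1629 (.cons 298 (.leaf 322 1814 (.cons 323 (.leaf 252 1821 (.cons 347 (.leaf 250 2007 (.leaf 371 2199 .nil)) .nil)) .nil)) .nil)) (.cons 298 (.leaf 203 1622 (.leaf 322 1814 .nil)) .nil)))) (.cons 227 (.leaf 324 1820 (.cons 298 (.leaf 203 1622 (.leaf 322 1814 .nil)) .nil)) .nil)))) .nil)) (.cons 274 (.leaf 273 2176 (.cons 301 (.leaf 302 2195 (.cons 298 t4 .nil)) .nil)) (.cons 274 (.leaf 273 2176 (.cons 301 (.leaf 302 2195 (.cons 298 (.cons 277 (.leaf 278 2193 (.cons 321 (.leaf 322 2378 (.cons 297 (.leaf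 320 2370 (.cons 296 (.leaf 295 2169 (.leaf 271 2171 .nil)) .nil)) .nil)) .nil)) (.cons 325 (.leaf 326 2384 (.cons 277 (.leaf 278 2193 (.cons 324 (.leaf 297 2376 (.cons 253 (.leaf 229 1830 (.leaf 348 2022 .nil)) .nil)) .nil)) .nil)) (.cons 321 (.leaf 322 2378 (.cons 297 (.leaf 320 2370 (.cons 325 (.leaf 324 2376 (.leaf 326 2384 .nil)) .nil)) .nil)) (.cons 277 (.leaf 278 2193 (.cons 322 (.leaf 321 2378 (.cons 251 (.leaf 227 1814 (.leaf 346 2005 .nil)) .nil)) .nil)) .nil)))) .nil)) .nil)) (.cons 274 (.leaf 273 2176 (.cons 301 (.leaf 302 2195 (.cons 251 t3 .nil)) .nil)) (.cons 274 (.leaf 273 2176 (.cons 301 (.leaf 302 2195 (.cons 298 (.cons 321 (.leaf 322 2378 (.cons 297 (.leaf 320 2370 (.cons 325 (.leaf 324 2376 (.leaf 326 2384 .nil)) .nil)) .nil)) (.cons 325 (.leaf 326 2384 (.cons 277 (.leaf 278 2193 (.cons 324 (.leaf 297 2376 (.cons 253 (.leaf 229 1830 (.leaf 348 2022 .nil)) .nil))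 .nil)) .nil)) (.cons 321 (.leaf 322 2378 (.cons 297 (.leaf 320 2370 (.cons 296 (.leaf 295 2169 (.leaf 271 2171 .nil)) .nil)) .nil)) (.cons 322 (.leaf 321 2378 (.cons 251 (.leaf 227 1814 (.cons 325 (.leaf 326 2384 (.cons 277 (.leaf 278 2193 (.cons 253 (.cons 252 (.leaf 254 2002 (.leaf 228 1831 .nil)) (.cons 324 (.leaf 229 1830 (.leaf 348 2022 .nil)) .nil)) .nil)) .nil)) .nil)) .nil)) .nil)))) .nil)) .nil)) (.cons 274 t2 .nil))))))))))
noncomputable def t11 : T := .cons 301 (.cons 274 (.leaf 273 2176 (.leaf 302 2195 .nil)) (.cons 322 (.leaf 321 2378 (.cons 277 (.leaf 278 2193 (.cons 323 (.leaf 302 2386 (.cons 346 (.leaf 251 2006 (.leaf 370 2197 .nil)) .nil)) .nil)) .nil)) (.cons 277 (.leaf 278 2193 (.cons 322 (.leaf 321 2378 (.cons 346 (.leaf 370 2197 (.cons 251 (.leaf 227 1814 (.leaf 274 2005 .nil)) .nil)) .nil)) .nil)) .nil))) (.cons 301 (.cons 274 (.leaf 302 2195 (.cons 322 (.leaf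 321 2378 (.cons 346 (.leaf 251 2005 (.leaf 370 2197 .nil)) .nil)) .nil)) (.cons 302 (.leaf 274 2195 (.cons 278 (.leaf 277 2193 (.leaf 279 2201 .nil)) .nil)) (.cons 277 (.leaf 278 2193 (.cons 322 (.leaf 321 2378 (.cons 346 (.leaf 370 2197 (.cons 251 (.leaf 227 1814 (.leaf 274 2005 .nil)) .nil)) .nil)) .nil)) (.cons 322 (.leaf 321 2378 (.cons 277 (.leaf 278 2193 (.cons 323 (.leaf 302 2386 (.cons 346 (.leaf 251 2006 (.leaf 370 2197 .nil)) .nil)) .nil)) .nil)) .nil)))) (.cons 297 (.leaf 273 2179 (.cons 324 (.leaf 325 2376 (.cons 321 (.leaf 320 2370 (.cons 301 (.leaf 322 2378 (.cons 278 (.leaf 277 2193 (.cons 302 (.leaf 279 2201 (.cons 303 (.leaf 323 2394 (.cons 327 (.leaf 326 2392 (.leaf 328 2400 .nil)) .nil)) .nil)) .nil)) .nil)) .nil)) .nil)) .nil)) (.cons 273 (.leaf 274 2176 (.leaf 297 2179 .nil)) .nil)))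
noncomputable def t12 : T := .cons 227 (.leaf 322 1814 (.cons 202 (.leaf 226 1623 (.cons 203 (.leaf 178 1431 (.leaf 274 1622 .nil)) .nil)) .nil)) (.cons 323 (.cons 322 (.leaf 346 2006 (.cons 324 (.leaf 348 2012 (.cons 325 (.leaf 326 2387 (.cons 301 (.leaf 302 2385 (.cons 321 (.leaf 300 2377 (.cons 320 (.leaf 319 2361 (.cons 344 (.leaf 343 2554 (.leaf 345 2562 .nil)) .nil)) .nil)) .nil)) .nil)) .nil)) .nil)) (.cons 228 (.leaf 252 1821 (.cons 348 (.leaf 324 2012 (.cons 347 (.leaf 372 2204 (.cons 274 (.leaf 371 2199 (.cons 273 (.leaf 300 2176 (.leaf 271 2168 .nil)) .nil)) .nil)) .nil)) .nil)) (.cons 346 (.leaf 322 2006 (.cons 228 (.leaf 252 1821 (.cons 347 (.leaf 370 2198 (.cons 274 (.leaf 371 2199 (.cons 273 (.leaf 300 2176 (.leaf 271 2168 .nil)) .nil)) .nil)) .nil)) .nil)) (.cons 346 (.leaf 322 2006 (.cons 228 (.leaf 252 1821 (.cons 347 (.leaf 370 2198 (.cons 371 (.leaf 274 2199 (.cons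 372 (.leaf 348 2204 (.leaf 396 2396 .nil)) .nil)) .nil)) .nil)) .nil)) .nil)))) (.cons 274 (.cons 273 (.leaf 252 1985 (.leaf 300 2176 .nil)) (.cons 227 (.leaf 203 1622 (.cons 202 (.leaf 226 1623 (.cons 228 (.leaf 204 1629 (.cons 323 (.leaf 252 1821 (.cons 347 (.leaf 371 2199 (.cons 348 (.leaf 324 2012 (.leaf 372 2204 .nil)) .nil)) .nil)) .nil)) .nil)) .nil)) (.cons 273 (.leaf 300 2176 (.leaf 271 2168 .nil)) .nil))) (.cons 227 (.leaf 322 1814 (.cons 202 (.leaf 226 1623 (.cons 203 (.leaf 178 1431 (.cons 204 (.leaf 180 1437 (.leaf 228 1629 .nil)) .nil)) .nil)) .nil)) .nil)))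
noncomputable def t13 : T := .cons 228 (.leaf 252 1821 (.cons 346 (.leaf 322 2006 (.cons 347 (.leaf 370 2198 (.cons 274 (.leaf 371 2199 (.cons 273 (.leaf 271 2168 (.cons 296 (.leaf 295 2170 (.cons 324 (.leaf 348 2012 (.leaf 297 2368 .nil)) .nil)) .nil)) .nil)) .nil)) .nil)) .nil)) (.cons 252 (.leaf 228 1821 (.cons 274 (.leaf 273 1985 (.cons 253 (.leaf 254 2002 (.cons 347 (.leaf 371 2199 (.cons 348 (.leaf 324 2012 (.leaf 372 2204 .nil)) .nil)) .nil)) .nil)) .nil)) (.cons 346 (.leaf 322 2006 (.cons 228 (.leaf 252 1821 (.cons 347 (.leaf 370 2198 (.cons 371 (.leaf 274 2199 (.cons 372 (.leaf 348 2204 (.leaf 396 2396 .nil)) .nil)) .nil)) .nil)) .nil)) (.cons 346 (.leaf 322 2006 (.cons 228 (.leaf 252 1821 (.cons 347 (.leaf 370 2198 (.cons 274 (.leaf 371 2199 (.cons 273 (.leaf 271 2168 (.cons 296 (.leaf 295 2170 (.cons 297 (.leaf 324 2368 (.cons 320 (.leaf 319 2362 (.cons 344 (.leaf 249 1989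 (.leaf 368 2181 .nil)) .nil)) .nil)) .nil)) .nil)) .nil)) .nil)) .nil)) .nil)) (.cons 346 (.leaf 322 2006 (.cons 324 (.leaf 348 2012 (.cons 296 (.leaf 297 2368 (.cons 325 (.leaf 326 2387 (.cons 347 (.leaf 370 2198 (.cons 274 (.leaf 371 2199 (.cons 273 (.leaf 295 2170 (.leaf 271 2168 .nil)) .nil)) .nil)) .nil)) .nil)) .nil)) .nil)) (.cons 324 (.leaf 348 2012 (.cons 228 (.leaf 252 1821 (.cons 297 (.leaf 296 2368 (.cons 325 (.leaf 326 2387 (.leaf 322 2379 .nil)) .nil)) .nil)) .nil)) .nil)))))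
noncomputable def t14 : T := .cons 296 (.leaf 271 2171 (.cons 319 (.leaf 320 2362 (.cons 295 (.leaf 274 2169 (.leaf 318 2354 .nil)) .nil)) .nil)) (.cons 300 (.cons 324 (.leaf 325 2376 (.cons 321 (.leaf 320 2370 (.cons 301 (.leaf 322 2378 (.cons 277 (.leaf 278 2193 (.cons 348 (.leaf 372 2213 (.cons 229 (.leaf 253 1830 (.cons 302 (.leaf 274 2195 (.cons 303 (.leaf 323 2394 (.cons 327 (.leaf 326 2392 (.leaf 328 2400 .nil)) .nil)) .nil)) .nil)) .nil)) .nil)) .nil)) .nil)) .nil)) (.cons 321 (.leaf 320 2370 (.cons 301 (.leaf 322 2378 (.cons 277 (.leaf 278 2193 (.cons 302 (.leaf 274 2195 (.cons 326 (.leaf 325 2384 (.leaf 327 2392 .nil)) .nil)) .nil)) .nil)) .nil)) (.cons 324 (.leaf 325 2376 (.cons 251 (.leaf 227 1820 (.cons 348 (.leaf 323 2012 (.leaf 372 2207 .nil)) .nil)) .nil)) (.cons 321 (.leaf 320 2370 (.cons 301 (.leaf 322 2378 (.cons 278 (.leaf 277 2193 (.cons 302 (.leaf 274 2195 (.leaf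 279 2201 .nil)) .nil)) .nil)) .nil)) .nil)))) (.cons 296 (.leaf 271 2171 (.cons 274 (.leaf 295 2169 (.cons 323 (.leaf 324 2368 (.cons 347 (.leaf 371 2199 (.cons 346 (.leaf 370 2198 (.cons 251 (.leaf 322 2005 (.cons 227 (.leaf 203 1622 (.cons 228 (.leaf 204 1629 (.leaf 252 1821 .nil)) .nil)) .nil)) .nil)) .nil)) .nil)) .nil)) .nil)) (.cons 296 (.leaf 271 2171 (.cons 319 (.leaf 320 2362 (.cons 295 (.leaf 318 2354 (.cons 323 (.leaf 324 2368 (.leaf 322 2360 .nil)) .nil)) .nil)) .nil)) .nil)))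
noncomputable def t15 : T := .cons 322 (.leaf 227 1814 (.cons 346 (.leaf 274 2005 (.leaf 323 2006 .nil)) .nil)) (.cons 323 (.cons 228 (.leaf 252 1821 (.cons 322 (.leaf 346 2006 (.cons 324 (.leaf 348 2012 (.cons 297 (.leaf 296 2368 (.leaf 325 2379 .nil)) .nil)) .nil)) .nil)) (.cons 324 (.leaf 348 2012 (.cons 228 (.leaf 252 1821 (.cons 297 (.leaf 296 2368 (.cons 325 (.leaf 300 2376 (.leaf 326 2387 .nil)) .nil)) .nil)) .nil)) (.cons 228 (.leaf 252 1821 (.cons 346 (.leaf 322 2006 (.cons 347 (.leaf 370 2198 (.cons 274 (.leaf 371 2199 (.cons 273 (.leaf 300 2176 (.leaf 271 2168 .nil)) .nil)) .nil)) .nil)) .nil)) (.cons 322 (.leaf 346 2006 (.cons 324 (.leaf 348 2012 (.cons 297 (.leaf 296 2368 (.leaf 325 2379 .nil)) .nil)) .nil)) .nil)))) (.cons 227 (.cons 202 (.leaf 226 1623 (.cons 203 (.leaf 178 1431 (.leaf 274 1622 .nil)) .nil)) (.cons 202 (.leaf 226 1623 (.cons 203 (.leaf 178 1431 (.cons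 204 (.leaf 180 1437 (.leaf 228 1629 .nil)) .nil)) .nil)) (.cons 202 (.leaf 226 1623 (.cons 228 (.leaf 204 1629 (.cons 323 (.leaf 252 1821 (.cons 348 (.leaf 324 2012 (.cons 347 (.leaf 372 2204 (.cons 370 (.leaf 346 2198 (.cons 371 (.leaf 274 2199 (.leaf 394 2390 .nil)) .nil)) .nil)) .nil)) .nil)) .nil)) .nil)) (.cons 274 (.leaf 203 1622 (.cons 273 (.leaf 252 1985 (.leaf 300 2176 .nil)) .nil)) .nil)))) (.cons 227 (.leaf 322 1814 (.cons 202 (.leaf 226 1623 (.cons 203 (.leaf 178 1431 (.cons 204 (.leaf 180 1437 (.leaf 228 1629 .nil)) .nil)) .nil)) .nil)) .nil)))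
noncomputable def t16 : T := .cons 251 t15 (.cons 297 t14 (.cons 251 (.cons 322 (.leaf 227 1814 (.cons 346 (.leaf 274 2005 (.leaf 323 2006 .nil)) .nil)) (.cons 227 (.cons 202 (.leaf 226 1623 (.cons 203 (.leaf 178 1431 (.leaf 274 1622 .nil)) .nil)) (.cons 202 (.leaf 226 1623 (.cons 228 (.leaf 204 1629 (.cons 323 (.leaf 252 1821 (.cons 348 (.leaf 324 2012 (.cons 347 (.leaf 372 2204 (.cons 370 (.leaf 346 2198 (.cons 371 (.leaf 274 2199 (.leaf 394 2390 .nil)) .nil)) .nil)) .nil)) .nil)) .nil)) .nil)) (.cons 202 (.leaf 226 1623 (.cons 203 (.leaf 178 1431 (.cons 204 (.leaf 180 1437 (.leaf 228 1629 .nil)) .nil)) .nil)) (.cons 274 (.leaf 203 1622 (.cons 273 (.leaf 252 1985 (.leaf 271 2168 .nil)) .nil)) .nil)))) (.cons 323 t13 (.cons 227 (.leaf 322 1814 (.cons 202 (.leaf 226 1623 (.cons 203 (.leaf 178 1431 (.cons 204 (.leaf 180 1437 (.leaf 228 1629 .nil)) .nil)) .nil)) .nil)) .nil)))) (.cons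 297 (.cons 300 (.leaf 273 2179 (.cons 324 (.leaf 325 2376 (.cons 321 (.leaf 320 2370 (.cons 301 (.leaf 322 2378 (.cons 278 (.leaf 277 2193 (.cons 302 (.leaf 279 2201 (.cons 303 (.leaf 323 2394 (.cons 327 (.leaf 326 2392 (.leaf 328 2400 .nil)) .nil)) .nil)) .nil)) .nil)) .nil)) .nil)) .nil)) (.cons 296 (.leaf 271 2171 (.cons 319 (.leaf 320 2362 (.cons 295 (.leaf 318 2354 (.cons 323 (.leaf 324 2368 (.leaf 322 2360 .nil)) .nil)) .nil)) .nil)) (.cons 300 (.leaf 273 2179 (.cons 324 (.leaf 325 2376 (.cons 251 (.leaf 227 1820 (.cons 348 (.leaf 323 2012 (.leaf 372 2207 .nil)) .nil)) .nil)) .nil)) (.cons 271 (.leaf 296 2171 (.cons 273 (.leaf 270 2160 (.leaf 300 2179 .nil)) .nil)) .nil)))) (.cons 251 t12 (.cons 273 (.cons 271 (.leaf 274 2168 (.cons 297 (.leaf 270 2160 (.leaf 296 2171 .nil)) .nil)) (.cons 297 (.leaf 300 2179 (.cons 271 (.leaf 270 2160 (.leaf 296 2171 .nil)) .nil)) (.cons 274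 (.leaf 300 2176 (.leaf 271 2168 .nil)) (.cons 300 (.leaf 274 2176 (.leaf 297 2179 .nil)) .nil)))) (.cons 300 t11 .nil))))))
noncomputable def t17 : T := .cons 226 (.leaf 202 1620 (.cons 323 (.leaf 251 1815 (.leaf 347 2007 .nil)) .nil)) (.cons 323 (.leaf 347 2007 (.cons 251 (.cons 252 (.leaf 228 1821 (.cons 253 (.leaf 254 2002 (.cons 229 (.leaf 230 1809 (.cons 324 (.leaf 348 2012 (.cons 277 (.leaf 278 2000 (.cons 300 (.leaf 227 1820 (.leaf 301 1830 .nil)) .nil)) .nil)) .nil)) .nil)) .nil)) (.cons 252 (.leaf 228 1821 (.cons 253 (.leaf 254 2002 (.cons 229 (.leaf 230 1809 (.cons 324 (.leaf 348 2012 (.cons 277 (.leaf 278 2000 (.cons 301 (.leaf 300 1830 (.cons 326 (.leaf 302 1836 (.cons 325 (.leaf 298 2387 (.leaf 350 2028 .nil)) .nil)) .nil)) .nil)) .nil)) .nil)) .nil)) .nil)) (.cons 228 (.leaf 252 1821 (.cons 227 (.leaf 204 1629 (.cons 203 (.leaf 298 1622 (.leaf 179 1430 .nil)) .nil)) .nil))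 (.cons 324 (.leaf 348 2012 (.cons 227 (.leaf 300 1820 (.cons 203 (.leaf 298 1622 (.leaf 179 1430 .nil)) .nil)) .nil)) .nil)))) .nil)) (.cons 226 (.leaf 202 1620 (.cons 298 (.cons 201 (.leaf 225 1615 (.cons 227 (.leaf 203 1621 (.cons 251 (.leaf 322 1813 (.cons 204 (.leaf 228 1629 (.cons 297 (.leaf 321 1806 (.cons 296 (.leaf 295 2169 (.leaf 271 2171 .nil)) .nil)) .nil)) .nil)) .nil)) .nil)) (.cons 297 (.leaf 321 1806 (.cons 296 (.leaf 295 2169 (.leaf 271 2171 .nil)) .nil)) (.cons 227 (.leaf 203 1621 (.cons 251 (.leaf 322 1813 (.cons 201 (.leaf 225 1615 (.cons 228 (.leaf 204 1629 (.cons 229 (.leaf 249 1802 (.leaf 230 1810 .nil)) .nil)) .nil)) .nil)) .nil)) .nil))) .nil)) (.cons 226 (.leaf 202 1620 (.cons 323 (.leaf 347 2007 (.leaf 298 1812 .nil)) .nil)) .nil)))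
noncomputable def t18 : T := .cons 273 (.leaf 300 2176 (.cons 251 (.leaf 252 1985 (.cons 250 (.leaf 271 1977 (.cons 226 (.leaf 202 1620 (.leaf 323 1815 .nil)) .nil)) .nil)) .nil)) (.cons 250 t17 (.cons 273 (.cons 251 (.leaf 252 1985 (.cons 250 (.leaf 271 1977 (.cons 226 (.leaf 202 1620 (.leaf 323 1815 .nil)) .nil)) .nil)) (.cons 251 (.leaf 252 1985 (.cons 296 (.leaf 295 2170 (.cons 227 (.cons 298 (.leaf 203 1622 (.leaf 322 1814 .nil)) (.cons 226 (.leaf 202 1623 (.cons 204 (.leaf 228 1629 (.cons 203 (.leaf 180 1437 (.cons 250 (.leaf 323 1815 (.leaf 179 1430 .nil)) .nil)) .nil)) .nil)) (.cons 226 (.leaf 202 1623 (.cons 204 (.leaf 228 1629 (.cons 250 (.leaf 323 1815 (.cons 298 (.leaf 322 1813 (.cons 225 (.leaf 201 1615 (.cons 224 (.leaf 223 1784 (.cons 297 (.leaf 321 1806 (.cons 200 (.leaf 249 1607 (.leaf 199 1595 .nil)) .nil)) .nil)) .nil)) .nil)) .nil)) .nil)) .nil)) .nil))) .nil))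 .nil)) (.cons 271 (.leaf 298 2168 (.cons 295 (.leaf 296 2170 (.leaf 294 2162 .nil)) .nil)) .nil))) (.cons 273 (.leaf 300 2176 (.cons 271 (.leaf 298 2168 (.cons 295 (.leaf 296 2170 (.leaf 294 2162 .nil)) .nil)) .nil)) (.cons 273 (.leaf 300 2176 (.cons 251 (.leaf 252 1985 (.cons 296 (.leaf 295 2170 (.cons 227 (.cons 298 (.leaf 203 1622 (.leaf 322 1814 .nil)) (.cons 226 (.leaf 202 1623 (.cons 204 (.leaf 228 1629 (.cons 203 (.leaf 180 1437 (.cons 250 (.leaf 323 1815 (.leaf 179 1430 .nil)) .nil)) .nil)) .nil)) (.cons 226 (.leaf 202 1623 (.cons 204 (.leaf 228 1629 (.cons 250 (.leaf 323 1815 (.cons 298 (.leaf 322 1813 (.cons 225 (.leaf 201 1615 (.cons 224 (.leaf 223 1784 (.cons 297 (.leaf 321 1806 (.cons 200 (.leaf 249 1607 (.leaf 199 1595 .nil)) .nil)) .nil)) .nil)) .nil)) .nil)) .nil)) .nil)) .nil))) .nil)) .nil)) .nil)) .nil))))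
noncomputable def t19 : T := .cons 298 (.leaf 322 1814 (.cons 226 (.leaf 202 1623 (.cons 228 (.leaf 204 1629 (.cons 229 (.cons 250 (.leaf 230 1810 (.leaf 249 1802 .nil)) (.cons 206 (.leaf 205 1617 (.cons 230 (.leaf 207 1625 (.cons 254 (.leaf 253 1808 (.leaf 255 1816 .nil)) .nil)) .nil)) (.cons 205 (.leaf 206 1617 (.cons 253 (.leaf 254 1808 (.cons 225 (.leaf 252 1800 (.cons 200 (.leaf 201 1603 (.cons 224 (.leaf 199 1595 (.cons 250 (.leaf 223 1784 (.leaf 249 1802 .nil)) .nil)) .nil)) .nil)) .nil)) .nil)) .nil))) .nil)) .nil)) .nil)) (.cons 202 (.leaf 226 1623 (.cons 203 (.leaf 178 1431 (.cons 180 (.leaf 204 1437 (.cons 179 (.leaf 156 1245 (.cons 181 (.leaf 182 1426 (.cons 200 (.leaf 201 1409 (.cons 274 (.leaf 250 1430 (.cons 273 (.leaf 252 1985 (.leaf 300 2176 .nil)) .nil)) .nil)) .nil)) .nil)) .nil)) .nil)) .nil)) (.cons 298 (.leaf 322 1814 (.cons 274 (.leaf 203 1622 (.cons 273 (.leaf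 252 1985 (.leaf 300 2176 .nil)) .nil)) .nil)) (.cons 298 (.leaf 322 1814 (.cons 203 (.leaf 274 1622 (.cons 178 (.leaf 202 1431 (.cons 204 (.leaf 180 1437 (.leaf 228 1629 .nil)) .nil)) .nil)) .nil)) .nil)))
noncomputable def t20 : T := .cons 250 (.leaf 226 1815 (.cons 228 (.leaf 252 1821 (.cons 346 (.leaf 322 2006 (.cons 347 (.leaf 274 2007 (.leaf 370 2198 .nil)) .nil)) .nil)) .nil)) (.cons 346 (.leaf 322 2006 (.cons 228 (.leaf 252 1821 (.cons 347 (.leaf 370 2198 (.cons 372 (.leaf 348 2204 (.cons 371 (.leaf 396 2396 (.cons 274 (.leaf 298 2199 (.cons 273 (.leaf 300 2176 (.cons 296 (.leaf 295 2170 (.cons 344 (.leaf 345 2752 (.cons 320 (.leaf 249 1989 (.cons 247 (.leaf 271 1983 (.cons 367 (.leaf 343 2174 (.cons 368 (.leaf 297 2181 (.leaf 391 2366 .nil)) .nil)) .nil)) .nil)) .nil)) .nil)) .nil)) .nil)) .nil)) .nil)) .nil)) .nil)) .nil)) (.cons 250 (.leaf 226 1815 (.cons 274 (.leaf 347 2007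 (.cons 273 (.leaf 300 2176 (.leaf 271 1977 .nil)) .nil)) .nil)) (.cons 252 (.leaf 228 1821 (.cons 250 (.leaf 226 1815 (.cons 273 (.leaf 249 1986 (.cons 347 (.cons 370 (.leaf 346 2198 (.cons 371 (.leaf 394 2390 (.cons 372 (.leaf 348 2204 (.leaf 396 2396 .nil)) .nil)) .nil)) (.cons 372 (.leaf 348 2204 (.cons 371 (.leaf 396 2396 (.cons 394 (.leaf 370 2390 (.cons 395 (.leaf 418 2582 (.cons 298 (.leaf 322 2391 (.cons 297 (.leaf 300 2179 (.cons 271 (.leaf 270 2160 (.leaf 296 2171 .nil)) .nil)) .nil)) .nil)) .nil)) .nil)) .nil)) (.cons 372 (.leaf 348 2204 (.cons 322 (.leaf 346 2006 (.cons 371 (.leaf 396 2396 (.cons 298 (.leaf 395 2391 (.cons 297 (.leaf 300 2179 (.cons 296 (.leaf 271 2171 (.leaf 295 2360 .nil)) .nil)) .nil)) .nil)) .nil)) .nil)) (.cons 346 (.leaf 322 2006 (.leaf 370 2198 .nil)) .nil)))) .nil)) .nil)) .nil)) (.cons 252 (.leaf 228 1821 (.cons 250 (.leaf 226 1815 (.cons 273 (.leaf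 274 1985 (.leaf 249 1986 .nil)) .nil)) .nil)) .nil))))
noncomputable def t21 : T := .cons 227 (.cons 202 (.leaf 226 1623 (.cons 203 (.leaf 178 1431 (.cons 180 (.leaf 204 1437 (.cons 179 (.leaf 156 1245 (.cons 274 (.leaf 298 1622 (.leaf 250 1430 .nil)) .nil)) .nil)) .nil)) .nil)) (.cons 298 (.leaf 322 1814 (.cons 203 (.leaf 274 1622 (.cons 178 (.leaf 202 1431 (.cons 204 (.leaf 180 1437 (.leaf 228 1629 .nil)) .nil)) .nil)) .nil)) (.cons 202 (.leaf 226 1623 (.cons 203 (.leaf 178 1431 (.cons 180 (.leaf 204 1437 (.cons 179 (.leaf 156 1245 (.cons 181 (.leaf 182 1426 (.cons 200 (.leaf 201 1409 (.cons 274 (.leaf 250 1430 (.cons 273 (.leaf 252 1985 (.leaf 300 2176 .nil)) .nil)) .nil)) .nil)) .nil)) .nil)) .nil)) .nil)) (.cons 298 (.leaf 322 1814 (.cons 274 (.leaf 203 1622 (.cons 273 (.leaf 252 1985 (.leaf 300 2176 .nil)) .nil)) .nil)) (.cons 226 (.leaf 202 1623 (.cons 322 (.leaf 298 1814 (.cons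 323 (.leaf 250 1815 (.leaf 346 2006 .nil)) .nil)) .nil)) .nil))))) (.cons 227 (.cons 228 (.leaf 204 1629 (.cons 322 (.leaf 298 1814 (.cons 323 (.leaf 252 1821 (.leaf 346 2006 .nil)) .nil)) .nil)) (.cons 226 (.leaf 202 1623 (.cons 322 (.leaf 298 1814 (.cons 323 (.leaf 250 1815 (.leaf 346 2006 .nil)) .nil)) .nil)) (.cons 202 (.leaf 226 1623 (.cons 203 (.leaf 178 1431 (.cons 204 (.leaf 180 1437 (.leaf 228 1629 .nil)) .nil)) .nil)) .nil))) (.cons 323 t20 (.cons 227 t19 (.cons 227 (.cons 204 (.leaf 228 1629 (.cons 180 (.leaf 203 1437 (.cons 322 (.leaf 298 1814 (.cons 323 (.leaf 346 2006 (.cons 250 (.leaf 226 1815 (.cons 274 (.leaf 347 2007 (.cons 273 (.leaf 300 2176 (.leaf 271 1977 .nil)) .nil)) .nil)) .nil)) .nil)) .nil)) .nil)) (.cons 226 (.leaf 202 1623 (.cons 204 (.leaf 228 1629 (.cons 203 (.leaf 180 1437 (.cons 205 (.leaf 206 1618 (.cons 224 (.leaf 225 1601 (.cons 250 (.leaf 323 1815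 (.cons 179 (.leaf 274 1430 (.leaf 155 1238 .nil)) .nil)) .nil)) .nil)) .nil)) .nil)) .nil)) (.cons 298 (.leaf 322 1814 (.cons 203 (.leaf 274 1622 (.cons 178 (.leaf 202 1431 (.cons 204 (.leaf 180 1437 (.leaf 228 1629 .nil)) .nil)) .nil)) .nil)) (.cons 298 (.leaf 322 1814 (.cons 202 (.leaf 226 1623 (.cons 203 (.leaf 178 1431 (.leaf 274 1622 .nil)) .nil)) .nil)) (.cons 226 (.leaf 202 1623 (.cons 322 (.leaf 298 1814 (.cons 323 (.leaf 250 1815 (.leaf 346 2006 .nil)) .nil)) .nil)) .nil))))) (.cons 274 (.cons 273 (.leaf 252 1985 (.leaf 300 2176 .nil)) (.cons 228 (.cons 323 (.leaf 252 1821 (.cons 250 (.leaf 226 1815 (.leaf 347 2007 .nil)) .nil)) (.cons 227 (.leaf 204 1629 (.cons 202 (.leaf 226 1623 (.cons 203 (.leaf 178 1431 (.cons 179 (.leaf 250 1430 (.cons 155 (.leaf 252 1244 (.cons 156 (.leaf 180 1245 (.leaf 132 1053 .nil)) .nil)) .nil)) .nil)) .nil)) .nil)) (.cons 227 (.leaf 204 1629 (.cons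 226 (.leaf 202 1623 (.cons 250 (.leaf 323 1815 (.cons 229 (.leaf 230 1810 (.leaf 249 1802 .nil)) .nil)) .nil)) .nil)) (.cons 252 (.leaf 323 1821 (.cons 204 (.leaf 180 1438 (.leaf 227 1629 .nil)) .nil)) .nil)))) (.cons 273 (.leaf 300 2176 (.cons 250 (.leaf 271 1977 (.cons 226 (.leaf 202 1620 (.leaf 323 1815 .nil)) .nil)) .nil)) .nil))) (.cons 227 (.cons 228 (.leaf 204 1629 (.cons 322 (.leaf 298 1814 (.cons 323 (.leaf 252 1821 (.leaf 346 2006 .nil)) .nil)) .nil)) (.cons 204 (.leaf 228 1629 (.cons 203 (.leaf 180 1437 (.cons 178 (.leaf 202 1431 (.cons 179 (.leaf 154 1239 (.cons 274 (.leaf 250 1430 (.cons 273 (.leaf 252 1985 (.leaf 300 2176 .nil)) .nil)) .nil)) .nil)) .nil)) .nil)) (.cons 298 (.leaf 322 1814 (.cons 274 (.leaf 203 1622 (.cons 273 (.leaf 252 1985 (.leaf 300 2176 .nil)) .nil)) .nil)) (.cons 298 (.leaf 322 1814 (.cons 203 (.leaf 274 1622 (.cons 178 (.leaf 202 1431 (.cons 204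 (.leaf 180 1437 (.leaf 228 1629 .nil)) .nil)) .nil)) .nil)) .nil)))) (.cons 227 (.cons 202 (.leaf 226 1623 (.cons 203 (.leaf 178 1431 (.cons 298 (.leaf 274 1622 (.leaf 322 1814 .nil)) .nil)) .nil)) (.cons 202 (.leaf 226 1623 (.cons 203 (.leaf 178 1431 (.cons 204 (.leaf 180 1437 (.leaf 228 1629 .nil)) .nil)) .nil)) (.cons 298 (.leaf 322 1814 (.cons 203 (.leaf 274 1622 (.cons 204 (.leaf 180 1437 (.leaf 228 1629 .nil)) .nil)) .nil)) (.cons 228 (.leaf 204 1629 (.cons 322 (.leaf 298 1814 (.cons 323 (.leaf 252 1821 (.leaf 346 2006 .nil)) .nil)) .nil)) .nil)))) (.cons 227 (.cons 226 (.leaf 202 1623 (.cons 322 (.leaf 298 1814 (.cons 323 (.leaf 250 1815 (.leaf 346 2006 .nil)) .nil)) .nil)) (.cons 202 (.leaf 226 1623 (.cons 203 (.leaf 178 1431 (.cons 180 (.leaf 204 1437 (.cons 179 (.leaf 156 1245 (.cons 181 (.leaf 182 1426 (.cons 200 (.leaf 201 1409 (.cons 274 (.leaf 250 1430 (.cons 273 (.leaf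 252 1985 (.leaf 300 2176 .nil)) .nil)) .nil)) .nil)) .nil)) .nil)) .nil)) .nil)) (.cons 298 (.leaf 322 1814 (.cons 274 (.leaf 203 1622 (.cons 273 (.leaf 252 1985 (.leaf 300 2176 .nil)) .nil)) .nil)) .nil))) .nil))))))))
noncomputable def t22 : T := .cons 251 (.cons 228 (.leaf 252 1821 (.cons 227 (.leaf 204 1629 (.cons 324 (.leaf 300 1820 (.leaf 348 2012 .nil)) .nil)) .nil)) (.cons 250 (.leaf 226 1815 (.leaf 347 2007 .nil)) .nil)) (.cons 251 (.cons 322 (.leaf 346 2006 (.cons 227 (.leaf 298 1814 (.cons 228 (.leaf 204 1629 (.leaf 252 1821 .nil)) .nil)) .nil)) (.cons 226 (.leaf 250 1815 (.cons 227 (.leaf 202 1623 (.cons 228 (.leaf 204 1629 (.leaf 252 1821 .nil)) .nil)) .nil)) (.cons 250 (.leaf 226 1815 (.cons 252 (.leaf 228 1821 (.cons 253 (.leaf 254 2002 (.cons 229 (.leaf 230 1809 (.cons 324 (.leaf 348 2012 (.cons 277 (.leaf 278 2000 (.cons 301 (.leaf 300 1830 (.cons 326 (.leaf 302 1836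 (.cons 325 (.leaf 298 2387 (.leaf 350 2028 .nil)) .nil)) .nil)) .nil)) .nil)) .nil)) .nil)) .nil)) .nil)) (.cons 226 (.leaf 250 1815 (.cons 227 (.leaf 202 1623 (.cons 324 (.leaf 300 1820 (.leaf 348 2012 .nil)) .nil)) .nil)) .nil)))) (.cons 251 (.cons 322 (.leaf 346 2006 (.cons 227 (.leaf 298 1814 (.cons 228 (.leaf 204 1629 (.leaf 252 1821 .nil)) .nil)) .nil)) (.cons 324 (.leaf 348 2012 (.cons 227 (.leaf 300 1820 (.cons 228 (.leaf 204 1629 (.leaf 252 1821 .nil)) .nil)) .nil)) (.cons 346 (.leaf 322 2006 (.cons 228 (.leaf 252 1821 (.cons 324 (.leaf 348 2012 (.cons 347 (.leaf 370 2198 (.cons 325 (.leaf 326 2578 (.cons 344 (.leaf 345 2561 (.cons 371 (.leaf 298 2199 (.cons 395 (.leaf 300 2397 (.cons 396 (.leaf 372 2396 (.leaf 420 2588 .nil)) .nil)) .nil)) .nil)) .nil)) .nil)) .nil)) .nil)) .nil)) (.cons 322 (.leaf 346 2006 (.cons 227 (.leaf 298 1814 (.cons 324 (.leaf 300 1820 (.leaf 348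 2012 .nil)) .nil)) .nil)) .nil)))) (.cons 347 (.leaf 250 2007 (.cons 370 (.leaf 346 2198 (.cons 371 (.leaf 298 2199 (.leaf 394 2390 .nil)) .nil)) .nil)) .nil)))
noncomputable def t23 : T := .cons 273 (.leaf 300 2176 (.cons 271 (.leaf 298 2168 (.cons 246 (.leaf 247 1971 (.cons 270 (.leaf 245 1963 (.cons 294 (.leaf 293 2154 (.leaf 295 2162 .nil)) .nil)) .nil)) .nil)) .nil)) (.cons 323 t22 (.cons 251 (.cons 273 (.leaf 252 1985 (.cons 250 (.leaf 271 1977 (.cons 226 (.leaf 202 1620 (.leaf 323 1815 .nil)) .nil)) .nil)) (.cons 323 (.cons 250 (.leaf 226 1815 (.leaf 347 2007 .nil)) (.cons 322 (.leaf 346 2006 (.cons 227 (.leaf 298 1814 (.cons 228 (.leaf 204 1629 (.leaf 252 1821 .nil)) .nil)) .nil)) .nil)) (.cons 227 (.cons 202 (.leaf 226 1623 (.cons 204 (.leaf 228 1629 (.cons 203 (.leaf 178 1431 (.leaf 180 1437 .nil)) .nil)) .nil)) (.cons 202 (.leaf 226 1623 (.cons 204 (.leaf 228 1629 (.cons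 322 (.leaf 298 1814 (.cons 323 (.leaf 346 2006 (.cons 347 (.leaf 250 2007 (.cons 348 (.leaf 324 2012 (.leaf 372 2204 .nil)) .nil)) .nil)) .nil)) .nil)) .nil)) (.cons 298 (.leaf 203 1622 (.leaf 322 1814 .nil)) .nil))) (.cons 252 (.leaf 273 1985 (.cons 228 (.leaf 323 1821 (.cons 204 (.leaf 180 1438 (.leaf 227 1629 .nil)) .nil)) .nil)) (.cons 273 (.leaf 252 1985 (.cons 271 (.leaf 250 1977 (.leaf 298 2168 .nil)) .nil)) .nil))))) (.cons 273 (.leaf 300 2176 (.cons 251 (.leaf 252 1985 (.cons 250 (.leaf 271 1977 (.cons 226 (.leaf 202 1620 (.leaf 323 1815 .nil)) .nil)) .nil)) .nil)) .nil)))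
noncomputable def t24 : T := .cons 251 (.cons 226 (.leaf 250 1815 (.cons 228 (.leaf 252 1821 (.cons 322 (.leaf 346 2006 (.cons 321 (.leaf 298 2378 (.leaf 320 2369 .nil)) .nil)) .nil)) .nil)) (.cons 228 (.leaf 252 1821 (.cons 322 (.leaf 346 2006 (.cons 321 (.leaf 298 2378 (.leaf 320 2369 .nil)) .nil)) .nil)) (.cons 250 (.leaf 226 1815 (.leaf 347 2007 .nil)) .nil))) (.cons 251 (.cons 228 (.leaf 252 1821 (.cons 322 (.leaf 346 2006 (.cons 321 (.leaf 298 2378 (.leaf 320 2369 .nil)) .nil)) .nil)) (.cons 250 (.leaf 226 1815 (.cons 252 (.leaf 228 1821 (.cons 253 (.leaf 254 2002 (.cons 229 (.leaf 230 1809 (.cons 277 (.leaf 324 1830 (.leaf 278 2000 .nil)) .nil)) .nil)) .nil)) .nil)) (.cons 226 (.leaf 250 1815 (.cons 322 (.leaf 346 2006 (.cons 321 (.leaf 298 2378 (.leaf 320 2369 .nil)) .nil)) .nil)) .nil))) (.cons 322 (.cons 346 (.leaf 251 2006 (.cons 370 (.leaf 298 2197 (.leaf 347 2198 .nil))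 .nil)) (.cons 321 (.leaf 320 2369 (.leaf 324 2377 .nil)) .nil)) (.cons 347 (.leaf 250 2007 (.cons 372 (.leaf 348 2204 (.cons 371 (.leaf 396 2396 (.cons 394 (.leaf 370 2390 (.cons 395 (.leaf 324 2397 (.leaf 418 2582 .nil)) .nil)) .nil)) .nil)) .nil)) .nil)))
noncomputable def t25 : T := .cons 326 (.leaf 325 2384 (.cons 302 (.leaf 327 2392 (.cons 278 (.leaf 277 2193 (.leaf 279 2201 .nil)) .nil)) .nil)) (.cons 278 (.leaf 277 2193 (.cons 302 (.leaf 279 2201 (.cons 323 (.leaf 322 2386 (.cons 324 (.leaf 303 2394 (.cons 348 (.leaf 251 2012 (.leaf 372 2207 .nil)) .nil)) .nil)) .nil)) .nil)) (.cons 326 (.leaf 325 2384 (.cons 302 (.leaf 327 2392 (.cons 323 (.leaf 322 2386 (.cons 324 (.leaf 303 2394 (.cons 348 (.leaf 251 2012 (.leaf 372 2207 .nil)) .nil)) .nil)) .nil)) .nil)) (.cons 325 (.leaf 326 2384 (.cons 277 (.leaf 278 2193 (.cons 349 (.cons 348 (.leaf 372 2214 (.cons 253 (.leaf 324 2022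 (.cons 228 (.leaf 252 1831 (.cons 229 (.leaf 204 1639 (.cons 230 (.leaf 206 1645 (.leaf 254 1837 .nil)) .nil)) .nil)) .nil)) .nil)) (.cons 374 (.leaf 350 2220 (.cons 373 (.leaf 398 2412 (.cons 396 (.leaf 372 2406 (.cons 397 (.leaf 324 2407 (.leaf 420 2598 .nil)) .nil)) .nil)) .nil)) (.cons 374 (.leaf 350 2220 (.cons 373 (.leaf 398 2412 (.cons 324 (.leaf 397 2407 (.cons 253 (.leaf 229 1830 (.leaf 348 2022 .nil)) .nil)) .nil)) .nil)) (.cons 372 (.leaf 348 2214 (.cons 373 (.leaf 396 2406 (.cons 374 (.leaf 350 2220 (.leaf 398 2412 .nil)) .nil)) .nil)) .nil)))) .nil)) .nil)) .nil)))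
noncomputable def t26 : T := .cons 297 (.leaf 273 2179 (.cons 320 (.leaf 321 2370 (.cons 325 (.leaf 324 2376 (.cons 301 (.leaf 326 2384 (.cons 278 (.leaf 277 2193 (.cons 302 (.leaf 274 2195 (.leaf 279 2201 .nil)) .nil)) .nil)) .nil)) .nil)) .nil)) (.cons 297 (.cons 320 (.leaf 321 2370 (.cons 325 (.leaf 324 2376 (.cons 301 (.leaf 326 2384 (.cons 278 (.leaf 277 2193 (.cons 302 (.leaf 274 2195 (.leaf 279 2201 .nil)) .nil)) .nil)) .nil)) .nil)) (.cons 296 (.leaf 271 2171 (.cons 320 (.leaf 319 2362 (.leaf 321 2370 .nil)) .nil)) (.cons 296 (.leaf 271 2171 (.cons 324 (.leaf 323 2368 (.leaf 325 2376 .nil)) .nil)) .nil))) (.cons 297 (.leaf 273 2179 (.cons 296 (.leaf 271 2171 (.cons 324 (.leaf 323 2368 (.leaf 325 2376 .nil)) .nil)) .nil)) (.cons 274 (.leaf 273 2176 (.cons 301 (.leaf 302 2195 (.cons 325 (.leaf 326 2384 (.cons 277 (.leaf 278 2193 (.cons 253 (.cons 324 (.leaf 229 1830 (.leaf 348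 2022 .nil)) (.cons 322 (.leaf 321 2378 (.cons 228 (.leaf 252 1831 (.cons 229 (.leaf 204 1639 (.cons 230 (.leaf 206 1645 (.leaf 254 1837 .nil)) .nil)) .nil)) .nil)) (.cons 348 (.leaf 324 2022 (.cons 228 (.leaf 252 1831 (.cons 349 (.leaf 372 2214 (.cons 374 (.leaf 350 2220 (.cons 373 (.leaf 398 2412 (.cons 230 (.leaf 254 1837 (.cons 347 (.leaf 346 2768 (.cons 323 (.leaf 250 2007 (.leaf 371 2199 .nil)) .nil)) .nil)) .nil)) .nil)) .nil)) .nil)) .nil)) .nil))) .nil)) .nil)) .nil)) .nil)) (.cons 297 (.leaf 273 2179 (.cons 296 (.leaf 271 2171 (.cons 320 (.leaf 319 2362 (.leaf 321 2370 .nil)) .nil)) .nil)) .nil))))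
noncomputable def t27 : T := .cons 297 (.leaf 273 2179 (.cons 320 (.leaf 321 2370 (.cons 325 (.leaf 324 2376 (.cons 301 (.leaf 326 2384 (.cons 278 (.leaf 277 2193 (.cons 302 (.leaf 274 2195 (.leaf 279 2201 .nil)) .nil)) .nil)) .nil)) .nil)) .nil)) (.cons 297 (.cons 320 (.leaf 321 2370 (.cons 325 (.leaf 324 2376 (.cons 301 (.leaf 326 2384 (.cons 278 (.leaf 277 2193 (.cons 302 (.leaf 274 2195 (.leaf 279 2201 .nil)) .nil)) .nil)) .nil)) .nil)) (.cons 296 (.leaf 271 2171 (.cons 320 (.leaf 319 2362 (.leaf 321 2370 .nil)) .nil)) (.cons 296 (.leaf 271 2171 (.cons 324 (.leaf 323 2368 (.leaf 325 2376 .nil)) .nil)) .nil))) (.cons 297 (.leaf 273 2179 (.cons 296 (.leaf 271 2171 (.cons 324 (.leaf 323 2368 (.leaf 325 2376 .nil)) .nil)) .nil)) (.cons 274 (.leaf 273 2176 (.cons 301 (.leaf 302 2195 (.cons 325 (.leaf 326 2384 (.cons 277 (.leaf 278 2193 (.cons 253 (.cons 324 (.leaf 229 1830 (.leaf 348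 2022 .nil)) (.cons 252 (.leaf 228 1831 (.cons 254 (.leaf 251 2002 (.leaf 230 1837 .nil)) .nil)) .nil)) .nil)) .nil)) .nil)) .nil)) (.cons 297 (.leaf 273 2179 (.cons 296 (.leaf 271 2171 (.cons 320 (.leaf 319 2362 (.leaf 321 2370 .nil)) .nil)) .nil)) .nil))))
noncomputable def t28 : T := .cons 297 (.leaf 273 2179 (.cons 271 (.leaf 296 2171 (.cons 321 (.leaf 320 2370 (.cons 301 (.leaf 322 2378 (.cons 278 (.leaf 277 2193 (.cons 302 (.leaf 274 2195 (.leaf 279 2201 .nil)) .nil)) .nil)) .nil)) .nil)) .nil)) (.cons 301 (.cons 274 (.leaf 302 2195 (.cons 322 (.leaf 321 2378 (.cons 346 (.leaf 251 2005 (.leaf 370 2197 .nil)) .nil)) .nil)) (.cons 277 (.leaf 278 2193 (.cons 322 (.leaf 321 2378 (.cons 346 (.leaf 370 2197 (.cons 251 (.leaf 274 2005 (.leaf 323 2006 .nil)) .nil)) .nil)) .nil)) (.cons 277 (.leaf 278 2193 (.cons 302 (.leaf 274 2195 (.cons 326 (.leaf 325 2384 (.leaf 327 2392 .nil)) .nil))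 .nil)) (.cons 322 (.leaf 321 2378 (.cons 277 (.leaf 278 2193 (.cons 323 (.leaf 302 2386 (.cons 346 (.leaf 251 2006 (.leaf 370 2197 .nil)) .nil)) .nil)) .nil)) .nil)))) (.cons 297 (.leaf 273 2179 (.cons 271 (.leaf 296 2171 (.cons 321 (.leaf 320 2370 (.cons 301 (.leaf 322 2378 (.cons 278 (.leaf 277 2193 (.cons 302 (.leaf 279 2201 (.cons 326 (.leaf 325 2384 (.leaf 327 2392 .nil)) .nil)) .nil)) .nil)) .nil)) .nil)) .nil)) (.cons 297 (.leaf 273 2179 (.cons 296 (.leaf 271 2171 (.cons 320 (.leaf 319 2362 (.leaf 321 2370 .nil)) .nil)) .nil)) (.cons 273 (.leaf 274 2176 (.leaf 297 2179 .nil)) .nil))))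
noncomputable def t29 : T := .cons 226 (.leaf 250 1815 (.cons 228 (.leaf 252 1821 (.cons 322 (.leaf 346 2006 (.cons 321 (.leaf 320 2369 (.cons 324 (.leaf 348 2012 (.cons 297 (.leaf 296 2371 (.cons 298 (.leaf 325 2376 (.cons 345 (.leaf 344 2562 (.cons 369 (.leaf 393 2381 (.leaf 274 2189 .nil)) .nil)) .nil)) .nil)) .nil)) .nil)) .nil)) .nil)) .nil)) (.cons 322 (.leaf 346 2006 (.cons 228 (.leaf 252 1821 (.cons 250 (.leaf 226 1815 (.cons 320 (.leaf 321 2369 (.cons 347 (.leaf 274 2007 (.cons 372 (.leaf 348 2204 (.cons 371 (.leaf 396 2396 (.cons 394 (.leaf 370 2390 (.cons 395 (.leaf 298 2391 (.leaf 418 2582 .nil)) .nil)) .nil)) .nil)) .nil)) .nil)) .nil)) .nil)) .nil)) (.cons 250 (.leaf 226 1815 (.cons 228 (.leaf 252 1821 (.cons 346 (.leaf 322 2006 (.cons 347 (.leaf 274 2007 (.leaf 370 2198 .nil)) .nil)) .nil)) .nil)) (.cons 348 (.leaf 324 2012 (.cons 228 (.leaf 252 1821 (.cons 250 (.leaf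 226 1815 (.cons 347 (.leaf 274 2007 (.leaf 372 2204 .nil)) .nil)) .nil)) .nil)) (.cons 348 (.leaf 324 2012 (.cons 228 (.leaf 252 1821 (.cons 346 (.leaf 322 2006 (.cons 347 (.leaf 370 2198 (.leaf 372 2204 .nil)) .nil)) .nil)) .nil)) (.cons 348 (.leaf 324 2012 (.cons 226 (.leaf 250 1815 (.cons 346 (.leaf 322 2006 (.cons 347 (.leaf 370 2198 (.leaf 372 2204 .nil)) .nil)) .nil)) .nil)) .nil)))))
noncomputable def t30 : T := .cons 346 (.leaf 370 2198 (.cons 322 (.leaf 251 2006 (.cons 320 (.leaf 321 2369 (.cons 372 (.leaf 348 2204 (.cons 371 (.leaf 396 2396 (.cons 395 (.leaf 324 2397 (.leaf 298 2391 .nil)) .nil)) .nil)) .nil)) .nil)) .nil)) (.cons 370 (.leaf 346 2198 (.cons 371 (.leaf 394 2390 (.cons 395 (.leaf 324 2397 (.cons 298 (.leaf 322 2391 (.cons 297 (.leaf 273 2179 (.cons 296 (.leaf 271 2171 (.cons 320 (.leaf 319 2362 (.leaf 321 2370 .nil)) .nil)) .nil)) .nil)) .nil)) .nil)) .nil))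 (.cons 372 (.leaf 348 2204 (.cons 371 (.leaf 396 2396 (.cons 394 (.leaf 370 2390 (.cons 395 (.leaf 324 2397 (.leaf 418 2582 .nil)) .nil)) .nil)) .nil)) (.cons 372 (.leaf 348 2204 (.cons 371 (.leaf 396 2396 (.cons 395 (.leaf 324 2397 (.cons 298 (.leaf 322 2391 (.cons 297 (.leaf 273 2179 (.cons 394 (.leaf 418 2582 (.cons 296 (.leaf 271 2171 (.cons 320 (.leaf 319 2362 (.leaf 321 2370 .nil)) .nil)) .nil)) .nil)) .nil)) .nil)) .nil)) .nil)) (.cons 346 (.leaf 370 2198 (.cons 322 (.leaf 251 2006 (.cons 320 (.leaf 321 2369 (.cons 372 (.leaf 348 2204 (.cons 371 (.leaf 396 2396 (.cons 395 (.leaf 298 2391 (.leaf 419 2583 .nil)) .nil)) .nil)) .nil)) .nil)) .nil)) (.cons 348 (.leaf 372 2204 (.cons 346 (.leaf 370 2198 (.cons 251 (.leaf 322 2006 (.leaf 324 2012 .nil)) .nil)) .nil)) .nil)))))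
noncomputable def t31 : T := .cons 251 (.cons 228 (.leaf 252 1821 (.cons 322 (.leaf 346 2006 (.cons 321 (.leaf 320 2369 (.cons 324 (.leaf 348 2012 (.cons 297 (.leaf 296 2371 (.cons 298 (.leaf 273 2179 (.leaf 325 2376 .nil)) .nil)) .nil)) .nil)) .nil)) .nil)) (.cons 228 (.leaf 252 1821 (.cons 322 (.leaf 346 2006 (.cons 321 (.leaf 320 2369 (.cons 324 (.leaf 348 2012 (.cons 297 (.leaf 296 2371 (.cons 298 (.leaf 325 2376 (.cons 345 (.leaf 344 2562 (.cons 274 (.leaf 250 1998 (.leaf 369 2189 .nil)) .nil)) .nil)) .nil)) .nil)) .nil)) .nil)) .nil)) (.cons 274 (.leaf 273 2176 (.cons 250 (.leaf 226 1815 (.leaf 347 2007 .nil)) .nil)) .nil))) (.cons 347 t30 (.cons 251 t29 (.cons 273 (.leaf 274 2176 (.cons 297 (.leaf 298 2179 (.cons 251 (.cons 226 (.leaf 250 1815 (.cons 324 (.leaf 348 2012 (.cons 228 (.leaf 252 1821 (.cons 322 (.leaf 346 2006 (.cons 321 (.leaf 320 2369 (.leaf 296 2371 .nil)) .nil))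 .nil)) .nil)) .nil)) (.cons 252 (.leaf 228 1821 (.cons 250 (.leaf 226 1815 (.leaf 249 1986 .nil)) .nil)) (.cons 324 (.leaf 348 2012 (.cons 228 (.leaf 252 1821 (.cons 322 (.leaf 346 2006 (.cons 321 (.leaf 320 2369 (.leaf 296 2371 .nil)) .nil)) .nil)) .nil)) (.cons 324 (.leaf 348 2012 (.cons 226 (.leaf 250 1815 (.cons 322 (.leaf 346 2006 (.cons 321 (.leaf 320 2369 (.leaf 296 2371 .nil)) .nil)) .nil)) .nil)) .nil)))) .nil)) .nil)) (.cons 274 (.leaf 273 2176 (.cons 250 (.leaf 347 2007 (.cons 226 (.leaf 202 1620 (.leaf 298 1812 .nil)) .nil)) .nil)) (.cons 274 (.leaf 273 2176 (.cons 250 (.leaf 347 2007 (.cons 226 (.leaf 202 1620 (.leaf 251 1815 .nil)) .nil)) .nil)) .nil)))))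
noncomputable def t32 : T := .cons 273 (.leaf 274 2176 (.cons 251 (.cons 322 (.leaf 346 2006 (.cons 301 (.leaf 302 2386 (.cons 321 (.leaf 320 2369 (.leaf 324 2377 .nil)) .nil)) .nil)) (.cons 322 (.leaf 346 2006 (.cons 250 (.leaf 226 1815 (.cons 252 (.leaf 228 1821 (.leaf 249 1986 .nil)) .nil)) .nil)) (.cons 348 (.leaf 324 2012 (.cons 250 (.leaf 226 1815 (.cons 252 (.leaf 228 1821 (.leaf 249 1986 .nil)) .nil)) .nil)) .nil))) .nil)) (.cons 322 (.cons 301 (.leaf 302 2386 (.cons 321 (.leaf 320 2369 (.leaf 324 2377 .nil)) .nil)) (.cons 301 (.leaf 302 2386 (.cons 346 (.leaf 251 2006 (.cons 370 (.leaf 347 2198 (.leaf 394 2389 .nil)) .nil)) .nil)) (.cons 320 (.leaf 321 2369 (.cons 346 (.leaf 251 2006 (.cons 370 (.leaf 347 2198 (.leaf 394 2389 .nil)) .nil)) .nil)) .nil))) (.cons 274 (.leaf 273 2176 (.cons 301 (.leaf 302 2195 (.cons 347 (.leaf 250 2007 (.cons 372 (.leaf 348 2204 (.cons 346 (.leaf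 370 2198 (.cons 371 (.leaf 396 2396 (.cons 324 (.leaf 395 2397 (.cons 344 (.leaf 345 2752 (.cons 322 (.leaf 321 2377 (.cons 325 (.leaf 326 2578 (.cons 349 (.leaf 350 2576 (.cons 373 (.leaf 397 2407 (.leaf 374 2771 .nil)) .nil)) .nil)) .nil)) .nil)) .nil)) .nil)) .nil)) .nil)) .nil)) .nil)) .nil)) (.cons 274 (.leaf 273 2176 (.cons 250 (.leaf 347 2007 (.cons 226 (.leaf 202 1620 (.leaf 251 1815 .nil)) .nil)) .nil)) .nil)))
noncomputable def t33 : T := .cons 298 (.cons 277 (.leaf 278 2193 (.cons 325 (.leaf 326 2384 (.cons 297 (.leaf 324 2376 (.cons 321 (.leaf 320 2370 (.leaf 322 2378 .nil)) .nil)) .nil)) .nil)) (.cons 277 (.leaf 278 2193 (.cons 325 (.leaf 326 2384 (.cons 297 (.leaf 324 2376 (.cons 296 (.leaf 271 2171 (.cons 320 (.leaf 319 2362 (.leaf 321 2370 .nil)) .nil)) .nil)) .nil)) .nil)) (.cons 277 (.leaf 278 2193 (.cons 322 (.leaf 321 2378 (.cons 323 (.leaf 302 2386 (.cons 346 (.leaf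 251 2006 (.leaf 370 2197 .nil)) .nil)) .nil)) .nil)) (.cons 277 (.leaf 278 2193 (.cons 325 (.leaf 326 2384 (.cons 297 (.leaf 324 2376 (.cons 296 (.leaf 271 2171 (.cons 295 (.leaf 274 2169 (.cons 319 (.leaf 320 2362 (.leaf 318 2354 .nil)) .nil)) .nil)) .nil)) .nil)) .nil)) (.cons 322 (.leaf 321 2378 (.cons 302 (.leaf 274 2195 (.leaf 323 2386 .nil)) .nil)) .nil))))) (.cons 298 (.cons 277 (.leaf 278 2193 (.cons 325 (.leaf 326 2384 (.cons 297 (.leaf 324 2376 (.cons 321 (.leaf 320 2370 (.leaf 322 2378 .nil)) .nil)) .nil)) .nil)) (.cons 325 (.leaf 326 2384 (.cons 277 (.leaf 278 2193 (.cons 297 (.leaf 324 2376 (.cons 296 (.leaf 271 2171 (.cons 320 (.leaf 319 2362 (.leaf 321 2370 .nil)) .nil)) .nil)) .nil)) .nil)) (.cons 322 (.leaf 321 2378 (.cons 277 (.leaf 278 2193 (.cons 346 (.leaf 370 2197 (.cons 251 (.leaf 274 2005 (.leaf 323 2006 .nil)) .nil)) .nil)) .nil)) (.cons 325 (.leaf 326 2384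 (.cons 277 (.leaf 278 2193 (.cons 297 (.leaf 324 2376 (.cons 296 (.leaf 271 2171 (.cons 295 (.leaf 274 2169 (.cons 319 (.leaf 320 2362 (.leaf 318 2354 .nil)) .nil)) .nil)) .nil)) .nil)) .nil)) (.cons 322 (.leaf 321 2378 (.cons 325 (.leaf 326 2384 (.cons 297 (.leaf 324 2376 (.cons 271 (.leaf 296 2171 (.cons 346 (.leaf 370 2197 (.cons 251 (.leaf 274 2005 (.leaf 323 2006 .nil)) .nil)) .nil)) .nil)) .nil)) .nil)) .nil))))) (.cons 298 (.cons 321 (.leaf 322 2378 (.cons 297 (.leaf 320 2370 (.cons 325 (.leaf 324 2376 (.leaf 326 2384 .nil)) .nil)) .nil)) (.cons 277 (.leaf 278 2193 (.cons 325 (.leaf 326 2384 (.cons 297 (.leaf 324 2376 (.cons 296 (.leaf 271 2171 (.cons 320 (.leaf 319 2362 (.leaf 321 2370 .nil)) .nil)) .nil)) .nil)) .nil)) (.cons 277 (.leaf 278 2193 (.cons 322 (.leaf 321 2378 (.cons 323 (.leaf 302 2386 (.cons 346 (.leaf 251 2006 (.leaf 370 2197 .nil)) .nil)) .nil)) .nil)) (.cons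 277 (.leaf 278 2193 (.cons 325 (.leaf 326 2384 (.cons 324 (.leaf 297 2376 (.cons 348 (.leaf 372 2213 (.leaf 253 2022 .nil)) .nil)) .nil)) .nil)) .nil)))) (.cons 302 (.leaf 274 2195 (.cons 279 (.leaf 278 2201 (.cons 303 (.leaf 280 2209 (.cons 323 (.leaf 322 2386 (.leaf 324 2394 .nil)) .nil)) .nil)) .nil)) (.cons 302 (.leaf 274 2195 (.cons 279 (.leaf 278 2201 (.cons 303 (.leaf 280 2209 (.cons 327 (.leaf 326 2392 (.leaf 328 2400 .nil)) .nil)) .nil)) .nil)) (.cons 302 (.leaf 274 2195 (.cons 323 (.leaf 322 2386 (.cons 303 (.leaf 324 2394 (.cons 327 (.leaf 326 2392 (.leaf 328 2400 .nil)) .nil)) .nil)) .nil)) .nil)))))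
noncomputable def t34 : T := .cons 301 (.cons 322 (.leaf 321 2378 (.cons 302 (.leaf 323 2386 (.cons 326 (.leaf 325 2384 (.leaf 327 2392 .nil)) .nil)) .nil)) (.cons 278 (.leaf 277 2193 (.cons 302 (.leaf 279 2201 (.cons 326 (.leaf 325 2384 (.leaf 327 2392 .nil)) .nil)) .nil)) (.cons 322 (.leaf 321 2378 (.cons 273 (.leaf 297 2179 (.cons 278 (.leaf 277 2193 (.cons 302 (.leaf 279 2201 (.leaf 323 2386 .nil)) .nil)) .nil)) .nil)) (.cons 277 (.leaf 278 2193 (.cons 322 (.leaf 321 2378 (.cons 325 (.leaf 326 2384 (.cons 346 (.leaf 370 2197 (.cons 253 (.cons 324 (.leaf 297 2376 (.leaf 229 1830 .nil)) (.cons 297 (.leaf 273 2179 (.cons 228 (.leaf 252 1831 (.cons 204 (.leaf 229 1639 (.cons 230 (.leaf 254 1837 (.cons 296 (.leaf 271 2171 (.cons 323 (.leaf 251 2006 (.leaf 295 2360 .nil)) .nil)) .nil)) .nil)) .nil)) .nil)) (.cons 324 (.leaf 229 1830 (.leaf 348 2022 .nil)) (.cons 324 (.leaf 297 2376 (.leaf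 348 2022 .nil)) .nil)))) .nil)) .nil)) .nil)) .nil)) .nil)))) (.cons 301 (.cons 322 (.leaf 321 2378 (.cons 302 (.leaf 323 2386 (.cons 326 (.leaf 325 2384 (.leaf 327 2392 .nil)) .nil)) .nil)) (.cons 326 (.leaf 325 2384 (.cons 278 (.leaf 277 2193 (.cons 302 (.leaf 279 2201 (.leaf 327 2392 .nil)) .nil)) .nil)) (.cons 322 (.leaf 321 2378 (.cons 277 (.leaf 278 2193 (.cons 323 (.leaf 302 2386 (.cons 346 (.leaf 251 2006 (.leaf 370 2197 .nil)) .nil)) .nil)) .nil)) (.cons 322 (.leaf 321 2378 (.cons 277 (.leaf 278 2193 (.cons 325 (.leaf 326 2384 (.cons 346 (.leaf 370 2197 (.cons 253 (.cons 324 (.leaf 229 1830 (.leaf 348 2022 .nil)) (.cons 228 (.leaf 252 1831 (.cons 229 (.leaf 204 1639 (.cons 230 (.leaf 206 1645 (.leaf 254 1837 .nil)) .nil)) .nil)) (.cons 324 (.leaf 348 2022 (.cons 323 (.leaf 251 2006 (.leaf 345 2570 .nil)) .nil)) .nil))) .nil)) .nil)) .nil)) .nil)) .nil)))) (.cons 297 (.leaf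 273 2179 (.cons 296 (.leaf 271 2171 (.cons 324 (.leaf 323 2368 (.leaf 325 2376 .nil)) .nil)) .nil)) (.cons 297 (.leaf 273 2179 (.cons 271 (.leaf 296 2171 (.cons 321 (.leaf 320 2370 (.cons 301 (.leaf 322 2378 (.cons 278 (.leaf 277 2193 (.cons 302 (.leaf 279 2201 (.cons 326 (.leaf 325 2384 (.leaf 327 2392 .nil)) .nil)) .nil)) .nil)) .nil)) .nil)) .nil)) (.cons 297 (.leaf 273 2179 (.cons 296 (.leaf 271 2171 (.cons 320 (.leaf 319 2362 (.leaf 321 2370 .nil)) .nil)) .nil)) .nil))))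
noncomputable def t35 : T := .cons 273 (.leaf 274 2176 (.cons 298 (.leaf 297 2179 (.cons 301 (.cons 278 (.leaf 277 2193 (.cons 302 (.leaf 279 2201 (.cons 326 (.leaf 325 2384 (.leaf 327 2392 .nil)) .nil)) .nil)) (.cons 278 (.leaf 277 2193 (.cons 302 (.leaf 279 2201 (.cons 322 (.leaf 321 2378 (.leaf 323 2386 .nil)) .nil)) .nil)) (.cons 322 (.leaf 321 2378 (.cons 302 (.leaf 323 2386 (.cons 326 (.leaf 325 2384 (.leaf 327 2392 .nil)) .nil)) .nil)) (.cons 322 (.leaf 321 2378 (.cons 277 (.leaf 278 2193 (.cons 325 (.leaf 326 2384 (.cons 346 (.leaf 370 2197 (.cons 253 (.cons 228 (.leaf 252 1831 (.cons 229 (.leaf 324 1830 (.leaf 204 1639 .nil)) .nil)) (.cons 228 (.leaf 252 1831 (.cons 229 (.leaf 204 1639 (.cons 230 (.leaf 206 1645 (.leaf 254 1837 .nil)) .nil)) .nil)) (.cons 324 (.leaf 348 2022 (.cons 323 (.leaf 251 2006 (.leaf 345 2570 .nil)) .nil)) .nil))) .nil)) .nil)) .nil)) .nil)) .nil))))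 .nil)) .nil)) (.cons 298 t34 (.cons 301 t33 (.cons 323 t32 (.cons 323 t31 (.cons 274 (.leaf 273 2176 (.cons 301 (.leaf 302 2195 (.cons 298 (.cons 321 (.leaf 322 2378 (.cons 297 (.leaf 320 2370 (.cons 325 (.leaf 324 2376 (.leaf 326 2384 .nil)) .nil)) .nil)) (.cons 325 (.leaf 326 2384 (.cons 277 (.leaf 278 2193 (.cons 297 (.leaf 324 2376 (.cons 296 (.leaf 295 2169 (.leaf 271 2171 .nil)) .nil)) .nil)) .nil)) (.cons 321 (.leaf 322 2378 (.cons 297 (.leaf 320 2370 (.cons 296 (.leaf 295 2169 (.leaf 271 2171 .nil)) .nil)) .nil)) (.cons 322 (.leaf 321 2378 (.cons 346 (.leaf 251 2005 (.leaf 370 2197 .nil)) .nil)) .nil)))) .nil)) .nil)) (.cons 298 t28 (.cons 298 t27 (.cons 298 t26 (.cons 273 (.leaf 274 2176 (.cons 298 (.leaf 297 2179 (.cons 301 t25 .nil)) .nil)) (.cons 274 (.leaf 273 2176 (.cons 301 (.leaf 302 2195 (.cons 323 t24 .nil)) .nil)) .nil))))))))))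
noncomputable def t36 : T := .cons 347 (.leaf 250 2007 (.cons 298 (.leaf 371 2199 (.cons 346 (.leaf 370 2198 (.cons 348 (.leaf 372 2204 (.cons 251 (.leaf 324 2012 (.cons 227 (.leaf 203 1622 (.cons 273 (.leaf 252 1985 (.leaf 300 2176 .nil)) .nil)) .nil)) .nil)) .nil)) .nil)) .nil)) (.cons 273 (.leaf 300 2176 (.cons 251 (.leaf 252 1985 (.cons 226 (.leaf 250 1815 (.cons 227 (.leaf 202 1623 (.cons 203 (.leaf 298 1622 (.cons 204 (.leaf 180 1437 (.leaf 228 1629 .nil)) .nil)) .nil)) .nil)) .nil)) .nil)) (.cons 273 (.leaf 300 2176 (.cons 251 (.leaf 252 1985 (.cons 295 (.leaf 296 2170 (.cons 348 (.leaf 324 2012 (.cons 347 (.leaf 372 2204 (.cons 370 (.leaf 346 2198 (.cons 371 (.leaf 298 2199 (.leaf 394 2390 .nil)) .nil)) .nil)) .nil)) .nil)) .nil)) .nil)) (.cons 347 (.leaf 250 2007 (.cons 298 (.leaf 371 2199 (.cons 346 (.leaf 370 2198 (.cons 348 (.leaf 372 2204 (.cons 251 (.leaf 324 2012 (.cons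 227 (.leaf 203 1622 (.cons 228 (.leaf 204 1629 (.leaf 252 1821 .nil)) .nil)) .nil)) .nil)) .nil)) .nil)) .nil)) (.cons 347 (.leaf 250 2007 (.cons 370 (.leaf 346 2198 (.cons 371 (.leaf 298 2199 (.leaf 394 2390 .nil)) .nil)) .nil)) (.cons 347 (.leaf 250 2007 (.cons 346 (.leaf 370 2198 (.cons 348 (.leaf 372 2204 (.cons 324 (.leaf 251 2012 (.cons 325 (.leaf 326 2578 (.leaf 345 2569 .nil)) .nil)) .nil)) .nil)) .nil)) .nil)))))
noncomputable def t37 : T := .cons 347 (.leaf 250 2007 (.cons 298 (.leaf 371 2199 (.cons 346 (.leaf 370 2198 (.cons 297 (.cons 296 (.leaf 295 2169 (.leaf 271 2171 .nil)) (.cons 348 (.leaf 372 2204 (.cons 251 (.leaf 324 2012 (.cons 227 (.leaf 203 1622 (.cons 228 (.leaf 204 1629 (.leaf 252 1821 .nil)) .nil)) .nil)) .nil)) .nil)) .nil)) .nil)) .nil)) (.cons 251 (.cons 250 (.leaf 226 1815 (.cons 252 (.leaf 228 1821 (.cons 253 (.leaf 254 2002 (.cons 229 (.leaf 230 1809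 (.cons 324 (.leaf 348 2012 (.cons 277 (.leaf 278 2000 (.cons 300 (.leaf 227 1820 (.leaf 301 1830 .nil)) .nil)) .nil)) .nil)) .nil)) .nil)) .nil)) (.cons 324 (.leaf 348 2012 (.cons 227 (.leaf 300 1820 (.cons 228 (.leaf 204 1629 (.leaf 252 1821 .nil)) .nil)) .nil)) (.cons 226 (.leaf 250 1815 (.cons 227 (.leaf 202 1623 (.cons 228 (.leaf 204 1629 (.leaf 252 1821 .nil)) .nil)) .nil)) (.cons 226 (.leaf 250 1815 (.cons 227 (.leaf 202 1623 (.cons 324 (.leaf 300 1820 (.leaf 348 2012 .nil)) .nil)) .nil)) (.cons 250 (.leaf 226 1815 (.cons 252 (.leaf 228 1821 (.cons 253 (.leaf 254 2002 (.cons 229 (.leaf 230 1809 (.cons 324 (.leaf 348 2012 (.cons 277 (.leaf 278 2000 (.cons 301 (.leaf 300 1830 (.cons 326 (.leaf 302 1836 (.cons 325 (.leaf 298 2387 (.leaf 350 2028 .nil)) .nil)) .nil)) .nil)) .nil)) .nil)) .nil)) .nil)) .nil)) .nil))))) (.cons 347 (.cons 298 (.leaf 371 2199 (.cons 346 (.leaf 370 2198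 (.cons 297 (.cons 296 (.leaf 295 2169 (.leaf 271 2171 .nil)) (.cons 348 (.leaf 372 2204 (.cons 251 (.leaf 324 2012 (.cons 227 (.leaf 203 1622 (.cons 228 (.leaf 204 1629 (.leaf 252 1821 .nil)) .nil)) .nil)) .nil)) .nil)) .nil)) .nil)) (.cons 346 (.leaf 370 2198 (.cons 348 (.leaf 372 2204 (.cons 251 (.leaf 324 2012 (.cons 228 (.leaf 252 1821 (.cons 227 (.leaf 204 1629 (.cons 202 (.leaf 226 1623 (.cons 203 (.leaf 178 1431 (.leaf 298 1622 .nil)) .nil)) .nil)) .nil)) .nil)) .nil)) .nil)) (.cons 370 (.leaf 346 2198 (.cons 371 (.leaf 298 2199 (.leaf 394 2390 .nil)) .nil)) (.cons 298 (.leaf 371 2199 (.cons 348 (.leaf 372 2204 (.cons 251 (.leaf 324 2012 (.cons 227 (.leaf 203 1622 (.cons 228 (.leaf 204 1629 (.leaf 252 1821 .nil)) .nil)) .nil)) .nil)) .nil)) (.cons 346 (.leaf 370 2198 (.cons 348 (.leaf 372 2204 (.cons 324 (.leaf 251 2012 (.cons 325 (.leaf 326 2578 (.leaf 345 2569 .nil)) .nil))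 .nil)) .nil)) .nil))))) (.cons 347 (.leaf 250 2007 (.cons 370 (.leaf 346 2198 (.cons 371 (.leaf 298 2199 (.leaf 394 2390 .nil)) .nil)) .nil)) (.cons 347 (.leaf 250 2007 (.cons 346 (.leaf 370 2198 (.cons 348 (.leaf 372 2204 (.cons 324 (.leaf 251 2012 (.cons 325 (.leaf 326 2578 (.leaf 345 2569 .nil)) .nil)) .nil)) .nil)) .nil)) .nil))))
noncomputable def t38 : T := .cons 347 (.leaf 370 2198 (.cons 348 (.leaf 372 2204 (.cons 345 (.cons 324 (.leaf 251 2012 (.leaf 344 2561 .nil)) (.cons 320 (.leaf 321 2563 (.cons 344 (.leaf 319 2555 (.cons 368 (.leaf 367 2746 (.leaf 369 2754 .nil)) .nil)) .nil)) (.cons 320 (.leaf 321 2563 (.cons 325 (.leaf 324 2569 (.cons 349 (.leaf 326 2577 (.cons 350 (.leaf 322 2579 (.cons 374 (.leaf 373 2768 (.leaf 375 2776 .nil)) .nil)) .nil)) .nil)) .nil)) .nil))) .nil)) .nil)) (.cons 251 (.leaf 322 2006 (.cons 228 (.leaf 252 1821 (.cons 227 (.leaf 204 1629 (.cons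 324 (.leaf 300 1820 (.leaf 348 2012 .nil)) .nil)) .nil)) .nil)) (.cons 347 (.leaf 370 2198 (.cons 348 (.leaf 372 2204 (.cons 345 (.cons 324 (.leaf 344 2561 (.leaf 325 2569 .nil)) (.cons 320 (.leaf 321 2563 (.cons 344 (.leaf 319 2555 (.cons 368 (.leaf 367 2746 (.leaf 369 2754 .nil)) .nil)) .nil)) (.cons 320 (.leaf 321 2563 (.cons 325 (.leaf 324 2569 (.cons 349 (.leaf 326 2577 (.cons 350 (.leaf 322 2579 (.cons 374 (.leaf 373 2768 (.leaf 375 2776 .nil)) .nil)) .nil)) .nil)) .nil)) .nil))) .nil)) .nil)) (.cons 347 (.leaf 370 2198 (.cons 348 (.leaf 372 2204 (.cons 324 (.leaf 251 2012 (.cons 325 (.leaf 326 2578 (.leaf 345 2569 .nil)) .nil)) .nil)) .nil)) (.cons 322 (.leaf 251 2006 (.cons 370 (.leaf 347 2198 (.leaf 394 2389 .nil)) .nil)) .nil))))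
noncomputable def t39 : T := .cons 273 (.leaf 300 2176 (.cons 251 (.leaf 252 1985 (.cons 250 (.leaf 226 1815 (.leaf 347 2007 .nil)) .nil)) .nil)) (.cons 347 (.leaf 250 2007 (.cons 346 (.leaf 370 2198 (.cons 322 (.leaf 251 2006 (.cons 348 (.leaf 372 2204 (.cons 321 (.leaf 320 2560 (.leaf 349 2571 .nil)) .nil)) .nil)) .nil)) .nil)) (.cons 273 (.leaf 300 2176 (.cons 251 (.leaf 252 1985 (.cons 250 (.leaf 226 1815 (.leaf 271 1977 .nil)) .nil)) .nil)) (.cons 273 (.leaf 300 2176 (.cons 251 (.leaf 252 1985 (.cons 295 (.leaf 296 2170 (.cons 271 (.leaf 294 2162 (.cons 247 (.leaf 246 1971 (.cons 346 (.leaf 322 2006 (.cons 347 (.leaf 370 2198 (.cons 372 (.leaf 348 2204 (.cons 371 (.leaf 396 2396 (.cons 344 (.leaf 345 2752 (.cons 319 (.leaf 320 1980 (.cons 342 (.leaf 318 1974 (.cons 343 (.leaf 366 2166 (.leaf 368 2172 .nil)) .nil)) .nil)) .nil)) .nil)) .nil)) .nil)) .nil)) .nil)) .nil)) .nil))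 .nil)) .nil)) (.cons 347 (.leaf 250 2007 (.cons 273 (.leaf 300 2176 (.cons 295 (.leaf 296 2170 (.cons 271 (.leaf 294 2162 (.cons 246 (.leaf 247 1971 (.cons 245 (.leaf 270 1963 (.cons 370 (.leaf 346 2198 (.cons 371 (.leaf 394 2390 (.cons 372 (.leaf 348 2204 (.leaf 396 2396 .nil)) .nil)) .nil)) .nil)) .nil)) .nil)) .nil)) .nil)) .nil)) .nil))))
noncomputable def t40 : T := .leaf 370 2198 (.cons 344 (.cons 295 (.leaf 296 2170 (.cons 271 (.leaf 294 2162 (.cons 246 (.leaf 247 1971 (.cons 270 (.leaf 245 1963 (.cons 198 (.leaf 222 1588 (.cons 319 (.leaf 343 1975 (.cons 345 (.leaf 324 2561 (.leaf 320 2555 .nil)) .nil)) .nil)) .nil)) .nil)) .nil)) .nil)) (.cons 296 (.leaf 295 2170 (.cons 320 (.leaf 249 1989 (.cons 247 (.leaf 271 1983 (.cons 367 (.leaf 343 2174 (.cons 368 (.leaf 297 2181 (.leaf 391 2366 .nil)) .nil)) .nil)) .nil)) .nil)) (.cons 345 (.leaf 324 2561 (.cons 319 (.leaf 320 2555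 (.cons 343 (.leaf 318 2547 (.cons 367 (.leaf 366 2738 (.leaf 368 2746 .nil)) .nil)) .nil)) .nil)) (.cons 345 (.leaf 324 2561 (.cons 295 (.leaf 296 2170 (.cons 271 (.leaf 294 2162 (.cons 246 (.leaf 247 1971 (.cons 270 (.leaf 245 1963 (.cons 198 (.leaf 222 1588 (.cons 343 (.leaf 319 1975 (.cons 367 (.leaf 366 2738 (.leaf 368 2746 .nil)) .nil)) .nil)) .nil)) .nil)) .nil)) .nil)) .nil)) (.cons 345 (.leaf 324 2561 (.cons 296 (.leaf 295 2170 (.cons 320 (.leaf 249 1989 (.leaf 369 2180 .nil)) .nil)) .nil)) .nil))))) .nil)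
noncomputable def t41 : T := .cons 274 (.leaf 250 2007 (.cons 300 (.leaf 273 2176 (.cons 301 (.leaf 302 2195 (.cons 372 (.leaf 348 2204 (.cons 346 (.leaf 370 2198 (.cons 371 (.leaf 396 2396 (.cons 324 (.leaf 395 2397 (.cons 344 (.leaf 345 2752 (.cons 322 (.leaf 321 2377 (.cons 325 (.leaf 326 2578 (.cons 349 (.leaf 350 2576 (.cons 373 (.leaf 374 2771 (.leaf 397 2407 .nil)) .nil)) .nil)) .nil)) .nil)) .nil)) .nil)) .nil)) .nil)) .nil)) .nil)) .nil)) (.cons 274 (.leaf 250 2007 (.cons 300 (.leaf 273 2176 (.cons 301 (.leaf 302 2195 (.cons 371 (.cons 370 (.leaf 346 2198 (.leaf 394 2390 .nil)) (.cons 395 (.leaf 324 2397 (.cons 418 (.leaf 394 2582 (.cons 419 (.leaf 442 2774 (.cons 420 (.leaf 396 2588 (.leaf 444 2780 .nil)) .nil)) .nil)) .nil)) (.cons 324 (.leaf 395 2397 (.cons 321 (.leaf 322 2377 (.cons 346 (.leaf 370 2198 (.cons 325 (.leaf 326 2578 (.cons 345 (.leaf 344 2561 (.leaf 348 2569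 .nil)) .nil)) .nil)) .nil)) .nil)) .nil))) .nil)) .nil)) .nil)) (.cons 274 (.leaf 250 2007 (.cons 300 (.leaf 273 2176 (.cons 301 (.leaf 302 2195 (.cons 370 (.leaf 346 2198 (.cons 371 (.leaf 394 2390 (.cons 395 (.leaf 324 2397 (.cons 396 (.leaf 372 2396 (.leaf 420 2588 .nil)) .nil)) .nil)) .nil)) .nil)) .nil)) .nil)) (.cons 372 (.leaf 348 2204 (.cons 274 (.leaf 250 2007 (.cons 300 (.leaf 273 2176 (.cons 371 (.leaf 396 2396 (.cons 301 (.leaf 302 2195 (.cons 324 (.leaf 395 2397 (.cons 322 (.leaf 321 2377 (.cons 325 (.cons 326 (.leaf 327 2395 (.leaf 346 2578 .nil)) (.cons 326 (.leaf 327 2395 (.cons 350 (.leaf 349 2576 (.leaf 351 2584 .nil)) .nil)) (.cons 346 (.leaf 345 2570 (.cons 349 (.leaf 350 2576 (.cons 373 (.leaf 374 2771 (.leaf 397 2407 .nil)) .nil)) .nil)) .nil))) .nil)) .nil)) .nil)) .nil)) .nil)) .nil)) .nil)) (.cons 274 (.leaf 250 2007 (.cons 300 (.leaf 273 2176 (.cons 301 (.leaf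 302 2195 (.cons 372 (.leaf 348 2204 (.cons 371 (.leaf 396 2396 (.cons 394 (.leaf 370 2390 (.cons 395 (.leaf 324 2397 (.leaf 418 2582 .nil)) .nil)) .nil)) .nil)) .nil)) .nil)) .nil)) (.cons 372 (.leaf 348 2204 (.cons 370 (.leaf 346 2198 (.cons 371 (.leaf 394 2390 (.leaf 396 2396 .nil)) .nil)) .nil)) (.cons 274 (.leaf 250 2007 (.cons 300 (.leaf 273 2176 (.cons 348 (.leaf 372 2204 (.cons 346 (.leaf 370 2198 (.cons 301 (.leaf 302 2195 (.cons 321 (.cons 320 (.leaf 322 2560 (.leaf 345 2563 .nil)) (.cons 345 (.leaf 320 2563 (.cons 324 (.leaf 344 2561 (.leaf 325 2569 .nil)) .nil)) (.cons 324 (.leaf 322 2377 (.cons 325 (.leaf 326 2578 (.leaf 345 2569 .nil)) .nil)) (.cons 322 (.leaf 320 2560 (.leaf 324 2377 .nil)) .nil)))) .nil)) .nil)) .nil)) .nil)) .nil)) .nil))))))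
noncomputable def t42 : T := .cons 346 (.cons 251 (.leaf 322 2006 (.cons 228 (.leaf 252 1821 (.cons 347 (.leaf 370 2198 (.cons 348 (.leaf 324 2012 (.leaf 372 2204 .nil)) .nil)) .nil)) .nil)) (.cons 251 (.leaf 322 2006 (.cons 228 (.leaf 252 1821 (.cons 227 (.leaf 204 1629 (.cons 226 (.leaf 202 1623 (.leaf 250 1815 .nil)) .nil)) .nil)) .nil)) (.cons 347 (.leaf 370 2198 (.cons 274 (.leaf 250 2007 (.cons 273 (.leaf 300 2176 (.cons 295 (.leaf 296 2170 (.cons 271 (.leaf 294 2162 (.cons 247 (.leaf 246 1971 (.cons 372 (.leaf 348 2204 (.cons 371 (.leaf 396 2396 (.cons 344 (.leaf 345 2752 (.cons 319 (.leaf 320 1980 (.cons 342 (.leaf 318 1974 (.cons 343 (.leaf 366 2166 (.leaf 368 2172 .nil)) .nil)) .nil)) .nil)) .nil)) .nil)) .nil)) .nil)) .nil)) .nil)) .nil)) .nil)) .nil))) (.cons 347 t41 (.cons 251 (.cons 226 (.leaf 250 1815 (.cons 227 (.leaf 202 1623 (.cons 228 (.leaf 204 1629 (.leaf 252 1821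 .nil)) .nil)) .nil)) (.cons 226 (.leaf 250 1815 (.cons 227 (.leaf 202 1623 (.cons 324 (.leaf 300 1820 (.leaf 348 2012 .nil)) .nil)) .nil)) (.cons 228 (.leaf 252 1821 (.cons 227 (.leaf 204 1629 (.cons 324 (.leaf 300 1820 (.leaf 348 2012 .nil)) .nil)) .nil)) (.cons 252 (.leaf 228 1821 (.cons 250 (.leaf 226 1815 (.cons 273 (.leaf 274 1985 (.leaf 249 1986 .nil)) .nil)) .nil)) .nil)))) (.cons 346 (.cons 251 (.leaf 322 2006 (.cons 228 (.leaf 252 1821 (.cons 347 (.leaf 370 2198 (.cons 348 (.leaf 324 2012 (.leaf 372 2204 .nil)) .nil)) .nil)) .nil)) (.cons 347 (.leaf 370 2198 (.cons 348 (.leaf 372 2204 (.cons 345 (.cons 324 (.leaf 344 2561 (.leaf 325 2569 .nil)) (.cons 320 (.leaf 321 2563 (.cons 344 (.leaf 319 2555 (.cons 368 (.leaf 367 2746 (.leaf 369 2754 .nil)) .nil)) .nil)) (.cons 320 (.leaf 321 2563 (.cons 325 (.leaf 324 2569 (.cons 349 (.leaf 326 2577 (.cons 350 (.leaf 322 2579 (.cons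 374 (.leaf 373 2768 (.leaf 375 2776 .nil)) .nil)) .nil)) .nil)) .nil)) .nil))) .nil)) .nil)) (.cons 251 (.leaf 322 2006 (.cons 228 (.leaf 252 1821 (.cons 227 (.leaf 204 1629 (.cons 226 (.leaf 202 1623 (.leaf 250 1815 .nil)) .nil)) .nil)) .nil)) (.cons 347 (.leaf 370 2198 (.cons 348 (.leaf 372 2204 (.cons 324 (.leaf 251 2012 (.cons 325 (.leaf 326 2578 (.leaf 345 2569 .nil)) .nil)) .nil)) .nil)) .nil)))) (.cons 274 (.cons 250 (.leaf 347 2007 (.cons 226 (.leaf 202 1620 (.leaf 251 1815 .nil)) .nil)) (.cons 273 (.leaf 300 2176 (.cons 251 (.leaf 252 1985 (.cons 346 (.leaf 322 2006 (.cons 347 t40 .nil)) .nil)) .nil)) (.cons 273 (.leaf 300 2176 (.cons 251 (.leaf 252 1985 (.cons 250 (.leaf 226 1815 (.leaf 271 1977 .nil)) .nil)) .nil)) (.cons 273 (.leaf 300 2176 (.cons 250 (.leaf 347 2007 (.cons 202 (.leaf 226 1620 (.cons 295 (.leaf 296 2170 (.cons 271 (.leaf 294 2162 (.cons 270 (.leaf 249 1969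 (.cons 246 (.leaf 245 1963 (.leaf 247 1971 .nil)) .nil)) .nil)) .nil)) .nil)) .nil)) .nil)) .nil)))) (.cons 274 t39 (.cons 346 t38 .nil))))))
noncomputable def t43 : T := .cons 298 (.leaf 322 1814 (.cons 203 (.leaf 274 1622 (.cons 204 (.leaf 180 1437 (.leaf 228 1629 .nil)) .nil)) .nil)) (.cons 300 (.leaf 324 1820 (.cons 274 (.leaf 273 2176 (.cons 226 (.leaf 202 1623 (.cons 228 (.leaf 204 1629 (.cons 301 (.leaf 302 2195 (.cons 229 (.cons 205 (.leaf 206 1617 (.cons 250 (.leaf 230 1810 (.leaf 249 1802 .nil)) .nil)) (.cons 253 (.leaf 254 1808 (.cons 206 (.leaf 205 1617 (.cons 230 (.leaf 207 1625 (.leaf 277 1645 .nil)) .nil)) .nil)) (.cons 205 (.leaf 206 1617 (.cons 250 (.leaf 249 1802 (.cons 253 (.leaf 254 1808 (.cons 252 (.leaf 225 1800 (.cons 277 (.leaf 278 2000 (.leaf 325 1831 .nil)) .nil)) .nil)) .nil)) .nil)) (.cons 250 (.leaf 230 1810 (.leaf 249 1802 .nil)) .nil)))) .nil)) .nil))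 .nil)) .nil)) .nil)) (.cons 298 (.leaf 322 1814 (.cons 203 (.leaf 274 1622 (.cons 300 (.leaf 324 1820 (.cons 297 (.leaf 273 2179 (.cons 296 (.leaf 271 2171 (.cons 320 (.leaf 319 2362 (.leaf 321 2370 .nil)) .nil)) .nil)) .nil)) .nil)) .nil)) (.cons 204 (.leaf 228 1629 (.cons 180 (.leaf 203 1437 (.cons 298 (.leaf 322 1814 (.cons 300 (.leaf 324 1820 (.cons 297 (.leaf 273 2179 (.cons 296 (.leaf 271 2171 (.cons 320 (.leaf 319 2362 (.leaf 321 2370 .nil)) .nil)) .nil)) .nil)) .nil)) .nil)) .nil)) .nil)))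
noncomputable def t44 : T := .cons 298 (.leaf 322 1814 (.cons 203 (.leaf 274 1622 (.cons 204 (.leaf 180 1437 (.leaf 228 1629 .nil)) .nil)) .nil)) (.cons 300 (.leaf 324 1820 (.cons 274 (.leaf 273 2176 (.cons 301 (.leaf 302 2195 (.cons 203 (.cons 179 (.leaf 250 1430 (.cons 154 (.leaf 178 1239 (.cons 155 (.leaf 130 1047 (.cons 156 (.leaf 180 1245 (.leaf 132 1053 .nil)) .nil)) .nil)) .nil)) (.cons 204 (.leaf 180 1437 (.leaf 228 1629 .nil)) (.cons 179 (.leaf 250 1430 (.cons 154 (.leaf 178 1239 (.cons 155 (.leaf 130 1047 (.cons 228 (.leaf 204 1629 (.leaf 252 1244 .nil)) .nil)) .nil)) .nil)) .nil))) .nil)) .nil)) .nil)) (.cons 298 (.leaf 322 1814 (.cons 203 (.leaf 274 1622 (.cons 300 (.leaf 324 1820 (.cons 297 (.leaf 273 2179 (.cons 296 (.leaf 271 2171 (.cons 320 (.leaf 319 2362 (.leaf 321 2370 .nil)) .nil)) .nil)) .nil)) .nil)) .nil)) (.cons 204 (.leaf 228 1629 (.cons 180 (.leaf 203 1437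 (.cons 298 (.leaf 322 1814 (.cons 300 (.leaf 324 1820 (.cons 297 (.leaf 273 2179 (.cons 296 (.leaf 271 2171 (.cons 320 (.leaf 319 2362 (.leaf 321 2370 .nil)) .nil)) .nil)) .nil)) .nil)) .nil)) .nil)) (.cons 300 (.leaf 324 1820 (.cons 204 (.leaf 228 1629 (.cons 273 (.leaf 274 2176 (.cons 298 (.leaf 322 1814 (.leaf 297 2179 .nil)) .nil)) .nil)) .nil)) .nil))))
noncomputable def t45 : T := .cons 300 (.leaf 324 1820 (.cons 274 (.leaf 273 2176 (.cons 226 (.leaf 202 1623 (.cons 228 (.leaf 204 1629 (.cons 301 (.leaf 302 2195 (.cons 229 (.cons 205 (.leaf 206 1617 (.cons 250 (.leaf 230 1810 (.leaf 249 1802 .nil)) .nil)) (.cons 253 (.leaf 254 1808 (.cons 206 (.leaf 205 1617 (.cons 230 (.leaf 207 1625 (.leaf 277 1645 .nil)) .nil)) .nil)) (.cons 205 (.leaf 206 1617 (.cons 250 (.leaf 249 1802 (.cons 253 (.leaf 254 1808 (.cons 252 (.leaf 225 1800 (.cons 277 (.leaf 278 2000 (.leaf 325 1831 .nil))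 .nil)) .nil)) .nil)) .nil)) (.cons 250 (.leaf 230 1810 (.leaf 249 1802 .nil)) .nil)))) .nil)) .nil)) .nil)) .nil)) .nil)) (.cons 300 (.leaf 324 1820 (.cons 274 (.leaf 273 2176 (.cons 301 (.leaf 302 2195 (.cons 203 (.cons 204 (.leaf 180 1437 (.leaf 228 1629 .nil)) (.cons 179 (.leaf 250 1430 (.cons 154 (.leaf 178 1239 (.cons 155 (.leaf 130 1047 (.cons 156 (.leaf 180 1245 (.leaf 132 1053 .nil)) .nil)) .nil)) .nil)) (.cons 179 (.leaf 250 1430 (.cons 154 (.leaf 178 1239 (.cons 155 (.leaf 130 1047 (.cons 228 (.leaf 204 1629 (.leaf 252 1244 .nil)) .nil)) .nil)) .nil)) .nil))) .nil)) .nil)) .nil)) (.cons 300 (.leaf 324 1820 (.cons 274 (.leaf 273 2176 (.cons 301 (.leaf 302 2195 (.cons 203 (.cons 179 (.leaf 250 1430 (.cons 154 (.leaf 178 1239 (.cons 155 (.leaf 130 1047 (.cons 156 (.leaf 180 1245 (.leaf 132 1053 .nil)) .nil)) .nil)) .nil)) (.cons 202 (.leaf 178 1431 (.leaf 226 1623 .nil)) (.cons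 226 (.leaf 202 1623 (.cons 252 (.cons 253 (.leaf 254 2002 (.cons 225 (.leaf 224 1792 (.leaf 250 1803 .nil)) .nil)) (.cons 179 (.leaf 250 1430 (.cons 155 (.leaf 228 1244 (.cons 156 (.leaf 180 1245 (.leaf 132 1053 .nil)) .nil)) .nil)) (.cons 253 (.leaf 254 2002 (.cons 225 (.leaf 224 1792 (.leaf 228 1800 .nil)) .nil)) .nil))) .nil)) .nil))) .nil)) .nil)) .nil)) (.cons 202 (.leaf 226 1623 (.cons 203 (.leaf 178 1431 (.cons 180 (.leaf 204 1437 (.cons 179 (.leaf 156 1245 (.cons 181 (.leaf 182 1426 (.cons 200 (.leaf 201 1409 (.cons 274 (.leaf 250 1430 (.cons 273 (.leaf 252 1985 (.leaf 300 2176 .nil)) .nil)) .nil)) .nil)) .nil)) .nil)) .nil)) .nil)) (.cons 202 (.leaf 226 1623 (.cons 203 (.leaf 178 1431 (.cons 204 (.leaf 180 1437 (.leaf 228 1629 .nil)) .nil)) .nil)) .nil))))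
noncomputable def t46 : T := .cons 298 (.leaf 322 1814 (.cons 203 (.leaf 274 1622 (.cons 178 (.leaf 202 1431 (.cons 204 (.leaf 180 1437 (.leaf 228 1629 .nil)) .nil)) .nil)) .nil)) (.cons 202 (.leaf 226 1623 (.cons 203 (.leaf 178 1431 (.cons 204 (.leaf 180 1437 (.leaf 228 1629 .nil)) .nil)) .nil)) (.cons 298 (.leaf 322 1814 (.cons 203 (.leaf 274 1622 (.cons 204 (.leaf 180 1437 (.leaf 228 1629 .nil)) .nil)) .nil)) (.cons 298 (.leaf 322 1814 (.cons 202 (.leaf 226 1623 (.cons 203 (.leaf 178 1431 (.leaf 274 1622 .nil)) .nil)) .nil)) (.cons 226 (.leaf 202 1623 (.cons 228 (.leaf 204 1629 (.cons 298 (.leaf 322 1814 (.cons 300 (.leaf 324 1820 (.cons 229 (.cons 250 (.leaf 230 1810 (.leaf 249 1802 .nil)) (.cons 205 (.leaf 206 1617 (.cons 254 (.leaf 253 1808 (.cons 230 (.leaf 255 1816 (.cons 157 (.leaf 181 1260 (.cons 231 (.leaf 252 1818 (.cons 302 (.leaf 278 1647 (.cons 301 (.leaf 274 2195 (.cons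 326 (.leaf 325 2384 (.leaf 327 2392 .nil)) .nil)) .nil)) .nil)) .nil)) .nil)) .nil)) .nil)) (.cons 205 (.leaf 206 1617 (.cons 250 (.leaf 249 1802 (.cons 253 (.leaf 254 1808 (.cons 225 (.leaf 252 1800 (.cons 201 (.leaf 200 1603 (.leaf 274 1615 .nil)) .nil)) .nil)) .nil)) .nil)) .nil))) .nil)) .nil)) .nil)) .nil)) .nil))))
noncomputable def t47 : T := .cons 344 (.leaf 320 1990 (.cons 345 (.leaf 368 2182 (.cons 346 (.leaf 322 1996 (.leaf 370 2188 .nil)) .nil)) .nil)) (.cons 346 (.leaf 322 1996 (.cons 345 (.leaf 370 2188 (.cons 368 (.leaf 344 2182 (.cons 369 (.leaf 296 2183 (.leaf 392 2374 .nil)) .nil)) .nil)) .nil)) (.cons 346 (.leaf 322 1996 (.cons 345 (.leaf 370 2188 (.cons 296 (.leaf 369 2183 (.cons 225 (.leaf 201 1606 (.leaf 320 1798 .nil)) .nil)) .nil)) .nil)) (.cons 345 (.cons 368 (.leaf 344 2182 (.cons 369 (.leaf 296 2183 (.leaf 392 2374 .nil)) .nil)) (.cons 296 (.leaf 369 2183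 (.cons 225 (.leaf 201 1606 (.leaf 320 1798 .nil)) .nil)) (.cons 344 (.leaf 320 1990 (.leaf 368 2182 .nil)) .nil))) (.cons 320 (.leaf 344 1990 (.cons 296 (.leaf 225 1798 (.cons 322 (.leaf 346 1996 (.cons 319 (.cons 318 (.leaf 317 2345 (.cons 342 (.leaf 341 2538 (.leaf 343 2546 .nil)) .nil)) (.cons 295 (.leaf 294 2352 (.cons 343 (.leaf 367 2173 (.leaf 342 2546 .nil)) .nil)) (.cons 294 (.leaf 295 2352 (.cons 318 (.leaf 317 2345 (.leaf 293 2347 .nil)) .nil)) .nil))) .nil)) .nil)) .nil)) .nil))))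
noncomputable def t48 : T := .cons 250 (.leaf 252 1986 (.cons 270 (.leaf 271 1969 (.cons 321 (.leaf 226 1805 (.cons 346 (.leaf 322 1996 (.cons 345 (.leaf 370 2188 (.cons 296 (.leaf 369 2183 (.cons 320 (.leaf 344 1989 (.leaf 225 1798 .nil)) .nil)) .nil)) .nil)) .nil)) .nil)) .nil)) (.cons 321 (.cons 344 (.leaf 320 1990 (.cons 345 (.leaf 368 2182 (.cons 346 (.leaf 322 1996 (.leaf 370 2188 .nil)) .nil)) .nil)) (.cons 346 (.leaf 322 1996 (.cons 345 (.leaf 370 2188 (.cons 369 (.leaf 296 2183 (.cons 368 (.leaf 344 2182 (.leaf 392 2374 .nil)) .nil)) .nil)) .nil)) (.cons 346 (.leaf 322 1996 (.cons 345 (.leaf 370 2188 (.cons 296 (.leaf 369 2183 (.cons 225 (.leaf 201 1606 (.leaf 320 1798 .nil)) .nil)) .nil)) .nil)) (.cons 320 (.leaf 344 1990 (.cons 225 (.leaf 296 1798 (.cons 200 (.leaf 224 1607 (.cons 201 (.leaf 176 1415 (.cons 202 (.leaf 178 1421 (.leaf 226 1613 .nil)) .nil)) .nil)) .nil))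 .nil)) .nil)))) (.cons 250 (.leaf 252 1986 (.cons 270 (.leaf 271 1969 (.cons 321 (.leaf 226 1805 (.cons 346 (.leaf 322 1996 (.cons 345 (.leaf 370 2188 (.cons 368 (.leaf 344 2182 (.cons 369 (.leaf 296 2183 (.leaf 392 2374 .nil)) .nil)) .nil)) .nil)) .nil)) .nil)) .nil)) (.cons 250 (.leaf 252 1986 (.cons 226 (.leaf 321 1805 (.cons 202 (.leaf 178 1428 (.leaf 225 1613 .nil)) .nil)) .nil)) (.cons 250 (.leaf 252 1986 (.cons 271 (.leaf 270 1969 (.cons 225 (.cons 296 (.leaf 201 1606 (.leaf 320 1798 .nil)) (.cons 200 (.leaf 224 1607 (.cons 201 (.leaf 176 1415 (.cons 202 (.leaf 178 1421 (.leaf 226 1613 .nil)) .nil)) .nil)) (.cons 224 (.leaf 200 1607 (.cons 223 (.leaf 226 1784 (.leaf 222 1776 .nil)) .nil)) .nil))) .nil)) .nil)) (.cons 250 (.leaf 252 1986 (.cons 271 (.leaf 270 1969 (.cons 321 t47 .nil)) .nil)) .nil)))))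
noncomputable def t49 : T := .cons 298 (.leaf 300 2179 (.cons 271 (.leaf 270 2160 (.leaf 296 2171 .nil)) .nil)) (.cons 249 t48 (.cons 298 (.leaf 300 2179 (.cons 271 (.leaf 270 2160 (.cons 249 (.cons 322 (.leaf 225 1804 (.cons 250 (.leaf 252 1986 (.cons 321 (.leaf 226 1805 (.leaf 346 1996 .nil)) .nil)) .nil)) (.cons 250 (.leaf 252 1986 (.cons 226 (.leaf 321 1805 (.cons 202 (.leaf 178 1428 (.leaf 225 1613 .nil)) .nil)) .nil)) (.cons 250 (.leaf 252 1986 (.cons 321 (.leaf 226 1805 (.cons 320 (.leaf 344 1990 (.cons 319 (.leaf 322 2361 (.leaf 318 2353 .nil)) .nil)) .nil)) .nil)) (.cons 322 (.leaf 225 1804 (.cons 346 (.leaf 370 2197 (.leaf 321 1996 .nil)) .nil)) (.cons 225 (.leaf 322 1804 (.cons 200 (.leaf 224 1607 (.cons 201 (.leaf 176 1415 (.cons 202 (.leaf 178 1421 (.leaf 226 1613 .nil)) .nil)) .nil)) .nil)) .nil))))) .nil)) .nil)) (.cons 298 (.leaf 300 2179 (.cons 249 (.cons 225 (.leaf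 322 1804 (.cons 200 (.leaf 224 1607 (.cons 201 (.leaf 296 1606 (.leaf 176 1415 .nil)) .nil)) .nil)) (.cons 250 (.leaf 252 1986 (.cons 321 (.leaf 226 1805 (.cons 320 (.leaf 344 1990 (.cons 319 (.leaf 296 2362 (.leaf 322 2361 .nil)) .nil)) .nil)) .nil)) (.cons 250 (.leaf 252 1986 (.cons 321 (.leaf 226 1805 (.cons 320 (.leaf 344 1990 (.cons 319 (.leaf 296 2362 (.leaf 318 2353 .nil)) .nil)) .nil)) .nil)) (.cons 225 (.leaf 322 1804 (.cons 200 (.leaf 224 1607 (.cons 201 (.leaf 176 1415 (.cons 202 (.leaf 178 1421 (.leaf 226 1613 .nil)) .nil)) .nil)) .nil)) .nil)))) .nil)) .nil)))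
noncomputable def t50 : T := .cons 298 (.leaf 322 1814 (.cons 203 (.leaf 274 1622 (.cons 178 (.leaf 202 1431 (.cons 204 (.leaf 180 1437 (.leaf 228 1629 .nil)) .nil)) .nil)) .nil)) (.cons 300 (.leaf 324 1820 (.cons 274 (.leaf 273 2176 (.cons 226 (.leaf 202 1623 (.cons 228 (.leaf 204 1629 (.cons 301 (.leaf 302 2195 (.cons 229 (.cons 205 (.leaf 206 1617 (.cons 250 (.leaf 230 1810 (.leaf 249 1802 .nil)) .nil)) (.cons 253 (.leaf 254 1808 (.cons 206 (.leaf 205 1617 (.cons 230 (.leaf 207 1625 (.leaf 277 1645 .nil)) .nil)) .nil)) (.cons 205 (.leaf 206 1617 (.cons 250 (.leaf 249 1802 (.cons 253 (.leaf 254 1808 (.cons 252 (.leaf 225 1800 (.cons 277 (.leaf 278 2000 (.leaf 325 1831 .nil)) .nil)) .nil)) .nil)) .nil)) (.cons 250 (.leaf 230 1810 (.leaf 249 1802 .nil)) .nil)))) .nil)) .nil)) .nil)) .nil)) .nil)) (.cons 298 (.leaf 322 1814 (.cons 203 (.leaf 274 1622 (.cons 204 (.leaf 180 1437 (.leaf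 228 1629 .nil)) .nil)) .nil)) (.cons 298 (.leaf 322 1814 (.cons 203 (.leaf 274 1622 (.cons 300 (.leaf 324 1820 (.cons 297 (.leaf 273 2179 (.cons 296 (.leaf 271 2171 (.cons 320 (.leaf 319 2362 (.leaf 321 2370 .nil)) .nil)) .nil)) .nil)) .nil)) .nil)) (.cons 202 (.leaf 226 1623 (.cons 203 (.leaf 178 1431 (.cons 204 (.leaf 180 1437 (.leaf 228 1629 .nil)) .nil)) .nil)) .nil))))
noncomputable def t51 : T := .cons 227 t50 (.cons 273 (.cons 274 (.leaf 252 1985 (.leaf 300 2176 .nil)) (.cons 297 t49 (.cons 274 (.leaf 300 2176 (.cons 271 (.leaf 250 1977 (.leaf 298 2168 .nil)) .nil)) (.cons 274 (.leaf 252 1985 (.cons 271 (.leaf 250 1977 (.leaf 298 2168 .nil)) .nil)) .nil)))) (.cons 227 (.cons 204 (.leaf 228 1629 (.cons 180 (.leaf 203 1437 (.cons 298 (.leaf 322 1814 (.cons 300 (.leaf 324 1820 (.cons 297 (.leaf 273 2179 (.cons 296 (.leaf 271 2171 (.cons 320 (.leaf 319 2362 (.leaf 321 2370 .nil))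 .nil)) .nil)) .nil)) .nil)) .nil)) .nil)) (.cons 202 (.leaf 226 1623 (.cons 203 (.leaf 178 1431 (.cons 298 (.leaf 322 1814 (.cons 300 (.leaf 324 1820 (.cons 297 (.leaf 273 2179 (.cons 296 (.leaf 271 2171 (.cons 320 (.leaf 319 2362 (.leaf 321 2370 .nil)) .nil)) .nil)) .nil)) .nil)) .nil)) .nil)) (.cons 202 (.leaf 226 1623 (.cons 203 (.leaf 178 1431 (.cons 204 (.leaf 180 1437 (.leaf 228 1629 .nil)) .nil)) .nil)) (.cons 202 (.leaf 226 1623 (.cons 204 (.leaf 228 1629 (.cons 298 (.leaf 322 1814 (.cons 300 (.leaf 324 1820 (.cons 297 (.leaf 273 2179 (.cons 296 (.leaf 271 2171 (.cons 320 (.leaf 319 2362 (.leaf 321 2370 .nil)) .nil)) .nil)) .nil)) .nil)) .nil)) .nil)) .nil)))) (.cons 227 t46 (.cons 227 t45 (.cons 227 (.cons 226 (.leaf 202 1623 (.cons 228 (.leaf 204 1629 (.cons 298 (.leaf 322 1814 (.cons 229 (.cons 250 (.leaf 230 1810 (.leaf 249 1802 .nil)) (.cons 206 (.leaf 205 1617 (.cons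 230 (.leaf 207 1625 (.cons 254 (.leaf 253 1808 (.leaf 255 1816 .nil)) .nil)) .nil)) (.cons 205 (.leaf 206 1617 (.cons 253 (.leaf 254 1808 (.cons 225 (.leaf 252 1800 (.cons 200 (.leaf 201 1603 (.cons 224 (.leaf 199 1595 (.cons 250 (.leaf 223 1784 (.leaf 249 1802 .nil)) .nil)) .nil)) .nil)) .nil)) .nil)) .nil))) .nil)) .nil)) .nil)) (.cons 202 (.leaf 226 1623 (.cons 203 (.leaf 178 1431 (.cons 204 (.leaf 180 1437 (.leaf 228 1629 .nil)) .nil)) .nil)) (.cons 298 (.leaf 322 1814 (.cons 203 (.leaf 274 1622 (.cons 204 (.leaf 180 1437 (.leaf 228 1629 .nil)) .nil)) .nil)) (.cons 298 (.leaf 322 1814 (.cons 202 (.leaf 226 1623 (.cons 203 (.leaf 178 1431 (.leaf 274 1622 .nil)) .nil)) .nil)) .nil)))) (.cons 227 t44 (.cons 227 t43 .nil)))))))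
noncomputable def t52 : T := .cons 227 (.cons 202 (.leaf 226 1623 (.cons 203 (.leaf 178 1431 (.cons 298 (.leaf 274 1622 (.leaf 322 1814 .nil)) .nil)) .nil)) (.cons 202 (.leaf 226 1623 (.cons 203 (.leaf 178 1431 (.cons 204 (.leaf 180 1437 (.leaf 228 1629 .nil)) .nil)) .nil)) (.cons 298 (.leaf 322 1814 (.cons 203 (.leaf 274 1622 (.cons 204 (.leaf 180 1437 (.leaf 228 1629 .nil)) .nil)) .nil)) (.cons 226 (.leaf 202 1623 (.cons 228 (.leaf 204 1629 (.cons 298 (.leaf 322 1814 (.cons 229 (.cons 250 (.leaf 230 1810 (.leaf 249 1802 .nil)) (.cons 206 (.leaf 205 1617 (.cons 230 (.leaf 207 1625 (.cons 254 (.leaf 253 1808 (.leaf 255 1816 .nil)) .nil)) .nil)) (.cons 205 (.leaf 206 1617 (.cons 253 (.leaf 254 1808 (.cons 225 (.leaf 252 1800 (.cons 200 (.leaf 201 1603 (.cons 224 (.leaf 199 1595 (.cons 250 (.leaf 223 1784 (.leaf 249 1802 .nil)) .nil)) .nil)) .nil)) .nil)) .nil)) .nil))) .nil)) .nil))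 .nil)) .nil)))) (.cons 323 (.cons 250 (.leaf 226 1815 (.cons 252 (.leaf 228 1821 (.cons 274 (.leaf 347 2007 (.leaf 273 1985 .nil)) .nil)) .nil)) (.cons 228 (.leaf 252 1821 (.cons 346 (.leaf 322 2006 (.cons 347 (.leaf 370 2198 (.cons 348 (.leaf 324 2012 (.leaf 372 2204 .nil)) .nil)) .nil)) .nil)) (.cons 250 (.leaf 226 1815 (.cons 347 (.leaf 274 2007 (.cons 348 (.leaf 324 2012 (.leaf 372 2204 .nil)) .nil)) .nil)) (.cons 250 (.leaf 226 1815 (.cons 252 (.leaf 228 1821 (.cons 273 (.leaf 274 1985 (.leaf 249 1986 .nil)) .nil)) .nil)) .nil)))) (.cons 323 (.cons 226 (.leaf 250 1815 (.cons 227 (.leaf 202 1623 (.cons 228 (.leaf 204 1629 (.leaf 252 1821 .nil)) .nil)) .nil)) (.cons 228 (.leaf 252 1821 (.cons 346 (.leaf 322 2006 (.cons 347 (.leaf 370 2198 (.cons 348 (.leaf 324 2012 (.leaf 372 2204 .nil)) .nil)) .nil)) .nil)) (.cons 226 (.leaf 250 1815 (.cons 227 (.leaf 202 1623 (.cons 322 (.leaf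 298 1814 (.leaf 346 2006 .nil)) .nil)) .nil)) .nil))) (.cons 323 (.cons 322 (.leaf 346 2006 (.cons 298 (.leaf 227 1814 (.cons 324 (.leaf 348 2012 (.cons 297 (.leaf 296 2368 (.leaf 325 2379 .nil)) .nil)) .nil)) .nil)) (.cons 250 (.leaf 226 1815 (.cons 347 (.leaf 274 2007 (.cons 348 (.leaf 324 2012 (.leaf 372 2204 .nil)) .nil)) .nil)) (.cons 250 (.leaf 226 1815 (.cons 274 (.leaf 347 2007 (.cons 271 (.leaf 273 1977 (.cons 322 (.leaf 346 2006 (.cons 227 (.leaf 298 1813 (.cons 203 (.leaf 179 1430 (.cons 204 (.leaf 180 1437 (.leaf 228 1629 .nil)) .nil)) .nil)) .nil)) .nil)) .nil)) .nil)) .nil))) (.cons 323 (.cons 228 (.leaf 252 1821 (.cons 227 (.leaf 204 1629 (.cons 322 (.leaf 298 1814 (.leaf 346 2006 .nil)) .nil)) .nil)) (.cons 252 (.leaf 228 1821 (.cons 274 (.leaf 273 1985 (.cons 253 (.leaf 254 2002 (.cons 348 (.leaf 324 2012 (.cons 347 (.leaf 250 2007 (.leaf 372 2204 .nil)) .nil)) .nil))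 .nil)) .nil)) (.cons 322 (.leaf 346 2006 (.cons 298 (.leaf 227 1814 (.cons 324 (.leaf 348 2012 (.cons 297 (.leaf 296 2368 (.leaf 325 2379 .nil)) .nil)) .nil)) .nil)) .nil))) (.cons 227 (.cons 202 (.leaf 226 1623 (.cons 228 (.leaf 204 1629 (.cons 322 (.leaf 298 1814 (.cons 323 (.leaf 252 1821 (.leaf 346 2006 .nil)) .nil)) .nil)) .nil)) (.cons 202 (.leaf 226 1623 (.cons 203 (.leaf 178 1431 (.cons 204 (.leaf 180 1437 (.leaf 228 1629 .nil)) .nil)) .nil)) (.cons 298 (.leaf 322 1814 (.cons 202 (.leaf 226 1623 (.cons 203 (.leaf 178 1431 (.leaf 274 1622 .nil)) .nil)) .nil)) (.cons 298 (.leaf 322 1814 (.cons 203 (.leaf 274 1622 (.cons 204 (.leaf 180 1437 (.leaf 228 1629 .nil)) .nil)) .nil)) .nil)))) (.cons 323 (.cons 226 (.leaf 250 1815 (.cons 227 (.leaf 202 1623 (.cons 228 (.leaf 204 1629 (.leaf 252 1821 .nil)) .nil)) .nil)) (.cons 252 (.leaf 228 1821 (.cons 274 (.leaf 273 1985 (.cons 253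 (.leaf 254 2002 (.cons 348 (.leaf 324 2012 (.cons 347 (.leaf 372 2204 (.cons 370 (.leaf 346 2198 (.cons 371 (.leaf 298 2199 (.leaf 394 2390 .nil)) .nil)) .nil)) .nil)) .nil)) .nil)) .nil)) (.cons 250 (.leaf 226 1815 (.cons 347 (.leaf 274 2007 (.cons 348 (.leaf 324 2012 (.leaf 372 2204 .nil)) .nil)) .nil)) .nil))) (.cons 323 (.cons 226 (.leaf 250 1815 (.cons 227 (.leaf 202 1623 (.cons 322 (.leaf 298 1814 (.leaf 346 2006 .nil)) .nil)) .nil)) (.cons 250 (.leaf 226 1815 (.cons 347 (.leaf 274 2007 (.cons 348 (.leaf 324 2012 (.leaf 372 2204 .nil)) .nil)) .nil)) (.cons 322 (.leaf 346 2006 (.cons 298 (.leaf 227 1814 (.cons 324 (.leaf 348 2012 (.cons 297 (.leaf 296 2368 (.leaf 325 2379 .nil)) .nil)) .nil)) .nil)) .nil))) .nil)))))))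
noncomputable def t53 : T := .cons 346 (.leaf 322 2006 (.cons 226 (.leaf 250 1815 (.cons 347 (.leaf 370 2198 (.cons 348 (.leaf 324 2012 (.leaf 372 2204 .nil)) .nil)) .nil)) .nil)) (.cons 250 (.leaf 226 1815 (.cons 347 (.leaf 274 2007 (.cons 348 (.leaf 324 2012 (.leaf 372 2204 .nil)) .nil)) .nil)) (.cons 346 (.leaf 322 2006 (.cons 228 (.leaf 252 1821 (.cons 347 (.leaf 370 2198 (.cons 348 (.leaf 324 2012 (.leaf 372 2204 .nil)) .nil)) .nil)) .nil)) (.cons 250 (.leaf 226 1815 (.cons 228 (.leaf 252 1821 (.cons 346 (.leaf 322 2006 (.cons 347 (.leaf 274 2007 (.leaf 370 2198 .nil)) .nil)) .nil)) .nil)) (.cons 322 (.leaf 346 2006 (.cons 324 (.leaf 348 2012 (.cons 250 (.leaf 226 1815 (.cons 252 (.leaf 228 1821 (.cons 321 (.cons 300 (.leaf 320 2369 (.leaf 301 2377 .nil)) (.cons 296 (.leaf 297 2371 (.cons 320 (.leaf 295 2363 (.cons 344 (.leaf 343 2554 (.leaf 345 2562 .nil)) .nil)) .nil)) (.cons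 296 (.leaf 297 2371 (.cons 301 (.leaf 300 2377 (.cons 325 (.leaf 302 2385 (.cons 298 (.leaf 326 2387 (.cons 345 (.leaf 344 2562 (.leaf 274 1998 .nil)) .nil)) .nil)) .nil)) .nil)) .nil))) .nil)) .nil)) .nil)) .nil)) .nil))))
noncomputable def t54 : T := .cons 298 (.leaf 322 1814 (.cons 203 (.leaf 274 1622 (.cons 178 (.leaf 202 1431 (.cons 204 (.leaf 180 1437 (.leaf 228 1629 .nil)) .nil)) .nil)) .nil)) (.cons 202 (.leaf 226 1623 (.cons 203 (.leaf 178 1431 (.cons 204 (.leaf 180 1437 (.leaf 228 1629 .nil)) .nil)) .nil)) (.cons 298 (.leaf 322 1814 (.cons 203 (.leaf 274 1622 (.cons 204 (.leaf 180 1437 (.leaf 228 1629 .nil)) .nil)) .nil)) (.cons 202 (.leaf 226 1623 (.cons 203 (.leaf 178 1431 (.cons 298 (.leaf 274 1622 (.leaf 322 1814 .nil)) .nil)) .nil)) (.cons 226 (.leaf 202 1623 (.cons 228 (.leaf 204 1629 (.cons 298 (.leaf 322 1814 (.cons 300 (.leaf 324 1820 (.cons 229 (.cons 250 (.leaf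 230 1810 (.leaf 249 1802 .nil)) (.cons 205 (.leaf 206 1617 (.cons 254 (.leaf 253 1808 (.cons 230 (.leaf 255 1816 (.cons 157 (.leaf 181 1260 (.cons 231 (.leaf 252 1818 (.cons 302 (.leaf 278 1647 (.cons 301 (.leaf 274 2195 (.cons 326 (.leaf 325 2384 (.leaf 327 2392 .nil)) .nil)) .nil)) .nil)) .nil)) .nil)) .nil)) .nil)) (.cons 205 (.leaf 206 1617 (.cons 250 (.leaf 249 1802 (.cons 253 (.leaf 254 1808 (.cons 225 (.leaf 252 1800 (.cons 201 (.leaf 200 1603 (.leaf 274 1615 .nil)) .nil)) .nil)) .nil)) .nil)) .nil))) .nil)) .nil)) .nil)) .nil)) .nil))))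
noncomputable def t55 : T := .cons 227 (.cons 298 (.leaf 322 1814 (.cons 274 (.leaf 203 1622 (.cons 202 (.leaf 226 1623 (.cons 300 (.leaf 324 1820 (.cons 301 (.leaf 302 2195 (.cons 228 (.leaf 204 1629 (.cons 277 (.leaf 278 2193 (.cons 325 (.leaf 326 2384 (.cons 252 (.leaf 323 1821 (.leaf 253 1831 .nil)) .nil)) .nil)) .nil)) .nil)) .nil)) .nil)) .nil)) .nil)) (.cons 298 (.leaf 322 1814 (.cons 203 (.leaf 274 1622 (.cons 178 (.leaf 202 1431 (.cons 204 (.leaf 180 1437 (.leaf 228 1629 .nil)) .nil)) .nil)) .nil)) (.cons 226 (.leaf 202 1623 (.cons 323 (.leaf 250 1815 (.cons 228 (.leaf 204 1629 (.leaf 252 1821 .nil)) .nil)) .nil)) (.cons 298 (.leaf 322 1814 (.cons 274 (.leaf 203 1622 (.cons 324 (.leaf 300 1820 (.cons 323 (.leaf 348 2012 (.cons 250 (.leaf 226 1812 (.leaf 347 2007 .nil)) .nil)) .nil)) .nil)) .nil)) .nil)))) (.cons 227 t54 (.cons 323 t53 (.cons 227 (.cons 202 (.leaf 226 1623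 (.cons 228 (.leaf 204 1629 (.cons 323 (.leaf 252 1821 (.cons 324 (.leaf 300 1820 (.leaf 348 2012 .nil)) .nil)) .nil)) .nil)) (.cons 228 (.leaf 204 1629 (.cons 323 (.leaf 252 1821 (.cons 324 (.leaf 300 1820 (.leaf 348 2012 .nil)) .nil)) .nil)) (.cons 226 (.leaf 202 1623 (.cons 323 (.leaf 250 1815 (.cons 324 (.leaf 300 1820 (.leaf 348 2012 .nil)) .nil)) .nil)) (.cons 226 (.leaf 202 1623 (.cons 228 (.leaf 204 1629 (.cons 250 (.leaf 323 1815 (.cons 229 (.leaf 230 1810 (.leaf 249 1802 .nil)) .nil)) .nil)) .nil)) (.cons 202 (.leaf 226 1623 (.cons 203 (.leaf 178 1431 (.cons 204 (.leaf 180 1437 (.leaf 228 1629 .nil)) .nil)) .nil)) .nil))))) (.cons 323 (.cons 228 (.leaf 252 1821 (.cons 227 (.leaf 204 1629 (.cons 324 (.leaf 300 1820 (.leaf 348 2012 .nil)) .nil)) .nil)) (.cons 228 (.leaf 252 1821 (.cons 227 (.leaf 204 1629 (.cons 322 (.leaf 298 1814 (.leaf 346 2006 .nil)) .nil)) .nil)) (.cons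 322 (.leaf 346 2006 (.cons 227 (.leaf 298 1814 (.cons 324 (.leaf 300 1820 (.leaf 348 2012 .nil)) .nil)) .nil)) (.cons 346 (.leaf 322 2006 (.cons 228 (.leaf 252 1821 (.cons 347 (.leaf 370 2198 (.cons 348 (.leaf 324 2012 (.leaf 372 2204 .nil)) .nil)) .nil)) .nil)) .nil)))) (.cons 227 (.cons 204 (.leaf 228 1629 (.cons 203 (.leaf 180 1437 (.cons 178 (.leaf 202 1431 (.cons 179 (.leaf 154 1239 (.cons 274 (.leaf 298 1622 (.leaf 250 1430 .nil)) .nil)) .nil)) .nil)) .nil)) (.cons 202 (.leaf 226 1623 (.cons 203 (.leaf 178 1431 (.cons 298 (.leaf 274 1622 (.leaf 322 1814 .nil)) .nil)) .nil)) (.cons 226 (.leaf 202 1623 (.cons 228 (.leaf 204 1629 (.cons 250 (.leaf 323 1815 (.cons 229 (.leaf 230 1810 (.leaf 249 1802 .nil)) .nil)) .nil)) .nil)) (.cons 204 (.leaf 228 1629 (.cons 203 (.leaf 180 1437 (.cons 274 (.leaf 298 1622 (.cons 250 (.leaf 179 1430 (.cons 323 (.leaf 226 1815 (.leaf 347 2007 .nil))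 .nil)) .nil)) .nil)) .nil)) .nil)))) (.cons 323 (.cons 226 (.leaf 250 1815 (.cons 227 (.leaf 202 1623 (.cons 324 (.leaf 300 1820 (.leaf 348 2012 .nil)) .nil)) .nil)) (.cons 226 (.leaf 250 1815 (.cons 227 (.leaf 202 1623 (.cons 322 (.leaf 298 1814 (.leaf 346 2006 .nil)) .nil)) .nil)) (.cons 322 (.leaf 346 2006 (.cons 227 (.leaf 298 1814 (.cons 324 (.leaf 300 1820 (.leaf 348 2012 .nil)) .nil)) .nil)) (.cons 226 (.leaf 250 1815 (.cons 346 (.leaf 322 2006 (.cons 347 (.leaf 370 2198 (.cons 348 (.leaf 324 2012 (.leaf 372 2204 .nil)) .nil)) .nil)) .nil)) .nil)))) .nil))))))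
noncomputable def t56 : T := .cons 296 (.cons 295 (.leaf 273 2170 (.leaf 297 2169 .nil)) (.cons 273 (.leaf 295 2170 (.leaf 271 2168 .nil)) (.cons 297 (.leaf 295 2169 (.leaf 271 2171 .nil)) (.cons 271 (.leaf 273 2168 (.leaf 297 2171 .nil)) .nil)))) (.cons 250 (.cons 226 (.leaf 202 1620 (.leaf 323 1812 .nil)) (.cons 322 (.cons 323 (.leaf 347 2004 (.cons 225 (.leaf 249 1807 (.cons 321 (.leaf 345 1998 (.cons 320 (.leaf 319 2361 (.cons 296 (.leaf 295 2363 (.cons 297 (.leaf 271 2171 (.leaf 324 2368 .nil)) .nil)) .nil)) .nil)) .nil)) .nil)) (.cons 225 (.leaf 249 1807 (.cons 345 (.leaf 321 1998 (.cons 346 (.leaf 370 2197 (.leaf 369 2190 .nil)) .nil)) .nil)) (.cons 347 (.leaf 323 2004 (.cons 346 (.leaf 370 2197 (.leaf 371 2196 .nil)) .nil)) .nil))) (.cons 226 (.leaf 202 1620 (.cons 203 (.leaf 227 1621 (.cons 297 (.leaf 321 1806 (.cons 296 (.leaf 295 2169 (.leaf 271 2171 .nil)) .nil)) .nil))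 .nil)) .nil))) (.cons 250 (.cons 226 (.leaf 202 1620 (.leaf 323 1812 .nil)) (.cons 322 (.cons 323 (.leaf 347 2004 (.cons 321 (.leaf 345 1998 (.cons 346 (.leaf 370 2197 (.cons 249 (.leaf 225 1807 (.leaf 273 1999 .nil)) .nil)) .nil)) .nil)) (.cons 225 (.leaf 249 1807 (.cons 345 (.leaf 321 1998 (.cons 346 (.leaf 370 2197 (.leaf 369 2190 .nil)) .nil)) .nil)) (.cons 323 (.leaf 347 2004 (.cons 321 (.leaf 345 1998 (.cons 320 (.leaf 319 2361 (.cons 296 (.leaf 295 2363 (.cons 297 (.leaf 324 2368 (.cons 344 (.leaf 343 2554 (.cons 368 (.leaf 392 2373 (.leaf 273 2181 .nil)) .nil)) .nil)) .nil)) .nil)) .nil)) .nil)) (.cons 347 (.leaf 323 2004 (.cons 346 (.leaf 370 2197 (.leaf 371 2196 .nil)) .nil)) .nil)))) (.cons 226 (.leaf 202 1620 (.cons 203 (.leaf 227 1621 (.cons 225 (.leaf 201 1615 (.cons 322 (.leaf 249 1807 (.cons 345 (.leaf 321 1998 (.cons 346 (.leaf 370 2197 (.leaf 369 2190 .nil)) .nil))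 .nil)) .nil)) .nil)) .nil)) .nil))) (.cons 273 (.leaf 271 2168 (.cons 250 (.cons 323 (.leaf 347 2007 (.leaf 226 1812 .nil)) (.cons 323 (.leaf 347 2007 (.cons 322 (.cons 249 (.leaf 225 1807 (.leaf 346 1999 .nil)) (.cons 249 (.leaf 225 1807 (.cons 321 (.leaf 345 1998 (.cons 320 (.leaf 319 2361 (.cons 344 (.leaf 297 1990 (.leaf 343 2554 .nil)) .nil)) .nil)) .nil)) (.cons 345 (.leaf 321 1998 (.cons 346 (.leaf 370 2197 (.leaf 369 2190 .nil)) .nil)) .nil))) .nil)) (.cons 226 (.leaf 202 1620 (.cons 201 (.leaf 225 1615 (.cons 321 (.leaf 297 1806 (.cons 203 (.leaf 227 1621 (.cons 322 (.leaf 345 1998 (.cons 346 (.leaf 370 2197 (.leaf 249 1999 .nil)) .nil)) .nil)) .nil)) .nil)) .nil)) .nil))) .nil)) (.cons 273 (.leaf 271 2168 (.cons 296 (.leaf 295 2170 (.cons 250 (.cons 226 (.leaf 202 1620 (.leaf 323 1812 .nil)) (.cons 323 (.leaf 347 2007 (.cons 322 (.cons 249 (.leaf 225 1807 (.leaf 346 1999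 .nil)) (.cons 345 (.leaf 321 1998 (.cons 346 (.leaf 370 2197 (.leaf 369 2190 .nil)) .nil)) (.cons 249 (.leaf 225 1807 (.cons 320 (.leaf 344 1989 (.cons 321 (.leaf 319 2361 (.leaf 345 1998 .nil)) .nil)) .nil)) .nil))) .nil)) (.cons 226 (.leaf 202 1620 (.cons 203 (.leaf 227 1621 (.cons 225 (.leaf 201 1615 (.cons 322 (.leaf 249 1807 (.cons 345 (.leaf 321 1998 (.cons 346 (.leaf 370 2197 (.leaf 369 2190 .nil)) .nil)) .nil)) .nil)) .nil)) .nil)) .nil))) .nil)) .nil)) .nil))))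
noncomputable def t57 : T := .cons 322 (.cons 323 (.leaf 347 2004 (.leaf 226 1812 .nil)) (.cons 225 (.leaf 249 1807 (.cons 226 (.leaf 202 1620 (.leaf 201 1615 .nil)) .nil)) (.cons 323 (.leaf 347 2004 (.cons 225 (.leaf 249 1807 (.cons 321 (.leaf 345 1998 (.cons 300 (.leaf 273 2176 (.leaf 301 2378 .nil)) .nil)) .nil)) .nil)) .nil))) (.cons 322 (.cons 323 (.leaf 347 2004 (.leaf 226 1812 .nil)) (.cons 225 (.leaf 249 1807 (.cons 226 (.leaf 202 1620 (.leaf 201 1615 .nil)) .nil)) (.cons 323 (.leaf 347 2004 (.cons 225 (.leaf 249 1807 (.cons 321 (.leaf 345 1998 (.cons 300 (.leaf 301 2378 (.leaf 320 2369 .nil)) .nil)) .nil)) .nil)) .nil))) (.cons 226 (.leaf 202 1620 (.cons 203 (.leaf 227 1621 (.cons 225 (.leaf 201 1615 (.cons 322 (.leaf 249 1807 (.cons 345 (.leaf 321 1998 (.cons 273 (.leaf 300 2176 (.leaf 271 2168 .nil)) .nil)) .nil)) .nil)) .nil)) .nil)) (.cons 322 (.cons 323 (.leaf 347 2004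 (.cons 225 (.leaf 249 1807 (.cons 321 (.leaf 345 1998 (.cons 300 (.leaf 273 2176 (.leaf 301 2378 .nil)) .nil)) .nil)) .nil)) (.cons 323 (.leaf 347 2004 (.cons 225 (.leaf 249 1807 (.cons 321 (.leaf 345 1998 (.cons 300 (.leaf 301 2378 (.leaf 320 2369 .nil)) .nil)) .nil)) .nil)) (.cons 225 (.leaf 249 1807 (.cons 345 (.leaf 321 1998 (.cons 273 (.leaf 300 2176 (.leaf 271 2168 .nil)) .nil)) .nil)) (.cons 225 (.leaf 249 1807 (.cons 345 (.leaf 321 1998 (.cons 347 (.leaf 323 2004 (.cons 346 (.leaf 370 2197 (.leaf 369 2190 .nil)) .nil)) .nil)) .nil)) (.cons 347 (.leaf 323 2004 (.cons 346 (.leaf 370 2197 (.leaf 371 2196 .nil)) .nil)) .nil))))) (.cons 226 (.leaf 202 1620 (.leaf 323 1812 .nil)) .nil))))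
noncomputable def t58 : T := .cons 250 t57 (.cons 250 (.cons 322 (.cons 323 (.leaf 347 2004 (.leaf 226 1812 .nil)) (.cons 225 (.leaf 249 1807 (.cons 226 (.leaf 202 1620 (.leaf 201 1615 .nil)) .nil)) (.cons 323 (.leaf 347 2004 (.cons 225 (.leaf 249 1807 (.cons 321 (.leaf 345 1998 (.cons 300 (.leaf 301 2378 (.leaf 320 2369 .nil)) .nil)) .nil)) .nil)) .nil))) (.cons 226 (.leaf 202 1620 (.cons 203 (.leaf 227 1621 (.cons 225 (.leaf 201 1615 (.cons 322 (.leaf 249 1807 (.cons 345 (.leaf 321 1998 (.cons 346 (.leaf 370 2197 (.leaf 369 2190 .nil)) .nil)) .nil)) .nil)) .nil)) .nil)) (.cons 322 (.cons 323 (.leaf 347 2004 (.cons 225 (.leaf 249 1807 (.cons 321 (.leaf 345 1998 (.cons 300 (.leaf 301 2378 (.leaf 320 2369 .nil)) .nil)) .nil)) .nil)) (.cons 225 (.leaf 249 1807 (.cons 345 (.leaf 321 1998 (.cons 346 (.leaf 370 2197 (.leaf 369 2190 .nil)) .nil)) .nil)) (.cons 347 (.leaf 323 2004 (.cons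 346 (.leaf 370 2197 (.leaf 371 2196 .nil)) .nil)) .nil))) (.cons 226 (.leaf 202 1620 (.leaf 323 1812 .nil)) .nil)))) (.cons 273 (.leaf 271 2168 (.cons 296 (.leaf 295 2170 (.cons 250 (.cons 226 (.leaf 202 1620 (.leaf 323 1812 .nil)) (.cons 323 (.leaf 347 2007 (.cons 322 (.cons 249 (.leaf 225 1807 (.leaf 346 1999 .nil)) (.cons 345 (.leaf 321 1998 (.cons 346 (.leaf 370 2197 (.leaf 369 2190 .nil)) .nil)) (.cons 249 (.leaf 225 1807 (.cons 320 (.leaf 344 1989 (.cons 321 (.leaf 319 2361 (.leaf 345 1998 .nil)) .nil)) .nil)) .nil))) .nil)) (.cons 226 (.leaf 202 1620 (.cons 203 (.leaf 227 1621 (.cons 225 (.leaf 201 1615 (.cons 322 (.leaf 249 1807 (.cons 345 (.leaf 321 1998 (.cons 346 (.leaf 370 2197 (.leaf 369 2190 .nil)) .nil)) .nil)) .nil)) .nil)) .nil)) .nil))) .nil)) .nil)) (.cons 273 (.leaf 300 2176 (.leaf 271 2168 .nil)) .nil)))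
noncomputable def t59 : T := .cons 324 (.leaf 325 2376 (.cons 321 (.leaf 320 2370 (.cons 348 (.leaf 372 2207 (.cons 322 (.leaf 301 2378 (.cons 346 (.leaf 370 2197 (.cons 349 (.leaf 323 2568 (.leaf 347 2571 .nil)) .nil)) .nil)) .nil)) .nil)) .nil)) (.cons 325 (.leaf 324 2376 (.cons 301 (.leaf 326 2384 (.cons 278 (.leaf 277 2193 (.cons 302 (.leaf 274 2195 (.leaf 279 2201 .nil)) .nil)) .nil)) .nil)) (.cons 321 (.leaf 320 2370 (.cons 301 (.leaf 322 2378 (.cons 277 (.leaf 278 2193 (.cons 302 (.leaf 274 2195 (.cons 326 (.leaf 325 2384 (.leaf 327 2392 .nil)) .nil)) .nil)) .nil)) .nil)) (.cons 321 (.leaf 320 2370 (.cons 301 (.leaf 322 2378 (.cons 278 (.leaf 277 2193 (.cons 302 (.leaf 274 2195 (.leaf 279 2201 .nil)) .nil)) .nil)) .nil)) (.cons 324 (.leaf 325 2376 (.cons 321 (.leaf 320 2370 (.cons 348 (.leaf 372 2207 (.cons 322 (.cons 346 (.leaf 370 2197 (.cons 349 (.leaf 323 2568 (.leaf 347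 2571 .nil)) .nil)) (.cons 323 (.leaf 349 2568 (.cons 345 (.leaf 344 2562 (.cons 274 (.leaf 250 1998 (.leaf 369 2189 .nil)) .nil)) .nil)) (.cons 346 (.leaf 370 2197 (.cons 347 (.leaf 349 2571 (.cons 274 (.leaf 371 2196 (.cons 345 (.leaf 250 1998 (.leaf 369 2189 .nil)) .nil)) .nil)) .nil)) (.cons 346 (.leaf 370 2197 (.cons 274 (.cons 345 (.leaf 250 1998 (.leaf 369 2189 .nil)) (.cons 250 (.leaf 226 1806 (.cons 347 (.leaf 323 2004 (.leaf 371 2196 .nil)) .nil)) (.cons 345 (.leaf 369 2189 (.cons 344 (.leaf 323 2562 (.cons 343 (.leaf 342 2545 (.cons 318 (.leaf 319 2547 (.cons 347 (.leaf 371 2196 (.cons 367 (.leaf 366 2738 (.leaf 368 2746 .nil)) .nil)) .nil)) .nil)) .nil)) .nil)) .nil))) .nil)) .nil)))) .nil)) .nil)) .nil)) .nil))))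
noncomputable def t60 : T := .cons 274 (.leaf 273 2176 (.cons 301 (.leaf 302 2195 (.cons 277 (.leaf 278 2193 (.cons 322 (.leaf 321 2378 (.cons 346 (.leaf 370 2197 (.cons 345 (.leaf 369 2190 (.cons 325 (.leaf 326 2384 (.cons 323 (.leaf 324 2570 (.cons 347 (.leaf 250 2004 (.leaf 371 2196 .nil)) .nil)) .nil)) .nil)) .nil)) .nil)) .nil)) .nil)) .nil)) (.cons 301 (.cons 274 (.leaf 302 2195 (.cons 277 (.leaf 278 2193 (.cons 322 (.leaf 321 2378 (.cons 346 (.leaf 370 2197 (.cons 345 (.leaf 369 2190 (.cons 325 (.leaf 326 2384 (.cons 323 (.leaf 324 2570 (.cons 347 (.leaf 250 2004 (.leaf 371 2196 .nil)) .nil)) .nil)) .nil)) .nil)) .nil)) .nil)) .nil)) (.cons 325 (.leaf 326 2384 (.cons 277 (.leaf 278 2193 (.cons 297 (.leaf 324 2376 (.cons 321 (.leaf 320 2370 (.leaf 322 2378 .nil)) .nil)) .nil)) .nil)) (.cons 325 (.leaf 326 2384 (.cons 277 (.leaf 278 2193 (.cons 324 (.leaf 297 2376 (.cons 348 (.leaf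 372 2213 (.leaf 253 2022 .nil)) .nil)) .nil)) .nil)) (.cons 274 (.leaf 302 2195 (.cons 277 (.leaf 278 2193 (.cons 322 (.leaf 321 2378 (.cons 346 (.leaf 370 2197 (.cons 345 (.leaf 369 2190 (.cons 347 (.leaf 371 2196 (.cons 250 (.leaf 323 2004 (.cons 225 (.leaf 249 1807 (.cons 226 (.leaf 202 1620 (.leaf 201 1615 .nil)) .nil)) .nil)) .nil)) .nil)) .nil)) .nil)) .nil)) .nil)) (.cons 322 (.leaf 321 2378 (.cons 302 (.leaf 274 2195 (.leaf 323 2386 .nil)) .nil)) .nil))))) (.cons 297 (.leaf 273 2179 (.cons 324 (.leaf 325 2376 (.cons 321 (.leaf 320 2370 (.cons 301 (.leaf 322 2378 (.cons 278 (.leaf 277 2193 (.cons 302 (.leaf 279 2201 (.cons 303 (.leaf 323 2394 (.cons 327 (.leaf 326 2392 (.leaf 328 2400 .nil)) .nil)) .nil)) .nil)) .nil)) .nil)) .nil)) .nil)) (.cons 273 (.leaf 274 2176 (.leaf 297 2179 .nil)) .nil)))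
noncomputable def t61 : T := .cons 300 t60 (.cons 297 (.cons 296 (.leaf 271 2171 (.cons 319 (.leaf 320 2362 (.cons 295 (.leaf 318 2354 (.cons 323 (.leaf 324 2368 (.leaf 322 2360 .nil)) .nil)) .nil)) .nil)) (.cons 300 (.leaf 273 2179 (.cons 324 (.leaf 325 2376 (.cons 321 (.leaf 320 2370 (.cons 301 (.leaf 322 2378 (.cons 278 (.leaf 277 2193 (.cons 302 (.leaf 279 2201 (.cons 303 (.leaf 323 2394 (.cons 327 (.leaf 326 2392 (.leaf 328 2400 .nil)) .nil)) .nil)) .nil)) .nil)) .nil)) .nil)) .nil)) (.cons 271 (.leaf 296 2171 (.cons 273 (.leaf 270 2160 (.leaf 300 2179 .nil)) .nil)) .nil))) (.cons 297 (.cons 296 (.leaf 271 2171 (.cons 274 (.leaf 295 2169 (.cons 323 (.leaf 324 2368 (.cons 250 (.leaf 347 2007 (.leaf 226 1812 .nil)) .nil)) .nil)) .nil)) (.cons 300 t59 (.cons 296 (.leaf 271 2171 (.cons 274 (.leaf 295 2169 (.cons 320 (.leaf 319 2362 (.cons 321 (.leaf 300 2370 (.cons 345 (.leaf 369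 2189 (.cons 250 (.leaf 226 1806 (.leaf 322 1998 .nil)) .nil)) .nil)) .nil)) .nil)) .nil)) (.cons 296 (.leaf 271 2171 (.cons 319 (.leaf 320 2362 (.cons 295 (.leaf 318 2354 (.cons 323 (.leaf 324 2368 (.leaf 322 2360 .nil)) .nil)) .nil)) .nil)) .nil)))) (.cons 274 t58 (.cons 274 t56 (.cons 273 (.cons 300 (.leaf 274 2176 (.leaf 297 2179 .nil)) (.cons 297 (.leaf 300 2179 (.cons 271 (.leaf 270 2160 (.leaf 296 2171 .nil)) .nil)) (.cons 271 (.leaf 274 2168 (.cons 297 (.leaf 270 2160 (.leaf 296 2171 .nil)) .nil)) (.cons 274 (.leaf 300 2176 (.leaf 271 2168 .nil)) .nil)))) .nil)))))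
noncomputable def t62 : T := .cons 324 (.leaf 348 2012 (.cons 325 (.leaf 298 2387 (.cons 302 (.leaf 303 2393 (.leaf 349 2030 .nil)) .nil)) .nil)) (.cons 302 (.cons 231 (.leaf 255 1845 (.cons 349 (.leaf 325 2030 (.cons 207 (.leaf 230 1653 (.cons 350 (.leaf 373 2222 (.cons 351 (.leaf 327 2036 (.leaf 375 2228 .nil)) .nil)) .nil)) .nil)) .nil)) (.cons 231 (.leaf 255 1845 (.cons 230 (.leaf 207 1653 (.cons 325 (.leaf 301 1838 (.leaf 349 2030 .nil)) .nil)) .nil)) (.cons 325 (.leaf 349 2030 (.cons 230 (.leaf 301 1838 (.cons 327 (.leaf 303 1844 (.leaf 351 2036 .nil)) .nil)) .nil)) (.cons 231 (.leaf 255 1845 (.cons 230 (.leaf 207 1653 (.cons 327 (.leaf 303 1844 (.leaf 351 2036 .nil)) .nil)) .nil)) (.cons 231 (.leaf 255 1845 (.cons 349 (.leaf 325 2030 (.cons 350 (.leaf 373 2222 (.cons 351 (.leaf 327 2036 (.leaf 375 2228 .nil)) .nil)) .nil)) .nil)) .nil))))) (.cons 324 (.leaf 348 2012 (.cons 325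 (.leaf 298 2387 (.cons 327 (.leaf 300 2395 (.cons 351 (.leaf 350 2584 (.leaf 352 2592 .nil)) .nil)) .nil)) .nil)) (.cons 302 (.cons 255 (.leaf 231 1845 (.cons 350 (.leaf 279 2037 (.cons 373 (.leaf 349 2222 (.cons 351 (.leaf 327 2036 (.leaf 375 2228 .nil)) .nil)) .nil)) .nil)) (.cons 255 (.leaf 231 1845 (.cons 350 (.leaf 279 2037 (.cons 373 (.leaf 349 2222 (.cons 374 (.leaf 397 2414 (.cons 375 (.leaf 351 2228 (.leaf 399 2420 .nil)) .nil)) .nil)) .nil)) .nil)) (.cons 327 (.leaf 351 2036 (.cons 230 (.leaf 303 1844 (.cons 205 (.leaf 229 1647 (.cons 206 (.leaf 181 1455 (.cons 207 (.leaf 183 1461 (.leaf 231 1653 .nil)) .nil)) .nil)) .nil)) .nil)) (.cons 231 (.leaf 255 1845 (.cons 230 (.leaf 207 1653 (.cons 205 (.leaf 229 1647 (.cons 206 (.leaf 181 1455 (.cons 303 (.leaf 279 1652 (.leaf 327 1844 .nil)) .nil)) .nil)) .nil)) .nil)) (.cons 348 (.leaf 324 2012 (.cons 351 (.leaf 327 2036 (.cons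 350 (.leaf 375 2228 (.cons 349 (.leaf 373 2222 (.cons 372 (.leaf 347 2204 (.leaf 371 2778 .nil)) .nil)) .nil)) .nil)) .nil)) .nil))))) .nil)))
noncomputable def t63 : T := .cons 253 (.leaf 279 2008 (.cons 230 (.leaf 229 1809 (.leaf 231 1817 .nil)) .nil)) (.cons 326 t62 (.cons 348 (.leaf 324 2012 (.cons 347 (.leaf 372 2204 (.cons 230 (.cons 231 (.leaf 253 1817 (.cons 207 (.leaf 302 1653 (.cons 183 (.leaf 206 1461 (.leaf 255 1462 .nil)) .nil)) .nil)) (.cons 302 (.cons 205 (.leaf 229 1647 (.cons 206 (.leaf 181 1455 (.cons 207 (.leaf 183 1461 (.leaf 231 1653 .nil)) .nil)) .nil)) (.cons 301 (.leaf 325 1838 (.cons 327 (.leaf 303 1844 (.cons 326 (.leaf 300 2392 (.leaf 351 2036 .nil)) .nil)) .nil)) .nil)) (.cons 229 (.leaf 253 1809 (.cons 205 (.leaf 302 1647 (.cons 181 (.leaf 206 1455 (.leaf 157 1260 .nil)) .nil)) .nil)) (.cons 253 (.leaf 229 1809 (.leaf 231 1817 .nil)) .nil)))) .nil)) .nil))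 (.cons 253 (.leaf 279 2008 (.cons 326 (.cons 302 (.leaf 229 1839 (.cons 231 (.leaf 255 1845 (.cons 324 (.leaf 348 2012 (.cons 325 (.leaf 298 2387 (.leaf 303 2393 .nil)) .nil)) .nil)) .nil)) (.cons 324 (.leaf 348 2012 (.cons 325 (.leaf 298 2387 (.cons 327 (.leaf 300 2395 (.cons 351 (.leaf 350 2584 (.leaf 352 2592 .nil)) .nil)) .nil)) .nil)) (.cons 302 (.leaf 229 1839 (.cons 231 (.leaf 255 1845 (.cons 349 (.leaf 325 2030 (.cons 350 (.leaf 373 2222 (.cons 351 (.leaf 327 2036 (.leaf 375 2228 .nil)) .nil)) .nil)) .nil)) .nil)) (.cons 302 (.leaf 229 1839 (.cons 350 (.cons 351 (.leaf 327 2036 (.leaf 375 2228 .nil)) (.cons 348 (.leaf 324 2012 (.cons 347 (.leaf 372 2204 (.cons 349 (.leaf 373 2222 (.leaf 327 2585 .nil)) .nil)) .nil)) (.cons 373 (.leaf 349 2222 (.cons 374 (.leaf 397 2414 (.cons 375 (.leaf 351 2228 (.leaf 399 2420 .nil)) .nil)) .nil)) .nil))) .nil)) .nil)))) .nil)) (.cons 253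 (.leaf 279 2008 (.cons 229 (.leaf 230 1809 (.cons 324 (.leaf 348 2012 (.cons 326 (.leaf 302 1839 (.cons 325 (.leaf 298 2387 (.cons 327 (.leaf 300 2395 (.cons 351 (.leaf 350 2584 (.leaf 352 2592 .nil)) .nil)) .nil)) .nil)) .nil)) .nil)) .nil)) (.cons 253 (.leaf 279 2008 (.cons 326 (.cons 231 (.leaf 230 1817 (.cons 255 (.leaf 232 1825 (.leaf 302 1845 .nil)) .nil)) (.cons 324 (.leaf 348 2012 (.cons 325 (.leaf 298 2387 (.cons 327 (.leaf 300 2395 (.cons 351 (.leaf 350 2584 (.leaf 302 2036 .nil)) .nil)) .nil)) .nil)) (.cons 324 (.leaf 348 2012 (.cons 325 (.leaf 298 2387 (.cons 327 (.leaf 300 2395 (.cons 351 (.leaf 350 2584 (.leaf 352 2592 .nil)) .nil)) .nil)) .nil)) .nil))) .nil)) .nil)))))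
noncomputable def t64 : T := .cons 348 (.leaf 324 2012 (.leaf 372 2204 .nil)) (.cons 370 (.leaf 346 2198 (.cons 371 (.leaf 394 2390 (.cons 300 (.cons 298 (.leaf 297 2179 (.cons 277 (.leaf 301 2193 (.cons 395 (.leaf 324 2397 (.cons 396 (.leaf 372 2396 (.leaf 420 2588 .nil)) .nil)) .nil)) .nil)) (.cons 395 (.leaf 324 2397 (.cons 396 (.leaf 372 2396 (.leaf 420 2588 .nil)) .nil)) (.cons 298 (.leaf 297 2179 (.cons 301 (.leaf 277 2193 (.cons 302 (.leaf 279 2201 (.cons 324 (.leaf 303 2394 (.leaf 395 2397 .nil)) .nil)) .nil)) .nil)) (.cons 298 (.leaf 297 2179 (.cons 301 (.leaf 277 2193 (.cons 302 (.leaf 279 2201 (.cons 326 (.leaf 325 2384 (.leaf 327 2392 .nil)) .nil)) .nil)) .nil)) .nil)))) .nil)) .nil)) (.cons 370 (.leaf 346 2198 (.cons 324 (.leaf 348 2012 (.cons 371 (.leaf 394 2390 (.cons 300 (.leaf 395 2397 (.cons 298 (.leaf 297 2179 (.cons 301 (.leaf 277 2193 (.cons 302 (.leaf 279 2201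 (.leaf 303 2394 .nil)) .nil)) .nil)) .nil)) .nil)) .nil)) .nil)) (.cons 370 (.leaf 346 2198 (.cons 371 (.leaf 394 2390 (.cons 372 (.leaf 348 2204 (.leaf 396 2396 .nil)) .nil)) .nil)) .nil)))
noncomputable def t65 : T := .cons 273 (.leaf 249 1986 (.cons 347 (.cons 348 (.leaf 324 2012 (.leaf 372 2204 .nil)) (.cons 370 (.leaf 346 2198 (.cons 253 (.leaf 277 2000 (.cons 230 (.leaf 229 1809 (.cons 254 (.leaf 231 1817 (.leaf 279 2008 .nil)) .nil)) .nil)) .nil)) .nil)) .nil)) (.cons 273 (.leaf 249 1986 (.cons 347 t64 .nil)) (.cons 253 (.leaf 277 2000 (.cons 230 (.leaf 229 1809 (.cons 254 (.leaf 231 1817 (.leaf 279 2008 .nil)) .nil)) .nil)) (.cons 249 (.leaf 273 1986 (.cons 225 (.leaf 224 1795 (.cons 254 t63 .nil)) .nil)) (.cons 273 (.leaf 249 1986 (.cons 347 (.cons 370 (.leaf 346 2198 (.cons 371 (.leaf 394 2390 (.cons 372 (.leaf 348 2204 (.leaf 396 2396 .nil)) .nil)) .nil)) (.cons 370 (.leaf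 346 2198 (.cons 371 (.leaf 394 2390 (.cons 396 (.leaf 372 2396 (.cons 395 (.leaf 420 2588 (.cons 277 (.leaf 253 2000 (.cons 300 (.leaf 324 2397 (.cons 298 (.leaf 297 2179 (.leaf 301 2193 .nil)) .nil)) .nil)) .nil)) .nil)) .nil)) .nil)) (.cons 370 (.leaf 346 2198 (.cons 277 (.leaf 253 2000 (.cons 324 (.leaf 348 2012 (.cons 371 (.leaf 394 2390 (.cons 300 (.leaf 395 2397 (.cons 298 (.leaf 297 2179 (.leaf 301 2193 .nil)) .nil)) .nil)) .nil)) .nil)) .nil)) (.cons 348 (.leaf 324 2012 (.leaf 372 2204 .nil)) .nil)))) .nil)) .nil))))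
noncomputable def t66 : T := .cons 278 (.leaf 277 2000 (.cons 254 (.leaf 279 2008 (.cons 302 (.leaf 301 2386 (.cons 326 (.leaf 229 1839 (.cons 231 (.leaf 230 1817 (.leaf 255 1845 .nil)) .nil)) .nil)) .nil)) .nil)) (.cons 298 (.leaf 297 2179 (.cons 230 (.leaf 229 1809 (.cons 301 (.leaf 302 2386 (.cons 254 (.leaf 231 1817 (.cons 325 (.leaf 326 2384 (.leaf 277 1837 .nil)) .nil)) .nil)) .nil)) .nil)) (.cons 298 (.leaf 297 2179 (.cons 230 (.leaf 229 1809 (.cons 254 (.leaf 231 1817 (.cons 278 (.leaf 277 2000 (.leaf 279 2008 .nil)) .nil)) .nil)) .nil)) (.cons 278 (.leaf 277 2000 (.cons 254 (.leaf 279 2008 (.cons 302 (.leaf 301 2386 (.cons 326 (.leaf 229 1839 (.cons 231 (.leaf 255 1845 (.cons 298 (.leaf 297 2179 (.cons 325 (.leaf 324 2387 (.leaf 349 2030 .nil)) .nil)) .nil)) .nil)) .nil)) .nil)) .nil)) (.cons 230 (.leaf 229 1809 (.cons 254 (.leaf 231 1817 (.cons 278 (.leaf 279 2008 (.cons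 302 (.leaf 301 2386 (.cons 327 (.leaf 303 1844 (.cons 326 (.leaf 351 2036 (.cons 325 (.leaf 324 2395 (.leaf 349 2030 .nil)) .nil)) .nil)) .nil)) .nil)) .nil)) .nil)) (.cons 298 (.leaf 297 2179 (.cons 278 (.leaf 277 2000 (.cons 254 (.leaf 279 2008 (.cons 231 (.leaf 230 1817 (.cons 255 (.leaf 232 1825 (.cons 302 (.leaf 301 2386 (.leaf 326 1845 .nil)) .nil)) .nil)) .nil)) .nil)) .nil)) (.cons 298 (.leaf 297 2179 (.cons 229 (.leaf 230 1809 (.cons 277 (.leaf 278 2000 (.cons 301 (.leaf 302 2386 (.leaf 324 1830 .nil)) .nil)) .nil)) .nil)) .nil))))))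
noncomputable def t67 : T := .cons 279 (.leaf 278 2008 (.cons 255 (.leaf 280 2016 (.cons 326 (.cons 224 (.leaf 225 1795 (.cons 325 (.leaf 298 2387 (.cons 303 (.leaf 302 2393 (.cons 327 (.leaf 300 2395 (.leaf 304 2401 .nil)) .nil)) .nil)) .nil)) (.cons 231 (.leaf 230 1817 (.leaf 232 1825 .nil)) .nil)) .nil)) .nil)) (.cons 279 (.leaf 278 2008 (.cons 255 (.leaf 280 2016 (.cons 326 (.cons 224 (.leaf 225 1795 (.cons 325 (.leaf 298 2387 (.cons 303 (.leaf 302 2393 (.cons 327 (.leaf 300 2395 (.leaf 304 2401 .nil)) .nil)) .nil)) .nil)) (.cons 231 (.leaf 232 1825 (.cons 303 (.leaf 302 1846 (.cons 327 (.leaf 350 2038 (.cons 328 (.leaf 304 1852 (.leaf 352 2044 .nil)) .nil)) .nil)) .nil)) (.cons 224 (.leaf 225 1795 (.cons 325 (.leaf 298 2387 (.cons 327 (.leaf 300 2395 (.cons 351 (.leaf 350 2584 (.leaf 352 2592 .nil)) .nil)) .nil)) .nil)) (.cons 325 (.leaf 298 2387 (.cons 302 (.leaf 303 2393 (.cons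 322 (.leaf 301 2385 (.cons 350 (.leaf 349 2576 (.leaf 351 2584 .nil)) .nil)) .nil)) .nil)) .nil)))) .nil)) .nil)) (.cons 278 (.leaf 279 2008 (.cons 224 (.leaf 225 1795 (.cons 229 (.leaf 230 1809 (.cons 326 (.leaf 302 1839 (.cons 325 (.leaf 298 2387 (.cons 327 (.leaf 300 2395 (.cons 351 (.leaf 350 2584 (.leaf 352 2592 .nil)) .nil)) .nil)) .nil)) .nil)) .nil)) .nil)) (.cons 230 (.leaf 229 1809 (.leaf 231 1817 .nil)) .nil)))
noncomputable def t68 : T := .cons 224 (.leaf 225 1795 (.cons 302 (.leaf 229 1839 (.cons 231 (.leaf 255 1845 (.cons 349 (.leaf 325 2030 (.cons 350 (.leaf 373 2222 (.cons 351 (.leaf 327 2036 (.leaf 375 2228 .nil)) .nil)) .nil)) .nil)) .nil)) .nil)) (.cons 324 (.leaf 348 2012 (.cons 225 (.leaf 224 1795 (.cons 325 (.leaf 298 2387 (.cons 327 (.leaf 300 2395 (.cons 351 (.leaf 350 2584 (.leaf 352 2592 .nil)) .nil)) .nil)) .nil)) .nil)) (.cons 302 (.leaf 229 1839 (.cons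 348 (.leaf 324 2012 (.cons 347 (.leaf 372 2204 (.cons 351 (.leaf 327 2036 (.cons 350 (.leaf 375 2228 (.cons 349 (.leaf 322 2579 (.leaf 325 2030 .nil)) .nil)) .nil)) .nil)) .nil)) .nil)) (.cons 302 (.leaf 229 1839 (.cons 348 (.leaf 324 2012 (.cons 347 (.leaf 372 2204 (.cons 351 (.leaf 327 2036 (.cons 350 (.leaf 375 2228 (.cons 349 (.leaf 322 2579 (.leaf 373 2222 .nil)) .nil)) .nil)) .nil)) .nil)) .nil)) (.cons 224 (.leaf 225 1795 (.cons 302 (.leaf 229 1839 (.cons 231 (.leaf 255 1845 (.cons 324 (.leaf 348 2012 (.cons 325 (.leaf 298 2387 (.leaf 303 2393 .nil)) .nil)) .nil)) .nil)) .nil)) .nil))))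
noncomputable def t69 : T := .cons 324 (.leaf 348 2012 (.cons 254 (.cons 230 (.leaf 229 1809 (.leaf 231 1817 .nil)) (.cons 279 (.leaf 278 2008 (.cons 255 (.leaf 280 2016 (.cons 326 (.cons 325 (.leaf 298 2387 (.cons 302 (.leaf 303 2393 (.cons 322 (.leaf 301 2385 (.cons 350 (.leaf 349 2576 (.leaf 351 2584 .nil)) .nil)) .nil)) .nil)) (.cons 231 (.leaf 232 1825 (.cons 303 (.leaf 302 1846 (.cons 327 (.leaf 350 2038 (.cons 328 (.leaf 304 1852 (.leaf 352 2044 .nil)) .nil)) .nil)) .nil)) (.cons 224 (.leaf 225 1795 (.cons 325 (.leaf 298 2387 (.cons 327 (.leaf 300 2395 (.cons 351 (.leaf 350 2584 (.leaf 352 2592 .nil)) .nil)) .nil)) .nil)) (.cons 224 (.leaf 225 1795 (.cons 325 (.leaf 298 2387 (.cons 303 (.leaf 302 2393 (.cons 327 (.leaf 300 2395 (.leaf 304 2401 .nil)) .nil)) .nil)) .nil)) .nil)))) .nil)) .nil)) (.cons 278 (.leaf 277 2000 (.leaf 279 2008 .nil)) .nil))) .nil)) (.cons 278 (.leaf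 277 2000 (.cons 224 (.leaf 225 1795 (.cons 230 (.leaf 229 1809 (.cons 254 (.leaf 231 1817 (.leaf 279 2008 .nil)) .nil)) .nil)) .nil)) (.cons 230 (.leaf 229 1809 (.cons 254 (.leaf 231 1817 (.cons 324 (.leaf 348 2012 (.cons 325 (.cons 301 (.leaf 277 1837 (.cons 224 (.leaf 225 1795 (.cons 322 (.leaf 302 2385 (.cons 297 (.leaf 298 2379 (.cons 321 (.leaf 296 2371 (.leaf 300 2377 .nil)) .nil)) .nil)) .nil)) .nil)) (.cons 301 (.leaf 277 1837 (.cons 224 (.leaf 225 1795 (.cons 302 (.leaf 322 2385 (.cons 303 (.leaf 300 2394 (.leaf 326 2393 .nil)) .nil)) .nil)) .nil)) (.cons 326 (.leaf 298 2387 (.cons 224 (.leaf 225 1795 (.cons 302 (.leaf 303 2393 (.cons 327 (.leaf 300 2395 (.cons 351 (.leaf 350 2584 (.leaf 352 2592 .nil)) .nil)) .nil)) .nil)) .nil)) (.cons 277 (.leaf 301 1837 (.cons 298 (.leaf 326 2387 (.cons 297 (.leaf 296 2368 (.leaf 300 2376 .nil)) .nil)) .nil)) (.cons 224 (.leaf 225 1795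 (.cons 326 (.leaf 298 2387 (.cons 301 (.leaf 277 1837 (.cons 302 (.leaf 322 2385 (.leaf 303 2393 .nil)) .nil)) .nil)) .nil)) .nil))))) .nil)) .nil)) .nil)) (.cons 278 (.leaf 277 2000 (.cons 254 (.leaf 279 2008 (.cons 326 t68 .nil)) .nil)) (.cons 324 (.leaf 348 2012 (.cons 254 t67 .nil)) (.cons 278 (.leaf 277 2000 (.cons 254 (.leaf 279 2008 (.cons 231 (.leaf 230 1817 (.cons 255 (.leaf 232 1825 (.cons 324 (.leaf 348 2012 (.cons 326 (.leaf 302 1845 (.cons 325 (.leaf 298 2387 (.cons 327 (.leaf 300 2395 (.cons 351 (.leaf 350 2584 (.leaf 352 2592 .nil)) .nil)) .nil)) .nil)) .nil)) .nil)) .nil)) .nil)) .nil)) (.cons 324 (.leaf 348 2012 (.cons 225 (.leaf 224 1795 (.cons 229 (.leaf 230 1809 (.cons 277 (.leaf 278 2000 (.cons 301 (.leaf 300 1830 (.cons 326 (.leaf 302 1836 (.cons 325 (.leaf 298 2387 (.leaf 350 2028 .nil)) .nil)) .nil)) .nil)) .nil)) .nil)) .nil)) .nil))))))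
noncomputable def t70 : T := .cons 322 (.leaf 346 2006 (.cons 252 (.leaf 228 1821 (.cons 250 (.leaf 226 1815 (.cons 273 (.leaf 249 1986 (.cons 300 (.cons 297 (.leaf 298 2179 (.cons 321 (.leaf 320 2369 (.cons 324 (.leaf 348 2012 (.leaf 296 2371 .nil)) .nil)) .nil)) (.cons 298 (.leaf 297 2179 (.cons 301 (.leaf 321 2378 (.leaf 302 2386 .nil)) .nil)) (.cons 348 (.leaf 324 2012 (.cons 298 (.leaf 297 2179 (.cons 301 (.leaf 302 2386 (.cons 277 (.leaf 278 2193 (.cons 325 (.leaf 326 2384 (.cons 372 (.leaf 347 2204 (.leaf 349 2214 .nil)) .nil)) .nil)) .nil)) .nil)) .nil)) (.cons 324 (.leaf 348 2012 (.cons 301 (.leaf 302 2386 (.leaf 321 2377 .nil)) .nil)) .nil)))) .nil)) .nil)) .nil)) .nil)) (.cons 252 (.leaf 228 1821 (.cons 250 (.leaf 226 1815 (.cons 249 (.leaf 273 1986 (.cons 253 t69 .nil)) .nil)) .nil)) (.cons 322 (.leaf 346 2006 (.cons 252 (.leaf 228 1821 (.cons 250 (.leaf 226 1815 (.cons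 273 (.leaf 249 1986 (.cons 300 (.cons 298 (.leaf 297 2179 (.cons 301 (.leaf 321 2378 (.leaf 302 2386 .nil)) .nil)) (.cons 321 (.leaf 320 2369 (.cons 301 (.leaf 302 2386 (.leaf 324 2377 .nil)) .nil)) (.cons 253 t66 (.cons 297 (.leaf 298 2179 (.cons 321 (.leaf 320 2369 (.cons 345 (.cons 296 (.leaf 369 2183 (.leaf 324 2371 .nil)) (.cons 344 (.leaf 324 2562 (.leaf 368 2182 .nil)) (.cons 368 (.leaf 344 2182 (.cons 369 (.leaf 296 2183 (.leaf 392 2374 .nil)) .nil)) .nil))) .nil)) .nil)) .nil)))) .nil)) .nil)) .nil)) .nil)) (.cons 252 (.leaf 228 1821 (.cons 250 (.leaf 226 1815 (.cons 278 t65 .nil)) .nil)) (.cons 252 (.leaf 228 1821 (.cons 250 (.leaf 226 1815 (.cons 273 (.leaf 249 1986 (.cons 347 (.cons 346 (.leaf 322 2006 (.leaf 370 2198 .nil)) (.cons 372 (.leaf 348 2204 (.cons 371 (.leaf 396 2396 (.cons 394 (.leaf 370 2390 (.cons 395 (.leaf 418 2582 (.cons 298 (.leaf 322 2391 (.cons 297 (.leaf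 300 2179 (.cons 271 (.leaf 270 2160 (.leaf 296 2171 .nil)) .nil)) .nil)) .nil)) .nil)) .nil)) .nil)) (.cons 372 (.leaf 348 2204 (.cons 322 (.leaf 346 2006 (.cons 371 (.leaf 396 2396 (.cons 298 (.leaf 395 2391 (.cons 297 (.leaf 300 2179 (.cons 296 (.leaf 271 2171 (.leaf 295 2360 .nil)) .nil)) .nil)) .nil)) .nil)) .nil)) (.cons 370 (.leaf 346 2198 (.cons 371 (.leaf 394 2390 (.cons 372 (.leaf 348 2204 (.leaf 396 2396 .nil)) .nil)) .nil)) .nil)))) .nil)) .nil)) .nil)) (.cons 346 (.leaf 322 2006 (.cons 226 (.leaf 250 1815 (.cons 347 (.leaf 370 2198 (.cons 348 (.leaf 324 2012 (.leaf 372 2204 .nil)) .nil)) .nil)) .nil)) (.cons 346 (.leaf 322 2006 (.cons 228 (.leaf 252 1821 (.cons 347 (.leaf 370 2198 (.cons 348 (.leaf 324 2012 (.leaf 372 2204 .nil)) .nil)) .nil)) .nil)) .nil))))))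
noncomputable def t71 : T := .cons 323 (.cons 226 (.leaf 250 1815 (.cons 346 (.leaf 322 2006 (.cons 347 (.leaf 370 2198 (.cons 348 (.leaf 324 2012 (.leaf 372 2204 .nil)) .nil)) .nil)) .nil)) (.cons 226 (.leaf 250 1815 (.cons 227 (.leaf 202 1623 (.cons 228 (.leaf 204 1629 (.leaf 252 1821 .nil)) .nil)) .nil)) (.cons 322 (.leaf 346 2006 (.cons 227 (.leaf 298 1814 (.cons 228 (.leaf 204 1629 (.leaf 252 1821 .nil)) .nil)) .nil)) .nil))) (.cons 227 (.cons 204 (.leaf 228 1629 (.cons 180 (.leaf 203 1437 (.cons 298 (.leaf 322 1814 (.cons 300 (.leaf 324 1820 (.cons 297 (.leaf 273 2179 (.cons 296 (.leaf 271 2171 (.cons 320 (.leaf 319 2362 (.leaf 321 2370 .nil)) .nil)) .nil)) .nil)) .nil)) .nil)) .nil)) (.cons 202 (.leaf 226 1623 (.cons 178 (.leaf 203 1431 (.cons 298 (.leaf 322 1814 (.cons 300 (.leaf 324 1820 (.cons 297 (.leaf 273 2179 (.cons 296 (.leaf 271 2171 (.cons 320 (.leaf 319 2362 (.leaf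 321 2370 .nil)) .nil)) .nil)) .nil)) .nil)) .nil)) .nil)) (.cons 202 (.leaf 226 1623 (.cons 203 (.leaf 178 1431 (.cons 204 (.leaf 180 1437 (.leaf 228 1629 .nil)) .nil)) .nil)) (.cons 202 (.leaf 226 1623 (.cons 204 (.leaf 228 1629 (.cons 298 (.leaf 322 1814 (.cons 300 (.leaf 324 1820 (.cons 297 (.leaf 273 2179 (.cons 296 (.leaf 271 2171 (.cons 320 (.leaf 319 2362 (.leaf 321 2370 .nil)) .nil)) .nil)) .nil)) .nil)) .nil)) .nil)) .nil)))) (.cons 323 t70 (.cons 227 (.cons 228 (.leaf 204 1629 (.cons 323 (.leaf 252 1821 (.cons 324 (.leaf 300 1820 (.leaf 348 2012 .nil)) .nil)) .nil)) (.cons 226 (.leaf 202 1623 (.cons 323 (.leaf 250 1815 (.cons 324 (.leaf 300 1820 (.leaf 348 2012 .nil)) .nil)) .nil)) (.cons 226 (.leaf 202 1623 (.cons 228 (.leaf 204 1629 (.cons 250 (.leaf 323 1815 (.cons 229 (.leaf 230 1810 (.leaf 249 1802 .nil)) .nil)) .nil)) .nil)) (.cons 202 (.leaf 226 1623 (.cons 203 (.leaf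 178 1431 (.cons 204 (.leaf 180 1437 (.leaf 228 1629 .nil)) .nil)) .nil)) .nil)))) (.cons 227 (.cons 226 (.leaf 202 1623 (.cons 322 (.leaf 298 1814 (.cons 323 (.leaf 250 1815 (.leaf 346 2006 .nil)) .nil)) .nil)) (.cons 228 (.leaf 204 1629 (.cons 322 (.leaf 298 1814 (.cons 323 (.leaf 252 1821 (.leaf 346 2006 .nil)) .nil)) .nil)) (.cons 202 (.leaf 226 1623 (.cons 203 (.leaf 178 1431 (.cons 204 (.leaf 180 1437 (.leaf 228 1629 .nil)) .nil)) .nil)) .nil))) (.cons 323 (.cons 228 (.leaf 252 1821 (.cons 227 (.leaf 204 1629 (.cons 324 (.leaf 300 1820 (.leaf 348 2012 .nil)) .nil)) .nil)) (.cons 228 (.leaf 252 1821 (.cons 227 (.leaf 204 1629 (.cons 322 (.leaf 298 1814 (.leaf 346 2006 .nil)) .nil)) .nil)) (.cons 322 (.leaf 346 2006 (.cons 227 (.leaf 298 1814 (.cons 324 (.leaf 300 1820 (.leaf 348 2012 .nil)) .nil)) .nil)) (.cons 346 (.leaf 322 2006 (.cons 228 (.leaf 252 1821 (.cons 347 (.leaf 370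 2198 (.cons 348 (.leaf 324 2012 (.leaf 372 2204 .nil)) .nil)) .nil)) .nil)) .nil)))) (.cons 323 (.cons 226 (.leaf 250 1815 (.cons 227 (.leaf 202 1623 (.cons 324 (.leaf 300 1820 (.leaf 348 2012 .nil)) .nil)) .nil)) (.cons 226 (.leaf 250 1815 (.cons 227 (.leaf 202 1623 (.cons 322 (.leaf 298 1814 (.leaf 346 2006 .nil)) .nil)) .nil)) (.cons 322 (.leaf 346 2006 (.cons 227 (.leaf 298 1814 (.cons 324 (.leaf 300 1820 (.leaf 348 2012 .nil)) .nil)) .nil)) (.cons 226 (.leaf 250 1815 (.cons 346 (.leaf 322 2006 (.cons 347 (.leaf 370 2198 (.cons 348 (.leaf 324 2012 (.leaf 372 2204 .nil)) .nil)) .nil)) .nil)) .nil)))) .nil))))))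
noncomputable def t72 : T := .cons 251 (.leaf 227 1814 (.cons 323 (.leaf 346 2006 (.cons 228 (.leaf 252 1821 (.cons 250 (.leaf 226 1815 (.cons 274 (.leaf 347 2004 (.cons 225 (.leaf 249 1807 (.cons 321 (.leaf 345 1998 (.cons 300 (.leaf 273 2176 (.leaf 301 2378 .nil)) .nil)) .nil)) .nil)) .nil)) .nil)) .nil)) .nil)) (.cons 346 (.leaf 370 2197 (.cons 274 (.cons 347 (.leaf 371 2196 (.cons 250 (.leaf 323 2004 (.cons 249 (.leaf 225 1807 (.leaf 273 1999 .nil)) .nil)) .nil)) (.cons 347 (.leaf 371 2196 (.cons 250 (.leaf 323 2004 (.cons 345 (.leaf 321 1998 (.leaf 369 2190 .nil)) .nil)) .nil)) (.cons 273 (.leaf 300 2176 (.leaf 271 2168 .nil)) .nil))) .nil)) (.cons 251 (.leaf 227 1814 (.cons 323 (.cons 228 (.leaf 252 1821 (.cons 250 (.leaf 226 1815 (.cons 274 (.leaf 347 2004 (.cons 225 (.leaf 249 1807 (.cons 321 (.leaf 345 1998 (.cons 300 (.leaf 273 2176 (.leaf 301 2378 .nil)) .nil)) .nil)) .nil))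 .nil)) .nil)) (.cons 226 (.leaf 250 1815 (.cons 324 (.leaf 348 2012 (.cons 325 (.leaf 326 2387 (.cons 301 (.leaf 302 2385 (.cons 321 (.leaf 300 2377 (.cons 320 (.leaf 319 2361 (.cons 344 (.leaf 343 2554 (.leaf 345 2562 .nil)) .nil)) .nil)) .nil)) .nil)) .nil)) .nil)) (.cons 228 (.leaf 252 1821 (.cons 324 (.leaf 348 2012 (.cons 325 (.leaf 326 2387 (.cons 301 (.leaf 302 2385 (.cons 321 (.leaf 300 2377 (.cons 320 (.leaf 319 2361 (.cons 344 (.leaf 343 2554 (.leaf 345 2562 .nil)) .nil)) .nil)) .nil)) .nil)) .nil)) .nil)) (.cons 250 (.leaf 226 1815 (.cons 274 (.leaf 347 2004 (.cons 273 (.leaf 252 1985 (.leaf 271 2168 .nil)) .nil)) .nil)) .nil)))) .nil)) (.cons 251 (.leaf 227 1814 (.cons 346 (.leaf 323 2006 (.leaf 370 2197 .nil)) .nil)) (.cons 251 (.leaf 227 1814 (.cons 346 (.leaf 274 2005 (.leaf 370 2197 .nil)) .nil)) .nil))))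
noncomputable def t73 : T := .cons 346 (.leaf 370 2197 (.cons 251 (.leaf 227 1814 (.leaf 274 2005 .nil)) .nil)) (.cons 251 (.leaf 227 1814 (.cons 323 (.cons 228 (.leaf 252 1821 (.cons 324 (.leaf 348 2012 (.cons 297 (.leaf 296 2368 (.leaf 325 2379 .nil)) .nil)) .nil)) (.cons 228 (.leaf 252 1821 (.cons 250 (.leaf 226 1815 (.cons 274 (.leaf 347 2004 (.cons 271 (.leaf 273 2168 (.cons 225 (.leaf 249 1807 (.cons 296 (.leaf 297 2171 (.cons 321 (.leaf 345 1998 (.cons 320 (.leaf 319 2361 (.leaf 295 2363 .nil)) .nil)) .nil)) .nil)) .nil)) .nil)) .nil)) .nil)) (.cons 324 (.leaf 348 2012 (.cons 297 (.leaf 296 2368 (.leaf 325 2379 .nil)) .nil)) (.cons 226 (.leaf 250 1815 (.cons 228 (.leaf 252 1821 (.cons 348 (.leaf 324 2012 (.cons 347 (.leaf 372 2204 (.cons 371 (.leaf 274 2199 (.leaf 395 2391 .nil)) .nil)) .nil)) .nil)) .nil)) .nil)))) .nil)) (.cons 346 (.leaf 370 2197 (.cons 274 (.cons 347 (.leaf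 371 2196 (.cons 250 (.leaf 323 2004 (.cons 249 (.leaf 225 1807 (.leaf 273 1999 .nil)) .nil)) .nil)) (.cons 347 (.leaf 371 2196 (.cons 250 (.leaf 323 2004 (.cons 345 (.leaf 321 1998 (.leaf 369 2190 .nil)) .nil)) .nil)) (.cons 273 (.leaf 271 2168 (.leaf 249 1999 .nil)) .nil))) .nil)) (.cons 346 (.leaf 370 2197 (.cons 251 (.leaf 227 1814 (.leaf 323 2006 .nil)) .nil)) .nil)))
noncomputable def t74 : T := .cons 322 (.leaf 227 1814 (.cons 346 (.leaf 274 2005 (.leaf 323 2006 .nil)) .nil)) (.cons 323 (.cons 226 (.leaf 250 1815 (.cons 322 (.leaf 346 2006 (.cons 324 (.leaf 348 2012 (.cons 297 (.leaf 296 2368 (.leaf 325 2379 .nil)) .nil)) .nil)) .nil)) (.cons 324 (.leaf 348 2012 (.cons 226 (.leaf 250 1815 (.cons 228 (.leaf 252 1821 (.cons 297 (.leaf 296 2368 (.cons 325 (.leaf 300 2376 (.leaf 326 2387 .nil)) .nil)) .nil)) .nil)) .nil)) (.cons 228 (.leaf 252 1821 (.cons 250 (.leaf 226 1815 (.cons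 274 (.leaf 347 2007 (.cons 322 (.leaf 346 2005 (.cons 225 (.leaf 249 1807 (.cons 321 (.leaf 345 1998 (.cons 300 (.leaf 301 2378 (.leaf 320 2369 .nil)) .nil)) .nil)) .nil)) .nil)) .nil)) .nil)) (.cons 322 (.leaf 346 2006 (.cons 228 (.leaf 252 1821 (.cons 324 (.leaf 348 2012 (.cons 297 (.leaf 296 2368 (.leaf 325 2379 .nil)) .nil)) .nil)) .nil)) .nil)))) (.cons 227 (.cons 202 (.leaf 226 1623 (.cons 203 (.leaf 178 1431 (.leaf 274 1622 .nil)) .nil)) (.cons 202 (.leaf 226 1623 (.cons 228 (.leaf 204 1629 (.cons 323 (.leaf 252 1821 (.cons 348 (.leaf 324 2012 (.cons 347 (.leaf 372 2204 (.cons 370 (.leaf 346 2198 (.cons 371 (.leaf 274 2199 (.leaf 394 2390 .nil)) .nil)) .nil)) .nil)) .nil)) .nil)) .nil)) (.cons 203 (.leaf 274 1622 (.cons 178 (.leaf 202 1431 (.cons 204 (.leaf 180 1437 (.leaf 228 1629 .nil)) .nil)) .nil)) (.cons 203 (.leaf 274 1622 (.cons 204 (.leaf 180 1437 (.leaf 228 1629 .nil))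 .nil)) (.cons 226 (.leaf 202 1623 (.cons 204 (.leaf 228 1629 (.cons 180 (.leaf 203 1437 (.cons 323 (.leaf 250 1815 (.cons 324 (.leaf 300 1820 (.leaf 348 2012 .nil)) .nil)) .nil)) .nil)) .nil)) .nil))))) (.cons 227 (.leaf 322 1814 (.cons 203 (.leaf 274 1622 (.cons 178 (.leaf 202 1431 (.cons 204 (.leaf 180 1437 (.leaf 228 1629 .nil)) .nil)) .nil)) .nil)) (.cons 227 (.leaf 322 1814 (.cons 226 (.leaf 202 1623 (.cons 204 (.leaf 228 1629 (.cons 180 (.leaf 203 1437 (.cons 323 (.leaf 250 1815 (.cons 324 (.leaf 300 1820 (.leaf 348 2012 .nil)) .nil)) .nil)) .nil)) .nil)) .nil)) .nil))))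
noncomputable def t75 : T := .cons 297 (.cons 296 (.leaf 271 2171 (.cons 295 (.leaf 274 2169 (.cons 319 (.leaf 320 2362 (.leaf 318 2354 .nil)) .nil)) .nil)) (.cons 300 (.leaf 273 2179 (.cons 321 (.leaf 320 2370 (.cons 301 (.leaf 322 2378 (.cons 325 (.leaf 324 2376 (.leaf 326 2384 .nil)) .nil)) .nil)) .nil)) (.cons 271 (.leaf 296 2171 (.cons 273 (.leaf 270 2160 (.leaf 274 2168 .nil)) .nil)) .nil))) (.cons 297 (.cons 296 (.leaf 271 2171 (.cons 319 (.leaf 320 2362 (.cons 295 (.leaf 318 2354 (.cons 323 (.leaf 324 2368 (.leaf 322 2360 .nil)) .nil)) .nil)) .nil)) (.cons 300 (.leaf 273 2179 (.cons 324 (.leaf 325 2376 (.cons 321 (.leaf 320 2370 (.cons 301 (.leaf 322 2378 (.cons 278 (.leaf 277 2193 (.cons 302 (.leaf 279 2201 (.cons 303 (.leaf 323 2394 (.cons 327 (.leaf 326 2392 (.leaf 328 2400 .nil)) .nil)) .nil)) .nil)) .nil)) .nil)) .nil)) .nil)) (.cons 271 (.leaf 296 2171 (.cons 273 (.leaf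 270 2160 (.leaf 300 2179 .nil)) .nil)) .nil))) (.cons 251 t74 (.cons 322 t73 (.cons 322 t72 (.cons 273 (.cons 271 (.leaf 274 2168 (.cons 297 (.leaf 270 2160 (.leaf 296 2171 .nil)) .nil)) (.cons 297 (.leaf 300 2179 (.cons 271 (.leaf 270 2160 (.leaf 296 2171 .nil)) .nil)) (.cons 274 (.leaf 300 2176 (.leaf 271 2168 .nil)) (.cons 300 (.leaf 274 2176 (.leaf 297 2179 .nil)) .nil)))) .nil)))))
noncomputable def t76 : T := .cons 202 (.leaf 226 1623 (.cons 228 (.leaf 204 1629 (.cons 252 (.leaf 323 1821 (.cons 253 (.leaf 254 2002 (.cons 298 (.leaf 322 1814 (.cons 300 (.leaf 324 1820 (.cons 301 (.leaf 302 2195 (.cons 277 (.leaf 278 2193 (.leaf 325 1831 .nil)) .nil)) .nil)) .nil)) .nil)) .nil)) .nil)) .nil)) (.cons 204 (.leaf 228 1629 (.cons 298 (.leaf 322 1814 (.cons 324 (.leaf 300 1820 (.cons 323 (.leaf 348 2012 (.cons 347 (.leaf 250 2007 (.leaf 371 2199 .nil)) .nil)) .nil)) .nil)) .nil)) (.cons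 202 (.leaf 226 1623 (.cons 298 (.leaf 322 1814 (.cons 324 (.leaf 300 1820 (.cons 323 (.leaf 348 2012 (.cons 347 (.leaf 250 2007 (.leaf 371 2199 .nil)) .nil)) .nil)) .nil)) .nil)) (.cons 226 (.leaf 202 1623 (.cons 204 (.leaf 228 1629 (.cons 323 (.leaf 250 1815 (.cons 324 (.leaf 300 1820 (.leaf 348 2012 .nil)) .nil)) .nil)) .nil)) (.cons 202 (.leaf 226 1623 (.cons 228 (.leaf 204 1629 (.cons 298 (.leaf 322 1814 (.cons 323 (.leaf 252 1821 (.cons 347 (.leaf 250 2007 (.leaf 371 2199 .nil)) .nil)) .nil)) .nil)) .nil)) (.cons 226 (.leaf 202 1623 (.cons 228 (.leaf 204 1629 (.cons 298 (.leaf 322 1814 (.cons 300 (.leaf 324 1820 (.cons 301 (.leaf 302 2195 (.cons 277 (.leaf 278 2193 (.cons 325 (.leaf 326 2384 (.cons 253 (.leaf 252 1831 (.cons 254 (.leaf 229 1808 (.leaf 230 1837 .nil)) .nil)) .nil)) .nil)) .nil)) .nil)) .nil)) .nil)) .nil)) .nil)))))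
noncomputable def t77 : T := .cons 203 (.leaf 298 1622 (.cons 178 (.leaf 202 1431 (.cons 204 (.leaf 180 1437 (.cons 299 (.leaf 228 1629 (.cons 324 (.leaf 300 1820 (.cons 323 (.leaf 348 2012 (.cons 250 (.leaf 226 1815 (.leaf 347 2007 .nil)) .nil)) .nil)) .nil)) .nil)) .nil)) .nil)) (.cons 299 t76 (.cons 299 (.cons 202 (.leaf 226 1623 (.cons 203 (.leaf 178 1431 (.cons 204 (.leaf 180 1437 (.leaf 228 1629 .nil)) .nil)) .nil)) (.cons 228 (.leaf 204 1629 (.cons 252 (.leaf 323 1821 (.cons 253 (.leaf 254 2002 (.cons 300 (.leaf 324 1820 (.cons 301 (.leaf 302 2195 (.cons 277 (.leaf 325 1831 (.cons 250 (.leaf 278 2000 (.cons 229 (.leaf 230 1809 (.leaf 249 1801 .nil)) .nil)) .nil)) .nil)) .nil)) .nil)) .nil)) .nil)) (.cons 202 (.leaf 226 1623 (.cons 203 (.leaf 178 1431 (.cons 250 (.leaf 179 1430 (.cons 323 (.leaf 347 2007 (.cons 324 (.leaf 300 1820 (.leaf 348 2012 .nil)) .nil)) .nil)) .nil)) .nil))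 .nil))) (.cons 203 (.leaf 298 1622 (.cons 178 (.leaf 202 1431 (.cons 179 (.leaf 154 1239 (.leaf 250 1430 .nil)) .nil)) .nil)) (.cons 203 (.leaf 298 1622 (.cons 178 (.leaf 202 1431 (.cons 179 (.leaf 154 1239 (.cons 180 (.leaf 204 1437 (.leaf 156 1245 .nil)) .nil)) .nil)) .nil)) (.cons 203 (.leaf 298 1622 (.cons 179 (.leaf 250 1430 (.cons 180 (.leaf 204 1437 (.leaf 156 1245 .nil)) .nil)) .nil)) .nil)))))
noncomputable def t78 : T := .cons 273 (.leaf 252 1985 (.cons 247 (.leaf 248 1979 (.cons 271 (.leaf 246 1971 (.leaf 250 1977 .nil)) .nil)) .nil)) (.cons 227 t77 (.cons 273 (.cons 271 (.leaf 250 1977 (.cons 299 (.leaf 300 2176 (.leaf 298 2168 .nil)) .nil)) (.cons 299 (.leaf 300 2176 (.cons 248 (.leaf 247 1979 (.cons 227 (.cons 298 (.leaf 203 1622 (.leaf 322 1814 .nil)) (.cons 204 (.leaf 228 1629 (.cons 203 (.leaf 180 1437 (.cons 178 (.leaf 202 1431 (.cons 179 (.leaf 154 1239 (.leaf 250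 1430 .nil)) .nil)) .nil)) .nil)) (.cons 226 (.leaf 202 1623 (.cons 204 (.leaf 228 1629 (.cons 250 (.leaf 323 1815 (.cons 298 (.leaf 322 1813 (.cons 297 (.leaf 321 1806 (.cons 224 (.leaf 200 1604 (.cons 223 (.leaf 225 1784 (.leaf 249 1787 .nil)) .nil)) .nil)) .nil)) .nil)) .nil)) .nil)) .nil))) .nil)) .nil)) (.cons 247 (.leaf 248 1979 (.cons 271 (.leaf 246 1971 (.leaf 250 1977 .nil)) .nil)) (.cons 299 (.leaf 300 2176 (.cons 247 (.leaf 248 1979 (.cons 271 (.leaf 246 1971 (.leaf 298 2168 .nil)) .nil)) .nil)) .nil)))) (.cons 273 (.leaf 252 1985 (.cons 299 (.leaf 300 2176 (.cons 247 (.leaf 248 1979 (.cons 271 (.leaf 246 1971 (.leaf 298 2168 .nil)) .nil)) .nil)) .nil)) .nil)))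
noncomputable def t79 : T := .cons 299 (.cons 298 (.leaf 203 1622 (.leaf 322 1814 .nil)) (.cons 202 (.leaf 226 1623 (.cons 203 (.leaf 178 1431 (.cons 204 (.leaf 180 1437 (.leaf 228 1629 .nil)) .nil)) .nil)) (.cons 322 (.leaf 298 1814 (.cons 323 (.leaf 346 2006 (.cons 228 (.leaf 204 1629 (.leaf 252 1821 .nil)) .nil)) .nil)) .nil))) (.cons 299 (.cons 202 (.leaf 226 1623 (.cons 204 (.leaf 228 1629 (.cons 322 (.leaf 298 1814 (.cons 323 (.leaf 346 2006 (.cons 347 (.leaf 250 2007 (.cons 348 (.leaf 324 2012 (.leaf 372 2204 .nil)) .nil)) .nil)) .nil)) .nil)) .nil)) (.cons 322 (.leaf 298 1814 (.cons 323 (.leaf 346 2006 (.cons 228 (.leaf 204 1629 (.leaf 252 1821 .nil)) .nil)) .nil)) (.cons 226 (.leaf 202 1623 (.cons 204 (.leaf 228 1629 (.cons 323 (.leaf 250 1815 (.cons 324 (.leaf 300 1820 (.leaf 348 2012 .nil)) .nil)) .nil)) .nil)) (.cons 298 (.leaf 322 1814 (.cons 300 (.leaf 324 1820 (.cons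 228 (.leaf 204 1629 (.cons 301 (.leaf 302 2195 (.cons 277 (.leaf 278 2193 (.cons 325 (.leaf 326 2384 (.cons 253 (.leaf 252 1831 (.cons 230 (.leaf 254 1837 (.cons 229 (.leaf 250 1810 (.leaf 206 1645 .nil)) .nil)) .nil)) .nil)) .nil)) .nil)) .nil)) .nil)) .nil)) (.cons 322 (.leaf 298 1814 (.cons 323 (.leaf 346 2006 (.cons 226 (.leaf 202 1623 (.leaf 250 1815 .nil)) .nil)) .nil)) .nil))))) (.cons 299 (.cons 202 (.leaf 226 1623 (.cons 203 (.leaf 178 1431 (.cons 204 (.leaf 180 1437 (.leaf 228 1629 .nil)) .nil)) .nil)) (.cons 204 (.leaf 228 1629 (.cons 324 (.leaf 300 1820 (.cons 323 (.leaf 348 2012 (.cons 346 (.leaf 322 2006 (.cons 347 (.leaf 250 2007 (.leaf 370 2198 .nil)) .nil)) .nil)) .nil)) .nil)) (.cons 202 (.leaf 226 1623 (.cons 178 (.leaf 203 1431 (.cons 324 (.leaf 300 1820 (.cons 323 (.leaf 348 2012 (.cons 346 (.leaf 322 2006 (.cons 347 (.leaf 250 2007 (.leaf 370 2198 .nil)) .nil))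 .nil)) .nil)) .nil)) .nil)) .nil))) (.cons 203 (.leaf 298 1622 (.cons 178 (.leaf 202 1431 (.cons 179 (.leaf 154 1239 (.leaf 250 1430 .nil)) .nil)) .nil)) (.cons 298 (.leaf 203 1622 (.cons 322 (.leaf 299 1814 (.leaf 346 2005 .nil)) .nil)) .nil))))
noncomputable def t80 : T := .cons 273 (.leaf 252 1985 (.cons 247 (.leaf 248 1979 (.cons 271 (.leaf 246 1971 (.leaf 250 1977 .nil)) .nil)) .nil)) (.cons 227 t79 (.cons 273 (.cons 247 (.leaf 248 1979 (.cons 271 (.leaf 246 1971 (.leaf 250 1977 .nil)) .nil)) (.cons 299 (.leaf 300 2176 (.cons 248 (.leaf 247 1979 (.cons 227 (.cons 322 (.leaf 298 1814 (.cons 204 (.leaf 228 1629 (.cons 323 (.leaf 346 2006 (.cons 347 (.leaf 250 2007 (.cons 348 (.leaf 324 2012 (.leaf 372 2204 .nil)) .nil)) .nil)) .nil)) .nil)) (.cons 204 (.leaf 228 1629 (.cons 203 (.leaf 180 1437 (.cons 178 (.leaf 202 1431 (.cons 179 (.leaf 154 1239 (.leaf 250 1430 .nil)) .nil)) .nil))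 .nil)) (.cons 298 (.leaf 203 1622 (.leaf 322 1814 .nil)) .nil))) .nil)) .nil)) (.cons 247 (.leaf 248 1979 (.cons 271 (.leaf 246 1971 (.cons 299 (.leaf 300 2176 (.leaf 298 2168 .nil)) .nil)) .nil)) (.cons 299 (.leaf 300 2176 (.cons 271 (.leaf 250 1977 (.leaf 298 2168 .nil)) .nil)) .nil)))) (.cons 273 (.leaf 252 1985 (.cons 247 (.leaf 248 1979 (.cons 271 (.leaf 246 1971 (.cons 299 (.leaf 300 2176 (.leaf 298 2168 .nil)) .nil)) .nil)) .nil)) .nil)))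
noncomputable def t81 : T := .cons 203 (.leaf 298 1622 (.cons 202 (.leaf 178 1431 (.cons 204 (.leaf 180 1437 (.cons 228 (.leaf 299 1629 (.cons 201 (.leaf 200 1600 (.leaf 229 1608 .nil)) .nil)) .nil)) .nil)) .nil)) (.cons 299 (.cons 228 (.leaf 204 1629 (.leaf 323 1821 .nil)) (.cons 324 (.leaf 300 1820 (.cons 323 (.leaf 348 2012 (.cons 347 (.leaf 250 2007 (.cons 370 (.leaf 346 2198 (.cons 371 (.leaf 298 2199 (.leaf 394 2390 .nil)) .nil)) .nil)) .nil)) .nil)) (.cons 228 (.leaf 204 1629 (.cons 300 (.leaf 324 1820 (.cons 301 (.leaf 302 2195 (.cons 277 (.leaf 325 1831 (.cons 278 (.leaf 250 2000 (.leaf 298 2193 .nil)) .nil)) .nil)) .nil)) .nil)) .nil))) (.cons 203 (.leaf 298 1622 (.cons 178 (.leaf 202 1431 (.cons 179 (.leaf 154 1239 (.leaf 250 1430 .nil)) .nil)) .nil)) (.cons 203 (.cons 178 (.leaf 202 1431 (.cons 179 (.leaf 154 1239 (.leaf 250 1430 .nil)) .nil)) (.cons 204 (.leaf 180 1437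 (.cons 202 (.leaf 178 1431 (.cons 228 (.leaf 299 1629 (.cons 201 (.leaf 200 1600 (.leaf 229 1608 .nil)) .nil)) .nil)) .nil)) (.cons 179 (.leaf 250 1430 (.cons 155 (.leaf 228 1244 (.cons 130 (.leaf 154 1047 (.cons 131 (.leaf 106 855 (.cons 132 (.leaf 156 1053 (.leaf 108 861 .nil)) .nil)) .nil)) .nil)) .nil)) .nil))) .nil)))
noncomputable def t82 : T := .cons 203 (.leaf 298 1622 (.cons 179 (.leaf 250 1430 (.cons 178 (.leaf 202 1431 (.leaf 154 1239 .nil)) .nil)) .nil)) (.cons 299 (.cons 228 (.leaf 204 1629 (.leaf 323 1821 .nil)) (.cons 324 (.leaf 300 1820 (.cons 323 (.leaf 348 2012 (.cons 347 (.leaf 250 2007 (.cons 370 (.leaf 346 2198 (.cons 371 (.leaf 298 2199 (.leaf 394 2390 .nil)) .nil)) .nil)) .nil)) .nil)) (.cons 228 (.leaf 204 1629 (.cons 300 (.leaf 324 1820 (.cons 226 (.leaf 202 1623 (.leaf 225 1800 .nil)) .nil)) .nil)) .nil))) (.cons 203 (.leaf 298 1622 (.cons 179 (.cons 178 (.leaf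 202 1431 (.leaf 154 1239 .nil)) (.cons 155 (.leaf 228 1244 (.cons 130 (.leaf 154 1047 (.cons 131 (.leaf 106 855 (.cons 132 (.leaf 156 1053 (.leaf 108 861 .nil)) .nil)) .nil)) .nil)) (.cons 155 (.leaf 228 1244 (.cons 132 (.leaf 156 1053 (.cons 131 (.leaf 108 861 (.cons 202 (.leaf 178 1431 (.leaf 226 1046 .nil)) .nil)) .nil)) .nil)) .nil))) .nil)) (.cons 203 (.cons 179 (.leaf 250 1430 (.cons 178 (.leaf 202 1431 (.leaf 154 1239 .nil)) .nil)) (.cons 202 (.leaf 178 1431 (.cons 204 (.leaf 180 1437 (.cons 226 (.leaf 299 1623 (.cons 205 (.leaf 206 1618 (.leaf 225 1610 .nil)) .nil)) .nil)) .nil)) (.cons 250 (.leaf 179 1430 (.cons 204 (.leaf 180 1437 (.cons 225 (.leaf 226 1803 (.cons 228 (.leaf 299 1629 (.cons 229 (.leaf 230 1809 (.cons 277 (.leaf 278 2000 (.leaf 301 1639 .nil)) .nil)) .nil)) .nil)) .nil)) .nil)) .nil))) (.cons 203 (.leaf 298 1622 (.cons 250 (.leaf 179 1430 (.cons 204 (.leaf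 180 1437 (.cons 225 (.leaf 226 1803 (.cons 228 (.leaf 299 1629 (.cons 229 (.leaf 230 1809 (.cons 277 (.leaf 278 2000 (.leaf 301 1639 .nil)) .nil)) .nil)) .nil)) .nil)) .nil)) .nil)) .nil))))
noncomputable def t83 : T := .cons 323 (.leaf 228 1821 (.cons 250 (.leaf 226 1815 (.leaf 347 2007 .nil)) .nil)) (.cons 227 (.cons 203 (.leaf 298 1622 (.cons 179 (.leaf 250 1430 (.cons 180 (.leaf 204 1437 (.leaf 156 1245 .nil)) .nil)) .nil)) (.cons 226 (.leaf 202 1623 (.cons 225 (.leaf 224 1792 (.cons 228 (.leaf 204 1629 (.cons 200 (.leaf 201 1603 (.cons 249 (.leaf 248 1794 (.cons 229 (.leaf 250 1801 (.cons 205 (.leaf 206 1617 (.cons 230 (.leaf 231 1818 (.cons 254 (.leaf 255 1816 (.cons 300 (.leaf 324 1820 (.cons 302 (.leaf 301 2195 (.leaf 278 1647 .nil)) .nil)) .nil)) .nil)) .nil)) .nil)) .nil)) .nil)) .nil)) .nil)) .nil)) (.cons 202 (.leaf 226 1623 (.cons 203 (.leaf 178 1431 (.leaf 298 1622 .nil))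 .nil)) .nil))) (.cons 227 (.cons 202 (.leaf 226 1623 (.cons 203 (.leaf 178 1431 (.leaf 298 1622 .nil)) .nil)) (.cons 203 (.leaf 298 1622 (.cons 179 (.leaf 250 1430 (.cons 180 (.leaf 204 1437 (.leaf 156 1245 .nil)) .nil)) .nil)) (.cons 202 (.leaf 226 1623 (.cons 324 (.leaf 300 1820 (.cons 323 (.leaf 348 2012 (.cons 347 (.leaf 250 2007 (.cons 371 (.leaf 298 2199 (.cons 370 (.leaf 346 2198 (.leaf 394 2390 .nil)) .nil)) .nil)) .nil)) .nil)) .nil)) (.cons 202 (.leaf 226 1623 (.cons 203 (.leaf 178 1431 (.cons 179 (.leaf 250 1430 (.cons 180 (.leaf 204 1437 (.leaf 156 1245 .nil)) .nil)) .nil)) .nil)) .nil)))) (.cons 228 (.leaf 323 1821 (.cons 204 (.leaf 180 1438 (.leaf 227 1629 .nil)) .nil)) .nil)))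
noncomputable def t84 : T := .cons 274 (.leaf 273 1985 (.cons 203 (.leaf 298 1622 (.cons 253 (.leaf 254 2002 (.cons 179 (.cons 178 (.leaf 202 1431 (.leaf 154 1239 .nil)) (.cons 155 (.leaf 228 1244 (.cons 130 (.leaf 154 1047 (.cons 131 (.leaf 106 855 (.cons 132 (.leaf 156 1053 (.leaf 108 861 .nil)) .nil)) .nil)) .nil)) (.cons 155 (.leaf 228 1244 (.cons 132 (.leaf 156 1053 (.cons 131 (.leaf 108 861 (.cons 202 (.leaf 178 1431 (.leaf 226 1046 .nil)) .nil)) .nil)) .nil)) .nil))) .nil)) .nil)) .nil)) (.cons 226 (.cons 225 (.leaf 224 1792 (.cons 253 (.leaf 254 1811 (.leaf 228 1800 .nil)) .nil)) (.cons 202 (.leaf 299 1623 (.cons 178 (.leaf 203 1431 (.leaf 154 1236 .nil)) .nil)) .nil)) (.cons 274 (.leaf 273 1985 (.cons 203 (.leaf 298 1622 (.cons 178 (.leaf 202 1431 (.cons 179 (.leaf 154 1239 (.cons 180 (.leaf 204 1437 (.leaf 156 1245 .nil)) .nil)) .nil)) .nil)) .nil)) (.cons 273 (.leaf 274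 1985 (.cons 299 (.cons 228 (.leaf 204 1629 (.leaf 323 1821 .nil)) (.cons 226 (.leaf 202 1623 (.cons 224 (.leaf 225 1792 (.cons 253 (.leaf 254 1811 (.cons 300 (.leaf 324 1820 (.cons 297 (.leaf 298 2179 (.cons 248 (.leaf 200 1604 (.cons 321 (.leaf 345 1991 (.leaf 249 1799 .nil)) .nil)) .nil)) .nil)) .nil)) .nil)) .nil)) .nil)) .nil)) (.cons 274 (.leaf 273 1985 (.cons 203 (.leaf 298 1622 (.cons 180 (.leaf 204 1437 (.cons 179 (.leaf 156 1245 (.cons 154 (.leaf 178 1239 (.cons 155 (.leaf 228 1244 (.leaf 130 1047 .nil)) .nil)) .nil)) .nil)) .nil)) .nil)) .nil))))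
noncomputable def t85 : T := .cons 229 (.leaf 230 1809 (.cons 228 (.leaf 249 1801 (.cons 180 (.leaf 204 1438 (.cons 278 (.leaf 277 2000 (.cons 254 (.leaf 279 2008 (.cons 226 (.leaf 225 1803 (.leaf 227 1808 .nil)) .nil)) .nil)) .nil)) .nil)) .nil)) (.cons 229 (.leaf 230 1809 (.cons 228 (.leaf 249 1801 (.cons 180 (.leaf 204 1438 (.cons 278 (.leaf 277 2000 (.cons 254 (.leaf 279 2008 (.cons 255 (.leaf 227 1819 (.leaf 256 1827 .nil)) .nil)) .nil)) .nil)) .nil)) .nil)) (.cons 226 (.leaf 225 1803 (.cons 178 (.leaf 202 1428 (.cons 227 (.leaf 254 1811 (.cons 277 (.leaf 278 2000 (.cons 299 (.leaf 323 1815 (.cons 204 (.leaf 228 1629 (.cons 203 (.leaf 180 1437 (.cons 179 (.leaf 154 1239 (.leaf 155 1238 .nil)) .nil)) .nil)) .nil)) .nil)) .nil)) .nil)) .nil)) (.cons 226 (.leaf 225 1803 (.cons 178 (.leaf 202 1428 (.cons 227 (.leaf 254 1811 (.cons 229 (.leaf 230 1809 (.cons 228 (.leaf 249 1801 (.cons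 180 (.leaf 204 1438 (.cons 205 (.leaf 206 1617 (.cons 181 (.leaf 157 1254 (.leaf 156 1255 .nil)) .nil)) .nil)) .nil)) .nil)) .nil)) .nil)) .nil)) (.cons 225 (.leaf 226 1803 (.cons 224 (.leaf 249 1795 (.cons 230 (.leaf 229 1809 (.cons 254 (.leaf 231 1817 (.cons 278 (.leaf 277 2000 (.leaf 279 2008 .nil)) .nil)) .nil)) .nil)) .nil)) (.cons 226 (.leaf 225 1803 (.cons 178 (.leaf 202 1428 (.cons 229 (.leaf 230 1809 (.cons 228 (.leaf 249 1801 (.cons 299 (.leaf 323 1821 (.cons 204 (.leaf 180 1438 (.leaf 227 1629 .nil)) .nil)) .nil)) .nil)) .nil)) .nil)) .nil)))))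
noncomputable def t86 : T := .cons 254 (.leaf 274 2002 (.cons 226 (.leaf 227 1811 (.cons 230 (.leaf 231 1817 (.cons 250 (.leaf 225 1803 (.leaf 229 1809 .nil)) .nil)) .nil)) .nil)) (.cons 250 (.cons 229 (.leaf 230 1809 (.cons 228 (.leaf 249 1801 (.cons 180 (.leaf 204 1438 (.cons 277 (.leaf 278 2000 (.cons 299 (.leaf 323 1821 (.cons 301 (.leaf 325 1831 (.cons 300 (.leaf 324 1830 (.cons 302 (.leaf 274 2195 (.leaf 326 1836 .nil)) .nil)) .nil)) .nil)) .nil)) .nil)) .nil)) .nil)) (.cons 226 (.leaf 225 1803 (.cons 202 (.leaf 178 1428 (.cons 299 (.leaf 227 1623 (.leaf 274 1620 .nil)) .nil)) .nil)) (.cons 225 (.leaf 226 1803 (.cons 249 (.leaf 224 1795 (.cons 248 (.leaf 271 1978 (.cons 177 (.leaf 201 1414 (.cons 227 (.leaf 228 1793 (.cons 274 (.leaf 247 1976 (.cons 203 (.leaf 298 1622 (.leaf 179 1430 .nil)) .nil)) .nil)) .nil)) .nil)) .nil)) .nil)) (.cons 225 (.leaf 226 1803 (.cons 229 (.leaf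 230 1809 (.cons 249 (.leaf 224 1795 (.leaf 228 1801 .nil)) .nil)) .nil)) .nil)))) (.cons 254 (.leaf 274 2002 (.cons 226 (.leaf 227 1811 (.cons 231 (.leaf 230 1817 (.cons 255 (.leaf 232 1825 (.cons 279 (.leaf 278 2008 (.leaf 280 2016 .nil)) .nil)) .nil)) .nil)) .nil)) (.cons 250 t85 (.cons 254 (.leaf 274 2002 (.cons 230 (.leaf 231 1817 (.cons 278 (.leaf 279 2008 (.cons 229 (.leaf 250 1809 (.cons 205 (.leaf 181 1452 (.leaf 302 1647 .nil)) .nil)) .nil)) .nil)) .nil)) (.cons 254 (.leaf 274 2002 (.cons 226 (.leaf 227 1811 (.cons 250 (.leaf 225 1803 (.cons 278 (.leaf 277 2000 (.leaf 279 2008 .nil)) .nil)) .nil)) .nil)) .nil)))))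
noncomputable def t87 : T := .cons 250 (.cons 249 (.leaf 273 1986 (.cons 224 (.leaf 225 1795 (.cons 248 (.leaf 271 1978 (.leaf 223 1787 .nil)) .nil)) .nil)) (.cons 226 (.cons 225 (.leaf 253 1803 (.cons 224 (.leaf 223 1784 (.leaf 227 1792 .nil)) .nil)) (.cons 299 (.leaf 323 1815 (.cons 202 (.leaf 178 1428 (.leaf 227 1623 .nil)) .nil)) (.cons 178 (.leaf 202 1428 (.cons 253 (.leaf 225 1803 (.cons 230 (.leaf 229 1809 (.cons 254 (.leaf 231 1817 (.cons 278 (.leaf 277 2000 (.leaf 279 2008 .nil)) .nil)) .nil)) .nil)) .nil)) .nil))) (.cons 249 (.leaf 273 1986 (.cons 228 (.leaf 229 1801 (.cons 248 (.leaf 271 1978 (.leaf 227 1793 .nil)) .nil)) .nil)) .nil))) (.cons 253 t86 (.cons 227 t84 (.cons 273 (.leaf 274 1985 (.cons 250 (.leaf 249 1986 (.cons 226 (.cons 225 (.leaf 253 1803 (.cons 224 (.leaf 223 1784 (.leaf 227 1792 .nil)) .nil)) (.cons 202 (.leaf 178 1428 (.cons 299 (.leaf 227 1623 (.leaf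 323 1815 .nil)) .nil)) (.cons 253 (.leaf 225 1803 (.cons 178 (.leaf 202 1428 (.cons 230 (.leaf 229 1809 (.cons 254 (.leaf 231 1817 (.cons 278 (.leaf 277 2000 (.leaf 279 2008 .nil)) .nil)) .nil)) .nil)) .nil)) .nil))) .nil)) .nil)) (.cons 274 (.leaf 273 1985 (.cons 299 t83 .nil)) (.cons 274 (.leaf 273 1985 (.cons 253 (.leaf 254 2002 (.cons 250 (.cons 226 (.leaf 225 1803 (.cons 202 (.leaf 178 1428 (.cons 177 (.leaf 201 1423 (.cons 203 (.leaf 179 1429 (.cons 227 (.leaf 298 1621 (.cons 204 (.leaf 180 1437 (.cons 205 (.leaf 206 1618 (.cons 229 (.leaf 230 1616 (.cons 181 (.leaf 182 1425 (.cons 228 (.leaf 249 1801 (.leaf 157 1254 .nil)) .nil)) .nil)) .nil)) .nil)) .nil)) .nil)) .nil)) .nil)) .nil)) (.cons 229 (.leaf 230 1809 (.cons 228 (.leaf 249 1801 (.cons 204 (.leaf 180 1438 (.cons 277 (.leaf 278 2000 (.leaf 301 1639 .nil)) .nil)) .nil)) .nil)) (.cons 226 (.leaf 225 1803 (.cons 202 (.leaf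 178 1428 (.cons 201 (.leaf 177 1423 (.cons 203 (.leaf 179 1429 (.cons 227 (.leaf 298 1621 (.cons 200 (.leaf 199 1592 (.leaf 228 1600 .nil)) .nil)) .nil)) .nil)) .nil)) .nil)) (.cons 225 (.leaf 226 1803 (.cons 249 (.leaf 224 1795 (.cons 248 (.leaf 247 1976 (.leaf 271 1978 .nil)) .nil)) .nil)) .nil)))) .nil)) .nil)) (.cons 274 (.leaf 273 1985 (.cons 253 (.leaf 254 2002 (.cons 227 t82 .nil)) .nil)) (.cons 273 (.leaf 274 1985 (.cons 250 (.leaf 249 1986 (.cons 226 (.cons 202 (.leaf 178 1428 (.cons 225 (.leaf 253 1803 (.cons 224 (.leaf 223 1784 (.leaf 227 1792 .nil)) .nil)) .nil)) (.cons 202 (.leaf 178 1428 (.cons 299 (.leaf 227 1623 (.leaf 323 1815 .nil)) .nil)) (.cons 225 (.leaf 253 1803 (.cons 224 (.leaf 223 1784 (.leaf 227 1792 .nil)) .nil)) (.cons 253 (.leaf 225 1803 (.cons 299 (.leaf 323 1815 (.cons 277 (.leaf 278 2000 (.cons 229 (.leaf 230 1809 (.cons 202 (.leaf 178 1428 (.cons 301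 (.cons 204 (.leaf 228 1639 (.cons 205 (.leaf 180 1447 (.cons 182 (.leaf 206 1453 (.cons 181 (.leaf 158 1261 (.leaf 203 1425 .nil)) .nil)) .nil)) .nil)) (.cons 300 (.leaf 324 1830 (.cons 298 (.leaf 297 2179 (.cons 326 (.leaf 302 1836 (.leaf 325 2384 .nil)) .nil)) .nil)) .nil)) .nil)) .nil)) .nil)) .nil)) .nil)) .nil)))) .nil)) .nil)) (.cons 274 (.leaf 273 1985 (.cons 253 (.leaf 254 2002 (.cons 227 t81 .nil)) .nil)) (.cons 274 (.leaf 273 1985 (.cons 253 (.leaf 254 2002 (.cons 250 (.cons 225 (.leaf 226 1803 (.cons 229 (.leaf 230 1809 (.cons 249 (.leaf 224 1795 (.leaf 228 1801 .nil)) .nil)) .nil)) (.cons 229 (.leaf 230 1809 (.cons 228 (.leaf 249 1801 (.cons 180 (.leaf 204 1438 (.cons 277 (.leaf 278 2000 (.cons 299 (.leaf 323 1821 (.cons 301 (.leaf 325 1831 (.cons 300 (.leaf 302 2195 (.leaf 324 1830 .nil)) .nil)) .nil)) .nil)) .nil)) .nil)) .nil)) (.cons 225 (.leaf 226 1803 (.cons 249 (.leaf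 224 1795 (.cons 248 (.leaf 247 1976 (.leaf 271 1978 .nil)) .nil)) .nil)) (.cons 226 (.leaf 225 1803 (.cons 299 (.leaf 323 1815 (.cons 229 (.leaf 230 1809 (.cons 277 (.leaf 278 2000 (.cons 227 (.cons 203 (.leaf 298 1621 (.leaf 179 1430 .nil)) (.cons 228 (.leaf 204 1629 (.cons 301 (.leaf 325 1831 (.cons 300 (.leaf 324 1820 (.leaf 302 2195 .nil)) .nil)) .nil)) .nil)) .nil)) .nil)) .nil)) .nil)) .nil)))) .nil)) .nil)) .nil)))))))))
noncomputable def t88 : T := .cons 323 (.leaf 226 1815 (.cons 274 (.leaf 347 2007 (.cons 322 (.leaf 346 2006 (.cons 324 (.leaf 348 2012 (.cons 227 (.leaf 300 1820 (.cons 203 (.leaf 179 1430 (.cons 204 (.leaf 180 1437 (.leaf 228 1629 .nil)) .nil)) .nil)) .nil)) .nil)) .nil)) .nil)) (.cons 227 (.cons 202 (.leaf 226 1623 (.cons 203 (.leaf 178 1431 (.cons 274 (.leaf 179 1430 (.cons 273 (.leaf 252 1985 (.leaf 300 2176 .nil)) .nil)) .nil)) .nil)) (.cons 300 (.leaf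 324 1820 (.cons 204 (.leaf 228 1629 (.cons 203 (.leaf 180 1437 (.cons 274 (.leaf 273 2176 (.leaf 179 1430 .nil)) .nil)) .nil)) .nil)) (.cons 226 (.leaf 202 1623 (.cons 228 (.leaf 204 1629 (.cons 229 (.leaf 230 1810 (.cons 205 (.leaf 206 1617 (.cons 253 (.leaf 254 1808 (.cons 225 (.leaf 252 1800 (.cons 200 (.leaf 201 1603 (.cons 224 (.leaf 223 1784 (.leaf 199 1595 .nil)) .nil)) .nil)) .nil)) .nil)) .nil)) .nil)) .nil)) .nil))) (.cons 274 (.cons 273 (.leaf 252 1985 (.leaf 300 2176 .nil)) (.cons 323 (.leaf 347 2007 (.cons 322 (.leaf 346 2006 (.cons 324 (.leaf 348 2012 (.cons 227 (.leaf 300 1820 (.cons 203 (.leaf 179 1430 (.cons 204 (.leaf 180 1437 (.leaf 228 1629 .nil)) .nil)) .nil)) .nil)) .nil)) .nil)) (.cons 273 (.leaf 252 1985 (.leaf 271 1977 .nil)) .nil))) (.cons 323 (.leaf 226 1815 (.cons 322 (.leaf 346 2006 (.cons 324 (.leaf 348 2012 (.cons 300 (.leaf 227 1820 (.cons 301 (.leaf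 302 2386 (.leaf 321 2377 .nil)) .nil)) .nil)) .nil)) .nil)) (.cons 323 (.leaf 226 1815 (.cons 274 (.leaf 347 2007 (.cons 273 (.leaf 252 1985 (.leaf 300 2176 .nil)) .nil)) .nil)) (.cons 323 (.leaf 226 1815 (.cons 322 (.leaf 346 2006 (.cons 347 (.leaf 274 2007 (.cons 348 (.leaf 324 2012 (.leaf 372 2204 .nil)) .nil)) .nil)) .nil)) .nil)))))
noncomputable def t89 : T := .cons 323 (.leaf 226 1815 (.cons 274 (.leaf 347 2007 (.cons 322 (.leaf 346 2006 (.cons 324 (.leaf 348 2012 (.cons 227 (.leaf 300 1820 (.cons 203 (.leaf 179 1430 (.cons 204 (.leaf 180 1437 (.leaf 228 1629 .nil)) .nil)) .nil)) .nil)) .nil)) .nil)) .nil)) (.cons 323 (.cons 274 (.leaf 347 2007 (.cons 322 (.leaf 346 2006 (.cons 324 (.leaf 348 2012 (.cons 227 (.leaf 300 1820 (.cons 203 (.leaf 179 1430 (.cons 204 (.leaf 180 1437 (.leaf 228 1629 .nil)) .nil)) .nil)) .nil)) .nil)) .nil)) (.cons 322 (.leaf 346 2006 (.cons 324 (.leaf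 348 2012 (.cons 300 (.leaf 227 1820 (.cons 301 (.leaf 302 2386 (.leaf 321 2377 .nil)) .nil)) .nil)) .nil)) (.cons 274 (.leaf 347 2007 (.cons 273 (.leaf 300 2176 (.leaf 271 1977 .nil)) .nil)) (.cons 322 (.leaf 346 2006 (.cons 347 (.leaf 274 2007 (.cons 348 (.leaf 324 2012 (.leaf 372 2204 .nil)) .nil)) .nil)) .nil)))) (.cons 227 (.cons 204 (.leaf 228 1629 (.cons 203 (.leaf 180 1437 (.cons 202 (.leaf 178 1431 (.leaf 226 1623 .nil)) .nil)) .nil)) (.cons 204 (.leaf 228 1629 (.cons 203 (.leaf 180 1437 (.cons 274 (.leaf 179 1430 (.cons 273 (.leaf 300 2176 (.leaf 271 1977 .nil)) .nil)) .nil)) .nil)) (.cons 202 (.leaf 226 1623 (.cons 203 (.leaf 178 1431 (.cons 274 (.leaf 179 1430 (.cons 273 (.leaf 300 2176 (.leaf 271 1977 .nil)) .nil)) .nil)) .nil)) (.cons 226 (.leaf 202 1623 (.cons 228 (.leaf 204 1629 (.cons 229 (.leaf 230 1810 (.leaf 249 1802 .nil)) .nil)) .nil)) .nil)))) (.cons 323 (.leaf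 226 1815 (.cons 322 (.leaf 346 2006 (.cons 324 (.leaf 348 2012 (.cons 300 (.leaf 227 1820 (.cons 301 (.leaf 302 2386 (.leaf 321 2377 .nil)) .nil)) .nil)) .nil)) .nil)) (.cons 323 (.leaf 226 1815 (.cons 274 (.leaf 347 2007 (.cons 273 (.leaf 300 2176 (.leaf 271 1977 .nil)) .nil)) .nil)) (.cons 226 (.leaf 323 1815 (.cons 202 (.leaf 178 1428 (.leaf 227 1623 .nil)) .nil)) .nil)))))
noncomputable def t90 : T := .cons 248 (.leaf 271 1978 (.cons 227 (.leaf 228 1793 (.cons 247 (.leaf 274 1976 (.leaf 226 1785 .nil)) .nil)) .nil)) (.cons 252 (.cons 224 (.leaf 225 1795 (.cons 229 (.leaf 228 1801 (.cons 253 (.leaf 230 1809 (.cons 254 (.leaf 274 2002 (.cons 278 (.leaf 277 2000 (.leaf 279 2008 .nil)) .nil)) .nil)) .nil)) .nil)) (.cons 225 (.leaf 224 1795 (.cons 253 (.leaf 226 1803 (.cons 229 (.leaf 230 1809 (.cons 254 (.leaf 274 2002 (.cons 278 (.leaf 277 2000 (.leaf 279 2008 .nil)) .nil)) .nil))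 .nil)) .nil)) (.cons 228 (.leaf 229 1801 (.cons 204 (.leaf 180 1438 (.cons 299 (.leaf 227 1629 (.leaf 323 1821 .nil)) .nil)) .nil)) (.cons 225 (.leaf 224 1795 (.cons 253 (.leaf 226 1803 (.cons 254 (.leaf 274 2002 (.cons 278 (.leaf 277 2000 (.leaf 279 2008 .nil)) .nil)) .nil)) .nil)) .nil)))) (.cons 248 (.leaf 271 1978 (.cons 223 (.leaf 224 1787 (.cons 247 (.leaf 274 1976 (.leaf 222 1779 .nil)) .nil)) .nil)) (.cons 248 (.leaf 271 1978 (.cons 223 (.leaf 224 1787 (.cons 227 (.leaf 228 1793 (.cons 247 (.leaf 222 1779 (.leaf 226 1785 .nil)) .nil)) .nil)) .nil)) .nil)))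
noncomputable def t91 : T := .cons 299 (.cons 323 (.leaf 226 1815 (.cons 274 (.leaf 347 2007 (.cons 322 (.leaf 346 2006 (.cons 324 (.leaf 348 2012 (.cons 227 (.leaf 300 1820 (.cons 203 (.leaf 179 1430 (.cons 204 (.leaf 180 1437 (.leaf 228 1629 .nil)) .nil)) .nil)) .nil)) .nil)) .nil)) .nil)) (.cons 273 (.cons 274 (.leaf 252 1985 (.leaf 300 2176 .nil)) (.cons 249 (.leaf 252 1986 (.cons 271 (.leaf 248 1978 (.leaf 270 1969 .nil)) .nil)) (.cons 274 (.leaf 300 2176 (.leaf 271 1977 .nil)) .nil))) (.cons 323 (.leaf 226 1815 (.cons 322 (.leaf 346 2006 (.cons 324 (.leaf 348 2012 (.cons 300 (.leaf 227 1820 (.cons 301 (.leaf 302 2386 (.leaf 321 2377 .nil)) .nil)) .nil)) .nil)) .nil)) (.cons 323 (.leaf 226 1815 (.cons 322 (.leaf 346 2006 (.cons 347 (.leaf 274 2007 (.cons 348 (.leaf 324 2012 (.leaf 372 2204 .nil)) .nil)) .nil)) .nil)) .nil)))) (.cons 249 t90 (.cons 299 t89 (.cons 249 (.cons 248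 (.leaf 271 1978 (.cons 227 (.leaf 228 1793 (.cons 226 (.leaf 247 1785 (.cons 202 (.leaf 178 1428 (.leaf 299 1623 .nil)) .nil)) .nil)) .nil)) (.cons 252 (.leaf 273 1986 (.cons 224 (.leaf 225 1795 (.cons 228 (.leaf 229 1801 (.cons 204 (.leaf 180 1438 (.cons 299 (.leaf 227 1629 (.leaf 323 1821 .nil)) .nil)) .nil)) .nil)) .nil)) (.cons 248 (.leaf 271 1978 (.cons 223 (.leaf 224 1787 (.cons 247 (.leaf 222 1779 (.cons 226 (.leaf 227 1785 (.cons 175 (.leaf 199 1404 (.cons 178 (.leaf 202 1428 (.cons 246 (.leaf 225 1777 (.cons 273 (.leaf 245 1960 (.leaf 252 1986 .nil)) .nil)) .nil)) .nil)) .nil)) .nil)) .nil)) .nil)) (.cons 248 (.leaf 271 1978 (.cons 224 (.leaf 223 1787 (.cons 252 (.leaf 273 1986 (.leaf 225 1795 .nil)) .nil)) .nil)) .nil)))) (.cons 299 t88 (.cons 273 (.cons 274 (.leaf 252 1985 (.leaf 271 1977 .nil)) (.cons 249 (.leaf 252 1986 (.cons 271 (.leaf 248 1978 (.leaf 270 1969 .nil))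 .nil)) (.cons 271 (.leaf 274 1977 (.cons 249 (.leaf 248 1978 (.leaf 270 1969 .nil)) .nil)) (.cons 252 (.leaf 274 1985 (.leaf 249 1986 .nil)) .nil)))) (.cons 252 (.cons 274 (.leaf 273 1985 (.cons 253 (.leaf 254 2002 (.cons 226 (.leaf 225 1803 (.cons 202 (.leaf 178 1428 (.leaf 299 1620 .nil)) .nil)) .nil)) .nil)) (.cons 253 (.cons 230 (.leaf 229 1809 (.cons 254 (.leaf 274 2002 (.leaf 231 1817 .nil)) .nil)) (.cons 225 (.leaf 226 1803 (.cons 229 (.leaf 230 1809 (.cons 249 (.leaf 224 1795 (.leaf 228 1801 .nil)) .nil)) .nil)) (.cons 225 (.leaf 226 1803 (.cons 224 (.leaf 249 1795 (.cons 254 (.leaf 274 2002 (.cons 278 (.leaf 277 2000 (.leaf 279 2008 .nil)) .nil)) .nil)) .nil)) .nil))) (.cons 249 (.leaf 273 1986 (.cons 224 (.leaf 225 1795 (.cons 228 (.leaf 229 1801 (.cons 204 (.leaf 180 1438 (.cons 299 (.leaf 227 1629 (.leaf 323 1821 .nil)) .nil)) .nil)) .nil)) .nil)) (.cons 273 (.leaf 274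 1985 (.leaf 249 1986 .nil)) .nil)))) .nil))))))
noncomputable def t92 : T := .cons 271 (.leaf 250 1977 (.cons 299 (.leaf 300 2176 (.leaf 298 2168 .nil)) .nil)) (.cons 299 (.leaf 300 2176 (.cons 248 (.leaf 247 1979 (.cons 323 (.cons 250 (.leaf 226 1815 (.leaf 347 2007 .nil)) (.cons 322 (.leaf 346 2006 (.cons 227 (.leaf 298 1814 (.cons 348 (.leaf 324 2012 (.cons 204 (.leaf 228 1629 (.cons 180 (.leaf 203 1437 (.cons 347 (.leaf 372 2204 (.cons 321 (.leaf 320 2560 (.cons 297 (.leaf 345 1991 (.cons 224 (.leaf 200 1604 (.leaf 249 1799 .nil)) .nil)) .nil)) .nil)) .nil)) .nil)) .nil)) .nil)) .nil)) (.cons 226 (.leaf 250 1815 (.cons 322 (.leaf 346 2006 (.cons 227 (.leaf 298 1814 (.cons 204 (.leaf 228 1629 (.cons 203 (.leaf 180 1437 (.cons 205 (.leaf 206 1618 (.cons 224 (.leaf 225 1601 (.cons 200 (.leaf 297 1604 (.cons 175 (.leaf 199 1407 (.cons 176 (.leaf 249 1412 (.leaf 151 1215 .nil)) .nil))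 .nil)) .nil)) .nil)) .nil)) .nil)) .nil)) .nil)) .nil)) .nil))) .nil)) .nil)) (.cons 271 (.leaf 250 1977 (.cons 246 (.leaf 247 1971 (.cons 270 (.leaf 245 1963 (.cons 294 (.leaf 293 2154 (.leaf 295 2162 .nil)) .nil)) .nil)) .nil)) (.cons 299 (.leaf 300 2176 (.cons 271 (.leaf 298 2168 (.cons 246 (.leaf 247 1971 (.cons 270 (.leaf 245 1963 (.cons 294 (.leaf 293 2154 (.leaf 295 2162 .nil)) .nil)) .nil)) .nil)) .nil)) .nil)))
noncomputable def t93 : T := .cons 322 (.leaf 346 2005 (.cons 227 (.leaf 203 1622 (.leaf 299 1814 .nil)) .nil)) (.cons 227 (.leaf 203 1622 (.cons 299 (.cons 324 (.leaf 300 1820 (.cons 323 (.leaf 348 2012 (.cons 347 (.leaf 250 2007 (.leaf 371 2199 .nil)) .nil)) .nil)) (.cons 300 (.leaf 324 1820 (.cons 228 (.leaf 204 1629 (.cons 301 (.leaf 302 2195 (.cons 277 (.leaf 278 2193 (.cons 325 (.leaf 326 2384 (.cons 253 (.leaf 252 1831 (.cons 230 (.leaf 254 1837 (.cons 229 (.leaf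 250 1810 (.leaf 206 1645 .nil)) .nil)) .nil)) .nil)) .nil)) .nil)) .nil)) .nil)) (.cons 228 (.leaf 204 1629 (.cons 323 (.leaf 252 1821 (.cons 347 (.leaf 250 2007 (.leaf 371 2199 .nil)) .nil)) .nil)) (.cons 228 (.leaf 204 1629 (.cons 252 (.leaf 323 1821 (.cons 253 (.leaf 254 2002 (.cons 225 (.leaf 226 1800 (.cons 300 (.leaf 324 1820 (.cons 301 (.leaf 302 2195 (.cons 277 (.leaf 278 2193 (.leaf 325 1831 .nil)) .nil)) .nil)) .nil)) .nil)) .nil)) .nil)) .nil)))) .nil)) (.cons 322 (.leaf 346 2005 (.cons 250 (.cons 323 (.leaf 347 2004 (.cons 225 (.leaf 249 1807 (.cons 226 (.leaf 299 1812 (.leaf 201 1615 .nil)) .nil)) .nil)) (.cons 249 (.leaf 225 1807 (.cons 248 (.leaf 247 1976 (.leaf 271 1978 .nil)) .nil)) (.cons 323 (.leaf 347 2004 (.cons 226 (.leaf 299 1812 (.cons 321 (.leaf 297 1806 (.leaf 345 1998 .nil)) .nil)) .nil)) .nil))) .nil)) (.cons 322 (.leaf 346 2005 (.cons 227 (.leaf 203 1622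 (.leaf 250 1813 .nil)) .nil)) .nil)))
noncomputable def t94 : T := .cons 273 (.leaf 252 1985 (.cons 299 (.leaf 300 2176 (.cons 271 (.leaf 250 1977 (.leaf 298 2168 .nil)) .nil)) .nil)) (.cons 298 t93 (.cons 273 t92 (.cons 273 (.leaf 252 1985 (.cons 299 (.leaf 300 2176 (.cons 271 (.leaf 298 2168 (.cons 246 (.leaf 247 1971 (.cons 270 (.leaf 245 1963 (.cons 294 (.leaf 293 2154 (.leaf 295 2162 .nil)) .nil)) .nil)) .nil)) .nil)) .nil)) (.cons 273 (.leaf 252 1985 (.cons 271 (.leaf 250 1977 (.cons 246 (.leaf 247 1971 (.cons 270 (.leaf 245 1963 (.cons 294 (.leaf 293 2154 (.leaf 295 2162 .nil)) .nil)) .nil)) .nil)) .nil)) (.cons 273 (.leaf 252 1985 (.cons 299 (.leaf 300 2176 (.cons 248 (.leaf 247 1979 (.cons 323 (.cons 250 (.leaf 226 1815 (.leaf 347 2007 .nil)) (.cons 322 (.leaf 346 2006 (.cons 227 (.leaf 298 1814 (.cons 348 (.leaf 324 2012 (.cons 204 (.leaf 228 1629 (.cons 180 (.leaf 203 1437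 (.cons 347 (.leaf 372 2204 (.cons 321 (.leaf 320 2560 (.cons 297 (.leaf 345 1991 (.cons 224 (.leaf 200 1604 (.leaf 249 1799 .nil)) .nil)) .nil)) .nil)) .nil)) .nil)) .nil)) .nil)) .nil)) (.cons 226 (.leaf 250 1815 (.cons 322 (.leaf 346 2006 (.cons 227 (.leaf 298 1814 (.cons 204 (.leaf 228 1629 (.cons 203 (.leaf 180 1437 (.cons 205 (.leaf 206 1618 (.cons 224 (.leaf 225 1601 (.cons 200 (.leaf 297 1604 (.cons 175 (.leaf 199 1407 (.cons 176 (.leaf 249 1412 (.leaf 151 1215 .nil)) .nil)) .nil)) .nil)) .nil)) .nil)) .nil)) .nil)) .nil)) .nil)) .nil))) .nil)) .nil)) .nil)) .nil)))))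
noncomputable def t95 : T := .cons 273 (.leaf 252 1985 (.leaf 300 2176 .nil)) (.cons 324 (.cons 300 (.leaf 227 1820 (.cons 348 (.leaf 323 2012 (.leaf 372 2207 .nil)) .nil)) (.cons 323 (.leaf 348 2012 (.cons 346 (.leaf 322 2006 (.cons 347 (.leaf 370 2198 (.cons 298 (.leaf 371 2199 (.cons 325 (.leaf 326 2578 (.cons 300 (.leaf 297 2376 (.cons 301 (.leaf 302 2195 (.cons 277 (.leaf 278 2193 (.cons 253 (.leaf 229 1830 (.cons 254 (.leaf 252 2002 (.leaf 230 1837 .nil)) .nil)) .nil)) .nil)) .nil)) .nil)) .nil)) .nil)) .nil)) .nil)) (.cons 227 (.leaf 300 1820 (.cons 298 (.leaf 203 1622 (.leaf 322 1814 .nil)) .nil)) (.cons 323 (.leaf 348 2012 (.cons 322 (.leaf 346 2006 (.cons 298 (.leaf 227 1814 (.cons 325 (.leaf 326 2387 (.leaf 297 2379 .nil)) .nil)) .nil)) .nil)) .nil)))) (.cons 273 (.leaf 252 1985 (.cons 271 (.leaf 298 2168 (.cons 246 (.leaf 247 1971 (.cons 270 (.leaf 245 1963 (.cons 294 (.leaf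 293 2154 (.leaf 295 2162 .nil)) .nil)) .nil)) .nil)) .nil)) (.cons 273 (.leaf 300 2176 (.cons 271 (.leaf 298 2168 (.cons 246 (.leaf 247 1971 (.cons 270 (.leaf 245 1963 (.cons 294 (.leaf 293 2154 (.leaf 295 2162 .nil)) .nil)) .nil)) .nil)) .nil)) .nil)))
noncomputable def t96 : T := .cons 298 (.leaf 322 1814 (.cons 202 (.leaf 226 1623 (.cons 203 (.leaf 178 1431 (.leaf 274 1622 .nil)) .nil)) .nil)) (.cons 202 (.leaf 226 1623 (.cons 203 (.leaf 178 1431 (.cons 180 (.leaf 204 1437 (.cons 179 (.leaf 156 1245 (.cons 181 (.leaf 182 1426 (.cons 200 (.leaf 201 1409 (.cons 274 (.leaf 250 1430 (.cons 273 (.leaf 252 1985 (.leaf 300 2176 .nil)) .nil)) .nil)) .nil)) .nil)) .nil)) .nil)) .nil)) (.cons 298 (.leaf 322 1814 (.cons 274 (.leaf 203 1622 (.cons 273 (.leaf 252 1985 (.leaf 300 2176 .nil)) .nil)) .nil)) (.cons 300 (.leaf 324 1820 (.cons 298 (.leaf 322 1814 (.cons 273 (.leaf 297 2179 (.cons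 203 (.cons 178 (.leaf 202 1431 (.cons 179 (.leaf 154 1239 (.cons 180 (.leaf 204 1437 (.leaf 156 1245 .nil)) .nil)) .nil)) (.cons 180 (.leaf 204 1437 (.cons 179 (.leaf 156 1245 (.cons 154 (.leaf 178 1239 (.cons 155 (.leaf 130 1047 (.cons 250 (.leaf 226 1238 (.cons 152 (.leaf 153 1216 (.cons 249 (.leaf 252 1986 (.cons 271 (.leaf 248 1978 (.leaf 270 1969 .nil)) .nil)) .nil)) .nil)) .nil)) .nil)) .nil)) .nil)) (.cons 180 (.leaf 204 1437 (.cons 179 (.leaf 156 1245 (.cons 226 (.leaf 202 1623 (.cons 250 (.leaf 155 1238 (.cons 249 (.leaf 252 1986 (.cons 248 (.leaf 271 1978 (.leaf 247 1785 .nil)) .nil)) .nil)) .nil)) .nil)) .nil)) (.cons 202 (.leaf 178 1431 (.leaf 226 1623 .nil)) .nil)))) .nil)) .nil)) .nil)) (.cons 300 (.leaf 324 1820 (.cons 202 (.leaf 226 1623 (.cons 273 (.leaf 274 2176 (.cons 298 (.leaf 322 1814 (.leaf 297 2179 .nil)) .nil)) .nil)) .nil)) .nil))))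
noncomputable def t97 : T := .cons 227 (.cons 298 (.leaf 322 1814 (.cons 274 (.leaf 203 1622 (.cons 273 (.leaf 252 1985 (.leaf 300 2176 .nil)) .nil)) .nil)) (.cons 202 (.leaf 226 1623 (.cons 203 (.leaf 178 1431 (.cons 180 (.leaf 204 1437 (.cons 179 (.leaf 156 1245 (.cons 181 (.leaf 182 1426 (.cons 200 (.leaf 201 1409 (.cons 274 (.leaf 250 1430 (.cons 273 (.leaf 252 1985 (.leaf 300 2176 .nil)) .nil)) .nil)) .nil)) .nil)) .nil)) .nil)) .nil)) (.cons 298 (.leaf 322 1814 (.cons 274 (.leaf 203 1622 (.cons 273 (.leaf 252 1985 (.leaf 271 2168 .nil)) .nil)) .nil)) (.cons 226 (.leaf 202 1623 (.cons 322 (.leaf 298 1814 (.cons 323 (.leaf 250 1815 (.leaf 346 2006 .nil)) .nil)) .nil)) .nil)))) (.cons 323 (.cons 226 (.leaf 250 1815 (.cons 227 (.leaf 202 1623 (.cons 322 (.leaf 298 1814 (.leaf 346 2006 .nil)) .nil)) .nil)) (.cons 226 (.leaf 250 1815 (.cons 227 (.leaf 202 1623 (.cons 324 (.leaf 300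 1820 (.leaf 348 2012 .nil)) .nil)) .nil)) (.cons 322 (.leaf 346 2006 (.cons 298 (.leaf 227 1814 (.cons 324 (.leaf 348 2012 (.cons 325 (.leaf 326 2387 (.leaf 297 2379 .nil)) .nil)) .nil)) .nil)) (.cons 226 (.leaf 250 1815 (.cons 346 (.leaf 322 2006 (.cons 347 (.leaf 370 2198 (.cons 348 (.leaf 324 2012 (.leaf 372 2204 .nil)) .nil)) .nil)) .nil)) .nil)))) (.cons 227 t96 (.cons 323 (.cons 346 (.leaf 322 2006 (.cons 347 (.leaf 370 2198 (.cons 348 (.leaf 324 2012 (.leaf 372 2204 .nil)) .nil)) .nil)) (.cons 250 (.leaf 226 1815 (.cons 274 (.leaf 347 2007 (.cons 273 (.leaf 252 1985 (.leaf 300 2176 .nil)) .nil)) .nil)) (.cons 250 (.leaf 226 1815 (.cons 322 (.leaf 346 2006 (.cons 324 (.leaf 348 2012 (.cons 325 (.cons 298 (.leaf 326 2387 (.leaf 297 2379 .nil)) (.cons 301 (.leaf 302 2385 (.cons 300 (.leaf 321 2377 (.cons 326 (.leaf 327 2395 (.cons 350 (.leaf 349 2576 (.leaf 351 2584 .nil)) .nil))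 .nil)) .nil)) (.cons 297 (.leaf 298 2379 (.cons 301 (.leaf 302 2385 (.cons 321 (.leaf 300 2377 (.cons 345 (.leaf 344 2562 (.cons 273 (.leaf 248 1991 (.leaf 274 1997 .nil)) .nil)) .nil)) .nil)) .nil)) .nil))) .nil)) .nil)) .nil)) .nil))) (.cons 323 (.cons 250 (.leaf 226 1815 (.cons 274 (.leaf 347 2007 (.cons 273 (.leaf 252 1985 (.leaf 271 1977 .nil)) .nil)) .nil)) (.cons 322 (.leaf 346 2006 (.cons 298 (.leaf 227 1814 (.cons 324 (.leaf 348 2012 (.cons 325 (.leaf 326 2387 (.leaf 297 2379 .nil)) .nil)) .nil)) .nil)) .nil)) (.cons 274 t95 (.cons 227 (.cons 202 (.leaf 226 1623 (.cons 203 (.leaf 178 1431 (.cons 180 (.leaf 204 1437 (.cons 179 (.leaf 156 1245 (.cons 274 (.leaf 298 1622 (.leaf 250 1430 .nil)) .nil)) .nil)) .nil)) .nil)) (.cons 300 (.leaf 324 1820 (.cons 274 (.leaf 273 2176 (.cons 203 (.leaf 298 1622 (.cons 178 (.leaf 202 1431 (.cons 179 (.leaf 154 1239 (.leaf 250 1430 .nil))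 .nil)) .nil)) .nil)) .nil)) (.cons 300 (.leaf 324 1820 (.cons 274 (.leaf 273 2176 (.cons 203 (.leaf 298 1622 (.cons 179 (.leaf 250 1430 (.cons 180 (.leaf 204 1437 (.leaf 156 1245 .nil)) .nil)) .nil)) .nil)) .nil)) (.cons 226 (.leaf 202 1623 (.cons 323 (.leaf 250 1815 (.cons 324 (.leaf 300 1820 (.leaf 348 2012 .nil)) .nil)) .nil)) (.cons 202 (.leaf 226 1623 (.cons 203 (.leaf 178 1431 (.cons 180 (.leaf 204 1437 (.cons 156 (.leaf 179 1245 (.cons 274 (.leaf 298 1622 (.cons 273 (.leaf 252 1985 (.leaf 300 2176 .nil)) .nil)) .nil)) .nil)) .nil)) .nil)) .nil))))) (.cons 323 (.cons 322 (.leaf 346 2006 (.cons 324 (.leaf 348 2012 (.cons 300 (.leaf 227 1820 (.cons 301 (.leaf 302 2386 (.leaf 321 2377 .nil)) .nil)) .nil)) .nil)) (.cons 250 (.leaf 226 1815 (.cons 274 (.leaf 347 2007 (.cons 273 (.leaf 252 1985 (.leaf 300 2176 .nil)) .nil)) .nil)) (.cons 250 (.leaf 226 1815 (.cons 274 (.leaf 347 2007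 (.cons 273 (.leaf 252 1985 (.leaf 271 1977 .nil)) .nil)) .nil)) .nil))) .nil)))))))
noncomputable def t98 : T := .cons 300 (.leaf 273 2176 (.cons 227 (.leaf 324 1820 (.cons 203 (.leaf 298 1622 (.cons 178 (.leaf 202 1431 (.cons 179 (.leaf 154 1239 (.leaf 250 1430 .nil)) .nil)) .nil)) .nil)) .nil)) (.cons 227 (.cons 204 (.leaf 228 1629 (.cons 322 (.leaf 298 1814 (.cons 323 (.leaf 346 2006 (.cons 347 (.leaf 250 2007 (.cons 348 (.leaf 324 2012 (.leaf 372 2204 .nil)) .nil)) .nil)) .nil)) .nil)) (.cons 204 (.leaf 228 1629 (.cons 324 (.leaf 300 1820 (.cons 323 (.leaf 348 2012 (.cons 346 (.leaf 322 2006 (.cons 347 (.leaf 250 2007 (.leaf 370 2198 .nil)) .nil)) .nil)) .nil)) .nil)) (.cons 202 (.leaf 226 1623 (.cons 203 (.leaf 178 1431 (.leaf 298 1622 .nil)) .nil)) .nil))) (.cons 227 (.cons 202 (.leaf 226 1623 (.cons 203 (.leaf 178 1431 (.leaf 298 1622 .nil)) .nil)) (.cons 202 (.leaf 226 1623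 (.cons 203 (.leaf 178 1431 (.cons 204 (.leaf 180 1437 (.leaf 228 1629 .nil)) .nil)) .nil)) (.cons 298 (.leaf 322 1814 (.cons 204 (.leaf 228 1629 (.cons 226 (.leaf 202 1623 (.cons 250 (.leaf 323 1812 (.cons 273 (.leaf 271 2168 (.cons 225 (.leaf 201 1615 (.cons 224 (.leaf 223 1784 (.cons 200 (.leaf 199 1595 (.cons 297 (.leaf 321 1806 (.leaf 249 1607 .nil)) .nil)) .nil)) .nil)) .nil)) .nil)) .nil)) .nil)) .nil)) (.cons 298 (.leaf 203 1622 (.leaf 322 1814 .nil)) .nil)))) (.cons 300 (.leaf 273 2176 (.cons 227 (.leaf 324 1820 (.cons 226 (.leaf 202 1623 (.cons 204 (.leaf 228 1629 (.cons 203 (.leaf 180 1437 (.cons 250 (.leaf 323 1815 (.leaf 179 1430 .nil)) .nil)) .nil)) .nil)) .nil)) .nil)) (.cons 273 (.leaf 300 2176 (.cons 271 (.leaf 250 1977 (.leaf 298 2168 .nil)) .nil)) (.cons 300 (.leaf 273 2176 (.cons 227 (.leaf 324 1820 (.cons 298 (.leaf 203 1622 (.leaf 322 1814 .nil)) .nil)) .nil))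 .nil)))))
noncomputable def t99 : T := .cons 203 (.leaf 298 1622 (.cons 204 (.leaf 180 1437 (.cons 179 (.leaf 250 1430 (.cons 228 (.leaf 299 1629 (.cons 155 (.leaf 252 1244 (.leaf 131 1052 .nil)) .nil)) .nil)) .nil)) .nil)) (.cons 299 (.cons 226 (.leaf 202 1623 (.cons 228 (.leaf 204 1629 (.cons 323 (.leaf 250 1815 (.leaf 252 1821 .nil)) .nil)) .nil)) (.cons 322 (.leaf 298 1814 (.cons 323 (.leaf 346 2006 (.cons 228 (.leaf 204 1629 (.leaf 252 1821 .nil)) .nil)) .nil)) (.cons 298 (.leaf 322 1814 (.cons 228 (.leaf 204 1629 (.cons 300 (.leaf 324 1820 (.cons 301 (.leaf 302 2195 (.cons 277 (.leaf 278 2193 (.cons 325 (.leaf 326 2384 (.cons 253 (.leaf 252 1831 (.cons 230 (.leaf 254 1837 (.cons 229 (.leaf 250 1810 (.leaf 206 1645 .nil)) .nil)) .nil)) .nil)) .nil)) .nil)) .nil)) .nil)) .nil)) (.cons 322 (.leaf 298 1814 (.cons 323 (.leaf 346 2006 (.cons 226 (.leaf 202 1623 (.leaf 250 1815 .nil))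 .nil)) .nil)) .nil)))) (.cons 299 (.cons 204 (.leaf 228 1629 (.cons 324 (.leaf 300 1820 (.cons 323 (.leaf 348 2012 (.cons 346 (.leaf 322 2006 (.cons 347 (.leaf 250 2007 (.leaf 370 2198 .nil)) .nil)) .nil)) .nil)) .nil)) (.cons 202 (.leaf 226 1623 (.cons 178 (.leaf 203 1431 (.cons 324 (.leaf 300 1820 (.cons 323 (.leaf 348 2012 (.cons 346 (.leaf 322 2006 (.cons 347 (.leaf 250 2007 (.leaf 370 2198 .nil)) .nil)) .nil)) .nil)) .nil)) .nil)) (.cons 202 (.leaf 226 1623 (.cons 203 (.leaf 178 1431 (.cons 204 (.leaf 180 1437 (.leaf 228 1629 .nil)) .nil)) .nil)) .nil))) (.cons 203 (.leaf 298 1622 (.cons 178 (.leaf 202 1431 (.cons 179 (.leaf 154 1239 (.leaf 250 1430 .nil)) .nil)) .nil)) (.cons 203 (.leaf 298 1622 (.cons 178 (.leaf 202 1431 (.cons 179 (.leaf 154 1239 (.cons 180 (.leaf 204 1437 (.leaf 156 1245 .nil)) .nil)) .nil)) .nil)) .nil))))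
noncomputable def t100 : T := .cons 299 (.leaf 300 2176 (.cons 248 (.leaf 247 1979 (.cons 227 (.cons 204 (.leaf 228 1629 (.cons 203 (.leaf 180 1437 (.leaf 298 1622 .nil)) .nil)) (.cons 204 (.leaf 228 1629 (.cons 203 (.leaf 180 1437 (.cons 178 (.leaf 202 1431 (.cons 179 (.leaf 154 1239 (.leaf 250 1430 .nil)) .nil)) .nil)) .nil)) (.cons 204 (.leaf 228 1629 (.cons 322 (.leaf 298 1814 (.cons 271 (.leaf 250 1977 (.cons 294 (.leaf 295 2162 (.cons 270 (.leaf 293 2154 (.cons 245 (.leaf 246 1963 (.cons 269 (.leaf 244 1955 (.leaf 249 1961 .nil)) .nil)) .nil)) .nil)) .nil)) .nil)) .nil)) (.cons 298 (.leaf 203 1622 (.leaf 322 1814 .nil)) .nil)))) .nil)) .nil)) (.cons 299 (.leaf 300 2176 (.cons 248 (.leaf 247 1979 (.cons 227 (.cons 298 (.leaf 203 1622 (.leaf 322 1814 .nil)) (.cons 204 (.leaf 228 1629 (.cons 203 (.leaf 180 1437 (.cons 178 (.leaf 202 1431 (.cons 179 (.leaf 154 1239 (.leaf 250 1430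 .nil)) .nil)) .nil)) .nil)) (.cons 322 (.leaf 298 1814 (.cons 204 (.leaf 228 1629 (.cons 323 (.leaf 346 2006 (.cons 347 (.leaf 250 2007 (.cons 348 (.leaf 324 2012 (.leaf 372 2204 .nil)) .nil)) .nil)) .nil)) .nil)) .nil))) .nil)) .nil)) (.cons 247 (.leaf 248 1979 (.cons 271 (.leaf 246 1971 (.leaf 250 1977 .nil)) .nil)) (.cons 271 (.leaf 250 1977 (.cons 299 (.leaf 300 2176 (.leaf 298 2168 .nil)) .nil)) (.cons 299 (.leaf 300 2176 (.cons 247 (.leaf 248 1979 (.cons 271 (.leaf 246 1971 (.leaf 298 2168 .nil)) .nil)) .nil)) .nil))))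
noncomputable def t101 : T := .cons 228 (.leaf 204 1629 (.cons 252 (.leaf 323 1821 (.cons 253 (.leaf 254 2002 (.cons 300 (.leaf 324 1820 (.cons 301 (.leaf 302 2195 (.cons 277 (.leaf 325 1831 (.cons 278 (.leaf 250 2000 (.leaf 298 2193 .nil)) .nil)) .nil)) .nil)) .nil)) .nil)) .nil)) (.cons 228 (.leaf 204 1629 (.cons 252 (.leaf 323 1821 (.cons 253 (.leaf 254 2002 (.cons 300 (.leaf 324 1820 (.cons 301 (.leaf 302 2195 (.cons 277 (.leaf 325 1831 (.cons 250 (.leaf 278 2000 (.cons 229 (.leaf 230 1809 (.leaf 249 1801 .nil)) .nil)) .nil)) .nil)) .nil)) .nil)) .nil)) .nil)) (.cons 322 (.leaf 298 1814 (.cons 323 (.leaf 346 2006 (.cons 324 (.leaf 300 1820 (.leaf 348 2012 .nil)) .nil)) .nil)) (.cons 322 (.leaf 298 1814 (.cons 204 (.leaf 228 1629 (.cons 323 (.leaf 346 2006 (.cons 347 (.leaf 250 2007 (.cons 348 (.leaf 324 2012 (.leaf 372 2204 .nil)) .nil)) .nil)) .nil)) .nil)) (.cons 322 (.leaf 298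 1814 (.cons 228 (.leaf 204 1629 (.cons 323 (.leaf 252 1821 (.leaf 346 2006 .nil)) .nil)) .nil)) (.cons 298 (.leaf 322 1814 (.cons 228 (.leaf 204 1629 (.cons 300 (.leaf 324 1820 (.cons 301 (.leaf 302 2195 (.cons 277 (.leaf 278 2193 (.cons 325 (.leaf 326 2384 (.cons 253 (.leaf 252 1831 (.cons 230 (.leaf 254 1837 (.cons 229 (.leaf 250 1810 (.leaf 206 1645 .nil)) .nil)) .nil)) .nil)) .nil)) .nil)) .nil)) .nil)) .nil)) .nil)))))
noncomputable def t102 : T := .cons 203 (.leaf 298 1622 (.cons 178 (.leaf 202 1431 (.cons 204 (.leaf 180 1437 (.cons 299 (.leaf 228 1629 (.cons 324 (.leaf 300 1820 (.cons 323 (.leaf 348 2012 (.cons 346 (.leaf 322 2006 (.cons 347 (.leaf 250 2007 (.leaf 370 2198 .nil)) .nil)) .nil)) .nil)) .nil)) .nil)) .nil)) .nil)) (.cons 299 t101 (.cons 203 (.cons 178 (.leaf 202 1431 (.cons 204 (.leaf 180 1437 (.cons 299 (.leaf 228 1629 (.cons 324 (.leaf 300 1820 (.cons 323 (.leaf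 348 2012 (.cons 346 (.leaf 322 2006 (.cons 347 (.leaf 250 2007 (.leaf 370 2198 .nil)) .nil)) .nil)) .nil)) .nil)) .nil)) .nil)) (.cons 179 (.leaf 250 1430 (.cons 178 (.leaf 202 1431 (.leaf 154 1239 .nil)) .nil)) (.cons 204 (.leaf 180 1437 (.cons 179 (.leaf 250 1430 (.cons 228 (.leaf 299 1629 (.cons 155 (.leaf 252 1244 (.leaf 131 1052 .nil)) .nil)) .nil)) .nil)) (.cons 178 (.leaf 202 1431 (.cons 179 (.leaf 154 1239 (.cons 180 (.leaf 204 1437 (.leaf 156 1245 .nil)) .nil)) .nil)) .nil)))) (.cons 203 (.leaf 298 1622 (.cons 178 (.leaf 202 1431 (.cons 179 (.leaf 154 1239 (.leaf 250 1430 .nil)) .nil)) .nil)) (.cons 203 (.leaf 298 1622 (.cons 178 (.leaf 202 1431 (.cons 179 (.leaf 154 1239 (.cons 180 (.leaf 204 1437 (.leaf 156 1245 .nil)) .nil)) .nil)) .nil)) .nil))))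
noncomputable def t103 : T := .cons 299 (.cons 228 (.leaf 204 1629 (.cons 298 (.leaf 203 1622 (.leaf 322 1814 .nil)) .nil)) (.cons 273 (.leaf 252 1985 (.leaf 300 2176 .nil)) .nil)) (.cons 299 (.cons 228 (.leaf 204 1629 (.cons 298 (.leaf 203 1622 (.leaf 322 1814 .nil)) .nil)) (.cons 228 (.leaf 204 1629 (.cons 252 (.leaf 323 1821 (.cons 253 (.leaf 254 2002 (.cons 300 (.leaf 324 1820 (.cons 301 (.leaf 302 2195 (.cons 277 (.leaf 325 1831 (.cons 250 (.leaf 278 2000 (.cons 229 (.leaf 230 1809 (.leaf 249 1801 .nil)) .nil)) .nil)) .nil)) .nil)) .nil)) .nil)) .nil)) (.cons 298 (.leaf 203 1622 (.leaf 322 1814 .nil)) .nil))) (.cons 299 (.cons 228 (.leaf 204 1629 (.cons 252 (.leaf 323 1821 (.leaf 273 1985 .nil)) .nil)) (.cons 228 (.leaf 204 1629 (.cons 252 (.leaf 323 1821 (.cons 253 (.leaf 254 2002 (.cons 300 (.leaf 324 1820 (.cons 301 (.leaf 302 2195 (.cons 277 (.leaf 325 1831 (.cons 278 (.leaf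 250 2000 (.leaf 298 2193 .nil)) .nil)) .nil)) .nil)) .nil)) .nil)) .nil)) (.cons 300 (.leaf 324 1820 (.leaf 273 2176 .nil)) .nil))) (.cons 203 (.cons 178 (.leaf 202 1431 (.cons 204 (.leaf 180 1437 (.cons 299 (.leaf 228 1629 (.cons 324 (.leaf 300 1820 (.cons 323 (.leaf 348 2012 (.cons 346 (.leaf 322 2006 (.cons 347 (.leaf 250 2007 (.leaf 370 2198 .nil)) .nil)) .nil)) .nil)) .nil)) .nil)) .nil)) (.cons 273 (.leaf 252 1985 (.cons 178 (.leaf 202 1431 (.cons 179 (.leaf 154 1239 (.cons 180 (.leaf 204 1437 (.leaf 156 1245 .nil)) .nil)) .nil)) .nil)) (.cons 178 (.leaf 202 1431 (.cons 179 (.leaf 154 1239 (.leaf 250 1430 .nil)) .nil)) (.cons 179 (.leaf 250 1430 (.cons 180 (.leaf 204 1437 (.leaf 156 1245 .nil)) .nil)) .nil)))) (.cons 203 (.leaf 298 1622 (.cons 178 (.leaf 202 1431 (.cons 204 (.leaf 180 1437 (.cons 299 (.leaf 228 1629 (.cons 324 (.leaf 300 1820 (.cons 323 (.leaf 348 2012 (.cons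 346 (.leaf 322 2006 (.cons 347 (.leaf 250 2007 (.leaf 370 2198 .nil)) .nil)) .nil)) .nil)) .nil)) .nil)) .nil)) .nil)) (.cons 203 (.leaf 298 1622 (.cons 178 (.leaf 202 1431 (.cons 179 (.leaf 154 1239 (.leaf 250 1430 .nil)) .nil)) .nil)) .nil)))))
noncomputable def t104 : T := .cons 201 (.leaf 228 1600 (.cons 175 (.leaf 176 1403 (.cons 174 (.leaf 199 1395 (.cons 179 (.leaf 180 1409 (.cons 224 (.leaf 223 1594 (.cons 248 (.leaf 247 1979 (.leaf 177 1413 .nil)) .nil)) .nil)) .nil)) .nil)) .nil)) (.cons 248 (.leaf 247 1979 (.cons 224 (.leaf 297 1604 (.cons 175 (.leaf 199 1407 (.cons 176 (.leaf 249 1412 (.leaf 151 1215 .nil)) .nil)) .nil)) .nil)) (.cons 201 (.leaf 228 1600 (.cons 175 (.leaf 176 1403 (.cons 179 (.leaf 180 1409 (.cons 199 (.leaf 174 1395 (.cons 223 (.leaf 222 1586 (.leaf 224 1594 .nil)) .nil)) .nil)) .nil)) .nil)) (.cons 201 (.leaf 228 1600 (.cons 175 (.leaf 176 1403 (.cons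 179 (.leaf 180 1409 (.cons 199 (.leaf 174 1395 (.cons 222 (.leaf 223 1586 (.cons 198 (.leaf 221 1578 (.cons 246 (.leaf 270 1397 (.cons 247 (.leaf 248 1979 (.leaf 271 1971 .nil)) .nil)) .nil)) .nil)) .nil)) .nil)) .nil)) .nil)) (.cons 201 (.leaf 228 1600 (.cons 179 (.leaf 180 1409 (.cons 223 (.leaf 224 1594 (.cons 199 (.leaf 222 1586 (.cons 247 (.leaf 248 1979 (.cons 174 (.leaf 175 1395 (.cons 198 (.leaf 173 1387 (.leaf 271 1399 .nil)) .nil)) .nil)) .nil)) .nil)) .nil)) .nil)) (.cons 201 (.leaf 228 1600 (.cons 179 (.leaf 180 1409 (.cons 223 (.leaf 224 1594 (.cons 247 (.leaf 248 1979 (.cons 199 (.leaf 222 1586 (.cons 271 (.leaf 246 1971 (.leaf 176 1405 .nil)) .nil)) .nil)) .nil)) .nil)) .nil)) (.cons 201 (.leaf 228 1600 (.cons 175 (.leaf 176 1403 (.cons 179 (.leaf 180 1409 (.cons 224 (.leaf 223 1594 (.cons 248 (.leaf 247 1979 (.leaf 177 1413 .nil)) .nil)) .nil)) .nil)) .nil)) .nil))))))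
noncomputable def t105 : T := .cons 299 (.cons 202 (.leaf 226 1623 (.cons 178 (.leaf 203 1431 (.cons 322 (.leaf 298 1814 (.cons 323 (.leaf 346 2006 (.cons 324 (.leaf 300 1820 (.leaf 348 2012 .nil)) .nil)) .nil)) .nil)) .nil)) (.cons 204 (.leaf 228 1629 (.cons 180 (.leaf 203 1437 (.cons 322 (.leaf 298 1814 (.cons 323 (.leaf 346 2006 (.cons 324 (.leaf 300 1820 (.leaf 348 2012 .nil)) .nil)) .nil)) .nil)) .nil)) (.cons 202 (.leaf 226 1623 (.cons 203 (.leaf 178 1431 (.cons 204 (.leaf 180 1437 (.leaf 228 1629 .nil)) .nil)) .nil)) (.cons 228 (.leaf 204 1629 (.cons 323 (.leaf 252 1821 (.cons 324 (.leaf 300 1820 (.leaf 348 2012 .nil)) .nil)) .nil)) .nil)))) (.cons 274 (.cons 273 (.leaf 252 1985 (.cons 247 (.leaf 248 1979 (.cons 271 (.leaf 246 1971 (.cons 299 (.leaf 300 2176 (.leaf 298 2168 .nil)) .nil)) .nil)) .nil)) (.cons 298 (.leaf 203 1622 (.cons 322 (.leaf 299 1814 (.leaf 346 2005 .nil))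 .nil)) (.cons 273 (.leaf 252 1985 (.cons 299 (.leaf 300 2176 (.cons 202 (.leaf 226 1623 (.cons 203 (.leaf 178 1431 (.cons 200 t104 .nil)) .nil)) .nil)) .nil)) (.cons 273 (.leaf 252 1985 (.cons 247 (.leaf 248 1979 (.cons 271 (.leaf 246 1971 (.cons 294 (.leaf 295 2162 (.cons 270 (.leaf 293 2154 (.cons 298 (.leaf 203 1622 (.leaf 297 2160 .nil)) .nil)) .nil)) .nil)) .nil)) .nil)) .nil)))) (.cons 299 (.cons 298 (.leaf 322 1814 (.cons 274 (.leaf 203 1622 (.cons 273 (.leaf 252 1985 (.leaf 300 2176 .nil)) .nil)) .nil)) (.cons 228 (.leaf 204 1629 (.cons 323 (.leaf 252 1821 (.cons 324 (.leaf 300 1820 (.leaf 348 2012 .nil)) .nil)) .nil)) (.cons 298 (.leaf 322 1814 (.cons 274 (.leaf 203 1622 (.cons 273 (.leaf 252 1985 (.leaf 271 2168 .nil)) .nil)) .nil)) (.cons 204 (.leaf 228 1629 (.cons 203 (.leaf 180 1437 (.cons 298 (.leaf 274 1622 (.leaf 322 1814 .nil)) .nil)) .nil)) .nil)))) (.cons 274 (.cons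 273 (.leaf 252 1985 (.cons 247 (.leaf 248 1979 (.cons 271 (.leaf 246 1971 (.cons 299 (.leaf 300 2176 (.leaf 298 2168 .nil)) .nil)) .nil)) .nil)) (.cons 298 (.leaf 203 1622 (.cons 322 (.leaf 299 1814 (.leaf 346 2005 .nil)) .nil)) (.cons 273 (.leaf 252 1985 (.cons 247 (.leaf 248 1979 (.cons 271 (.leaf 246 1971 (.cons 295 (.leaf 294 2162 (.cons 299 (.leaf 300 2176 (.cons 202 (.leaf 226 1623 (.cons 203 (.leaf 178 1431 (.cons 180 (.leaf 204 1437 (.cons 179 (.leaf 156 1245 (.cons 200 (.leaf 201 1409 (.cons 223 (.leaf 224 1597 (.cons 198 (.leaf 222 1591 (.cons 199 (.leaf 174 1399 (.leaf 176 1405 .nil)) .nil)) .nil)) .nil)) .nil)) .nil)) .nil)) .nil)) .nil)) .nil)) .nil)) .nil)) .nil)) (.cons 203 (.leaf 298 1622 (.cons 178 (.leaf 202 1431 (.cons 179 (.leaf 154 1239 (.cons 180 (.leaf 204 1437 (.leaf 156 1245 .nil)) .nil)) .nil)) .nil)) .nil)))) (.cons 202 (.cons 226 (.leaf 299 1623 (.cons 178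 (.leaf 203 1431 (.leaf 154 1236 .nil)) .nil)) (.cons 299 (.leaf 226 1623 (.cons 228 (.leaf 204 1629 (.cons 323 (.leaf 252 1821 (.cons 324 (.leaf 300 1820 (.leaf 348 2012 .nil)) .nil)) .nil)) .nil)) (.cons 203 (.leaf 178 1431 (.cons 204 (.leaf 180 1437 (.cons 201 (.cons 176 (.leaf 177 1411 (.cons 200 (.leaf 228 1600 (.leaf 175 1403 .nil)) .nil)) (.cons 176 (.leaf 177 1411 (.cons 200 (.leaf 175 1403 (.cons 224 (.leaf 223 1594 (.leaf 225 1602 .nil)) .nil)) .nil)) (.cons 176 (.leaf 177 1411 (.cons 229 (.leaf 228 1608 (.cons 205 (.leaf 230 1616 (.cons 182 (.leaf 181 1425 (.cons 206 (.leaf 226 1618 (.leaf 183 1433 .nil)) .nil)) .nil)) .nil)) .nil)) (.cons 228 (.leaf 200 1600 (.leaf 229 1608 .nil)) .nil)))) .nil)) .nil)) (.cons 203 (.leaf 178 1431 (.cons 204 (.leaf 180 1437 (.cons 228 (.leaf 299 1629 (.cons 229 (.leaf 230 1619 (.leaf 201 1608 .nil)) .nil)) .nil)) .nil)) .nil)))) (.cons 299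 (.cons 202 (.leaf 226 1623 (.cons 204 (.leaf 228 1629 (.cons 298 (.leaf 322 1814 (.cons 300 (.leaf 324 1820 (.cons 273 (.leaf 274 2176 (.leaf 297 2179 .nil)) .nil)) .nil)) .nil)) .nil)) (.cons 202 (.leaf 226 1623 (.cons 203 (.leaf 178 1431 (.cons 204 (.leaf 180 1437 (.leaf 228 1629 .nil)) .nil)) .nil)) (.cons 298 (.leaf 322 1814 (.cons 203 (.leaf 274 1622 (.cons 204 (.leaf 180 1437 (.leaf 228 1629 .nil)) .nil)) .nil)) (.cons 202 (.leaf 226 1623 (.cons 203 (.leaf 178 1431 (.cons 298 (.leaf 274 1622 (.leaf 322 1814 .nil)) .nil)) .nil)) .nil)))) .nil)))))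
noncomputable def t106 : T := .cons 180 (.leaf 204 1437 (.cons 178 (.leaf 202 1431 (.cons 179 (.leaf 154 1239 (.leaf 156 1245 .nil)) .nil)) .nil)) (.cons 274 (.leaf 298 1622 (.cons 252 (.leaf 273 1985 (.cons 253 (.leaf 254 2002 (.cons 179 (.cons 178 (.leaf 202 1431 (.leaf 154 1239 .nil)) (.cons 155 (.leaf 228 1244 (.cons 130 (.leaf 154 1047 (.cons 131 (.leaf 106 855 (.cons 132 (.leaf 156 1053 (.leaf 108 861 .nil)) .nil)) .nil)) .nil)) (.cons 155 (.leaf 228 1244 (.cons 132 (.leaf 156 1053 (.cons 131 (.leaf 108 861 (.cons 202 (.leaf 178 1431 (.leaf 226 1046 .nil)) .nil)) .nil)) .nil)) .nil))) .nil)) .nil)) .nil)) (.cons 180 (.leaf 204 1437 (.cons 274 (.leaf 298 1622 (.cons 252 (.leaf 273 1985 (.cons 179 (.leaf 156 1245 (.cons 253 (.leaf 254 2002 (.cons 228 (.leaf 155 1244 (.cons 226 (.leaf 225 1800 (.cons 229 (.cons 202 (.leaf 201 1611 (.leaf 230 1619 .nil)) (.cons 230 (.leaf 231 1818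 (.cons 206 (.leaf 205 1617 (.leaf 207 1625 .nil)) .nil)) (.cons 202 (.leaf 201 1611 (.cons 181 (.leaf 182 1426 (.cons 205 (.leaf 206 1617 (.leaf 157 1254 .nil)) .nil)) .nil)) .nil))) .nil)) .nil)) .nil)) .nil)) .nil)) .nil)) .nil)) (.cons 180 (.leaf 204 1437 (.cons 179 (.leaf 156 1245 (.cons 154 (.leaf 178 1239 (.cons 155 (.leaf 130 1047 (.cons 152 (.leaf 153 1216 (.cons 181 (.leaf 182 1235 (.cons 252 (.leaf 228 1244 (.cons 274 (.leaf 298 1622 (.leaf 273 1985 .nil)) .nil)) .nil)) .nil)) .nil)) .nil)) .nil)) .nil)) (.cons 274 (.leaf 298 1622 (.cons 252 (.leaf 273 1985 (.cons 204 (.leaf 180 1437 (.cons 202 (.leaf 178 1431 (.cons 253 (.leaf 254 2002 (.cons 226 (.cons 205 (.leaf 206 1618 (.leaf 225 1610 .nil)) (.cons 205 (.leaf 206 1618 (.cons 229 (.leaf 230 1616 (.cons 201 (.leaf 228 1608 (.cons 176 (.leaf 177 1411 (.cons 200 (.leaf 199 1592 (.leaf 175 1403 .nil)) .nil)) .nil)) .nil))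 .nil)) (.cons 225 (.leaf 224 1792 (.leaf 228 1800 .nil)) .nil))) .nil)) .nil)) .nil)) .nil)) .nil)) .nil))))
noncomputable def t107 : T := .cons 299 (.cons 298 (.leaf 322 1814 (.cons 202 (.leaf 226 1623 (.cons 203 (.leaf 178 1431 (.leaf 274 1622 .nil)) .nil)) .nil)) (.cons 202 (.leaf 226 1623 (.cons 228 (.leaf 204 1629 (.cons 323 (.leaf 252 1821 (.cons 324 (.leaf 300 1820 (.leaf 348 2012 .nil)) .nil)) .nil)) .nil)) (.cons 298 (.leaf 322 1814 (.cons 274 (.leaf 203 1622 (.cons 273 (.leaf 252 1985 (.leaf 300 2176 .nil)) .nil)) .nil)) .nil))) (.cons 203 t106 (.cons 299 (.cons 202 (.leaf 226 1623 (.cons 228 (.leaf 204 1629 (.cons 322 (.leaf 298 1814 (.cons 323 (.leaf 252 1821 (.leaf 346 2006 .nil)) .nil)) .nil)) .nil)) (.cons 300 (.leaf 324 1820 (.cons 202 (.leaf 226 1623 (.cons 273 (.leaf 274 2176 (.cons 298 (.leaf 322 1814 (.leaf 297 2179 .nil)) .nil)) .nil)) .nil)) (.cons 202 (.leaf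 226 1623 (.cons 228 (.leaf 204 1629 (.cons 323 (.leaf 252 1821 (.cons 324 (.leaf 300 1820 (.leaf 348 2012 .nil)) .nil)) .nil)) .nil)) (.cons 204 (.leaf 228 1629 (.cons 298 (.leaf 322 1814 (.cons 300 (.leaf 324 1820 (.cons 273 (.leaf 274 2176 (.leaf 297 2179 .nil)) .nil)) .nil)) .nil)) .nil)))) t105))
noncomputable def t108 : T := .cons 250 (.leaf 226 1815 (.cons 274 (.leaf 347 2007 (.cons 273 (.leaf 252 1985 (.leaf 300 2176 .nil)) .nil)) .nil)) (.cons 252 (.leaf 228 1821 (.cons 274 (.leaf 273 1985 (.cons 322 (.leaf 346 2006 (.cons 324 (.leaf 348 2012 (.cons 253 (.leaf 254 2002 (.cons 301 (.cons 300 (.leaf 302 2386 (.leaf 321 2377 .nil)) (.cons 325 (.leaf 302 2385 (.cons 298 (.leaf 326 2387 (.leaf 297 2379 .nil)) .nil)) (.cons 300 (.leaf 321 2377 (.cons 277 (.leaf 229 1830 (.cons 298 (.leaf 278 2193 (.cons 325 (.leaf 297 2376 (.leaf 326 2384 .nil)) .nil)) .nil)) .nil)) .nil))) .nil))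 .nil)) .nil)) .nil)) .nil)) (.cons 250 (.leaf 226 1815 (.cons 274 (.leaf 347 2007 (.cons 273 (.leaf 300 2176 (.leaf 271 1977 .nil)) .nil)) .nil)) (.cons 348 (.leaf 324 2012 (.cons 250 (.leaf 226 1815 (.cons 252 (.leaf 228 1821 (.cons 249 (.leaf 273 1986 (.cons 248 (.leaf 271 1978 (.cons 224 (.leaf 223 1787 (.leaf 225 1795 .nil)) .nil)) .nil)) .nil)) .nil)) .nil)) (.cons 250 (.leaf 226 1815 (.cons 228 (.leaf 252 1821 (.cons 347 (.leaf 274 2007 (.cons 348 (.leaf 324 2012 (.leaf 372 2204 .nil)) .nil)) .nil)) .nil)) .nil))))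
noncomputable def t109 : T := .cons 252 (.leaf 228 1821 (.cons 274 (.leaf 273 1985 (.cons 253 (.leaf 254 2002 (.cons 347 (.leaf 250 2007 (.cons 371 (.leaf 298 2199 (.cons 394 (.leaf 370 2390 (.cons 395 (.leaf 418 2582 (.cons 396 (.leaf 372 2396 (.leaf 420 2588 .nil)) .nil)) .nil)) .nil)) .nil)) .nil)) .nil)) .nil)) (.cons 252 (.leaf 228 1821 (.cons 274 (.leaf 273 1985 (.cons 253 (.leaf 254 2002 (.cons 347 (.cons 371 (.leaf 298 2199 (.cons 394 (.leaf 370 2390 (.cons 395 (.leaf 418 2582 (.cons 396 (.leaf 372 2396 (.leaf 420 2588 .nil)) .nil)) .nil)) .nil)) (.cons 348 (.leaf 324 2012 (.leaf 372 2204 .nil)) (.cons 371 (.leaf 298 2199 (.cons 324 (.leaf 348 2012 (.cons 394 (.leaf 370 2390 (.cons 395 (.leaf 300 2397 (.leaf 418 2582 .nil)) .nil)) .nil)) .nil)) .nil))) .nil)) .nil)) .nil)) (.cons 250 (.leaf 226 1815 (.cons 274 (.leaf 347 2007 (.cons 273 (.leaf 300 2176 (.leaf 271 1977 .nil))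 .nil)) .nil)) (.cons 348 (.leaf 324 2012 (.cons 250 (.leaf 226 1815 (.cons 252 (.leaf 228 1821 (.cons 249 (.leaf 273 1986 (.cons 248 (.leaf 271 1978 (.cons 224 (.leaf 223 1787 (.leaf 225 1795 .nil)) .nil)) .nil)) .nil)) .nil)) .nil)) (.cons 250 (.leaf 226 1815 (.cons 228 (.leaf 252 1821 (.cons 347 (.leaf 274 2007 (.cons 348 (.leaf 324 2012 (.leaf 372 2204 .nil)) .nil)) .nil)) .nil)) .nil))))
noncomputable def t110 : T := .cons 322 (.leaf 346 2006 (.cons 324 (.leaf 348 2012 (.cons 250 (.leaf 226 1815 (.cons 325 (.cons 298 (.leaf 326 2387 (.leaf 297 2379 .nil)) (.cons 301 (.leaf 302 2385 (.cons 300 (.leaf 321 2377 (.cons 274 (.leaf 347 2007 (.leaf 273 2176 .nil)) .nil)) .nil)) .nil)) .nil)) .nil)) .nil)) (.cons 346 (.leaf 322 2006 (.cons 347 (.leaf 370 2198 (.cons 348 (.leaf 324 2012 (.leaf 372 2204 .nil)) .nil)) .nil)) (.cons 250 (.leaf 226 1815 (.cons 274 (.leaf 347 2007 (.cons 273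 (.leaf 300 2176 (.leaf 271 1977 .nil)) .nil)) .nil)) (.cons 322 (.leaf 346 2006 (.cons 324 (.leaf 348 2012 (.cons 250 (.leaf 226 1815 (.cons 325 (.cons 298 (.leaf 326 2387 (.leaf 297 2379 .nil)) (.cons 301 (.leaf 302 2385 (.cons 300 (.leaf 321 2377 (.cons 326 (.leaf 327 2395 (.cons 350 (.leaf 349 2576 (.leaf 351 2584 .nil)) .nil)) .nil)) .nil)) (.cons 297 (.leaf 298 2379 (.cons 301 (.leaf 302 2385 (.cons 321 (.leaf 300 2377 (.cons 345 (.leaf 344 2562 (.cons 273 (.leaf 248 1991 (.leaf 274 1997 .nil)) .nil)) .nil)) .nil)) .nil)) .nil))) .nil)) .nil)) .nil)) .nil)))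
noncomputable def t111 : T := .cons 252 (.leaf 228 1821 (.cons 274 (.leaf 273 1985 (.cons 253 (.leaf 254 2002 (.cons 347 (.cons 346 (.leaf 322 2006 (.leaf 370 2198 .nil)) (.cons 371 (.leaf 298 2199 (.cons 394 (.leaf 370 2390 (.cons 395 (.leaf 418 2582 (.cons 396 (.leaf 372 2396 (.leaf 420 2588 .nil)) .nil)) .nil)) .nil)) (.cons 322 (.leaf 346 2006 (.cons 300 (.cons 301 (.leaf 302 2386 (.cons 321 (.leaf 298 2378 (.leaf 320 2369 .nil)) .nil)) (.cons 320 (.leaf 321 2369 (.cons 371 (.leaf 298 2199 (.cons 395 (.leaf 324 2397 (.cons 372 (.leaf 348 2204 (.leaf 396 2396 .nil)) .nil)) .nil)) .nil)) (.cons 301 (.leaf 302 2386 (.cons 298 (.leaf 371 2199 (.cons 277 (.leaf 278 2193 (.cons 324 (.leaf 348 2012 (.leaf 229 1830 .nil)) .nil)) .nil)) .nil)) (.cons 301 (.leaf 302 2386 (.cons 321 (.leaf 320 2369 (.leaf 324 2377 .nil)) .nil)) .nil)))) .nil)) .nil))) .nil)) .nil)) .nil)) (.cons 252 (.leaf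 228 1821 (.cons 274 (.leaf 273 1985 (.cons 253 (.leaf 254 2002 (.cons 347 (.cons 371 (.leaf 298 2199 (.cons 394 (.leaf 370 2390 (.cons 395 (.leaf 418 2582 (.cons 396 (.leaf 372 2396 (.leaf 420 2588 .nil)) .nil)) .nil)) .nil)) (.cons 348 (.leaf 324 2012 (.leaf 372 2204 .nil)) (.cons 371 (.leaf 298 2199 (.cons 324 (.leaf 348 2012 (.cons 394 (.leaf 370 2390 (.cons 395 (.leaf 300 2397 (.leaf 418 2582 .nil)) .nil)) .nil)) .nil)) .nil))) .nil)) .nil)) .nil)) (.cons 252 (.leaf 228 1821 (.cons 274 (.leaf 273 1985 (.cons 253 (.leaf 254 2002 (.cons 347 (.cons 371 (.leaf 298 2199 (.cons 394 (.leaf 370 2390 (.cons 395 (.leaf 418 2582 (.cons 396 (.leaf 372 2396 (.leaf 420 2588 .nil)) .nil)) .nil)) .nil)) (.cons 346 (.leaf 322 2006 (.leaf 370 2198 .nil)) (.cons 322 (.leaf 346 2006 (.cons 300 (.cons 301 (.leaf 302 2386 (.cons 321 (.leaf 298 2378 (.leaf 320 2369 .nil)) .nil)) (.cons 320 (.leaf 321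 2369 (.cons 371 (.leaf 298 2199 (.cons 395 (.leaf 324 2397 (.cons 396 (.leaf 372 2396 (.leaf 420 2588 .nil)) .nil)) .nil)) .nil)) (.cons 301 (.leaf 302 2386 (.cons 321 (.leaf 320 2369 (.leaf 324 2377 .nil)) .nil)) (.cons 301 (.leaf 302 2386 (.cons 298 (.leaf 371 2199 (.cons 277 (.leaf 278 2193 (.cons 324 (.leaf 229 1830 (.cons 325 (.leaf 297 2376 (.leaf 326 2384 .nil)) .nil)) .nil)) .nil)) .nil)) .nil)))) .nil)) .nil))) .nil)) .nil)) .nil)) (.cons 346 (.leaf 322 2006 (.cons 252 (.leaf 228 1821 (.cons 274 (.leaf 273 1985 (.cons 253 (.leaf 254 2002 (.cons 347 (.leaf 370 2198 (.cons 371 (.leaf 298 2199 (.cons 372 (.leaf 348 2204 (.leaf 396 2396 .nil)) .nil)) .nil)) .nil)) .nil)) .nil)) .nil)) (.cons 346 (.leaf 322 2006 (.cons 347 (.leaf 370 2198 (.cons 348 (.leaf 324 2012 (.leaf 372 2204 .nil)) .nil)) .nil)) (.cons 252 (.leaf 228 1821 (.cons 274 (.leaf 273 1985 (.cons 322 (.leaf 346 2006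 (.cons 324 (.leaf 348 2012 (.cons 253 (.leaf 254 2002 (.cons 301 (.cons 300 (.leaf 302 2386 (.leaf 321 2377 .nil)) (.cons 325 (.leaf 302 2385 (.cons 298 (.leaf 326 2387 (.leaf 297 2379 .nil)) .nil)) (.cons 300 (.leaf 321 2377 (.cons 277 (.leaf 229 1830 (.cons 298 (.leaf 278 2193 (.cons 325 (.leaf 297 2376 (.leaf 326 2384 .nil)) .nil)) .nil)) .nil)) .nil))) .nil)) .nil)) .nil)) .nil)) .nil)) .nil)))))
noncomputable def t112 : T := .cons 202 (.leaf 226 1613 (.cons 201 (.leaf 178 1421 (.cons 200 (.leaf 176 1415 (.leaf 224 1607 .nil)) .nil)) .nil)) (.cons 202 (.leaf 226 1613 (.cons 201 (.leaf 178 1421 (.cons 176 (.leaf 200 1415 (.cons 177 (.leaf 248 1414 (.leaf 152 1223 .nil)) .nil)) .nil)) .nil)) (.cons 202 (.leaf 226 1613 (.cons 201 (.leaf 178 1421 (.cons 248 (.leaf 177 1414 (.cons 321 (.leaf 345 1991 (.leaf 224 1799 .nil)) .nil)) .nil)) .nil)) (.cons 201 (.cons 224 (.leaf 200 1607 (.cons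 248 (.leaf 177 1414 (.leaf 321 1799 .nil)) .nil)) (.cons 177 (.leaf 248 1414 (.cons 152 (.leaf 176 1223 (.cons 153 (.leaf 128 1031 (.cons 154 (.leaf 178 1229 (.leaf 130 1037 .nil)) .nil)) .nil)) .nil)) (.cons 200 (.leaf 176 1415 (.leaf 224 1607 .nil)) .nil))) (.cons 224 (.leaf 200 1607 (.cons 248 (.leaf 321 1799 (.cons 226 (.leaf 202 1613 (.cons 223 (.cons 198 (.leaf 199 1587 (.cons 222 (.leaf 221 1768 (.leaf 197 1579 .nil)) .nil)) (.cons 247 (.leaf 246 1777 (.cons 199 (.leaf 175 1404 (.leaf 198 1587 .nil)) .nil)) (.cons 246 (.leaf 247 1777 (.cons 222 (.leaf 221 1768 (.leaf 245 1770 .nil)) .nil)) .nil))) .nil)) .nil)) .nil)) .nil))))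
noncomputable def t113 : T := .cons 225 (.cons 202 (.leaf 226 1613 (.cons 201 (.leaf 178 1421 (.cons 200 (.leaf 176 1415 (.leaf 224 1607 .nil)) .nil)) .nil)) (.cons 202 (.leaf 226 1613 (.cons 201 (.leaf 178 1421 (.cons 298 (.leaf 300 2179 (.leaf 322 1804 .nil)) .nil)) .nil)) (.cons 298 (.leaf 300 2179 (.leaf 322 1804 .nil)) .nil))) (.cons 225 (.cons 202 (.leaf 226 1613 (.cons 201 (.leaf 178 1421 (.cons 200 (.leaf 176 1415 (.leaf 224 1607 .nil)) .nil)) .nil)) (.cons 202 (.leaf 226 1613 (.cons 201 (.leaf 178 1421 (.cons 177 (.leaf 248 1414 (.cons 176 (.leaf 200 1415 (.leaf 152 1223 .nil)) .nil)) .nil)) .nil)) (.cons 202 (.leaf 226 1613 (.cons 201 (.leaf 178 1421 (.cons 248 (.leaf 177 1414 (.cons 321 (.leaf 345 1991 (.leaf 224 1799 .nil)) .nil)) .nil)) .nil)) (.cons 224 (.leaf 200 1607 (.cons 321 (.leaf 248 1799 (.cons 346 (.leaf 322 1996 (.cons 344 (.leaf 320 1990 (.cons 345 (.leaf 368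 2182 (.leaf 370 2188 .nil)) .nil)) .nil)) .nil)) .nil)) .nil)))) (.cons 298 (.leaf 300 2179 (.cons 271 (.leaf 270 2160 (.cons 321 (.cons 248 (.leaf 345 1991 (.leaf 224 1799 .nil)) (.cons 320 (.leaf 344 1990 (.cons 319 (.leaf 322 2361 (.leaf 318 2353 .nil)) .nil)) .nil)) .nil)) .nil)) (.cons 298 (.leaf 300 2179 (.cons 225 (.leaf 322 1804 (.cons 202 (.leaf 226 1613 (.cons 201 (.leaf 178 1421 (.cons 176 (.leaf 200 1415 (.cons 177 (.leaf 248 1414 (.leaf 152 1223 .nil)) .nil)) .nil)) .nil)) .nil)) .nil)) (.cons 298 (.leaf 300 2179 (.cons 271 (.leaf 270 2160 (.cons 225 t112 .nil)) .nil)) .nil))))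
noncomputable def t114 : T := .cons 250 (.leaf 252 1986 (.cons 271 (.leaf 248 1978 (.leaf 270 1969 .nil)) .nil)) (.cons 297 t113 (.cons 250 (.leaf 252 1986 (.cons 271 (.leaf 270 1969 (.cons 297 (.cons 298 (.leaf 300 2179 (.cons 226 (.leaf 321 1805 (.cons 202 (.leaf 178 1428 (.leaf 225 1613 .nil)) .nil)) .nil)) (.cons 298 (.leaf 300 2179 (.cons 322 (.leaf 225 1804 (.cons 346 (.leaf 370 2197 (.leaf 321 1996 .nil)) .nil)) .nil)) (.cons 298 (.leaf 300 2179 (.cons 225 (.leaf 322 1804 (.cons 200 (.leaf 224 1607 (.cons 201 (.leaf 176 1415 (.cons 202 (.leaf 178 1421 (.leaf 226 1613 .nil)) .nil)) .nil)) .nil)) .nil)) (.cons 226 (.leaf 321 1805 (.cons 202 (.leaf 178 1428 (.leaf 225 1613 .nil)) .nil)) (.cons 321 (.leaf 226 1805 (.cons 298 (.leaf 300 2179 (.cons 320 (.leaf 344 1990 (.cons 322 (.leaf 319 2361 (.leaf 346 1996 .nil)) .nil)) .nil)) .nil)) .nil))))) .nil)) .nil)) (.cons 250 (.leaf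 252 1986 (.cons 297 (.cons 298 (.leaf 300 2179 (.cons 321 (.leaf 226 1805 (.cons 322 (.leaf 225 1804 (.leaf 346 1996 .nil)) .nil)) .nil)) (.cons 298 (.leaf 300 2179 (.cons 225 (.leaf 322 1804 (.cons 200 (.leaf 224 1607 (.cons 202 (.leaf 226 1613 (.cons 201 (.leaf 176 1415 (.leaf 178 1421 .nil)) .nil)) .nil)) .nil)) .nil)) (.cons 298 (.leaf 300 2179 (.cons 225 (.leaf 322 1804 (.cons 200 (.leaf 224 1607 (.cons 201 (.leaf 176 1415 (.cons 177 (.leaf 248 1414 (.cons 178 (.leaf 202 1421 (.leaf 154 1229 .nil)) .nil)) .nil)) .nil)) .nil)) .nil)) (.cons 321 (.leaf 226 1805 (.cons 248 (.leaf 345 1991 (.leaf 224 1799 .nil)) .nil)) .nil)))) .nil)) .nil)))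
noncomputable def t115 : T := .cons 250 (.leaf 226 1815 (.cons 322 (.leaf 346 2006 (.cons 347 (.leaf 274 2007 (.cons 348 (.leaf 324 2012 (.leaf 372 2204 .nil)) .nil)) .nil)) .nil)) (.cons 252 (.leaf 228 1821 (.cons 274 (.leaf 273 1985 (.cons 253 (.leaf 254 2002 (.cons 347 (.cons 348 (.leaf 324 2012 (.leaf 372 2204 .nil)) (.cons 371 (.leaf 298 2199 (.cons 394 (.leaf 370 2390 (.cons 395 (.leaf 418 2582 (.cons 396 (.leaf 372 2396 (.leaf 420 2588 .nil)) .nil)) .nil)) .nil)) (.cons 298 (.leaf 371 2199 (.cons 324 (.leaf 348 2012 (.cons 325 (.leaf 326 2387 (.cons 297 (.leaf 300 2376 (.leaf 322 2379 .nil)) .nil)) .nil)) .nil)) .nil))) .nil)) .nil)) .nil)) (.cons 348 (.leaf 324 2012 (.cons 250 (.leaf 226 1815 (.cons 252 (.leaf 228 1821 (.cons 249 (.leaf 273 1986 (.cons 347 (.leaf 274 2007 (.leaf 372 2204 .nil)) .nil)) .nil)) .nil)) .nil)) (.cons 250 (.leaf 226 1815 (.cons 274 (.leaf 347 2007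 (.cons 273 (.leaf 252 1985 (.leaf 300 2176 .nil)) .nil)) .nil)) (.cons 348 (.leaf 324 2012 (.cons 250 (.leaf 226 1815 (.cons 252 (.leaf 228 1821 (.cons 249 (.leaf 273 1986 (.cons 347 (.leaf 372 2204 (.cons 346 (.leaf 322 2006 (.leaf 370 2198 .nil)) .nil)) .nil)) .nil)) .nil)) .nil)) (.cons 348 (.leaf 324 2012 (.cons 250 (.leaf 226 1815 (.cons 252 (.leaf 228 1821 (.cons 249 (.leaf 273 1986 (.cons 248 (.leaf 271 1978 (.cons 224 (.leaf 223 1787 (.leaf 225 1795 .nil)) .nil)) .nil)) .nil)) .nil)) .nil)) .nil)))))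
noncomputable def t116 : T := .cons 323 t115 (.cons 273 (.cons 274 (.leaf 252 1985 (.leaf 300 2176 .nil)) (.cons 249 t114 (.cons 274 (.leaf 300 2176 (.cons 271 (.leaf 250 1977 (.leaf 298 2168 .nil)) .nil)) (.cons 274 (.leaf 252 1985 (.cons 271 (.leaf 250 1977 (.leaf 298 2168 .nil)) .nil)) .nil)))) (.cons 323 (.cons 228 (.leaf 252 1821 (.cons 346 (.leaf 322 2006 (.cons 347 (.leaf 370 2198 (.cons 348 (.leaf 324 2012 (.leaf 372 2204 .nil)) .nil)) .nil)) .nil)) (.cons 250 (.leaf 226 1815 (.cons 252 (.leaf 228 1821 (.cons 249 (.leaf 273 1986 (.cons 248 (.leaf 271 1978 (.cons 224 (.leaf 223 1787 (.leaf 225 1795 .nil)) .nil)) .nil)) .nil)) .nil)) (.cons 226 (.leaf 250 1815 (.cons 346 (.leaf 322 2006 (.cons 347 (.leaf 370 2198 (.cons 348 (.leaf 324 2012 (.leaf 372 2204 .nil)) .nil)) .nil)) .nil)) .nil))) (.cons 323 (.cons 250 (.leaf 226 1815 (.cons 228 (.leaf 252 1821 (.cons 347 (.leaf 274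 2007 (.cons 348 (.leaf 324 2012 (.leaf 372 2204 .nil)) .nil)) .nil)) .nil)) (.cons 346 (.leaf 322 2006 (.cons 347 (.leaf 370 2198 (.cons 348 (.leaf 324 2012 (.leaf 372 2204 .nil)) .nil)) .nil)) (.cons 250 (.leaf 226 1815 (.cons 228 (.leaf 252 1821 (.cons 346 (.leaf 322 2006 (.cons 347 (.leaf 274 2007 (.leaf 370 2198 .nil)) .nil)) .nil)) .nil)) (.cons 322 (.leaf 346 2006 (.cons 324 (.leaf 348 2012 (.cons 250 (.leaf 226 1815 (.cons 252 (.leaf 228 1821 (.cons 325 (.cons 298 (.leaf 326 2387 (.leaf 297 2379 .nil)) (.cons 301 (.leaf 302 2385 (.cons 300 (.leaf 321 2377 (.cons 326 (.leaf 327 2395 (.cons 350 (.leaf 349 2576 (.leaf 351 2584 .nil)) .nil)) .nil)) .nil)) (.cons 298 (.leaf 297 2379 (.cons 301 (.leaf 302 2385 (.cons 300 (.leaf 321 2377 (.cons 277 (.leaf 278 2193 (.cons 253 (.leaf 229 1830 (.cons 254 (.leaf 274 2002 (.leaf 230 1837 .nil)) .nil)) .nil)) .nil)) .nil)) .nil)) .nil)))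 .nil)) .nil)) .nil)) .nil)) .nil)))) (.cons 323 t111 (.cons 323 t110 (.cons 323 t109 (.cons 323 t108 .nil)))))))
noncomputable def t117 : T := .cons 204 (.leaf 228 1629 (.cons 203 (.leaf 180 1437 (.cons 178 (.leaf 202 1431 (.cons 179 (.leaf 154 1239 (.cons 274 (.leaf 298 1622 (.leaf 250 1430 .nil)) .nil)) .nil)) .nil)) .nil)) (.cons 300 (.leaf 324 1820 (.cons 204 (.leaf 228 1629 (.cons 203 (.leaf 180 1437 (.cons 274 (.leaf 298 1622 (.leaf 273 2176 .nil)) .nil)) .nil)) .nil)) (.cons 226 (.leaf 202 1623 (.cons 250 (.leaf 323 1815 (.cons 300 (.leaf 324 1820 (.cons 273 (.leaf 274 2176 (.cons 297 (.leaf 298 2179 (.cons 249 (.leaf 321 1805 (.cons 248 (.leaf 271 1978 (.leaf 228 1793 .nil)) .nil)) .nil)) .nil)) .nil)) .nil)) .nil)) (.cons 226 (.leaf 202 1623 (.cons 250 (.leaf 323 1815 (.cons 300 (.leaf 324 1820 (.cons 273 (.leaf 274 2176 (.cons 297 (.leaf 298 2179 (.cons 249 (.leaf 321 1805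 (.cons 248 (.leaf 271 1978 (.leaf 247 1785 .nil)) .nil)) .nil)) .nil)) .nil)) .nil)) .nil)) (.cons 226 (.leaf 202 1623 (.cons 204 (.leaf 228 1629 (.cons 180 (.leaf 203 1437 (.cons 323 (.leaf 250 1815 (.cons 324 (.leaf 300 1820 (.leaf 348 2012 .nil)) .nil)) .nil)) .nil)) .nil)) .nil))))
noncomputable def t118 : T := .cons 202 (.leaf 226 1623 (.cons 203 (.leaf 178 1431 (.cons 298 (.leaf 274 1622 (.leaf 322 1814 .nil)) .nil)) .nil)) (.cons 298 (.leaf 322 1814 (.cons 203 (.leaf 274 1622 (.cons 178 (.leaf 202 1431 (.cons 179 (.leaf 154 1239 (.cons 180 (.leaf 204 1437 (.leaf 156 1245 .nil)) .nil)) .nil)) .nil)) .nil)) (.cons 298 (.leaf 322 1814 (.cons 203 (.leaf 274 1622 (.cons 204 (.leaf 180 1437 (.leaf 228 1629 .nil)) .nil)) .nil)) (.cons 226 (.leaf 202 1623 (.cons 204 (.leaf 228 1629 (.cons 180 (.leaf 203 1437 (.cons 323 (.leaf 250 1815 (.cons 346 (.leaf 322 2006 (.cons 347 (.leaf 370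 2198 (.cons 348 (.leaf 324 2012 (.leaf 372 2204 .nil)) .nil)) .nil)) .nil)) .nil)) .nil)) .nil)) (.cons 226 (.leaf 202 1623 (.cons 204 (.leaf 228 1629 (.cons 203 (.leaf 180 1437 (.cons 205 (.leaf 206 1618 (.cons 224 (.leaf 225 1601 (.cons 250 (.leaf 323 1815 (.cons 274 (.leaf 298 1621 (.leaf 179 1430 .nil)) .nil)) .nil)) .nil)) .nil)) .nil)) .nil)) (.cons 226 (.leaf 202 1623 (.cons 204 (.leaf 228 1629 (.cons 298 (.leaf 322 1814 (.cons 323 (.leaf 250 1815 (.cons 348 (.leaf 324 2012 (.cons 347 (.leaf 372 2204 (.cons 370 (.leaf 346 2198 (.cons 371 (.leaf 274 2199 (.leaf 394 2390 .nil)) .nil)) .nil)) .nil)) .nil)) .nil)) .nil)) .nil)) .nil)))))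
noncomputable def t119 : T := .cons 323 (.cons 226 (.leaf 250 1815 (.cons 227 (.leaf 202 1623 (.cons 322 (.leaf 298 1814 (.leaf 346 2006 .nil)) .nil)) .nil)) (.cons 226 (.leaf 250 1815 (.cons 227 (.leaf 202 1623 (.cons 324 (.leaf 300 1820 (.leaf 348 2012 .nil)) .nil)) .nil)) (.cons 346 (.leaf 322 2006 (.cons 347 (.leaf 370 2198 (.cons 348 (.leaf 324 2012 (.leaf 372 2204 .nil)) .nil)) .nil)) .nil))) (.cons 323 t110 (.cons 227 (.cons 202 (.leaf 226 1623 (.cons 203 (.leaf 178 1431 (.cons 298 (.leaf 274 1622 (.leaf 322 1814 .nil)) .nil)) .nil)) (.cons 202 (.leaf 226 1623 (.cons 203 (.leaf 178 1431 (.cons 204 (.leaf 180 1437 (.leaf 228 1629 .nil)) .nil)) .nil)) (.cons 298 (.leaf 322 1814 (.cons 203 (.leaf 274 1622 (.cons 204 (.leaf 180 1437 (.leaf 228 1629 .nil)) .nil)) .nil)) (.cons 300 (.leaf 324 1820 (.cons 202 (.leaf 226 1623 (.cons 204 (.leaf 228 1629 (.cons 273 (.leaf 274 2176 (.cons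 298 (.leaf 322 1814 (.leaf 297 2179 .nil)) .nil)) .nil)) .nil)) .nil)) .nil)))) (.cons 227 t118 (.cons 227 t117 (.cons 323 (.cons 250 (.leaf 226 1815 (.cons 274 (.leaf 347 2007 (.cons 322 (.leaf 346 2006 (.cons 324 (.leaf 348 2012 (.cons 227 (.leaf 300 1820 (.cons 203 (.leaf 179 1430 (.cons 204 (.leaf 180 1437 (.leaf 228 1629 .nil)) .nil)) .nil)) .nil)) .nil)) .nil)) .nil)) (.cons 346 (.leaf 322 2006 (.cons 347 (.leaf 370 2198 (.cons 348 (.leaf 324 2012 (.leaf 372 2204 .nil)) .nil)) .nil)) (.cons 250 (.leaf 226 1815 (.cons 274 (.leaf 347 2007 (.cons 273 (.leaf 300 2176 (.leaf 271 1977 .nil)) .nil)) .nil)) (.cons 226 (.leaf 250 1815 (.cons 227 (.leaf 202 1623 (.cons 324 (.leaf 300 1820 (.leaf 348 2012 .nil)) .nil)) .nil)) .nil)))) (.cons 227 (.cons 204 (.leaf 228 1629 (.cons 298 (.leaf 322 1814 (.cons 300 (.leaf 324 1820 (.cons 273 (.leaf 274 2176 (.leaf 297 2179 .nil)) .nil)) .nil))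 .nil)) (.cons 300 (.leaf 324 1820 (.cons 204 (.leaf 228 1629 (.cons 203 (.leaf 180 1437 (.cons 178 (.leaf 202 1431 (.cons 179 (.leaf 154 1239 (.cons 274 (.leaf 273 2176 (.leaf 250 1430 .nil)) .nil)) .nil)) .nil)) .nil)) .nil)) (.cons 298 (.leaf 322 1814 (.cons 203 (.leaf 274 1622 (.cons 178 (.leaf 202 1431 (.cons 179 (.leaf 154 1239 (.cons 180 (.leaf 204 1437 (.leaf 156 1245 .nil)) .nil)) .nil)) .nil)) .nil)) (.cons 298 (.leaf 322 1814 (.cons 274 (.leaf 203 1622 (.cons 324 (.leaf 300 1820 (.cons 323 (.leaf 348 2012 (.cons 347 (.leaf 250 2007 (.leaf 371 2199 .nil)) .nil)) .nil)) .nil)) .nil)) (.cons 322 (.leaf 298 1814 (.cons 323 (.leaf 346 2006 (.cons 324 (.leaf 300 1820 (.leaf 348 2012 .nil)) .nil)) .nil)) .nil))))) (.cons 227 (.cons 202 (.leaf 226 1623 (.cons 203 (.leaf 178 1431 (.cons 298 (.leaf 274 1622 (.leaf 322 1814 .nil)) .nil)) .nil)) (.cons 298 (.leaf 322 1814 (.cons 203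 (.leaf 274 1622 (.cons 178 (.leaf 202 1431 (.cons 179 (.leaf 154 1239 (.cons 180 (.leaf 204 1437 (.leaf 156 1245 .nil)) .nil)) .nil)) .nil)) .nil)) (.cons 226 (.leaf 202 1623 (.cons 204 (.leaf 228 1629 (.cons 203 (.leaf 180 1437 (.cons 205 (.leaf 206 1618 (.cons 224 (.leaf 225 1601 (.cons 250 (.leaf 323 1815 (.cons 179 (.leaf 274 1430 (.leaf 155 1238 .nil)) .nil)) .nil)) .nil)) .nil)) .nil)) .nil)) (.cons 298 (.leaf 322 1814 (.cons 203 (.leaf 274 1622 (.cons 204 (.leaf 180 1437 (.leaf 228 1629 .nil)) .nil)) .nil)) (.cons 204 (.leaf 228 1629 (.cons 226 (.leaf 202 1623 (.cons 322 (.leaf 298 1814 (.cons 323 (.leaf 250 1815 (.leaf 346 2006 .nil)) .nil)) .nil)) .nil)) .nil))))) .nil)))))))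
noncomputable def t120 : T := .cons 298 (.leaf 322 1814 (.cons 202 (.leaf 226 1623 (.cons 203 (.leaf 178 1431 (.leaf 274 1622 .nil)) .nil)) .nil)) (.cons 298 (.leaf 322 1814 (.cons 203 (.leaf 274 1622 (.cons 178 (.leaf 202 1431 (.cons 179 (.leaf 154 1239 (.cons 180 (.leaf 204 1437 (.leaf 156 1245 .nil)) .nil)) .nil)) .nil)) .nil)) (.cons 298 (.leaf 322 1814 (.cons 203 (.leaf 274 1622 (.cons 204 (.leaf 180 1437 (.leaf 228 1629 .nil)) .nil)) .nil)) (.cons 202 (.leaf 226 1623 (.cons 203 (.leaf 178 1431 (.cons 204 (.leaf 180 1437 (.leaf 228 1629 .nil)) .nil)) .nil)) (.cons 226 (.leaf 202 1623 (.cons 228 (.leaf 204 1629 (.cons 298 (.leaf 322 1814 (.cons 300 (.leaf 324 1820 (.cons 225 (.cons 200 (.leaf 201 1603 (.cons 199 (.leaf 224 1595 (.cons 253 (.leaf 252 1800 (.cons 229 (.leaf 254 1808 (.cons 249 (.leaf 248 1794 (.leaf 250 1802 .nil)) .nil)) .nil)) .nil)) .nil)) (.cons 200 (.leaf 201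 1603 (.cons 199 (.leaf 224 1595 (.cons 249 (.leaf 248 1794 (.cons 229 (.leaf 250 1802 (.cons 206 (.leaf 205 1617 (.cons 230 (.leaf 207 1625 (.cons 254 (.leaf 253 1808 (.leaf 255 1816 .nil)) .nil)) .nil)) .nil)) .nil)) .nil)) .nil)) (.cons 200 (.leaf 201 1603 (.cons 248 (.leaf 249 1794 (.cons 253 (.leaf 252 1800 (.cons 229 (.leaf 254 1808 (.cons 206 (.leaf 205 1617 (.cons 230 (.leaf 250 1810 (.leaf 207 1625 .nil)) .nil)) .nil)) .nil)) .nil)) .nil)) (.cons 200 (.leaf 201 1603 (.cons 224 (.leaf 252 1792 (.leaf 199 1595 .nil)) .nil)) (.cons 252 (.leaf 224 1792 (.leaf 253 1800 .nil)) .nil))))) .nil)) .nil)) .nil)) .nil)) .nil))))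
noncomputable def t121 : T := .cons 227 (.cons 226 (.leaf 202 1623 (.cons 323 (.leaf 250 1815 (.cons 322 (.leaf 298 1814 (.leaf 346 2006 .nil)) .nil)) .nil)) (.cons 298 (.leaf 322 1814 (.cons 274 (.leaf 203 1622 (.cons 228 (.leaf 204 1629 (.cons 323 (.leaf 252 1821 (.cons 347 (.leaf 250 2007 (.leaf 371 2199 .nil)) .nil)) .nil)) .nil)) .nil)) (.cons 226 (.leaf 202 1623 (.cons 323 (.leaf 250 1815 (.cons 228 (.leaf 204 1629 (.leaf 252 1821 .nil)) .nil)) .nil)) (.cons 202 (.leaf 226 1623 (.cons 203 (.leaf 178 1431 (.cons 204 (.leaf 180 1437 (.leaf 228 1629 .nil)) .nil)) .nil)) .nil)))) (.cons 323 (.cons 250 (.leaf 226 1815 (.cons 228 (.leaf 252 1821 (.cons 347 (.leaf 274 2007 (.cons 348 (.leaf 324 2012 (.leaf 372 2204 .nil)) .nil)) .nil)) .nil)) (.cons 346 (.leaf 322 2006 (.cons 347 (.leaf 370 2198 (.cons 348 (.leaf 324 2012 (.leaf 372 2204 .nil)) .nil)) .nil)) (.cons 250 (.leaf 226 1815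 (.cons 228 (.leaf 252 1821 (.cons 346 (.leaf 322 2006 (.cons 347 (.leaf 274 2007 (.leaf 370 2198 .nil)) .nil)) .nil)) .nil)) (.cons 322 (.leaf 346 2006 (.cons 324 (.leaf 348 2012 (.cons 250 (.leaf 226 1815 (.cons 252 (.leaf 228 1821 (.cons 325 (.cons 298 (.leaf 326 2387 (.leaf 297 2379 .nil)) (.cons 301 (.leaf 302 2385 (.cons 300 (.leaf 321 2377 (.cons 326 (.leaf 327 2395 (.cons 350 (.leaf 349 2576 (.leaf 351 2584 .nil)) .nil)) .nil)) .nil)) (.cons 298 (.leaf 297 2379 (.cons 301 (.leaf 302 2385 (.cons 300 (.leaf 321 2377 (.cons 277 (.leaf 278 2193 (.cons 253 (.leaf 229 1830 (.cons 254 (.leaf 274 2002 (.leaf 230 1837 .nil)) .nil)) .nil)) .nil)) .nil)) .nil)) .nil))) .nil)) .nil)) .nil)) .nil)) .nil)))) (.cons 227 t120 (.cons 323 (.cons 322 (.leaf 346 2006 (.cons 324 (.leaf 348 2012 (.cons 298 (.leaf 227 1814 (.cons 325 (.leaf 326 2387 (.leaf 297 2379 .nil)) .nil)) .nil)) .nil)) (.cons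 228 (.leaf 252 1821 (.cons 227 (.leaf 204 1629 (.cons 324 (.leaf 300 1820 (.leaf 348 2012 .nil)) .nil)) .nil)) (.cons 228 (.leaf 252 1821 (.cons 227 (.leaf 204 1629 (.cons 322 (.leaf 298 1814 (.leaf 346 2006 .nil)) .nil)) .nil)) (.cons 346 (.leaf 322 2006 (.cons 347 (.leaf 370 2198 (.cons 348 (.leaf 324 2012 (.leaf 372 2204 .nil)) .nil)) .nil)) .nil)))) (.cons 227 (.cons 204 (.leaf 228 1629 (.cons 202 (.leaf 226 1623 (.cons 203 (.leaf 178 1431 (.leaf 180 1437 .nil)) .nil)) .nil)) (.cons 228 (.leaf 204 1629 (.cons 323 (.leaf 252 1821 (.cons 324 (.leaf 300 1820 (.leaf 348 2012 .nil)) .nil)) .nil)) (.cons 202 (.leaf 226 1623 (.cons 203 (.leaf 178 1431 (.cons 180 (.leaf 204 1437 (.cons 179 (.leaf 156 1245 (.cons 274 (.leaf 298 1622 (.leaf 250 1430 .nil)) .nil)) .nil)) .nil)) .nil)) (.cons 202 (.leaf 226 1623 (.cons 203 (.leaf 178 1431 (.cons 274 (.leaf 298 1622 (.cons 250 (.leaf 179 1430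 (.cons 323 (.leaf 347 2007 (.cons 324 (.leaf 300 1820 (.leaf 348 2012 .nil)) .nil)) .nil)) .nil)) .nil)) .nil)) .nil)))) (.cons 323 (.cons 226 (.leaf 250 1815 (.cons 227 (.leaf 202 1623 (.cons 322 (.leaf 298 1814 (.leaf 346 2006 .nil)) .nil)) .nil)) (.cons 226 (.leaf 250 1815 (.cons 227 (.leaf 202 1623 (.cons 324 (.leaf 300 1820 (.leaf 348 2012 .nil)) .nil)) .nil)) (.cons 346 (.leaf 322 2006 (.cons 347 (.leaf 370 2198 (.cons 348 (.leaf 324 2012 (.leaf 372 2204 .nil)) .nil)) .nil)) .nil))) (.cons 323 (.cons 226 (.leaf 250 1815 (.cons 227 (.leaf 202 1623 (.cons 228 (.leaf 204 1629 (.leaf 252 1821 .nil)) .nil)) .nil)) (.cons 324 (.leaf 348 2012 (.cons 227 (.leaf 300 1820 (.cons 228 (.leaf 204 1629 (.leaf 252 1821 .nil)) .nil)) .nil)) (.cons 250 (.leaf 226 1815 (.cons 274 (.leaf 347 2007 (.cons 322 (.leaf 346 2006 (.cons 324 (.leaf 348 2012 (.cons 300 (.leaf 227 1820 (.cons 301 (.leaf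 302 2386 (.leaf 321 2377 .nil)) .nil)) .nil)) .nil)) .nil)) .nil)) (.cons 250 (.leaf 226 1815 (.cons 228 (.leaf 252 1821 (.cons 347 (.leaf 274 2007 (.cons 348 (.leaf 324 2012 (.leaf 372 2204 .nil)) .nil)) .nil)) .nil)) .nil)))) .nil))))))
noncomputable def t122 : T := .cons 274 (.leaf 273 1985 (.cons 253 (.leaf 254 2002 (.cons 226 (.leaf 225 1803 (.cons 202 (.leaf 178 1428 (.cons 177 (.leaf 201 1423 (.cons 203 (.leaf 179 1429 (.cons 227 (.leaf 298 1621 (.cons 204 (.leaf 180 1437 (.cons 205 (.leaf 206 1618 (.cons 229 (.leaf 230 1616 (.cons 181 (.leaf 182 1425 (.cons 228 (.leaf 249 1801 (.leaf 157 1254 .nil)) .nil)) .nil)) .nil)) .nil)) .nil)) .nil)) .nil)) .nil)) .nil)) .nil)) .nil)) (.cons 253 (.cons 229 (.leaf 230 1809 (.cons 228 (.leaf 249 1801 (.cons 180 (.leaf 204 1438 (.cons 278 (.leaf 277 2000 (.cons 254 (.leaf 274 2002 (.leaf 279 2008 .nil)) .nil)) .nil)) .nil)) .nil)) (.cons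 225 (.leaf 226 1803 (.cons 229 (.leaf 230 1809 (.cons 249 (.leaf 224 1795 (.leaf 228 1801 .nil)) .nil)) .nil)) (.cons 254 (.leaf 274 2002 (.cons 278 (.leaf 277 2000 (.leaf 279 2008 .nil)) .nil)) .nil))) (.cons 249 (.leaf 273 1986 (.cons 228 (.leaf 229 1801 (.cons 180 (.leaf 204 1438 (.cons 225 (.leaf 224 1795 (.cons 253 (.leaf 226 1803 (.cons 278 (.leaf 277 2000 (.cons 254 (.leaf 279 2008 (.cons 255 (.leaf 227 1819 (.cons 231 (.leaf 230 1817 (.leaf 232 1825 .nil)) .nil)) .nil)) .nil)) .nil)) .nil)) .nil)) .nil)) .nil)) (.cons 274 (.leaf 273 1985 (.cons 253 (.leaf 254 2002 (.cons 226 (.leaf 225 1803 (.cons 202 (.leaf 178 1428 (.cons 177 (.leaf 201 1423 (.cons 203 (.leaf 179 1429 (.cons 227 (.leaf 298 1621 (.cons 204 (.leaf 180 1437 (.cons 205 (.leaf 206 1618 (.cons 229 (.leaf 230 1616 (.cons 181 (.leaf 182 1425 (.cons 228 (.leaf 157 1254 (.cons 277 (.leaf 278 2000 (.leaf 301 1639 .nil))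 .nil)) .nil)) .nil)) .nil)) .nil)) .nil)) .nil)) .nil)) .nil)) .nil)) .nil)) .nil)) (.cons 273 (.leaf 274 1985 (.leaf 249 1986 .nil)) .nil))))
noncomputable def t123 : T := .cons 298 (.cons 226 (.cons 227 (.leaf 203 1621 (.leaf 322 1813 .nil)) (.cons 322 (.leaf 346 2005 (.cons 321 (.leaf 297 1806 (.leaf 345 1998 .nil)) .nil)) (.cons 227 (.leaf 203 1621 (.cons 225 (.leaf 201 1615 (.cons 224 (.leaf 223 1784 (.cons 199 (.leaf 200 1595 (.cons 248 (.leaf 247 1786 (.cons 249 (.leaf 271 1978 (.leaf 228 1793 .nil)) .nil)) .nil)) .nil)) .nil)) .nil)) .nil))) (.cons 226 (.cons 227 (.leaf 203 1621 (.cons 225 (.leaf 201 1615 (.cons 224 (.leaf 223 1784 (.cons 199 (.leaf 200 1595 (.cons 248 (.leaf 247 1786 (.cons 249 (.leaf 271 1978 (.leaf 228 1793 .nil)) .nil)) .nil)) .nil)) .nil)) .nil)) (.cons 202 (.leaf 178 1428 (.cons 201 (.leaf 177 1423 (.leaf 225 1615 .nil)) .nil)) (.cons 203 (.leaf 227 1621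 (.cons 202 (.leaf 178 1428 (.leaf 179 1429 .nil)) .nil)) .nil))) (.cons 322 (.leaf 346 2005 (.cons 321 (.leaf 345 1998 (.cons 249 (.leaf 225 1807 (.cons 248 (.leaf 247 1976 (.leaf 271 1978 .nil)) .nil)) .nil)) .nil)) (.cons 227 (.leaf 203 1622 (.leaf 322 1813 .nil)) .nil)))) (.cons 298 (.cons 226 (.cons 203 (.leaf 227 1621 (.cons 202 (.leaf 178 1428 (.leaf 179 1429 .nil)) .nil)) (.cons 322 (.leaf 346 2005 (.cons 321 (.leaf 297 1806 (.leaf 345 1998 .nil)) .nil)) .nil)) (.cons 226 (.cons 203 (.leaf 227 1621 (.cons 202 (.leaf 178 1428 (.leaf 179 1429 .nil)) .nil)) (.cons 202 (.leaf 178 1428 (.cons 201 (.leaf 177 1423 (.leaf 225 1615 .nil)) .nil)) (.cons 227 (.leaf 203 1621 (.cons 225 (.leaf 201 1615 (.cons 224 (.leaf 223 1784 (.cons 199 (.leaf 200 1595 (.cons 248 (.leaf 247 1786 (.cons 228 (.leaf 249 1793 (.cons 205 (.leaf 204 1609 (.cons 229 (.leaf 230 1810 (.leaf 206 1617 .nil)) .nil))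 .nil)) .nil)) .nil)) .nil)) .nil)) .nil)) .nil))) (.cons 322 (.leaf 346 2005 (.cons 321 (.leaf 345 1998 (.cons 226 (.leaf 297 1806 (.cons 201 (.leaf 225 1615 (.cons 202 (.leaf 178 1428 (.leaf 177 1423 .nil)) .nil)) .nil)) .nil)) .nil)) (.cons 227 (.leaf 203 1622 (.leaf 322 1813 .nil)) .nil)))) (.cons 273 (.leaf 271 1977 (.cons 298 (.cons 227 (.leaf 203 1622 (.leaf 322 1813 .nil)) (.cons 227 (.leaf 203 1622 (.cons 226 (.cons 202 (.leaf 178 1428 (.leaf 297 1614 .nil)) (.cons 225 (.leaf 201 1615 (.cons 224 (.leaf 223 1784 (.cons 200 (.leaf 199 1595 (.cons 297 (.leaf 321 1806 (.leaf 249 1607 .nil)) .nil)) .nil)) .nil)) (.cons 201 (.leaf 225 1615 (.cons 202 (.leaf 178 1428 (.leaf 177 1423 .nil)) .nil)) .nil))) .nil)) (.cons 322 (.leaf 346 2005 (.cons 225 (.leaf 249 1807 (.cons 226 (.leaf 201 1615 (.cons 202 (.leaf 178 1428 (.leaf 297 1614 .nil)) .nil)) .nil)) .nil)) .nil))) .nil)) (.cons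 273 (.leaf 271 1977 (.cons 248 (.leaf 247 1979 (.cons 298 (.cons 227 (.leaf 203 1622 (.leaf 322 1813 .nil)) (.cons 227 (.leaf 203 1622 (.cons 226 (.cons 202 (.leaf 178 1428 (.leaf 297 1614 .nil)) (.cons 201 (.leaf 225 1615 (.cons 202 (.leaf 178 1428 (.leaf 177 1423 .nil)) .nil)) (.cons 225 (.leaf 201 1615 (.cons 224 (.leaf 223 1784 (.cons 200 (.leaf 297 1604 (.leaf 199 1595 .nil)) .nil)) .nil)) .nil))) .nil)) (.cons 322 (.leaf 346 2005 (.cons 321 (.leaf 345 1998 (.cons 226 (.leaf 297 1806 (.cons 201 (.leaf 225 1615 (.cons 202 (.leaf 178 1428 (.leaf 177 1423 .nil)) .nil)) .nil)) .nil)) .nil)) .nil))) .nil)) .nil)) (.cons 273 (.leaf 271 1977 (.cons 248 (.leaf 247 1979 (.cons 297 (.cons 321 (.leaf 345 1997 (.cons 226 (.leaf 202 1614 (.leaf 249 1805 .nil)) .nil)) (.cons 224 (.leaf 200 1604 (.cons 223 (.leaf 249 1787 (.cons 226 (.leaf 225 1784 (.leaf 202 1614 .nil)) .nil)) .nil)) (.cons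 321 (.leaf 345 1997 (.cons 224 (.leaf 200 1604 (.leaf 249 1799 .nil)) .nil)) (.cons 321 (.leaf 345 1997 (.cons 226 (.leaf 202 1614 (.leaf 298 1806 .nil)) .nil)) .nil)))) .nil)) .nil)) (.cons 273 (.leaf 271 1977 (.cons 248 (.leaf 247 1979 (.cons 227 (.cons 203 (.leaf 298 1622 (.leaf 179 1430 .nil)) (.cons 249 (.leaf 228 1793 (.cons 224 (.leaf 223 1787 (.cons 200 (.leaf 297 1604 (.leaf 176 1412 .nil)) .nil)) .nil)) .nil)) .nil)) .nil)) (.cons 248 (.cons 249 (.leaf 247 1976 (.leaf 271 1978 .nil)) (.cons 273 (.leaf 247 1979 (.leaf 271 1977 .nil)) (.cons 271 (.leaf 249 1978 (.leaf 273 1977 .nil)) (.cons 247 (.leaf 249 1976 (.leaf 273 1979 .nil)) .nil)))) .nil))))))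
noncomputable def t124 : T := .cons 273 (.leaf 252 1985 (.leaf 271 1977 .nil)) (.cons 298 (.cons 322 (.leaf 346 2005 (.leaf 227 1813 .nil)) (.cons 322 (.leaf 346 2005 (.cons 321 (.leaf 345 1998 (.cons 226 (.leaf 297 1806 (.cons 201 (.leaf 225 1615 (.cons 202 (.leaf 178 1428 (.leaf 177 1423 .nil)) .nil)) .nil)) .nil)) .nil)) (.cons 226 (.cons 201 (.leaf 225 1615 (.cons 202 (.leaf 178 1428 (.leaf 177 1423 .nil)) .nil)) (.cons 227 (.leaf 203 1621 (.cons 225 (.leaf 201 1615 (.cons 224 (.leaf 223 1784 (.leaf 252 1792 .nil)) .nil)) .nil)) (.cons 203 (.leaf 227 1621 (.cons 202 (.leaf 178 1428 (.leaf 179 1429 .nil)) .nil)) .nil))) .nil))) (.cons 273 (.leaf 271 1977 (.cons 248 (.leaf 247 1979 (.cons 298 (.cons 227 (.leaf 203 1622 (.leaf 322 1813 .nil)) (.cons 227 (.leaf 203 1622 (.cons 226 (.cons 202 (.leaf 178 1428 (.leaf 297 1614 .nil)) (.cons 201 (.leaf 225 1615 (.cons 202 (.leaf 178 1428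 (.leaf 177 1423 .nil)) .nil)) (.cons 225 (.leaf 201 1615 (.cons 224 (.leaf 223 1784 (.cons 200 (.leaf 297 1604 (.leaf 199 1595 .nil)) .nil)) .nil)) .nil))) .nil)) (.cons 322 (.leaf 346 2005 (.cons 321 (.leaf 345 1998 (.cons 226 (.leaf 297 1806 (.cons 201 (.leaf 225 1615 (.cons 202 (.leaf 178 1428 (.leaf 177 1423 .nil)) .nil)) .nil)) .nil)) .nil)) .nil))) .nil)) .nil)) .nil))
noncomputable def t125 : T := .cons 202 (.leaf 178 1428 (.cons 201 (.cons 177 (.leaf 153 1228 (.leaf 274 1420 .nil)) (.cons 200 (.leaf 227 1603 (.cons 199 (.leaf 198 1584 (.cons 175 (.leaf 174 1395 (.cons 203 (.leaf 205 1610 (.leaf 176 1403 .nil)) .nil)) .nil)) .nil)) .nil)) .nil)) (.cons 227 (.leaf 205 1609 (.cons 201 (.leaf 200 1603 (.cons 177 (.leaf 153 1228 (.leaf 274 1420 .nil)) .nil)) .nil)) (.cons 202 (.leaf 178 1428 (.cons 203 (.leaf 205 1610 (.cons 274 (.leaf 179 1429 (.cons 201 (.leaf 177 1420 (.leaf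 298 1615 .nil)) .nil)) .nil)) .nil)) (.cons 202 (.leaf 178 1428 (.cons 201 (.cons 177 (.leaf 153 1228 (.leaf 274 1420 .nil)) (.cons 200 (.leaf 227 1603 (.cons 199 (.leaf 198 1584 (.cons 175 (.leaf 174 1395 (.cons 274 (.leaf 298 1615 (.cons 203 (.leaf 179 1429 (.leaf 176 1403 .nil)) .nil)) .nil)) .nil)) .nil)) (.cons 200 (.leaf 227 1603 (.cons 199 (.leaf 198 1584 (.cons 175 (.leaf 174 1395 (.cons 176 (.leaf 203 1403 (.cons 152 (.leaf 177 1223 (.leaf 128 1028 .nil)) .nil)) .nil)) .nil)) .nil)) .nil))) .nil)) (.cons 202 (.leaf 178 1428 (.cons 205 (.leaf 227 1609 (.leaf 203 1610 .nil)) .nil)) .nil))))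
noncomputable def t126 : T := .cons 248 (.leaf 271 1978 (.cons 223 (.leaf 224 1787 (.cons 227 (.leaf 228 1793 (.cons 247 (.leaf 274 1976 (.leaf 222 1779 .nil)) .nil)) .nil)) .nil)) (.cons 252 (.cons 225 (.leaf 224 1795 (.cons 253 (.leaf 226 1803 (.cons 229 (.leaf 228 1801 (.leaf 230 1809 .nil)) .nil)) .nil)) (.cons 229 (.leaf 228 1801 (.cons 253 (.leaf 230 1809 (.cons 254 (.leaf 274 2002 (.cons 278 (.leaf 277 2000 (.leaf 279 2008 .nil)) .nil)) .nil)) .nil)) (.cons 225 (.leaf 224 1795 (.cons 253 (.leaf 226 1803 (.cons 229 (.leaf 230 1809 (.cons 254 (.leaf 274 2002 (.cons 278 (.leaf 277 2000 (.leaf 279 2008 .nil)) .nil)) .nil)) .nil)) .nil)) (.cons 225 (.leaf 224 1795 (.cons 253 (.leaf 226 1803 (.cons 254 (.leaf 274 2002 (.cons 278 (.leaf 277 2000 (.leaf 279 2008 .nil)) .nil)) .nil)) .nil)) (.cons 228 (.leaf 229 1801 (.cons 225 (.leaf 224 1795 (.cons 204 (.leaf 180 1438 (.cons 226 t125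 .nil)) .nil)) .nil)) .nil))))) (.cons 248 (.leaf 271 1978 (.cons 223 (.leaf 224 1787 (.cons 247 (.leaf 274 1976 (.leaf 222 1779 .nil)) .nil)) .nil)) (.cons 248 (.leaf 271 1978 (.cons 227 (.leaf 228 1793 (.cons 247 (.leaf 274 1976 (.leaf 226 1785 .nil)) .nil)) .nil)) (.cons 248 (.leaf 271 1978 (.cons 224 (.leaf 223 1787 (.cons 228 (.leaf 227 1793 (.cons 252 (.leaf 225 1795 (.leaf 229 1801 .nil)) .nil)) .nil)) .nil)) .nil))))
noncomputable def t127 : T := .cons 248 (.cons 247 (.leaf 249 1976 (.leaf 273 1979 .nil)) (.cons 249 (.leaf 247 1976 (.leaf 271 1978 .nil)) (.cons 273 (.leaf 247 1979 (.leaf 252 1985 .nil)) (.cons 273 (.leaf 252 1985 (.leaf 271 1977 .nil)) .nil)))) (.cons 298 (.cons 322 (.leaf 346 2005 (.leaf 227 1813 .nil)) (.cons 226 (.cons 227 (.leaf 203 1621 (.cons 225 (.leaf 201 1615 (.cons 224 (.leaf 223 1784 (.leaf 252 1792 .nil)) .nil)) .nil)) (.cons 201 (.leaf 225 1615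 (.cons 202 (.leaf 178 1428 (.leaf 177 1423 .nil)) .nil)) (.cons 203 (.leaf 227 1621 (.cons 202 (.leaf 178 1428 (.leaf 179 1429 .nil)) .nil)) .nil))) (.cons 322 (.leaf 346 2005 (.cons 321 (.leaf 345 1998 (.cons 249 (.leaf 225 1807 (.cons 248 (.leaf 247 1976 (.leaf 271 1978 .nil)) .nil)) .nil)) .nil)) .nil))) (.cons 248 (.cons 247 (.leaf 249 1976 (.leaf 273 1979 .nil)) (.cons 273 (.leaf 247 1979 (.leaf 271 1977 .nil)) (.cons 249 (.leaf 247 1976 (.leaf 271 1978 .nil)) (.cons 271 (.leaf 249 1978 (.leaf 273 1977 .nil)) .nil)))) (.cons 298 (.cons 322 (.leaf 346 2005 (.leaf 227 1813 .nil)) (.cons 226 (.cons 227 (.leaf 203 1621 (.cons 225 (.leaf 201 1615 (.cons 224 (.leaf 223 1784 (.leaf 252 1792 .nil)) .nil)) .nil)) (.cons 252 (.leaf 273 1985 (.cons 225 (.leaf 253 1803 (.leaf 201 1615 .nil)) .nil)) (.cons 227 (.leaf 203 1621 (.cons 225 (.leaf 201 1615 (.cons 224 (.leaf 223 1784 (.cons 199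 (.leaf 200 1595 (.cons 248 (.leaf 247 1786 (.cons 228 (.leaf 249 1793 (.cons 205 (.leaf 204 1609 (.cons 229 (.leaf 230 1810 (.leaf 206 1617 .nil)) .nil)) .nil)) .nil)) .nil)) .nil)) .nil)) .nil)) (.cons 203 (.leaf 227 1621 (.cons 202 (.leaf 178 1428 (.leaf 179 1429 .nil)) .nil)) .nil)))) (.cons 322 (.leaf 346 2005 (.cons 321 (.leaf 345 1998 (.cons 226 (.leaf 297 1806 (.cons 201 (.leaf 225 1615 (.cons 202 (.leaf 178 1428 (.leaf 177 1423 .nil)) .nil)) .nil)) .nil)) .nil)) .nil))) (.cons 298 (.cons 322 (.leaf 346 2005 (.leaf 227 1813 .nil)) (.cons 322 (.leaf 346 2005 (.cons 321 (.leaf 345 1998 (.cons 226 (.leaf 297 1806 (.cons 201 (.leaf 225 1615 (.cons 202 (.leaf 178 1428 (.leaf 177 1423 .nil)) .nil)) .nil)) .nil)) .nil)) (.cons 273 (.leaf 252 1985 (.leaf 271 1977 .nil)) .nil))) .nil))))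
noncomputable def t128 : T := .cons 274 t127 (.cons 249 (.cons 248 (.leaf 271 1978 (.cons 224 (.leaf 223 1787 (.cons 252 (.leaf 273 1986 (.leaf 225 1795 .nil)) .nil)) .nil)) (.cons 252 (.leaf 273 1986 (.cons 228 (.leaf 229 1801 (.cons 180 (.leaf 204 1438 (.cons 225 (.leaf 224 1795 (.cons 253 (.leaf 226 1803 (.cons 278 (.leaf 277 2000 (.cons 254 (.leaf 279 2008 (.cons 255 (.leaf 227 1819 (.cons 231 (.leaf 230 1817 (.leaf 232 1825 .nil)) .nil)) .nil)) .nil)) .nil)) .nil)) .nil)) .nil)) .nil)) (.cons 248 (.leaf 271 1978 (.cons 223 (.leaf 224 1787 (.cons 227 (.leaf 228 1793 (.cons 247 (.leaf 222 1779 (.leaf 226 1785 .nil)) .nil)) .nil)) .nil)) (.cons 248 (.leaf 271 1978 (.cons 227 (.leaf 228 1793 (.cons 226 (.leaf 247 1785 (.cons 202 (.leaf 178 1428 (.cons 252 (.leaf 273 1986 (.cons 253 (.leaf 225 1803 (.leaf 254 1811 .nil)) .nil)) .nil)) .nil)) .nil)) .nil)) .nil)))) (.cons 249 t126 (.cons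 274 t124 (.cons 274 (.cons 273 (.leaf 271 1977 (.cons 248 (.leaf 247 1979 (.cons 224 (.cons 223 (.leaf 249 1787 (.cons 226 (.leaf 225 1784 (.cons 202 (.leaf 178 1428 (.leaf 297 1614 .nil)) .nil)) .nil)) (.cons 200 (.leaf 297 1604 (.cons 175 (.leaf 199 1407 (.cons 176 (.leaf 151 1215 (.cons 177 (.leaf 201 1413 (.leaf 153 1221 .nil)) .nil)) .nil)) .nil)) (.cons 223 (.leaf 249 1787 (.cons 226 (.leaf 225 1784 (.cons 202 (.leaf 178 1428 (.cons 201 (.leaf 177 1423 (.cons 203 (.leaf 179 1429 (.leaf 200 1594 .nil)) .nil)) .nil)) .nil)) .nil)) .nil))) .nil)) .nil)) t123) (.cons 252 t122 (.cons 273 (.cons 271 (.leaf 274 1977 (.cons 249 (.leaf 248 1978 (.leaf 252 1986 .nil)) .nil)) (.cons 249 (.leaf 252 1986 (.cons 271 (.leaf 248 1978 (.leaf 270 1969 .nil)) .nil)) (.cons 271 (.leaf 274 1977 (.cons 249 (.leaf 248 1978 (.leaf 270 1969 .nil)) .nil)) (.cons 274 (.leaf 252 1985 (.leaf 271 1977 .nil))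 (.cons 252 (.leaf 274 1985 (.leaf 249 1986 .nil)) .nil))))) .nil))))))
noncomputable def t129 : T := .cons 254 (.leaf 325 1838 (.cons 204 (.leaf 228 1629 (.cons 203 (.leaf 180 1437 (.cons 205 (.leaf 229 1647 (.cons 206 (.leaf 181 1455 (.leaf 231 1624 .nil)) .nil)) .nil)) .nil)) .nil)) (.cons 228 (.leaf 204 1629 (.cons 229 (.leaf 250 1810 (.cons 202 (.leaf 203 1619 (.cons 207 (.leaf 206 1625 (.cons 231 (.leaf 252 1818 (.leaf 208 1633 .nil)) .nil)) .nil)) .nil)) .nil)) (.cons 254 (.leaf 325 1838 (.cons 303 (.leaf 327 1844 (.cons 205 (.leaf 229 1647 (.cons 206 (.leaf 181 1455 (.cons 207 (.leaf 183 1461 (.leaf 231 1653 .nil)) .nil)) .nil)) .nil)) .nil)) (.cons 254 (.leaf 325 1838 (.cons 206 (.cons 207 (.leaf 183 1461 (.leaf 231 1653 .nil)) (.cons 204 (.leaf 228 1629 (.cons 203 (.leaf 180 1437 (.cons 205 (.leaf 181 1455 (.leaf 231 1624 .nil)) .nil)) .nil)) (.cons 181 (.leaf 205 1455 (.cons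 182 (.leaf 157 1263 (.cons 183 (.leaf 207 1461 (.leaf 159 1269 .nil)) .nil)) .nil)) .nil))) .nil)) (.cons 254 (.leaf 325 1838 (.cons 228 (.leaf 204 1629 (.cons 229 (.leaf 250 1810 (.leaf 255 1816 .nil)) .nil)) .nil)) .nil))))
noncomputable def t130 : T := .cons 228 (.leaf 204 1629 (.cons 229 (.leaf 250 1810 (.cons 254 (.leaf 255 1816 (.leaf 205 1647 .nil)) .nil)) .nil)) (.cons 254 (.cons 205 (.leaf 229 1647 (.cons 231 (.leaf 207 1653 (.cons 181 (.leaf 206 1455 (.cons 326 (.leaf 255 1845 (.cons 327 (.leaf 303 1844 (.leaf 351 2036 .nil)) .nil)) .nil)) .nil)) .nil)) (.cons 205 (.leaf 229 1647 (.cons 206 (.leaf 181 1455 (.cons 303 (.leaf 279 1652 (.leaf 327 1844 .nil)) .nil)) .nil)) (.cons 205 (.leaf 229 1647 (.cons 206 (.leaf 181 1455 (.cons 207 (.leaf 183 1461 (.leaf 231 1653 .nil)) .nil)) .nil)) (.cons 207 (.leaf 231 1653 (.cons 206 (.leaf 183 1461 (.cons 303 (.leaf 279 1652 (.leaf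 327 1844 .nil)) .nil)) .nil)) (.cons 205 (.leaf 229 1647 (.cons 231 (.leaf 207 1653 (.cons 252 (.leaf 253 1817 (.cons 326 (.leaf 255 1845 (.cons 327 (.leaf 303 1844 (.leaf 351 2036 .nil)) .nil)) .nil)) .nil)) .nil)) .nil))))) (.cons 228 (.leaf 204 1629 (.cons 229 (.leaf 250 1810 (.cons 202 (.leaf 203 1619 (.cons 207 (.leaf 206 1625 (.cons 231 (.leaf 252 1818 (.leaf 208 1633 .nil)) .nil)) .nil)) .nil)) .nil)) (.cons 254 (.cons 207 (.leaf 231 1653 (.cons 206 (.leaf 183 1461 (.cons 303 (.leaf 279 1652 (.leaf 327 1844 .nil)) .nil)) .nil)) (.cons 303 (.leaf 327 1844 (.cons 206 (.leaf 279 1652 (.cons 181 (.leaf 205 1455 (.cons 182 (.leaf 157 1263 (.cons 183 (.leaf 207 1461 (.leaf 159 1269 .nil)) .nil)) .nil)) .nil)) .nil)) (.cons 204 (.leaf 228 1629 (.cons 207 (.leaf 231 1653 (.cons 206 (.leaf 183 1461 (.cons 180 (.leaf 203 1437 (.cons 205 (.leaf 181 1455 (.leaf 179 1435 .nil)) .nil)) .nil))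 .nil)) .nil)) (.cons 204 (.leaf 228 1629 (.cons 203 (.leaf 180 1437 (.cons 303 (.leaf 327 1844 (.cons 206 (.leaf 279 1652 (.cons 205 (.leaf 181 1455 (.leaf 231 1624 .nil)) .nil)) .nil)) .nil)) .nil)) (.cons 204 (.leaf 228 1629 (.cons 180 (.leaf 203 1437 (.cons 231 (.leaf 207 1653 (.cons 326 (.leaf 255 1845 (.cons 327 (.leaf 303 1844 (.leaf 351 2036 .nil)) .nil)) .nil)) .nil)) .nil)) .nil))))) .nil)))
noncomputable def t131 : T := .cons 301 (.leaf 279 2201 (.cons 326 (.leaf 325 2384 (.leaf 327 2392 .nil)) .nil)) (.cons 230 t130 (.cons 204 (.leaf 228 1629 (.cons 203 (.leaf 180 1437 (.cons 326 (.cons 327 (.leaf 301 2392 (.cons 178 (.leaf 202 1431 (.cons 351 (.leaf 254 2036 (.cons 375 (.leaf 303 2231 (.leaf 350 2228 .nil)) .nil)) .nil)) .nil)) (.cons 254 (.cons 349 (.leaf 325 2030 (.cons 350 (.leaf 373 2222 (.cons 351 (.leaf 327 2036 (.leaf 375 2228 .nil)) .nil)) .nil)) (.cons 229 (.leaf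 253 1839 (.cons 230 (.leaf 205 1647 (.cons 231 (.leaf 207 1653 (.leaf 255 1845 .nil)) .nil)) .nil)) .nil)) (.cons 325 (.leaf 301 2384 (.cons 178 (.leaf 202 1431 (.cons 349 (.leaf 254 2030 (.cons 373 (.leaf 350 2222 (.leaf 397 2413 .nil)) .nil)) .nil)) .nil)) (.cons 301 (.leaf 325 2384 (.leaf 327 2392 .nil)) .nil)))) .nil)) .nil)) (.cons 301 (.leaf 279 2201 (.cons 230 t129 .nil)) (.cons 301 (.leaf 279 2201 (.cons 230 (.cons 254 (.leaf 325 1838 (.cons 228 (.leaf 204 1629 (.cons 229 (.leaf 250 1810 (.leaf 255 1816 .nil)) .nil)) .nil)) (.cons 228 (.leaf 204 1629 (.cons 229 (.leaf 250 1810 (.cons 202 (.leaf 203 1619 (.cons 207 (.leaf 206 1625 (.cons 231 (.leaf 252 1818 (.leaf 254 1653 .nil)) .nil)) .nil)) .nil)) .nil)) (.cons 228 (.leaf 204 1629 (.cons 229 (.leaf 250 1810 (.cons 202 (.leaf 203 1619 (.cons 207 (.leaf 206 1625 (.cons 231 (.leaf 252 1818 (.leaf 208 1633 .nil)) .nil)) .nil))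 .nil)) .nil)) (.cons 325 (.leaf 326 2384 (.leaf 254 1838 .nil)) .nil)))) .nil)) .nil))))
noncomputable def t132 : T := .cons 301 (.leaf 277 2193 (.cons 204 (.leaf 228 1629 (.cons 180 (.leaf 203 1437 (.cons 273 (.leaf 297 2179 (.cons 302 (.leaf 279 2201 (.cons 326 (.leaf 325 2384 (.leaf 327 2392 .nil)) .nil)) .nil)) .nil)) .nil)) .nil)) (.cons 273 (.leaf 297 2179 (.cons 203 (.cons 204 (.leaf 180 1437 (.leaf 228 1629 .nil)) (.cons 178 (.leaf 202 1431 (.cons 179 (.leaf 154 1239 (.cons 155 (.cons 156 (.leaf 180 1245 (.leaf 132 1053 .nil)) (.cons 252 (.leaf 228 1244 (.cons 250 (.leaf 249 1986 (.cons 253 (.leaf 277 2000 (.cons 230 (.leaf 229 1809 (.cons 254 (.leaf 231 1817 (.leaf 279 2008 .nil)) .nil)) .nil)) .nil)) .nil)) .nil)) .nil)) .nil)) (.cons 178 (.leaf 202 1431 (.cons 179 (.leaf 154 1239 (.cons 228 (.leaf 204 1629 (.cons 252 (.leaf 155 1244 (.cons 250 (.leaf 249 1986 (.cons 253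 (.leaf 277 2000 (.cons 230 (.leaf 229 1809 (.cons 254 (.leaf 231 1817 (.leaf 279 2008 .nil)) .nil)) .nil)) .nil)) .nil)) .nil)) .nil)) .nil)) (.cons 178 (.leaf 202 1431 (.cons 179 (.leaf 154 1239 (.cons 180 (.leaf 204 1437 (.leaf 156 1245 .nil)) .nil)) .nil)) .nil)))) .nil)) (.cons 301 (.leaf 277 2193 (.cons 273 (.leaf 297 2179 (.cons 302 (.leaf 279 2201 (.cons 326 (.leaf 325 2384 (.leaf 327 2392 .nil)) .nil)) .nil)) .nil)) (.cons 301 (.leaf 277 2193 (.cons 204 (.leaf 228 1629 (.cons 180 (.leaf 203 1437 (.cons 302 (.leaf 279 2201 (.cons 326 (.leaf 325 2384 (.leaf 327 2392 .nil)) .nil)) .nil)) .nil)) .nil)) (.cons 297 (.leaf 273 2179 (.cons 321 (.leaf 320 2370 (.cons 302 t131 .nil)) .nil)) (.cons 273 (.leaf 297 2179 (.cons 203 (.cons 178 (.leaf 202 1431 (.cons 179 (.leaf 154 1239 (.cons 180 (.leaf 204 1437 (.leaf 156 1245 .nil)) .nil)) .nil)) (.cons 178 (.leaf 202 1431 (.cons 179 (.leaf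 154 1239 (.cons 156 (.leaf 180 1245 (.cons 155 (.leaf 132 1053 (.cons 157 (.leaf 158 1234 (.cons 252 (.leaf 228 1244 (.cons 250 (.leaf 249 1986 (.cons 277 (.leaf 253 2000 (.leaf 301 2193 .nil)) .nil)) .nil)) .nil)) .nil)) .nil)) .nil)) .nil)) (.cons 178 (.leaf 202 1431 (.cons 179 (.leaf 154 1239 (.cons 228 (.leaf 204 1629 (.cons 252 (.leaf 155 1244 (.cons 250 (.leaf 249 1986 (.cons 277 (.leaf 253 2000 (.leaf 301 2193 .nil)) .nil)) .nil)) .nil)) .nil)) .nil)) (.cons 204 (.leaf 180 1437 (.leaf 228 1629 .nil)) .nil)))) .nil)) .nil)))))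
noncomputable def t133 : T := .cons 249 (.leaf 250 1986 (.cons 253 (.leaf 254 1811 (.cons 277 (.leaf 278 2193 (.cons 325 (.leaf 326 2384 (.leaf 228 1831 .nil)) .nil)) .nil)) .nil)) (.cons 254 (.leaf 253 1811 (.cons 278 (.leaf 277 2193 (.cons 302 (.leaf 279 2201 (.cons 230 (.leaf 325 1838 (.cons 205 (.leaf 229 1647 (.cons 206 (.leaf 181 1455 (.cons 207 (.leaf 183 1461 (.leaf 231 1653 .nil)) .nil)) .nil)) .nil)) .nil)) .nil)) .nil)) (.cons 250 (.leaf 249 1986 (.cons 253 (.leaf 254 1811 (.cons 326 (.leaf 325 2384 (.cons 229 (.leaf 230 1809 (.cons 302 (.leaf 327 2392 (.leaf 277 1836 .nil)) .nil)) .nil)) .nil)) .nil)) (.cons 250 (.leaf 249 1986 (.cons 278 (.leaf 277 2193 (.cons 302 (.leaf 279 2201 (.cons 326 (.leaf 325 2384 (.leaf 327 2392 .nil)) .nil)) .nil)) .nil)) (.cons 326 (.leaf 325 2384 (.cons 254 (.leaf 253 1811 (.cons 302 (.leaf 327 2392 (.cons 278 (.leaf 279 2201 (.cons 231 (.leaf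 255 1845 (.cons 230 (.leaf 207 1653 (.cons 229 (.leaf 228 1818 (.leaf 205 1647 .nil)) .nil)) .nil)) .nil)) .nil)) .nil)) .nil)) (.cons 250 (.leaf 249 1986 (.cons 278 (.leaf 277 2193 (.cons 302 (.leaf 279 2201 (.cons 327 (.leaf 326 2392 (.cons 254 (.leaf 253 1811 (.cons 303 (.leaf 328 2400 (.leaf 230 1844 .nil)) .nil)) .nil)) .nil)) .nil)) .nil)) .nil)))))
noncomputable def t134 : T := .cons 326 (.leaf 325 2384 (.leaf 327 2392 .nil)) (.cons 279 (.leaf 278 2201 (.cons 303 (.leaf 280 2209 (.cons 230 (.cons 229 (.leaf 250 1810 (.cons 206 (.leaf 207 1625 (.cons 231 (.leaf 252 1818 (.leaf 255 1655 .nil)) .nil)) .nil)) (.cons 327 (.leaf 328 2400 (.cons 255 (.leaf 254 1847 (.cons 231 (.leaf 206 1655 (.cons 232 (.leaf 208 1661 (.leaf 256 1853 .nil)) .nil)) .nil)) .nil)) (.cons 229 (.leaf 250 1810 (.cons 207 (.leaf 206 1625 (.cons 231 (.leaf 252 1818 (.leaf 208 1633 .nil)) .nil)) .nil)) (.cons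 229 (.leaf 250 1810 (.cons 206 (.leaf 207 1625 (.cons 226 (.leaf 205 1617 (.cons 254 (.leaf 253 1808 (.leaf 255 1816 .nil)) .nil)) .nil)) .nil)) (.cons 229 (.leaf 250 1810 (.cons 231 (.leaf 252 1818 (.cons 255 (.leaf 254 1816 (.leaf 256 1824 .nil)) .nil)) .nil)) .nil))))) .nil)) .nil)) (.cons 278 (.leaf 279 2201 (.cons 320 (.leaf 321 2370 (.cons 325 (.leaf 326 2384 (.cons 230 (.leaf 254 1838 (.cons 229 (.leaf 250 1810 (.cons 207 (.leaf 206 1625 (.cons 231 (.leaf 252 1818 (.leaf 208 1633 .nil)) .nil)) .nil)) .nil)) .nil)) .nil)) .nil)) .nil))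
noncomputable def t135 : T := .cons 204 (.leaf 228 1629 (.cons 180 (.leaf 203 1437 (.cons 254 (.leaf 325 1838 (.cons 205 (.leaf 229 1647 (.cons 206 (.leaf 181 1455 (.cons 207 (.leaf 183 1461 (.leaf 231 1653 .nil)) .nil)) .nil)) .nil)) .nil)) .nil)) (.cons 228 (.leaf 204 1629 (.cons 229 (.leaf 250 1810 (.cons 206 (.leaf 207 1625 (.cons 226 (.leaf 205 1617 (.cons 252 (.leaf 231 1818 (.cons 225 (.leaf 224 1792 (.leaf 253 1800 .nil)) .nil)) .nil)) .nil)) .nil)) .nil)) (.cons 254 (.leaf 325 1838 (.cons 205 (.leaf 229 1647 (.cons 206 (.leaf 181 1455 (.cons 207 (.leaf 183 1461 (.leaf 231 1653 .nil)) .nil)) .nil)) .nil)) (.cons 254 (.leaf 325 1838 (.cons 204 (.leaf 228 1629 (.cons 180 (.leaf 203 1437 (.cons 207 (.leaf 231 1653 (.cons 206 (.leaf 183 1461 (.cons 205 (.leaf 181 1455 (.leaf 179 1435 .nil)) .nil)) .nil)) .nil)) .nil)) .nil)) (.cons 254 (.leaf 325 1838 (.cons 204 (.leaf 228 1629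 (.cons 180 (.leaf 203 1437 (.cons 205 (.leaf 229 1647 (.cons 206 (.leaf 181 1455 (.cons 207 (.leaf 183 1461 (.leaf 179 1435 .nil)) .nil)) .nil)) .nil)) .nil)) .nil)) (.cons 254 (.leaf 325 1838 (.cons 204 (.leaf 228 1629 (.cons 203 (.leaf 180 1437 (.cons 205 (.leaf 229 1647 (.cons 206 (.leaf 226 1618 (.leaf 181 1455 .nil)) .nil)) .nil)) .nil)) .nil)) (.cons 254 (.leaf 325 1838 (.cons 207 (.leaf 231 1653 (.cons 183 (.leaf 206 1461 (.cons 228 (.leaf 204 1629 (.cons 229 (.leaf 250 1810 (.leaf 255 1816 .nil)) .nil)) .nil)) .nil)) .nil)) (.cons 254 (.leaf 325 1838 (.cons 207 (.leaf 231 1653 (.cons 228 (.leaf 204 1629 (.cons 229 (.leaf 250 1810 (.leaf 255 1816 .nil)) .nil)) .nil)) .nil)) .nil)))))))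
noncomputable def t136 : T := .cons 228 (.leaf 204 1629 (.cons 302 (.cons 326 (.leaf 325 2384 (.leaf 327 2392 .nil)) (.cons 279 (.leaf 278 2201 (.cons 303 (.leaf 280 2209 (.cons 230 (.cons 229 (.leaf 250 1810 (.cons 206 (.leaf 207 1625 (.cons 231 (.leaf 252 1818 (.leaf 255 1655 .nil)) .nil)) .nil)) (.cons 327 (.leaf 328 2400 (.cons 255 (.leaf 254 1847 (.cons 231 (.leaf 206 1655 (.cons 232 (.leaf 208 1661 (.leaf 256 1853 .nil)) .nil)) .nil)) .nil)) (.cons 229 (.leaf 250 1810 (.cons 206 (.leaf 207 1625 (.cons 226 (.leaf 205 1617 (.cons 253 (.leaf 254 1808 (.leaf 277 1645 .nil)) .nil)) .nil)) .nil)) (.cons 229 (.leaf 250 1810 (.cons 231 (.leaf 252 1818 (.cons 255 (.leaf 254 1816 (.leaf 256 1824 .nil)) .nil)) .nil)) .nil)))) .nil)) .nil)) (.cons 278 (.leaf 277 2193 (.leaf 279 2201 .nil)) .nil))) .nil)) (.cons 278 (.leaf 277 2193 (.cons 302 (.leaf 279 2201 (.cons 326 (.leaf 325 2384 (.leaf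 327 2392 .nil)) .nil)) .nil)) (.cons 326 (.leaf 325 2384 (.cons 228 (.leaf 204 1629 (.cons 302 (.leaf 327 2392 (.cons 229 (.cons 230 (.leaf 250 1810 (.cons 231 (.leaf 252 1818 (.cons 255 (.leaf 254 1816 (.leaf 256 1824 .nil)) .nil)) .nil)) (.cons 253 (.leaf 277 1836 (.cons 226 (.leaf 254 1808 (.cons 225 (.leaf 252 1800 (.cons 249 (.leaf 248 1794 (.leaf 250 1802 .nil)) .nil)) .nil)) .nil)) (.cons 253 (.leaf 277 1836 (.cons 226 (.leaf 254 1808 (.cons 252 (.leaf 225 1800 (.cons 206 (.leaf 205 1617 (.cons 230 (.leaf 231 1818 (.leaf 207 1625 .nil)) .nil)) .nil)) .nil)) .nil)) (.cons 230 (.leaf 250 1810 (.cons 206 (.leaf 207 1625 (.cons 253 (.leaf 277 1836 (.cons 226 (.leaf 205 1617 (.leaf 254 1808 .nil)) .nil)) .nil)) .nil)) (.cons 250 (.leaf 230 1810 (.cons 249 (.leaf 248 1793 (.leaf 252 1801 .nil)) .nil)) .nil))))) .nil)) .nil)) .nil)) (.cons 278 (.leaf 277 2193 (.cons 302 (.leaf 279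 2201 (.cons 230 t135 .nil)) .nil)) (.cons 228 (.leaf 204 1629 (.cons 302 t134 .nil)) (.cons 278 (.leaf 277 2193 (.cons 228 (.leaf 204 1629 (.cons 302 (.leaf 279 2201 (.cons 327 (.leaf 326 2392 (.cons 303 (.leaf 328 2400 (.cons 230 (.leaf 254 1844 (.cons 229 (.leaf 250 1810 (.cons 207 (.leaf 206 1625 (.cons 231 (.leaf 252 1818 (.leaf 208 1633 .nil)) .nil)) .nil)) .nil)) .nil)) .nil)) .nil)) .nil)) .nil)) (.cons 228 (.leaf 204 1629 (.cons 277 (.leaf 278 2193 (.cons 320 (.leaf 321 2370 (.cons 325 (.leaf 326 2384 (.cons 253 (.leaf 252 1831 (.cons 230 (.leaf 254 1837 (.cons 229 (.leaf 250 1810 (.leaf 206 1645 .nil)) .nil)) .nil)) .nil)) .nil)) .nil)) .nil)) .nil))))))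
noncomputable def t137 : T := .cons 226 (.leaf 202 1623 (.cons 300 (.leaf 324 1820 (.cons 298 (.leaf 322 1814 (.cons 273 (.leaf 297 2179 (.cons 252 (.cons 225 (.leaf 224 1792 (.cons 253 (.leaf 250 1803 (.leaf 254 1811 .nil)) .nil)) (.cons 204 (.leaf 228 1629 (.cons 180 (.leaf 203 1437 (.cons 250 (.leaf 249 1986 (.cons 253 (.leaf 254 1811 (.cons 229 (.leaf 230 1809 (.cons 277 (.leaf 278 2000 (.leaf 205 1447 .nil)) .nil)) .nil)) .nil)) .nil)) .nil)) (.cons 228 (.leaf 204 1629 (.cons 225 (.leaf 224 1792 (.cons 249 (.leaf 250 1986 (.leaf 248 1794 .nil)) .nil)) .nil)) (.cons 228 (.leaf 204 1629 (.cons 225 (.leaf 224 1792 (.leaf 253 1800 .nil)) .nil)) .nil)))) .nil)) .nil)) .nil)) .nil)) (.cons 300 (.leaf 324 1820 (.cons 298 (.leaf 322 1814 (.cons 297 (.leaf 273 2179 (.cons 301 t136 .nil)) .nil)) .nil)) (.cons 226 (.leaf 202 1623 (.cons 300 (.leaf 324 1820 (.cons 298 (.leaf 322 1814 (.cons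 273 (.leaf 297 2179 (.cons 252 (.cons 225 (.leaf 224 1792 (.cons 253 (.leaf 250 1803 (.leaf 254 1811 .nil)) .nil)) (.cons 225 (.leaf 224 1792 (.cons 253 (.leaf 254 1811 (.leaf 228 1800 .nil)) .nil)) (.cons 301 t133 (.cons 249 (.leaf 250 1986 (.cons 225 (.leaf 224 1792 (.cons 201 (.cons 200 (.leaf 228 1603 (.leaf 176 1415 .nil)) (.cons 248 (.leaf 177 1414 (.leaf 228 1794 .nil)) (.cons 176 (.leaf 200 1415 (.cons 177 (.leaf 248 1414 (.leaf 152 1223 .nil)) .nil)) .nil))) .nil)) .nil)) .nil)))) .nil)) .nil)) .nil)) .nil)) (.cons 300 (.leaf 324 1820 (.cons 298 (.leaf 322 1814 (.cons 278 t132 .nil)) .nil)) (.cons 300 (.leaf 324 1820 (.cons 298 (.leaf 322 1814 (.cons 273 (.leaf 297 2179 (.cons 203 (.cons 178 (.leaf 202 1431 (.cons 179 (.leaf 154 1239 (.cons 180 (.leaf 204 1437 (.leaf 156 1245 .nil)) .nil)) .nil)) (.cons 180 (.leaf 204 1437 (.cons 179 (.leaf 156 1245 (.cons 154 (.leaf 178 1239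 (.cons 155 (.leaf 130 1047 (.cons 250 (.leaf 226 1238 (.cons 152 (.leaf 153 1216 (.cons 249 (.leaf 252 1986 (.cons 271 (.leaf 248 1978 (.leaf 270 1969 .nil)) .nil)) .nil)) .nil)) .nil)) .nil)) .nil)) .nil)) (.cons 180 (.leaf 204 1437 (.cons 179 (.leaf 156 1245 (.cons 226 (.leaf 202 1623 (.cons 250 (.leaf 155 1238 (.cons 249 (.leaf 252 1986 (.cons 248 (.leaf 271 1978 (.leaf 247 1785 .nil)) .nil)) .nil)) .nil)) .nil)) .nil)) (.cons 202 (.leaf 178 1431 (.leaf 226 1623 .nil)) .nil)))) .nil)) .nil)) .nil)) (.cons 202 (.leaf 226 1623 (.cons 203 (.leaf 178 1431 (.cons 204 (.leaf 180 1437 (.leaf 228 1629 .nil)) .nil)) .nil)) .nil)))))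
noncomputable def t138 : T := .cons 227 (.cons 226 (.leaf 202 1623 (.cons 322 (.leaf 298 1814 (.cons 323 (.leaf 250 1815 (.leaf 346 2006 .nil)) .nil)) .nil)) (.cons 228 (.leaf 204 1629 (.cons 323 (.leaf 252 1821 (.cons 324 (.leaf 300 1820 (.leaf 348 2012 .nil)) .nil)) .nil)) (.cons 202 (.leaf 226 1623 (.cons 203 (.leaf 178 1431 (.cons 204 (.leaf 180 1437 (.leaf 228 1629 .nil)) .nil)) .nil)) .nil))) (.cons 323 (.cons 228 (.leaf 252 1821 (.cons 346 (.leaf 322 2006 (.cons 347 (.leaf 370 2198 (.cons 348 (.leaf 324 2012 (.leaf 372 2204 .nil)) .nil)) .nil)) .nil)) (.cons 250 (.leaf 226 1815 (.cons 252 (.leaf 228 1821 (.cons 249 (.leaf 273 1986 (.cons 248 (.leaf 271 1978 (.cons 224 (.leaf 223 1787 (.leaf 225 1795 .nil)) .nil)) .nil)) .nil)) .nil)) (.cons 226 (.leaf 250 1815 (.cons 346 (.leaf 322 2006 (.cons 347 (.leaf 370 2198 (.cons 348 (.leaf 324 2012 (.leaf 372 2204 .nil)) .nil)) .nil))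 .nil)) .nil))) (.cons 227 t137 (.cons 323 (.cons 322 (.leaf 346 2006 (.cons 324 (.leaf 348 2012 (.cons 298 (.leaf 227 1814 (.cons 325 (.leaf 326 2387 (.leaf 297 2379 .nil)) .nil)) .nil)) .nil)) (.cons 228 (.leaf 252 1821 (.cons 227 (.leaf 204 1629 (.cons 324 (.leaf 300 1820 (.leaf 348 2012 .nil)) .nil)) .nil)) (.cons 228 (.leaf 252 1821 (.cons 227 (.leaf 204 1629 (.cons 322 (.leaf 298 1814 (.leaf 346 2006 .nil)) .nil)) .nil)) (.cons 346 (.leaf 322 2006 (.cons 347 (.leaf 370 2198 (.cons 348 (.leaf 324 2012 (.leaf 372 2204 .nil)) .nil)) .nil)) .nil)))) (.cons 323 (.cons 226 (.leaf 250 1815 (.cons 227 (.leaf 202 1623 (.cons 322 (.leaf 298 1814 (.leaf 346 2006 .nil)) .nil)) .nil)) (.cons 226 (.leaf 250 1815 (.cons 227 (.leaf 202 1623 (.cons 324 (.leaf 300 1820 (.leaf 348 2012 .nil)) .nil)) .nil)) (.cons 346 (.leaf 322 2006 (.cons 347 (.leaf 370 2198 (.cons 348 (.leaf 324 2012 (.leaf 372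 2204 .nil)) .nil)) .nil)) .nil))) (.cons 227 (.cons 202 (.leaf 226 1623 (.cons 203 (.leaf 178 1431 (.cons 204 (.leaf 180 1437 (.leaf 228 1629 .nil)) .nil)) .nil)) (.cons 228 (.leaf 204 1629 (.cons 323 (.leaf 252 1821 (.cons 324 (.leaf 300 1820 (.leaf 348 2012 .nil)) .nil)) .nil)) (.cons 226 (.leaf 202 1623 (.cons 323 (.leaf 250 1815 (.cons 324 (.leaf 300 1820 (.leaf 348 2012 .nil)) .nil)) .nil)) .nil))) (.cons 227 (.cons 228 (.leaf 204 1629 (.cons 322 (.leaf 298 1814 (.cons 323 (.leaf 252 1821 (.leaf 346 2006 .nil)) .nil)) .nil)) (.cons 226 (.leaf 202 1623 (.cons 322 (.leaf 298 1814 (.cons 323 (.leaf 250 1815 (.leaf 346 2006 .nil)) .nil)) .nil)) (.cons 226 (.leaf 202 1623 (.cons 204 (.leaf 228 1629 (.cons 203 (.leaf 180 1437 (.cons 205 (.leaf 206 1618 (.cons 225 (.leaf 224 1601 (.cons 250 (.leaf 323 1815 (.cons 155 (.leaf 179 1238 (.cons 252 (.leaf 253 1803 (.cons 249 (.leaf 273 1986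 (.cons 248 (.leaf 271 1978 (.leaf 247 1785 .nil)) .nil)) .nil)) .nil)) .nil)) .nil)) .nil)) .nil)) .nil)) .nil)) (.cons 202 (.leaf 226 1623 (.cons 203 (.leaf 178 1431 (.cons 204 (.leaf 180 1437 (.leaf 228 1629 .nil)) .nil)) .nil)) .nil)))) .nil))))))
noncomputable def t139 : T := .cons 225 (.leaf 249 1807 (.cons 229 (.leaf 230 1809 (.cons 277 (.leaf 278 2000 (.cons 323 (.leaf 347 2004 (.cons 228 (.leaf 299 1821 (.cons 204 (.leaf 180 1444 (.leaf 301 1639 .nil)) .nil)) .nil)) .nil)) .nil)) .nil)) (.cons 323 (.leaf 347 2004 (.cons 228 (.leaf 299 1821 (.cons 180 (.leaf 204 1438 (.cons 229 (.leaf 230 1809 (.cons 277 (.leaf 278 2000 (.cons 325 (.leaf 301 1831 (.cons 324 (.leaf 297 2379 (.cons 321 (.leaf 345 1998 (.cons 349 (.leaf 348 2568 (.leaf 350 2576 .nil)) .nil)) .nil)) .nil)) .nil)) .nil)) .nil)) .nil)) .nil)) (.cons 229 (.leaf 230 1809 (.cons 249 (.leaf 228 1801 (.leaf 225 1807 .nil))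 .nil)) (.cons 225 (.leaf 249 1807 (.cons 277 (.leaf 278 2000 (.cons 321 (.leaf 345 1998 (.cons 323 (.leaf 347 2004 (.cons 228 (.leaf 299 1821 (.cons 325 (.leaf 301 1831 (.cons 324 (.leaf 297 2379 (.cons 180 (.leaf 204 1444 (.cons 349 (.leaf 348 2568 (.leaf 350 2576 .nil)) .nil)) .nil)) .nil)) .nil)) .nil)) .nil)) .nil)) .nil)) (.cons 229 (.leaf 230 1809 (.cons 249 (.leaf 225 1807 (.cons 248 (.leaf 247 1976 (.leaf 271 1978 .nil)) .nil)) .nil)) .nil))))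
noncomputable def t140 : T := .cons 323 (.leaf 226 1815 (.leaf 228 1821 .nil)) (.cons 227 (.cons 204 (.leaf 228 1629 (.cons 226 (.leaf 202 1623 (.cons 180 (.leaf 203 1437 (.cons 224 (.leaf 225 1792 (.cons 298 (.leaf 322 1814 (.cons 300 (.leaf 324 1820 (.leaf 297 2179 .nil)) .nil)) .nil)) .nil)) .nil)) .nil)) (.cons 204 (.leaf 228 1629 (.cons 203 (.leaf 180 1437 (.cons 178 (.leaf 202 1431 (.cons 154 (.leaf 179 1239 (.cons 298 (.leaf 322 1814 (.cons 300 (.leaf 324 1820 (.leaf 297 2179 .nil)) .nil)) .nil)) .nil)) .nil)) .nil)) (.cons 298 (.leaf 322 1814 (.cons 300 (.leaf 324 1820 (.leaf 297 2179 .nil)) .nil)) (.cons 202 (.leaf 226 1623 (.cons 203 (.leaf 178 1431 (.cons 204 (.leaf 180 1437 (.leaf 228 1629 .nil)) .nil)) .nil)) .nil)))) (.cons 323 (.leaf 228 1821 (.cons 322 (.leaf 346 2006 (.cons 227 (.leaf 298 1814 (.cons 324 (.leaf 300 1820 (.leaf 348 2012 .nil)) .nil)) .nil)) .nil)) (.cons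 323 (.leaf 226 1815 (.cons 322 (.leaf 346 2006 (.cons 227 (.leaf 298 1814 (.cons 324 (.leaf 300 1820 (.leaf 348 2012 .nil)) .nil)) .nil)) .nil)) .nil)))
noncomputable def t141 : T := .cons 226 (.cons 202 (.leaf 299 1623 (.cons 225 (.leaf 224 1792 (.leaf 228 1800 .nil)) .nil)) (.cons 202 (.leaf 299 1623 (.cons 178 (.leaf 203 1431 (.leaf 154 1236 .nil)) .nil)) (.cons 203 (.leaf 298 1622 (.cons 225 (.leaf 224 1792 (.leaf 228 1800 .nil)) .nil)) .nil))) (.cons 299 (.cons 202 (.leaf 226 1623 (.cons 228 (.leaf 204 1629 (.leaf 323 1821 .nil)) .nil)) (.cons 202 (.leaf 226 1623 (.cons 322 (.leaf 298 1814 (.cons 323 (.leaf 346 2006 (.cons 324 (.leaf 300 1820 (.leaf 348 2012 .nil)) .nil)) .nil)) .nil)) (.cons 202 (.leaf 226 1623 (.cons 228 (.leaf 204 1629 (.cons 298 (.leaf 322 1814 (.cons 300 (.leaf 324 1820 (.cons 301 (.leaf 302 2195 (.cons 277 (.leaf 325 1831 (.leaf 278 2193 .nil)) .nil)) .nil))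 .nil)) .nil)) .nil)) (.cons 228 (.leaf 204 1629 (.leaf 323 1821 .nil)) .nil)))) (.cons 226 (.cons 202 (.leaf 299 1623 (.cons 225 (.leaf 224 1792 (.leaf 228 1800 .nil)) .nil)) (.cons 202 (.leaf 299 1623 (.cons 178 (.leaf 203 1431 (.leaf 154 1236 .nil)) .nil)) (.cons 225 (.leaf 224 1792 (.leaf 228 1800 .nil)) .nil))) (.cons 203 (.leaf 298 1622 (.cons 178 (.leaf 202 1431 (.cons 179 (.leaf 154 1239 (.cons 180 (.leaf 204 1437 (.leaf 156 1245 .nil)) .nil)) .nil)) .nil)) (.cons 298 (.leaf 203 1622 (.cons 322 (.leaf 299 1814 (.leaf 346 2005 .nil)) .nil)) .nil))))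
noncomputable def t142 : T := .cons 227 (.cons 298 (.leaf 322 1814 (.cons 226 (.leaf 202 1623 (.cons 225 (.leaf 224 1792 (.cons 253 (.leaf 250 1803 (.leaf 254 1811 .nil)) .nil)) .nil)) .nil)) (.cons 298 (.leaf 322 1814 (.cons 203 (.leaf 274 1622 (.cons 178 (.leaf 202 1431 (.cons 179 (.leaf 154 1239 (.cons 180 (.leaf 204 1437 (.leaf 156 1245 .nil)) .nil)) .nil)) .nil)) .nil)) (.cons 298 (.leaf 322 1814 (.cons 274 (.leaf 203 1622 (.cons 253 (.leaf 254 2002 (.cons 324 (.leaf 300 1820 (.cons 323 (.leaf 228 1821 (.leaf 348 2012 .nil)) .nil)) .nil)) .nil)) .nil)) (.cons 226 (.leaf 202 1623 (.cons 225 (.leaf 224 1792 (.cons 253 (.leaf 250 1803 (.leaf 254 1811 .nil)) .nil)) .nil)) .nil)))) (.cons 227 (.cons 204 (.leaf 228 1629 (.cons 203 (.leaf 180 1437 (.cons 298 (.leaf 274 1622 (.leaf 322 1814 .nil)) .nil)) .nil)) (.cons 226 (.leaf 202 1623 (.cons 224 (.leaf 225 1792 (.cons 253 (.leaf 254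 1811 (.cons 298 (.leaf 322 1814 (.cons 203 (.leaf 274 1622 (.cons 180 (.leaf 204 1437 (.cons 179 (.leaf 156 1245 (.cons 154 (.leaf 178 1239 (.cons 155 (.leaf 130 1047 (.leaf 250 1238 .nil)) .nil)) .nil)) .nil)) .nil)) .nil)) .nil)) .nil)) .nil)) (.cons 226 (.leaf 202 1623 (.cons 224 (.leaf 225 1792 (.cons 253 (.leaf 254 1811 (.cons 298 (.leaf 322 1814 (.cons 274 (.leaf 203 1622 (.cons 300 (.leaf 324 1820 (.cons 301 (.leaf 302 2195 (.cons 277 (.leaf 278 2193 (.cons 325 (.leaf 228 1831 (.leaf 326 2384 .nil)) .nil)) .nil)) .nil)) .nil)) .nil)) .nil)) .nil)) .nil)) (.cons 204 (.leaf 228 1629 (.cons 226 (.leaf 202 1623 (.cons 225 (.leaf 224 1792 (.cons 253 (.leaf 250 1803 (.leaf 254 1811 .nil)) .nil)) .nil)) .nil)) .nil)))) (.cons 227 (.cons 226 (.leaf 202 1623 (.cons 224 (.leaf 225 1792 (.cons 253 (.leaf 254 1811 (.cons 298 (.leaf 322 1814 (.cons 203 (.leaf 274 1622 (.cons 180 (.leaf 204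 1437 (.cons 179 (.leaf 156 1245 (.cons 154 (.leaf 178 1239 (.cons 155 (.leaf 130 1047 (.leaf 250 1238 .nil)) .nil)) .nil)) .nil)) .nil)) .nil)) .nil)) .nil)) .nil)) (.cons 298 (.leaf 322 1814 (.cons 203 (.leaf 274 1622 (.cons 178 (.leaf 202 1431 (.cons 179 (.leaf 154 1239 (.cons 180 (.leaf 204 1437 (.leaf 156 1245 .nil)) .nil)) .nil)) .nil)) .nil)) (.cons 226 (.leaf 202 1623 (.cons 224 (.leaf 225 1792 (.cons 253 (.leaf 254 1811 (.cons 323 (.leaf 250 1815 (.cons 324 (.leaf 300 1820 (.leaf 348 2012 .nil)) .nil)) .nil)) .nil)) .nil)) (.cons 298 (.leaf 322 1814 (.cons 274 (.leaf 203 1622 (.cons 253 (.leaf 254 2002 (.cons 324 (.leaf 300 1820 (.cons 323 (.leaf 348 2012 (.cons 250 (.leaf 226 1812 (.leaf 347 2007 .nil)) .nil)) .nil)) .nil)) .nil)) .nil)) .nil)))) (.cons 323 (.leaf 228 1821 (.cons 226 (.leaf 250 1815 (.cons 346 (.leaf 322 2006 (.cons 347 (.leaf 370 2198 (.cons 348 (.leaf 324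 2012 (.leaf 372 2204 .nil)) .nil)) .nil)) .nil)) .nil)) (.cons 323 (.leaf 228 1821 (.cons 322 (.leaf 346 2006 (.cons 227 (.leaf 298 1814 (.cons 324 (.leaf 300 1820 (.leaf 348 2012 .nil)) .nil)) .nil)) .nil)) (.cons 323 (.leaf 228 1821 (.cons 226 (.leaf 250 1815 (.cons 227 (.leaf 202 1623 (.cons 324 (.leaf 300 1820 (.leaf 348 2012 .nil)) .nil)) .nil)) .nil)) (.cons 227 (.cons 298 (.leaf 322 1814 (.cons 226 (.leaf 202 1623 (.cons 225 (.leaf 224 1792 (.cons 253 (.leaf 250 1803 (.leaf 254 1811 .nil)) .nil)) .nil)) .nil)) (.cons 298 (.leaf 322 1814 (.cons 203 (.leaf 274 1622 (.cons 178 (.leaf 202 1431 (.cons 179 (.leaf 154 1239 (.cons 180 (.leaf 204 1437 (.leaf 156 1245 .nil)) .nil)) .nil)) .nil)) .nil)) (.cons 228 (.leaf 204 1629 (.leaf 323 1821 .nil)) .nil))) .nil))))))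
noncomputable def t143 : T := .cons 250 (.cons 226 (.cons 225 (.leaf 253 1803 (.cons 224 (.leaf 223 1784 (.leaf 227 1792 .nil)) .nil)) (.cons 202 (.leaf 178 1428 (.cons 299 (.leaf 227 1623 (.leaf 323 1815 .nil)) .nil)) (.cons 178 (.leaf 202 1428 (.cons 225 (.leaf 253 1803 (.cons 224 (.leaf 223 1784 (.leaf 249 1795 .nil)) .nil)) .nil)) .nil))) (.cons 226 (.cons 225 (.leaf 253 1803 (.cons 224 (.leaf 223 1784 (.leaf 227 1792 .nil)) .nil)) (.cons 202 (.leaf 178 1428 (.cons 299 (.leaf 227 1623 (.leaf 323 1815 .nil)) .nil)) (.cons 178 (.leaf 202 1428 (.cons 253 (.leaf 225 1803 (.cons 230 (.leaf 229 1809 (.cons 254 (.leaf 231 1817 (.cons 278 (.leaf 277 2000 (.leaf 279 2008 .nil)) .nil)) .nil)) .nil)) .nil)) .nil))) (.cons 249 (.leaf 273 1986 (.cons 228 (.leaf 229 1801 (.cons 248 (.leaf 271 1978 (.leaf 227 1793 .nil)) .nil)) .nil)) (.cons 249 (.leaf 273 1986 (.cons 224 (.leaf 225 1795 (.cons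 248 (.leaf 271 1978 (.leaf 223 1787 .nil)) .nil)) .nil)) .nil)))) (.cons 299 t142 (.cons 274 (.leaf 273 1985 (.cons 253 (.leaf 254 2002 (.cons 227 t141 .nil)) .nil)) (.cons 274 (.leaf 273 1985 (.cons 253 (.leaf 254 2002 (.cons 250 (.cons 229 (.leaf 230 1809 (.cons 228 (.leaf 249 1801 (.cons 204 (.leaf 180 1438 (.cons 277 (.leaf 278 2000 (.leaf 301 1639 .nil)) .nil)) .nil)) .nil)) (.cons 226 (.leaf 225 1803 (.cons 202 (.leaf 178 1428 (.cons 177 (.leaf 201 1423 (.cons 203 (.leaf 179 1429 (.cons 298 (.leaf 227 1621 (.cons 277 (.leaf 278 2000 (.cons 321 (.leaf 297 1806 (.cons 322 (.leaf 346 2005 (.leaf 345 1998 .nil)) .nil)) .nil)) .nil)) .nil)) .nil)) .nil)) .nil)) (.cons 226 (.leaf 225 1803 (.cons 178 (.leaf 202 1428 (.cons 229 (.leaf 230 1809 (.cons 249 (.leaf 228 1801 (.cons 248 (.leaf 247 1976 (.leaf 271 1978 .nil)) .nil)) .nil)) .nil)) .nil)) .nil))) .nil)) .nil)) (.cons 273 (.leaf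 274 1985 (.cons 250 (.leaf 249 1986 (.cons 226 (.cons 225 (.leaf 253 1803 (.cons 224 (.leaf 223 1784 (.leaf 227 1792 .nil)) .nil)) (.cons 202 (.leaf 178 1428 (.cons 299 (.leaf 227 1623 (.leaf 323 1815 .nil)) .nil)) (.cons 253 (.leaf 225 1803 (.cons 178 (.leaf 202 1428 (.cons 230 (.leaf 229 1809 (.cons 254 (.leaf 231 1817 (.cons 278 (.leaf 277 2000 (.leaf 279 2008 .nil)) .nil)) .nil)) .nil)) .nil)) .nil))) .nil)) .nil)) (.cons 273 (.leaf 274 1985 (.cons 250 (.leaf 249 1986 (.cons 299 t140 .nil)) .nil)) (.cons 274 (.leaf 273 1985 (.cons 253 (.leaf 254 2002 (.cons 250 (.cons 226 (.leaf 225 1803 (.cons 202 (.leaf 178 1428 (.leaf 299 1620 .nil)) .nil)) (.cons 229 (.leaf 230 1809 (.cons 228 (.leaf 249 1801 (.cons 180 (.leaf 204 1438 (.cons 277 (.leaf 278 2000 (.cons 299 (.leaf 323 1821 (.cons 301 (.leaf 325 1831 (.cons 300 (.leaf 302 2195 (.leaf 324 1830 .nil)) .nil)) .nil)) .nil)) .nil))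 .nil)) .nil)) (.cons 225 (.leaf 226 1803 (.cons 229 (.leaf 230 1809 (.cons 249 (.leaf 224 1795 (.leaf 228 1801 .nil)) .nil)) .nil)) .nil))) .nil)) .nil)) (.cons 274 (.leaf 273 1985 (.cons 253 (.leaf 254 2002 (.cons 298 (.cons 322 (.leaf 346 2005 (.cons 250 (.leaf 227 1813 (.cons 225 (.leaf 249 1807 (.cons 229 (.leaf 230 1809 (.cons 277 (.leaf 278 2000 (.cons 323 (.leaf 347 2004 (.cons 228 (.leaf 299 1821 (.cons 204 (.leaf 180 1444 (.leaf 301 1639 .nil)) .nil)) .nil)) .nil)) .nil)) .nil)) .nil)) .nil)) (.cons 227 (.leaf 203 1622 (.cons 299 (.cons 228 (.leaf 204 1629 (.leaf 323 1821 .nil)) (.cons 324 (.leaf 300 1820 (.cons 323 (.leaf 348 2012 (.cons 347 (.leaf 250 2007 (.leaf 371 2199 .nil)) .nil)) .nil)) (.cons 228 (.leaf 204 1629 (.cons 300 (.leaf 324 1820 (.cons 301 (.leaf 302 2195 (.cons 277 (.leaf 325 1831 (.leaf 278 2193 .nil)) .nil)) .nil)) .nil)) .nil))) .nil)) (.cons 322 (.leaf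 346 2005 (.cons 250 t139 .nil)) (.cons 322 (.leaf 346 2005 (.cons 227 (.leaf 203 1622 (.leaf 299 1814 .nil)) .nil)) (.cons 322 (.leaf 346 2005 (.cons 227 (.leaf 203 1622 (.leaf 250 1813 .nil)) .nil)) .nil))))) .nil)) .nil)) (.cons 273 (.leaf 274 1985 (.cons 250 (.leaf 249 1986 (.cons 299 (.cons 323 (.leaf 226 1815 (.leaf 228 1821 .nil)) (.cons 227 (.cons 204 (.leaf 228 1629 (.cons 203 (.leaf 180 1437 (.cons 178 (.leaf 202 1431 (.cons 154 (.leaf 179 1239 (.cons 298 (.leaf 322 1814 (.cons 300 (.leaf 324 1820 (.leaf 297 2179 .nil)) .nil)) .nil)) .nil)) .nil)) .nil)) (.cons 298 (.leaf 322 1814 (.cons 300 (.leaf 324 1820 (.leaf 297 2179 .nil)) .nil)) (.cons 202 (.leaf 226 1623 (.cons 203 (.leaf 178 1431 (.cons 204 (.leaf 180 1437 (.leaf 228 1629 .nil)) .nil)) .nil)) .nil))) (.cons 323 (.leaf 226 1815 (.cons 322 (.leaf 346 2006 (.cons 227 (.leaf 298 1814 (.cons 324 (.leaf 300 1820 (.leaf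 348 2012 .nil)) .nil)) .nil)) .nil)) (.cons 228 (.leaf 323 1821 (.cons 204 (.leaf 180 1438 (.leaf 227 1629 .nil)) .nil)) .nil)))) .nil)) .nil)) .nil))))))))
noncomputable def t144 : T := .cons 203 (.leaf 298 1622 (.cons 202 (.leaf 178 1431 (.cons 204 (.leaf 180 1437 (.cons 226 (.leaf 299 1623 (.cons 205 (.leaf 206 1618 (.leaf 225 1610 .nil)) .nil)) .nil)) .nil)) .nil)) (.cons 299 (.cons 324 (.leaf 300 1820 (.cons 323 (.leaf 228 1821 (.leaf 348 2012 .nil)) .nil)) (.cons 324 (.leaf 300 1820 (.cons 323 (.leaf 348 2012 (.cons 347 (.leaf 250 2007 (.cons 346 (.leaf 322 2006 (.leaf 370 2198 .nil)) .nil)) .nil)) .nil)) (.cons 228 (.leaf 204 1629 (.cons 300 (.leaf 324 1820 (.cons 226 (.leaf 202 1623 (.leaf 225 1800 .nil)) .nil)) .nil)) (.cons 228 (.leaf 204 1629 (.leaf 323 1821 .nil)) .nil)))) (.cons 203 (.leaf 298 1622 (.cons 179 (.leaf 250 1430 (.cons 178 (.leaf 202 1431 (.leaf 154 1239 .nil))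 .nil)) .nil)) (.cons 299 (.cons 324 (.leaf 300 1820 (.cons 323 (.leaf 228 1821 (.leaf 348 2012 .nil)) .nil)) (.cons 324 (.leaf 300 1820 (.cons 323 (.leaf 348 2012 (.cons 347 (.leaf 250 2007 (.cons 346 (.leaf 322 2006 (.leaf 370 2198 .nil)) .nil)) .nil)) .nil)) (.cons 228 (.leaf 204 1629 (.cons 300 (.leaf 324 1820 (.cons 301 (.leaf 302 2195 (.cons 277 (.leaf 325 1831 (.cons 278 (.leaf 250 2000 (.leaf 298 2193 .nil)) .nil)) .nil)) .nil)) .nil)) (.cons 228 (.leaf 204 1629 (.leaf 323 1821 .nil)) .nil)))) .nil)))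
noncomputable def top0 : T := .cons 298 t75 (.cons 251 t71 (.cons 298 t61 (.cons 251 t55 (.cons 251 (.cons 323 (.cons 226 (.leaf 250 1815 (.cons 227 (.leaf 202 1623 (.cons 228 (.leaf 204 1629 (.leaf 252 1821 .nil)) .nil)) .nil)) (.cons 322 (.leaf 346 2006 (.cons 298 (.leaf 227 1814 (.cons 324 (.leaf 348 2012 (.cons 297 (.leaf 296 2368 (.leaf 325 2379 .nil)) .nil)) .nil)) .nil)) (.cons 250 (.leaf 226 1815 (.cons 252 (.leaf 228 1821 (.cons 274 (.leaf 347 2007 (.leaf 273 1985 .nil)) .nil)) .nil)) .nil))) t52) (.cons 251 t51 (.cons 323 t42 (.cons 274 (.cons 273 (.leaf 300 2176 (.cons 251 (.leaf 252 1985 (.cons 250 (.leaf 271 1977 (.cons 226 (.leaf 202 1620 (.leaf 323 1815 .nil)) .nil)) .nil)) .nil)) (.cons 323 t37 (.cons 273 (.cons 251 (.leaf 252 1985 (.cons 250 (.leaf 271 1977 (.cons 226 (.leaf 202 1620 (.leaf 323 1815 .nil)) .nil)) .nil)) (.cons 251 (.leaf 252 1985 (.cons 296 (.leaf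 295 2170 (.cons 226 (.cons 202 (.leaf 227 1623 (.leaf 250 1620 .nil)) (.cons 227 (.leaf 202 1623 (.cons 203 (.leaf 298 1622 (.cons 204 (.leaf 180 1437 (.leaf 228 1629 .nil)) .nil)) .nil)) (.cons 323 (.leaf 250 1815 (.cons 348 (.leaf 324 2012 (.cons 347 (.leaf 372 2204 (.cons 370 (.leaf 346 2198 (.cons 371 (.leaf 298 2199 (.leaf 394 2390 .nil)) .nil)) .nil)) .nil)) .nil)) .nil))) .nil)) .nil)) (.cons 271 (.leaf 298 2168 (.cons 295 (.leaf 296 2170 (.leaf 294 2162 .nil)) .nil)) .nil))) (.cons 273 (.leaf 300 2176 (.cons 271 (.leaf 298 2168 (.cons 295 (.leaf 296 2170 (.leaf 294 2162 .nil)) .nil)) .nil)) (.cons 323 t36 .nil))))) (.cons 300 t35 (.cons 274 t23 (.cons 251 (t21) (.cons 274 t18 (.cons 298 t16 (.cons 300 t10 (.cons 274 t1 .nil))))))))))))))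
noncomputable def top1 : T := .cons 252 (.cons 274 (.leaf 273 1985 (.cons 253 (.leaf 254 2002 (.cons 227 t144 .nil)) .nil)) t143) (.cons 299 t138 (.cons 250 t128 (.cons 299 t121 (.cons 299 t119 (.cons 299 t116 (.cons 227 t107 (.cons 274 (.cons 227 t103 (.cons 227 t102 (.cons 273 t100 (.cons 273 (.leaf 252 1985 (.cons 271 (.leaf 250 1977 (.cons 246 (.leaf 247 1971 (.cons 270 (.leaf 245 1963 (.cons 294 (.leaf 293 2154 (.leaf 295 2162 .nil)) .nil)) .nil)) .nil)) .nil)) (.cons 273 (.leaf 252 1985 (.cons 299 (.leaf 300 2176 (.cons 247 (.leaf 248 1979 (.cons 271 (.leaf 246 1971 (.leaf 298 2168 .nil)) .nil)) .nil)) .nil)) .nil))))) (.cons 274 (.cons 273 (.leaf 252 1985 (.cons 299 (.leaf 300 2176 (.cons 271 (.leaf 250 1977 (.leaf 298 2168 .nil)) .nil)) .nil)) (.cons 227 t99 (.cons 299 t98 (.cons 273 (.leaf 252 1985 (.cons 271 (.leaf 250 1977 (.cons 246 (.leaf 247 1971 (.cons 270 (.leaf 245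 1963 (.cons 294 (.leaf 293 2154 (.leaf 295 2162 .nil)) .nil)) .nil)) .nil)) .nil)) (.cons 273 (.leaf 252 1985 (.cons 299 (.leaf 300 2176 (.cons 271 (.leaf 298 2168 (.cons 246 (.leaf 247 1971 (.cons 270 (.leaf 245 1963 (.cons 294 (.leaf 293 2154 (.leaf 295 2162 .nil)) .nil)) .nil)) .nil)) .nil)) .nil)) .nil))))) (.cons 299 t97 (.cons 274 t94 (.cons 250 t91 (.cons 252 (.cons 274 (.leaf 273 1985 (.cons 253 (.leaf 254 2002 (.cons 250 (.cons 225 (.leaf 226 1803 (.cons 229 (.leaf 230 1809 (.cons 249 (.leaf 224 1795 (.leaf 228 1801 .nil)) .nil)) .nil)) (.cons 229 (.leaf 230 1809 (.cons 228 (.leaf 249 1801 (.cons 180 (.leaf 204 1438 (.cons 277 (.leaf 278 2000 (.cons 299 (.leaf 323 1821 (.cons 301 (.leaf 325 1831 (.cons 300 (.leaf 302 2195 (.leaf 324 1830 .nil)) .nil)) .nil)) .nil)) .nil)) .nil)) .nil)) (.cons 225 (.leaf 226 1803 (.cons 249 (.leaf 224 1795 (.cons 248 (.leaf 247 1976 (.leaf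 271 1978 .nil)) .nil)) .nil)) (.cons 226 (.leaf 225 1803 (.cons 202 (.leaf 178 1428 (.leaf 299 1620 .nil)) .nil)) .nil)))) .nil)) .nil)) t87) (.cons 274 t80 (.cons 274 t78 .nil))))))))))))))

end Vale.Agent.P062.PB.N5D1
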