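import Vale.Agent.P062.Checker

namespace Vale.Agent.P062.PB.N5D10

open Vale.Agent.P062

noncomputable def t0 : T := .cons 270 (.leaf 269 1962 (.cons 222 (.leaf 221 1771 (.cons 198 (.cons 271 (.leaf 250 1969 (.leaf 174 1396 .nil)) (.cons 173 (.leaf 197 1391 (.cons 223 (.leaf 250 1779 (.cons 175 (.leaf 199 1404 (.cons 174 (.leaf 150 1204 (.leaf 149 1199 .nil)) .nil)) .nil)) .nil)) (.cons 271 (.leaf 174 1396 (.leaf 295 1588 .nil)) (.cons 173 (.leaf 197 1391 (.cons 271 (.leaf 250 1969 (.leaf 295 1588 .nil)) .nil)) .nil)))) .nil)) .nil)) (.cons 222 (.leaf 221 1771 (.cons 223 (.leaf 250 1779 (.cons 199 (.leaf 175 1404 (.cons 296 (.leaf 224 1599 (.leaf 271 1596 .nil)) .nil)) .nil)) .nil)) (.cons 222 (.leaf 221 1771 (.cons 223 (.leaf 250 1779 (.cons 199 (.leaf 175 1404 (.cons 296 (.leaf 224 1599 (.leaf 320 1791 .nil)) .nil)) .nil)) .nil)) (.cons 270 (.leaf 269 1962 (.cons 250 (.leaf 271 1969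 (.cons 251 (.leaf 252 1986 (.cons 224 (.leaf 223 1787 (.cons 297 (.leaf 200 1604 (.leaf 321 1799 .nil)) .nil)) .nil)) .nil)) .nil)) (.cons 270 (.leaf 269 1962 (.cons 222 (.leaf 221 1771 (.cons 198 (.cons 271 (.leaf 174 1396 (.leaf 295 1588 .nil)) (.cons 173 (.leaf 197 1391 (.cons 175 (.leaf 199 1397 (.cons 174 (.leaf 149 1199 (.leaf 151 1205 .nil)) .nil)) .nil)) (.cons 173 (.leaf 197 1391 (.cons 271 (.leaf 295 1588 (.cons 175 (.leaf 199 1397 (.cons 297 (.leaf 298 2160 (.cons 224 (.leaf 200 1604 (.leaf 321 1799 .nil)) .nil)) .nil)) .nil)) .nil)) .nil))) .nil)) .nil)) .nil))))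
noncomputable def t1 : T := .leaf 245 1960 (.cons 249 (.cons 221 (.leaf 222 1771 (.cons 270 (.leaf 269 1962 (.cons 271 (.leaf 250 1969 (.cons 297 (.leaf 298 2160 (.cons 321 (.leaf 345 1991 (.cons 320 (.leaf 344 1990 (.cons 296 (.leaf 223 1791 (.leaf 225 1797 .nil)) .nil)) .nil)) .nil)) .nil)) .nil)) .nil)) (.cons 221 (.leaf 222 1771 (.cons 226 (.leaf 225 1777 (.cons 250 (.leaf 227 1785 (.cons 251 (.leaf 271 1978 (.leaf 252 1986 .nil)) .nil)) .nil)) .nil)) (.cons 221 (.leaf 222 1771 (.cons 270 (.leaf 269 1962 (.cons 271 (.leaf 250 1969 (.cons 297 (.leaf 298 2160 (.cons 321 (.leaf 345 1991 (.cons 320 (.leaf 344 1990 (.cons 296 (.leaf 223 1791 (.cons 319 (.leaf 343 1982 (.cons 318 (.leaf 317 2345 (.cons 342 (.leaf 295 1974 (.leaf 341 2538 .nil)) .nil)) .nil)) .nil)) .nil)) .nil)) .nil)) .nil)) .nil)) .nil)) (.cons 270 (.leaf 269 1962 (.cons 250 (.leaf 271 1969 (.cons 227 (.leaf 226 1785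 (.cons 251 (.leaf 252 1986 (.leaf 228 1793 .nil)) .nil)) .nil)) .nil)) (.cons 225 (.leaf 226 1777 (.cons 201 (.leaf 177 1414 (.leaf 296 1606 .nil)) .nil)) .nil))))) .nil)
noncomputable def t2 : T := .cons 296 (.leaf 320 1791 (.cons 224 (.leaf 199 1599 (.cons 225 (.leaf 201 1605 (.leaf 226 1778 .nil)) .nil)) .nil)) (.cons 296 (.leaf 320 1791 (.cons 224 (.cons 225 (.leaf 201 1605 (.leaf 226 1778 .nil)) (.cons 297 (.leaf 200 1604 (.leaf 321 1796 .nil)) .nil)) .nil)) (.cons 199 (.leaf 175 1404 (.cons 200 (.cons 224 (.leaf 297 1604 (.cons 271 (.leaf 295 1597 (.leaf 176 1405 .nil)) .nil)) (.cons 271 (.leaf 176 1405 (.cons 198 (.leaf 174 1399 (.cons 222 (.leaf 295 1591 (.cons 221 (.leaf 220 1760 (.leaf 201 1578 .nil)) .nil)) .nil)) .nil)) (.cons 224 (.leaf 297 1604 (.cons 152 (.leaf 176 1214 (.cons 201 (.leaf 177 1413 (.cons 222 (.leaf 221 1577 (.cons 225 (.leaf 226 1778 (.cons 198 (.leaf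 197 1576 (.cons 174 (.leaf 150 1204 (.leaf 173 1387 .nil)) .nil)) .nil)) .nil)) .nil)) .nil)) .nil)) (.cons 224 (.leaf 297 1604 (.cons 271 (.leaf 295 1597 (.cons 177 (.leaf 201 1413 (.cons 198 (.leaf 174 1399 (.cons 225 (.leaf 226 1778 (.leaf 197 1576 .nil)) .nil)) .nil)) .nil)) .nil)) .nil)))) .nil)) (.cons 199 (.leaf 175 1404 (.cons 296 (.leaf 271 1596 (.leaf 320 1791 .nil)) .nil)) .nil)))
noncomputable def t3 : T := .cons 320 (.leaf 223 1791 (.cons 225 (.leaf 249 1797 (.cons 344 (.leaf 271 1983 (.cons 343 (.leaf 319 1982 (.leaf 367 2174 .nil)) .nil)) .nil)) .nil)) (.cons 224 (.cons 199 (.leaf 223 1599 (.cons 200 (.leaf 175 1407 (.cons 297 (.leaf 273 1604 (.leaf 321 1796 .nil)) .nil)) .nil)) (.cons 225 (.leaf 201 1605 (.cons 246 (.leaf 245 1769 (.cons 249 (.leaf 226 1777 (.cons 221 (.leaf 222 1771 (.cons 270 (.leaf 269 1962 (.cons 271 (.leaf 250 1970 (.cons 295 (.leaf 200 1598 (.leaf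 319 1789 .nil)) .nil)) .nil)) .nil)) .nil)) .nil)) .nil)) (.cons 225 (.leaf 201 1605 (.cons 246 (.leaf 245 1769 (.cons 249 (.leaf 226 1777 (.cons 221 (.leaf 222 1771 (.cons 270 (.leaf 269 1962 (.cons 271 (.leaf 250 1970 (.cons 295 (.leaf 319 1789 (.cons 297 (.leaf 321 1796 (.leaf 298 2163 .nil)) .nil)) .nil)) .nil)) .nil)) .nil)) .nil)) .nil)) .nil))) (.cons 320 (.cons 225 (.leaf 249 1797 (.cons 344 (.leaf 271 1983 (.cons 343 (.leaf 319 1982 (.leaf 367 2174 .nil)) .nil)) .nil)) (.cons 225 (.leaf 249 1797 (.cons 224 (.leaf 201 1605 (.cons 321 (.leaf 297 1796 (.leaf 345 1988 .nil)) .nil)) .nil)) (.cons 271 (.leaf 344 1983 (.cons 319 (.leaf 343 1982 (.cons 295 (.leaf 224 1789 (.cons 222 (.leaf 246 1783 (.cons 318 (.leaf 342 1974 (.cons 317 (.leaf 316 2337 (.leaf 297 2345 .nil)) .nil)) .nil)) .nil)) .nil)) .nil)) .nil))) (.cons 320 (.leaf 223 1791 (.cons 225 (.leaf 249 1797 (.cons 224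 (.leaf 201 1605 (.cons 321 (.leaf 297 1796 (.leaf 345 1988 .nil)) .nil)) .nil)) .nil)) (.cons 320 (.leaf 223 1791 (.cons 271 (.leaf 344 1983 (.cons 319 (.leaf 343 1982 (.cons 295 (.leaf 224 1789 (.cons 222 (.leaf 246 1783 (.cons 318 (.leaf 342 1974 (.cons 317 (.leaf 316 2337 (.leaf 297 2345 .nil)) .nil)) .nil)) .nil)) .nil)) .nil)) .nil)) .nil))))
noncomputable def t4 : T := .cons 273 (.leaf 274 1979 (.cons 246 (.leaf 245 1960 (.cons 249 (.cons 221 (.leaf 222 1771 (.cons 226 (.leaf 225 1777 (.cons 250 (.leaf 227 1785 (.cons 251 (.leaf 271 1978 (.leaf 252 1986 .nil)) .nil)) .nil)) .nil)) (.cons 221 (.leaf 222 1771 (.cons 270 (.leaf 269 1962 (.cons 271 (.leaf 250 1969 (.cons 297 (.leaf 298 2160 (.cons 321 (.leaf 345 1991 (.leaf 224 1799 .nil)) .nil)) .nil)) .nil)) .nil)) (.cons 222 (.leaf 221 1771 (.cons 223 (.leaf 250 1779 (.cons 199 (.leaf 175 1404 (.cons 296 (.leaf 224 1599 (.leaf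 320 1791 .nil)) .nil)) .nil)) .nil)) (.cons 270 (.leaf 269 1962 (.cons 250 (.leaf 271 1969 (.cons 251 (.leaf 252 1986 (.cons 224 (.leaf 223 1787 (.cons 297 (.leaf 200 1604 (.leaf 321 1799 .nil)) .nil)) .nil)) .nil)) .nil)) (.cons 225 (.leaf 226 1777 (.cons 201 (.leaf 177 1414 (.leaf 296 1606 .nil)) .nil)) .nil))))) .nil)) .nil)) (.cons 249 (.cons 250 (.leaf 274 1976 (.cons 271 (.leaf 251 1978 (.leaf 270 1970 .nil)) .nil)) (.cons 225 (.cons 201 (.leaf 177 1414 (.cons 296 (.leaf 224 1605 (.leaf 320 1797 .nil)) .nil)) (.cons 177 (.leaf 201 1414 (.cons 246 (.leaf 226 1777 (.cons 245 (.leaf 224 1769 (.cons 269 (.leaf 268 1954 (.leaf 270 1962 .nil)) .nil)) .nil)) .nil)) (.cons 177 (.leaf 201 1414 (.cons 246 (.leaf 226 1777 (.cons 269 (.leaf 270 1962 (.cons 245 (.leaf 268 1954 (.cons 220 (.leaf 221 1763 (.cons 244 (.leaf 271 1952 (.leaf 219 1755 .nil)) .nil)) .nil)) .nil)) .nil)) .nil)) (.cons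 226 (.leaf 246 1777 (.cons 227 (.leaf 224 1786 (.leaf 228 1794 .nil)) .nil)) .nil)))) (.cons 250 (.leaf 274 1976 (.cons 222 (.leaf 223 1779 (.cons 226 (.leaf 227 1785 (.cons 246 (.leaf 221 1771 (.leaf 225 1777 .nil)) .nil)) .nil)) .nil)) .nil))) (.cons 296 t3 (.cons 273 (.leaf 274 1979 (.cons 246 (.leaf 245 1960 (.cons 223 t2 .nil)) .nil)) (.cons 273 (.leaf 274 1979 (.cons 246 (.leaf 245 1960 (.cons 249 (.cons 221 (.leaf 222 1771 (.cons 226 (.leaf 225 1777 (.cons 250 (.leaf 227 1785 (.cons 251 (.leaf 271 1978 (.leaf 252 1986 .nil)) .nil)) .nil)) .nil)) (.cons 225 (.leaf 226 1777 (.cons 177 (.leaf 201 1414 (.cons 270 (.leaf 269 1962 (.cons 250 (.leaf 271 1969 (.cons 251 (.leaf 252 1986 (.cons 224 (.leaf 223 1787 (.cons 200 (.leaf 297 1604 (.leaf 176 1412 .nil)) .nil)) .nil)) .nil)) .nil)) .nil)) .nil)) (.cons 221 (.leaf 222 1771 (.cons 225 (.leaf 226 1777 (.cons 201 (.leaf 177 1414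 (.cons 200 (.leaf 176 1415 (.cons 297 (.leaf 224 1604 (.cons 269 (.leaf 270 1962 (.cons 321 (.leaf 345 1991 (.cons 322 (.leaf 298 1804 (.leaf 346 1996 .nil)) .nil)) .nil)) .nil)) .nil)) .nil)) .nil)) .nil)) (.cons 221 (.leaf 222 1771 (.cons 270 (.leaf 269 1962 (.cons 271 (.leaf 250 1969 (.cons 297 (.leaf 298 2160 (.cons 224 (.leaf 200 1604 (.leaf 321 1799 .nil)) .nil)) .nil)) .nil)) .nil)) .nil)))) .nil)) .nil)) (.cons 273 (.leaf 274 1979 (.cons 246 (.leaf 245 1960 (.cons 249 (.cons 222 (.leaf 221 1771 (.cons 223 (.leaf 250 1779 (.cons 199 (.leaf 175 1404 (.cons 296 (.leaf 224 1599 (.leaf 320 1791 .nil)) .nil)) .nil)) .nil)) (.cons 225 (.leaf 226 1777 (.cons 201 (.leaf 177 1414 (.leaf 296 1606 .nil)) .nil)) (.cons 225 (.leaf 226 1777 (.cons 201 (.leaf 177 1414 (.cons 200 (.leaf 176 1415 (.cons 224 (.leaf 297 1604 (.cons 199 (.leaf 175 1407 (.cons 198 (.leaf 197 1576 (.cons 222 (.leaf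 221 1578 (.cons 223 (.leaf 250 1776 (.cons 174 (.leaf 150 1204 (.leaf 173 1387 .nil)) .nil)) .nil)) .nil)) .nil)) .nil)) .nil)) .nil)) .nil)) .nil))) .nil)) .nil)) (.cons 273 (.leaf 274 1979 (.cons 246 (.leaf 245 1960 (.cons 249 (.cons 221 (.leaf 222 1771 (.cons 226 (.leaf 225 1777 (.cons 250 (.leaf 227 1785 (.cons 251 (.leaf 271 1978 (.leaf 252 1986 .nil)) .nil)) .nil)) .nil)) (.cons 221 (.leaf 222 1771 (.cons 270 (.leaf 269 1962 (.cons 271 (.leaf 250 1969 (.cons 297 (.leaf 298 2160 (.cons 224 (.leaf 200 1604 (.leaf 321 1799 .nil)) .nil)) .nil)) .nil)) .nil)) (.cons 225 (.leaf 226 1777 (.cons 201 (.leaf 177 1414 (.leaf 296 1606 .nil)) .nil)) .nil))) .nil)) .nil)) (.cons 274 (.leaf 273 1979 (.cons 249 (.leaf 250 1976 (.cons 296 (.cons 320 (.leaf 223 1791 (.leaf 225 1797 .nil)) (.cons 224 (.cons 199 (.leaf 223 1599 (.cons 200 (.leaf 175 1407 (.cons 176 (.leaf 271 1406 (.cons 152 (.leaf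 225 1220 (.cons 153 (.leaf 177 1221 (.leaf 129 1029 .nil)) .nil)) .nil)) .nil)) .nil)) (.cons 295 (.leaf 319 1790 (.cons 297 (.leaf 298 2169 (.leaf 321 1796 .nil)) .nil)) .nil)) (.cons 225 (.leaf 320 1797 (.cons 201 (.leaf 177 1414 (.leaf 224 1605 .nil)) .nil)) (.cons 223 (.leaf 320 1791 (.cons 199 (.leaf 175 1404 (.leaf 224 1599 .nil)) .nil)) .nil)))) .nil)) .nil)) (.cons 273 (.leaf 274 1979 (.cons 246 t1 .nil)) (.cons 273 (.leaf 274 1979 (.cons 246 (.leaf 245 1960 (.cons 249 t0 .nil)) .nil)) .nil)))))))))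
noncomputable def t5 : T := .cons 222 (.leaf 221 1771 (.cons 223 (.leaf 250 1779 (.cons 199 (.leaf 175 1404 (.cons 270 (.leaf 269 1962 (.leaf 294 1589 .nil)) .nil)) .nil)) .nil)) (.cons 222 (.leaf 221 1771 (.cons 250 (.leaf 223 1779 (.cons 251 (.leaf 271 1978 (.leaf 252 1986 .nil)) .nil)) .nil)) (.cons 270 (.leaf 269 1962 (.cons 250 (.leaf 271 1969 (.cons 251 (.leaf 252 1986 (.cons 224 (.leaf 223 1787 (.cons 297 (.leaf 200 1604 (.leaf 321 1799 .nil)) .nil)) .nil)) .nil)) .nil)) (.cons 270 (.leaf 269 1962 (.cons 222 (.leaf 221 1771 (.cons 223 (.cons 199 (.leaf 175 1404 (.leaf 294 1589 .nil)) (.cons 294 (.leaf 318 1781 (.cons 295 (.leaf 319 1780 (.cons 198 (.leaf 271 1588 (.cons 173 (.leaf 197 1391 (.cons 174 (.leaf 150 1204 (.leaf 149 1199 .nil)) .nil)) .nil)) .nil)) .nil)) (.cons 199 (.leaf 175 1404 (.cons 296 (.leaf 224 1599 (.leaf 271 1596 .nil)) .nil)) .nil))) .nil)) .nil)) (.cons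 270 (.leaf 269 1962 (.cons 250 (.leaf 271 1969 (.cons 227 (.leaf 226 1785 (.cons 251 (.leaf 252 1986 (.leaf 228 1793 .nil)) .nil)) .nil)) .nil)) .nil))))
noncomputable def t6 : T := .leaf 175 1404 (.cons 271 (.cons 176 (.leaf 200 1405 (.cons 198 (.leaf 174 1399 (.cons 295 (.leaf 222 1591 (.cons 318 (.leaf 294 1782 (.cons 319 (.leaf 343 1981 (.leaf 224 1789 .nil)) .nil)) .nil)) .nil)) .nil)) (.cons 174 (.leaf 198 1399 (.cons 294 (.leaf 270 1590 (.cons 295 (.leaf 318 1782 (.cons 319 (.leaf 343 1981 (.leaf 224 1789 .nil)) .nil)) .nil)) .nil)) (.cons 176 (.leaf 200 1405 (.cons 294 (.leaf 270 1590 (.cons 295 (.leaf 318 1782 (.cons 319 (.leaf 343 1981 (.leaf 224 1789 .nil)) .nil)) .nil)) .nil)) (.cons 174 (.leaf 198 1399 (.cons 200 (.leaf 176 1405 (.cons 270 (.leaf 294 1590 (.cons 297 (.leaf 224 1604 (.leaf 298 2160 .nil)) .nil)) .nil)) .nil)) (.cons 176 (.leaf 200 1405 (.cons 198 (.leaf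 174 1399 (.cons 295 (.leaf 222 1591 (.cons 318 (.leaf 294 1782 (.cons 319 (.leaf 343 1981 (.leaf 342 1974 .nil)) .nil)) .nil)) .nil)) .nil)) (.cons 200 (.leaf 176 1405 (.cons 198 (.leaf 174 1399 (.cons 222 (.leaf 295 1591 (.cons 221 (.leaf 220 1760 (.leaf 201 1578 .nil)) .nil)) .nil)) .nil)) .nil)))))) .nil)
noncomputable def t7 : T := .cons 199 (.leaf 175 1404 (.cons 271 (.leaf 296 1596 (.cons 174 (.leaf 198 1399 (.cons 294 (.leaf 270 1590 (.cons 295 (.leaf 318 1782 (.cons 319 (.leaf 343 1981 (.leaf 224 1789 .nil)) .nil)) .nil)) .nil)) .nil)) .nil)) (.cons 296 (.leaf 320 1791 (.cons 224 (.cons 295 (.leaf 319 1790 (.cons 200 (.leaf 271 1597 (.cons 176 (.leaf 152 1214 (.cons 177 (.leaf 201 1413 (.leaf 153 1221 .nil)) .nil)) .nil)) .nil)) (.cons 225 (.leaf 201 1605 (.cons 246 (.leaf 245 1769 (.leaf 226 1778 .nil)) .nil)) (.cons 295 (.leaf 319 1790 (.cons 271 (.leaf 200 1597 (.cons 198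 (.leaf 222 1591 (.cons 294 (.leaf 318 1782 (.cons 297 (.leaf 321 1796 (.cons 270 (.leaf 269 2152 (.leaf 298 2163 .nil)) .nil)) .nil)) .nil)) .nil)) .nil)) .nil))) .nil)) (.cons 199 (.leaf 175 1404 (.cons 271 (.cons 174 (.leaf 198 1399 (.cons 294 (.leaf 270 1590 (.cons 295 (.leaf 318 1782 (.cons 319 (.leaf 343 1981 (.leaf 224 1789 .nil)) .nil)) .nil)) .nil)) (.cons 198 (.leaf 174 1399 (.cons 222 (.leaf 295 1591 (.cons 221 (.leaf 220 1760 (.cons 249 (.leaf 224 1768 (.leaf 246 1771 .nil)) .nil)) .nil)) .nil)) (.cons 270 (.leaf 294 1590 (.cons 269 (.leaf 249 1961 (.leaf 268 1953 .nil)) .nil)) .nil))) .nil)) (.cons 199 (.leaf 175 1404 (.cons 296 (.leaf 271 1596 (.leaf 320 1791 .nil)) .nil)) (.cons 296 (.leaf 320 1791 (.cons 199 (.leaf 175 1404 (.leaf 224 1599 .nil)) .nil)) .nil))))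
noncomputable def t8 : T := .cons 273 (.leaf 274 1979 (.cons 246 (.leaf 245 1960 (.cons 249 (.cons 222 (.leaf 221 1771 (.cons 223 (.leaf 250 1779 (.cons 199 (.leaf 175 1404 (.cons 270 (.leaf 269 1962 (.leaf 294 1589 .nil)) .nil)) .nil)) .nil)) (.cons 222 (.leaf 221 1771 (.cons 250 (.leaf 223 1779 (.cons 251 (.leaf 271 1978 (.leaf 252 1986 .nil)) .nil)) .nil)) (.cons 270 (.leaf 269 1962 (.cons 250 (.leaf 271 1969 (.cons 251 (.leaf 252 1986 (.cons 224 (.leaf 223 1787 (.cons 297 (.leaf 200 1604 (.leaf 321 1799 .nil)) .nil)) .nil)) .nil)) .nil)) (.cons 225 (.leaf 226 1777 (.cons 201 (.leaf 177 1414 (.leaf 296 1606 .nil)) .nil)) .nil)))) .nil)) .nil)) (.cons 223 t7 (.cons 273 (.leaf 274 1979 (.cons 246 (.leaf 245 1960 (.cons 223 (.cons 199 (.leaf 175 1404 (.cons 271 (.leaf 296 1596 (.cons 176 (.leaf 200 1405 (.cons 198 (.leaf 174 1399 (.cons 295 (.leaf 222 1591 (.cons 318 (.leaf 294 1782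 (.cons 319 (.leaf 343 1981 (.leaf 224 1789 .nil)) .nil)) .nil)) .nil)) .nil)) .nil)) .nil)) (.cons 296 (.leaf 320 1791 (.cons 224 (.cons 225 (.leaf 201 1605 (.leaf 226 1778 .nil)) (.cons 297 (.leaf 200 1604 (.leaf 321 1796 .nil)) .nil)) .nil)) (.cons 199 t6 (.cons 199 (.leaf 175 1404 (.cons 296 (.leaf 271 1596 (.leaf 320 1791 .nil)) .nil)) .nil)))) .nil)) .nil)) (.cons 273 (.leaf 274 1979 (.cons 246 (.leaf 245 1960 (.cons 249 (.cons 225 (.leaf 226 1777 (.cons 201 (.leaf 177 1414 (.leaf 296 1606 .nil)) .nil)) (.cons 222 (.leaf 221 1771 (.cons 223 (.leaf 250 1779 (.cons 199 (.leaf 175 1404 (.cons 270 (.leaf 269 1962 (.leaf 294 1589 .nil)) .nil)) .nil)) .nil)) .nil)) .nil)) .nil)) (.cons 273 (.leaf 274 1979 (.cons 246 (.leaf 245 1960 (.cons 249 (.cons 221 (.leaf 222 1771 (.cons 270 (.leaf 269 1962 (.cons 271 (.leaf 250 1969 (.cons 297 (.leaf 298 2160 (.cons 224 (.leaf 200 1604 (.leaf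 321 1799 .nil)) .nil)) .nil)) .nil)) .nil)) (.cons 221 (.leaf 222 1771 (.cons 225 (.leaf 226 1777 (.cons 201 (.leaf 177 1414 (.cons 200 (.leaf 176 1415 (.cons 297 (.leaf 224 1604 (.cons 321 (.leaf 345 1991 (.cons 322 (.leaf 298 1804 (.leaf 346 1996 .nil)) .nil)) .nil)) .nil)) .nil)) .nil)) .nil)) (.cons 270 (.leaf 269 1962 (.cons 250 (.leaf 271 1969 (.cons 251 (.leaf 252 1986 (.cons 224 (.leaf 223 1787 (.cons 297 (.leaf 200 1604 (.leaf 321 1799 .nil)) .nil)) .nil)) .nil)) .nil)) (.cons 270 (.leaf 269 1962 (.cons 250 (.leaf 271 1969 (.cons 227 (.leaf 226 1785 (.cons 251 (.leaf 252 1986 (.leaf 228 1793 .nil)) .nil)) .nil)) .nil)) .nil)))) .nil)) .nil)) (.cons 273 (.leaf 274 1979 (.cons 246 (.leaf 245 1960 (.cons 249 (.cons 221 (.leaf 222 1771 (.cons 270 (.leaf 269 1962 (.cons 271 (.leaf 250 1969 (.cons 297 (.leaf 298 2160 (.cons 224 (.leaf 200 1604 (.leaf 321 1799 .nil)) .nil)) .nil))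 .nil)) .nil)) (.cons 225 (.leaf 226 1777 (.cons 201 (.leaf 177 1414 (.leaf 296 1606 .nil)) .nil)) .nil)) .nil)) .nil)) (.cons 274 (.leaf 273 1979 (.cons 249 (.leaf 250 1976 (.cons 296 (.cons 320 (.leaf 223 1791 (.leaf 225 1797 .nil)) (.cons 224 (.cons 199 (.leaf 223 1599 (.cons 200 (.leaf 175 1407 (.cons 176 (.leaf 271 1406 (.cons 152 (.leaf 225 1220 (.cons 153 (.leaf 177 1221 (.leaf 129 1029 .nil)) .nil)) .nil)) .nil)) .nil)) (.cons 295 (.leaf 319 1790 (.cons 297 (.leaf 298 2169 (.leaf 321 1796 .nil)) .nil)) .nil)) (.cons 320 (.leaf 225 1797 (.cons 271 (.leaf 344 1983 (.cons 269 (.leaf 270 1961 (.cons 319 (.leaf 343 1982 (.cons 295 (.leaf 224 1789 (.cons 297 (.leaf 298 2169 (.cons 318 (.leaf 342 1974 (.leaf 317 2345 .nil)) .nil)) .nil)) .nil)) .nil)) .nil)) .nil)) (.cons 223 (.leaf 320 1791 (.cons 199 (.leaf 175 1404 (.leaf 224 1599 .nil)) .nil)) .nil)))) .nil)) .nil)) (.cons 273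 (.leaf 274 1979 (.cons 246 (.leaf 245 1960 (.cons 249 t5 .nil)) .nil)) (.cons 274 (.leaf 273 1979 (.cons 249 (.leaf 250 1976 (.cons 296 (.cons 223 (.leaf 320 1791 (.cons 199 (.leaf 175 1404 (.leaf 224 1599 .nil)) .nil)) (.cons 224 (.cons 199 (.leaf 223 1599 (.cons 200 (.leaf 175 1407 (.cons 176 (.leaf 271 1406 (.cons 152 (.leaf 225 1220 (.cons 153 (.leaf 177 1221 (.leaf 129 1029 .nil)) .nil)) .nil)) .nil)) .nil)) (.cons 223 (.leaf 199 1599 (.cons 221 (.leaf 222 1768 (.cons 297 (.leaf 321 1796 (.cons 295 (.leaf 298 2169 (.leaf 319 1790 .nil)) .nil)) .nil)) .nil)) (.cons 295 (.leaf 319 1790 (.cons 297 (.leaf 298 2169 (.leaf 321 1796 .nil)) .nil)) .nil))) (.cons 225 (.leaf 320 1797 (.cons 201 (.leaf 177 1414 (.leaf 224 1605 .nil)) .nil)) (.cons 223 (.leaf 320 1791 (.cons 199 (.leaf 175 1404 (.leaf 271 1596 .nil)) .nil)) .nil)))) .nil)) .nil)) .nil))))))))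
noncomputable def t9 : T := .cons 296 (.leaf 295 2170 (.cons 251 (.leaf 252 1985 (.cons 250 (.leaf 271 1977 (.cons 299 (.leaf 300 2176 (.cons 323 (.leaf 226 1815 (.leaf 347 2007 .nil)) .nil)) .nil)) .nil)) .nil)) (.cons 295 (.leaf 296 2170 (.cons 271 (.leaf 294 2162 (.cons 299 (.leaf 300 2176 (.leaf 298 2168 .nil)) .nil)) .nil)) (.cons 251 (.leaf 252 1985 (.cons 299 (.leaf 300 2176 (.cons 323 (.cons 250 (.leaf 226 1815 (.leaf 347 2007 .nil)) (.cons 322 (.leaf 346 2006 (.cons 348 (.leaf 324 2012 (.cons 347 (.leaf 372 2204 (.cons 298 (.leaf 227 1814 (.leaf 271 2168 .nil)) .nil)) .nil)) .nil)) (.cons 226 (.leaf 250 1815 (.cons 322 (.leaf 346 2006 (.cons 227 (.leaf 298 1814 (.cons 204 (.leaf 228 1629 (.cons 203 (.leaf 180 1437 (.cons 205 (.leaf 206 1618 (.cons 224 (.leaf 225 1601 (.cons 200 (.leaf 297 1604 (.cons 175 (.leaf 199 1407 (.cons 176 (.leaf 151 1215 (.leaf 249 1412 .nil)) .nil))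 .nil)) .nil)) .nil)) .nil)) .nil)) .nil)) .nil)) .nil)) .nil))) .nil)) .nil)) (.cons 251 (.leaf 252 1985 (.cons 271 (.leaf 250 1977 (.cons 295 (.leaf 296 2170 (.leaf 294 2162 .nil)) .nil)) .nil)) (.cons 296 (.leaf 295 2170 (.cons 251 (.leaf 252 1985 (.cons 299 (.leaf 300 2176 (.cons 323 (.cons 322 (.leaf 346 2006 (.cons 324 (.leaf 348 2012 (.cons 298 (.leaf 227 1814 (.leaf 297 2368 .nil)) .nil)) .nil)) (.cons 250 (.leaf 226 1815 (.leaf 347 2007 .nil)) .nil)) .nil)) .nil)) .nil)) .nil))))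
noncomputable def t10 : T := .cons 321 (.leaf 345 1991 (.cons 224 (.leaf 200 1604 (.leaf 296 1796 .nil)) .nil)) (.cons 224 (.leaf 200 1604 (.cons 296 (.cons 199 (.leaf 223 1599 (.cons 295 (.leaf 319 1790 (.cons 294 (.leaf 293 2153 (.cons 270 (.leaf 269 2155 (.cons 298 (.leaf 271 2160 (.cons 299 (.leaf 300 2179 (.cons 323 (.leaf 322 2360 (.leaf 324 2368 .nil)) .nil)) .nil)) .nil)) .nil)) .nil)) .nil)) (.cons 223 (.leaf 199 1599 (.cons 320 (.leaf 247 1791 (.cons 344 (.leaf 249 1989 (.leaf 368 2181 .nil)) .nil)) .nil)) (.cons 295 (.leaf 319 1790 (.cons 294 (.leaf 293 2153 (.cons 270 (.leaf 269 2155 (.cons 271 (.leaf 298 2160 (.cons 245 (.leaf 246 1963 (.cons 249 (.leaf 250 1969 (.cons 318 (.leaf 317 2346 (.cons 342 (.leaf 366 2165 (.leaf 247 1973 .nil)) .nil)) .nil)) .nil)) .nil)) .nil)) .nil)) .nil)) .nil))) .nil)) (.cons 321 (.leaf 345 1991 (.cons 249 (.cons 226 (.leaf 250 1805 (.cons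 320 (.leaf 344 1990 (.cons 296 (.leaf 225 1797 (.cons 319 (.leaf 343 1982 (.cons 298 (.leaf 299 2362 (.leaf 318 2353 .nil)) .nil)) .nil)) .nil)) .nil)) (.cons 226 (.leaf 250 1805 (.cons 322 (.leaf 346 1996 (.cons 298 (.leaf 225 1804 (.cons 271 (.leaf 270 2160 (.cons 299 (.leaf 296 2171 (.leaf 300 2179 .nil)) .nil)) .nil)) .nil)) .nil)) (.cons 320 (.leaf 344 1990 (.cons 225 (.leaf 296 1797 (.cons 322 (.leaf 298 1804 (.leaf 346 1996 .nil)) .nil)) .nil)) (.cons 250 (.leaf 226 1805 (.cons 251 (.leaf 271 1978 (.leaf 252 1986 .nil)) .nil)) .nil)))) .nil)) (.cons 321 (.leaf 345 1991 (.cons 224 (.leaf 200 1604 (.leaf 249 1799 .nil)) .nil)) .nil)))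
noncomputable def t11 : T := .cons 274 (.leaf 247 1979 (.cons 251 (.leaf 252 1985 (.cons 271 (.leaf 250 1977 (.cons 295 (.leaf 296 2170 (.leaf 294 2162 .nil)) .nil)) .nil)) .nil)) (.cons 297 t10 (.cons 274 t9 (.cons 274 (.leaf 247 1979 (.cons 251 (.leaf 252 1985 (.cons 299 (.leaf 300 2176 (.cons 323 (.cons 250 (.leaf 226 1815 (.leaf 347 2007 .nil)) (.cons 322 (.leaf 346 2006 (.cons 348 (.leaf 324 2012 (.cons 347 (.leaf 372 2204 (.cons 298 (.leaf 227 1814 (.leaf 271 2168 .nil)) .nil)) .nil)) .nil)) (.cons 226 (.leaf 250 1815 (.cons 322 (.leaf 346 2006 (.cons 227 (.leaf 298 1814 (.cons 204 (.leaf 228 1629 (.cons 203 (.leaf 180 1437 (.cons 205 (.leaf 206 1618 (.cons 224 (.leaf 225 1601 (.cons 200 (.leaf 297 1604 (.cons 175 (.leaf 199 1407 (.cons 176 (.leaf 151 1215 (.leaf 249 1412 .nil)) .nil)) .nil)) .nil)) .nil)) .nil)) .nil)) .nil)) .nil)) .nil)) .nil))) .nil)) .nil)) .nil)) (.cons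 274 (.leaf 247 1979 (.cons 296 (.leaf 295 2170 (.cons 251 (.leaf 252 1985 (.cons 299 (.leaf 300 2176 (.cons 323 (.cons 322 (.leaf 346 2006 (.cons 324 (.leaf 348 2012 (.cons 298 (.leaf 227 1814 (.leaf 297 2368 .nil)) .nil)) .nil)) (.cons 250 (.leaf 226 1815 (.leaf 347 2007 .nil)) .nil)) .nil)) .nil)) .nil)) .nil)) (.cons 274 (.leaf 247 1979 (.cons 295 (.leaf 296 2170 (.cons 271 (.leaf 294 2162 (.cons 299 (.leaf 300 2176 (.leaf 298 2168 .nil)) .nil)) .nil)) .nil)) .nil)))))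
noncomputable def t12 : T := .cons 295 (.leaf 296 2170 (.cons 271 (.leaf 294 2162 (.cons 299 (.leaf 300 2176 (.leaf 298 2168 .nil)) .nil)) .nil)) (.cons 251 (.leaf 252 1985 (.cons 299 (.leaf 300 2176 (.cons 323 (.cons 250 (.leaf 226 1815 (.leaf 347 2007 .nil)) (.cons 322 (.leaf 346 2006 (.cons 348 (.leaf 324 2012 (.cons 347 (.leaf 372 2204 (.cons 298 (.leaf 227 1814 (.leaf 271 2168 .nil)) .nil)) .nil)) .nil)) (.cons 226 (.leaf 250 1815 (.cons 322 (.leaf 346 2006 (.cons 227 (.leaf 298 1814 (.cons 228 (.leaf 204 1629 (.cons 225 (.leaf 249 1794 (.cons 200 (.leaf 201 1603 (.cons 224 (.leaf 297 1604 (.leaf 199 1595 .nil)) .nil)) .nil)) .nil)) .nil)) .nil)) .nil)) .nil))) .nil)) .nil)) (.cons 296 (.leaf 295 2170 (.cons 251 (.leaf 252 1985 (.cons 224 (.cons 297 (.leaf 200 1604 (.leaf 321 1796 .nil)) (.cons 199 (.leaf 223 1599 (.cons 200 (.leaf 175 1407 (.cons 201 (.leaf 177 1413 (.leaf 225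 1605 .nil)) .nil)) .nil)) (.cons 199 (.leaf 223 1599 (.cons 321 (.leaf 297 1796 (.cons 320 (.leaf 345 1988 (.cons 343 (.leaf 319 1982 (.cons 344 (.leaf 249 1989 (.leaf 367 2174 .nil)) .nil)) .nil)) .nil)) .nil)) .nil))) .nil)) .nil)) .nil))
noncomputable def t13 : T := .cons 199 (.leaf 223 1599 (.cons 295 (.leaf 319 1790 (.cons 293 (.leaf 294 2153 (.cons 321 (.leaf 297 1796 (.cons 320 (.leaf 345 1988 (.cons 344 (.leaf 249 1989 (.cons 367 (.leaf 343 2174 (.cons 368 (.leaf 271 2175 (.leaf 391 2366 .nil)) .nil)) .nil)) .nil)) .nil)) .nil)) .nil)) .nil)) (.cons 225 (.leaf 201 1605 (.cons 199 (.leaf 223 1599 (.cons 320 (.leaf 249 1797 (.cons 343 (.leaf 319 1982 (.cons 344 (.leaf 367 2174 (.cons 247 (.leaf 271 1983 (.cons 246 (.leaf 245 1960 (.cons 226 (.leaf 227 1786 (.cons 368 (.leaf 297 2181 (.cons 369 (.leaf 345 2180 (.leaf 393 2372 .nil)) .nil)) .nil)) .nil)) .nil)) .nil)) .nil)) .nil))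 .nil)) .nil)) (.cons 225 (.leaf 201 1605 (.cons 320 (.leaf 249 1797 (.cons 223 (.leaf 199 1599 (.leaf 247 1791 .nil)) .nil)) .nil)) (.cons 297 (.leaf 321 1796 (.cons 223 (.leaf 199 1599 (.cons 225 (.leaf 201 1605 (.cons 295 (.leaf 319 1790 (.cons 294 (.leaf 293 2153 (.cons 318 (.leaf 317 2346 (.cons 247 (.leaf 271 1782 (.cons 246 (.leaf 245 1960 (.leaf 226 1778 .nil)) .nil)) .nil)) .nil)) .nil)) .nil)) .nil)) .nil)) (.cons 321 (.leaf 297 1796 (.cons 295 (.leaf 319 1790 (.cons 293 (.leaf 294 2153 (.cons 320 (.leaf 345 1988 (.cons 322 (.leaf 323 2363 (.cons 344 (.leaf 249 1989 (.cons 271 (.leaf 247 1983 (.leaf 368 2175 .nil)) .nil)) .nil)) .nil)) .nil)) .nil)) .nil)) .nil))))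
noncomputable def t14 : T := .cons 296 (.cons 199 (.leaf 223 1599 (.cons 295 (.leaf 319 1790 (.cons 200 (.leaf 175 1407 (.leaf 271 1598 .nil)) .nil)) .nil)) (.cons 199 (.leaf 223 1599 (.cons 295 (.leaf 319 1790 (.cons 293 (.leaf 294 2153 (.cons 321 (.leaf 297 1796 (.cons 320 (.leaf 345 1988 (.cons 344 (.leaf 249 1989 (.cons 367 (.leaf 343 2174 (.cons 368 (.leaf 271 2175 (.leaf 391 2366 .nil)) .nil)) .nil)) .nil)) .nil)) .nil)) .nil)) .nil)) (.cons 297 (.leaf 200 1604 (.leaf 321 1796 .nil)) .nil))) (.cons 296 t13 (.cons 200 (.cons 175 (.leaf 199 1407 (.cons 176 (.leaf 151 1215 (.leaf 249 1412 .nil)) .nil)) (.cons 199 (.leaf 175 1407 (.cons 201 (.leaf 177 1413 (.cons 296 (.leaf 223 1599 (.leaf 225 1605 .nil)) .nil)) .nil)) (.cons 176 (.leaf 249 1412 (.cons 177 (.leaf 201 1413 (.leaf 153 1221 .nil)) .nil)) .nil))) (.cons 200 (.leaf 297 1604 (.cons 175 (.leaf 199 1407 (.cons 176 (.leaf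 151 1215 (.leaf 249 1412 .nil)) .nil)) .nil)) (.cons 200 (.leaf 297 1604 (.cons 199 (.leaf 175 1407 (.cons 201 (.leaf 177 1413 (.cons 296 (.leaf 223 1599 (.leaf 225 1605 .nil)) .nil)) .nil)) .nil)) (.cons 200 (.leaf 297 1604 (.cons 176 (.leaf 249 1412 (.cons 177 (.leaf 201 1413 (.leaf 153 1221 .nil)) .nil)) .nil)) .nil)))))
noncomputable def t15 : T := .cons 274 (.leaf 247 1979 (.cons 295 (.leaf 296 2170 (.cons 271 (.leaf 294 2162 (.cons 299 (.leaf 300 2176 (.leaf 298 2168 .nil)) .nil)) .nil)) .nil)) (.cons 224 t14 (.cons 274 t12 (.cons 274 (.leaf 247 1979 (.cons 251 (.leaf 252 1985 (.cons 299 (.leaf 300 2176 (.cons 323 (.cons 250 (.leaf 226 1815 (.leaf 347 2007 .nil)) (.cons 322 (.leaf 346 2006 (.cons 348 (.leaf 324 2012 (.cons 347 (.leaf 372 2204 (.cons 298 (.leaf 227 1814 (.leaf 271 2168 .nil)) .nil)) .nil)) .nil)) (.cons 226 (.leaf 250 1815 (.cons 322 (.leaf 346 2006 (.cons 227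 (.leaf 298 1814 (.cons 228 (.leaf 204 1629 (.cons 225 (.leaf 249 1794 (.cons 200 (.leaf 201 1603 (.cons 224 (.leaf 297 1604 (.leaf 199 1595 .nil)) .nil)) .nil)) .nil)) .nil)) .nil)) .nil)) .nil))) .nil)) .nil)) .nil)) (.cons 274 (.leaf 247 1979 (.cons 296 (.leaf 295 2170 (.cons 251 (.leaf 252 1985 (.cons 299 (.leaf 300 2176 (.cons 323 (.cons 322 (.leaf 346 2006 (.cons 324 (.leaf 348 2012 (.cons 298 (.leaf 227 1814 (.leaf 297 2368 .nil)) .nil)) .nil)) (.cons 250 (.leaf 226 1815 (.leaf 347 2007 .nil)) .nil)) .nil)) .nil)) .nil)) .nil)) .nil))))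
noncomputable def t16 : T := .cons 199 (.leaf 223 1599 (.cons 201 (.leaf 225 1605 (.cons 319 (.leaf 295 1790 (.cons 320 (.leaf 343 1982 (.cons 344 (.leaf 249 1989 (.cons 345 (.leaf 321 1988 (.leaf 369 2180 .nil)) .nil)) .nil)) .nil)) .nil)) .nil)) (.cons 199 (.leaf 223 1599 (.cons 201 (.leaf 225 1605 (.cons 319 (.leaf 295 1790 (.cons 320 (.leaf 343 1982 (.cons 344 (.leaf 249 1989 (.cons 368 (.leaf 297 2181 (.cons 391 (.leaf 367 2366 (.cons 369 (.leaf 345 2180 (.leaf 393 2372 .nil)) .nil)) .nil)) .nil)) .nil)) .nil)) .nil)) .nil)) (.cons 321 (.leaf 297 1796 (.cons 199 (.leaf 223 1599 (.cons 319 (.leaf 295 1790 (.cons 320 (.leaf 343 1982 (.leaf 345 1988 .nil)) .nil)) .nil)) .nil)) (.cons 297 (.leaf 321 1796 (.cons 295 (.leaf 319 1790 (.cons 294 (.leaf 293 2153 (.cons 270 (.leaf 269 2155 (.cons 271 (.leaf 298 2160 (.cons 201 (.leaf 225 1605 (.cons 223 (.leaf 199 1599 (.cons 318 (.leaf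 317 2346 (.leaf 247 1782 .nil)) .nil)) .nil)) .nil)) .nil)) .nil)) .nil)) .nil)) (.cons 199 (.leaf 223 1599 (.cons 201 (.leaf 225 1605 (.cons 321 (.leaf 297 1796 (.cons 320 (.leaf 345 1988 (.cons 343 (.leaf 319 1982 (.cons 344 (.leaf 249 1989 (.leaf 367 2174 .nil)) .nil)) .nil)) .nil)) .nil)) .nil)) (.cons 297 (.leaf 321 1796 (.cons 225 (.leaf 201 1605 (.cons 320 (.leaf 249 1797 (.cons 319 (.leaf 295 1790 (.leaf 343 1982 .nil)) .nil)) .nil)) .nil)) (.cons 321 (.leaf 297 1796 (.cons 199 (.leaf 223 1599 (.cons 320 (.leaf 345 1988 (.cons 344 (.leaf 249 1989 (.cons 271 (.leaf 247 1983 (.cons 368 (.leaf 295 2175 (.cons 367 (.leaf 343 2174 (.leaf 391 2366 .nil)) .nil)) .nil)) .nil)) .nil)) .nil)) .nil)) .nil))))))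
noncomputable def t17 : T := .cons 274 (.leaf 247 1979 (.cons 295 (.leaf 296 2170 (.cons 271 (.leaf 294 2162 (.cons 299 (.leaf 300 2176 (.leaf 298 2168 .nil)) .nil)) .nil)) .nil)) (.cons 224 (.cons 200 (.leaf 297 1604 (.cons 175 (.leaf 199 1407 (.cons 176 (.leaf 151 1215 (.leaf 249 1412 .nil)) .nil)) .nil)) (.cons 296 t16 (.cons 200 (.cons 175 (.leaf 199 1407 (.cons 176 (.leaf 151 1215 (.leaf 249 1412 .nil)) .nil)) (.cons 199 (.leaf 175 1407 (.cons 201 (.leaf 177 1413 (.cons 296 (.leaf 223 1599 (.leaf 225 1605 .nil)) .nil)) .nil)) (.cons 176 (.leaf 249 1412 (.cons 177 (.leaf 201 1413 (.leaf 153 1221 .nil)) .nil)) .nil))) (.cons 200 (.leaf 297 1604 (.cons 199 (.leaf 175 1407 (.cons 201 (.leaf 177 1413 (.cons 296 (.leaf 223 1599 (.leaf 225 1605 .nil)) .nil)) .nil)) .nil)) (.cons 200 (.leaf 297 1604 (.cons 176 (.leaf 249 1412 (.cons 177 (.leaf 201 1413 (.leaf 153 1221 .nil)) .nil)) .nil))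 .nil))))) (.cons 274 (.cons 295 (.leaf 296 2170 (.cons 271 (.leaf 294 2162 (.cons 299 (.leaf 300 2176 (.leaf 298 2168 .nil)) .nil)) .nil)) (.cons 251 (.leaf 252 1985 (.cons 299 (.leaf 300 2176 (.cons 298 (.leaf 271 2168 (.cons 227 (.leaf 203 1622 (.leaf 322 1814 .nil)) .nil)) .nil)) .nil)) (.cons 296 (.leaf 295 2170 (.cons 251 (.leaf 252 1985 (.cons 224 (.cons 297 (.leaf 200 1604 (.leaf 321 1796 .nil)) (.cons 199 (.leaf 223 1599 (.cons 200 (.leaf 175 1407 (.cons 201 (.leaf 177 1413 (.leaf 225 1605 .nil)) .nil)) .nil)) (.cons 199 (.leaf 223 1599 (.cons 321 (.leaf 297 1796 (.cons 320 (.leaf 345 1988 (.cons 343 (.leaf 319 1982 (.cons 344 (.leaf 249 1989 (.leaf 367 2174 .nil)) .nil)) .nil)) .nil)) .nil)) .nil))) .nil)) .nil)) .nil))) (.cons 274 (.leaf 247 1979 (.cons 251 (.leaf 252 1985 (.cons 299 (.leaf 300 2176 (.cons 298 (.leaf 271 2168 (.cons 227 (.leaf 203 1622 (.leaf 322 1814 .nil))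 .nil)) .nil)) .nil)) .nil)) (.cons 274 (.leaf 247 1979 (.cons 296 (.leaf 295 2170 (.cons 251 (.leaf 252 1985 (.cons 224 (.cons 297 (.leaf 200 1604 (.leaf 321 1796 .nil)) (.cons 199 (.leaf 223 1599 (.cons 200 (.leaf 175 1407 (.cons 201 (.leaf 177 1413 (.leaf 225 1605 .nil)) .nil)) .nil)) (.cons 199 (.leaf 223 1599 (.cons 321 (.leaf 297 1796 (.cons 320 (.leaf 345 1988 (.cons 343 (.leaf 319 1982 (.cons 344 (.leaf 249 1989 (.leaf 367 2174 .nil)) .nil)) .nil)) .nil)) .nil)) .nil))) .nil)) .nil)) .nil)) .nil))))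
noncomputable def t18 : T := .cons 222 (.leaf 221 1771 (.cons 223 (.leaf 250 1779 (.cons 199 (.leaf 175 1404 (.cons 270 (.leaf 269 1962 (.leaf 294 1589 .nil)) .nil)) .nil)) .nil)) (.cons 222 (.leaf 221 1771 (.cons 250 (.leaf 223 1779 (.cons 251 (.leaf 271 1978 (.leaf 252 1986 .nil)) .nil)) .nil)) (.cons 270 (.leaf 269 1962 (.cons 250 (.leaf 271 1969 (.cons 251 (.leaf 252 1986 (.cons 224 (.leaf 223 1787 (.cons 200 (.leaf 297 1604 (.leaf 176 1412 .nil)) .nil)) .nil)) .nil)) .nil)) (.cons 270 (.leaf 269 1962 (.cons 271 (.leaf 250 1969 (.cons 221 (.leaf 222 1771 (.cons 294 (.leaf 293 2154 (.cons 318 (.leaf 342 1973 (.cons 319 (.leaf 343 1972 (.cons 295 (.leaf 224 1789 (.cons 317 (.leaf 341 1966 (.cons 316 (.leaf 315 2329 (.leaf 296 2337 .nil)) .nil)) .nil)) .nil)) .nil)) .nil)) .nil)) .nil)) .nil)) (.cons 270 (.leaf 269 1962 (.cons 222 (.leaf 221 1771 (.cons 223 (.cons 294 (.leaf 318 1781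 (.leaf 199 1589 .nil)) (.cons 294 (.leaf 318 1781 (.cons 293 (.leaf 271 2154 (.leaf 317 1774 .nil)) .nil)) (.cons 199 (.leaf 175 1404 (.cons 296 (.leaf 224 1599 (.leaf 271 1596 .nil)) .nil)) .nil))) .nil)) .nil)) .nil))))
noncomputable def t19 : T := .cons 320 (.leaf 223 1791 (.leaf 225 1797 .nil)) (.cons 224 (.cons 199 (.leaf 223 1599 (.cons 200 (.leaf 175 1407 (.cons 176 (.leaf 271 1406 (.cons 152 (.leaf 225 1220 (.cons 153 (.leaf 177 1221 (.leaf 129 1029 .nil)) .nil)) .nil)) .nil)) .nil)) (.cons 295 (.leaf 319 1790 (.cons 200 (.leaf 271 1598 (.cons 201 (.leaf 177 1413 (.leaf 225 1605 .nil)) .nil)) .nil)) (.cons 223 (.leaf 199 1599 (.cons 221 (.leaf 222 1768 (.cons 295 (.leaf 319 1790 (.cons 200 (.leaf 271 1597 (.cons 176 (.leaf 152 1214 (.cons 177 (.leaf 201 1413 (.leaf 153 1221 .nil)) .nil)) .nil)) .nil)) .nil)) .nil)) (.cons 199 (.leaf 223 1599 (.cons 200 (.leaf 175 1407 (.cons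 201 (.leaf 177 1413 (.leaf 225 1605 .nil)) .nil)) .nil)) (.cons 199 (.leaf 223 1599 (.cons 225 (.leaf 201 1605 (.cons 227 (.leaf 226 1786 (.cons 295 (.leaf 319 1790 (.cons 298 (.leaf 297 2169 (.cons 251 (.leaf 203 1622 (.cons 322 (.leaf 299 1814 (.leaf 346 2005 .nil)) .nil)) .nil)) .nil)) .nil)) .nil)) .nil)) .nil))))) (.cons 320 (.leaf 225 1797 (.cons 271 (.leaf 344 1983 (.cons 269 (.leaf 270 1961 (.cons 319 (.leaf 343 1982 (.cons 295 (.leaf 224 1789 (.cons 297 (.leaf 298 2169 (.cons 318 (.leaf 342 1974 (.leaf 317 2345 .nil)) .nil)) .nil)) .nil)) .nil)) .nil)) .nil)) (.cons 223 (.leaf 320 1791 (.cons 199 (.leaf 175 1404 (.leaf 224 1599 .nil)) .nil)) .nil)))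
noncomputable def t20 : T := .leaf 274 1979 (.cons 246 (.leaf 245 1960 (.cons 223 (.cons 199 (.leaf 175 1404 (.cons 296 (.leaf 224 1599 (.leaf 271 1596 .nil)) .nil)) (.cons 296 (.leaf 320 1791 (.cons 224 (.cons 225 (.leaf 201 1605 (.leaf 226 1778 .nil)) (.cons 295 (.leaf 319 1790 (.cons 294 (.leaf 293 2153 (.cons 271 (.leaf 200 1597 (.leaf 318 1782 .nil)) .nil)) .nil)) .nil)) .nil)) (.cons 199 (.leaf 175 1404 (.cons 271 (.cons 270 (.leaf 294 1590 (.cons 198 (.leaf 174 1399 (.cons 269 (.leaf 268 1953 (.cons 293 (.leaf 292 2146 (.leaf 222 1582 .nil)) .nil)) .nil)) .nil)) (.cons 200 (.leaf 176 1405 (.cons 198 (.leaf 174 1399 (.cons 222 (.leaf 295 1591 (.cons 221 (.leaf 220 1760 (.leaf 201 1578 .nil)) .nil)) .nil)) .nil)) (.cons 200 (.leaf 176 1405 (.cons 270 (.leaf 294 1590 (.cons 297 (.leaf 224 1604 (.leaf 298 2160 .nil)) .nil)) .nil)) .nil))) .nil)) (.cons 199 (.leaf 175 1404 (.cons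 296 (.leaf 271 1596 (.leaf 320 1791 .nil)) .nil)) (.cons 199 (.leaf 175 1404 (.cons 296 (.leaf 224 1599 (.leaf 320 1791 .nil)) .nil)) .nil))))) .nil)) .nil)
noncomputable def t21 : T := .cons 296 (.leaf 320 1791 (.cons 199 (.leaf 175 1404 (.leaf 224 1599 .nil)) .nil)) (.cons 296 (.leaf 320 1791 (.cons 224 (.cons 295 (.leaf 319 1790 (.cons 271 (.leaf 200 1597 (.cons 198 (.leaf 222 1591 (.cons 294 (.leaf 318 1782 (.cons 293 (.leaf 292 2145 (.cons 269 (.leaf 268 2147 (.cons 270 (.leaf 249 1961 (.leaf 297 2152 .nil)) .nil)) .nil)) .nil)) .nil)) .nil)) .nil)) (.cons 225 (.leaf 201 1605 (.cons 246 (.leaf 245 1769 (.leaf 226 1778 .nil)) .nil)) .nil)) .nil)) (.cons 199 (.leaf 175 1404 (.cons 271 (.cons 270 (.leaf 294 1590 (.cons 269 (.leaf 249 1961 (.leaf 268 1953 .nil)) .nil)) (.cons 198 (.leaf 174 1399 (.cons 222 (.leaf 295 1591 (.cons 221 (.leaf 220 1760 (.cons 249 (.leaf 224 1768 (.leaf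 246 1771 .nil)) .nil)) .nil)) .nil)) (.cons 198 (.leaf 174 1399 (.cons 222 (.leaf 295 1591 (.cons 220 (.leaf 221 1760 (.cons 270 (.leaf 294 1590 (.cons 269 (.leaf 268 1953 (.cons 293 (.leaf 292 2146 (.leaf 246 1582 .nil)) .nil)) .nil)) .nil)) .nil)) .nil)) .nil))) .nil)) (.cons 199 (.leaf 175 1404 (.cons 296 (.leaf 271 1596 (.leaf 320 1791 .nil)) .nil)) .nil)))
noncomputable def t22 : T := .cons 273 (.leaf 274 1979 (.cons 246 (.leaf 245 1960 (.cons 249 (.cons 225 (.leaf 226 1777 (.cons 201 (.leaf 177 1414 (.leaf 296 1606 .nil)) .nil)) (.cons 270 (.leaf 269 1962 (.cons 222 (.leaf 221 1771 (.cons 223 (.leaf 250 1779 (.cons 294 (.leaf 318 1781 (.leaf 199 1589 .nil)) .nil)) .nil)) .nil)) .nil)) .nil)) .nil)) (.cons 223 t21 (.cons 273 t20 (.cons 273 (.leaf 274 1979 (.cons 246 (.leaf 245 1960 (.cons 249 (.cons 225 (.leaf 226 1777 (.cons 201 (.leaf 177 1414 (.leaf 296 1606 .nil)) .nil)) (.cons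 221 (.leaf 222 1771 (.cons 270 (.leaf 269 1962 (.cons 271 (.leaf 250 1969 (.cons 294 (.leaf 293 2154 (.cons 318 (.leaf 342 1973 (.cons 319 (.leaf 343 1972 (.cons 295 (.leaf 224 1789 (.cons 317 (.leaf 341 1966 (.cons 316 (.leaf 315 2329 (.leaf 296 2337 .nil)) .nil)) .nil)) .nil)) .nil)) .nil)) .nil)) .nil)) .nil)) (.cons 270 (.leaf 269 1962 (.cons 250 (.leaf 271 1969 (.cons 227 (.leaf 226 1785 (.cons 251 (.leaf 252 1986 (.leaf 228 1793 .nil)) .nil)) .nil)) .nil)) .nil))) .nil)) .nil)) (.cons 274 (.leaf 273 1979 (.cons 249 (.leaf 250 1976 (.cons 296 t19 .nil)) .nil)) (.cons 273 (.leaf 274 1979 (.cons 246 (.leaf 245 1960 (.cons 249 (.cons 221 (.leaf 222 1771 (.cons 270 (.leaf 269 1962 (.cons 250 (.leaf 271 1969 (.cons 227 (.leaf 226 1785 (.cons 251 (.leaf 252 1986 (.leaf 228 1793 .nil)) .nil)) .nil)) .nil)) .nil)) (.cons 221 (.leaf 222 1771 (.cons 225 (.leaf 226 1777 (.cons 201 (.leaf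 177 1414 (.cons 200 (.leaf 176 1415 (.cons 224 (.leaf 297 1604 (.cons 199 (.leaf 175 1407 (.cons 198 (.leaf 197 1576 (.cons 271 (.leaf 295 1598 (.cons 174 (.leaf 223 1399 (.leaf 173 1387 .nil)) .nil)) .nil)) .nil)) .nil)) .nil)) .nil)) .nil)) .nil)) (.cons 270 (.leaf 269 1962 (.cons 250 (.leaf 271 1969 (.cons 251 (.leaf 252 1986 (.cons 224 (.leaf 223 1787 (.cons 200 (.leaf 297 1604 (.leaf 176 1412 .nil)) .nil)) .nil)) .nil)) .nil)) (.cons 221 (.leaf 222 1771 (.cons 226 (.leaf 225 1777 (.cons 250 (.leaf 227 1785 (.cons 251 (.leaf 252 1986 (.cons 224 (.leaf 223 1787 (.cons 200 (.leaf 297 1604 (.leaf 176 1412 .nil)) .nil)) .nil)) .nil)) .nil)) .nil)) .nil)))) .nil)) .nil)) (.cons 273 (.leaf 274 1979 (.cons 246 (.leaf 245 1960 (.cons 249 (.cons 222 (.leaf 221 1771 (.cons 250 (.leaf 223 1779 (.cons 251 (.leaf 271 1978 (.leaf 252 1986 .nil)) .nil)) .nil)) (.cons 225 (.leaf 226 1777 (.cons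 201 (.leaf 177 1414 (.leaf 296 1606 .nil)) .nil)) .nil)) .nil)) .nil)) (.cons 273 (.leaf 274 1979 (.cons 246 (.leaf 245 1960 (.cons 249 (.cons 222 (.leaf 221 1771 (.cons 223 (.leaf 250 1779 (.cons 199 (.leaf 175 1404 (.cons 270 (.leaf 269 1962 (.leaf 294 1589 .nil)) .nil)) .nil)) .nil)) (.cons 222 (.leaf 221 1771 (.cons 250 (.leaf 223 1779 (.cons 251 (.leaf 271 1978 (.leaf 252 1986 .nil)) .nil)) .nil)) (.cons 270 (.leaf 269 1962 (.cons 250 (.leaf 271 1969 (.cons 251 (.leaf 252 1986 (.cons 224 (.leaf 223 1787 (.cons 200 (.leaf 297 1604 (.leaf 176 1412 .nil)) .nil)) .nil)) .nil)) .nil)) (.cons 270 (.leaf 269 1962 (.cons 222 (.leaf 221 1771 (.cons 223 (.cons 294 (.leaf 318 1781 (.leaf 199 1589 .nil)) (.cons 294 (.leaf 318 1781 (.cons 293 (.leaf 271 2154 (.leaf 317 1774 .nil)) .nil)) (.cons 199 (.leaf 175 1404 (.cons 296 (.leaf 224 1599 (.leaf 271 1596 .nil)) .nil)) .nil))) .nil)) .nil))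 (.cons 270 (.leaf 269 1962 (.cons 250 (.leaf 271 1969 (.cons 227 (.leaf 226 1785 (.cons 251 (.leaf 252 1986 (.leaf 228 1793 .nil)) .nil)) .nil)) .nil)) .nil))))) .nil)) .nil)) (.cons 273 (.leaf 274 1979 (.cons 246 (.leaf 245 1960 (.cons 249 (.cons 225 (.leaf 226 1777 (.cons 201 (.leaf 177 1414 (.leaf 296 1606 .nil)) .nil)) (.cons 270 (.leaf 269 1962 (.cons 250 (.leaf 271 1969 (.cons 251 (.leaf 252 1986 (.cons 224 (.leaf 223 1787 (.cons 200 (.leaf 297 1604 (.leaf 176 1412 .nil)) .nil)) .nil)) .nil)) .nil)) .nil)) .nil)) .nil)) (.cons 273 (.leaf 274 1979 (.cons 246 (.leaf 245 1960 (.cons 249 t18 .nil)) .nil)) .nil)))))))))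
noncomputable def t23 : T := .cons 199 (.leaf 223 1599 (.cons 200 (.leaf 175 1407 (.cons 176 (.leaf 271 1406 (.cons 152 (.leaf 225 1220 (.cons 153 (.leaf 177 1221 (.leaf 129 1029 .nil)) .nil)) .nil)) .nil)) .nil)) (.cons 225 (.leaf 201 1605 (.cons 226 (.leaf 227 1786 (.cons 297 (.leaf 321 1796 (.cons 295 (.leaf 298 2169 (.cons 200 (.leaf 271 1598 (.cons 175 (.leaf 199 1407 (.cons 176 (.leaf 151 1215 (.leaf 152 1220 .nil)) .nil)) .nil)) .nil)) .nil)) .nil)) .nil)) (.cons 225 (.leaf 201 1605 (.cons 227 (.leaf 226 1786 (.cons 297 (.leaf 321 1796 (.cons 298 (.leaf 295 2169 (.cons 251 (.leaf 203 1622 (.cons 299 (.leaf 322 1814 (.leaf 271 2171 .nil)) .nil)) .nil)) .nil)) .nil)) .nil)) (.cons 223 (.leaf 199 1599 (.cons 221 (.leaf 222 1768 (.cons 297 (.leaf 321 1796 (.cons 295 (.leaf 298 2169 (.cons 200 (.leaf 271 1597 (.cons 176 (.leaf 152 1214 (.cons 177 (.leaf 201 1413 (.leaf 153 1221 .nil))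 .nil)) .nil)) .nil)) .nil)) .nil)) .nil)) (.cons 223 (.leaf 199 1599 (.cons 222 (.leaf 221 1768 (.cons 225 (.leaf 201 1605 (.cons 198 (.leaf 197 1579 (.cons 227 (.leaf 226 1786 (.cons 297 (.leaf 321 1796 (.cons 298 (.leaf 295 2169 (.cons 251 (.leaf 203 1622 (.cons 322 (.leaf 299 1814 (.leaf 346 2005 .nil)) .nil)) .nil)) .nil)) .nil)) .nil)) .nil)) .nil)) .nil)) .nil))))
noncomputable def t24 : T := .cons 273 (.leaf 274 1979 (.cons 246 (.leaf 245 1960 (.cons 223 (.cons 199 (.leaf 175 1404 (.cons 296 (.leaf 224 1599 (.leaf 271 1596 .nil)) .nil)) (.cons 296 (.leaf 320 1791 (.cons 224 (.cons 225 (.leaf 201 1605 (.leaf 226 1778 .nil)) (.cons 297 (.leaf 200 1604 (.leaf 321 1796 .nil)) .nil)) .nil)) (.cons 199 (.leaf 175 1404 (.cons 271 (.cons 200 (.leaf 176 1405 (.cons 198 (.leaf 174 1399 (.cons 222 (.leaf 295 1591 (.cons 221 (.leaf 220 1760 (.leaf 201 1578 .nil)) .nil)) .nil)) .nil)) (.cons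 270 (.leaf 294 1590 (.cons 198 (.leaf 174 1399 (.cons 269 (.leaf 268 1953 (.cons 293 (.leaf 292 2146 (.leaf 222 1582 .nil)) .nil)) .nil)) .nil)) (.cons 200 (.leaf 176 1405 (.cons 270 (.leaf 294 1590 (.cons 297 (.leaf 224 1604 (.leaf 298 2160 .nil)) .nil)) .nil)) .nil))) .nil)) (.cons 199 (.leaf 175 1404 (.cons 296 (.leaf 271 1596 (.leaf 320 1791 .nil)) .nil)) .nil)))) .nil)) .nil)) (.cons 273 (.leaf 274 1979 (.cons 246 (.leaf 245 1960 (.cons 249 (.cons 225 (.leaf 226 1777 (.cons 201 (.leaf 177 1414 (.leaf 296 1606 .nil)) .nil)) (.cons 270 (.leaf 269 1962 (.cons 250 (.leaf 271 1969 (.cons 227 (.leaf 226 1785 (.cons 251 (.leaf 252 1986 (.leaf 228 1793 .nil)) .nil)) .nil)) .nil)) (.cons 270 (.leaf 269 1962 (.cons 271 (.leaf 250 1969 (.cons 297 (.leaf 298 2160 (.cons 224 (.leaf 200 1604 (.leaf 321 1799 .nil)) .nil)) .nil)) .nil)) .nil))) .nil)) .nil)) (.cons 274 (.leaf 273 1979 (.cons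 249 (.leaf 250 1976 (.cons 296 (.cons 223 (.leaf 320 1791 (.cons 199 (.leaf 175 1404 (.leaf 224 1599 .nil)) .nil)) (.cons 224 t23 (.cons 320 (.leaf 225 1797 (.cons 271 (.leaf 344 1983 (.cons 269 (.leaf 270 1961 (.cons 321 (.leaf 345 1988 (.cons 224 (.leaf 297 1796 (.cons 200 (.leaf 295 1598 (.leaf 176 1406 .nil)) .nil)) .nil)) .nil)) .nil)) .nil)) (.cons 320 (.leaf 223 1791 (.leaf 225 1797 .nil)) .nil)))) .nil)) .nil)) (.cons 273 (.leaf 274 1979 (.cons 246 (.leaf 245 1960 (.cons 249 (.cons 225 (.leaf 226 1777 (.cons 201 (.leaf 177 1414 (.leaf 296 1606 .nil)) .nil)) (.cons 222 (.leaf 221 1771 (.cons 223 (.leaf 250 1779 (.cons 199 (.leaf 175 1404 (.cons 270 (.leaf 269 1962 (.leaf 294 1589 .nil)) .nil)) .nil)) .nil)) .nil)) .nil)) .nil)) (.cons 273 (.leaf 274 1979 (.cons 246 (.leaf 245 1960 (.cons 249 (.cons 225 (.leaf 226 1777 (.cons 177 (.leaf 201 1414 (.cons 270 (.leaf 269 1962 (.cons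 271 (.leaf 250 1969 (.cons 294 (.leaf 293 2154 (.cons 223 (.leaf 199 1590 (.leaf 318 1781 .nil)) .nil)) .nil)) .nil)) .nil)) .nil)) (.cons 221 (.leaf 222 1771 (.cons 225 (.leaf 226 1777 (.cons 201 (.leaf 177 1414 (.cons 200 (.leaf 176 1415 (.cons 297 (.leaf 224 1604 (.cons 321 (.leaf 345 1991 (.cons 322 (.leaf 298 1804 (.leaf 346 1996 .nil)) .nil)) .nil)) .nil)) .nil)) .nil)) .nil)) (.cons 222 (.leaf 221 1771 (.cons 223 (.leaf 250 1779 (.cons 199 (.leaf 175 1404 (.cons 270 (.leaf 269 1962 (.leaf 294 1589 .nil)) .nil)) .nil)) .nil)) .nil))) .nil)) .nil)) (.cons 273 (.leaf 274 1979 (.cons 246 (.leaf 245 1960 (.cons 249 (.cons 222 (.leaf 221 1771 (.cons 223 (.leaf 250 1779 (.cons 199 (.leaf 175 1404 (.cons 270 (.leaf 269 1962 (.leaf 294 1589 .nil)) .nil)) .nil)) .nil)) (.cons 222 (.leaf 221 1771 (.cons 250 (.leaf 223 1779 (.cons 251 (.leaf 271 1978 (.leaf 252 1986 .nil)) .nil)) .nil))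 (.cons 270 (.leaf 269 1962 (.cons 250 (.leaf 271 1969 (.cons 251 (.leaf 252 1986 (.cons 224 (.leaf 223 1787 (.cons 297 (.leaf 200 1604 (.leaf 321 1799 .nil)) .nil)) .nil)) .nil)) .nil)) (.cons 270 (.leaf 269 1962 (.cons 222 (.leaf 221 1771 (.cons 223 (.cons 294 (.leaf 318 1781 (.leaf 199 1589 .nil)) (.cons 294 (.leaf 318 1781 (.cons 293 (.leaf 271 2154 (.leaf 317 1774 .nil)) .nil)) (.cons 199 (.leaf 175 1404 (.cons 296 (.leaf 224 1599 (.leaf 271 1596 .nil)) .nil)) .nil))) .nil)) .nil)) (.cons 270 (.leaf 269 1962 (.cons 271 (.leaf 250 1969 (.cons 297 (.leaf 298 2160 (.cons 224 (.leaf 200 1604 (.leaf 321 1799 .nil)) .nil)) .nil)) .nil)) .nil))))) .nil)) .nil)) (.cons 273 (.leaf 274 1979 (.cons 246 (.leaf 245 1960 (.cons 249 (.cons 222 (.leaf 221 1771 (.cons 250 (.leaf 223 1779 (.cons 251 (.leaf 271 1978 (.leaf 252 1986 .nil)) .nil)) .nil)) (.cons 225 (.leaf 226 1777 (.cons 201 (.leaf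 177 1414 (.leaf 296 1606 .nil)) .nil)) .nil)) .nil)) .nil)) .nil))))))
noncomputable def t25 : T := .cons 199 (.leaf 175 1404 (.cons 296 (.leaf 224 1599 (.leaf 271 1596 .nil)) .nil)) (.cons 296 (.leaf 320 1791 (.cons 224 (.cons 297 (.leaf 321 1796 (.cons 200 (.leaf 273 1604 (.cons 176 (.leaf 271 1406 (.leaf 152 1214 .nil)) .nil)) .nil)) (.cons 225 (.leaf 201 1605 (.cons 246 (.leaf 245 1769 (.leaf 226 1778 .nil)) .nil)) .nil)) .nil)) (.cons 199 (.leaf 175 1404 (.cons 271 (.cons 270 (.leaf 294 1590 (.cons 269 (.leaf 249 1961 (.leaf 268 1953 .nil)) .nil)) (.cons 198 (.leaf 174 1399 (.cons 222 (.leaf 295 1591 (.cons 221 (.leaf 220 1760 (.cons 249 (.leaf 224 1768 (.leaf 246 1771 .nil)) .nil)) .nil)) .nil)) (.cons 198 (.leaf 174 1399 (.cons 222 (.leaf 295 1591 (.cons 220 (.leaf 221 1760 (.cons 270 (.leaf 294 1590 (.cons 269 (.leaf 268 1953 (.cons 293 (.leaf 292 2146 (.leaf 246 1582 .nil))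 .nil)) .nil)) .nil)) .nil)) .nil)) .nil))) .nil)) (.cons 199 (.leaf 175 1404 (.cons 296 (.leaf 271 1596 (.leaf 320 1791 .nil)) .nil)) (.cons 199 (.leaf 175 1404 (.cons 296 (.leaf 224 1599 (.leaf 320 1791 .nil)) .nil)) .nil))))
noncomputable def t26 : T := .cons 273 (.leaf 274 1979 (.cons 246 (.leaf 245 1960 (.cons 249 (.cons 222 (.leaf 221 1771 (.cons 223 (.leaf 250 1779 (.cons 199 (.leaf 175 1404 (.cons 270 (.leaf 269 1962 (.leaf 294 1589 .nil)) .nil)) .nil)) .nil)) (.cons 222 (.leaf 221 1771 (.cons 250 (.leaf 223 1779 (.cons 251 (.leaf 271 1978 (.leaf 252 1986 .nil)) .nil)) .nil)) (.cons 225 (.leaf 226 1777 (.cons 201 (.leaf 177 1414 (.leaf 296 1606 .nil)) .nil)) .nil))) .nil)) .nil)) (.cons 249 (.cons 250 (.leaf 274 1976 (.cons 271 (.leaf 251 1978 (.leaf 270 1970 .nil)) .nil)) (.cons 225 (.cons 201 (.leaf 177 1414 (.cons 296 (.leaf 224 1605 (.leaf 320 1797 .nil)) .nil)) (.cons 177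 (.leaf 201 1414 (.cons 246 (.leaf 226 1777 (.cons 245 (.leaf 224 1769 (.cons 269 (.leaf 268 1954 (.leaf 270 1962 .nil)) .nil)) .nil)) .nil)) (.cons 226 (.leaf 246 1777 (.cons 227 (.leaf 224 1786 (.leaf 228 1794 .nil)) .nil)) (.cons 177 (.leaf 201 1414 (.cons 246 (.leaf 226 1777 (.cons 269 (.leaf 270 1962 (.cons 245 (.leaf 268 1954 (.cons 220 (.leaf 221 1763 (.cons 244 (.leaf 271 1952 (.leaf 219 1755 .nil)) .nil)) .nil)) .nil)) .nil)) .nil)) .nil)))) (.cons 250 (.leaf 274 1976 (.cons 222 (.leaf 223 1779 (.cons 226 (.leaf 227 1785 (.cons 246 (.leaf 221 1771 (.leaf 225 1777 .nil)) .nil)) .nil)) .nil)) .nil))) (.cons 223 t25 t24))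
noncomputable def t27 : T := .cons 199 (.leaf 223 1599 (.cons 321 (.leaf 297 1796 (.cons 319 (.leaf 295 1790 (.cons 320 (.leaf 343 1982 (.leaf 345 1988 .nil)) .nil)) .nil)) .nil)) (.cons 223 (.leaf 199 1599 (.cons 247 (.leaf 320 1791 (.cons 245 (.leaf 246 1960 (.cons 295 (.leaf 319 1790 (.cons 294 (.leaf 293 2153 (.cons 271 (.leaf 318 1782 (.cons 222 (.leaf 198 1591 (.cons 221 (.leaf 220 1760 (.leaf 249 1768 .nil)) .nil)) .nil)) .nil)) .nil)) .nil)) .nil)) .nil)) (.cons 321 (.leaf 297 1796 (.cons 199 (.leaf 223 1599 (.cons 320 (.leaf 345 1988 (.cons 343 (.leaf 319 1982 (.cons 344 (.leaf 249 1989 (.leaf 367 2174 .nil)) .nil)) .nil)) .nil)) .nil)) (.cons 321 (.leaf 297 1796 (.cons 295 (.leaf 319 1790 (.cons 293 (.leaf 294 2153 (.cons 320 (.leaf 345 1988 (.cons 322 (.leaf 323 2363 (.cons 344 (.leaf 249 1989 (.cons 271 (.leaf 247 1983 (.leaf 368 2175 .nil)) .nil)) .nil)) .nil)) .nil))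 .nil)) .nil)) (.cons 321 (.leaf 297 1796 (.cons 199 (.leaf 223 1599 (.cons 320 (.leaf 345 1988 (.cons 344 (.leaf 249 1989 (.cons 271 (.leaf 247 1983 (.cons 368 (.leaf 295 2175 (.cons 367 (.leaf 343 2174 (.leaf 391 2366 .nil)) .nil)) .nil)) .nil)) .nil)) .nil)) .nil)) (.cons 297 (.leaf 321 1796 (.cons 295 (.leaf 319 1790 (.cons 294 (.leaf 293 2153 (.cons 270 (.leaf 269 2155 (.cons 271 (.leaf 298 2160 (.cons 245 (.leaf 246 1963 (.cons 249 (.leaf 250 1969 (.cons 318 (.leaf 317 2346 (.cons 342 (.leaf 366 2165 (.leaf 247 1973 .nil)) .nil)) .nil)) .nil)) .nil)) .nil)) .nil)) .nil)) .nil)) .nil)))))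
noncomputable def t28 : T := .cons 274 (.leaf 247 1979 (.cons 251 (.leaf 252 1985 (.cons 271 (.leaf 250 1977 (.cons 295 (.leaf 296 2170 (.leaf 294 2162 .nil)) .nil)) .nil)) .nil)) (.cons 224 (.cons 296 (.cons 199 (.leaf 223 1599 (.cons 321 (.leaf 297 1796 (.cons 319 (.leaf 295 1790 (.cons 320 (.leaf 343 1982 (.leaf 345 1988 .nil)) .nil)) .nil)) .nil)) (.cons 295 (.leaf 319 1790 (.cons 199 (.leaf 223 1599 (.cons 200 (.leaf 175 1407 (.leaf 271 1598 .nil)) .nil)) .nil)) (.cons 297 (.leaf 200 1604 (.leaf 321 1796 .nil)) .nil))) (.cons 296 t27 (.cons 200 (.cons 175 (.leaf 199 1407 (.cons 176 (.leaf 151 1215 (.leaf 249 1412 .nil)) .nil)) (.cons 199 (.leaf 175 1407 (.cons 295 (.leaf 271 1598 (.cons 296 (.leaf 223 1599 (.leaf 319 1790 .nil)) .nil)) .nil)) (.cons 176 (.leaf 249 1412 (.cons 177 (.leaf 201 1413 (.leaf 153 1221 .nil)) .nil)) .nil))) (.cons 200 (.leaf 297 1604 (.cons 175 (.leaf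 199 1407 (.cons 176 (.leaf 151 1215 (.leaf 249 1412 .nil)) .nil)) .nil)) (.cons 200 (.leaf 297 1604 (.cons 176 (.leaf 249 1412 (.cons 177 (.leaf 201 1413 (.leaf 153 1221 .nil)) .nil)) .nil)) .nil))))) (.cons 274 (.cons 251 (.leaf 252 1985 (.cons 271 (.leaf 250 1977 (.cons 295 (.leaf 296 2170 (.leaf 294 2162 .nil)) .nil)) .nil)) (.cons 295 (.leaf 296 2170 (.cons 271 (.leaf 294 2162 (.cons 299 (.leaf 300 2176 (.leaf 298 2168 .nil)) .nil)) .nil)) (.cons 251 (.leaf 252 1985 (.cons 250 (.leaf 271 1977 (.cons 299 (.leaf 300 2176 (.cons 323 (.leaf 226 1815 (.leaf 347 2007 .nil)) .nil)) .nil)) .nil)) (.cons 296 (.leaf 295 2170 (.cons 251 (.leaf 252 1985 (.cons 299 (.leaf 300 2176 (.cons 323 (.cons 322 (.leaf 346 2006 (.cons 324 (.leaf 348 2012 (.cons 298 (.leaf 227 1814 (.leaf 297 2368 .nil)) .nil)) .nil)) (.cons 250 (.leaf 226 1815 (.leaf 347 2007 .nil)) .nil)) .nil)) .nil)) .nil)) .nil))))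 (.cons 274 (.leaf 247 1979 (.cons 296 (.leaf 295 2170 (.cons 251 (.leaf 252 1985 (.cons 299 (.leaf 300 2176 (.cons 323 (.cons 322 (.leaf 346 2006 (.cons 324 (.leaf 348 2012 (.cons 298 (.leaf 227 1814 (.leaf 297 2368 .nil)) .nil)) .nil)) (.cons 250 (.leaf 226 1815 (.leaf 347 2007 .nil)) .nil)) .nil)) .nil)) .nil)) .nil)) (.cons 274 (.leaf 247 1979 (.cons 251 (.leaf 252 1985 (.cons 250 (.leaf 271 1977 (.cons 299 (.leaf 300 2176 (.cons 323 (.leaf 226 1815 (.leaf 347 2007 .nil)) .nil)) .nil)) .nil)) .nil)) (.cons 274 (.leaf 247 1979 (.cons 295 (.leaf 296 2170 (.cons 271 (.leaf 294 2162 (.cons 299 (.leaf 300 2176 (.leaf 298 2168 .nil)) .nil)) .nil)) .nil)) .nil)))))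
noncomputable def t29 : T := .cons 224 (.leaf 200 1604 (.cons 296 (.leaf 321 1796 (.cons 225 (.leaf 201 1605 (.cons 320 (.leaf 249 1797 (.cons 319 (.leaf 295 1790 (.leaf 343 1982 .nil)) .nil)) .nil)) .nil)) .nil)) (.cons 224 (.leaf 200 1604 (.cons 296 (.cons 225 (.leaf 201 1605 (.cons 320 (.leaf 249 1797 (.cons 319 (.leaf 295 1790 (.leaf 343 1982 .nil)) .nil)) .nil)) (.cons 295 (.leaf 319 1790 (.cons 294 (.leaf 293 2153 (.cons 270 (.leaf 269 2155 (.cons 271 (.leaf 298 2160 (.cons 245 (.leaf 246 1963 (.cons 249 (.leaf 250 1969 (.cons 318 (.leaf 317 2346 (.cons 342 (.leaf 366 2165 (.leaf 247 1973 .nil)) .nil)) .nil)) .nil)) .nil)) .nil)) .nil)) .nil)) (.cons 225 (.leaf 201 1605 (.cons 249 (.leaf 320 1797 (.cons 298 (.leaf 322 1804 (.cons 271 (.leaf 270 2160 (.leaf 299 2171 .nil)) .nil)) .nil)) .nil)) (.cons 295 (.leaf 319 1790 (.cons 294 (.leaf 293 2153 (.cons 270 (.leaf 269 2155 (.cons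 271 (.leaf 298 2160 (.cons 245 (.leaf 246 1963 (.cons 318 (.leaf 317 2346 (.cons 342 (.leaf 366 2165 (.leaf 247 1973 .nil)) .nil)) .nil)) .nil)) .nil)) .nil)) .nil)) .nil)))) .nil)) (.cons 321 (.leaf 345 1991 (.cons 249 (.cons 250 (.leaf 226 1805 (.cons 251 (.leaf 271 1978 (.leaf 252 1986 .nil)) .nil)) (.cons 320 (.leaf 344 1990 (.cons 225 (.leaf 296 1797 (.cons 322 (.leaf 298 1804 (.leaf 346 1996 .nil)) .nil)) .nil)) .nil)) .nil)) (.cons 224 (.leaf 200 1604 (.cons 321 (.leaf 296 1796 (.leaf 345 1991 .nil)) .nil)) (.cons 224 (.leaf 200 1604 (.cons 321 (.leaf 345 1991 (.leaf 249 1799 .nil)) .nil)) .nil))))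
noncomputable def t30 : T := .cons 274 (.leaf 247 1979 (.cons 251 (.leaf 252 1985 (.cons 271 (.leaf 250 1977 (.cons 295 (.leaf 296 2170 (.leaf 294 2162 .nil)) .nil)) .nil)) .nil)) (.cons 297 t29 (.cons 274 (.cons 295 (.leaf 296 2170 (.cons 271 (.leaf 294 2162 (.cons 299 (.leaf 300 2176 (.leaf 298 2168 .nil)) .nil)) .nil)) (.cons 251 (.leaf 252 1985 (.cons 250 (.leaf 271 1977 (.cons 299 (.leaf 300 2176 (.cons 323 (.leaf 226 1815 (.leaf 347 2007 .nil)) .nil)) .nil)) .nil)) (.cons 251 (.leaf 252 1985 (.cons 271 (.leaf 250 1977 (.cons 295 (.leaf 296 2170 (.leaf 294 2162 .nil)) .nil)) .nil)) (.cons 296 (.leaf 295 2170 (.cons 251 (.leaf 252 1985 (.cons 299 (.leaf 300 2176 (.cons 323 (.cons 322 (.leaf 346 2006 (.cons 324 (.leaf 348 2012 (.cons 298 (.leaf 227 1814 (.leaf 297 2368 .nil)) .nil)) .nil)) (.cons 250 (.leaf 226 1815 (.leaf 347 2007 .nil)) .nil)) .nil)) .nil)) .nil)) .nil)))) (.cons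 274 (.leaf 247 1979 (.cons 251 (.leaf 252 1985 (.cons 250 (.leaf 271 1977 (.cons 299 (.leaf 300 2176 (.cons 323 (.leaf 226 1815 (.leaf 347 2007 .nil)) .nil)) .nil)) .nil)) .nil)) (.cons 274 (.leaf 247 1979 (.cons 296 (.leaf 295 2170 (.cons 251 (.leaf 252 1985 (.cons 299 (.leaf 300 2176 (.cons 323 (.cons 322 (.leaf 346 2006 (.cons 324 (.leaf 348 2012 (.cons 298 (.leaf 227 1814 (.leaf 297 2368 .nil)) .nil)) .nil)) (.cons 250 (.leaf 226 1815 (.leaf 347 2007 .nil)) .nil)) .nil)) .nil)) .nil)) .nil)) (.cons 274 (.leaf 247 1979 (.cons 295 (.leaf 296 2170 (.cons 271 (.leaf 294 2162 (.cons 299 (.leaf 300 2176 (.leaf 298 2168 .nil)) .nil)) .nil)) .nil)) .nil)))))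
noncomputable def t31 : T := .cons 222 (.leaf 221 1771 (.cons 223 (.leaf 250 1779 (.cons 199 (.leaf 175 1404 (.cons 270 (.leaf 269 1962 (.leaf 294 1589 .nil)) .nil)) .nil)) .nil)) (.cons 222 (.leaf 221 1771 (.cons 250 (.leaf 223 1779 (.cons 251 (.leaf 271 1978 (.leaf 252 1986 .nil)) .nil)) .nil)) (.cons 270 (.leaf 269 1962 (.cons 250 (.leaf 271 1969 (.cons 251 (.leaf 252 1986 (.cons 224 (.leaf 223 1787 (.cons 200 (.leaf 176 1412 (.cons 175 (.leaf 199 1407 (.cons 201 (.leaf 177 1413 (.cons 296 (.leaf 225 1605 (.cons 227 (.leaf 228 1793 (.cons 319 (.leaf 295 1790 (.cons 320 (.leaf 343 1982 (.leaf 344 1989 .nil)) .nil)) .nil)) .nil)) .nil)) .nil)) .nil)) .nil)) .nil)) .nil)) .nil)) (.cons 270 (.leaf 269 1962 (.cons 271 (.leaf 250 1969 (.cons 221 (.leaf 222 1771 (.cons 294 (.leaf 293 2154 (.cons 318 (.leaf 342 1973 (.cons 319 (.leaf 343 1972 (.cons 295 (.leaf 224 1789 (.cons 317 (.leaf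 341 1966 (.cons 316 (.leaf 315 2329 (.leaf 296 2337 .nil)) .nil)) .nil)) .nil)) .nil)) .nil)) .nil)) .nil)) .nil)) (.cons 270 (.leaf 269 1962 (.cons 222 (.leaf 221 1771 (.cons 223 (.cons 294 (.leaf 318 1781 (.leaf 199 1589 .nil)) (.cons 294 (.leaf 318 1781 (.cons 293 (.leaf 271 2154 (.leaf 317 1774 .nil)) .nil)) (.cons 199 (.leaf 175 1404 (.cons 296 (.leaf 224 1599 (.leaf 271 1596 .nil)) .nil)) .nil))) .nil)) .nil)) .nil))))
noncomputable def t32 : T := .leaf 274 1979 (.cons 246 (.leaf 245 1960 (.cons 249 (.cons 270 (.leaf 269 1962 (.cons 250 (.leaf 271 1969 (.cons 251 (.leaf 252 1986 (.cons 224 (.leaf 223 1787 (.cons 200 (.leaf 176 1412 (.cons 175 (.leaf 199 1407 (.cons 201 (.leaf 177 1413 (.cons 296 (.leaf 225 1605 (.cons 227 (.leaf 226 1785 (.leaf 228 1793 .nil)) .nil)) .nil)) .nil)) .nil)) .nil)) .nil)) .nil)) .nil)) (.cons 225 (.leaf 226 1777 (.cons 201 (.leaf 177 1414 (.leaf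 296 1606 .nil)) .nil)) (.cons 270 (.leaf 269 1962 (.cons 250 (.leaf 271 1969 (.cons 227 (.leaf 226 1785 (.cons 251 (.leaf 252 1986 (.leaf 228 1793 .nil)) .nil)) .nil)) .nil)) (.cons 270 (.leaf 269 1962 (.cons 250 (.leaf 271 1969 (.cons 251 (.leaf 252 1986 (.cons 224 (.leaf 223 1787 (.cons 200 (.leaf 176 1412 (.cons 175 (.leaf 199 1407 (.cons 201 (.leaf 177 1413 (.cons 296 (.leaf 225 1605 (.cons 227 (.leaf 228 1793 (.cons 319 (.leaf 295 1790 (.cons 320 (.leaf 343 1982 (.leaf 344 1989 .nil)) .nil)) .nil)) .nil)) .nil)) .nil)) .nil)) .nil)) .nil)) .nil)) .nil)) .nil)))) .nil)) .nil)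
noncomputable def t33 : T := .cons 270 (.leaf 269 1962 (.cons 250 (.leaf 271 1969 (.cons 222 (.leaf 221 1771 (.leaf 223 1779 .nil)) .nil)) .nil)) (.cons 222 (.leaf 221 1771 (.cons 250 (.leaf 223 1779 (.cons 251 (.leaf 271 1978 (.leaf 252 1986 .nil)) .nil)) .nil)) (.cons 270 (.leaf 269 1962 (.cons 250 (.leaf 271 1969 (.cons 226 (.leaf 225 1777 (.leaf 227 1785 .nil)) .nil)) .nil)) (.cons 270 (.leaf 269 1962 (.cons 222 (.leaf 221 1771 (.cons 225 (.leaf 226 1777 (.cons 201 (.leaf 177 1414 (.cons 271 (.cons 198 (.leaf 174 1396 (.leaf 295 1588 .nil)) (.cons 174 (.leaf 198 1396 (.cons 176 (.leaf 200 1415 (.cons 294 (.leaf 293 2154 (.cons 223 (.leaf 199 1589 (.leaf 318 1781 .nil)) .nil)) .nil)) .nil)) (.cons 176 (.leaf 200 1415 (.cons 294 (.leaf 293 2154 (.cons 223 (.leaf 199 1589 (.leaf 318 1781 .nil)) .nil)) .nil)) .nil))) .nil)) .nil)) .nil)) .nil)) (.cons 225 (.leaf 226 1777 (.cons 177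 (.leaf 201 1414 (.cons 222 (.leaf 221 1771 (.cons 223 (.leaf 250 1779 (.cons 270 (.leaf 269 1962 (.cons 199 (.leaf 175 1404 (.leaf 294 1589 .nil)) .nil)) .nil)) .nil)) .nil)) .nil)) .nil))))
noncomputable def t34 : T := .cons 199 (.leaf 223 1599 (.cons 200 (.leaf 175 1407 (.cons 176 (.leaf 271 1406 (.cons 152 (.leaf 225 1220 (.cons 153 (.leaf 177 1221 (.leaf 129 1029 .nil)) .nil)) .nil)) .nil)) .nil)) (.cons 225 (.leaf 201 1605 (.cons 226 (.leaf 227 1786 (.cons 295 (.leaf 319 1790 (.cons 200 (.leaf 271 1598 (.cons 175 (.leaf 199 1407 (.cons 176 (.leaf 151 1215 (.leaf 152 1220 .nil)) .nil)) .nil)) .nil)) .nil)) .nil)) (.cons 295 (.leaf 319 1790 (.cons 200 (.leaf 271 1598 (.cons 201 (.leaf 177 1413 (.leaf 225 1605 .nil)) .nil)) .nil)) (.cons 223 (.leaf 199 1599 (.cons 221 (.leaf 222 1768 (.cons 295 (.leaf 319 1790 (.cons 200 (.leaf 271 1597 (.cons 176 (.leaf 152 1214 (.cons 177 (.leaf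 201 1413 (.leaf 153 1221 .nil)) .nil)) .nil)) .nil)) .nil)) .nil)) (.cons 199 (.leaf 223 1599 (.cons 200 (.leaf 175 1407 (.cons 201 (.leaf 177 1413 (.leaf 225 1605 .nil)) .nil)) .nil)) (.cons 223 (.leaf 199 1599 (.cons 201 (.leaf 225 1605 (.cons 222 (.leaf 221 1768 (.cons 295 (.leaf 319 1790 (.cons 271 (.leaf 198 1591 (.cons 269 (.leaf 270 1961 (.cons 294 (.leaf 318 1782 (.cons 293 (.leaf 292 2145 (.leaf 268 2147 .nil)) .nil)) .nil)) .nil)) .nil)) .nil)) .nil)) .nil)) .nil)))))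
noncomputable def t35 : T := .cons 199 (.leaf 175 1404 (.cons 296 (.leaf 224 1599 (.leaf 271 1596 .nil)) .nil)) (.cons 296 (.leaf 320 1791 (.cons 224 (.cons 225 (.leaf 201 1605 (.leaf 226 1778 .nil)) (.cons 295 (.leaf 319 1790 (.cons 294 (.leaf 293 2153 (.cons 271 (.leaf 200 1597 (.leaf 318 1782 .nil)) .nil)) .nil)) .nil)) .nil)) (.cons 199 (.leaf 175 1404 (.cons 271 (.cons 294 (.leaf 270 1590 (.cons 174 (.leaf 198 1399 (.cons 295 (.leaf 318 1782 (.cons 319 (.leaf 343 1981 (.leaf 224 1789 .nil)) .nil)) .nil)) .nil)) (.cons 200 (.leaf 176 1405 (.cons 198 (.leaf 174 1399 (.cons 222 (.leaf 295 1591 (.cons 221 (.leaf 220 1760 (.leaf 201 1578 .nil)) .nil)) .nil)) .nil)) (.cons 270 (.leaf 294 1590 (.cons 198 (.leaf 174 1399 (.cons 269 (.leaf 268 1953 (.cons 293 (.leaf 292 2146 (.leaf 222 1582 .nil)) .nil)) .nil)) .nil)) (.cons 270 (.leaf 294 1590 (.cons 200 (.leaf 176 1405 (.cons 295 (.leaf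 224 1597 (.cons 319 (.leaf 343 1981 (.leaf 222 1783 .nil)) .nil)) .nil)) .nil)) .nil)))) .nil)) (.cons 199 (.leaf 175 1404 (.cons 296 (.leaf 224 1599 (.leaf 320 1791 .nil)) .nil)) (.cons 199 (.leaf 175 1404 (.cons 296 (.leaf 271 1596 (.leaf 320 1791 .nil)) .nil)) .nil))))
noncomputable def t36 : T := .cons 199 (.leaf 175 1404 (.cons 296 (.leaf 224 1599 (.leaf 271 1596 .nil)) .nil)) (.cons 296 (.leaf 320 1791 (.cons 224 (.cons 295 (.leaf 319 1790 (.cons 200 (.leaf 271 1597 (.cons 176 (.leaf 152 1214 (.cons 177 (.leaf 201 1413 (.leaf 153 1221 .nil)) .nil)) .nil)) .nil)) (.cons 225 (.leaf 201 1605 (.cons 246 (.leaf 245 1769 (.leaf 226 1778 .nil)) .nil)) (.cons 295 (.leaf 319 1790 (.cons 200 (.leaf 271 1597 (.cons 176 (.leaf 152 1214 (.cons 151 (.leaf 175 1215 (.cons 249 (.leaf 273 1412 (.cons 222 (.leaf 221 1768 (.leaf 250 1779 .nil)) .nil)) .nil)) .nil)) .nil)) .nil)) .nil))) .nil))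 (.cons 199 (.leaf 175 1404 (.cons 271 (.cons 270 (.leaf 294 1590 (.cons 269 (.leaf 249 1961 (.leaf 268 1953 .nil)) .nil)) (.cons 198 (.leaf 174 1399 (.cons 222 (.leaf 295 1591 (.cons 221 (.leaf 220 1760 (.cons 249 (.leaf 224 1768 (.leaf 246 1771 .nil)) .nil)) .nil)) .nil)) (.cons 198 (.leaf 174 1399 (.cons 222 (.leaf 295 1591 (.cons 220 (.leaf 221 1760 (.cons 270 (.leaf 294 1590 (.cons 269 (.leaf 268 1953 (.cons 293 (.leaf 292 2146 (.leaf 246 1582 .nil)) .nil)) .nil)) .nil)) .nil)) .nil)) .nil))) .nil)) (.cons 199 (.leaf 175 1404 (.cons 296 (.leaf 224 1599 (.leaf 320 1791 .nil)) .nil)) (.cons 296 (.leaf 320 1791 (.cons 199 (.leaf 224 1599 (.leaf 271 1596 .nil)) .nil)) (.cons 199 (.leaf 175 1404 (.cons 296 (.leaf 271 1596 (.leaf 320 1791 .nil)) .nil)) .nil)))))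
noncomputable def t37 : T := .cons 199 (.leaf 175 1404 (.cons 296 (.leaf 224 1599 (.leaf 271 1596 .nil)) .nil)) (.cons 296 (.leaf 320 1791 (.cons 224 (.cons 225 (.leaf 201 1605 (.cons 246 (.leaf 245 1769 (.leaf 226 1778 .nil)) .nil)) (.cons 295 (.leaf 319 1790 (.cons 271 (.leaf 200 1597 (.cons 198 (.leaf 222 1591 (.cons 294 (.leaf 318 1782 (.cons 293 (.leaf 292 2145 (.cons 269 (.leaf 268 2147 (.cons 249 (.leaf 270 1961 (.cons 250 (.leaf 274 1976 (.leaf 251 1978 .nil)) .nil)) .nil)) .nil)) .nil)) .nil)) .nil)) .nil)) .nil)) .nil)) (.cons 199 (.leaf 175 1404 (.cons 271 (.cons 270 (.leaf 294 1590 (.cons 269 (.leaf 249 1961 (.leaf 268 1953 .nil)) .nil)) (.cons 198 (.leaf 174 1399 (.cons 222 (.leaf 295 1591 (.cons 221 (.leaf 220 1760 (.cons 249 (.leaf 224 1768 (.leaf 246 1771 .nil)) .nil)) .nil)) .nil)) (.cons 198 (.leaf 174 1399 (.cons 222 (.leaf 295 1591 (.cons 220 (.leaf 221 1760 (.cons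 270 (.leaf 294 1590 (.cons 269 (.leaf 268 1953 (.cons 293 (.leaf 292 2146 (.leaf 246 1582 .nil)) .nil)) .nil)) .nil)) .nil)) .nil)) .nil))) .nil)) (.cons 199 (.leaf 175 1404 (.cons 296 (.leaf 224 1599 (.leaf 320 1791 .nil)) .nil)) (.cons 199 (.leaf 175 1404 (.cons 296 (.leaf 271 1596 (.leaf 320 1791 .nil)) .nil)) .nil))))
noncomputable def t38 : T := .cons 273 (.leaf 274 1979 (.cons 246 (.leaf 245 1960 (.cons 249 (.cons 225 (.leaf 226 1777 (.cons 201 (.leaf 177 1414 (.leaf 296 1606 .nil)) .nil)) (.cons 222 (.leaf 221 1771 (.cons 223 (.leaf 250 1779 (.cons 199 (.leaf 175 1404 (.cons 270 (.leaf 269 1962 (.leaf 294 1589 .nil)) .nil)) .nil)) .nil)) .nil)) .nil)) .nil)) (.cons 223 t37 (.cons 223 t36 (.cons 273 (.leaf 274 1979 (.cons 246 (.leaf 245 1960 (.cons 223 t35 .nil)) .nil)) (.cons 273 (.leaf 274 1979 (.cons 246 (.leaf 245 1960 (.cons 249 (.cons 225 (.leaf 226 1777 (.cons 201 (.leaf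 177 1414 (.leaf 296 1606 .nil)) .nil)) (.cons 221 (.leaf 222 1771 (.cons 270 (.leaf 269 1962 (.cons 271 (.leaf 250 1969 (.cons 294 (.leaf 293 2154 (.cons 318 (.leaf 342 1973 (.cons 319 (.leaf 343 1972 (.cons 295 (.leaf 224 1789 (.cons 317 (.leaf 341 1966 (.cons 316 (.leaf 315 2329 (.leaf 296 2337 .nil)) .nil)) .nil)) .nil)) .nil)) .nil)) .nil)) .nil)) .nil)) (.cons 270 (.leaf 269 1962 (.cons 250 (.leaf 271 1969 (.cons 226 (.leaf 225 1777 (.leaf 227 1785 .nil)) .nil)) .nil)) .nil))) .nil)) .nil)) (.cons 274 (.leaf 273 1979 (.cons 249 (.leaf 250 1976 (.cons 296 (.cons 320 (.leaf 223 1791 (.leaf 225 1797 .nil)) (.cons 224 t34 (.cons 320 (.leaf 225 1797 (.cons 271 (.leaf 344 1983 (.cons 269 (.leaf 270 1961 (.cons 319 (.leaf 343 1982 (.cons 295 (.leaf 224 1789 (.cons 321 (.leaf 345 1988 (.cons 294 (.leaf 293 2344 (.leaf 322 2355 .nil)) .nil)) .nil)) .nil)) .nil)) .nil)) .nil)) (.cons 223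 (.leaf 320 1791 (.cons 199 (.leaf 175 1404 (.leaf 224 1599 .nil)) .nil)) .nil)))) .nil)) .nil)) (.cons 273 (.leaf 274 1979 (.cons 246 (.leaf 245 1960 (.cons 249 t33 .nil)) .nil)) (.cons 273 (.leaf 274 1979 (.cons 246 (.leaf 245 1960 (.cons 249 (.cons 270 (.leaf 269 1962 (.cons 250 (.leaf 271 1969 (.cons 222 (.leaf 221 1771 (.leaf 223 1779 .nil)) .nil)) .nil)) (.cons 222 (.leaf 221 1771 (.cons 250 (.leaf 223 1779 (.cons 251 (.leaf 271 1978 (.leaf 252 1986 .nil)) .nil)) .nil)) (.cons 222 (.leaf 221 1771 (.cons 223 (.leaf 250 1779 (.cons 199 (.leaf 175 1404 (.cons 270 (.leaf 269 1962 (.leaf 294 1589 .nil)) .nil)) .nil)) .nil)) (.cons 270 (.leaf 269 1962 (.cons 250 (.leaf 271 1969 (.cons 227 (.leaf 226 1785 (.cons 251 (.leaf 252 1986 (.leaf 228 1793 .nil)) .nil)) .nil)) .nil)) (.cons 270 (.leaf 269 1962 (.cons 222 (.leaf 221 1771 (.cons 223 (.cons 294 (.leaf 318 1781 (.leaf 199 1589 .nil))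 (.cons 294 (.leaf 318 1781 (.cons 293 (.leaf 271 2154 (.leaf 317 1774 .nil)) .nil)) (.cons 199 (.leaf 175 1404 (.cons 296 (.leaf 224 1599 (.leaf 271 1596 .nil)) .nil)) .nil))) .nil)) .nil)) .nil))))) .nil)) .nil)) (.cons 273 (.leaf 274 1979 (.cons 246 (.leaf 245 1960 (.cons 249 (.cons 222 (.leaf 221 1771 (.cons 250 (.leaf 223 1779 (.cons 251 (.leaf 271 1978 (.leaf 252 1986 .nil)) .nil)) .nil)) (.cons 225 (.leaf 226 1777 (.cons 201 (.leaf 177 1414 (.leaf 296 1606 .nil)) .nil)) .nil)) .nil)) .nil)) (.cons 273 t32 (.cons 273 (.leaf 274 1979 (.cons 246 (.leaf 245 1960 (.cons 249 t31 .nil)) .nil)) .nil))))))))))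
noncomputable def t39 : T := .leaf 274 1979 (.cons 246 (.leaf 245 1960 (.cons 249 (.cons 270 (.leaf 269 1962 (.cons 271 (.leaf 250 1969 (.cons 294 (.leaf 293 2154 (.cons 223 (.leaf 199 1590 (.leaf 318 1781 .nil)) .nil)) .nil)) .nil)) (.cons 222 (.leaf 221 1771 (.cons 250 (.leaf 223 1779 (.cons 251 (.leaf 271 1978 (.leaf 252 1986 .nil)) .nil)) .nil)) (.cons 222 (.leaf 221 1771 (.cons 223 (.leaf 250 1779 (.cons 199 (.leaf 175 1404 (.cons 270 (.leaf 269 1962 (.leaf 294 1589 .nil)) .nil)) .nil)) .nil)) (.cons 270 (.leaf 269 1962 (.cons 222 (.leaf 221 1771 (.cons 223 (.cons 294 (.leaf 318 1781 (.leaf 199 1589 .nil)) (.cons 294 (.leaf 318 1781 (.cons 293 (.leaf 271 2154 (.leaf 317 1774 .nil)) .nil)) (.cons 199 (.leaf 175 1404 (.cons 296 (.leaf 224 1599 (.leaf 271 1596 .nil)) .nil)) .nil))) .nil)) .nil)) (.cons 270 (.leaf 269 1962 (.cons 271 (.leaf 250 1969 (.cons 221 (.leaf 222 1771 (.cons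 293 (.leaf 294 2154 (.cons 297 (.leaf 298 2160 (.cons 321 (.leaf 345 1991 (.leaf 224 1799 .nil)) .nil)) .nil)) .nil)) .nil)) .nil)) .nil))))) .nil)) .nil)
noncomputable def t40 : T := .cons 199 (.leaf 175 1404 (.cons 271 (.leaf 296 1596 (.cons 198 (.leaf 174 1399 (.cons 295 (.leaf 222 1591 (.cons 294 (.leaf 270 1590 (.leaf 318 1782 .nil)) .nil)) .nil)) .nil)) .nil)) (.cons 199 (.leaf 175 1404 (.cons 271 (.cons 198 (.leaf 174 1399 (.cons 295 (.leaf 222 1591 (.cons 294 (.leaf 270 1590 (.leaf 318 1782 .nil)) .nil)) .nil)) (.cons 294 (.leaf 270 1590 (.cons 295 (.leaf 318 1782 (.cons 319 (.leaf 343 1981 (.leaf 224 1789 .nil)) .nil)) .nil)) (.cons 198 (.leaf 174 1399 (.cons 295 (.leaf 222 1591 (.cons 319 (.leaf 343 1981 (.leaf 224 1789 .nil)) .nil)) .nil)) (.cons 270 (.leaf 294 1590 (.cons 198 (.leaf 174 1399 (.cons 269 (.leaf 268 1953 (.cons 245 (.leaf 244 1955 (.cons 293 (.leaf 292 2146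 (.cons 221 (.leaf 222 1581 (.cons 196 (.leaf 220 1575 (.cons 197 (.leaf 224 1568 (.leaf 172 1383 .nil)) .nil)) .nil)) .nil)) .nil)) .nil)) .nil)) .nil)) .nil)))) .nil)) (.cons 296 (.leaf 320 1791 (.cons 224 (.cons 225 (.leaf 201 1605 (.cons 226 (.leaf 227 1786 (.leaf 251 1784 .nil)) .nil)) (.cons 295 (.leaf 319 1790 (.cons 297 (.leaf 298 2169 (.leaf 321 1796 .nil)) .nil)) .nil)) .nil)) (.cons 199 (.leaf 175 1404 (.cons 296 (.leaf 224 1599 (.leaf 271 1596 .nil)) .nil)) .nil)))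
noncomputable def t41 : T := .cons 199 (.leaf 175 1404 (.cons 296 (.leaf 224 1599 (.leaf 271 1596 .nil)) .nil)) (.cons 296 (.leaf 320 1791 (.cons 294 (.cons 318 (.leaf 270 1781 (.cons 295 (.leaf 293 2153 (.leaf 271 1782 .nil)) .nil)) (.cons 270 (.leaf 318 1781 (.cons 271 (.leaf 293 2154 (.cons 297 (.leaf 269 2152 (.leaf 298 2160 .nil)) .nil)) .nil)) (.cons 295 (.leaf 293 2153 (.cons 271 (.leaf 318 1782 (.cons 222 (.leaf 198 1591 (.leaf 319 1783 .nil)) .nil)) .nil)) (.cons 318 (.leaf 270 1781 (.cons 295 (.leaf 271 1782 (.cons 224 (.leaf 319 1790 (.cons 297 (.leaf 321 1796 (.leaf 317 2346 .nil)) .nil)) .nil)) .nil)) (.cons 295 (.leaf 293 2153 (.cons 224 (.leaf 319 1790 (.cons 225 (.leaf 201 1605 (.leaf 226 1778 .nil)) .nil)) .nil)) .nil))))) .nil)) (.cons 199 (.leaf 175 1404 (.cons 271 (.cons 294 (.leaf 270 1590 (.cons 295 (.leaf 318 1782 (.cons 319 (.leaf 343 1981 (.leaf 224 1789 .nil))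 .nil)) .nil)) (.cons 198 (.leaf 174 1399 (.cons 295 (.leaf 222 1591 (.cons 319 (.leaf 343 1981 (.leaf 224 1789 .nil)) .nil)) .nil)) (.cons 270 (.leaf 294 1590 (.cons 198 (.leaf 174 1399 (.cons 269 (.leaf 268 1953 (.cons 293 (.leaf 292 2146 (.leaf 222 1582 .nil)) .nil)) .nil)) .nil)) .nil))) .nil)) (.cons 199 (.leaf 175 1404 (.cons 296 (.leaf 224 1599 (.leaf 320 1791 .nil)) .nil)) (.cons 296 (.leaf 320 1791 (.cons 294 (.cons 295 (.leaf 293 2153 (.cons 271 (.leaf 199 1596 (.leaf 318 1782 .nil)) .nil)) (.cons 295 (.leaf 293 2153 (.cons 271 (.leaf 318 1782 (.cons 222 (.leaf 198 1591 (.leaf 319 1783 .nil)) .nil)) .nil)) (.cons 270 (.leaf 318 1781 (.cons 293 (.leaf 295 2153 (.cons 222 (.leaf 199 1589 (.leaf 317 1774 .nil)) .nil)) .nil)) (.cons 199 (.leaf 175 1404 (.leaf 271 1596 .nil)) .nil)))) .nil)) .nil))))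
noncomputable def t42 : T := .cons 222 (.leaf 221 1771 (.cons 223 (.leaf 250 1779 (.cons 199 (.leaf 175 1404 (.cons 270 (.leaf 269 1962 (.leaf 294 1589 .nil)) .nil)) .nil)) .nil)) (.cons 222 (.leaf 221 1771 (.cons 250 (.leaf 223 1779 (.cons 251 (.leaf 271 1978 (.leaf 252 1986 .nil)) .nil)) .nil)) (.cons 270 (.leaf 269 1962 (.cons 271 (.leaf 250 1969 (.cons 294 (.leaf 293 2154 (.cons 223 (.leaf 199 1590 (.leaf 318 1781 .nil)) .nil)) .nil)) .nil)) (.cons 270 (.leaf 269 1962 (.cons 222 (.leaf 221 1771 (.cons 225 (.leaf 226 1777 (.cons 271 (.cons 198 (.leaf 174 1396 (.leaf 295 1588 .nil)) (.cons 174 (.leaf 198 1396 (.cons 177 (.leaf 201 1414 (.cons 294 (.leaf 293 2154 (.cons 223 (.leaf 199 1589 (.leaf 318 1781 .nil)) .nil)) .nil)) .nil)) (.cons 177 (.leaf 201 1414 (.cons 293 (.leaf 294 2154 (.cons 297 (.leaf 298 2160 (.cons 321 (.leaf 345 1991 (.leaf 224 1799 .nil)) .nil)) .nil)) .nil))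 .nil))) .nil)) .nil)) .nil)) (.cons 270 (.leaf 269 1962 (.cons 250 (.leaf 271 1969 (.cons 227 (.leaf 226 1785 (.cons 251 (.leaf 252 1986 (.leaf 228 1793 .nil)) .nil)) .nil)) .nil)) .nil))))
noncomputable def t43 : T := .cons 245 (.leaf 273 1960 (.cons 220 (.leaf 221 1763 (.cons 244 (.leaf 271 1952 (.leaf 219 1755 .nil)) .nil)) .nil)) (.cons 249 (.cons 225 (.leaf 226 1777 (.cons 177 (.leaf 201 1414 (.cons 222 (.leaf 221 1771 (.cons 250 (.leaf 223 1779 (.cons 251 (.leaf 271 1978 (.cons 252 (.leaf 273 1986 (.leaf 224 1795 .nil)) .nil)) .nil)) .nil)) .nil)) .nil)) (.cons 270 (.leaf 269 1962 (.cons 222 (.leaf 221 1771 (.cons 250 (.leaf 223 1779 (.leaf 271 1970 .nil)) .nil)) .nil)) (.cons 225 (.leaf 226 1777 (.cons 201 (.leaf 177 1414 (.cons 296 (.leaf 224 1605 (.leaf 273 1606 .nil)) .nil)) .nil)) .nil))) (.cons 245 (.cons 220 (.leaf 221 1763 (.cons 244 (.leaf 271 1952 (.leaf 219 1755 .nil))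 .nil)) (.cons 221 (.leaf 220 1763 (.cons 269 (.leaf 268 1954 (.cons 197 (.cons 270 (.leaf 249 1962 (.leaf 173 1388 .nil)) (.cons 222 (.leaf 249 1771 (.cons 198 (.leaf 174 1389 (.leaf 293 1581 .nil)) .nil)) (.cons 270 (.leaf 173 1388 (.leaf 294 1580 .nil)) .nil))) .nil)) .nil)) (.cons 244 (.leaf 271 1952 (.cons 268 (.leaf 269 1954 (.leaf 267 1946 .nil)) .nil)) .nil))) (.cons 245 (.leaf 273 1960 (.cons 221 (.leaf 220 1763 (.cons 269 (.leaf 268 1954 (.cons 197 (.cons 270 (.leaf 249 1962 (.leaf 173 1388 .nil)) (.cons 222 (.leaf 249 1771 (.cons 198 (.leaf 174 1389 (.leaf 293 1581 .nil)) .nil)) (.cons 270 (.leaf 173 1388 (.leaf 294 1580 .nil)) .nil))) .nil)) .nil)) .nil)) (.cons 245 (.leaf 273 1960 (.cons 244 (.leaf 271 1952 (.cons 268 (.leaf 269 1954 (.leaf 267 1946 .nil)) .nil)) .nil)) .nil))))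
noncomputable def t44 : T := .cons 296 (.leaf 320 1791 (.cons 199 (.leaf 175 1404 (.leaf 224 1599 .nil)) .nil)) (.cons 199 (.leaf 175 1404 (.cons 271 (.cons 270 (.leaf 294 1590 (.cons 269 (.leaf 249 1961 (.leaf 268 1953 .nil)) .nil)) (.cons 198 (.leaf 174 1399 (.cons 222 (.leaf 295 1591 (.cons 221 (.leaf 220 1760 (.cons 249 (.leaf 224 1768 (.leaf 246 1771 .nil)) .nil)) .nil)) .nil)) (.cons 198 (.leaf 174 1399 (.cons 222 (.leaf 295 1591 (.cons 220 (.leaf 221 1760 (.cons 270 (.leaf 294 1590 (.cons 269 (.leaf 268 1953 (.cons 293 (.leaf 292 2146 (.leaf 246 1582 .nil)) .nil)) .nil)) .nil)) .nil)) .nil)) .nil))) .nil)) (.cons 296 (.leaf 320 1791 (.cons 224 (.cons 295 (.leaf 319 1790 (.cons 297 (.leaf 321 1796 (.cons 225 (.leaf 201 1605 (.cons 226 (.leaf 227 1786 (.leaf 246 1778 .nil)) .nil)) .nil)) .nil)) (.cons 295 (.leaf 319 1790 (.cons 297 (.leaf 321 1796 (.cons 298 (.leaf 274 2169 (.cons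 271 (.leaf 299 2171 (.leaf 270 2163 .nil)) .nil)) .nil)) .nil)) (.cons 225 (.leaf 201 1605 (.cons 246 (.leaf 245 1769 (.leaf 226 1778 .nil)) .nil)) .nil))) .nil)) (.cons 296 (.leaf 320 1791 (.cons 199 (.leaf 175 1404 (.leaf 271 1596 .nil)) .nil)) .nil)))
noncomputable def t45 : T := .cons 273 (.leaf 274 1979 (.cons 246 (.leaf 245 1960 (.cons 249 (.cons 270 (.leaf 269 1962 (.cons 271 (.leaf 250 1969 (.cons 294 (.leaf 293 2154 (.cons 223 (.leaf 199 1590 (.leaf 318 1781 .nil)) .nil)) .nil)) .nil)) (.cons 222 (.leaf 221 1771 (.cons 250 (.leaf 223 1779 (.cons 251 (.leaf 271 1978 (.leaf 252 1986 .nil)) .nil)) .nil)) (.cons 225 (.leaf 226 1777 (.cons 201 (.leaf 177 1414 (.leaf 296 1606 .nil)) .nil)) .nil))) .nil)) .nil)) (.cons 223 t44 (.cons 246 t43 (.cons 273 (.leaf 274 1979 (.cons 246 (.leaf 245 1960 (.cons 249 t42 .nil)) .nil)) (.cons 273 (.leaf 274 1979 (.cons 246 (.leaf 245 1960 (.cons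 223 t41 .nil)) .nil)) (.cons 274 (.leaf 273 1979 (.cons 250 (.leaf 249 1976 (.cons 223 t40 .nil)) .nil)) (.cons 273 (.leaf 274 1979 (.cons 246 (.leaf 245 1960 (.cons 249 (.cons 221 (.leaf 222 1771 (.cons 270 (.leaf 269 1962 (.cons 250 (.leaf 271 1969 (.cons 227 (.leaf 226 1785 (.cons 251 (.leaf 252 1986 (.leaf 228 1793 .nil)) .nil)) .nil)) .nil)) .nil)) (.cons 221 (.leaf 222 1771 (.cons 225 (.leaf 226 1777 (.cons 201 (.leaf 177 1414 (.leaf 296 1606 .nil)) .nil)) .nil)) (.cons 221 (.leaf 222 1771 (.cons 270 (.leaf 269 1962 (.cons 271 (.leaf 250 1969 (.cons 293 (.leaf 294 2154 (.cons 297 (.leaf 298 2160 (.cons 321 (.leaf 345 1991 (.leaf 224 1799 .nil)) .nil)) .nil)) .nil)) .nil)) .nil)) (.cons 225 (.leaf 226 1777 (.cons 201 (.leaf 177 1414 (.leaf 296 1606 .nil)) .nil)) .nil)))) .nil)) .nil)) (.cons 273 (.leaf 274 1979 (.cons 246 (.leaf 245 1960 (.cons 249 (.cons 225 (.leaf 226 1777 (.cons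 201 (.leaf 177 1414 (.leaf 296 1606 .nil)) .nil)) (.cons 222 (.leaf 221 1771 (.cons 223 (.leaf 250 1779 (.cons 199 (.leaf 175 1404 (.cons 270 (.leaf 269 1962 (.leaf 294 1589 .nil)) .nil)) .nil)) .nil)) .nil)) .nil)) .nil)) (.cons 274 (.leaf 273 1979 (.cons 249 (.leaf 250 1976 (.cons 225 (.cons 296 (.leaf 320 1797 (.cons 201 (.leaf 177 1414 (.leaf 224 1605 .nil)) .nil)) (.cons 226 (.leaf 246 1777 (.cons 227 (.leaf 224 1786 (.leaf 228 1794 .nil)) .nil)) (.cons 246 (.leaf 226 1777 (.cons 270 (.leaf 269 1962 (.cons 296 (.leaf 320 1797 (.cons 222 (.leaf 221 1771 (.cons 223 (.cons 199 (.leaf 175 1404 (.leaf 271 1596 .nil)) (.cons 177 (.leaf 201 1414 (.cons 294 (.leaf 318 1781 (.cons 295 (.leaf 319 1780 (.cons 198 (.leaf 271 1588 (.cons 173 (.leaf 197 1391 (.cons 174 (.leaf 150 1204 (.leaf 149 1199 .nil)) .nil)) .nil)) .nil)) .nil)) .nil)) (.cons 199 (.leaf 175 1404 (.leaf 294 1589 .nil))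 .nil))) .nil)) .nil)) .nil)) .nil)) .nil))) .nil)) .nil)) (.cons 273 (.leaf 274 1979 (.cons 246 (.leaf 245 1960 (.cons 249 (.cons 225 (.leaf 226 1777 (.cons 201 (.leaf 177 1414 (.leaf 296 1606 .nil)) .nil)) (.cons 222 (.leaf 221 1771 (.cons 250 (.leaf 223 1779 (.cons 251 (.leaf 271 1978 (.leaf 252 1986 .nil)) .nil)) .nil)) .nil)) .nil)) .nil)) (.cons 273 (.leaf 274 1979 (.cons 246 (.leaf 245 1960 (.cons 249 (.cons 270 (.leaf 269 1962 (.cons 271 (.leaf 250 1969 (.cons 294 (.leaf 293 2154 (.cons 223 (.leaf 199 1590 (.leaf 318 1781 .nil)) .nil)) .nil)) .nil)) (.cons 222 (.leaf 221 1771 (.cons 250 (.leaf 223 1779 (.cons 251 (.leaf 271 1978 (.leaf 252 1986 .nil)) .nil)) .nil)) (.cons 222 (.leaf 221 1771 (.cons 223 (.leaf 250 1779 (.cons 199 (.leaf 175 1404 (.cons 270 (.leaf 269 1962 (.leaf 294 1589 .nil)) .nil)) .nil)) .nil)) (.cons 270 (.leaf 269 1962 (.cons 222 (.leaf 221 1771 (.cons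 223 (.cons 294 (.leaf 318 1781 (.leaf 199 1589 .nil)) (.cons 294 (.leaf 318 1781 (.cons 293 (.leaf 271 2154 (.leaf 317 1774 .nil)) .nil)) (.cons 199 (.leaf 175 1404 (.cons 296 (.leaf 224 1599 (.leaf 271 1596 .nil)) .nil)) .nil))) .nil)) .nil)) (.cons 270 (.leaf 269 1962 (.cons 250 (.leaf 271 1969 (.cons 227 (.leaf 226 1785 (.cons 251 (.leaf 252 1986 (.leaf 228 1793 .nil)) .nil)) .nil)) .nil)) .nil))))) .nil)) .nil)) (.cons 273 (.leaf 274 1979 (.cons 246 (.leaf 245 1960 (.cons 249 (.cons 225 (.leaf 226 1777 (.cons 201 (.leaf 177 1414 (.leaf 296 1606 .nil)) .nil)) (.cons 270 (.leaf 269 1962 (.cons 271 (.leaf 250 1969 (.cons 294 (.leaf 293 2154 (.cons 223 (.leaf 199 1590 (.leaf 318 1781 .nil)) .nil)) .nil)) .nil)) .nil)) .nil)) .nil)) (.cons 273 t39 .nil))))))))))))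
noncomputable def t46 : T := .cons 295 (.leaf 274 2170 (.cons 294 (.leaf 293 2153 (.cons 297 (.cons 200 (.leaf 224 1604 (.cons 270 (.leaf 269 2155 (.cons 271 (.leaf 298 2160 (.cons 245 (.leaf 246 1963 (.cons 249 (.leaf 250 1969 (.cons 320 (.leaf 225 1797 (.leaf 344 1989 .nil)) .nil)) .nil)) .nil)) .nil)) .nil)) (.cons 321 (.leaf 345 1991 (.leaf 322 2352 .nil)) .nil)) .nil)) .nil)) (.cons 320 (.cons 249 (.leaf 225 1797 (.leaf 344 1989 .nil)) (.cons 319 (.leaf 343 1982 (.cons 321 (.leaf 345 1988 (.cons 224 (.leaf 297 1796 (.cons 199 (.leaf 223 1599 (.cons 200 (.leaf 175 1407 (.cons 201 (.leaf 177 1413 (.leaf 225 1605 .nil)) .nil)) .nil)) .nil)) .nil)) .nil)) (.cons 249 (.leaf 344 1989 (.cons 319 (.leaf 343 1982 (.cons 321 (.leaf 345 1988 (.cons 224 (.leaf 297 1796 (.cons 199 (.leaf 223 1599 (.cons 200 (.leaf 175 1407 (.leaf 176 1412 .nil)) .nil)) .nil)) .nil)) .nil)) .nil)) .nil))) (.cons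 295 (.leaf 274 2170 (.cons 294 (.leaf 293 2153 (.cons 297 (.cons 321 (.leaf 345 1991 (.leaf 322 2352 .nil)) (.cons 269 (.leaf 270 2155 (.cons 318 (.leaf 317 2346 (.cons 298 (.leaf 319 2354 (.cons 299 (.leaf 271 2171 (.leaf 300 2179 .nil)) .nil)) .nil)) .nil)) .nil)) .nil)) .nil)) (.cons 295 (.leaf 274 2170 (.cons 224 (.leaf 319 1790 (.cons 199 (.leaf 223 1599 (.cons 200 (.leaf 175 1407 (.leaf 271 1598 .nil)) .nil)) .nil)) .nil)) .nil)))
noncomputable def t47 : T := .cons 201 (.leaf 225 1605 (.cons 223 (.leaf 199 1599 (.cons 247 (.leaf 320 1791 (.cons 245 (.leaf 246 1960 (.cons 295 (.leaf 319 1790 (.cons 294 (.leaf 293 2153 (.cons 271 (.leaf 318 1782 (.cons 222 (.leaf 198 1591 (.cons 221 (.leaf 220 1760 (.leaf 249 1768 .nil)) .nil)) .nil)) .nil)) .nil)) .nil)) .nil)) .nil)) .nil)) (.cons 321 (.leaf 297 1796 (.cons 199 (.leaf 223 1599 (.cons 319 (.leaf 295 1790 (.cons 320 (.leaf 343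 1982 (.leaf 345 1988 .nil)) .nil)) .nil)) .nil)) (.cons 297 (.leaf 321 1796 (.cons 199 (.leaf 223 1599 (.cons 295 (.leaf 319 1790 (.cons 294 (.leaf 293 2153 (.cons 270 (.leaf 269 2155 (.cons 298 (.leaf 271 2160 (.cons 201 (.leaf 225 1605 (.cons 299 (.leaf 300 2179 (.cons 323 (.leaf 322 2360 (.leaf 324 2368 .nil)) .nil)) .nil)) .nil)) .nil)) .nil)) .nil)) .nil)) .nil)) (.cons 297 (.leaf 321 1796 (.cons 201 (.leaf 225 1605 (.cons 319 (.leaf 295 1790 (.cons 320 (.leaf 343 1982 (.cons 344 (.leaf 249 1989 (.leaf 368 2181 .nil)) .nil)) .nil)) .nil)) .nil)) (.cons 321 (.leaf 297 1796 (.cons 199 (.leaf 223 1599 (.cons 320 (.leaf 345 1988 (.cons 343 (.leaf 319 1982 (.cons 344 (.leaf 249 1989 (.leaf 367 2174 .nil)) .nil)) .nil)) .nil)) .nil)) (.cons 297 (.leaf 321 1796 (.cons 225 (.leaf 201 1605 (.cons 249 (.leaf 320 1797 (.cons 298 (.leaf 322 1804 (.cons 271 (.leaf 270 2160 (.leaf 299 2171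 .nil)) .nil)) .nil)) .nil)) .nil)) .nil)))))
noncomputable def t48 : T := .cons 296 (.cons 199 (.leaf 223 1599 (.cons 201 (.leaf 225 1605 (.cons 319 (.leaf 295 1790 (.cons 320 (.leaf 343 1982 (.cons 344 (.leaf 249 1989 (.cons 200 (.leaf 175 1407 (.leaf 177 1413 .nil)) .nil)) .nil)) .nil)) .nil)) .nil)) (.cons 199 (.leaf 223 1599 (.cons 201 (.leaf 225 1605 (.cons 319 (.leaf 295 1790 (.cons 320 (.leaf 343 1982 (.cons 344 (.leaf 249 1989 (.cons 345 (.leaf 321 1988 (.leaf 369 2180 .nil)) .nil)) .nil)) .nil)) .nil)) .nil)) (.cons 199 (.leaf 223 1599 (.cons 295 (.leaf 319 1790 (.cons 297 (.leaf 200 1604 (.leaf 321 1796 .nil)) .nil)) .nil)) (.cons 199 (.leaf 223 1599 (.cons 201 (.leaf 225 1605 (.cons 321 (.leaf 297 1796 (.cons 320 (.leaf 345 1988 (.cons 343 (.leaf 319 1982 (.cons 344 (.leaf 249 1989 (.leaf 367 2174 .nil)) .nil)) .nil)) .nil)) .nil)) .nil)) (.cons 201 (.leaf 225 1605 (.cons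 295 (.leaf 319 1790 (.cons 294 (.leaf 293 2153 (.cons 297 (.leaf 200 1604 (.leaf 321 1796 .nil)) .nil)) .nil)) .nil)) (.cons 297 (.leaf 200 1604 (.leaf 321 1796 .nil)) .nil)))))) (.cons 296 t47 (.cons 200 (.cons 175 (.leaf 199 1407 (.cons 176 (.leaf 151 1215 (.leaf 249 1412 .nil)) .nil)) (.cons 199 (.leaf 175 1407 (.cons 201 (.leaf 177 1413 (.cons 296 (.leaf 223 1599 (.leaf 225 1605 .nil)) .nil)) .nil)) (.cons 176 (.leaf 249 1412 (.cons 177 (.leaf 201 1413 (.leaf 153 1221 .nil)) .nil)) .nil))) (.cons 200 (.leaf 297 1604 (.cons 175 (.leaf 199 1407 (.cons 176 (.leaf 151 1215 (.leaf 249 1412 .nil)) .nil)) .nil)) (.cons 200 (.leaf 297 1604 (.cons 199 (.leaf 175 1407 (.cons 201 (.leaf 177 1413 (.cons 296 (.leaf 223 1599 (.leaf 225 1605 .nil)) .nil)) .nil)) .nil)) (.cons 200 (.leaf 297 1604 (.cons 176 (.leaf 249 1412 (.cons 177 (.leaf 201 1413 (.leaf 153 1221 .nil)) .nil)) .nil)) .nil)))))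
noncomputable def t49 : T := .cons 247 (.leaf 274 1979 (.cons 246 (.leaf 245 1960 (.cons 249 (.cons 270 (.leaf 269 1962 (.cons 271 (.leaf 250 1969 (.cons 297 (.leaf 298 2160 (.cons 224 (.leaf 200 1604 (.leaf 321 1799 .nil)) .nil)) .nil)) .nil)) (.cons 225 (.leaf 226 1777 (.cons 201 (.leaf 177 1414 (.leaf 296 1606 .nil)) .nil)) .nil)) .nil)) .nil)) (.cons 224 t48 (.cons 296 t46 (.cons 274 (.leaf 247 1979 (.cons 299 (.leaf 300 2176 (.cons 271 (.leaf 298 2168 (.cons 294 (.leaf 295 2162 (.cons 270 (.leaf 293 2154 (.cons 249 (.leaf 269 1961 (.leaf 250 1969 .nil)) .nil)) .nil)) .nil)) .nil)) .nil)) (.cons 274 (.leaf 247 1979 (.cons 295 (.leaf 296 2170 (.cons 271 (.leaf 294 2162 (.cons 299 (.leaf 300 2176 (.leaf 298 2168 .nil)) .nil)) .nil)) .nil)) (.cons 274 (.leaf 247 1979 (.cons 296 (.leaf 295 2170 (.cons 299 (.leaf 300 2176 (.cons 224 (.cons 199 (.leaf 223 1599 (.cons 225 (.leaf 201 1605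 (.cons 200 (.leaf 175 1407 (.leaf 297 1604 .nil)) .nil)) .nil)) (.cons 225 (.leaf 201 1605 (.cons 320 (.leaf 249 1797 (.cons 321 (.leaf 345 1988 (.cons 319 (.leaf 343 1982 (.cons 199 (.leaf 223 1599 (.cons 200 (.leaf 175 1407 (.cons 322 (.leaf 298 2361 (.cons 347 (.leaf 346 2552 (.cons 323 (.leaf 250 2007 (.leaf 348 2560 .nil)) .nil)) .nil)) .nil)) .nil)) .nil)) .nil)) .nil)) .nil)) (.cons 199 (.leaf 223 1599 (.cons 225 (.leaf 201 1605 (.cons 320 (.leaf 249 1797 (.cons 343 (.leaf 319 1982 (.cons 321 (.leaf 297 1796 (.leaf 345 1988 .nil)) .nil)) .nil)) .nil)) .nil)) (.cons 297 (.leaf 200 1604 (.leaf 321 1796 .nil)) .nil)))) .nil)) .nil)) .nil)) (.cons 274 (.leaf 247 1979 (.cons 296 (.leaf 295 2170 (.cons 299 (.leaf 300 2176 (.cons 224 (.cons 199 (.leaf 223 1599 (.cons 225 (.leaf 201 1605 (.cons 200 (.leaf 175 1407 (.leaf 297 1604 .nil)) .nil)) .nil)) (.cons 225 (.leaf 201 1605 (.cons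 320 (.leaf 249 1797 (.cons 321 (.leaf 345 1988 (.cons 343 (.leaf 319 1982 (.cons 344 (.leaf 367 2174 (.cons 323 (.leaf 322 2554 (.cons 347 (.leaf 250 2007 (.cons 370 (.leaf 346 2198 (.cons 371 (.leaf 394 2390 (.cons 372 (.leaf 348 2204 (.leaf 396 2396 .nil)) .nil)) .nil)) .nil)) .nil)) .nil)) .nil)) .nil)) .nil)) .nil)) (.cons 297 (.leaf 200 1604 (.leaf 321 1796 .nil)) .nil))) .nil)) .nil)) .nil)) .nil))))))
noncomputable def t50 : T := .cons 295 (.leaf 319 1790 (.cons 201 (.leaf 225 1605 (.cons 273 (.leaf 274 2170 (.cons 294 (.leaf 293 2153 (.cons 297 (.leaf 321 1796 (.cons 270 (.leaf 269 2155 (.cons 271 (.leaf 298 2160 (.cons 223 (.leaf 199 1599 (.cons 318 (.leaf 317 2346 (.leaf 247 1782 .nil)) .nil)) .nil)) .nil)) .nil)) .nil)) .nil)) .nil)) .nil)) (.cons 223 (.leaf 199 1599 (.cons 225 (.leaf 201 1605 (.cons 297 (.leaf 321 1796 (.cons 222 (.cons 197 (.leaf 198 1579 (.cons 221 (.leaf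 249 1768 (.leaf 196 1571 .nil)) .nil)) (.cons 197 (.leaf 198 1579 (.cons 221 (.leaf 196 1571 (.cons 245 (.leaf 244 1762 (.leaf 246 1770 .nil)) .nil)) .nil)) (.cons 197 (.leaf 198 1579 (.cons 246 (.leaf 245 1770 (.cons 226 (.leaf 247 1778 (.cons 250 (.leaf 249 1776 (.leaf 251 1784 .nil)) .nil)) .nil)) .nil)) (.cons 249 (.leaf 221 1768 (.leaf 250 1776 .nil)) .nil)))) .nil)) .nil)) .nil)) (.cons 295 (.leaf 319 1790 (.cons 273 (.leaf 274 2170 (.cons 225 (.leaf 201 1605 (.cons 223 (.leaf 199 1599 (.cons 294 (.leaf 293 2153 (.cons 247 (.cons 246 (.leaf 245 1960 (.leaf 226 1778 .nil)) (.cons 226 (.leaf 227 1786 (.cons 250 (.leaf 251 1784 (.cons 222 (.leaf 249 1776 (.cons 198 (.leaf 197 1579 (.leaf 271 1591 .nil)) .nil)) .nil)) .nil)) (.cons 245 (.leaf 246 1960 (.cons 271 (.leaf 318 1782 (.cons 222 (.leaf 198 1591 (.cons 221 (.leaf 220 1760 (.leaf 249 1768 .nil)) .nil)) .nil)) .nil)) .nil)))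 .nil)) .nil)) .nil)) .nil)) .nil)) (.cons 295 (.leaf 319 1790 (.cons 201 (.leaf 225 1605 (.cons 273 (.leaf 274 2170 (.cons 294 (.leaf 293 2153 (.cons 297 (.leaf 321 1796 (.cons 270 (.leaf 269 2155 (.cons 271 (.leaf 298 2160 (.cons 246 (.leaf 245 1963 (.cons 198 (.leaf 222 1588 (.cons 318 (.leaf 317 2346 (.cons 342 (.leaf 366 2165 (.leaf 247 1973 .nil)) .nil)) .nil)) .nil)) .nil)) .nil)) .nil)) .nil)) .nil)) .nil)) .nil)) (.cons 295 (.leaf 319 1790 (.cons 199 (.leaf 223 1599 (.cons 273 (.leaf 274 2170 (.cons 297 (.leaf 321 1796 (.cons 294 (.leaf 293 2153 (.cons 270 (.leaf 269 2155 (.cons 298 (.leaf 271 2160 (.cons 299 (.leaf 300 2179 (.cons 323 (.leaf 322 2360 (.leaf 324 2368 .nil)) .nil)) .nil)) .nil)) .nil)) .nil)) .nil)) .nil)) .nil)) .nil))))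
noncomputable def t51 : T := .cons 200 (.cons 175 (.leaf 199 1407 (.cons 176 (.leaf 151 1215 (.cons 177 (.leaf 201 1413 (.leaf 153 1221 .nil)) .nil)) .nil)) (.cons 273 (.leaf 297 1604 (.cons 271 (.leaf 295 1598 (.cons 176 (.leaf 247 1406 (.leaf 249 1412 .nil)) .nil)) .nil)) (.cons 175 (.leaf 199 1407 (.cons 271 (.leaf 295 1598 (.cons 273 (.leaf 297 1604 (.cons 274 (.leaf 247 1979 (.cons 299 (.leaf 300 2176 (.leaf 298 2168 .nil)) .nil)) .nil)) .nil)) .nil)) .nil))) (.cons 296 t50 (.cons 296 (.cons 199 (.leaf 223 1599 (.cons 175 (.leaf 200 1407 (.cons 295 (.leaf 319 1790 (.cons 297 (.leaf 321 1796 (.cons 298 (.leaf 274 2169 (.cons 271 (.leaf 299 2171 (.leaf 270 2163 .nil)) .nil)) .nil)) .nil)) .nil)) .nil)) (.cons 199 (.leaf 223 1599 (.cons 200 (.leaf 175 1407 (.cons 201 (.leaf 177 1413 (.leaf 225 1605 .nil)) .nil)) .nil)) (.cons 295 (.leaf 319 1790 (.cons 200 (.leaf 271 1598 (.cons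 201 (.leaf 177 1413 (.leaf 225 1605 .nil)) .nil)) .nil)) (.cons 199 (.leaf 223 1599 (.cons 201 (.leaf 225 1605 (.cons 295 (.leaf 319 1790 (.cons 297 (.leaf 321 1796 (.cons 298 (.leaf 274 2169 (.cons 271 (.leaf 299 2171 (.leaf 270 2163 .nil)) .nil)) .nil)) .nil)) .nil)) .nil)) .nil)))) (.cons 296 (.cons 199 (.leaf 223 1599 (.cons 200 (.leaf 175 1407 (.cons 201 (.leaf 177 1413 (.leaf 225 1605 .nil)) .nil)) .nil)) (.cons 199 (.leaf 223 1599 (.cons 175 (.leaf 200 1407 (.cons 295 (.leaf 319 1790 (.cons 274 (.leaf 273 2170 (.cons 297 (.leaf 298 2169 (.leaf 321 1796 .nil)) .nil)) .nil)) .nil)) .nil)) (.cons 201 (.leaf 225 1605 (.cons 200 (.leaf 177 1413 (.cons 297 (.leaf 273 1604 (.leaf 321 1796 .nil)) .nil)) .nil)) (.cons 199 (.leaf 223 1599 (.cons 201 (.leaf 225 1605 (.cons 295 (.leaf 319 1790 (.cons 274 (.leaf 273 2170 (.cons 297 (.leaf 298 2169 (.leaf 321 1796 .nil)) .nil)) .nil)) .nil))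 .nil)) .nil)))) (.cons 200 (.cons 175 (.leaf 199 1407 (.cons 177 (.leaf 201 1413 (.cons 273 (.leaf 297 1604 (.cons 274 (.leaf 247 1979 (.cons 251 (.leaf 252 1985 (.cons 250 (.leaf 271 1977 (.cons 223 (.leaf 249 1787 (.cons 226 (.leaf 225 1784 (.cons 299 (.leaf 323 1815 (.leaf 300 2176 .nil)) .nil)) .nil)) .nil)) .nil)) .nil)) .nil)) .nil)) .nil)) (.cons 175 (.leaf 199 1407 (.cons 176 (.leaf 151 1215 (.cons 177 (.leaf 201 1413 (.leaf 153 1221 .nil)) .nil)) .nil)) (.cons 177 (.leaf 201 1413 (.cons 176 (.leaf 153 1221 (.cons 273 (.leaf 297 1604 (.leaf 249 1412 .nil)) .nil)) .nil)) (.cons 273 (.leaf 297 1604 (.cons 175 (.leaf 199 1407 (.cons 176 (.leaf 151 1215 (.leaf 249 1412 .nil)) .nil)) .nil)) .nil)))) (.cons 200 (.cons 177 (.leaf 201 1413 (.cons 295 (.leaf 271 1598 (.cons 296 (.leaf 319 1790 (.cons 297 (.leaf 273 1604 (.leaf 321 1796 .nil)) .nil)) .nil)) .nil)) (.cons 177 (.leaf 201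 1413 (.cons 176 (.leaf 153 1221 (.cons 271 (.leaf 295 1598 (.leaf 247 1406 .nil)) .nil)) .nil)) (.cons 273 (.leaf 297 1604 (.cons 176 (.leaf 249 1412 (.cons 177 (.leaf 201 1413 (.leaf 153 1221 .nil)) .nil)) .nil)) (.cons 271 (.leaf 295 1598 (.cons 176 (.leaf 247 1406 (.cons 273 (.leaf 297 1604 (.leaf 249 1412 .nil)) .nil)) .nil)) .nil)))) (.cons 200 (.cons 177 (.leaf 201 1413 (.cons 176 (.leaf 153 1221 (.cons 271 (.leaf 295 1598 (.leaf 247 1406 .nil)) .nil)) .nil)) (.cons 199 (.leaf 175 1407 (.cons 177 (.leaf 201 1413 (.cons 176 (.leaf 153 1221 (.cons 178 (.leaf 179 1402 (.cons 197 (.leaf 198 1385 (.cons 223 (.leaf 296 1599 (.cons 152 (.leaf 247 1214 (.leaf 128 1022 .nil)) .nil)) .nil)) .nil)) .nil)) .nil)) .nil)) (.cons 175 (.leaf 199 1407 (.cons 176 (.leaf 151 1215 (.cons 271 (.leaf 295 1598 (.leaf 247 1406 .nil)) .nil)) .nil)) (.cons 175 (.leaf 199 1407 (.cons 201 (.leaf 177 1413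 (.cons 295 (.leaf 271 1598 (.cons 296 (.leaf 225 1605 (.leaf 319 1790 .nil)) .nil)) .nil)) .nil)) .nil)))) (.cons 200 (.cons 175 (.leaf 199 1407 (.cons 176 (.leaf 151 1215 (.cons 271 (.leaf 295 1598 (.leaf 247 1406 .nil)) .nil)) .nil)) (.cons 175 (.leaf 199 1407 (.cons 176 (.leaf 151 1215 (.cons 273 (.leaf 297 1604 (.leaf 249 1412 .nil)) .nil)) .nil)) (.cons 271 (.leaf 295 1598 (.cons 176 (.leaf 247 1406 (.cons 273 (.leaf 297 1604 (.leaf 249 1412 .nil)) .nil)) .nil)) (.cons 175 (.leaf 199 1407 (.cons 271 (.leaf 295 1598 (.cons 273 (.leaf 297 1604 (.cons 274 (.leaf 247 1979 (.cons 299 (.leaf 300 2176 (.leaf 298 2168 .nil)) .nil)) .nil)) .nil)) .nil)) .nil)))) .nil)))))))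
noncomputable def t52 : T := .leaf 274 1979 (.cons 246 (.leaf 245 1960 (.cons 249 (.cons 221 (.leaf 222 1771 (.cons 225 (.leaf 226 1777 (.cons 201 (.leaf 177 1414 (.cons 200 (.leaf 176 1415 (.cons 297 (.leaf 224 1604 (.cons 269 (.leaf 270 1962 (.cons 321 (.leaf 345 1991 (.cons 322 (.leaf 298 1804 (.leaf 346 1996 .nil)) .nil)) .nil)) .nil)) .nil)) .nil)) .nil)) .nil)) (.cons 221 (.leaf 222 1771 (.cons 225 (.leaf 226 1777 (.cons 201 (.leaf 177 1414 (.cons 200 (.leaf 176 1415 (.cons 297 (.leaf 224 1604 (.cons 321 (.leaf 345 1991 (.cons 322 (.leaf 298 1804 (.leaf 346 1996 .nil)) .nil)) .nil)) .nil)) .nil)) .nil)) .nil)) (.cons 270 (.leaf 269 1962 (.cons 271 (.leaf 250 1969 (.cons 297 (.leaf 298 2160 (.cons 224 (.leaf 200 1604 (.leaf 321 1799 .nil)) .nil)) .nil)) .nil)) (.cons 221 (.leaf 222 1771 (.cons 225 (.leaf 226 1777 (.cons 177 (.leaf 201 1414 (.cons 270 (.leaf 269 1962 (.cons 271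 (.leaf 250 1969 (.cons 294 (.leaf 293 2154 (.cons 223 (.leaf 199 1590 (.leaf 318 1781 .nil)) .nil)) .nil)) .nil)) .nil)) .nil)) .nil)) .nil)))) .nil)) .nil)
noncomputable def t53 : T := .cons 223 (.leaf 199 1599 (.cons 201 (.leaf 225 1605 (.cons 200 (.leaf 177 1413 (.cons 176 (.leaf 271 1406 (.leaf 152 1214 .nil)) .nil)) .nil)) .nil)) (.cons 201 (.leaf 225 1605 (.cons 200 (.leaf 177 1413 (.cons 176 (.leaf 271 1406 (.cons 151 (.leaf 175 1215 (.cons 152 (.leaf 223 1214 (.leaf 127 1023 .nil)) .nil)) .nil)) .nil)) .nil)) (.cons 201 (.leaf 225 1605 (.cons 200 (.leaf 177 1413 (.cons 175 (.leaf 199 1407 (.cons 176 (.leaf 151 1215 (.leaf 271 1406 .nil)) .nil)) .nil)) .nil)) (.cons 199 (.leaf 223 1599 (.cons 200 (.leaf 175 1407 (.cons 176 (.leaf 271 1406 (.cons 177 (.leaf 201 1413 (.leaf 153 1221 .nil)) .nil)) .nil)) .nil)) (.cons 199 (.leaf 223 1599 (.cons 200 (.leaf 175 1407 (.cons 271 (.leaf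 176 1406 (.cons 297 (.leaf 321 1796 (.cons 299 (.leaf 298 2171 (.cons 323 (.leaf 347 2007 (.cons 251 (.leaf 226 1815 (.cons 228 (.leaf 252 1821 (.cons 227 (.leaf 204 1629 (.cons 324 (.leaf 300 1820 (.leaf 348 2012 .nil)) .nil)) .nil)) .nil)) .nil)) .nil)) .nil)) .nil)) .nil)) .nil)) (.cons 223 (.leaf 199 1599 (.cons 225 (.leaf 201 1605 (.cons 226 (.leaf 227 1786 (.leaf 251 1784 .nil)) .nil)) .nil)) .nil)))))
noncomputable def t54 : T := .cons 320 (.leaf 223 1791 (.cons 343 (.leaf 319 1982 (.cons 344 (.leaf 271 1983 (.leaf 367 2174 .nil)) .nil)) .nil)) (.cons 224 t53 (.cons 320 (.cons 319 (.leaf 343 1982 (.cons 344 (.leaf 271 1983 (.cons 345 (.leaf 321 1988 (.leaf 369 2180 .nil)) .nil)) .nil)) (.cons 319 (.leaf 343 1982 (.cons 321 (.leaf 345 1988 (.cons 224 (.leaf 297 1796 (.cons 201 (.leaf 225 1605 (.cons 200 (.leaf 177 1413 (.cons 175 (.leaf 199 1407 (.cons 176 (.leaf 151 1215 (.leaf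 271 1406 .nil)) .nil)) .nil)) .nil)) .nil)) .nil)) .nil)) (.cons 344 (.leaf 271 1983 (.cons 343 (.leaf 319 1982 (.leaf 367 2174 .nil)) .nil)) (.cons 321 (.leaf 345 1988 (.cons 224 (.leaf 297 1796 (.cons 201 (.leaf 225 1605 (.cons 200 (.leaf 177 1413 (.cons 271 (.leaf 344 1983 (.leaf 176 1406 .nil)) .nil)) .nil)) .nil)) .nil)) (.cons 321 (.leaf 345 1988 (.cons 343 (.leaf 319 1982 (.cons 344 (.leaf 367 2174 (.cons 323 (.leaf 322 2554 (.cons 299 (.leaf 347 2007 (.cons 226 (.leaf 251 1815 (.leaf 298 1812 .nil)) .nil)) .nil)) .nil)) .nil)) .nil)) .nil))))) (.cons 320 (.leaf 223 1791 (.cons 321 (.leaf 345 1988 (.cons 343 (.leaf 319 1982 (.cons 344 (.leaf 367 2174 (.cons 323 (.leaf 322 2554 (.cons 299 (.leaf 347 2007 (.cons 226 (.leaf 251 1815 (.leaf 298 1812 .nil)) .nil)) .nil)) .nil)) .nil)) .nil)) .nil)) .nil)))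
noncomputable def t55 : T := .cons 320 (.leaf 223 1791 (.cons 271 (.leaf 344 1983 (.cons 319 (.leaf 343 1982 (.cons 321 (.leaf 345 1988 (.cons 224 (.leaf 297 1796 (.cons 200 (.leaf 176 1406 (.cons 201 (.leaf 177 1413 (.leaf 225 1605 .nil)) .nil)) .nil)) .nil)) .nil)) .nil)) .nil)) (.cons 224 (.cons 199 (.leaf 223 1599 (.cons 200 (.leaf 175 1407 (.cons 297 (.leaf 273 1604 (.leaf 321 1796 .nil)) .nil)) .nil)) (.cons 225 (.leaf 201 1605 (.cons 246 (.leaf 245 1769 (.cons 226 (.leaf 227 1786 (.leaf 249 1777 .nil)) .nil)) .nil)) .nil)) (.cons 320 (.cons 271 (.leaf 344 1983 (.cons 319 (.leaf 343 1982 (.cons 321 (.leaf 345 1988 (.cons 224 (.leaf 297 1796 (.cons 200 (.leaf 176 1406 (.cons 201 (.leaf 177 1413 (.leaf 225 1605 .nil)) .nil)) .nil)) .nil)) .nil)) .nil)) (.cons 225 (.leaf 249 1797 (.cons 224 (.leaf 201 1605 (.cons 321 (.leaf 297 1796 (.leaf 345 1988 .nil)) .nil)) .nil)) (.cons 225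 (.leaf 249 1797 (.cons 343 (.leaf 319 1982 (.cons 344 (.leaf 271 1983 (.leaf 367 2174 .nil)) .nil)) .nil)) (.cons 271 (.leaf 344 1983 (.cons 319 (.leaf 343 1982 (.cons 321 (.leaf 345 1988 (.cons 297 (.leaf 224 1796 (.cons 298 (.leaf 299 2362 (.leaf 318 2353 .nil)) .nil)) .nil)) .nil)) .nil)) .nil)))) (.cons 320 (.leaf 223 1791 (.cons 225 (.leaf 249 1797 (.cons 344 (.leaf 271 1983 (.cons 343 (.leaf 319 1982 (.leaf 367 2174 .nil)) .nil)) .nil)) .nil)) (.cons 320 (.leaf 223 1791 (.cons 271 (.leaf 344 1983 (.cons 319 (.leaf 343 1982 (.cons 321 (.leaf 345 1988 (.cons 297 (.leaf 224 1796 (.cons 298 (.leaf 299 2362 (.leaf 318 2353 .nil)) .nil)) .nil)) .nil)) .nil)) .nil)) .nil))))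
noncomputable def t56 : T := .cons 249 (.cons 250 (.leaf 274 1976 (.cons 271 (.leaf 251 1978 (.leaf 270 1970 .nil)) .nil)) (.cons 225 (.cons 201 (.leaf 177 1414 (.cons 296 (.leaf 224 1605 (.leaf 320 1797 .nil)) .nil)) (.cons 177 (.leaf 201 1414 (.cons 246 (.leaf 226 1777 (.cons 245 (.leaf 224 1769 (.cons 269 (.leaf 268 1954 (.leaf 270 1962 .nil)) .nil)) .nil)) .nil)) (.cons 226 (.leaf 246 1777 (.cons 227 (.leaf 224 1786 (.leaf 228 1794 .nil)) .nil)) (.cons 177 (.leaf 201 1414 (.cons 246 (.leaf 226 1777 (.cons 269 (.leaf 270 1962 (.cons 245 (.leaf 268 1954 (.cons 220 (.leaf 221 1763 (.cons 244 (.leaf 271 1952 (.leaf 219 1755 .nil)) .nil)) .nil)) .nil)) .nil)) .nil)) .nil)))) (.cons 250 (.leaf 274 1976 (.cons 222 (.leaf 223 1779 (.cons 226 (.leaf 227 1785 (.cons 246 (.leaf 221 1771 (.leaf 225 1777 .nil)) .nil)) .nil)) .nil)) .nil))) (.cons 296 t55 (.cons 273 (.leaf 274 1979 (.cons 246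 (.leaf 245 1960 (.cons 223 (.cons 199 (.leaf 175 1404 (.cons 271 (.leaf 296 1596 (.cons 200 (.leaf 176 1405 (.cons 270 (.leaf 294 1590 (.cons 297 (.leaf 224 1604 (.leaf 298 2160 .nil)) .nil)) .nil)) .nil)) .nil)) (.cons 296 (.leaf 320 1791 (.cons 224 (.cons 225 (.leaf 201 1605 (.leaf 226 1778 .nil)) (.cons 297 (.leaf 200 1604 (.leaf 321 1796 .nil)) .nil)) .nil)) (.cons 199 (.leaf 175 1404 (.cons 271 (.cons 200 (.leaf 176 1405 (.cons 270 (.leaf 294 1590 (.cons 297 (.leaf 224 1604 (.leaf 298 2160 .nil)) .nil)) .nil)) (.cons 198 (.leaf 174 1399 (.cons 200 (.leaf 176 1405 (.cons 224 (.leaf 297 1604 (.cons 225 (.leaf 226 1778 (.leaf 197 1576 .nil)) .nil)) .nil)) .nil)) (.cons 198 (.leaf 174 1399 (.cons 270 (.leaf 294 1590 (.cons 269 (.leaf 268 1953 (.cons 293 (.leaf 292 2146 (.leaf 222 1582 .nil)) .nil)) .nil)) .nil)) .nil))) .nil)) (.cons 199 (.leaf 175 1404 (.cons 296 (.leaf 271 1596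 (.leaf 320 1791 .nil)) .nil)) .nil)))) .nil)) .nil)) (.cons 274 (.leaf 273 1979 (.cons 250 (.leaf 249 1976 (.cons 296 t54 .nil)) .nil)) (.cons 273 (.leaf 274 1979 (.cons 246 (.leaf 245 1960 (.cons 249 (.cons 270 (.leaf 269 1962 (.cons 271 (.leaf 250 1969 (.cons 297 (.leaf 298 2160 (.cons 224 (.leaf 200 1604 (.leaf 321 1799 .nil)) .nil)) .nil)) .nil)) (.cons 225 (.leaf 226 1777 (.cons 201 (.leaf 177 1414 (.leaf 296 1606 .nil)) .nil)) .nil)) .nil)) .nil)) (.cons 273 t52 (.cons 273 (.leaf 274 1979 (.cons 246 (.leaf 245 1960 (.cons 249 (.cons 221 (.leaf 222 1771 (.cons 270 (.leaf 269 1962 (.cons 250 (.leaf 271 1969 (.cons 227 (.leaf 226 1785 (.cons 251 (.leaf 252 1986 (.leaf 228 1793 .nil)) .nil)) .nil)) .nil)) .nil)) (.cons 225 (.leaf 226 1777 (.cons 201 (.leaf 177 1414 (.leaf 296 1606 .nil)) .nil)) (.cons 221 (.leaf 222 1771 (.cons 270 (.leaf 269 1962 (.cons 271 (.leaf 250 1969 (.cons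 293 (.leaf 294 2154 (.cons 297 (.leaf 298 2160 (.cons 321 (.leaf 345 1991 (.cons 320 (.leaf 344 1990 (.cons 296 (.leaf 223 1791 (.leaf 225 1797 .nil)) .nil)) .nil)) .nil)) .nil)) .nil)) .nil)) .nil)) .nil))) .nil)) .nil)) (.cons 273 (.leaf 274 1979 (.cons 246 (.leaf 245 1960 (.cons 249 (.cons 222 (.leaf 221 1771 (.cons 223 (.leaf 250 1779 (.cons 199 (.leaf 175 1404 (.cons 270 (.leaf 269 1962 (.leaf 294 1589 .nil)) .nil)) .nil)) .nil)) (.cons 225 (.leaf 226 1777 (.cons 201 (.leaf 177 1414 (.leaf 296 1606 .nil)) .nil)) .nil)) .nil)) .nil)) (.cons 273 (.leaf 274 1979 (.cons 246 (.leaf 245 1960 (.cons 249 (.cons 270 (.leaf 269 1962 (.cons 271 (.leaf 250 1969 (.cons 297 (.leaf 298 2160 (.cons 224 (.leaf 200 1604 (.leaf 321 1799 .nil)) .nil)) .nil)) .nil)) (.cons 222 (.leaf 221 1771 (.cons 250 (.leaf 223 1779 (.cons 251 (.leaf 271 1978 (.leaf 252 1986 .nil)) .nil)) .nil)) (.cons 270 (.leaf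 269 1962 (.cons 222 (.leaf 221 1771 (.cons 223 (.cons 294 (.leaf 318 1781 (.leaf 199 1589 .nil)) (.cons 294 (.leaf 318 1781 (.cons 293 (.leaf 271 2154 (.leaf 317 1774 .nil)) .nil)) (.cons 199 (.leaf 175 1404 (.cons 296 (.leaf 224 1599 (.leaf 271 1596 .nil)) .nil)) .nil))) .nil)) .nil)) (.cons 222 (.leaf 221 1771 (.cons 223 (.leaf 250 1779 (.cons 199 (.leaf 175 1404 (.cons 270 (.leaf 269 1962 (.leaf 294 1589 .nil)) .nil)) .nil)) .nil)) .nil)))) .nil)) .nil)) .nil))))))))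
noncomputable def t57 : T := .cons 296 (.cons 201 (.leaf 225 1605 (.cons 223 (.leaf 199 1599 (.cons 247 (.leaf 320 1791 (.cons 245 (.leaf 246 1960 (.cons 295 (.leaf 319 1790 (.cons 294 (.leaf 293 2153 (.cons 271 (.leaf 200 1597 (.leaf 318 1782 .nil)) .nil)) .nil)) .nil)) .nil)) .nil)) .nil)) (.cons 201 (.leaf 225 1605 (.cons 223 (.leaf 199 1599 (.cons 247 (.leaf 320 1791 (.cons 245 (.leaf 246 1960 (.cons 295 (.leaf 319 1790 (.cons 294 (.leaf 293 2153 (.cons 271 (.leaf 318 1782 (.cons 222 (.leaf 198 1591 (.cons 221 (.leaf 220 1760 (.leaf 244 1762 .nil)) .nil)) .nil)) .nil)) .nil)) .nil)) .nil)) .nil)) .nil)) (.cons 201 (.leaf 225 1605 (.cons 223 (.leaf 199 1599 (.cons 320 (.leaf 247 1791 (.cons 321 (.leaf 297 1796 (.leaf 345 1988 .nil)) .nil)) .nil)) .nil)) (.cons 201 (.leaf 225 1605 (.cons 295 (.leaf 319 1790 (.cons 294 (.leaf 293 2153 (.cons 297 (.leaf 200 1604 (.leaf 321 1796 .nil))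 .nil)) .nil)) .nil)) (.cons 297 (.leaf 200 1604 (.leaf 321 1796 .nil)) .nil))))) (.cons 296 (.cons 201 (.leaf 225 1605 (.cons 223 (.leaf 199 1599 (.cons 247 (.leaf 320 1791 (.cons 245 (.leaf 246 1960 (.cons 295 (.leaf 319 1790 (.cons 294 (.leaf 293 2153 (.cons 271 (.leaf 318 1782 (.cons 222 (.leaf 198 1591 (.cons 221 (.leaf 220 1760 (.leaf 244 1762 .nil)) .nil)) .nil)) .nil)) .nil)) .nil)) .nil)) .nil)) .nil)) (.cons 201 (.leaf 225 1605 (.cons 223 (.leaf 199 1599 (.cons 320 (.leaf 247 1791 (.cons 321 (.leaf 297 1796 (.leaf 345 1988 .nil)) .nil)) .nil)) .nil)) (.cons 201 (.leaf 225 1605 (.cons 295 (.leaf 319 1790 (.cons 294 (.leaf 293 2153 (.cons 297 (.leaf 321 1796 (.cons 270 (.leaf 269 2155 (.cons 271 (.leaf 298 2160 (.cons 246 (.leaf 245 1963 (.cons 198 (.leaf 222 1588 (.cons 318 (.leaf 317 2346 (.cons 342 (.leaf 366 2165 (.leaf 247 1973 .nil)) .nil)) .nil)) .nil)) .nil)) .nil))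 .nil)) .nil)) .nil)) .nil)) (.cons 321 (.leaf 297 1796 (.cons 199 (.leaf 223 1599 (.cons 319 (.leaf 295 1790 (.cons 320 (.leaf 343 1982 (.leaf 345 1988 .nil)) .nil)) .nil)) .nil)) .nil)))) (.cons 200 (.cons 175 (.leaf 199 1407 (.cons 176 (.leaf 151 1215 (.cons 177 (.leaf 201 1413 (.leaf 153 1221 .nil)) .nil)) .nil)) (.cons 271 (.leaf 295 1598 (.cons 176 (.leaf 247 1406 (.cons 177 (.leaf 201 1413 (.leaf 153 1221 .nil)) .nil)) .nil)) (.cons 175 (.leaf 199 1407 (.cons 176 (.leaf 151 1215 (.cons 271 (.leaf 295 1598 (.leaf 247 1406 .nil)) .nil)) .nil)) (.cons 175 (.leaf 199 1407 (.cons 201 (.leaf 177 1413 (.cons 295 (.leaf 271 1598 (.cons 296 (.leaf 225 1605 (.leaf 319 1790 .nil)) .nil)) .nil)) .nil)) .nil)))) (.cons 200 (.leaf 297 1604 (.cons 271 (.leaf 295 1598 (.cons 176 (.leaf 247 1406 (.cons 177 (.leaf 201 1413 (.leaf 153 1221 .nil)) .nil)) .nil)) .nil)) (.cons 200 (.leaf 297 1604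 (.cons 175 (.leaf 199 1407 (.cons 201 (.leaf 177 1413 (.cons 295 (.leaf 271 1598 (.cons 296 (.leaf 225 1605 (.leaf 319 1790 .nil)) .nil)) .nil)) .nil)) .nil)) (.cons 200 (.leaf 297 1604 (.cons 175 (.leaf 199 1407 (.cons 176 (.leaf 151 1215 (.cons 177 (.leaf 201 1413 (.leaf 153 1221 .nil)) .nil)) .nil)) .nil)) (.cons 200 (.leaf 297 1604 (.cons 199 (.leaf 175 1407 (.cons 295 (.leaf 271 1598 (.cons 296 (.leaf 223 1599 (.leaf 319 1790 .nil)) .nil)) .nil)) .nil)) .nil))))))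
noncomputable def t58 : T := .cons 274 (.leaf 247 1979 (.cons 295 (.leaf 296 2170 (.cons 271 (.leaf 294 2162 (.cons 299 (.leaf 300 2176 (.leaf 298 2168 .nil)) .nil)) .nil)) .nil)) (.cons 224 t57 (.cons 274 (.cons 299 (.leaf 300 2176 (.cons 251 (.leaf 252 1985 (.cons 298 (.leaf 271 2168 (.cons 227 (.leaf 203 1622 (.leaf 322 1814 .nil)) .nil)) .nil)) .nil)) (.cons 295 (.leaf 296 2170 (.cons 251 (.leaf 252 1985 (.cons 271 (.leaf 250 1977 (.leaf 294 2162 .nil)) .nil)) .nil)) (.cons 295 (.leaf 296 2170 (.cons 271 (.leaf 294 2162 (.cons 299 (.leaf 300 2176 (.leaf 298 2168 .nil)) .nil)) .nil)) (.cons 296 (.leaf 295 2170 (.cons 299 (.leaf 300 2176 (.cons 251 (.leaf 252 1985 (.cons 323 (.cons 322 (.leaf 346 2006 (.cons 324 (.leaf 348 2012 (.cons 298 (.leaf 227 1814 (.leaf 297 2368 .nil)) .nil)) .nil)) (.cons 250 (.leaf 226 1815 (.leaf 347 2007 .nil)) .nil)) .nil)) .nil)) .nil)) .nil)))) (.cons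 274 (.leaf 247 1979 (.cons 299 (.leaf 300 2176 (.cons 251 (.leaf 252 1985 (.cons 298 (.leaf 271 2168 (.cons 227 (.leaf 203 1622 (.leaf 322 1814 .nil)) .nil)) .nil)) .nil)) .nil)) (.cons 274 (.leaf 247 1979 (.cons 296 (.leaf 295 2170 (.cons 299 (.leaf 300 2176 (.cons 251 (.leaf 252 1985 (.cons 323 (.cons 322 (.leaf 346 2006 (.cons 324 (.leaf 348 2012 (.cons 298 (.leaf 227 1814 (.leaf 297 2368 .nil)) .nil)) .nil)) (.cons 250 (.leaf 226 1815 (.leaf 347 2007 .nil)) .nil)) .nil)) .nil)) .nil)) .nil)) (.cons 274 (.leaf 247 1979 (.cons 296 (.leaf 295 2170 (.cons 299 (.leaf 300 2176 (.cons 251 (.leaf 252 1985 (.cons 323 (.cons 322 (.leaf 346 2006 (.cons 324 (.leaf 348 2012 (.cons 250 (.leaf 226 1815 (.leaf 347 2007 .nil)) .nil)) .nil)) (.cons 322 (.leaf 346 2006 (.cons 324 (.leaf 348 2012 (.cons 321 (.leaf 297 2371 (.cons 345 (.leaf 320 1988 (.leaf 344 2562 .nil)) .nil)) .nil)) .nil)) (.cons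 250 (.leaf 226 1815 (.leaf 347 2007 .nil)) .nil))) .nil)) .nil)) .nil)) .nil)) .nil)))))
noncomputable def t59 : T := .cons 295 (.leaf 274 2170 (.cons 224 (.leaf 319 1790 (.cons 199 (.leaf 223 1599 (.cons 200 (.leaf 175 1407 (.leaf 297 1604 .nil)) .nil)) .nil)) .nil)) (.cons 224 (.cons 297 (.leaf 200 1604 (.leaf 321 1796 .nil)) (.cons 199 (.leaf 223 1599 (.cons 175 (.leaf 200 1407 (.cons 225 (.leaf 201 1605 (.cons 320 (.leaf 249 1797 (.cons 343 (.leaf 319 1982 (.cons 344 (.leaf 367 2174 (.cons 345 (.leaf 321 1988 (.leaf 369 2180 .nil)) .nil)) .nil)) .nil)) .nil)) .nil)) .nil)) (.cons 321 (.leaf 297 1796 (.cons 199 (.leaf 223 1599 (.cons 320 (.leaf 345 1988 (.cons 343 (.leaf 319 1982 (.cons 344 (.leaf 249 1989 (.leaf 367 2174 .nil)) .nil)) .nil)) .nil)) .nil)) (.cons 199 (.leaf 223 1599 (.cons 200 (.leaf 175 1407 (.leaf 297 1604 .nil)) .nil)) .nil)))) (.cons 274 (.leaf 295 2170 (.cons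 251 (.leaf 252 1985 (.cons 299 (.leaf 300 2176 (.cons 320 (.cons 225 (.leaf 249 1797 (.cons 319 (.leaf 343 1982 (.cons 298 (.leaf 297 2362 (.cons 321 (.leaf 345 1988 (.leaf 322 2361 .nil)) .nil)) .nil)) .nil)) (.cons 345 (.leaf 321 1988 (.cons 319 (.leaf 343 1982 (.cons 344 (.leaf 369 2180 (.cons 297 (.leaf 368 2181 (.leaf 298 2362 .nil)) .nil)) .nil)) .nil)) (.cons 249 (.leaf 225 1797 (.leaf 344 1989 .nil)) .nil))) .nil)) .nil)) .nil)) (.cons 295 (.leaf 274 2170 (.cons 224 (.leaf 319 1790 (.cons 199 (.leaf 223 1599 (.cons 200 (.leaf 175 1407 (.cons 201 (.leaf 177 1413 (.leaf 225 1605 .nil)) .nil)) .nil)) .nil)) .nil)) (.cons 274 (.leaf 295 2170 (.cons 251 (.leaf 252 1985 (.cons 299 (.leaf 300 2176 (.cons 224 (.cons 201 (.leaf 225 1605 (.cons 199 (.leaf 223 1599 (.cons 200 (.leaf 175 1407 (.leaf 177 1413 .nil)) .nil)) .nil)) (.cons 201 (.leaf 225 1605 (.cons 223 (.leaf 199 1599 (.cons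 250 (.leaf 249 1787 (.cons 323 (.leaf 226 1815 (.leaf 347 2007 .nil)) .nil)) .nil)) .nil)) (.cons 297 (.leaf 200 1604 (.leaf 321 1796 .nil)) .nil))) .nil)) .nil)) .nil)) .nil))))
noncomputable def t60 : T := .cons 250 (.leaf 226 1805 (.cons 251 (.leaf 252 1986 (.cons 320 (.leaf 344 1990 (.cons 322 (.leaf 346 1996 (.cons 225 (.leaf 296 1797 (.leaf 298 1804 .nil)) .nil)) .nil)) .nil)) .nil)) (.cons 322 (.leaf 346 1996 (.cons 225 (.leaf 298 1804 (.cons 201 (.leaf 177 1414 (.leaf 296 1606 .nil)) .nil)) .nil)) (.cons 320 (.leaf 344 1990 (.cons 296 (.leaf 225 1797 (.cons 223 (.leaf 247 1791 (.cons 319 (.leaf 343 1982 (.cons 298 (.leaf 299 2362 (.leaf 318 2353 .nil)) .nil)) .nil)) .nil)) .nil)) (.cons 322 (.leaf 346 1996 (.cons 226 (.leaf 250 1805 (.cons 298 (.leaf 225 1804 (.cons 299 (.leaf 300 2179 (.cons 320 (.leaf 344 1990 (.leaf 319 2361 .nil)) .nil)) .nil)) .nil)) .nil)) (.cons 320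 (.leaf 344 1990 (.cons 250 (.leaf 226 1805 (.cons 251 (.leaf 252 1986 (.cons 227 (.leaf 228 1793 (.cons 322 (.leaf 346 1996 (.cons 298 (.leaf 299 1814 (.cons 319 (.leaf 318 2353 (.cons 343 (.leaf 296 1982 (.leaf 342 2546 .nil)) .nil)) .nil)) .nil)) .nil)) .nil)) .nil)) .nil)) (.cons 320 (.leaf 344 1990 (.cons 296 (.leaf 225 1797 (.cons 223 (.leaf 247 1791 (.cons 322 (.leaf 346 1996 (.cons 294 (.leaf 295 2352 (.cons 319 (.leaf 343 1982 (.cons 318 (.leaf 317 2345 (.leaf 293 2347 .nil)) .nil)) .nil)) .nil)) .nil)) .nil)) .nil)) .nil)))))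
noncomputable def t61 : T := .cons 224 (.leaf 200 1604 (.cons 296 (.leaf 321 1796 (.cons 201 (.leaf 225 1605 (.cons 319 (.leaf 295 1790 (.cons 320 (.leaf 343 1982 (.cons 344 (.leaf 249 1989 (.leaf 368 2181 .nil)) .nil)) .nil)) .nil)) .nil)) .nil)) (.cons 224 (.leaf 200 1604 (.cons 296 (.cons 201 (.leaf 225 1605 (.cons 319 (.leaf 295 1790 (.cons 320 (.leaf 343 1982 (.cons 344 (.leaf 249 1989 (.leaf 368 2181 .nil)) .nil)) .nil)) .nil)) (.cons 295 (.leaf 319 1790 (.cons 223 (.leaf 199 1599 (.cons 247 (.leaf 320 1791 (.cons 246 (.leaf 245 1960 (.cons 294 (.leaf 293 2153 (.cons 270 (.leaf 269 2155 (.leaf 318 1781 .nil)) .nil)) .nil)) .nil)) .nil)) .nil)) (.cons 223 (.leaf 199 1599 (.cons 225 (.leaf 201 1605 (.cons 295 (.leaf 319 1790 (.cons 294 (.leaf 293 2153 (.cons 270 (.leaf 269 2155 (.cons 318 (.leaf 317 2346 (.cons 246 (.leaf 247 1781 (.cons 245 (.leaf 222 1770 (.leaf 221 1775 .nil))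 .nil)) .nil)) .nil)) .nil)) .nil)) .nil)) .nil)) (.cons 225 (.leaf 201 1605 (.cons 249 (.leaf 320 1797 (.cons 223 (.leaf 199 1599 (.cons 222 (.leaf 221 1768 (.leaf 250 1776 .nil)) .nil)) .nil)) .nil)) .nil)))) .nil)) (.cons 321 (.leaf 345 1991 (.cons 249 t60 .nil)) (.cons 321 (.leaf 345 1991 (.cons 224 (.leaf 200 1604 (.leaf 249 1799 .nil)) .nil)) (.cons 224 (.leaf 200 1604 (.cons 321 (.leaf 296 1796 (.leaf 345 1991 .nil)) .nil)) .nil))))
noncomputable def t62 : T := .cons 274 (.leaf 247 1979 (.cons 296 (.leaf 295 2170 (.cons 251 (.leaf 252 1985 (.cons 224 (.cons 297 (.leaf 200 1604 (.leaf 321 1796 .nil)) (.cons 199 (.leaf 223 1599 (.cons 200 (.leaf 175 1407 (.cons 201 (.leaf 177 1413 (.leaf 225 1605 .nil)) .nil)) .nil)) (.cons 199 (.leaf 223 1599 (.cons 321 (.leaf 297 1796 (.cons 320 (.leaf 345 1988 (.cons 343 (.leaf 319 1982 (.cons 344 (.leaf 249 1989 (.leaf 367 2174 .nil)) .nil))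 .nil)) .nil)) .nil)) .nil))) .nil)) .nil)) .nil)) (.cons 297 t61 (.cons 296 t59 (.cons 274 (.leaf 247 1979 (.cons 251 (.leaf 252 1985 (.cons 299 (.leaf 300 2176 (.cons 323 (.cons 250 (.leaf 226 1815 (.leaf 347 2007 .nil)) (.cons 322 (.leaf 346 2006 (.cons 348 (.leaf 324 2012 (.cons 347 (.leaf 372 2204 (.cons 298 (.leaf 227 1814 (.leaf 371 2199 .nil)) .nil)) .nil)) .nil)) (.cons 226 (.leaf 250 1815 (.cons 322 (.leaf 346 2006 (.cons 227 (.leaf 298 1814 (.cons 228 (.leaf 204 1629 (.cons 225 (.leaf 249 1794 (.cons 200 (.leaf 201 1603 (.cons 224 (.leaf 297 1604 (.leaf 199 1595 .nil)) .nil)) .nil)) .nil)) .nil)) .nil)) .nil)) .nil))) .nil)) .nil)) .nil)) (.cons 274 (.leaf 247 1979 (.cons 296 (.leaf 295 2170 (.cons 251 (.leaf 252 1985 (.cons 299 (.leaf 300 2176 (.cons 320 (.cons 319 (.leaf 343 1982 (.cons 345 (.leaf 321 1988 (.cons 344 (.leaf 249 1989 (.leaf 369 2180 .nil)) .nil)) .nil))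 (.cons 319 (.leaf 343 1982 (.cons 345 (.leaf 321 1988 (.cons 344 (.leaf 369 2180 (.cons 346 (.leaf 347 2555 (.cons 322 (.leaf 298 2005 (.leaf 323 2006 .nil)) .nil)) .nil)) .nil)) .nil)) (.cons 225 (.leaf 249 1797 (.cons 201 (.leaf 224 1605 (.cons 319 (.leaf 343 1982 (.cons 321 (.leaf 345 1988 (.cons 322 (.leaf 298 2361 (.cons 346 (.leaf 323 2006 (.leaf 347 2552 .nil)) .nil)) .nil)) .nil)) .nil)) .nil)) (.cons 249 (.leaf 225 1797 (.leaf 344 1989 .nil)) .nil)))) .nil)) .nil)) .nil)) .nil)) (.cons 274 (.leaf 247 1979 (.cons 296 (.leaf 295 2170 (.cons 251 (.leaf 252 1985 (.cons 299 (.leaf 300 2176 (.cons 320 (.cons 249 (.leaf 225 1797 (.leaf 344 1989 .nil)) (.cons 319 (.leaf 343 1982 (.cons 345 (.leaf 321 1988 (.cons 344 (.leaf 369 2180 (.cons 297 (.leaf 368 2181 (.leaf 298 2362 .nil)) .nil)) .nil)) .nil)) (.cons 249 (.leaf 225 1797 (.cons 319 (.leaf 343 1982 (.cons 297 (.leaf 298 2362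 (.cons 321 (.leaf 345 1988 (.cons 250 (.leaf 226 1805 (.cons 317 (.leaf 318 2345 (.cons 322 (.leaf 346 1996 (.cons 323 (.leaf 347 2007 (.leaf 324 2371 .nil)) .nil)) .nil)) .nil)) .nil)) .nil)) .nil)) .nil)) .nil))) .nil)) .nil)) .nil)) .nil)) (.cons 274 (.leaf 247 1979 (.cons 296 (.leaf 295 2170 (.cons 299 (.leaf 300 2176 (.cons 251 (.leaf 252 1985 (.cons 323 (.cons 322 (.leaf 346 2006 (.cons 324 (.leaf 348 2012 (.cons 298 (.leaf 227 1814 (.leaf 297 2368 .nil)) .nil)) .nil)) (.cons 250 (.leaf 226 1815 (.leaf 347 2007 .nil)) .nil)) .nil)) .nil)) .nil)) .nil)) (.cons 274 (.leaf 247 1979 (.cons 296 (.leaf 295 2170 (.cons 299 (.leaf 300 2176 (.cons 224 (.cons 199 (.leaf 223 1599 (.cons 225 (.leaf 201 1605 (.cons 200 (.leaf 175 1407 (.leaf 297 1604 .nil)) .nil)) .nil)) (.cons 225 (.leaf 201 1605 (.cons 320 (.leaf 249 1797 (.cons 321 (.leaf 345 1988 (.cons 319 (.leaf 343 1982 (.cons 199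 (.leaf 223 1599 (.cons 200 (.leaf 175 1407 (.cons 322 (.leaf 298 2361 (.cons 347 (.leaf 346 2552 (.cons 323 (.leaf 250 2007 (.leaf 348 2560 .nil)) .nil)) .nil)) .nil)) .nil)) .nil)) .nil)) .nil)) .nil)) (.cons 199 (.leaf 223 1599 (.cons 225 (.leaf 201 1605 (.cons 320 (.leaf 249 1797 (.cons 343 (.leaf 319 1982 (.cons 321 (.leaf 297 1796 (.leaf 345 1988 .nil)) .nil)) .nil)) .nil)) .nil)) (.cons 297 (.leaf 200 1604 (.leaf 321 1796 .nil)) .nil)))) .nil)) .nil)) .nil)) .nil)))))))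
noncomputable def t63 : T := .cons 199 (.leaf 223 1599 (.cons 295 (.leaf 319 1790 (.cons 321 (.leaf 297 1796 (.cons 320 (.leaf 345 1988 (.cons 249 (.leaf 225 1797 (.cons 293 (.leaf 294 2344 (.cons 322 (.leaf 323 2363 (.cons 344 (.leaf 273 1989 (.cons 271 (.leaf 200 1598 (.leaf 247 1983 .nil)) .nil)) .nil)) .nil)) .nil)) .nil)) .nil)) .nil)) .nil)) (.cons 297 (.leaf 321 1796 (.cons 200 (.leaf 273 1604 (.cons 295 (.leaf 271 1598 (.leaf 319 1790 .nil)) .nil)) .nil)) (.cons 199 (.leaf 223 1599 (.cons 175 (.leaf 200 1407 (.cons 319 (.leaf 295 1790 (.cons 320 (.leaf 343 1982 (.cons 249 (.leaf 225 1797 (.cons 344 (.leaf 273 1989 (.cons 345 (.leaf 321 1988 (.leaf 369 2180 .nil)) .nil)) .nil)) .nil)) .nil)) .nil)) .nil)) (.cons 223 (.leaf 199 1599 (.cons 247 (.leaf 320 1791 (.cons 297 (.leaf 321 1796 (.cons 200 (.leaf 273 1604 (.cons 176 (.leaf 271 1406 (.leaf 152 1214 .nil)) .nil)) .nil))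 .nil)) .nil)) (.cons 223 (.leaf 199 1599 (.cons 247 (.leaf 320 1791 (.cons 295 (.leaf 319 1790 (.cons 200 (.leaf 271 1597 (.cons 176 (.leaf 152 1214 (.cons 151 (.leaf 175 1215 (.cons 249 (.leaf 273 1412 (.cons 222 (.leaf 221 1768 (.leaf 250 1779 .nil)) .nil)) .nil)) .nil)) .nil)) .nil)) .nil)) .nil)) (.cons 223 (.leaf 199 1599 (.cons 295 (.leaf 319 1790 (.cons 320 (.leaf 247 1791 (.cons 321 (.leaf 297 1796 (.leaf 345 1988 .nil)) .nil)) .nil)) .nil)) .nil)))))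
noncomputable def t64 : T := .cons 175 (.leaf 199 1407 (.cons 151 (.leaf 176 1215 (.cons 201 (.leaf 177 1413 (.cons 296 (.leaf 225 1605 (.cons 321 (.leaf 297 1796 (.cons 320 (.leaf 345 1988 (.cons 247 (.leaf 223 1791 (.cons 344 (.leaf 271 1983 (.cons 343 (.leaf 319 1982 (.leaf 367 2174 .nil)) .nil)) .nil)) .nil)) .nil)) .nil)) .nil)) .nil)) .nil)) (.cons 273 (.leaf 297 1604 (.cons 176 (.leaf 249 1412 (.cons 177 (.leaf 201 1413 (.leaf 153 1221 .nil)) .nil)) .nil)) (.cons 199 (.leaf 175 1407 (.cons 223 (.leaf 296 1599 (.cons 273 (.leaf 297 1604 (.cons 176 (.leaf 249 1412 (.cons 247 (.leaf 271 1405 (.leaf 152 1214 .nil)) .nil)) .nil)) .nil)) .nil)) (.cons 199 (.leaf 175 1407 (.cons 177 (.leaf 201 1413 (.cons 176 (.leaf 153 1221 (.cons 178 (.leaf 179 1402 (.cons 197 (.leaf 198 1385 (.cons 223 (.leaf 296 1599 (.cons 247 (.leaf 271 1405 (.leaf 152 1214 .nil)) .nil)) .nil)) .nil)) .nil))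 .nil)) .nil)) (.cons 199 (.leaf 175 1407 (.cons 177 (.leaf 201 1413 (.cons 296 (.leaf 223 1599 (.cons 297 (.leaf 273 1604 (.leaf 321 1796 .nil)) .nil)) .nil)) .nil)) .nil))))
noncomputable def t65 : T := .cons 201 (.leaf 225 1605 (.cons 297 (.leaf 321 1796 (.cons 319 (.leaf 295 1790 (.cons 320 (.leaf 343 1982 (.cons 200 (.leaf 177 1413 (.leaf 273 1604 .nil)) .nil)) .nil)) .nil)) .nil)) (.cons 201 (.leaf 225 1605 (.cons 200 (.leaf 177 1413 (.cons 271 (.leaf 295 1598 (.cons 247 (.leaf 176 1406 (.cons 320 (.leaf 223 1791 (.leaf 344 1983 .nil)) .nil)) .nil)) .nil)) .nil)) (.cons 225 (.leaf 201 1605 (.cons 249 (.leaf 320 1797 (.cons 297 (.leaf 321 1796 (.cons 200 (.leaf 273 1604 (.cons 176 (.leaf 152 1220 (.cons 151 (.leaf 175 1215 (.cons 153 (.leaf 177 1221 (.cons 247 (.leaf 271 1406 (.cons 226 (.leaf 227 1786 (.leaf 246 1777 .nil)) .nil)) .nil)) .nil)) .nil)) .nil)) .nil)) .nil)) .nil))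 (.cons 295 (.leaf 319 1790 (.cons 200 (.leaf 271 1598 (.cons 297 (.leaf 273 1604 (.leaf 321 1796 .nil)) .nil)) .nil)) (.cons 201 (.leaf 225 1605 (.cons 297 (.leaf 321 1796 (.cons 319 (.leaf 295 1790 (.cons 320 (.leaf 343 1982 (.cons 298 (.leaf 299 2362 (.cons 247 (.leaf 223 1791 (.cons 271 (.leaf 344 1983 (.cons 270 (.leaf 269 2152 (.leaf 273 2160 .nil)) .nil)) .nil)) .nil)) .nil)) .nil)) .nil)) .nil)) .nil))))
noncomputable def t66 : T := .cons 223 (.leaf 199 1599 (.cons 201 (.leaf 225 1605 (.cons 319 (.leaf 295 1790 (.cons 320 (.leaf 247 1791 (.leaf 343 1982 .nil)) .nil)) .nil)) .nil)) (.cons 225 (.leaf 201 1605 (.cons 295 (.leaf 319 1790 (.cons 320 (.leaf 249 1797 (.cons 321 (.leaf 297 1796 (.leaf 345 1988 .nil)) .nil)) .nil)) .nil)) (.cons 223 (.leaf 199 1599 (.cons 295 (.leaf 319 1790 (.cons 320 (.leaf 247 1791 (.cons 321 (.leaf 297 1796 (.leaf 345 1988 .nil)) .nil)) .nil)) .nil))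 (.cons 223 (.leaf 199 1599 (.cons 201 (.leaf 225 1605 (.cons 320 (.leaf 247 1791 (.cons 321 (.leaf 297 1796 (.leaf 345 1988 .nil)) .nil)) .nil)) .nil)) (.cons 223 (.leaf 199 1599 (.cons 225 (.leaf 201 1605 (.cons 297 (.leaf 321 1796 (.cons 295 (.leaf 319 1790 (.cons 222 (.cons 249 (.leaf 221 1768 (.leaf 250 1776 .nil)) (.cons 197 (.leaf 198 1579 (.cons 221 (.leaf 196 1571 (.cons 245 (.leaf 244 1762 (.leaf 246 1770 .nil)) .nil)) .nil)) (.cons 197 (.leaf 198 1579 (.cons 246 (.leaf 245 1770 (.cons 226 (.leaf 247 1778 (.cons 250 (.leaf 249 1776 (.leaf 251 1784 .nil)) .nil)) .nil)) .nil)) .nil))) .nil)) .nil)) .nil)) .nil)) .nil))))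
noncomputable def t67 : T := .cons 200 (.cons 175 (.leaf 199 1407 (.cons 176 (.leaf 151 1215 (.cons 177 (.leaf 201 1413 (.leaf 153 1221 .nil)) .nil)) .nil)) (.cons 271 (.leaf 295 1598 (.cons 176 (.leaf 247 1406 (.cons 177 (.leaf 201 1413 (.leaf 153 1221 .nil)) .nil)) .nil)) (.cons 175 (.leaf 199 1407 (.cons 176 (.leaf 151 1215 (.cons 271 (.leaf 295 1598 (.leaf 247 1406 .nil)) .nil)) .nil)) (.cons 175 (.leaf 199 1407 (.cons 295 (.leaf 271 1598 (.cons 296 (.leaf 319 1790 (.cons 297 (.leaf 273 1604 (.leaf 321 1796 .nil)) .nil)) .nil)) .nil)) .nil)))) (.cons 200 (.cons 273 (.leaf 297 1604 (.cons 175 (.leaf 199 1407 (.cons 176 (.leaf 151 1215 (.leaf 249 1412 .nil)) .nil)) .nil)) (.cons 271 (.leaf 295 1598 (.cons 176 (.leaf 247 1406 (.cons 177 (.leaf 201 1413 (.leaf 153 1221 .nil)) .nil)) .nil)) (.cons 199 (.leaf 175 1407 (.cons 201 (.leaf 177 1413 (.cons 271 (.leaf 295 1598 (.cons 273 (.leaf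 297 1604 (.cons 198 (.cons 174 (.leaf 173 1387 (.cons 222 (.leaf 221 1578 (.cons 247 (.leaf 223 1399 (.leaf 246 1396 .nil)) .nil)) .nil)) (.cons 225 (.leaf 197 1576 (.leaf 226 1584 .nil)) .nil)) .nil)) .nil)) .nil)) .nil)) .nil))) (.cons 296 t66 (.cons 296 t65 (.cons 200 t64 (.cons 200 (.cons 175 (.leaf 199 1407 (.cons 176 (.leaf 151 1215 (.cons 177 (.leaf 201 1413 (.leaf 153 1221 .nil)) .nil)) .nil)) (.cons 271 (.leaf 295 1598 (.cons 176 (.leaf 247 1406 (.cons 177 (.leaf 201 1413 (.leaf 153 1221 .nil)) .nil)) .nil)) (.cons 175 (.leaf 199 1407 (.cons 176 (.leaf 151 1215 (.cons 271 (.leaf 295 1598 (.leaf 247 1406 .nil)) .nil)) .nil)) (.cons 175 (.leaf 199 1407 (.cons 201 (.leaf 177 1413 (.cons 295 (.leaf 271 1598 (.cons 296 (.leaf 225 1605 (.leaf 319 1790 .nil)) .nil)) .nil)) .nil)) .nil)))) (.cons 200 (.cons 175 (.leaf 199 1407 (.cons 151 (.leaf 176 1215 (.cons 295 (.leaf 271 1598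 (.cons 296 (.leaf 319 1790 (.cons 297 (.leaf 273 1604 (.leaf 321 1796 .nil)) .nil)) .nil)) .nil)) .nil)) (.cons 201 (.leaf 177 1413 (.cons 225 (.leaf 296 1605 (.cons 271 (.leaf 295 1598 (.cons 273 (.leaf 297 1604 (.cons 176 (.leaf 249 1412 (.cons 151 (.leaf 175 1215 (.cons 152 (.leaf 127 1023 (.leaf 128 1028 .nil)) .nil)) .nil)) .nil)) .nil)) .nil)) .nil)) (.cons 175 (.leaf 199 1407 (.cons 176 (.leaf 151 1215 (.cons 177 (.leaf 201 1413 (.leaf 153 1221 .nil)) .nil)) .nil)) (.cons 201 (.leaf 177 1413 (.cons 225 (.leaf 296 1605 (.cons 271 (.leaf 295 1598 (.cons 273 (.leaf 297 1604 (.cons 249 (.leaf 176 1412 (.cons 250 (.leaf 251 1978 (.leaf 270 1969 .nil)) .nil)) .nil)) .nil)) .nil)) .nil)) (.cons 199 (.leaf 175 1407 (.cons 177 (.leaf 201 1413 (.cons 296 (.leaf 223 1599 (.cons 297 (.leaf 273 1604 (.leaf 321 1796 .nil)) .nil)) .nil)) .nil)) .nil))))) (.cons 296 t63 .nil)))))))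
noncomputable def t68 : T := .cons 221 (.leaf 222 1771 (.cons 270 (.leaf 269 1962 (.cons 271 (.leaf 250 1969 (.cons 293 (.leaf 294 2154 (.cons 297 (.leaf 298 2160 (.cons 321 (.leaf 345 1991 (.cons 320 (.leaf 344 1990 (.cons 296 (.leaf 225 1797 (.cons 319 (.leaf 343 1982 (.cons 318 (.leaf 317 2345 (.cons 342 (.leaf 295 1974 (.leaf 341 2538 .nil)) .nil)) .nil)) .nil)) .nil)) .nil)) .nil)) .nil)) .nil)) .nil)) .nil)) (.cons 225 (.leaf 226 1777 (.cons 201 (.leaf 177 1414 (.leaf 296 1606 .nil)) .nil)) (.cons 221 (.leaf 222 1771 (.cons 270 (.leaf 269 1962 (.cons 271 (.leaf 250 1969 (.cons 294 (.leaf 293 2154 (.cons 297 (.leaf 298 2160 (.cons 318 (.leaf 342 1973 (.cons 317 (.leaf 341 1966 (.cons 295 (.leaf 296 2346 (.cons 319 (.leaf 343 1972 (.cons 320 (.leaf 344 1980 (.cons 321 (.leaf 345 1991 (.leaf 322 2355 .nil)) .nil)) .nil)) .nil)) .nil)) .nil)) .nil)) .nil)) .nil)) .nil)) .nil)) (.cons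 221 (.leaf 222 1771 (.cons 270 (.leaf 269 1962 (.cons 271 (.leaf 250 1969 (.cons 225 (.leaf 226 1777 (.cons 294 (.leaf 293 2154 (.cons 297 (.leaf 298 2160 (.cons 318 (.leaf 342 1973 (.cons 319 (.leaf 343 1972 (.cons 321 (.leaf 345 1991 (.cons 320 (.leaf 344 1990 (.cons 322 (.leaf 346 1996 (.leaf 295 2355 .nil)) .nil)) .nil)) .nil)) .nil)) .nil)) .nil)) .nil)) .nil)) .nil)) .nil)) .nil)))
noncomputable def t69 : T := .cons 223 (.leaf 320 1791 (.cons 199 (.leaf 175 1404 (.leaf 271 1596 .nil)) .nil)) (.cons 298 (.cons 297 (.leaf 295 2169 (.cons 226 (.leaf 321 1806 (.cons 299 (.leaf 271 2171 (.leaf 323 1812 .nil)) .nil)) .nil)) (.cons 322 (.cons 251 (.leaf 346 2005 (.leaf 227 1813 .nil)) (.cons 323 (.leaf 347 2004 (.cons 299 (.leaf 226 1812 (.cons 345 (.leaf 321 1998 (.cons 346 (.leaf 370 2197 (.leaf 369 2190 .nil)) .nil)) .nil)) .nil)) (.cons 227 (.leaf 251 1813 (.cons 226 (.leaf 203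 1621 (.cons 323 (.leaf 299 1812 (.leaf 347 2004 .nil)) .nil)) .nil)) .nil))) (.cons 297 (.leaf 295 2169 (.cons 321 (.leaf 226 1806 (.cons 345 (.leaf 369 2189 (.leaf 322 1998 .nil)) .nil)) .nil)) (.cons 297 (.leaf 295 2169 (.cons 299 (.leaf 271 2171 (.cons 323 (.leaf 347 2007 (.leaf 324 2368 .nil)) .nil)) .nil)) .nil)))) (.cons 320 (.leaf 223 1791 (.cons 321 (.leaf 345 1988 (.cons 343 (.leaf 319 1982 (.cons 344 (.leaf 367 2174 (.cons 323 (.leaf 322 2554 (.cons 299 (.leaf 347 2007 (.cons 226 (.leaf 251 1815 (.leaf 298 1812 .nil)) .nil)) .nil)) .nil)) .nil)) .nil)) .nil)) .nil))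
noncomputable def t70 : T := .cons 295 (.leaf 293 2153 (.cons 297 (.cons 321 (.leaf 345 1991 (.leaf 322 2352 .nil)) (.cons 270 (.leaf 269 2155 (.cons 271 (.leaf 298 2160 (.cons 223 (.leaf 199 1596 (.leaf 318 1781 .nil)) .nil)) .nil)) .nil)) .nil)) (.cons 270 (.cons 223 (.leaf 318 1781 (.cons 271 (.leaf 199 1596 (.leaf 293 2154 .nil)) .nil)) (.cons 223 (.leaf 318 1781 (.cons 199 (.leaf 175 1404 (.leaf 222 1589 .nil)) .nil)) (.cons 271 (.leaf 293 2154 (.cons 269 (.leaf 297 2152 (.leaf 268 1953 .nil)) .nil)) .nil))) (.cons 223 (.cons 199 (.leaf 175 1404 (.leaf 271 1596 .nil)) (.cons 318 (.leaf 270 1781 (.cons 295 (.leaf 271 1782 (.cons 297 (.leaf 317 2346 (.cons 321 (.leaf 345 1991 (.leaf 322 2352 .nil)) .nil)) .nil)) .nil)) (.cons 199 (.leaf 175 1404 (.cons 270 (.leaf 318 1781 (.leaf 222 1589 .nil)) .nil)) .nil))) (.cons 295 (.leaf 293 2153 (.cons 271 (.cons 319 (.leaf 343 1981 (.leaf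 222 1783 .nil)) (.cons 223 (.leaf 199 1596 (.leaf 318 1782 .nil)) .nil)) .nil)) (.cons 295 (.leaf 293 2153 (.cons 297 (.cons 321 (.leaf 345 1991 (.leaf 322 2352 .nil)) (.cons 270 (.leaf 269 2155 (.cons 318 (.leaf 223 1781 (.leaf 317 2346 .nil)) .nil)) .nil)) .nil)) (.cons 293 (.leaf 295 2153 (.cons 270 (.leaf 271 2154 (.cons 222 (.leaf 317 1774 (.cons 198 (.leaf 269 1582 (.cons 197 (.leaf 173 1391 (.leaf 221 1583 .nil)) .nil)) .nil)) .nil)) .nil)) .nil)))))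
noncomputable def t71 : T := .cons 320 (.leaf 223 1791 (.cons 344 (.leaf 271 1983 (.cons 345 (.leaf 321 1988 (.leaf 369 2180 .nil)) .nil)) .nil)) (.cons 294 t70 (.cons 320 (.cons 344 (.leaf 271 1983 (.cons 345 (.leaf 321 1988 (.leaf 369 2180 .nil)) .nil)) (.cons 321 (.leaf 345 1988 (.cons 319 (.leaf 343 1982 (.cons 295 (.cons 294 (.leaf 293 2344 (.leaf 322 2355 .nil)) (.cons 222 (.leaf 271 1783 (.cons 322 (.leaf 323 2363 (.cons 298 (.leaf 299 2361 (.cons 297 (.leaf 318 2353 (.cons 346 (.leaf 370 2191 (.leaf 347 2552 .nil)) .nil)) .nil)) .nil)) .nil)) (.cons 293 (.leaf 294 2344 (.cons 271 (.leaf 222 1783 (.cons 318 (.leaf 342 1974 (.cons 297 (.leaf 298 2353 (.leaf 317 2345 .nil)) .nil)) .nil)) .nil)) .nil))) .nil)) .nil)) (.cons 344 (.leaf 271 1983 (.cons 368 (.leaf 297 2181 (.cons 343 (.leaf 319 1982 (.leaf 367 2174 .nil)) .nil)) .nil)) (.cons 345 (.leaf 321 1988 (.cons 319 (.leaf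 343 1982 (.cons 344 (.leaf 369 2180 (.cons 368 (.leaf 297 2181 (.cons 317 (.leaf 318 2536 (.cons 346 (.leaf 347 2555 (.cons 391 (.leaf 367 2366 (.cons 392 (.leaf 295 2367 (.leaf 415 2558 .nil)) .nil)) .nil)) .nil)) .nil)) .nil)) .nil)) .nil)) .nil)))) (.cons 320 (.leaf 223 1791 (.cons 345 (.leaf 321 1988 (.cons 319 (.leaf 343 1982 (.cons 344 (.leaf 369 2180 (.cons 368 (.leaf 297 2181 (.cons 317 (.leaf 318 2536 (.cons 346 (.leaf 347 2555 (.cons 391 (.leaf 367 2366 (.cons 392 (.leaf 295 2367 (.leaf 415 2558 .nil)) .nil)) .nil)) .nil)) .nil)) .nil)) .nil)) .nil)) .nil)) (.cons 223 (.leaf 320 1791 (.cons 199 (.leaf 175 1404 (.leaf 271 1596 .nil)) .nil)) .nil))))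
noncomputable def t72 : T := .cons 225 (.leaf 226 1777 (.cons 296 (.leaf 320 1797 (.cons 222 (.leaf 221 1771 (.cons 177 (.leaf 201 1414 (.cons 271 (.cons 223 (.leaf 199 1596 (.leaf 250 1779 .nil)) (.cons 223 (.leaf 199 1596 (.cons 198 (.leaf 174 1396 (.leaf 295 1591 .nil)) .nil)) (.cons 198 (.leaf 174 1396 (.cons 295 (.leaf 319 1783 (.leaf 270 1588 .nil)) .nil)) .nil))) .nil)) .nil)) .nil)) .nil)) (.cons 225 (.leaf 226 1777 (.cons 177 (.leaf 201 1414 (.cons 222 (.leaf 221 1771 (.cons 223 (.leaf 250 1779 (.cons 296 (.leaf 320 1797 (.cons 199 (.leaf 175 1404 (.leaf 271 1596 .nil)) .nil)) .nil)) .nil)) .nil)) .nil)) (.cons 270 (.leaf 269 1962 (.cons 226 (.leaf 225 1777 (.cons 250 (.leaf 227 1785 (.leaf 271 1970 .nil)) .nil)) .nil)) (.cons 270 (.leaf 269 1962 (.cons 222 (.leaf 221 1771 (.cons 250 (.leaf 223 1779 (.leaf 271 1970 .nil)) .nil)) .nil)) (.cons 225 (.leaf 226 1777 (.cons 177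 (.leaf 201 1414 (.cons 222 (.leaf 221 1771 (.cons 223 (.leaf 250 1779 (.cons 296 (.leaf 320 1797 (.cons 175 (.leaf 199 1404 (.cons 270 (.leaf 269 1962 (.cons 294 (.leaf 318 1781 (.cons 293 (.leaf 317 1774 (.cons 295 (.leaf 273 2153 (.leaf 319 1780 .nil)) .nil)) .nil)) .nil)) .nil)) .nil)) .nil)) .nil)) .nil)) .nil)) (.cons 225 (.leaf 226 1777 (.cons 201 (.leaf 177 1414 (.cons 296 (.leaf 273 1606 (.leaf 320 1797 .nil)) .nil)) .nil)) .nil)))))
noncomputable def t73 : T := .cons 245 (.leaf 273 1960 (.cons 220 (.leaf 221 1763 (.cons 244 (.leaf 271 1952 (.leaf 219 1755 .nil)) .nil)) .nil)) (.cons 249 t72 (.cons 245 (.cons 220 (.leaf 221 1763 (.cons 244 (.leaf 271 1952 (.leaf 219 1755 .nil)) .nil)) (.cons 221 (.leaf 220 1763 (.cons 269 (.leaf 268 1954 (.cons 197 (.cons 270 (.leaf 249 1962 (.leaf 173 1388 .nil)) (.cons 222 (.leaf 249 1771 (.cons 198 (.leaf 174 1389 (.leaf 293 1581 .nil))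 .nil)) (.cons 270 (.leaf 173 1388 (.leaf 294 1580 .nil)) .nil))) .nil)) .nil)) (.cons 244 (.leaf 271 1952 (.cons 268 (.leaf 269 1954 (.leaf 267 1946 .nil)) .nil)) .nil))) (.cons 245 (.leaf 273 1960 (.cons 221 (.leaf 220 1763 (.cons 269 (.leaf 268 1954 (.cons 197 (.cons 270 (.leaf 249 1962 (.leaf 173 1388 .nil)) (.cons 222 (.leaf 249 1771 (.cons 198 (.leaf 174 1389 (.leaf 293 1581 .nil)) .nil)) (.cons 270 (.leaf 173 1388 (.leaf 294 1580 .nil)) .nil))) .nil)) .nil)) .nil)) (.cons 245 (.leaf 273 1960 (.cons 244 (.leaf 271 1952 (.cons 268 (.leaf 269 1954 (.leaf 267 1946 .nil)) .nil)) .nil)) .nil))))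
noncomputable def t74 : T := .cons 269 (.leaf 270 1962 (.cons 225 (.leaf 226 1777 (.cons 177 (.leaf 201 1414 (.cons 245 (.leaf 268 1954 (.cons 220 (.leaf 221 1763 (.cons 244 (.leaf 271 1952 (.leaf 219 1755 .nil)) .nil)) .nil)) .nil)) .nil)) .nil)) (.cons 225 (.leaf 226 1777 (.cons 296 (.leaf 320 1797 (.cons 222 (.leaf 221 1771 (.cons 177 (.leaf 201 1414 (.cons 271 (.cons 223 (.leaf 199 1596 (.cons 198 (.leaf 174 1396 (.leaf 295 1591 .nil)) .nil)) (.cons 198 (.leaf 174 1396 (.cons 199 (.leaf 223 1596 (.cons 175 (.leaf 270 1397 (.cons 127 (.leaf 151 1014 (.cons 176 (.leaf 178 1394 (.cons 197 (.leaf 200 1385 (.leaf 196 1377 .nil)) .nil)) .nil)) .nil)) .nil)) .nil)) (.cons 198 (.leaf 174 1396 (.cons 295 (.leaf 319 1783 (.leaf 270 1588 .nil)) .nil)) (.cons 223 (.leaf 199 1596 (.cons 295 (.leaf 319 1783 (.cons 294 (.leaf 318 1782 (.cons 293 (.leaf 292 2145 (.cons 317 (.leaf 270 1774 (.leaf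 316 2338 .nil)) .nil)) .nil)) .nil)) .nil)) .nil)))) .nil)) .nil)) .nil)) .nil)) (.cons 225 (.leaf 226 1777 (.cons 177 (.leaf 201 1414 (.cons 221 (.leaf 222 1771 (.cons 245 (.leaf 220 1763 (.cons 244 (.leaf 271 1952 (.cons 268 (.leaf 269 1954 (.leaf 267 1946 .nil)) .nil)) .nil)) .nil)) .nil)) .nil)) (.cons 269 (.leaf 270 1962 (.cons 221 (.leaf 222 1771 (.cons 245 (.leaf 220 1763 (.leaf 268 1954 .nil)) .nil)) .nil)) (.cons 269 (.leaf 270 1962 (.cons 225 (.leaf 226 1777 (.cons 245 (.leaf 268 1954 (.cons 296 (.leaf 320 1797 (.cons 271 (.leaf 244 1952 (.cons 223 (.leaf 199 1596 (.cons 201 (.leaf 177 1414 (.cons 295 (.cons 222 (.leaf 198 1591 (.leaf 319 1783 .nil)) (.cons 319 (.leaf 343 1981 (.cons 318 (.leaf 294 1782 (.leaf 342 1974 .nil)) .nil)) (.cons 222 (.leaf 198 1591 (.cons 293 (.leaf 317 1773 (.cons 294 (.leaf 292 2145 (.leaf 318 1782 .nil)) .nil)) .nil)) .nil))) .nil)) .nil)) .nil))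 .nil)) .nil)) .nil)) .nil)) .nil))))
noncomputable def t75 : T := .cons 273 (.leaf 274 1979 (.cons 246 (.leaf 245 1960 (.cons 249 (.cons 222 (.leaf 221 1771 (.cons 223 (.leaf 250 1779 (.cons 199 (.leaf 175 1404 (.cons 270 (.leaf 269 1962 (.leaf 294 1589 .nil)) .nil)) .nil)) .nil)) (.cons 222 (.leaf 221 1771 (.cons 250 (.leaf 223 1779 (.cons 251 (.leaf 271 1978 (.leaf 252 1986 .nil)) .nil)) .nil)) (.cons 270 (.leaf 269 1962 (.cons 250 (.leaf 271 1969 (.cons 227 (.leaf 226 1785 (.cons 251 (.leaf 252 1986 (.leaf 228 1793 .nil)) .nil)) .nil)) .nil)) (.cons 270 (.leaf 269 1962 (.cons 222 (.leaf 221 1771 (.cons 225 (.leaf 226 1777 (.cons 201 (.leaf 177 1414 (.leaf 296 1606 .nil)) .nil)) .nil)) .nil)) .nil)))) .nil)) .nil)) (.cons 249 (.cons 250 (.leaf 274 1976 (.cons 271 (.leaf 251 1978 (.leaf 270 1970 .nil)) .nil)) (.cons 246 t74 (.cons 250 (.leaf 274 1976 (.cons 222 (.leaf 223 1779 (.cons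 226 (.leaf 227 1785 (.cons 246 (.leaf 221 1771 (.leaf 225 1777 .nil)) .nil)) .nil)) .nil)) .nil))) (.cons 246 t73 (.cons 273 (.leaf 274 1979 (.cons 246 (.leaf 245 1960 (.cons 296 t71 .nil)) .nil)) (.cons 274 (.leaf 273 1979 (.cons 250 (.leaf 249 1976 (.cons 296 t69 .nil)) .nil)) (.cons 273 (.leaf 274 1979 (.cons 246 (.leaf 245 1960 (.cons 249 (.cons 222 (.leaf 221 1771 (.cons 223 (.leaf 250 1779 (.cons 199 (.leaf 175 1404 (.cons 270 (.leaf 269 1962 (.leaf 294 1589 .nil)) .nil)) .nil)) .nil)) (.cons 225 (.leaf 226 1777 (.cons 201 (.leaf 177 1414 (.leaf 296 1606 .nil)) .nil)) .nil)) .nil)) .nil)) (.cons 273 (.leaf 274 1979 (.cons 246 (.leaf 245 1960 (.cons 249 t68 .nil)) .nil)) (.cons 273 (.leaf 274 1979 (.cons 246 (.leaf 245 1960 (.cons 249 (.cons 270 (.leaf 269 1962 (.cons 250 (.leaf 271 1969 (.cons 227 (.leaf 226 1785 (.cons 251 (.leaf 252 1986 (.leaf 228 1793 .nil)) .nil)) .nil))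 .nil)) (.cons 222 (.leaf 221 1771 (.cons 250 (.leaf 223 1779 (.cons 251 (.leaf 271 1978 (.leaf 252 1986 .nil)) .nil)) .nil)) (.cons 270 (.leaf 269 1962 (.cons 222 (.leaf 221 1771 (.cons 225 (.leaf 226 1777 (.cons 201 (.leaf 177 1414 (.cons 271 (.cons 198 (.leaf 174 1396 (.leaf 295 1588 .nil)) (.cons 174 (.leaf 198 1396 (.cons 176 (.leaf 200 1415 (.cons 294 (.leaf 293 2154 (.cons 223 (.leaf 199 1589 (.leaf 318 1781 .nil)) .nil)) .nil)) .nil)) (.cons 176 (.leaf 200 1415 (.cons 294 (.leaf 293 2154 (.cons 223 (.leaf 199 1589 (.leaf 318 1781 .nil)) .nil)) .nil)) .nil))) .nil)) .nil)) .nil)) .nil)) (.cons 222 (.leaf 221 1771 (.cons 223 (.leaf 250 1779 (.cons 199 (.leaf 175 1404 (.cons 270 (.leaf 269 1962 (.leaf 294 1589 .nil)) .nil)) .nil)) .nil)) .nil)))) .nil)) .nil)) .nil)))))))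
noncomputable def t76 : T := .cons 222 (.leaf 221 1771 (.cons 250 (.leaf 223 1779 (.cons 251 (.leaf 271 1978 (.leaf 252 1986 .nil)) .nil)) .nil)) (.cons 225 (.leaf 226 1777 (.cons 201 (.leaf 177 1414 (.cons 200 (.leaf 176 1415 (.cons 224 (.leaf 297 1604 (.cons 199 (.leaf 175 1407 (.cons 198 (.leaf 197 1576 (.cons 174 (.leaf 173 1387 (.cons 271 (.leaf 295 1598 (.leaf 223 1399 .nil)) .nil)) .nil)) .nil)) .nil)) .nil)) .nil)) .nil)) (.cons 225 (.leaf 226 1777 (.cons 201 (.leaf 177 1414 (.cons 200 (.leaf 176 1415 (.cons 224 (.leaf 297 1604 (.cons 199 (.leaf 175 1407 (.cons 198 (.leaf 197 1576 (.cons 222 (.leaf 221 1578 (.cons 174 (.leaf 271 1396 (.leaf 173 1387 .nil)) .nil)) .nil)) .nil)) .nil)) .nil)) .nil)) .nil)) (.cons 225 (.leaf 226 1777 (.cons 201 (.leaf 177 1414 (.cons 200 (.leaf 176 1415 (.cons 224 (.leaf 297 1604 (.cons 199 (.leaf 175 1407 (.cons 198 (.leaf 197 1576 (.cons 222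 (.leaf 221 1578 (.cons 223 (.leaf 250 1776 (.cons 174 (.leaf 150 1204 (.leaf 173 1387 .nil)) .nil)) .nil)) .nil)) .nil)) .nil)) .nil)) .nil)) .nil)) .nil)))
noncomputable def t77 : T := .cons 321 (.leaf 345 1991 (.cons 200 (.leaf 224 1604 (.cons 270 (.leaf 298 2160 (.cons 269 (.leaf 244 1955 (.leaf 268 1953 .nil)) .nil)) .nil)) .nil)) (.cons 270 (.leaf 298 2160 (.cons 269 (.leaf 244 1955 (.leaf 268 1953 .nil)) .nil)) (.cons 321 (.leaf 345 1991 (.cons 223 (.cons 199 (.leaf 175 1404 (.cons 200 (.leaf 224 1604 (.leaf 176 1405 .nil)) .nil)) (.cons 199 (.leaf 175 1404 (.cons 198 (.leaf 174 1399 (.cons 200 (.leaf 176 1405 (.cons 222 (.leaf 295 1591 (.cons 221 (.leaf 220 1760 (.leaf 201 1578 .nil)) .nil)) .nil)) .nil)) .nil)) (.cons 199 (.leaf 175 1404 (.cons 198 (.leaf 174 1399 (.cons 222 (.leaf 295 1591 (.cons 221 (.leaf 220 1760 (.cons 224 (.leaf 244 1762 (.cons 197 (.leaf 196 1568 (.leaf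 225 1579 .nil)) .nil)) .nil)) .nil)) .nil)) .nil)) (.cons 224 (.leaf 200 1604 (.cons 295 (.leaf 319 1789 (.cons 222 (.leaf 198 1591 (.cons 221 (.leaf 220 1760 (.leaf 244 1762 .nil)) .nil)) .nil)) .nil)) .nil)))) .nil)) (.cons 224 (.leaf 200 1604 (.cons 298 (.leaf 270 2160 (.cons 299 (.leaf 300 2179 (.cons 319 (.leaf 295 1789 (.cons 321 (.leaf 345 1991 (.cons 320 (.leaf 318 2353 (.leaf 322 2361 .nil)) .nil)) .nil)) .nil)) .nil)) .nil)) .nil)))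
noncomputable def t78 : T := .cons 245 (.leaf 246 1960 (.cons 297 t77 .nil)) (.cons 224 (.cons 200 (.leaf 295 1598 (.leaf 297 1604 .nil)) (.cons 295 (.leaf 319 1789 (.cons 223 (.cons 199 (.leaf 175 1404 (.cons 198 (.leaf 174 1399 (.leaf 222 1591 .nil)) .nil)) (.cons 294 (.leaf 318 1782 (.cons 293 (.leaf 270 2154 (.leaf 292 2145 .nil)) .nil)) .nil)) .nil)) (.cons 200 (.leaf 297 1604 (.leaf 176 1406 .nil)) .nil))) (.cons 245 (.leaf 246 1960 (.cons 270 (.cons 269 (.leaf 244 1955 (.leaf 268 1953 .nil)) (.cons 294 (.leaf 293 2154 (.cons 223 (.leaf 199 1590 (.cons 318 (.leaf 295 1782 (.leaf 342 1973 .nil)) .nil)) .nil)) .nil)) .nil)) (.cons 245 (.leaf 246 1960 (.cons 295 (.cons 224 (.leaf 200 1598 (.leaf 319 1789 .nil)) (.cons 319 (.leaf 343 1981 (.cons 318 (.leaf 342 1974 (.cons 294 (.leaf 223 1782 (.cons 292 (.leaf 293 2145 (.cons 320 (.leaf 344 1980 (.cons 321 (.leaf 322 2355 (.cons 297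 (.leaf 345 1991 (.leaf 298 2353 .nil)) .nil)) .nil)) .nil)) .nil)) .nil)) .nil)) (.cons 223 (.cons 198 (.leaf 222 1591 (.cons 199 (.leaf 175 1404 (.leaf 174 1399 .nil)) .nil)) (.cons 224 (.leaf 200 1597 (.cons 222 (.leaf 198 1591 (.cons 221 (.leaf 220 1760 (.leaf 244 1762 .nil)) .nil)) .nil)) (.cons 200 (.leaf 224 1597 (.cons 199 (.leaf 175 1404 (.leaf 176 1405 .nil)) .nil)) .nil))) .nil))) .nil)) (.cons 270 (.cons 245 (.leaf 246 1960 (.cons 269 (.leaf 244 1955 (.leaf 268 1953 .nil)) .nil)) (.cons 269 (.leaf 268 1953 (.cons 293 (.leaf 292 2146 (.leaf 294 2154 .nil)) .nil)) (.cons 246 (.leaf 245 1960 (.cons 294 (.leaf 293 2154 (.cons 223 (.leaf 199 1590 (.leaf 318 1781 .nil)) .nil)) .nil)) .nil))) (.cons 270 (.cons 245 (.leaf 246 1960 (.cons 269 (.leaf 244 1955 (.leaf 268 1953 .nil)) .nil)) (.cons 269 (.leaf 268 1953 (.cons 293 (.leaf 292 2146 (.leaf 294 2154 .nil)) .nil)) (.cons 246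 (.leaf 245 1960 (.cons 294 (.leaf 293 2154 (.cons 297 (.leaf 298 2160 (.cons 224 (.leaf 200 1604 (.cons 318 (.leaf 342 1973 (.cons 319 (.leaf 295 1789 (.leaf 343 1972 .nil)) .nil)) .nil)) .nil)) .nil)) .nil)) .nil))) (.cons 245 (.leaf 246 1960 (.cons 270 (.cons 269 (.leaf 244 1955 (.leaf 268 1953 .nil)) (.cons 297 (.leaf 298 2160 (.cons 224 (.leaf 200 1604 (.cons 294 (.leaf 293 2154 (.cons 223 (.leaf 199 1590 (.cons 295 (.leaf 319 1789 (.cons 222 (.leaf 198 1591 (.cons 221 (.leaf 220 1760 (.leaf 244 1762 .nil)) .nil)) .nil)) .nil)) .nil)) .nil)) .nil)) (.cons 297 (.leaf 298 2160 (.cons 200 (.leaf 224 1604 (.cons 269 (.leaf 268 1953 (.cons 293 (.leaf 292 2146 (.leaf 294 2154 .nil)) .nil)) .nil)) .nil)) .nil))) .nil)) .nil))))))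
noncomputable def t79 : T := .cons 270 (.cons 249 (.leaf 269 1961 (.leaf 250 1969 .nil)) (.cons 269 (.leaf 268 1953 (.cons 293 (.leaf 292 2146 (.leaf 294 2154 .nil)) .nil)) (.cons 249 (.leaf 250 1969 (.cons 294 (.leaf 293 2154 (.cons 223 (.leaf 199 1590 (.cons 318 (.leaf 295 1782 (.leaf 342 1973 .nil)) .nil)) .nil)) .nil)) .nil))) (.cons 295 (.cons 223 (.cons 200 (.leaf 224 1597 (.cons 199 (.leaf 175 1404 (.leaf 176 1405 .nil)) .nil)) (.cons 198 (.leaf 222 1591 (.cons 199 (.leaf 175 1404 (.leaf 174 1399 .nil)) .nil)) (.cons 224 (.leaf 200 1597 (.leaf 319 1789 .nil)) .nil))) (.cons 319 (.leaf 343 1981 (.cons 318 (.leaf 342 1974 (.cons 223 (.leaf 294 1782 (.cons 198 (.leaf 222 1591 (.cons 199 (.leaf 175 1404 (.leaf 174 1399 .nil)) .nil)) .nil)) .nil)) .nil)) (.cons 223 (.cons 200 (.leaf 224 1597 (.cons 199 (.leaf 175 1404 (.leaf 176 1405 .nil)) .nil)) (.cons 198 (.leaf 222 1591 (.cons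 199 (.leaf 175 1404 (.leaf 174 1399 .nil)) .nil)) (.cons 224 (.leaf 200 1597 (.cons 222 (.leaf 198 1591 (.cons 221 (.leaf 220 1760 (.leaf 249 1768 .nil)) .nil)) .nil)) .nil))) (.cons 224 (.leaf 200 1598 (.leaf 319 1789 .nil)) .nil)))) (.cons 224 (.cons 200 (.leaf 295 1598 (.leaf 297 1604 .nil)) (.cons 295 (.leaf 319 1789 (.cons 223 (.cons 175 (.leaf 199 1404 (.cons 198 (.leaf 222 1591 (.cons 294 (.leaf 318 1782 (.cons 293 (.leaf 270 2154 (.leaf 292 2145 .nil)) .nil)) .nil)) .nil)) (.cons 294 (.leaf 318 1782 (.cons 293 (.leaf 270 2154 (.leaf 292 2145 .nil)) .nil)) (.cons 199 (.leaf 175 1404 (.cons 198 (.leaf 174 1399 (.leaf 222 1591 .nil)) .nil)) .nil))) .nil)) (.cons 200 (.leaf 297 1604 (.leaf 176 1406 .nil)) .nil))) (.cons 270 (.cons 249 (.leaf 269 1961 (.leaf 250 1969 .nil)) (.cons 269 (.leaf 268 1953 (.cons 293 (.leaf 292 2146 (.leaf 294 2154 .nil)) .nil)) (.cons 249 (.leaf 250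 1969 (.cons 293 (.leaf 294 2154 (.cons 297 (.leaf 298 2160 (.cons 224 (.leaf 200 1604 (.leaf 321 1799 .nil)) .nil)) .nil)) .nil)) .nil))) (.cons 249 (.cons 250 (.leaf 251 1978 (.leaf 270 1969 .nil)) (.cons 270 (.leaf 269 1961 (.cons 297 (.leaf 298 2160 (.cons 224 (.leaf 200 1604 (.leaf 321 1799 .nil)) .nil)) .nil)) (.cons 250 (.leaf 251 1978 (.cons 223 (.leaf 222 1779 (.cons 199 (.leaf 175 1404 (.cons 200 (.leaf 176 1405 (.cons 224 (.leaf 295 1597 (.leaf 297 1604 .nil)) .nil)) .nil)) .nil)) .nil)) .nil))) .nil))))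
noncomputable def t80 : T := .cons 222 (.leaf 221 1771 (.cons 225 (.leaf 226 1777 (.cons 177 (.leaf 201 1414 (.cons 250 (.leaf 223 1779 (.cons 251 (.leaf 271 1978 (.cons 252 (.leaf 273 1986 (.leaf 224 1795 .nil)) .nil)) .nil)) .nil)) .nil)) .nil)) (.cons 270 (.leaf 269 1962 (.cons 226 (.leaf 225 1777 (.cons 250 (.leaf 227 1785 (.leaf 271 1970 .nil)) .nil)) .nil)) (.cons 222 (.leaf 221 1771 (.cons 223 (.leaf 250 1779 (.cons 199 (.leaf 175 1404 (.cons 270 (.leaf 269 1962 (.leaf 294 1589 .nil)) .nil)) .nil)) .nil)) (.cons 270 (.leaf 269 1962 (.cons 222 (.leaf 221 1771 (.cons 225 (.leaf 226 1777 (.cons 177 (.leaf 201 1414 (.cons 198 (.cons 271 (.leaf 174 1396 (.leaf 295 1588 .nil)) (.cons 173 (.leaf 197 1391 (.cons 174 (.leaf 149 1199 (.cons 175 (.leaf 151 1205 (.leaf 199 1397 .nil)) .nil)) .nil)) (.cons 173 (.leaf 197 1391 (.cons 199 (.leaf 175 1397 (.cons 271 (.leaf 295 1588 (.cons 294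 (.leaf 223 1589 (.cons 317 (.leaf 293 1774 (.cons 318 (.leaf 342 1973 (.leaf 341 1966 .nil)) .nil)) .nil)) .nil)) .nil)) .nil)) .nil))) .nil)) .nil)) .nil)) .nil)) .nil)))
noncomputable def t81 : T := .cons 245 (.leaf 273 1960 (.cons 220 (.leaf 221 1763 (.cons 244 (.leaf 271 1952 (.leaf 219 1755 .nil)) .nil)) .nil)) (.cons 249 t80 (.cons 245 (.cons 220 (.leaf 221 1763 (.cons 244 (.leaf 271 1952 (.leaf 219 1755 .nil)) .nil)) (.cons 221 (.leaf 220 1763 (.cons 269 (.leaf 268 1954 (.cons 197 (.cons 270 (.leaf 249 1962 (.leaf 173 1388 .nil)) (.cons 222 (.leaf 249 1771 (.cons 198 (.leaf 174 1389 (.leaf 293 1581 .nil)) .nil)) (.cons 270 (.leaf 173 1388 (.leaf 294 1580 .nil)) .nil))) .nil)) .nil)) (.cons 244 (.leaf 271 1952 (.cons 268 (.leaf 269 1954 (.leaf 267 1946 .nil)) .nil)) .nil))) (.cons 245 (.leaf 273 1960 (.cons 221 (.leaf 220 1763 (.cons 269 (.leaf 268 1954 (.cons 197 (.cons 270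 (.leaf 249 1962 (.leaf 173 1388 .nil)) (.cons 222 (.leaf 249 1771 (.cons 198 (.leaf 174 1389 (.leaf 293 1581 .nil)) .nil)) (.cons 270 (.leaf 173 1388 (.leaf 294 1580 .nil)) .nil))) .nil)) .nil)) .nil)) (.cons 245 (.leaf 273 1960 (.cons 244 (.leaf 271 1952 (.cons 268 (.leaf 269 1954 (.leaf 267 1946 .nil)) .nil)) .nil)) .nil))))
noncomputable def t82 : T := .cons 246 (.cons 270 (.leaf 269 1962 (.cons 222 (.leaf 221 1771 (.cons 225 (.leaf 226 1777 (.cons 177 (.leaf 201 1414 (.cons 250 (.leaf 274 1976 (.leaf 223 1779 .nil)) .nil)) .nil)) .nil)) .nil)) (.cons 225 (.leaf 226 1777 (.cons 177 (.leaf 201 1414 (.cons 245 (.leaf 224 1769 (.cons 269 (.leaf 268 1954 (.leaf 270 1962 .nil)) .nil)) .nil)) .nil)) (.cons 250 (.leaf 274 1976 (.cons 222 (.leaf 221 1771 (.leaf 223 1779 .nil)) .nil)) .nil))) (.cons 246 (.cons 225 (.leaf 226 1777 (.cons 177 (.leaf 201 1414 (.cons 245 (.leaf 224 1769 (.cons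 269 (.leaf 268 1954 (.leaf 270 1962 .nil)) .nil)) .nil)) .nil)) (.cons 225 (.leaf 226 1777 (.cons 177 (.leaf 201 1414 (.cons 221 (.leaf 222 1771 (.cons 245 (.leaf 220 1763 (.leaf 224 1769 .nil)) .nil)) .nil)) .nil)) (.cons 269 (.leaf 270 1962 (.cons 221 (.leaf 222 1771 (.cons 245 (.leaf 220 1763 (.leaf 268 1954 .nil)) .nil)) .nil)) (.cons 270 (.leaf 269 1962 (.cons 222 (.leaf 221 1771 (.cons 225 (.leaf 226 1777 (.cons 177 (.leaf 201 1414 (.cons 198 (.cons 271 (.leaf 174 1396 (.leaf 295 1588 .nil)) (.cons 173 (.leaf 197 1391 (.cons 174 (.leaf 149 1199 (.cons 175 (.leaf 151 1205 (.leaf 199 1397 .nil)) .nil)) .nil)) (.cons 173 (.leaf 197 1391 (.cons 199 (.leaf 175 1397 (.cons 271 (.leaf 295 1588 (.cons 294 (.leaf 223 1589 (.cons 317 (.leaf 293 1774 (.cons 318 (.leaf 342 1973 (.leaf 341 1966 .nil)) .nil)) .nil)) .nil)) .nil)) .nil)) .nil))) .nil)) .nil)) .nil)) .nil)) .nil)))) (.cons 250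 (.leaf 274 1976 (.cons 271 (.leaf 251 1978 (.leaf 270 1970 .nil)) .nil)) (.cons 250 (.leaf 274 1976 (.cons 222 (.leaf 223 1779 (.cons 246 (.leaf 221 1771 (.cons 226 (.leaf 225 1777 (.leaf 227 1785 .nil)) .nil)) .nil)) .nil)) .nil)))
noncomputable def t83 : T := .cons 273 (.leaf 274 1979 (.cons 246 (.leaf 245 1960 (.cons 249 (.cons 225 (.leaf 226 1777 (.cons 201 (.leaf 177 1414 (.cons 200 (.leaf 176 1415 (.cons 297 (.leaf 224 1604 (.cons 269 (.leaf 270 1962 (.cons 321 (.leaf 345 1991 (.cons 322 (.leaf 298 1804 (.leaf 346 1996 .nil)) .nil)) .nil)) .nil)) .nil)) .nil)) .nil)) (.cons 225 (.leaf 226 1777 (.cons 201 (.leaf 177 1414 (.cons 200 (.leaf 176 1415 (.cons 224 (.leaf 297 1604 (.cons 199 (.leaf 175 1407 (.cons 198 (.leaf 197 1576 (.cons 174 (.leaf 173 1387 (.cons 271 (.leaf 295 1598 (.leaf 223 1399 .nil)) .nil)) .nil)) .nil)) .nil)) .nil)) .nil)) .nil)) (.cons 270 (.leaf 269 1962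 (.cons 250 (.leaf 271 1969 (.cons 227 (.leaf 226 1785 (.cons 251 (.leaf 252 1986 (.leaf 228 1793 .nil)) .nil)) .nil)) .nil)) (.cons 270 (.leaf 269 1962 (.cons 250 (.leaf 271 1969 (.cons 251 (.leaf 252 1986 (.cons 224 (.leaf 223 1787 (.cons 297 (.leaf 200 1604 (.leaf 321 1799 .nil)) .nil)) .nil)) .nil)) .nil)) .nil)))) .nil)) .nil)) (.cons 249 t82 (.cons 246 t81 (.cons 273 (.leaf 274 1979 (.cons 271 t79 .nil)) (.cons 273 (.leaf 274 1979 (.cons 271 t78 .nil)) (.cons 273 (.leaf 274 1979 (.cons 246 (.leaf 245 1960 (.cons 249 (.cons 222 (.leaf 221 1771 (.cons 223 (.leaf 250 1779 (.cons 199 (.leaf 175 1404 (.cons 270 (.leaf 269 1962 (.leaf 294 1589 .nil)) .nil)) .nil)) .nil)) (.cons 225 (.leaf 226 1777 (.cons 201 (.leaf 177 1414 (.cons 200 (.leaf 176 1415 (.cons 297 (.leaf 224 1604 (.cons 269 (.leaf 270 1962 (.cons 321 (.leaf 345 1991 (.cons 322 (.leaf 298 1804 (.leaf 346 1996 .nil)) .nil))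 .nil)) .nil)) .nil)) .nil)) .nil)) (.cons 221 (.leaf 222 1771 (.cons 225 (.leaf 226 1777 (.cons 201 (.leaf 177 1414 (.cons 200 (.leaf 176 1415 (.cons 297 (.leaf 224 1604 (.cons 321 (.leaf 345 1991 (.cons 322 (.leaf 298 1804 (.leaf 346 1996 .nil)) .nil)) .nil)) .nil)) .nil)) .nil)) .nil)) .nil))) .nil)) .nil)) (.cons 273 (.leaf 274 1979 (.cons 246 (.leaf 245 1960 (.cons 249 (.cons 270 (.leaf 269 1962 (.cons 250 (.leaf 271 1969 (.cons 227 (.leaf 226 1785 (.cons 251 (.leaf 252 1986 (.leaf 228 1793 .nil)) .nil)) .nil)) .nil)) (.cons 222 (.leaf 221 1771 (.cons 250 (.leaf 223 1779 (.cons 251 (.leaf 271 1978 (.leaf 252 1986 .nil)) .nil)) .nil)) (.cons 270 (.leaf 269 1962 (.cons 222 (.leaf 221 1771 (.cons 225 (.leaf 226 1777 (.cons 201 (.leaf 177 1414 (.cons 271 (.cons 198 (.leaf 174 1396 (.leaf 295 1588 .nil)) (.cons 174 (.leaf 198 1396 (.cons 176 (.leaf 200 1415 (.cons 294 (.leaf 293 2154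 (.cons 223 (.leaf 199 1589 (.leaf 318 1781 .nil)) .nil)) .nil)) .nil)) (.cons 176 (.leaf 200 1415 (.cons 294 (.leaf 293 2154 (.cons 223 (.leaf 199 1589 (.leaf 318 1781 .nil)) .nil)) .nil)) .nil))) .nil)) .nil)) .nil)) .nil)) (.cons 222 (.leaf 221 1771 (.cons 223 (.leaf 250 1779 (.cons 199 (.leaf 175 1404 (.cons 270 (.leaf 269 1962 (.leaf 294 1589 .nil)) .nil)) .nil)) .nil)) .nil)))) .nil)) .nil)) (.cons 273 (.leaf 274 1979 (.cons 246 (.leaf 245 1960 (.cons 249 (.cons 221 (.leaf 222 1771 (.cons 270 (.leaf 269 1962 (.cons 271 (.leaf 250 1969 (.cons 293 (.leaf 294 2154 (.cons 297 (.leaf 298 2160 (.cons 224 (.leaf 200 1604 (.leaf 321 1799 .nil)) .nil)) .nil)) .nil)) .nil)) .nil)) (.cons 221 (.leaf 222 1771 (.cons 225 (.leaf 226 1777 (.cons 201 (.leaf 177 1414 (.cons 200 (.leaf 176 1415 (.cons 297 (.leaf 224 1604 (.cons 321 (.leaf 345 1991 (.cons 322 (.leaf 298 1804 (.leaf 346 1996 .nil))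 .nil)) .nil)) .nil)) .nil)) .nil)) .nil)) (.cons 270 (.leaf 269 1962 (.cons 250 (.leaf 271 1969 (.cons 227 (.leaf 226 1785 (.cons 251 (.leaf 252 1986 (.leaf 228 1793 .nil)) .nil)) .nil)) .nil)) .nil))) .nil)) .nil)) (.cons 273 (.leaf 274 1979 (.cons 246 (.leaf 245 1960 (.cons 249 t76 .nil)) .nil)) .nil))))))))
noncomputable def t84 : T := .cons 320 (.cons 249 (.leaf 225 1797 (.cons 273 (.leaf 344 1989 (.cons 274 (.leaf 295 2170 (.cons 251 (.leaf 252 1985 (.cons 250 (.leaf 271 1977 (.cons 227 (.leaf 228 1793 (.cons 203 (.leaf 298 1622 (.leaf 179 1430 .nil)) .nil)) .nil)) .nil)) .nil)) .nil)) .nil)) (.cons 343 (.leaf 319 1982 (.cons 344 (.leaf 367 2174 (.cons 345 (.leaf 321 1988 (.leaf 369 2180 .nil)) .nil)) .nil)) (.cons 319 (.leaf 343 1982 (.cons 321 (.leaf 345 1988 (.cons 249 (.leaf 225 1797 (.cons 294 (.cons 295 (.leaf 293 2344 (.leaf 322 2355 .nil)) (.cons 318 (.leaf 293 2347 (.cons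 317 (.leaf 297 2345 (.cons 341 (.leaf 340 2530 (.leaf 342 2538 .nil)) .nil)) .nil)) (.cons 322 (.leaf 295 2355 (.cons 346 (.leaf 347 2552 (.cons 297 (.leaf 273 1996 (.cons 317 (.leaf 318 2345 (.cons 299 (.leaf 298 2361 (.cons 323 (.leaf 251 2006 (.leaf 324 2371 .nil)) .nil)) .nil)) .nil)) .nil)) .nil)) .nil))) .nil)) .nil)) .nil)) .nil))) (.cons 224 (.cons 199 (.leaf 223 1599 (.cons 200 (.leaf 175 1407 (.cons 201 (.leaf 177 1413 (.leaf 225 1605 .nil)) .nil)) .nil)) (.cons 297 (.leaf 321 1796 (.cons 199 (.leaf 223 1599 (.cons 200 (.leaf 175 1407 (.leaf 273 1604 .nil)) .nil)) .nil)) (.cons 201 (.leaf 225 1605 (.cons 200 (.leaf 177 1413 (.cons 297 (.leaf 273 1604 (.leaf 321 1796 .nil)) .nil)) .nil)) (.cons 199 (.leaf 223 1599 (.cons 225 (.leaf 201 1605 (.cons 320 (.leaf 249 1797 (.cons 321 (.leaf 297 1796 (.leaf 345 1988 .nil)) .nil)) .nil)) .nil)) .nil)))) (.cons 224 (.cons 201 (.leaf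 225 1605 (.cons 177 (.leaf 200 1413 (.cons 295 (.leaf 319 1790 (.cons 297 (.leaf 321 1796 (.cons 298 (.leaf 274 2169 (.cons 271 (.leaf 299 2171 (.leaf 270 2163 .nil)) .nil)) .nil)) .nil)) .nil)) .nil)) (.cons 199 (.leaf 223 1599 (.cons 200 (.leaf 175 1407 (.cons 201 (.leaf 177 1413 (.leaf 225 1605 .nil)) .nil)) .nil)) (.cons 199 (.leaf 223 1599 (.cons 175 (.leaf 200 1407 (.cons 295 (.leaf 319 1790 (.cons 297 (.leaf 321 1796 (.cons 298 (.leaf 274 2169 (.cons 271 (.leaf 299 2171 (.leaf 270 2163 .nil)) .nil)) .nil)) .nil)) .nil)) .nil)) (.cons 225 (.leaf 201 1605 (.cons 320 (.leaf 249 1797 (.cons 321 (.leaf 297 1796 (.leaf 345 1988 .nil)) .nil)) .nil)) .nil)))) (.cons 224 (.cons 201 (.leaf 225 1605 (.cons 200 (.leaf 177 1413 (.cons 295 (.leaf 271 1598 (.leaf 319 1790 .nil)) .nil)) .nil)) (.cons 225 (.leaf 201 1605 (.cons 199 (.leaf 223 1599 (.cons 175 (.leaf 200 1407 (.cons 320 (.leaf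 249 1797 (.cons 343 (.leaf 319 1982 (.cons 344 (.leaf 367 2174 (.cons 345 (.leaf 321 1988 (.leaf 369 2180 .nil)) .nil)) .nil)) .nil)) .nil)) .nil)) .nil)) (.cons 295 (.leaf 319 1790 (.cons 199 (.leaf 223 1599 (.cons 200 (.leaf 175 1407 (.leaf 271 1598 .nil)) .nil)) .nil)) (.cons 225 (.leaf 201 1605 (.cons 199 (.leaf 223 1599 (.cons 200 (.leaf 175 1407 (.cons 197 (.leaf 198 1576 (.cons 249 (.leaf 320 1797 (.cons 176 (.leaf 273 1412 (.leaf 152 1220 .nil)) .nil)) .nil)) .nil)) .nil)) .nil)) (.cons 225 (.leaf 201 1605 (.cons 199 (.leaf 223 1599 (.cons 319 (.leaf 295 1790 (.cons 320 (.leaf 249 1797 (.leaf 343 1982 .nil)) .nil)) .nil)) .nil)) .nil))))) (.cons 224 (.cons 295 (.leaf 319 1790 (.cons 199 (.leaf 223 1599 (.cons 200 (.leaf 175 1407 (.leaf 271 1598 .nil)) .nil)) .nil)) (.cons 225 (.leaf 201 1605 (.cons 199 (.leaf 223 1599 (.cons 200 (.leaf 175 1407 (.cons 197 (.leaf 198 1576 (.cons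 249 (.leaf 320 1797 (.cons 273 (.leaf 297 1604 (.leaf 176 1412 .nil)) .nil)) .nil)) .nil)) .nil)) .nil)) (.cons 295 (.leaf 319 1790 (.cons 200 (.leaf 271 1598 (.cons 201 (.leaf 177 1413 (.leaf 225 1605 .nil)) .nil)) .nil)) (.cons 225 (.leaf 201 1605 (.cons 199 (.leaf 223 1599 (.cons 319 (.leaf 295 1790 (.cons 320 (.leaf 249 1797 (.leaf 343 1982 .nil)) .nil)) .nil)) .nil)) .nil)))) (.cons 224 (.cons 295 (.leaf 319 1790 (.cons 200 (.leaf 271 1598 (.cons 175 (.leaf 199 1407 (.cons 176 (.leaf 151 1215 (.cons 177 (.leaf 201 1413 (.leaf 153 1221 .nil)) .nil)) .nil)) .nil)) .nil)) (.cons 199 (.leaf 223 1599 (.cons 200 (.leaf 175 1407 (.cons 297 (.leaf 273 1604 (.leaf 321 1796 .nil)) .nil)) .nil)) (.cons 295 (.leaf 319 1790 (.cons 200 (.leaf 271 1598 (.cons 297 (.leaf 273 1604 (.leaf 321 1796 .nil)) .nil)) .nil)) (.cons 199 (.leaf 223 1599 (.cons 295 (.leaf 319 1790 (.cons 273 (.leaf 274 2170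 (.cons 297 (.leaf 321 1796 (.cons 294 (.leaf 293 2153 (.cons 270 (.leaf 269 2155 (.cons 298 (.leaf 271 2160 (.cons 299 (.leaf 300 2179 (.cons 323 (.leaf 322 2360 (.leaf 324 2368 .nil)) .nil)) .nil)) .nil)) .nil)) .nil)) .nil)) .nil)) .nil)) .nil)))) .nil)))))
noncomputable def t85 : T := .cons 201 (.leaf 225 1605 (.cons 200 (.leaf 177 1413 (.cons 271 (.leaf 295 1598 (.cons 247 (.leaf 176 1406 (.cons 320 (.leaf 223 1791 (.leaf 344 1983 .nil)) .nil)) .nil)) .nil)) .nil)) (.cons 295 (.leaf 319 1790 (.cons 200 (.leaf 271 1598 (.cons 175 (.leaf 199 1407 (.cons 176 (.leaf 151 1215 (.cons 177 (.leaf 201 1413 (.leaf 153 1221 .nil)) .nil)) .nil)) .nil)) .nil)) (.cons 223 (.leaf 199 1599 (.cons 201 (.leaf 225 1605 (.cons 200 (.leaf 177 1413 (.cons 221 (.leaf 222 1577 (.cons 247 (.leaf 320 1791 (.cons 176 (.leaf 271 1406 (.leaf 152 1214 .nil)) .nil)) .nil)) .nil)) .nil)) .nil)) (.cons 223 (.leaf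 199 1599 (.cons 247 (.leaf 320 1791 (.cons 295 (.leaf 319 1790 (.cons 271 (.leaf 200 1597 (.cons 198 (.leaf 222 1591 (.cons 294 (.leaf 318 1782 (.cons 293 (.leaf 292 2145 (.cons 269 (.leaf 268 2147 (.cons 270 (.leaf 249 1961 (.leaf 297 2152 .nil)) .nil)) .nil)) .nil)) .nil)) .nil)) .nil)) .nil)) .nil)) (.cons 223 (.leaf 199 1599 (.cons 201 (.leaf 225 1605 (.cons 319 (.leaf 295 1790 (.cons 320 (.leaf 247 1791 (.leaf 343 1982 .nil)) .nil)) .nil)) .nil)) .nil))))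
noncomputable def t86 : T := .cons 224 (.cons 295 (.leaf 319 1790 (.cons 200 (.leaf 271 1598 (.cons 175 (.leaf 199 1407 (.cons 176 (.leaf 151 1215 (.cons 177 (.leaf 201 1413 (.leaf 153 1221 .nil)) .nil)) .nil)) .nil)) .nil)) (.cons 223 (.leaf 199 1599 (.cons 320 (.leaf 247 1791 (.cons 321 (.leaf 297 1796 (.leaf 345 1988 .nil)) .nil)) .nil)) (.cons 295 (.leaf 319 1790 (.cons 271 (.leaf 200 1598 (.cons 321 (.leaf 297 1796 (.cons 320 (.leaf 345 1988 (.cons 247 (.leaf 223 1788 (.leaf 344 1983 .nil)) .nil)) .nil)) .nil)) .nil)) .nil))) (.cons 224 (.cons 199 (.leaf 223 1599 (.cons 175 (.leaf 200 1407 (.cons 295 (.leaf 319 1790 (.cons 297 (.leaf 321 1796 (.cons 298 (.leaf 274 2169 (.cons 271 (.leaf 299 2171 (.leaf 270 2163 .nil)) .nil)) .nil)) .nil)) .nil)) .nil)) (.cons 199 (.leaf 223 1599 (.cons 200 (.leaf 175 1407 (.cons 201 (.leaf 177 1413 (.leaf 225 1605 .nil)) .nil)) .nil)) (.cons 295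 (.leaf 319 1790 (.cons 200 (.leaf 271 1598 (.cons 201 (.leaf 177 1413 (.leaf 225 1605 .nil)) .nil)) .nil)) (.cons 199 (.leaf 223 1599 (.cons 201 (.leaf 225 1605 (.cons 295 (.leaf 319 1790 (.cons 297 (.leaf 321 1796 (.cons 298 (.leaf 274 2169 (.cons 271 (.leaf 299 2171 (.leaf 270 2163 .nil)) .nil)) .nil)) .nil)) .nil)) .nil)) .nil)))) (.cons 320 (.cons 343 (.leaf 319 1982 (.cons 344 (.leaf 367 2174 (.cons 345 (.leaf 321 1988 (.leaf 369 2180 .nil)) .nil)) .nil)) (.cons 247 (.leaf 223 1791 (.cons 344 (.leaf 271 1983 (.cons 345 (.leaf 321 1988 (.leaf 369 2180 .nil)) .nil)) .nil)) (.cons 247 (.leaf 223 1791 (.cons 249 (.leaf 225 1797 (.cons 250 (.leaf 274 1976 (.cons 271 (.leaf 344 1983 (.leaf 251 1978 .nil)) .nil)) .nil)) .nil)) (.cons 247 (.leaf 223 1791 (.cons 249 (.leaf 225 1797 (.cons 319 (.leaf 343 1982 (.cons 250 (.leaf 274 1976 (.cons 271 (.leaf 251 1978 (.leaf 270 1970 .nil)) .nil))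 .nil)) .nil)) .nil)) .nil)))) (.cons 224 (.cons 201 (.leaf 225 1605 (.cons 200 (.leaf 177 1413 (.cons 271 (.leaf 295 1598 (.cons 247 (.leaf 176 1406 (.cons 320 (.leaf 223 1791 (.leaf 344 1983 .nil)) .nil)) .nil)) .nil)) .nil)) (.cons 225 (.leaf 201 1605 (.cons 320 (.leaf 249 1797 (.cons 321 (.leaf 297 1796 (.leaf 345 1988 .nil)) .nil)) .nil)) (.cons 223 (.leaf 199 1599 (.cons 320 (.leaf 247 1791 (.cons 321 (.leaf 297 1796 (.leaf 345 1988 .nil)) .nil)) .nil)) (.cons 199 (.leaf 223 1599 (.cons 200 (.leaf 175 1407 (.cons 201 (.leaf 177 1413 (.leaf 225 1605 .nil)) .nil)) .nil)) .nil)))) (.cons 320 (.cons 225 (.leaf 249 1797 (.cons 224 (.leaf 201 1605 (.cons 321 (.leaf 297 1796 (.leaf 345 1988 .nil)) .nil)) .nil)) (.cons 225 (.leaf 249 1797 (.cons 224 (.leaf 201 1605 (.cons 295 (.leaf 319 1790 (.cons 271 (.leaf 200 1598 (.cons 344 (.leaf 247 1983 (.leaf 368 2175 .nil)) .nil)) .nil)) .nil))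 .nil)) (.cons 319 (.leaf 343 1982 (.cons 224 (.leaf 295 1790 (.cons 321 (.leaf 297 1796 (.leaf 345 1988 .nil)) .nil)) .nil)) (.cons 343 (.leaf 319 1982 (.cons 344 (.leaf 367 2174 (.cons 345 (.leaf 321 1988 (.leaf 369 2180 .nil)) .nil)) .nil)) .nil)))) (.cons 224 (.cons 199 (.leaf 223 1599 (.cons 200 (.leaf 175 1407 (.cons 201 (.leaf 177 1413 (.leaf 225 1605 .nil)) .nil)) .nil)) (.cons 225 (.leaf 201 1605 (.cons 320 (.leaf 249 1797 (.cons 321 (.leaf 297 1796 (.leaf 345 1988 .nil)) .nil)) .nil)) (.cons 223 (.leaf 199 1599 (.cons 320 (.leaf 247 1791 (.cons 319 (.leaf 295 1790 (.leaf 343 1982 .nil)) .nil)) .nil)) .nil))) (.cons 224 t85 .nil))))))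
noncomputable def t87 : T := .cons 199 (.leaf 175 1404 (.cons 271 (.leaf 296 1596 (.cons 200 (.leaf 176 1405 (.cons 198 (.leaf 174 1399 (.cons 222 (.leaf 295 1591 (.cons 221 (.leaf 220 1760 (.leaf 201 1578 .nil)) .nil)) .nil)) .nil)) .nil)) .nil)) (.cons 296 (.leaf 320 1791 (.cons 294 (.cons 318 (.leaf 270 1781 (.cons 295 (.leaf 293 2153 (.leaf 271 1782 .nil)) .nil)) (.cons 270 (.leaf 318 1781 (.cons 271 (.leaf 293 2154 (.cons 297 (.leaf 269 2152 (.leaf 298 2160 .nil)) .nil)) .nil)) (.cons 295 (.leaf 293 2153 (.cons 271 (.leaf 318 1782 (.cons 222 (.leaf 198 1591 (.leaf 319 1783 .nil)) .nil)) .nil)) (.cons 318 (.leaf 270 1781 (.cons 295 (.leaf 271 1782 (.cons 224 (.leaf 319 1790 (.cons 297 (.leaf 200 1604 (.leaf 321 1796 .nil)) .nil)) .nil)) .nil)) (.cons 295 (.leaf 293 2153 (.cons 224 (.leaf 319 1790 (.cons 225 (.leaf 201 1605 (.leaf 226 1778 .nil)) .nil)) .nil)) .nil))))) .nil)) (.cons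 199 (.leaf 175 1404 (.cons 271 (.cons 200 (.leaf 176 1405 (.cons 198 (.leaf 174 1399 (.cons 222 (.leaf 295 1591 (.cons 221 (.leaf 220 1760 (.leaf 201 1578 .nil)) .nil)) .nil)) .nil)) (.cons 198 (.leaf 174 1399 (.cons 295 (.leaf 222 1591 (.cons 294 (.leaf 270 1590 (.leaf 318 1782 .nil)) .nil)) .nil)) (.cons 200 (.leaf 176 1405 (.cons 270 (.leaf 294 1590 (.cons 297 (.leaf 224 1604 (.leaf 298 2160 .nil)) .nil)) .nil)) .nil))) .nil)) (.cons 199 (.leaf 175 1404 (.cons 296 (.leaf 224 1599 (.leaf 320 1791 .nil)) .nil)) .nil)))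
noncomputable def t88 : T := .cons 199 (.leaf 175 1404 (.cons 296 (.leaf 224 1599 (.leaf 271 1596 .nil)) .nil)) (.cons 296 (.leaf 320 1791 (.cons 224 (.cons 225 (.leaf 201 1605 (.cons 246 (.leaf 245 1769 (.leaf 226 1778 .nil)) .nil)) (.cons 295 (.leaf 319 1790 (.cons 271 (.leaf 200 1597 (.cons 198 (.leaf 222 1591 (.cons 294 (.leaf 318 1782 (.cons 297 (.leaf 321 1796 (.cons 270 (.leaf 269 2152 (.leaf 298 2163 .nil)) .nil)) .nil)) .nil)) .nil)) .nil)) .nil)) .nil)) (.cons 199 (.leaf 175 1404 (.cons 271 (.cons 270 (.leaf 294 1590 (.cons 269 (.leaf 249 1961 (.leaf 268 1953 .nil)) .nil)) (.cons 198 (.leaf 174 1399 (.cons 222 (.leaf 295 1591 (.cons 221 (.leaf 220 1760 (.cons 249 (.leaf 224 1768 (.leaf 246 1771 .nil)) .nil)) .nil)) .nil)) (.cons 198 (.leaf 174 1399 (.cons 222 (.leaf 295 1591 (.cons 220 (.leaf 221 1760 (.cons 270 (.leaf 294 1590 (.cons 269 (.leaf 268 1953 (.cons 293 (.leaf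 292 2146 (.leaf 246 1582 .nil)) .nil)) .nil)) .nil)) .nil)) .nil)) .nil))) .nil)) (.cons 199 (.leaf 175 1404 (.cons 296 (.leaf 271 1596 (.leaf 320 1791 .nil)) .nil)) (.cons 296 (.leaf 320 1791 (.cons 199 (.leaf 175 1404 (.leaf 224 1599 .nil)) .nil)) .nil))))
noncomputable def t89 : T := .cons 273 (.leaf 274 1979 (.cons 246 (.leaf 245 1960 (.cons 249 (.cons 270 (.leaf 269 1962 (.cons 271 (.leaf 250 1969 (.cons 297 (.leaf 298 2160 (.cons 224 (.leaf 200 1604 (.leaf 321 1799 .nil)) .nil)) .nil)) .nil)) (.cons 222 (.leaf 221 1771 (.cons 250 (.leaf 223 1779 (.cons 251 (.leaf 271 1978 (.leaf 252 1986 .nil)) .nil)) .nil)) (.cons 225 (.leaf 226 1777 (.cons 177 (.leaf 201 1414 (.cons 222 (.leaf 221 1771 (.cons 223 (.leaf 250 1779 (.cons 270 (.leaf 269 1962 (.cons 199 (.leaf 175 1404 (.leaf 294 1589 .nil)) .nil)) .nil)) .nil)) .nil)) .nil)) (.cons 225 (.leaf 226 1777 (.cons 201 (.leaf 177 1414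 (.leaf 296 1606 .nil)) .nil)) .nil)))) .nil)) .nil)) (.cons 223 t88 (.cons 273 (.leaf 274 1979 (.cons 246 (.leaf 245 1960 (.cons 249 (.cons 222 (.leaf 221 1771 (.cons 223 (.leaf 250 1779 (.cons 199 (.leaf 175 1404 (.cons 270 (.leaf 269 1962 (.leaf 294 1589 .nil)) .nil)) .nil)) .nil)) (.cons 225 (.leaf 226 1777 (.cons 201 (.leaf 177 1414 (.leaf 296 1606 .nil)) .nil)) .nil)) .nil)) .nil)) (.cons 273 (.leaf 274 1979 (.cons 246 (.leaf 245 1960 (.cons 223 t87 .nil)) .nil)) (.cons 273 (.leaf 274 1979 (.cons 246 (.leaf 245 1960 (.cons 249 (.cons 221 (.leaf 222 1771 (.cons 225 (.leaf 226 1777 (.cons 201 (.leaf 177 1414 (.cons 200 (.leaf 176 1415 (.cons 297 (.leaf 224 1604 (.cons 269 (.leaf 270 1962 (.cons 321 (.leaf 345 1991 (.cons 322 (.leaf 298 1804 (.leaf 346 1996 .nil)) .nil)) .nil)) .nil)) .nil)) .nil)) .nil)) .nil)) (.cons 221 (.leaf 222 1771 (.cons 225 (.leaf 226 1777 (.cons 201 (.leaf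 177 1414 (.cons 200 (.leaf 176 1415 (.cons 297 (.leaf 224 1604 (.cons 321 (.leaf 345 1991 (.cons 322 (.leaf 298 1804 (.leaf 346 1996 .nil)) .nil)) .nil)) .nil)) .nil)) .nil)) .nil)) (.cons 270 (.leaf 269 1962 (.cons 271 (.leaf 250 1969 (.cons 297 (.leaf 298 2160 (.cons 224 (.leaf 200 1604 (.leaf 321 1799 .nil)) .nil)) .nil)) .nil)) (.cons 221 (.leaf 222 1771 (.cons 270 (.leaf 269 1962 (.cons 250 (.leaf 271 1969 (.cons 227 (.leaf 226 1785 (.cons 251 (.leaf 252 1986 (.leaf 228 1793 .nil)) .nil)) .nil)) .nil)) .nil)) .nil)))) .nil)) .nil)) (.cons 274 (.leaf 273 1979 (.cons 249 (.leaf 250 1976 (.cons 296 (.cons 224 (.cons 199 (.leaf 223 1599 (.cons 201 (.leaf 225 1605 (.cons 200 (.leaf 175 1407 (.leaf 177 1413 .nil)) .nil)) .nil)) (.cons 225 (.leaf 201 1605 (.leaf 320 1797 .nil)) (.cons 223 (.leaf 199 1599 (.leaf 320 1791 .nil)) .nil))) (.cons 224 (.cons 199 (.leaf 223 1599 (.cons 201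 (.leaf 225 1605 (.cons 200 (.leaf 175 1407 (.leaf 177 1413 .nil)) .nil)) .nil)) (.cons 295 (.leaf 319 1790 (.cons 297 (.leaf 298 2169 (.leaf 321 1796 .nil)) .nil)) .nil)) (.cons 320 (.leaf 225 1797 (.cons 271 (.leaf 344 1983 (.cons 269 (.leaf 270 1961 (.cons 319 (.leaf 343 1982 (.cons 295 (.leaf 224 1789 (.cons 297 (.leaf 298 2169 (.cons 318 (.leaf 342 1974 (.leaf 317 2345 .nil)) .nil)) .nil)) .nil)) .nil)) .nil)) .nil)) (.cons 223 (.leaf 320 1791 (.cons 199 (.leaf 175 1404 (.leaf 224 1599 .nil)) .nil)) (.cons 223 (.leaf 320 1791 (.cons 199 (.leaf 175 1404 (.leaf 271 1596 .nil)) .nil)) .nil))))) .nil)) .nil)) (.cons 273 (.leaf 274 1979 (.cons 246 (.leaf 245 1960 (.cons 249 (.cons 222 (.leaf 221 1771 (.cons 250 (.leaf 223 1779 (.cons 251 (.leaf 271 1978 (.leaf 252 1986 .nil)) .nil)) .nil)) (.cons 225 (.leaf 226 1777 (.cons 201 (.leaf 177 1414 (.leaf 296 1606 .nil)) .nil)) .nil)) .nil))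 .nil)) (.cons 273 (.leaf 274 1979 (.cons 246 (.leaf 245 1960 (.cons 249 (.cons 222 (.leaf 221 1771 (.cons 223 (.leaf 250 1779 (.cons 199 (.leaf 175 1404 (.cons 270 (.leaf 269 1962 (.leaf 294 1589 .nil)) .nil)) .nil)) .nil)) (.cons 222 (.leaf 221 1771 (.cons 250 (.leaf 223 1779 (.cons 251 (.leaf 271 1978 (.leaf 252 1986 .nil)) .nil)) .nil)) (.cons 270 (.leaf 269 1962 (.cons 271 (.leaf 250 1969 (.cons 297 (.leaf 298 2160 (.cons 224 (.leaf 200 1604 (.leaf 321 1799 .nil)) .nil)) .nil)) .nil)) (.cons 270 (.leaf 269 1962 (.cons 222 (.leaf 221 1771 (.cons 223 (.cons 294 (.leaf 318 1781 (.leaf 199 1589 .nil)) (.cons 294 (.leaf 318 1781 (.cons 293 (.leaf 271 2154 (.leaf 317 1774 .nil)) .nil)) (.cons 199 (.leaf 175 1404 (.cons 296 (.leaf 224 1599 (.leaf 271 1596 .nil)) .nil)) .nil))) .nil)) .nil)) .nil)))) .nil)) .nil)) .nil)))))))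
noncomputable def t90 : T := .cons 253 (.leaf 254 2002 (.cons 204 (.leaf 180 1438 (.cons 299 (.leaf 227 1629 (.leaf 323 1821 .nil)) .nil)) .nil)) (.cons 253 (.leaf 254 2002 (.cons 299 (.leaf 323 1821 (.cons 277 (.cons 250 (.leaf 278 2000 (.cons 229 (.leaf 249 1801 (.leaf 230 1809 .nil)) .nil)) (.cons 301 (.leaf 325 1831 (.cons 300 (.leaf 302 2195 (.cons 298 (.leaf 278 2193 (.cons 322 (.leaf 227 1814 (.leaf 346 2005 .nil)) .nil)) .nil)) .nil)) (.cons 301 (.leaf 325 1831 (.cons 302 (.leaf 300 2195 (.cons 229 (.leaf 326 1836 (.cons 230 (.leaf 231 1818 (.leaf 250 1809 .nil)) .nil)) .nil)) .nil)) .nil))) .nil)) .nil)) (.cons 204 (.leaf 180 1438 (.cons 229 (.cons 230 (.leaf 231 1818 (.cons 250 (.leaf 227 1810 (.leaf 249 1801 .nil)) .nil)) (.cons 253 (.leaf 254 2002 (.cons 250 (.leaf 249 1801 (.cons 277 (.leaf 278 2000 (.leaf 301 1639 .nil)) .nil)) .nil)) (.cons 230 (.leaf 231 1818 (.cons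 254 (.leaf 253 2002 (.cons 227 (.leaf 255 1816 (.cons 203 (.leaf 298 1622 (.leaf 202 1619 .nil)) .nil)) .nil)) .nil)) .nil))) .nil)) (.cons 204 (.leaf 180 1438 (.cons 227 (.leaf 299 1629 (.cons 203 (.leaf 298 1622 (.cons 155 (.leaf 179 1244 (.cons 202 (.leaf 178 1431 (.cons 201 (.leaf 200 1600 (.leaf 229 1608 .nil)) .nil)) .nil)) .nil)) .nil)) .nil)) (.cons 253 (.leaf 254 2002 (.cons 204 (.leaf 180 1438 (.cons 299 (.leaf 323 1821 (.cons 277 (.cons 301 (.leaf 325 1831 (.leaf 229 1639 .nil)) (.cons 250 (.leaf 278 2000 (.cons 229 (.leaf 249 1801 (.leaf 230 1809 .nil)) .nil)) (.cons 278 (.leaf 250 2000 (.cons 279 (.leaf 280 2019 (.cons 301 (.leaf 325 1831 (.cons 300 (.leaf 302 2201 (.leaf 298 2193 .nil)) .nil)) .nil)) .nil)) .nil))) .nil)) .nil)) .nil)) .nil))))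
noncomputable def t91 : T := .cons 323 (.leaf 228 1821 (.cons 322 (.leaf 346 2006 (.cons 298 (.leaf 227 1814 (.cons 297 (.leaf 300 2179 (.cons 296 (.leaf 271 2171 (.leaf 295 2360 .nil)) .nil)) .nil)) .nil)) .nil)) (.cons 298 (.cons 297 (.leaf 300 2179 (.cons 271 (.leaf 270 2160 (.leaf 296 2171 .nil)) .nil)) (.cons 322 (.leaf 227 1814 (.cons 346 (.leaf 323 2006 (.leaf 370 2197 .nil)) .nil)) .nil)) (.cons 227 (.cons 202 (.leaf 226 1623 (.cons 203 (.leaf 178 1431 (.cons 204 (.leaf 180 1437 (.leaf 228 1629 .nil)) .nil)) .nil)) (.cons 298 (.leaf 322 1814 (.cons 297 (.leaf 300 2179 (.cons 271 (.leaf 270 2160 (.leaf 296 2171 .nil)) .nil)) .nil)) .nil)) (.cons 323 (.leaf 228 1821 (.cons 347 (.cons 372 (.leaf 348 2204 (.cons 371 (.leaf 396 2396 (.cons 394 (.leaf 370 2390 (.cons 395 (.leaf 418 2582 (.cons 298 (.leaf 322 2391 (.cons 297 (.leaf 300 2179 (.cons 271 (.leaf 270 2160 (.leaf 296 2171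 .nil)) .nil)) .nil)) .nil)) .nil)) .nil)) .nil)) (.cons 372 (.leaf 348 2204 (.cons 322 (.leaf 346 2006 (.cons 371 (.leaf 396 2396 (.cons 298 (.leaf 395 2391 (.cons 297 (.leaf 300 2179 (.cons 271 (.leaf 270 2160 (.leaf 296 2171 .nil)) .nil)) .nil)) .nil)) .nil)) .nil)) (.cons 370 (.leaf 346 2198 (.cons 371 (.leaf 394 2390 (.cons 372 (.leaf 348 2204 (.leaf 396 2396 .nil)) .nil)) .nil)) (.cons 346 (.leaf 322 2006 (.leaf 370 2198 .nil)) .nil)))) .nil)) (.cons 228 (.leaf 323 1821 (.cons 204 (.leaf 180 1438 (.leaf 227 1629 .nil)) .nil)) .nil))))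
noncomputable def t92 : T := .cons 254 (.leaf 274 2002 (.cons 227 (.leaf 226 1811 (.cons 231 (.leaf 230 1817 (.cons 255 (.leaf 228 1819 (.leaf 232 1825 .nil)) .nil)) .nil)) .nil)) (.cons 250 (.cons 229 (.leaf 230 1809 (.cons 226 (.leaf 225 1803 (.cons 202 (.leaf 178 1428 (.cons 228 (.leaf 249 1801 (.cons 180 (.leaf 204 1438 (.cons 227 (.leaf 299 1623 (.leaf 201 1611 .nil)) .nil)) .nil)) .nil)) .nil)) .nil)) (.cons 229 (.leaf 230 1809 (.cons 228 (.leaf 249 1801 (.cons 204 (.leaf 180 1438 (.cons 277 (.leaf 278 2000 (.leaf 301 1639 .nil)) .nil)) .nil)) .nil)) (.cons 226 (.leaf 225 1803 (.cons 202 (.leaf 178 1428 (.cons 299 (.leaf 227 1623 (.leaf 274 1620 .nil)) .nil)) .nil)) .nil))) (.cons 250 (.cons 225 (.leaf 226 1803 (.cons 229 (.leaf 230 1809 (.cons 249 (.leaf 224 1795 (.leaf 228 1801 .nil)) .nil)) .nil)) (.cons 229 (.leaf 230 1809 (.cons 228 (.leaf 249 1801 (.cons 204 (.leaf 180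 1438 (.cons 277 (.leaf 278 2000 (.leaf 301 1639 .nil)) .nil)) .nil)) .nil)) (.cons 226 (.leaf 225 1803 (.cons 178 (.leaf 202 1428 (.cons 254 (.leaf 227 1811 (.cons 278 (.leaf 277 2000 (.leaf 279 2008 .nil)) .nil)) .nil)) .nil)) .nil))) (.cons 254 (.leaf 274 2002 (.cons 231 (.leaf 230 1817 (.cons 255 (.leaf 232 1825 (.cons 279 (.leaf 278 2008 (.leaf 280 2016 .nil)) .nil)) .nil)) .nil)) (.cons 254 (.leaf 274 2002 (.cons 227 (.leaf 226 1811 (.cons 255 (.leaf 228 1819 (.cons 279 (.leaf 278 2008 (.leaf 280 2016 .nil)) .nil)) .nil)) .nil)) .nil))))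
noncomputable def t93 : T := .cons 249 (.leaf 273 1986 (.cons 225 (.leaf 224 1795 (.cons 226 (.leaf 253 1803 (.cons 202 (.leaf 178 1428 (.cons 228 (.leaf 229 1801 (.cons 227 (.leaf 299 1623 (.leaf 248 1793 .nil)) .nil)) .nil)) .nil)) .nil)) .nil)) (.cons 226 (.cons 202 (.leaf 178 1428 (.cons 299 (.leaf 227 1623 (.leaf 323 1815 .nil)) .nil)) (.cons 178 (.leaf 202 1428 (.cons 253 (.leaf 225 1803 (.cons 230 (.leaf 229 1809 (.cons 254 (.leaf 227 1811 (.leaf 231 1817 .nil)) .nil)) .nil)) .nil)) (.cons 253 (.leaf 225 1803 (.cons 254 (.leaf 227 1811 (.cons 230 (.leaf 229 1809 (.leaf 231 1817 .nil)) .nil)) .nil)) (.cons 178 (.leaf 202 1428 (.cons 253 (.leaf 225 1803 (.cons 299 (.leaf 323 1815 (.cons 230 (.leaf 229 1809 (.cons 254 (.leaf 231 1817 (.cons 278 (.leaf 277 2000 (.leaf 279 2008 .nil)) .nil)) .nil)) .nil)) .nil)) .nil)) .nil)))) (.cons 249 (.leaf 273 1986 (.cons 228 (.leaf 229 1801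 (.cons 248 (.leaf 271 1978 (.leaf 227 1793 .nil)) .nil)) .nil)) (.cons 249 (.leaf 273 1986 (.cons 225 (.leaf 224 1795 (.cons 226 (.leaf 253 1803 (.cons 178 (.leaf 202 1428 (.cons 248 (.leaf 271 1978 (.cons 247 (.leaf 227 1785 (.leaf 246 1777 .nil)) .nil)) .nil)) .nil)) .nil)) .nil)) (.cons 249 (.leaf 273 1986 (.cons 225 (.leaf 224 1795 (.cons 229 (.leaf 228 1801 (.cons 253 (.leaf 226 1803 (.leaf 230 1809 .nil)) .nil)) .nil)) .nil)) .nil))))
noncomputable def t94 : T := .cons 274 (.leaf 273 1985 (.cons 253 (.leaf 254 2002 (.cons 250 (.cons 229 (.leaf 230 1809 (.cons 228 (.leaf 249 1801 (.cons 204 (.leaf 180 1438 (.cons 277 (.leaf 278 2000 (.leaf 301 1639 .nil)) .nil)) .nil)) .nil)) (.cons 225 (.leaf 226 1803 (.cons 249 (.leaf 224 1795 (.cons 248 (.leaf 247 1976 (.leaf 271 1978 .nil)) .nil)) .nil)) (.cons 226 (.leaf 225 1803 (.cons 299 (.leaf 202 1620 (.leaf 323 1815 .nil)) .nil)) .nil)))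 .nil)) .nil)) (.cons 250 t93 (.cons 253 t92 (.cons 273 (.leaf 274 1985 (.cons 299 t91 .nil)) (.cons 273 (.leaf 274 1985 (.cons 250 (.leaf 249 1986 (.cons 226 (.cons 178 (.leaf 202 1428 (.cons 253 (.leaf 225 1803 (.cons 254 (.leaf 227 1811 (.cons 230 (.leaf 229 1809 (.leaf 231 1817 .nil)) .nil)) .nil)) .nil)) (.cons 202 (.leaf 178 1428 (.cons 299 (.leaf 227 1623 (.leaf 323 1815 .nil)) .nil)) (.cons 253 (.leaf 225 1803 (.cons 254 (.leaf 227 1811 (.cons 278 (.leaf 277 2000 (.leaf 279 2008 .nil)) .nil)) .nil)) (.cons 178 (.leaf 202 1428 (.cons 253 (.leaf 225 1803 (.cons 230 (.leaf 229 1809 (.cons 254 (.leaf 231 1817 (.cons 278 (.leaf 277 2000 (.leaf 279 2008 .nil)) .nil)) .nil)) .nil)) .nil)) .nil)))) .nil)) .nil)) (.cons 274 (.leaf 273 1985 (.cons 253 (.leaf 254 2002 (.cons 250 (.cons 229 (.leaf 230 1809 (.cons 228 (.leaf 249 1801 (.cons 204 (.leaf 180 1438 (.cons 277 (.leaf 278 2000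 (.leaf 301 1639 .nil)) .nil)) .nil)) .nil)) (.cons 225 (.leaf 226 1803 (.cons 249 (.leaf 224 1795 (.cons 248 (.leaf 247 1976 (.leaf 271 1978 .nil)) .nil)) .nil)) (.cons 226 (.leaf 225 1803 (.cons 202 (.leaf 178 1428 (.cons 203 (.leaf 179 1429 (.cons 227 (.leaf 298 1621 (.cons 204 (.leaf 180 1437 (.cons 229 (.leaf 230 1809 (.cons 201 (.leaf 177 1423 (.leaf 228 1608 .nil)) .nil)) .nil)) .nil)) .nil)) .nil)) .nil)) .nil))) .nil)) .nil)) (.cons 274 (.leaf 273 1985 (.cons 228 t90 .nil)) (.cons 274 (.leaf 273 1985 (.cons 253 (.leaf 254 2002 (.cons 250 (.cons 225 (.leaf 226 1803 (.cons 229 (.leaf 230 1809 (.cons 249 (.leaf 224 1795 (.leaf 228 1801 .nil)) .nil)) .nil)) (.cons 229 (.leaf 230 1809 (.cons 228 (.leaf 249 1801 (.cons 204 (.leaf 180 1438 (.cons 277 (.leaf 278 2000 (.leaf 301 1639 .nil)) .nil)) .nil)) .nil)) (.cons 225 (.leaf 226 1803 (.cons 249 (.leaf 224 1795 (.cons 248 (.leaf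 247 1976 (.leaf 271 1978 .nil)) .nil)) .nil)) (.cons 226 (.leaf 225 1803 (.cons 299 (.leaf 323 1815 (.cons 298 (.cons 227 (.leaf 203 1621 (.leaf 322 1813 .nil)) (.cons 297 (.leaf 321 1806 (.cons 296 (.leaf 295 2169 (.leaf 271 2171 .nil)) .nil)) .nil)) .nil)) .nil)) .nil)))) .nil)) .nil)) .nil)))))))
noncomputable def t95 : T := .cons 299 (.leaf 300 2176 (.cons 296 (.leaf 295 2170 (.cons 248 (.leaf 247 1979 (.cons 227 (.cons 298 (.leaf 203 1622 (.leaf 322 1814 .nil)) (.cons 226 (.leaf 202 1623 (.cons 204 (.leaf 228 1629 (.cons 203 (.leaf 180 1437 (.cons 250 (.leaf 323 1815 (.leaf 271 1977 .nil)) .nil)) .nil)) .nil)) (.cons 202 (.leaf 226 1623 (.cons 228 (.leaf 204 1629 (.cons 250 (.leaf 271 1977 (.leaf 249 1793 .nil)) .nil)) .nil)) .nil))) .nil)) .nil)) .nil)) (.cons 299 (.leaf 300 2176 (.cons 296 (.leaf 295 2170 (.cons 248 (.leaf 247 1979 (.cons 227 (.cons 298 (.leaf 203 1622 (.leaf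 322 1814 .nil)) (.cons 226 (.leaf 202 1623 (.cons 204 (.leaf 228 1629 (.cons 203 (.leaf 180 1437 (.cons 250 (.leaf 323 1815 (.leaf 179 1430 .nil)) .nil)) .nil)) .nil)) (.cons 202 (.leaf 226 1623 (.cons 228 (.leaf 204 1629 (.cons 249 (.leaf 250 1793 (.cons 225 (.leaf 201 1606 (.leaf 320 1797 .nil)) .nil)) .nil)) .nil)) .nil))) .nil)) .nil)) .nil)) (.cons 271 (.leaf 250 1977 (.cons 295 (.leaf 296 2170 (.leaf 294 2162 .nil)) .nil)) (.cons 299 (.leaf 300 2176 (.cons 247 (.leaf 248 1979 (.cons 271 (.leaf 246 1971 (.leaf 298 2168 .nil)) .nil)) .nil)) .nil)))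
noncomputable def t96 : T := .cons 202 (.leaf 226 1623 (.cons 228 (.leaf 204 1629 (.cons 252 (.leaf 323 1821 (.cons 253 (.leaf 254 2002 (.cons 300 (.leaf 324 1820 (.cons 301 (.leaf 302 2195 (.cons 277 (.leaf 325 1831 (.cons 250 (.leaf 278 2000 (.cons 229 (.leaf 230 1809 (.leaf 249 1801 .nil)) .nil)) .nil)) .nil)) .nil)) .nil)) .nil)) .nil)) .nil)) (.cons 228 (.leaf 204 1629 (.cons 252 (.leaf 323 1821 (.cons 253 (.leaf 254 2002 (.cons 300 (.leaf 324 1820 (.cons 301 (.leaf 302 2195 (.cons 277 (.leaf 325 1831 (.cons 250 (.leaf 278 2000 (.cons 229 (.leaf 230 1809 (.leaf 249 1801 .nil)) .nil)) .nil)) .nil)) .nil)) .nil)) .nil)) .nil)) (.cons 202 (.leaf 226 1623 (.cons 203 (.leaf 178 1431 (.cons 250 (.leaf 179 1430 (.cons 323 (.leaf 347 2007 (.cons 324 (.leaf 300 1820 (.leaf 348 2012 .nil)) .nil)) .nil)) .nil)) .nil)) (.cons 202 (.leaf 226 1623 (.cons 178 (.leaf 203 1431 (.cons 228 (.leaf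 204 1629 (.cons 323 (.leaf 252 1821 (.cons 324 (.leaf 300 1820 (.leaf 348 2012 .nil)) .nil)) .nil)) .nil)) .nil)) (.cons 226 (.leaf 202 1623 (.cons 228 (.leaf 204 1629 (.cons 323 (.leaf 250 1815 (.leaf 252 1821 .nil)) .nil)) .nil)) (.cons 202 (.leaf 226 1623 (.cons 203 (.leaf 178 1431 (.cons 204 (.leaf 180 1437 (.leaf 228 1629 .nil)) .nil)) .nil)) .nil)))))
noncomputable def t97 : T := .cons 226 (.leaf 202 1623 (.cons 323 (.leaf 250 1815 (.cons 324 (.leaf 300 1820 (.leaf 348 2012 .nil)) .nil)) .nil)) (.cons 228 (.leaf 204 1629 (.cons 298 (.leaf 322 1814 (.cons 300 (.leaf 324 1820 (.cons 252 (.leaf 323 1821 (.cons 253 (.leaf 254 2002 (.cons 301 (.leaf 302 2195 (.cons 277 (.leaf 278 2193 (.leaf 325 1831 .nil)) .nil)) .nil)) .nil)) .nil)) .nil)) .nil)) (.cons 228 (.leaf 204 1629 (.cons 298 (.leaf 322 1814 (.cons 323 (.leaf 252 1821 (.cons 250 (.leaf 226 1812 (.leaf 347 2007 .nil)) .nil))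 .nil)) .nil)) (.cons 226 (.leaf 202 1623 (.cons 228 (.leaf 204 1629 (.cons 300 (.leaf 324 1820 (.cons 301 (.leaf 302 2195 (.cons 225 (.cons 248 (.leaf 249 1794 (.cons 253 (.leaf 252 1800 (.cons 229 (.leaf 254 1808 (.cons 206 (.leaf 205 1617 (.cons 230 (.leaf 250 1810 (.leaf 207 1625 .nil)) .nil)) .nil)) .nil)) .nil)) (.cons 200 (.leaf 201 1603 (.cons 249 (.leaf 248 1794 (.cons 229 (.leaf 250 1802 (.cons 206 (.leaf 205 1617 (.cons 230 (.leaf 207 1625 (.cons 253 (.leaf 254 1808 (.leaf 277 1645 .nil)) .nil)) .nil)) .nil)) .nil)) .nil)) (.cons 200 (.leaf 201 1603 (.cons 224 (.leaf 252 1792 (.leaf 199 1595 .nil)) .nil)) .nil))) .nil)) .nil)) .nil)) .nil)) .nil)))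
noncomputable def t98 : T := .cons 273 (.leaf 252 1985 (.cons 299 (.leaf 300 2176 (.cons 296 (.leaf 295 2170 (.cons 248 (.leaf 247 1979 (.cons 227 (.cons 298 (.leaf 203 1622 (.leaf 322 1814 .nil)) (.cons 226 (.leaf 202 1623 (.cons 204 (.leaf 228 1629 (.cons 203 (.leaf 180 1437 (.cons 250 (.leaf 323 1815 (.leaf 271 1977 .nil)) .nil)) .nil)) .nil)) (.cons 202 (.leaf 226 1623 (.cons 228 (.leaf 204 1629 (.cons 250 (.leaf 271 1977 (.leaf 249 1793 .nil)) .nil)) .nil)) .nil))) .nil)) .nil)) .nil)) .nil)) (.cons 227 (.cons 203 (.leaf 298 1622 (.cons 178 (.leaf 202 1431 (.cons 179 (.leaf 154 1239 (.leaf 250 1430 .nil)) .nil)) .nil)) (.cons 299 t97 (.cons 299 t96 (.cons 203 (.leaf 298 1622 (.cons 178 (.leaf 202 1431 (.cons 179 (.leaf 154 1239 (.cons 180 (.leaf 204 1437 (.leaf 156 1245 .nil)) .nil)) .nil)) .nil)) (.cons 203 (.leaf 298 1622 (.cons 179 (.leaf 250 1430 (.cons 180 (.leaf 204 1437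 (.leaf 156 1245 .nil)) .nil)) .nil)) .nil))))) (.cons 273 t95 (.cons 273 (.leaf 252 1985 (.cons 299 (.leaf 300 2176 (.cons 247 (.leaf 248 1979 (.cons 271 (.leaf 246 1971 (.leaf 298 2168 .nil)) .nil)) .nil)) .nil)) (.cons 273 (.leaf 252 1985 (.cons 271 (.leaf 250 1977 (.cons 295 (.leaf 296 2170 (.leaf 294 2162 .nil)) .nil)) .nil)) .nil))))
noncomputable def t99 : T := .cons 322 (.leaf 346 2005 (.cons 250 (.leaf 227 1813 (.cons 249 (.leaf 225 1807 (.cons 248 (.leaf 247 1976 (.leaf 271 1978 .nil)) .nil)) .nil)) .nil)) (.cons 227 (.leaf 203 1622 (.cons 299 (.cons 228 (.leaf 204 1629 (.cons 300 (.leaf 324 1820 (.cons 252 (.leaf 323 1821 (.cons 253 (.leaf 254 2002 (.cons 301 (.leaf 302 2195 (.cons 277 (.leaf 278 2193 (.leaf 325 1831 .nil)) .nil)) .nil)) .nil)) .nil)) .nil)) (.cons 300 (.leaf 324 1820 (.cons 228 (.leaf 204 1629 (.cons 301 (.leaf 302 2195 (.cons 277 (.leaf 278 2193 (.cons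 325 (.leaf 326 2384 (.cons 253 (.leaf 252 1831 (.cons 230 (.leaf 254 1837 (.cons 229 (.leaf 250 1810 (.leaf 206 1645 .nil)) .nil)) .nil)) .nil)) .nil)) .nil)) .nil)) .nil)) (.cons 324 (.leaf 300 1820 (.cons 323 (.leaf 348 2012 (.cons 347 (.leaf 250 2007 (.leaf 371 2199 .nil)) .nil)) .nil)) (.cons 228 (.leaf 204 1629 (.cons 323 (.leaf 252 1821 (.cons 250 (.leaf 226 1812 (.leaf 347 2007 .nil)) .nil)) .nil)) .nil)))) .nil)) (.cons 322 (.leaf 346 2005 (.cons 250 (.cons 249 (.leaf 225 1807 (.cons 248 (.leaf 247 1976 (.leaf 271 1978 .nil)) .nil)) (.cons 321 (.leaf 345 1998 (.cons 297 (.leaf 226 1806 (.cons 296 (.leaf 295 2169 (.cons 323 (.leaf 347 2004 (.leaf 324 2371 .nil)) .nil)) .nil)) .nil)) .nil)) .nil)) (.cons 227 (.leaf 203 1622 (.cons 322 (.leaf 299 1814 (.leaf 346 2005 .nil)) .nil)) .nil)))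
noncomputable def t100 : T := .cons 322 (.leaf 346 2005 (.cons 250 (.leaf 227 1813 (.cons 249 (.leaf 225 1807 (.cons 248 (.leaf 247 1976 (.leaf 271 1978 .nil)) .nil)) .nil)) .nil)) (.cons 227 (.leaf 203 1622 (.cons 299 (.cons 228 (.leaf 204 1629 (.cons 300 (.leaf 324 1820 (.leaf 273 2176 .nil)) .nil)) (.cons 228 (.leaf 204 1629 (.cons 300 (.leaf 324 1820 (.cons 252 (.leaf 323 1821 (.cons 253 (.leaf 254 2002 (.cons 301 (.leaf 302 2195 (.cons 277 (.leaf 278 2193 (.leaf 325 1831 .nil)) .nil)) .nil)) .nil)) .nil)) .nil)) (.cons 228 (.leaf 204 1629 (.cons 323 (.leaf 252 1821 (.cons 250 (.leaf 226 1812 (.leaf 347 2007 .nil)) .nil)) .nil)) (.cons 273 (.leaf 252 1985 (.leaf 300 2176 .nil)) .nil)))) .nil)) (.cons 322 (.leaf 346 2005 (.cons 250 (.cons 249 (.leaf 225 1807 (.cons 248 (.leaf 247 1976 (.leaf 271 1978 .nil)) .nil)) (.cons 321 (.leaf 345 1998 (.cons 297 (.leaf 226 1806 (.cons 273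 (.leaf 252 1985 (.leaf 271 1977 .nil)) .nil)) .nil)) (.cons 321 (.leaf 345 1998 (.cons 297 (.leaf 226 1806 (.cons 273 (.leaf 252 1985 (.cons 225 (.leaf 249 1804 (.cons 295 (.leaf 296 2169 (.cons 299 (.leaf 300 2176 (.cons 323 (.leaf 347 2004 (.cons 324 (.leaf 348 2012 (.leaf 325 2379 .nil)) .nil)) .nil)) .nil)) .nil)) .nil)) .nil)) .nil)) .nil))) .nil)) (.cons 227 (.leaf 203 1622 (.cons 322 (.leaf 299 1814 (.leaf 346 2005 .nil)) .nil)) .nil)))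
noncomputable def t101 : T := .cons 298 t100 (.cons 298 t99 (.cons 273 (.cons 299 (.leaf 300 2176 (.cons 296 (.leaf 295 2170 (.cons 248 (.leaf 247 1979 (.cons 323 (.cons 322 (.leaf 346 2006 (.cons 324 (.leaf 348 2012 (.cons 298 (.leaf 227 1814 (.leaf 271 2168 .nil)) .nil)) .nil)) (.cons 322 (.leaf 346 2006 (.cons 324 (.leaf 348 2012 (.cons 250 (.leaf 226 1815 (.leaf 347 2007 .nil)) .nil)) .nil)) (.cons 250 (.leaf 226 1815 (.leaf 347 2007 .nil)) .nil))) .nil)) .nil)) .nil)) (.cons 299 (.leaf 300 2176 (.cons 296 (.leaf 295 2170 (.cons 248 (.leaf 247 1979 (.cons 323 (.cons 322 (.leaf 346 2006 (.cons 324 (.leaf 348 2012 (.cons 298 (.leaf 227 1814 (.leaf 297 2368 .nil)) .nil)) .nil)) (.cons 250 (.leaf 226 1815 (.leaf 347 2007 .nil)) .nil)) .nil)) .nil)) .nil)) (.cons 271 (.leaf 250 1977 (.cons 295 (.leaf 296 2170 (.leaf 294 2162 .nil)) .nil)) (.cons 299 (.leaf 300 2176 (.cons 247 (.leaf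 248 1979 (.cons 271 (.leaf 246 1971 (.leaf 298 2168 .nil)) .nil)) .nil)) .nil)))) (.cons 273 (.leaf 252 1985 (.cons 271 (.leaf 250 1977 (.cons 295 (.leaf 296 2170 (.leaf 294 2162 .nil)) .nil)) .nil)) (.cons 273 (.leaf 252 1985 (.cons 299 (.leaf 300 2176 (.cons 247 (.leaf 248 1979 (.cons 271 (.leaf 246 1971 (.leaf 298 2168 .nil)) .nil)) .nil)) .nil)) (.cons 273 (.leaf 252 1985 (.cons 299 (.leaf 300 2176 (.cons 296 (.leaf 295 2170 (.cons 248 (.leaf 247 1979 (.cons 323 (.cons 322 (.leaf 346 2006 (.cons 324 (.leaf 348 2012 (.cons 298 (.leaf 227 1814 (.leaf 297 2368 .nil)) .nil)) .nil)) (.cons 250 (.leaf 226 1815 (.leaf 347 2007 .nil)) .nil)) .nil)) .nil)) .nil)) .nil)) .nil)))))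
noncomputable def t102 : T := .cons 203 (.leaf 298 1622 (.cons 179 (.leaf 250 1430 (.cons 180 (.leaf 204 1437 (.leaf 156 1245 .nil)) .nil)) .nil)) (.cons 299 (.cons 228 (.leaf 204 1629 (.leaf 323 1821 .nil)) (.cons 324 (.leaf 300 1820 (.cons 323 (.leaf 348 2012 (.cons 347 (.leaf 250 2007 (.cons 371 (.leaf 298 2199 (.cons 370 (.leaf 346 2198 (.leaf 394 2390 .nil)) .nil)) .nil)) .nil)) .nil)) (.cons 228 (.leaf 204 1629 (.cons 300 (.leaf 324 1820 (.cons 301 (.leaf 302 2195 (.cons 277 (.leaf 325 1831 (.cons 250 (.leaf 278 2000 (.cons 229 (.leaf 230 1809 (.leaf 249 1801 .nil)) .nil)) .nil)) .nil)) .nil)) .nil)) .nil))) (.cons 203 (.leaf 298 1622 (.cons 202 (.leaf 178 1431 (.cons 204 (.leaf 180 1437 (.cons 228 (.leaf 299 1629 (.cons 201 (.leaf 200 1600 (.leaf 229 1608 .nil)) .nil)) .nil)) .nil)) .nil)) (.cons 203 (.cons 179 (.leaf 250 1430 (.cons 180 (.leaf 204 1437 (.leaf 156 1245 .nil))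 .nil)) (.cons 202 (.leaf 178 1431 (.cons 204 (.leaf 180 1437 (.cons 228 (.leaf 299 1629 (.cons 201 (.leaf 200 1600 (.leaf 229 1608 .nil)) .nil)) .nil)) .nil)) (.cons 178 (.leaf 202 1431 (.cons 179 (.leaf 154 1239 (.leaf 250 1430 .nil)) .nil)) .nil))) (.cons 203 (.leaf 298 1622 (.cons 178 (.leaf 202 1431 (.cons 179 (.leaf 154 1239 (.leaf 250 1430 .nil)) .nil)) .nil)) .nil))))
noncomputable def t103 : T := .cons 201 (.leaf 296 1606 (.cons 177 (.leaf 248 1414 (.cons 178 (.leaf 202 1421 (.leaf 154 1229 .nil)) .nil)) .nil)) (.cons 226 (.cons 202 (.leaf 297 1613 (.cons 154 (.leaf 178 1230 (.cons 227 (.leaf 299 1623 (.leaf 224 1792 .nil)) .nil)) .nil)) (.cons 297 (.leaf 202 1613 (.cons 224 (.leaf 200 1607 (.cons 248 (.leaf 321 1799 (.cons 296 (.leaf 320 1797 (.cons 295 (.leaf 319 1790 (.cons 294 (.leaf 293 2153 (.cons 246 (.leaf 247 1777 (.cons 270 (.leaf 269 2155 (.cons 271 (.leaf 245 1963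 (.leaf 298 2160 .nil)) .nil)) .nil)) .nil)) .nil)) .nil)) .nil)) .nil)) .nil)) (.cons 227 (.leaf 224 1792 (.cons 228 (.leaf 248 1794 (.cons 204 (.leaf 180 1438 (.leaf 299 1629 .nil)) .nil)) .nil)) (.cons 202 (.leaf 297 1613 (.cons 154 (.leaf 178 1230 (.cons 227 (.leaf 299 1623 (.cons 228 (.leaf 248 1794 (.cons 204 (.leaf 180 1438 (.leaf 205 1609 .nil)) .nil)) .nil)) .nil)) .nil)) .nil)))) (.cons 201 (.cons 176 (.leaf 200 1415 (.cons 177 (.leaf 248 1414 (.leaf 152 1223 .nil)) .nil)) (.cons 176 (.leaf 200 1415 (.cons 202 (.leaf 178 1421 (.cons 226 (.leaf 297 1613 (.cons 227 (.leaf 299 1623 (.leaf 224 1792 .nil)) .nil)) .nil)) .nil)) (.cons 177 (.leaf 248 1414 (.cons 178 (.leaf 202 1421 (.leaf 154 1229 .nil)) .nil)) .nil))) (.cons 201 (.leaf 296 1606 (.cons 176 (.leaf 200 1415 (.cons 177 (.leaf 152 1223 (.cons 178 (.leaf 202 1421 (.leaf 154 1229 .nil)) .nil)) .nil)) .nil)) (.cons 296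 (.leaf 201 1606 (.cons 320 (.leaf 248 1797 (.leaf 344 1989 .nil)) .nil)) .nil))))
noncomputable def t104 : T := .cons 273 (.leaf 274 1985 (.cons 299 (.cons 226 (.leaf 202 1623 (.cons 225 (.leaf 224 1792 (.cons 228 (.leaf 204 1629 (.leaf 323 1821 .nil)) .nil)) .nil)) (.cons 226 (.leaf 202 1623 (.cons 224 (.leaf 225 1792 (.cons 253 (.leaf 254 1811 (.cons 300 (.leaf 324 1820 (.cons 297 (.leaf 298 2179 (.cons 248 (.leaf 200 1604 (.cons 321 (.leaf 296 1796 (.leaf 345 1991 .nil)) .nil)) .nil)) .nil)) .nil)) .nil)) .nil)) (.cons 228 (.leaf 204 1629 (.leaf 323 1821 .nil)) .nil))) .nil)) (.cons 226 (.cons 225 (.leaf 224 1792 (.cons 253 (.leaf 254 1811 (.leaf 228 1800 .nil)) .nil)) (.cons 202 (.leaf 299 1623 (.cons 178 (.leaf 203 1431 (.leaf 154 1236 .nil)) .nil)) .nil)) (.cons 274 (.leaf 273 1985 (.cons 203 (.leaf 298 1622 (.cons 202 (.leaf 178 1431 (.cons 204 (.leaf 180 1437 (.cons 226 (.leaf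 299 1623 (.cons 225 (.leaf 224 1792 (.leaf 205 1610 .nil)) .nil)) .nil)) .nil)) .nil)) .nil)) (.cons 274 (.leaf 273 1985 (.cons 203 (.leaf 298 1622 (.cons 178 (.leaf 202 1431 (.cons 179 (.leaf 154 1239 (.cons 155 (.leaf 228 1244 (.cons 156 (.leaf 180 1245 (.leaf 132 1053 .nil)) .nil)) .nil)) .nil)) .nil)) .nil)) (.cons 274 (.leaf 273 1985 (.cons 203 (.leaf 298 1622 (.cons 180 (.leaf 204 1437 (.cons 179 (.leaf 156 1245 (.cons 154 (.leaf 178 1239 (.cons 155 (.leaf 228 1244 (.leaf 130 1047 .nil)) .nil)) .nil)) .nil)) .nil)) .nil)) .nil))))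
noncomputable def t105 : T := .cons 249 (.leaf 273 1986 (.cons 225 (.leaf 224 1795 (.cons 226 (.leaf 253 1803 (.cons 202 (.leaf 178 1428 (.cons 228 (.leaf 229 1801 (.cons 227 (.leaf 299 1623 (.leaf 248 1793 .nil)) .nil)) .nil)) .nil)) .nil)) .nil)) (.cons 253 (.cons 226 (.leaf 225 1803 (.cons 178 (.leaf 202 1428 (.cons 230 (.leaf 229 1809 (.cons 254 (.leaf 227 1811 (.leaf 231 1817 .nil)) .nil)) .nil)) .nil)) (.cons 230 (.leaf 229 1809 (.cons 254 (.leaf 231 1817 (.cons 278 (.leaf 277 2000 (.leaf 279 2008 .nil)) .nil)) .nil)) (.cons 226 (.leaf 225 1803 (.cons 178 (.leaf 202 1428 (.cons 254 (.leaf 227 1811 (.cons 278 (.leaf 277 2000 (.leaf 279 2008 .nil)) .nil)) .nil)) .nil)) (.cons 226 (.leaf 225 1803 (.cons 202 (.leaf 178 1428 (.cons 299 (.leaf 227 1623 (.leaf 323 1815 .nil)) .nil)) .nil)) .nil)))) (.cons 249 (.leaf 273 1986 (.cons 228 (.leaf 229 1801 (.cons 248 (.leaf 271 1978 (.leaf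 227 1793 .nil)) .nil)) .nil)) (.cons 249 (.leaf 273 1986 (.cons 225 (.leaf 224 1795 (.cons 226 (.leaf 253 1803 (.cons 178 (.leaf 202 1428 (.cons 248 (.leaf 271 1978 (.cons 247 (.leaf 227 1785 (.leaf 246 1777 .nil)) .nil)) .nil)) .nil)) .nil)) .nil)) (.cons 249 (.leaf 273 1986 (.cons 225 (.leaf 224 1795 (.cons 229 (.leaf 228 1801 (.cons 253 (.leaf 226 1803 (.leaf 230 1809 .nil)) .nil)) .nil)) .nil)) .nil))))
noncomputable def t106 : T := .cons 274 (.leaf 273 1985 (.cons 253 (.leaf 254 2002 (.cons 227 (.cons 203 (.leaf 298 1622 (.cons 178 (.leaf 202 1431 (.cons 179 (.leaf 154 1239 (.leaf 250 1430 .nil)) .nil)) .nil)) (.cons 226 (.cons 225 (.leaf 224 1792 (.leaf 250 1803 .nil)) (.cons 202 (.leaf 299 1623 (.cons 178 (.leaf 250 1428 (.leaf 154 1236 .nil)) .nil)) (.cons 225 (.leaf 224 1792 (.leaf 228 1800 .nil)) .nil))) (.cons 203 (.leaf 298 1622 (.cons 178 (.leaf 202 1431 (.cons 179 (.leaf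 154 1239 (.cons 180 (.leaf 204 1437 (.leaf 156 1245 .nil)) .nil)) .nil)) .nil)) (.cons 203 (.leaf 298 1622 (.cons 179 (.leaf 250 1430 (.cons 180 (.leaf 204 1437 (.leaf 156 1245 .nil)) .nil)) .nil)) .nil)))) .nil)) .nil)) (.cons 253 t92 (.cons 250 t105 (.cons 227 t104 (.cons 273 (.leaf 274 1985 (.cons 250 (.leaf 249 1986 (.cons 226 (.cons 178 (.leaf 202 1428 (.cons 253 (.leaf 225 1803 (.cons 254 (.leaf 227 1811 (.cons 230 (.leaf 229 1809 (.leaf 231 1817 .nil)) .nil)) .nil)) .nil)) (.cons 202 (.leaf 178 1428 (.cons 299 (.leaf 227 1623 (.leaf 323 1815 .nil)) .nil)) (.cons 253 (.leaf 225 1803 (.cons 254 (.leaf 227 1811 (.cons 278 (.leaf 277 2000 (.leaf 279 2008 .nil)) .nil)) .nil)) (.cons 178 (.leaf 202 1428 (.cons 253 (.leaf 225 1803 (.cons 230 (.leaf 229 1809 (.cons 254 (.leaf 231 1817 (.cons 278 (.leaf 277 2000 (.leaf 279 2008 .nil)) .nil)) .nil)) .nil)) .nil)) .nil)))) .nil)) .nil))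 (.cons 273 (.leaf 274 1985 (.cons 249 (.leaf 250 1986 (.cons 225 t103 .nil)) .nil)) (.cons 274 (.leaf 273 1985 (.cons 253 (.leaf 254 2002 (.cons 250 (.cons 229 (.leaf 230 1809 (.cons 228 (.leaf 249 1801 (.cons 204 (.leaf 180 1438 (.cons 277 (.leaf 278 2000 (.leaf 301 1639 .nil)) .nil)) .nil)) .nil)) (.cons 225 (.leaf 226 1803 (.cons 249 (.leaf 224 1795 (.cons 248 (.leaf 247 1976 (.leaf 271 1978 .nil)) .nil)) .nil)) (.cons 226 (.leaf 225 1803 (.cons 202 (.leaf 178 1428 (.cons 203 (.leaf 179 1429 (.cons 227 (.leaf 298 1621 (.cons 204 (.leaf 180 1437 (.cons 229 (.leaf 230 1809 (.cons 201 (.leaf 177 1423 (.leaf 228 1608 .nil)) .nil)) .nil)) .nil)) .nil)) .nil)) .nil)) .nil))) .nil)) .nil)) (.cons 274 (.leaf 273 1985 (.cons 253 (.leaf 254 2002 (.cons 250 (.cons 229 (.leaf 230 1809 (.cons 277 (.leaf 278 2000 (.cons 301 (.cons 300 (.leaf 324 1830 (.cons 302 (.leaf 299 2195 (.leaf 326 1836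 .nil)) .nil)) (.cons 228 (.leaf 249 1801 (.leaf 325 1831 .nil)) .nil)) .nil)) .nil)) (.cons 226 (.leaf 225 1803 (.cons 202 (.leaf 178 1428 (.leaf 299 1620 .nil)) .nil)) (.cons 229 (.leaf 230 1809 (.cons 228 (.leaf 249 1801 (.cons 204 (.leaf 180 1438 (.cons 277 (.leaf 278 2000 (.leaf 301 1639 .nil)) .nil)) .nil)) .nil)) .nil))) .nil)) .nil)) (.cons 274 (.leaf 273 1985 (.cons 253 (.leaf 254 2002 (.cons 227 t102 .nil)) .nil)) (.cons 274 (.leaf 273 1985 (.cons 253 (.leaf 254 2002 (.cons 250 (.cons 225 (.leaf 226 1803 (.cons 229 (.leaf 230 1809 (.cons 249 (.leaf 224 1795 (.leaf 228 1801 .nil)) .nil)) .nil)) (.cons 229 (.leaf 230 1809 (.cons 277 (.leaf 278 2000 (.cons 301 (.cons 300 (.leaf 324 1830 (.cons 302 (.leaf 299 2195 (.leaf 326 1836 .nil)) .nil)) (.cons 228 (.leaf 249 1801 (.leaf 325 1831 .nil)) .nil)) .nil)) .nil)) (.cons 225 (.leaf 226 1803 (.cons 249 (.leaf 224 1795 (.cons 248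 (.leaf 247 1976 (.leaf 271 1978 .nil)) .nil)) .nil)) (.cons 226 (.leaf 225 1803 (.cons 299 (.leaf 323 1815 (.cons 229 (.leaf 230 1809 (.cons 277 (.leaf 278 2000 (.cons 227 (.cons 203 (.leaf 298 1621 (.leaf 179 1430 .nil)) (.cons 228 (.leaf 204 1629 (.cons 301 (.leaf 325 1831 (.cons 300 (.leaf 324 1820 (.leaf 302 2195 .nil)) .nil)) .nil)) .nil)) .nil)) .nil)) .nil)) .nil)) .nil)))) .nil)) .nil)) .nil)))))))))
noncomputable def t107 : T := .cons 178 (.leaf 202 1431 (.cons 204 (.leaf 180 1437 (.cons 179 (.leaf 154 1239 (.leaf 250 1430 .nil)) .nil)) .nil)) (.cons 178 (.leaf 202 1431 (.cons 204 (.leaf 180 1437 (.cons 299 (.leaf 228 1629 (.cons 324 (.leaf 300 1820 (.cons 323 (.leaf 348 2012 (.cons 347 (.leaf 250 2007 (.cons 346 (.leaf 322 2006 (.leaf 370 2198 .nil)) .nil)) .nil)) .nil)) .nil)) .nil)) .nil)) (.cons 179 (.leaf 250 1430 (.cons 154 (.leaf 178 1239 (.cons 155 (.leaf 130 1047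 (.cons 156 (.leaf 180 1245 (.leaf 132 1053 .nil)) .nil)) .nil)) .nil)) (.cons 179 (.leaf 250 1430 (.cons 154 (.leaf 178 1239 (.cons 155 (.leaf 130 1047 (.cons 132 (.leaf 156 1053 (.cons 131 (.leaf 108 861 (.cons 228 (.leaf 252 1244 (.leaf 204 1052 .nil)) .nil)) .nil)) .nil)) .nil)) .nil)) (.cons 179 (.leaf 250 1430 (.cons 180 (.leaf 204 1437 (.leaf 156 1245 .nil)) .nil)) (.cons 204 (.leaf 180 1437 (.cons 178 (.leaf 202 1431 (.cons 179 (.leaf 154 1239 (.cons 176 (.leaf 177 1408 (.cons 228 (.leaf 299 1629 (.cons 155 (.leaf 252 1244 (.leaf 131 1052 .nil)) .nil)) .nil)) .nil)) .nil)) .nil)) .nil)))))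
noncomputable def t108 : T := .cons 228 (.leaf 204 1629 (.cons 298 (.leaf 322 1814 (.cons 300 (.leaf 324 1820 (.cons 252 (.leaf 323 1821 (.cons 253 (.leaf 254 2002 (.cons 301 (.leaf 302 2195 (.cons 277 (.leaf 278 2193 (.leaf 325 1831 .nil)) .nil)) .nil)) .nil)) .nil)) .nil)) .nil)) (.cons 228 (.leaf 204 1629 (.cons 252 (.leaf 323 1821 (.cons 253 (.leaf 254 2002 (.cons 300 (.leaf 324 1820 (.cons 301 (.leaf 302 2195 (.cons 277 (.leaf 325 1831 (.cons 250 (.leaf 278 2000 (.cons 229 (.leaf 230 1809 (.leaf 249 1801 .nil)) .nil)) .nil)) .nil)) .nil)) .nil)) .nil)) .nil)) (.cons 322 (.leaf 298 1814 (.cons 323 (.leaf 346 2006 (.cons 324 (.leaf 300 1820 (.leaf 348 2012 .nil)) .nil)) .nil)) (.cons 322 (.leaf 298 1814 (.cons 204 (.leaf 228 1629 (.cons 323 (.leaf 346 2006 (.cons 347 (.leaf 250 2007 (.cons 348 (.leaf 324 2012 (.leaf 372 2204 .nil)) .nil)) .nil)) .nil)) .nil)) (.cons 322 (.leaf 298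 1814 (.cons 228 (.leaf 204 1629 (.cons 323 (.leaf 252 1821 (.leaf 346 2006 .nil)) .nil)) .nil)) (.cons 298 (.leaf 322 1814 (.cons 228 (.leaf 204 1629 (.cons 300 (.leaf 324 1820 (.cons 301 (.leaf 302 2195 (.cons 277 (.leaf 278 2193 (.cons 325 (.leaf 326 2384 (.cons 253 (.leaf 252 1831 (.cons 230 (.leaf 254 1837 (.cons 229 (.leaf 250 1810 (.leaf 206 1645 .nil)) .nil)) .nil)) .nil)) .nil)) .nil)) .nil)) .nil)) .nil)) .nil)))))
noncomputable def t109 : T := .cons 273 (.leaf 252 1985 (.cons 299 (.leaf 300 2176 (.cons 296 (.leaf 295 2170 (.cons 248 (.leaf 247 1979 (.cons 320 (.cons 249 (.leaf 225 1797 (.leaf 344 1989 .nil)) (.cons 271 (.leaf 250 1977 (.leaf 298 2168 .nil)) .nil)) .nil)) .nil)) .nil)) .nil)) (.cons 227 (.cons 203 (.leaf 298 1622 (.cons 178 (.leaf 202 1431 (.cons 204 (.leaf 180 1437 (.cons 179 (.leaf 154 1239 (.leaf 250 1430 .nil)) .nil)) .nil)) .nil)) (.cons 299 t108 (.cons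 203 t107 (.cons 203 (.leaf 298 1622 (.cons 204 (.leaf 180 1437 (.cons 178 (.leaf 202 1431 (.cons 179 (.leaf 154 1239 (.cons 176 (.leaf 177 1408 (.cons 228 (.leaf 299 1629 (.cons 155 (.leaf 252 1244 (.leaf 131 1052 .nil)) .nil)) .nil)) .nil)) .nil)) .nil)) .nil)) (.cons 298 (.leaf 203 1622 (.cons 322 (.leaf 299 1814 (.leaf 346 2005 .nil)) .nil)) .nil))))) (.cons 273 (.cons 299 (.leaf 300 2176 (.cons 296 (.leaf 295 2170 (.cons 248 (.leaf 247 1979 (.cons 320 (.cons 249 (.leaf 225 1797 (.leaf 344 1989 .nil)) (.cons 271 (.leaf 250 1977 (.leaf 298 2168 .nil)) .nil)) .nil)) .nil)) .nil)) (.cons 299 (.leaf 300 2176 (.cons 296 (.leaf 295 2170 (.cons 248 (.leaf 247 1979 (.cons 320 (.cons 249 (.leaf 225 1797 (.leaf 344 1989 .nil)) (.cons 321 (.leaf 345 1988 (.cons 224 (.leaf 297 1796 (.cons 201 (.leaf 225 1605 (.cons 200 (.leaf 177 1413 (.cons 175 (.leaf 199 1407 (.cons 176 (.leaf 151 1215 (.cons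 203 (.leaf 202 1403 (.cons 227 (.leaf 298 1622 (.cons 204 (.leaf 180 1437 (.leaf 228 1629 .nil)) .nil)) .nil)) .nil)) .nil)) .nil)) .nil)) .nil)) .nil)) (.cons 344 (.leaf 249 1989 (.cons 343 (.leaf 319 1982 (.leaf 367 2174 .nil)) .nil)) .nil))) .nil)) .nil)) .nil)) (.cons 271 (.leaf 250 1977 (.cons 295 (.leaf 296 2170 (.leaf 294 2162 .nil)) .nil)) (.cons 299 (.leaf 300 2176 (.cons 247 (.leaf 248 1979 (.cons 271 (.leaf 246 1971 (.leaf 250 1977 .nil)) .nil)) .nil)) .nil)))) (.cons 273 (.leaf 252 1985 (.cons 271 (.leaf 250 1977 (.cons 295 (.leaf 296 2170 (.leaf 294 2162 .nil)) .nil)) .nil)) (.cons 273 (.leaf 252 1985 (.cons 299 (.leaf 300 2176 (.cons 247 (.leaf 248 1979 (.cons 271 (.leaf 246 1971 (.leaf 298 2168 .nil)) .nil)) .nil)) .nil)) .nil))))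
noncomputable def t110 : T := .cons 227 (.leaf 203 1622 (.cons 322 (.leaf 299 1814 (.leaf 346 2005 .nil)) .nil)) (.cons 322 (.leaf 346 2005 (.cons 250 (.cons 249 (.leaf 225 1807 (.cons 248 (.leaf 247 1976 (.leaf 271 1978 .nil)) .nil)) (.cons 321 (.leaf 345 1998 (.cons 226 (.leaf 297 1806 (.cons 201 (.leaf 225 1615 (.cons 202 (.leaf 178 1428 (.leaf 299 1620 .nil)) .nil)) .nil)) .nil)) (.cons 321 (.leaf 345 1998 (.cons 226 (.leaf 297 1806 (.cons 202 (.leaf 178 1428 (.leaf 299 1620 .nil)) .nil)) .nil)) .nil))) .nil)) (.cons 227 (.leaf 203 1622 (.cons 299 (.cons 202 (.leaf 226 1623 (.cons 324 (.leaf 300 1820 (.cons 323 (.leaf 348 2012 (.cons 347 (.leaf 250 2007 (.leaf 371 2199 .nil)) .nil)) .nil)) .nil)) (.cons 228 (.leaf 204 1629 (.cons 300 (.leaf 324 1820 (.cons 252 (.leaf 323 1821 (.cons 253 (.leaf 254 2002 (.cons 301 (.leaf 302 2195 (.cons 277 (.leaf 278 2193 (.leaf 325 1831 .nil))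 .nil)) .nil)) .nil)) .nil)) .nil)) (.cons 228 (.leaf 204 1629 (.cons 300 (.leaf 324 1820 (.cons 301 (.leaf 302 2195 (.cons 226 (.leaf 202 1623 (.cons 277 (.leaf 278 2193 (.cons 325 (.leaf 326 2384 (.cons 253 (.leaf 252 1831 (.cons 254 (.leaf 229 1808 (.leaf 230 1837 .nil)) .nil)) .nil)) .nil)) .nil)) .nil)) .nil)) .nil)) (.cons 202 (.leaf 226 1623 (.cons 228 (.leaf 204 1629 (.cons 323 (.leaf 252 1821 (.cons 347 (.leaf 250 2007 (.leaf 371 2199 .nil)) .nil)) .nil)) .nil)) .nil)))) .nil)) (.cons 322 (.leaf 346 2005 (.cons 227 (.leaf 203 1622 (.leaf 250 1813 .nil)) .nil)) .nil)))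
noncomputable def t111 : T := .cons 273 (.leaf 252 1985 (.cons 271 (.leaf 250 1977 (.cons 247 (.leaf 248 1979 (.leaf 246 1971 .nil)) .nil)) .nil)) (.cons 298 t110 (.cons 273 (.cons 271 (.leaf 250 1977 (.cons 247 (.leaf 248 1979 (.leaf 246 1971 .nil)) .nil)) (.cons 299 (.leaf 300 2176 (.cons 248 (.leaf 247 1979 (.cons 323 (.cons 250 (.leaf 226 1815 (.leaf 347 2007 .nil)) (.cons 322 (.leaf 346 2006 (.cons 348 (.leaf 324 2012 (.cons 347 (.leaf 372 2204 (.cons 298 (.leaf 227 1814 (.leaf 371 2199 .nil)) .nil)) .nil)) .nil)) (.cons 226 (.leaf 250 1815 (.cons 322 (.leaf 346 2006 (.cons 227 (.leaf 202 1623 (.leaf 298 1814 .nil)) .nil)) .nil)) .nil))) .nil)) .nil)) (.cons 299 (.leaf 300 2176 (.cons 247 (.leaf 248 1979 (.cons 271 (.leaf 246 1971 (.leaf 298 2168 .nil)) .nil)) .nil)) (.cons 271 (.leaf 250 1977 (.cons 299 (.leaf 300 2176 (.leaf 298 2168 .nil)) .nil)) .nil)))) (.cons 273 (.leaf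 252 1985 (.cons 299 (.leaf 300 2176 (.cons 247 (.leaf 248 1979 (.cons 271 (.leaf 246 1971 (.leaf 298 2168 .nil)) .nil)) .nil)) .nil)) (.cons 273 (.leaf 252 1985 (.cons 299 (.leaf 300 2176 (.cons 248 (.leaf 247 1979 (.cons 323 (.cons 250 (.leaf 226 1815 (.leaf 347 2007 .nil)) (.cons 322 (.leaf 346 2006 (.cons 348 (.leaf 324 2012 (.cons 347 (.leaf 372 2204 (.cons 298 (.leaf 227 1814 (.leaf 371 2199 .nil)) .nil)) .nil)) .nil)) (.cons 226 (.leaf 250 1815 (.cons 322 (.leaf 346 2006 (.cons 227 (.leaf 202 1623 (.leaf 298 1814 .nil)) .nil)) .nil)) .nil))) .nil)) .nil)) .nil)) (.cons 273 (.leaf 252 1985 (.cons 271 (.leaf 250 1977 (.cons 299 (.leaf 300 2176 (.leaf 298 2168 .nil)) .nil)) .nil)) .nil)))))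
noncomputable def t112 : T := .cons 226 (.leaf 202 1623 (.cons 204 (.leaf 228 1629 (.cons 203 (.leaf 180 1437 (.cons 179 (.leaf 274 1430 (.leaf 155 1238 .nil)) .nil)) .nil)) .nil)) (.cons 300 (.leaf 324 1820 (.cons 204 (.leaf 228 1629 (.cons 203 (.leaf 180 1437 (.cons 274 (.leaf 273 2176 (.leaf 179 1430 .nil)) .nil)) .nil)) .nil)) (.cons 202 (.leaf 226 1623 (.cons 203 (.leaf 178 1431 (.cons 179 (.leaf 274 1430 (.cons 180 (.leaf 204 1437 (.leaf 156 1245 .nil)) .nil)) .nil)) .nil)) (.cons 202 (.leaf 226 1623 (.cons 203 (.leaf 178 1431 (.cons 204 (.leaf 180 1437 (.leaf 228 1629 .nil)) .nil)) .nil)) (.cons 202 (.leaf 226 1623 (.cons 203 (.leaf 178 1431 (.cons 274 (.leaf 179 1430 (.cons 273 (.leaf 252 1985 (.leaf 300 2176 .nil)) .nil)) .nil)) .nil)) (.cons 226 (.leaf 202 1623 (.cons 228 (.leaf 204 1629 (.cons 229 (.leaf 230 1810 (.cons 205 (.leaf 206 1617 (.cons 253 (.leaf 254 1808 (.cons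 225 (.leaf 252 1800 (.cons 200 (.leaf 201 1603 (.cons 224 (.leaf 199 1595 (.cons 248 (.leaf 247 1786 (.cons 271 (.leaf 295 1598 (.cons 273 (.leaf 297 1604 (.leaf 274 1977 .nil)) .nil)) .nil)) .nil)) .nil)) .nil)) .nil)) .nil)) .nil)) .nil)) .nil)) .nil)))))
noncomputable def t113 : T := .cons 274 (.cons 323 (.leaf 226 1815 (.leaf 347 2007 .nil)) (.cons 273 (.leaf 252 1985 (.leaf 300 2176 .nil)) .nil)) (.cons 227 t112 (.cons 274 (.cons 323 (.leaf 347 2007 (.cons 322 (.leaf 346 2006 (.cons 252 (.leaf 228 1821 (.leaf 273 1985 .nil)) .nil)) .nil)) (.cons 323 (.leaf 347 2007 (.cons 322 (.leaf 346 2006 (.cons 252 (.leaf 228 1821 (.cons 324 (.leaf 348 2012 (.cons 300 (.leaf 227 1820 (.cons 301 (.leaf 302 2386 (.leaf 321 2377 .nil)) .nil)) .nil)) .nil)) .nil)) .nil)) (.cons 273 (.leaf 252 1985 (.leaf 300 2176 .nil)) (.cons 323 (.leaf 347 2007 (.cons 322 (.leaf 346 2006 (.cons 324 (.leaf 348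 2012 (.cons 300 (.leaf 227 1820 (.leaf 273 2176 .nil)) .nil)) .nil)) .nil)) .nil)))) (.cons 323 (.leaf 226 1815 (.cons 322 (.leaf 346 2006 (.cons 324 (.leaf 348 2012 (.cons 300 (.leaf 227 1820 (.cons 301 (.leaf 302 2386 (.leaf 321 2377 .nil)) .nil)) .nil)) .nil)) .nil)) (.cons 323 (.leaf 226 1815 (.cons 322 (.leaf 346 2006 (.cons 347 (.leaf 274 2007 (.cons 348 (.leaf 324 2012 (.leaf 372 2204 .nil)) .nil)) .nil)) .nil)) .nil))))
noncomputable def t114 : T := .cons 227 (.cons 202 (.leaf 226 1623 (.cons 203 (.leaf 178 1431 (.cons 179 (.leaf 274 1430 (.cons 180 (.leaf 204 1437 (.leaf 156 1245 .nil)) .nil)) .nil)) .nil)) (.cons 204 (.leaf 228 1629 (.cons 203 (.leaf 180 1437 (.cons 274 (.leaf 179 1430 (.cons 273 (.leaf 300 2176 (.leaf 271 1977 .nil)) .nil)) .nil)) .nil)) (.cons 202 (.leaf 226 1623 (.cons 203 (.leaf 178 1431 (.cons 204 (.leaf 180 1437 (.leaf 228 1629 .nil)) .nil)) .nil))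 (.cons 226 (.leaf 202 1623 (.leaf 323 1815 .nil)) .nil)))) (.cons 227 (.cons 202 (.leaf 226 1623 (.cons 203 (.leaf 178 1431 (.cons 179 (.leaf 274 1430 (.cons 180 (.leaf 204 1437 (.leaf 156 1245 .nil)) .nil)) .nil)) .nil)) (.cons 228 (.leaf 204 1629 (.cons 229 (.leaf 230 1810 (.cons 249 (.leaf 248 1793 (.leaf 226 1802 .nil)) .nil)) .nil)) (.cons 300 (.leaf 324 1820 (.cons 204 (.leaf 228 1629 (.cons 203 (.leaf 180 1437 (.cons 274 (.leaf 273 2176 (.leaf 179 1430 .nil)) .nil)) .nil)) .nil)) (.cons 202 (.leaf 226 1623 (.cons 203 (.leaf 178 1431 (.cons 274 (.leaf 179 1430 (.cons 273 (.leaf 300 2176 (.leaf 271 1977 .nil)) .nil)) .nil)) .nil)) .nil)))) (.cons 274 (.cons 323 (.leaf 347 2007 (.cons 322 (.leaf 346 2006 (.cons 324 (.leaf 348 2012 (.cons 300 (.leaf 227 1820 (.leaf 273 2176 .nil)) .nil)) .nil)) .nil)) (.cons 323 (.leaf 347 2007 (.cons 322 (.leaf 346 2006 (.cons 324 (.leaf 348 2012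 (.cons 300 (.leaf 227 1820 (.cons 301 (.leaf 302 2386 (.leaf 321 2377 .nil)) .nil)) .nil)) .nil)) .nil)) (.cons 273 (.leaf 300 2176 (.leaf 271 1977 .nil)) (.cons 273 (.leaf 271 1977 (.cons 247 (.leaf 248 1979 (.cons 296 (.leaf 295 2170 (.cons 323 (.leaf 347 2007 (.cons 322 (.leaf 346 2006 (.cons 324 (.leaf 348 2012 (.cons 321 (.leaf 297 2371 (.cons 344 (.leaf 345 2562 (.cons 320 (.leaf 249 1989 (.leaf 343 2554 .nil)) .nil)) .nil)) .nil)) .nil)) .nil)) .nil)) .nil)) .nil)) .nil)))) (.cons 323 (.leaf 226 1815 (.cons 322 (.leaf 346 2006 (.cons 324 (.leaf 348 2012 (.cons 300 (.leaf 227 1820 (.cons 301 (.leaf 302 2386 (.leaf 321 2377 .nil)) .nil)) .nil)) .nil)) .nil)) (.cons 323 (.leaf 226 1815 (.cons 274 (.leaf 347 2007 (.cons 273 (.leaf 300 2176 (.leaf 271 1977 .nil)) .nil)) .nil)) (.cons 323 (.leaf 226 1815 (.cons 322 (.leaf 346 2006 (.cons 347 (.leaf 274 2007 (.cons 348 (.leaf 324 2012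 (.leaf 372 2204 .nil)) .nil)) .nil)) .nil)) .nil)))))
noncomputable def t115 : T := .cons 253 (.leaf 225 1803 (.cons 229 (.leaf 230 1809 (.cons 228 (.leaf 249 1801 (.cons 180 (.leaf 204 1438 (.cons 227 (.leaf 254 1808 (.leaf 201 1611 .nil)) .nil)) .nil)) .nil)) .nil)) (.cons 249 (.cons 228 (.leaf 229 1801 (.cons 204 (.leaf 180 1438 (.cons 248 (.leaf 271 1978 (.leaf 227 1793 .nil)) .nil)) .nil)) (.cons 225 (.leaf 224 1795 (.cons 228 (.leaf 229 1801 (.cons 204 (.leaf 180 1438 (.cons 205 (.leaf 203 1610 (.leaf 227 1609 .nil)) .nil)) .nil)) .nil)) (.cons 224 (.leaf 225 1795 (.cons 248 (.leaf 271 1978 (.cons 247 (.leaf 274 1976 (.leaf 227 1785 .nil)) .nil)) .nil)) (.cons 248 (.leaf 271 1978 (.cons 225 (.leaf 224 1795 (.cons 247 (.leaf 274 1976 (.leaf 246 1777 .nil)) .nil)) .nil)) .nil)))) (.cons 253 (.cons 254 (.leaf 274 2002 (.leaf 227 1811 .nil)) (.cons 229 (.leaf 230 1809 (.cons 228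 (.leaf 249 1801 (.cons 180 (.leaf 204 1438 (.cons 227 (.leaf 201 1611 (.cons 205 (.leaf 206 1617 (.cons 181 (.leaf 157 1254 (.leaf 156 1255 .nil)) .nil)) .nil)) .nil)) .nil)) .nil)) (.cons 254 (.leaf 274 2002 (.cons 230 (.leaf 229 1809 (.leaf 231 1817 .nil)) .nil)) .nil))) (.cons 253 (.leaf 225 1803 (.cons 254 (.leaf 274 2002 (.cons 230 (.leaf 229 1809 (.leaf 231 1817 .nil)) .nil)) .nil)) (.cons 253 (.leaf 225 1803 (.cons 254 (.leaf 274 2002 (.leaf 227 1811 .nil)) .nil)) .nil))))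
noncomputable def t116 : T := .cons 253 (.leaf 225 1803 (.cons 229 (.leaf 230 1809 (.cons 228 (.leaf 249 1801 (.cons 204 (.leaf 180 1438 (.leaf 227 1629 .nil)) .nil)) .nil)) .nil)) (.cons 228 (.cons 229 (.leaf 249 1801 (.cons 230 (.leaf 227 1810 (.leaf 231 1818 .nil)) .nil)) (.cons 180 (.leaf 204 1438 (.cons 249 (.leaf 229 1801 (.cons 225 (.leaf 224 1795 (.cons 248 (.leaf 271 1978 (.cons 247 (.leaf 274 1976 (.leaf 246 1777 .nil)) .nil)) .nil)) .nil)) .nil)) (.cons 204 (.leaf 180 1438 (.leaf 227 1629 .nil)) .nil))) (.cons 253 (.cons 229 (.leaf 230 1809 (.cons 228 (.leaf 249 1801 (.cons 204 (.leaf 180 1438 (.leaf 227 1629 .nil)) .nil)) .nil)) (.cons 229 (.leaf 230 1809 (.cons 228 (.leaf 249 1801 (.cons 277 (.leaf 278 2000 (.cons 204 (.leaf 180 1444 (.leaf 301 1639 .nil)) .nil)) .nil)) .nil)) (.cons 254 (.leaf 274 2002 (.leaf 227 1811 .nil)) .nil))) (.cons 253 (.leaf 225 1803 (.cons 229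 (.leaf 230 1809 (.cons 228 (.leaf 249 1801 (.cons 277 (.leaf 278 2000 (.cons 204 (.leaf 180 1444 (.leaf 301 1639 .nil)) .nil)) .nil)) .nil)) .nil)) (.cons 253 (.leaf 225 1803 (.cons 254 (.leaf 274 2002 (.leaf 227 1811 .nil)) .nil)) .nil))))
noncomputable def t117 : T := .cons 274 (.cons 323 (.leaf 226 1815 (.leaf 347 2007 .nil)) (.cons 273 (.leaf 252 1985 (.leaf 300 2176 .nil)) .nil)) (.cons 227 (.cons 204 (.leaf 228 1629 (.cons 300 (.leaf 324 1820 (.cons 203 (.leaf 180 1437 (.cons 274 (.leaf 273 2176 (.leaf 179 1430 .nil)) .nil)) .nil)) .nil)) (.cons 202 (.leaf 226 1623 (.cons 203 (.leaf 178 1431 (.cons 179 (.leaf 274 1430 (.cons 180 (.leaf 204 1437 (.leaf 156 1245 .nil)) .nil)) .nil)) .nil)) (.cons 228 (.leaf 204 1629 (.cons 229 (.leaf 230 1810 (.cons 249 (.leaf 248 1793 (.leaf 252 1801 .nil)) .nil)) .nil)) (.cons 202 (.leaf 226 1623 (.cons 203 (.leaf 178 1431 (.cons 274 (.leaf 179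 1430 (.cons 273 (.leaf 252 1985 (.leaf 300 2176 .nil)) .nil)) .nil)) .nil)) .nil)))) (.cons 274 (.cons 323 (.leaf 347 2007 (.cons 322 (.leaf 346 2006 (.cons 252 (.leaf 228 1821 (.leaf 273 1985 .nil)) .nil)) .nil)) (.cons 323 (.leaf 347 2007 (.cons 322 (.leaf 346 2006 (.cons 252 (.leaf 228 1821 (.cons 324 (.leaf 348 2012 (.cons 300 (.leaf 227 1820 (.cons 301 (.leaf 302 2386 (.leaf 321 2377 .nil)) .nil)) .nil)) .nil)) .nil)) .nil)) (.cons 323 (.leaf 347 2007 (.cons 322 (.leaf 346 2006 (.cons 324 (.leaf 348 2012 (.cons 300 (.leaf 227 1820 (.leaf 273 2176 .nil)) .nil)) .nil)) .nil)) (.cons 273 (.leaf 252 1985 (.leaf 300 2176 .nil)) .nil)))) (.cons 323 (.leaf 226 1815 (.cons 322 (.leaf 346 2006 (.cons 324 (.leaf 348 2012 (.cons 300 (.leaf 227 1820 (.cons 301 (.leaf 302 2386 (.leaf 321 2377 .nil)) .nil)) .nil)) .nil)) .nil)) (.cons 323 (.leaf 226 1815 (.cons 322 (.leaf 346 2006 (.cons 347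 (.leaf 274 2007 (.cons 348 (.leaf 324 2012 (.leaf 372 2204 .nil)) .nil)) .nil)) .nil)) .nil))))
noncomputable def t118 : T := .cons 299 t117 (.cons 226 (.cons 202 (.leaf 178 1428 (.cons 299 (.leaf 227 1623 (.leaf 274 1620 .nil)) .nil)) (.cons 299 (.leaf 323 1815 (.cons 252 t116 .nil)) (.cons 202 (.leaf 178 1428 (.cons 252 t115 .nil)) (.cons 202 (.leaf 178 1428 (.cons 299 (.leaf 274 1620 (.leaf 323 1815 .nil)) .nil)) (.cons 299 (.leaf 323 1815 (.cons 202 (.leaf 178 1428 (.leaf 227 1623 .nil)) .nil)) .nil))))) (.cons 249 (.cons 248 (.leaf 271 1978 (.cons 252 (.leaf 273 1986 (.cons 225 (.leaf 224 1795 (.cons 177 (.leaf 201 1414 (.cons 226 (.leaf 253 1803 (.cons 247 (.leaf 227 1785 (.leaf 246 1777 .nil)) .nil)) .nil)) .nil)) .nil)) .nil)) (.cons 248 (.leaf 271 1978 (.cons 227 (.leaf 228 1793 (.cons 226 (.leaf 247 1785 (.cons 203 (.cons 202 (.leaf 178 1428 (.leaf 299 1623 .nil)) (.cons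 179 (.leaf 155 1238 (.cons 180 (.leaf 204 1437 (.leaf 156 1245 .nil)) .nil)) .nil)) .nil)) .nil)) .nil)) (.cons 252 (.leaf 273 1986 (.cons 225 (.leaf 224 1795 (.cons 229 (.leaf 228 1801 (.cons 253 (.leaf 226 1803 (.leaf 230 1809 .nil)) .nil)) .nil)) .nil)) (.cons 252 (.leaf 273 1986 (.cons 228 (.leaf 229 1801 (.cons 248 (.leaf 271 1978 (.leaf 227 1793 .nil)) .nil)) .nil)) .nil)))) (.cons 299 t114 (.cons 299 t113 (.cons 273 (.cons 274 (.leaf 252 1985 (.leaf 271 1977 .nil)) (.cons 249 (.leaf 252 1986 (.cons 271 (.leaf 248 1978 (.leaf 270 1969 .nil)) .nil)) (.cons 274 (.leaf 271 1977 (.cons 247 (.leaf 248 1979 (.cons 296 (.leaf 295 2170 (.cons 299 (.leaf 300 2176 (.cons 323 (.leaf 347 2007 (.cons 322 (.leaf 346 2006 (.cons 324 (.leaf 348 2012 (.cons 321 (.leaf 297 2371 (.cons 344 (.leaf 345 2562 (.cons 320 (.leaf 249 1989 (.leaf 343 2554 .nil)) .nil)) .nil)) .nil)) .nil)) .nil)) .nil))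 .nil)) .nil)) .nil)) (.cons 252 (.leaf 274 1985 (.leaf 249 1986 .nil)) .nil)))) (.cons 273 (.cons 252 (.leaf 274 1985 (.leaf 249 1986 .nil)) (.cons 249 (.leaf 252 1986 (.cons 271 (.leaf 248 1978 (.leaf 270 1969 .nil)) .nil)) (.cons 271 (.leaf 274 1977 (.cons 249 (.leaf 248 1978 (.leaf 270 1969 .nil)) .nil)) (.cons 274 (.leaf 252 1985 (.leaf 271 1977 .nil)) .nil)))) (.cons 273 (.cons 252 (.leaf 274 1985 (.leaf 249 1986 .nil)) (.cons 252 (.leaf 249 1986 (.cons 226 (.cons 178 (.leaf 202 1428 (.cons 253 (.leaf 225 1803 (.cons 254 (.leaf 227 1811 (.cons 230 (.leaf 229 1809 (.leaf 231 1817 .nil)) .nil)) .nil)) .nil)) (.cons 202 (.leaf 178 1428 (.cons 299 (.leaf 227 1623 (.leaf 323 1815 .nil)) .nil)) (.cons 253 (.leaf 225 1803 (.cons 229 (.leaf 230 1809 (.cons 254 (.leaf 227 1811 (.cons 278 (.leaf 277 2000 (.leaf 279 2008 .nil)) .nil)) .nil)) .nil)) (.cons 178 (.leaf 202 1428 (.cons 253 (.leaf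 225 1803 (.cons 230 (.leaf 229 1809 (.cons 254 (.leaf 231 1817 (.cons 278 (.leaf 277 2000 (.leaf 279 2008 .nil)) .nil)) .nil)) .nil)) .nil)) .nil)))) .nil)) (.cons 274 (.leaf 271 1977 (.cons 295 (.leaf 296 2170 (.cons 299 (.leaf 300 2176 (.cons 226 (.leaf 202 1620 (.leaf 323 1815 .nil)) .nil)) .nil)) .nil)) .nil))) .nil)))))))
noncomputable def t119 : T := .cons 204 (.leaf 180 1447 (.cons 228 (.leaf 301 1639 (.cons 206 (.leaf 182 1453 (.cons 227 (.leaf 299 1629 (.leaf 226 1617 .nil)) .nil)) .nil)) .nil)) (.cons 226 (.leaf 225 1803 (.cons 182 (.leaf 206 1453 (.cons 181 (.leaf 158 1261 (.cons 156 (.leaf 180 1255 (.cons 157 (.leaf 228 1254 (.leaf 132 1063 .nil)) .nil)) .nil)) .nil)) .nil)) (.cons 226 (.leaf 225 1803 (.cons 182 (.leaf 206 1453 (.cons 181 (.leaf 158 1261 (.cons 228 (.leaf 157 1254 (.cons 227 (.leaf 254 1808 (.cons 204 (.leaf 299 1629 (.leaf 301 1639 .nil)) .nil)) .nil))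 .nil)) .nil)) .nil)) (.cons 180 (.leaf 204 1447 (.cons 181 (.leaf 156 1255 (.cons 182 (.leaf 158 1261 (.leaf 206 1453 .nil)) .nil)) .nil)) (.cons 204 (.leaf 180 1447 (.cons 228 (.leaf 301 1639 (.cons 227 (.leaf 299 1629 (.cons 206 (.leaf 226 1617 (.leaf 207 1626 .nil)) .nil)) .nil)) .nil)) (.cons 204 (.leaf 180 1447 (.cons 225 (.leaf 226 1803 (.cons 301 (.leaf 228 1639 (.cons 324 (.leaf 300 1830 (.cons 325 (.leaf 348 2022 (.cons 326 (.leaf 302 1836 (.leaf 350 2028 .nil)) .nil)) .nil)) .nil)) .nil)) .nil)) .nil)))))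
noncomputable def t120 : T := .cons 229 (.leaf 230 1809 (.cons 277 (.leaf 278 2000 (.cons 205 t119 .nil)) .nil)) (.cons 226 (.leaf 225 1803 (.cons 254 (.leaf 227 1811 (.cons 278 (.leaf 277 2000 (.leaf 279 2008 .nil)) .nil)) .nil)) (.cons 230 (.leaf 229 1809 (.cons 254 (.leaf 231 1817 (.cons 227 (.leaf 226 1811 (.cons 228 (.leaf 255 1819 (.cons 204 (.leaf 180 1438 (.leaf 299 1629 .nil)) .nil)) .nil)) .nil)) .nil)) (.cons 230 (.leaf 229 1809 (.cons 254 (.leaf 231 1817 (.cons 278 (.leaf 277 2000 (.leaf 279 2008 .nil)) .nil)) .nil)) (.cons 229 (.leaf 230 1809 (.cons 277 (.leaf 278 2000 (.cons 205 (.cons 204 (.leaf 180 1447 (.cons 225 (.leaf 226 1803 (.cons 301 (.leaf 228 1639 (.cons 324 (.leaf 300 1830 (.cons 325 (.leaf 348 2022 (.cons 326 (.leaf 302 1836 (.leaf 350 2028 .nil)) .nil)) .nil)) .nil)) .nil)) .nil)) (.cons 182 (.leaf 206 1453 (.cons 181 (.leaf 158 1261 (.cons 156 (.leaf 180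 1255 (.cons 157 (.leaf 228 1254 (.leaf 132 1063 .nil)) .nil)) .nil)) .nil)) (.cons 182 (.leaf 206 1453 (.cons 181 (.leaf 158 1261 (.cons 228 (.leaf 157 1254 (.cons 301 (.leaf 325 1831 (.leaf 204 1639 .nil)) .nil)) .nil)) .nil)) (.cons 180 (.leaf 204 1447 (.cons 181 (.leaf 156 1255 (.cons 182 (.leaf 158 1261 (.leaf 206 1453 .nil)) .nil)) .nil)) .nil)))) .nil)) .nil)) .nil))))
noncomputable def t121 : T := .cons 204 (.leaf 180 1447 (.cons 228 (.leaf 301 1639 (.cons 206 (.leaf 182 1453 (.cons 227 (.leaf 299 1629 (.leaf 226 1617 .nil)) .nil)) .nil)) .nil)) (.cons 182 (.leaf 206 1453 (.cons 181 (.leaf 158 1261 (.cons 156 (.leaf 180 1255 (.cons 157 (.leaf 228 1254 (.leaf 132 1063 .nil)) .nil)) .nil)) .nil)) (.cons 182 (.leaf 206 1453 (.cons 181 (.leaf 158 1261 (.cons 228 (.leaf 157 1254 (.cons 301 (.leaf 325 1831 (.leaf 204 1639 .nil)) .nil)) .nil)) .nil)) (.cons 180 (.leaf 204 1447 (.cons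 181 (.leaf 156 1255 (.cons 182 (.leaf 158 1261 (.leaf 206 1453 .nil)) .nil)) .nil)) (.cons 204 (.leaf 180 1447 (.cons 228 (.leaf 301 1639 (.cons 227 (.leaf 299 1629 (.cons 206 (.leaf 226 1617 (.leaf 207 1626 .nil)) .nil)) .nil)) .nil)) (.cons 204 (.leaf 180 1447 (.cons 228 (.leaf 301 1639 (.cons 181 (.leaf 157 1254 (.cons 182 (.leaf 158 1261 (.cons 183 (.leaf 184 1442 (.cons 202 (.leaf 203 1425 (.cons 226 (.leaf 178 1428 (.cons 227 (.leaf 299 1629 (.leaf 201 1611 .nil)) .nil)) .nil)) .nil)) .nil)) .nil)) .nil)) .nil)) .nil)))))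
noncomputable def t122 : T := .cons 296 (.leaf 201 1606 (.cons 320 (.leaf 248 1797 (.leaf 344 1989 .nil)) .nil)) (.cons 201 (.cons 177 (.leaf 248 1414 (.cons 178 (.leaf 202 1421 (.leaf 154 1229 .nil)) .nil)) (.cons 178 (.leaf 202 1421 (.cons 200 (.leaf 176 1415 (.cons 297 (.leaf 224 1607 (.cons 322 (.leaf 298 1804 (.cons 321 (.leaf 346 1996 (.cons 344 (.leaf 320 1990 (.cons 345 (.leaf 248 1991 (.leaf 368 2182 .nil)) .nil)) .nil)) .nil)) .nil)) .nil)) .nil)) (.cons 176 (.leaf 200 1415 (.cons 177 (.leaf 152 1223 (.cons 178 (.leaf 202 1421 (.leaf 154 1229 .nil)) .nil)) .nil)) (.cons 200 (.leaf 176 1415 (.cons 224 (.leaf 297 1607 (.cons 248 (.leaf 177 1413 (.cons 199 (.leaf 175 1407 (.cons 198 (.leaf 197 1576 (.cons 174 (.leaf 173 1387 (.cons 271 (.leaf 295 1598 (.cons 222 (.leaf 221 1578 (.cons 246 (.leaf 247 1396 (.cons 245 (.leaf 270 1963 (.leaf 269 1390 .nil)) .nil)) .nil)) .nil))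 .nil)) .nil)) .nil)) .nil)) .nil)) .nil)) .nil)))) (.cons 297 (.cons 224 (.leaf 200 1607 (.cons 248 (.leaf 321 1799 (.cons 296 (.leaf 320 1797 (.cons 295 (.leaf 319 1790 (.cons 294 (.leaf 293 2153 (.cons 270 (.leaf 269 2155 (.cons 271 (.leaf 298 2160 (.cons 246 (.leaf 245 1963 (.cons 222 (.leaf 198 1588 (.cons 221 (.leaf 247 1771 (.leaf 197 1583 .nil)) .nil)) .nil)) .nil)) .nil)) .nil)) .nil)) .nil)) .nil)) .nil)) (.cons 224 (.leaf 200 1607 (.cons 321 (.leaf 248 1799 (.cons 322 (.leaf 298 1804 (.leaf 346 1996 .nil)) .nil)) .nil)) (.cons 320 (.leaf 296 1798 (.cons 200 (.leaf 224 1607 (.cons 321 (.leaf 344 1990 (.cons 345 (.leaf 248 1991 (.cons 346 (.leaf 322 1996 (.leaf 370 2188 .nil)) .nil)) .nil)) .nil)) .nil)) (.cons 320 (.leaf 296 1798 (.cons 321 (.leaf 344 1990 (.cons 322 (.leaf 298 1804 (.leaf 346 1996 .nil)) .nil)) .nil)) (.cons 296 (.leaf 320 1798 (.cons 298 (.leaf 322 1804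 (.cons 271 (.leaf 270 2160 (.leaf 299 2171 .nil)) .nil)) .nil)) .nil))))) (.cons 201 (.leaf 296 1606 (.cons 176 (.leaf 200 1415 (.cons 177 (.leaf 152 1223 (.cons 178 (.leaf 202 1421 (.leaf 154 1229 .nil)) .nil)) .nil)) .nil)) .nil)))
noncomputable def t123 : T := .cons 201 (.leaf 296 1606 (.cons 176 (.leaf 200 1415 (.cons 177 (.leaf 248 1414 (.leaf 152 1223 .nil)) .nil)) .nil)) (.cons 297 (.cons 202 (.leaf 226 1613 (.cons 224 (.leaf 200 1607 (.cons 248 (.leaf 321 1799 (.cons 296 (.leaf 320 1797 (.cons 295 (.leaf 319 1790 (.cons 294 (.leaf 293 2153 (.cons 270 (.leaf 269 2155 (.cons 271 (.leaf 298 2160 (.cons 318 (.leaf 317 2346 (.cons 342 (.leaf 366 2165 (.leaf 247 1973 .nil)) .nil)) .nil)) .nil)) .nil)) .nil)) .nil)) .nil)) .nil)) .nil)) (.cons 224 (.leaf 200 1607 (.cons 226 (.leaf 227 1792 (.leaf 202 1613 .nil)) .nil)) (.cons 202 (.leaf 226 1613 (.cons 320 (.leaf 296 1798 (.cons 321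 (.leaf 344 1990 (.cons 322 (.leaf 298 1804 (.leaf 346 1996 .nil)) .nil)) .nil)) .nil)) (.cons 200 (.leaf 224 1607 (.cons 298 (.leaf 322 1804 (.cons 271 (.leaf 270 2160 (.cons 299 (.leaf 296 2171 (.leaf 300 2179 .nil)) .nil)) .nil)) .nil)) .nil)))) (.cons 297 (.cons 202 (.leaf 226 1613 (.cons 178 (.leaf 201 1421 (.cons 203 (.leaf 227 1431 (.cons 322 (.leaf 298 1804 (.cons 321 (.leaf 346 1996 (.cons 344 (.leaf 320 1990 (.cons 345 (.leaf 248 1991 (.leaf 368 2182 .nil)) .nil)) .nil)) .nil)) .nil)) .nil)) .nil)) (.cons 224 (.leaf 200 1607 (.cons 226 (.leaf 227 1792 (.leaf 202 1613 .nil)) .nil)) (.cons 200 (.leaf 224 1607 (.cons 176 (.leaf 201 1415 (.cons 322 (.leaf 298 1804 (.cons 321 (.leaf 346 1996 (.cons 344 (.leaf 320 1990 (.cons 345 (.leaf 248 1991 (.leaf 368 2182 .nil)) .nil)) .nil)) .nil)) .nil)) .nil)) .nil))) (.cons 297 (.cons 224 (.leaf 200 1607 (.cons 226 (.leaf 227 1792 (.leaf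 202 1613 .nil)) .nil)) (.cons 296 (.leaf 201 1606 (.leaf 320 1798 .nil)) .nil)) (.cons 296 (.leaf 201 1606 (.cons 320 (.leaf 248 1797 (.leaf 344 1989 .nil)) .nil)) .nil))))
noncomputable def t124 : T := .cons 202 (.leaf 226 1623 (.cons 178 (.leaf 203 1431 (.cons 204 (.leaf 228 1629 (.cons 298 (.leaf 322 1814 (.cons 300 (.leaf 324 1820 (.cons 297 (.leaf 273 2179 (.cons 296 (.leaf 271 2171 (.cons 320 (.leaf 319 2362 (.leaf 321 2370 .nil)) .nil)) .nil)) .nil)) .nil)) .nil)) .nil)) .nil)) (.cons 202 (.leaf 226 1623 (.cons 178 (.leaf 203 1431 (.cons 298 (.leaf 322 1814 (.cons 300 (.leaf 324 1820 (.cons 297 (.leaf 273 2179 (.cons 296 (.leaf 271 2171 (.cons 320 (.leaf 319 2362 (.leaf 321 2370 .nil)) .nil)) .nil)) .nil)) .nil)) .nil)) .nil)) (.cons 204 (.leaf 228 1629 (.cons 180 (.leaf 203 1437 (.cons 298 (.leaf 322 1814 (.cons 300 (.leaf 324 1820 (.cons 297 (.leaf 273 2179 (.cons 296 (.leaf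 271 2171 (.cons 320 (.leaf 319 2362 (.leaf 321 2370 .nil)) .nil)) .nil)) .nil)) .nil)) .nil)) .nil)) (.cons 202 (.leaf 226 1623 (.cons 203 (.leaf 178 1431 (.cons 204 (.leaf 180 1437 (.leaf 228 1629 .nil)) .nil)) .nil)) (.cons 202 (.leaf 226 1623 (.cons 204 (.leaf 228 1629 (.cons 298 (.leaf 322 1814 (.cons 300 (.leaf 324 1820 (.cons 297 (.leaf 273 2179 (.cons 296 (.leaf 271 2171 (.cons 320 (.leaf 319 2362 (.leaf 321 2370 .nil)) .nil)) .nil)) .nil)) .nil)) .nil)) .nil)) .nil))))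
noncomputable def t125 : T := .cons 274 (.leaf 273 1985 (.cons 253 (.leaf 254 2002 (.cons 226 (.cons 202 (.leaf 299 1623 (.cons 178 (.leaf 203 1431 (.leaf 154 1236 .nil)) .nil)) (.cons 225 (.leaf 224 1792 (.leaf 228 1800 .nil)) .nil)) .nil)) .nil)) (.cons 299 t124 (.cons 299 (.cons 204 (.leaf 228 1629 (.cons 203 (.leaf 180 1437 (.cons 202 (.leaf 178 1431 (.leaf 226 1623 .nil)) .nil)) .nil)) (.cons 202 (.leaf 226 1623 (.cons 203 (.leaf 178 1431 (.cons 298 (.leaf 274 1622 (.leaf 322 1814 .nil)) .nil)) .nil)) (.cons 204 (.leaf 228 1629 (.cons 203 (.leaf 180 1437 (.cons 298 (.leaf 274 1622 (.leaf 322 1814 .nil)) .nil)) .nil)) (.cons 226 (.leaf 202 1623 (.cons 225 (.leaf 224 1792 (.cons 228 (.leaf 204 1629 (.leaf 253 1800 .nil)) .nil)) .nil)) .nil)))) (.cons 274 (.leaf 273 1985 (.cons 203 (.leaf 298 1622 (.cons 178 (.leaf 202 1431 (.cons 179 (.leaf 154 1239 (.cons 155 (.leaf 228 1244 (.cons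 156 (.leaf 180 1245 (.leaf 132 1053 .nil)) .nil)) .nil)) .nil)) .nil)) .nil)) (.cons 273 (.leaf 274 1985 (.cons 299 (.cons 226 (.leaf 202 1623 (.cons 225 (.leaf 224 1792 (.cons 228 (.leaf 204 1629 (.leaf 253 1800 .nil)) .nil)) .nil)) (.cons 298 (.leaf 322 1814 (.cons 297 (.leaf 300 2179 (.cons 271 (.leaf 270 2160 (.leaf 296 2171 .nil)) .nil)) .nil)) .nil)) .nil)) (.cons 274 (.leaf 273 1985 (.cons 203 (.leaf 298 1622 (.cons 202 (.leaf 178 1431 (.cons 204 (.leaf 180 1437 (.cons 226 (.leaf 299 1623 (.cons 225 (.leaf 224 1792 (.leaf 205 1610 .nil)) .nil)) .nil)) .nil)) .nil)) .nil)) (.cons 274 (.leaf 273 1985 (.cons 203 (.leaf 298 1622 (.cons 180 (.leaf 204 1437 (.cons 179 (.leaf 156 1245 (.cons 154 (.leaf 178 1239 (.cons 155 (.leaf 228 1244 (.leaf 130 1047 .nil)) .nil)) .nil)) .nil)) .nil)) .nil)) .nil))))))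
noncomputable def t126 : T := .cons 250 (.cons 226 (.leaf 225 1803 (.cons 202 (.leaf 178 1428 (.cons 227 (.leaf 299 1623 (.leaf 254 1811 .nil)) .nil)) .nil)) (.cons 225 (.leaf 226 1803 (.cons 249 (.leaf 224 1795 (.cons 229 (.leaf 228 1801 (.leaf 230 1809 .nil)) .nil)) .nil)) (.cons 254 (.leaf 274 2002 (.cons 230 (.leaf 229 1809 (.leaf 231 1817 .nil)) .nil)) .nil))) (.cons 250 (.cons 225 (.leaf 226 1803 (.cons 249 (.leaf 224 1795 (.cons 229 (.leaf 228 1801 (.leaf 230 1809 .nil)) .nil)) .nil)) (.cons 229 (.leaf 230 1809 (.cons 228 (.leaf 249 1801 (.cons 204 (.leaf 180 1438 (.cons 277 (.leaf 278 2000 (.leaf 301 1639 .nil)) .nil)) .nil)) .nil)) (.cons 226 (.leaf 225 1803 (.cons 202 (.leaf 178 1428 (.cons 299 (.leaf 227 1623 (.leaf 274 1620 .nil)) .nil)) .nil)) .nil))) (.cons 250 (.cons 229 (.leaf 230 1809 (.cons 228 (.leaf 249 1801 (.cons 204 (.leaf 180 1438 (.cons 277 (.leaf 278 2000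 (.leaf 301 1639 .nil)) .nil)) .nil)) .nil)) (.cons 226 (.leaf 225 1803 (.cons 178 (.leaf 202 1428 (.cons 254 (.leaf 227 1811 (.cons 278 (.leaf 277 2000 (.leaf 279 2008 .nil)) .nil)) .nil)) .nil)) (.cons 226 (.leaf 225 1803 (.cons 202 (.leaf 178 1428 (.cons 227 (.leaf 299 1623 (.leaf 254 1811 .nil)) .nil)) .nil)) .nil))) (.cons 254 (.leaf 274 2002 (.cons 227 (.leaf 226 1811 (.cons 231 (.leaf 230 1817 (.cons 255 (.leaf 228 1819 (.leaf 232 1825 .nil)) .nil)) .nil)) .nil)) (.cons 254 (.leaf 274 2002 (.cons 231 (.leaf 230 1817 (.cons 255 (.leaf 232 1825 (.cons 279 (.leaf 278 2008 (.leaf 280 2016 .nil)) .nil)) .nil)) .nil)) (.cons 254 (.leaf 274 2002 (.cons 227 (.leaf 226 1811 (.cons 255 (.leaf 228 1819 (.cons 279 (.leaf 278 2008 (.leaf 280 2016 .nil)) .nil)) .nil)) .nil)) .nil)))))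
noncomputable def t127 : T := .cons 249 (.leaf 273 1986 (.cons 225 (.leaf 224 1795 (.cons 226 (.leaf 253 1803 (.cons 202 (.leaf 178 1428 (.cons 228 (.leaf 229 1801 (.cons 227 (.leaf 299 1623 (.leaf 248 1793 .nil)) .nil)) .nil)) .nil)) .nil)) .nil)) (.cons 253 (.cons 226 (.leaf 225 1803 (.cons 178 (.leaf 202 1428 (.cons 230 (.leaf 229 1809 (.cons 254 (.leaf 227 1811 (.leaf 231 1817 .nil)) .nil)) .nil)) .nil)) (.cons 230 (.leaf 229 1809 (.cons 254 (.leaf 231 1817 (.cons 278 (.leaf 277 2000 (.leaf 279 2008 .nil)) .nil)) .nil)) (.cons 226 (.leaf 225 1803 (.cons 178 (.leaf 202 1428 (.cons 254 (.leaf 227 1811 (.cons 278 (.leaf 277 2000 (.leaf 279 2008 .nil)) .nil)) .nil)) .nil)) (.cons 226 (.leaf 225 1803 (.cons 202 (.leaf 178 1428 (.cons 227 (.leaf 299 1623 (.cons 229 (.leaf 230 1809 (.cons 228 (.leaf 201 1611 (.cons 180 (.leaf 204 1438 (.cons 205 (.leaf 206 1617 (.cons 181 (.leaf 157 1254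 (.leaf 156 1255 .nil)) .nil)) .nil)) .nil)) .nil)) .nil)) .nil)) .nil)) .nil)))) (.cons 249 (.leaf 273 1986 (.cons 224 (.leaf 225 1795 (.cons 228 (.leaf 229 1801 (.cons 248 (.leaf 271 1978 (.leaf 227 1793 .nil)) .nil)) .nil)) .nil)) (.cons 249 (.leaf 273 1986 (.cons 225 (.leaf 224 1795 (.cons 226 (.leaf 253 1803 (.cons 178 (.leaf 202 1428 (.cons 248 (.leaf 271 1978 (.cons 247 (.leaf 227 1785 (.leaf 246 1777 .nil)) .nil)) .nil)) .nil)) .nil)) .nil)) (.cons 249 (.leaf 273 1986 (.cons 225 (.leaf 224 1795 (.cons 229 (.leaf 228 1801 (.cons 253 (.leaf 226 1803 (.leaf 230 1809 .nil)) .nil)) .nil)) .nil)) (.cons 249 (.leaf 273 1986 (.cons 228 (.leaf 229 1801 (.cons 248 (.leaf 271 1978 (.leaf 227 1793 .nil)) .nil)) .nil)) .nil)))))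
noncomputable def t128 : T := .cons 274 (.leaf 273 1985 (.cons 253 (.leaf 254 2002 (.cons 250 (.cons 226 (.leaf 225 1803 (.cons 202 (.leaf 178 1428 (.leaf 299 1620 .nil)) .nil)) (.cons 229 (.leaf 230 1809 (.cons 277 (.leaf 278 2000 (.cons 301 (.cons 228 (.leaf 249 1801 (.leaf 325 1831 .nil)) (.cons 300 (.leaf 324 1830 (.cons 302 (.leaf 299 2195 (.leaf 326 1836 .nil)) .nil)) .nil)) .nil)) .nil)) (.cons 226 (.leaf 225 1803 (.cons 202 (.leaf 178 1428 (.cons 203 (.leaf 179 1429 (.cons 227 (.leaf 298 1621 (.cons 204 (.leaf 180 1437 (.cons 229 (.leaf 230 1809 (.cons 228 (.leaf 249 1801 (.leaf 201 1608 .nil)) .nil)) .nil)) .nil)) .nil)) .nil)) .nil)) .nil))) .nil)) .nil)) (.cons 250 t127 (.cons 253 t126 (.cons 227 t125 (.cons 273 (.leaf 274 1985 (.cons 249 (.leaf 250 1986 (.cons 225 t123 .nil)) .nil)) (.cons 274 (.leaf 273 1985 (.cons 253 (.leaf 254 2002 (.cons 250 (.cons 226 (.leaf 225 1803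 (.cons 202 (.leaf 178 1428 (.leaf 299 1620 .nil)) .nil)) (.cons 229 (.leaf 230 1809 (.cons 277 (.leaf 278 2000 (.cons 301 (.cons 300 (.leaf 324 1830 (.cons 302 (.leaf 299 2195 (.leaf 326 1836 .nil)) .nil)) (.cons 228 (.leaf 249 1801 (.leaf 325 1831 .nil)) .nil)) .nil)) .nil)) (.cons 229 (.leaf 230 1809 (.cons 228 (.leaf 249 1801 (.cons 204 (.leaf 180 1438 (.cons 277 (.leaf 278 2000 (.leaf 301 1639 .nil)) .nil)) .nil)) .nil)) .nil))) .nil)) .nil)) (.cons 273 (.leaf 274 1985 (.cons 249 (.leaf 250 1986 (.cons 225 t122 .nil)) .nil)) (.cons 274 (.leaf 273 1985 (.cons 253 (.leaf 254 2002 (.cons 250 (.cons 226 (.leaf 225 1803 (.cons 202 (.leaf 178 1428 (.cons 203 (.leaf 179 1429 (.cons 227 (.leaf 298 1621 (.cons 204 (.leaf 180 1437 (.cons 229 (.leaf 230 1809 (.cons 228 (.leaf 249 1801 (.leaf 201 1608 .nil)) .nil)) .nil)) .nil)) .nil)) .nil)) .nil)) (.cons 229 (.leaf 230 1809 (.cons 228 (.leaf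 249 1801 (.cons 204 (.leaf 180 1438 (.cons 277 (.leaf 278 2000 (.leaf 301 1639 .nil)) .nil)) .nil)) .nil)) (.cons 226 (.leaf 225 1803 (.cons 202 (.leaf 178 1428 (.cons 177 (.leaf 201 1423 (.cons 203 (.leaf 179 1429 (.cons 298 (.leaf 227 1621 (.cons 277 (.leaf 278 2000 (.cons 321 (.leaf 297 1806 (.cons 322 (.leaf 346 2005 (.leaf 345 1998 .nil)) .nil)) .nil)) .nil)) .nil)) .nil)) .nil)) .nil)) .nil))) .nil)) .nil)) (.cons 273 (.leaf 274 1985 (.cons 250 (.leaf 249 1986 (.cons 253 (.cons 278 (.leaf 277 2000 (.cons 254 (.leaf 279 2008 (.cons 227 (.leaf 226 1811 (.cons 228 (.leaf 255 1819 (.cons 204 (.leaf 180 1438 (.leaf 299 1629 .nil)) .nil)) .nil)) .nil)) .nil)) (.cons 230 (.leaf 229 1809 (.cons 254 (.leaf 231 1817 (.cons 227 (.leaf 226 1811 (.cons 228 (.leaf 255 1819 (.cons 204 (.leaf 180 1438 (.leaf 299 1629 .nil)) .nil)) .nil)) .nil)) .nil)) (.cons 229 (.leaf 230 1809 (.cons 277 (.leaf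 278 2000 (.cons 205 t121 .nil)) .nil)) (.cons 230 (.leaf 229 1809 (.cons 254 (.leaf 231 1817 (.cons 278 (.leaf 277 2000 (.leaf 279 2008 .nil)) .nil)) .nil)) .nil)))) .nil)) .nil)) (.cons 273 (.leaf 274 1985 (.cons 250 (.leaf 249 1986 (.cons 253 t120 .nil)) .nil)) .nil)))))))))
noncomputable def t129 : T := .cons 202 (.leaf 226 1623 (.cons 204 (.leaf 228 1629 (.cons 324 (.leaf 300 1820 (.cons 323 (.leaf 348 2012 (.cons 347 (.leaf 250 2007 (.cons 370 (.leaf 346 2198 (.cons 371 (.leaf 298 2199 (.leaf 394 2390 .nil)) .nil)) .nil)) .nil)) .nil)) .nil)) .nil)) (.cons 226 (.leaf 202 1623 (.cons 323 (.leaf 250 1815 (.cons 324 (.leaf 300 1820 (.leaf 348 2012 .nil)) .nil)) .nil)) (.cons 322 (.leaf 298 1814 (.cons 323 (.leaf 346 2006 (.cons 324 (.leaf 300 1820 (.leaf 348 2012 .nil)) .nil)) .nil)) (.cons 298 (.leaf 322 1814 (.cons 226 (.leaf 202 1623 (.cons 228 (.leaf 204 1629 (.cons 300 (.leaf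 324 1820 (.cons 301 (.leaf 302 2195 (.cons 277 (.leaf 278 2193 (.cons 325 (.leaf 326 2384 (.cons 253 (.leaf 252 1831 (.cons 254 (.leaf 229 1808 (.leaf 230 1837 .nil)) .nil)) .nil)) .nil)) .nil)) .nil)) .nil)) .nil)) .nil)) (.cons 322 (.leaf 298 1814 (.cons 204 (.leaf 228 1629 (.cons 323 (.leaf 346 2006 (.cons 347 (.leaf 250 2007 (.cons 348 (.leaf 324 2012 (.leaf 372 2204 .nil)) .nil)) .nil)) .nil)) .nil)) (.cons 322 (.leaf 298 1814 (.cons 228 (.leaf 204 1629 (.cons 323 (.leaf 252 1821 (.leaf 346 2006 .nil)) .nil)) .nil)) .nil)))))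
noncomputable def t130 : T := .cons 203 (.leaf 298 1622 (.cons 179 (.leaf 250 1430 (.cons 180 (.leaf 204 1437 (.leaf 156 1245 .nil)) .nil)) .nil)) (.cons 299 t129 (.cons 203 (.cons 179 (.leaf 250 1430 (.cons 180 (.leaf 204 1437 (.leaf 156 1245 .nil)) .nil)) (.cons 178 (.leaf 202 1431 (.cons 204 (.leaf 180 1437 (.cons 299 (.leaf 228 1629 (.cons 324 (.leaf 300 1820 (.cons 323 (.leaf 348 2012 (.cons 347 (.leaf 250 2007 (.cons 346 (.leaf 322 2006 (.leaf 370 2198 .nil)) .nil)) .nil)) .nil)) .nil)) .nil)) .nil)) (.cons 178 (.leaf 202 1431 (.cons 179 (.leaf 154 1239 (.leaf 250 1430 .nil)) .nil)) (.cons 204 (.leaf 180 1437 (.cons 178 (.leaf 202 1431 (.cons 179 (.leaf 154 1239 (.cons 176 (.leaf 177 1408 (.cons 228 (.leaf 299 1629 (.cons 155 (.leaf 252 1244 (.leaf 131 1052 .nil)) .nil)) .nil)) .nil)) .nil)) .nil)) .nil)))) (.cons 203 (.leaf 298 1622 (.cons 204 (.leaf 180 1437 (.cons 178 (.leaf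 202 1431 (.cons 179 (.leaf 154 1239 (.cons 176 (.leaf 177 1408 (.cons 228 (.leaf 299 1629 (.cons 155 (.leaf 252 1244 (.leaf 131 1052 .nil)) .nil)) .nil)) .nil)) .nil)) .nil)) .nil)) (.cons 298 (.leaf 203 1622 (.cons 322 (.leaf 299 1814 (.leaf 346 2005 .nil)) .nil)) .nil))))
noncomputable def t131 : T := .cons 273 (.leaf 252 1985 (.cons 299 (.leaf 300 2176 (.cons 271 (.leaf 250 1977 (.leaf 298 2168 .nil)) .nil)) .nil)) (.cons 227 t130 (.cons 273 (.cons 299 (.leaf 300 2176 (.cons 271 (.leaf 250 1977 (.leaf 298 2168 .nil)) .nil)) (.cons 271 (.leaf 250 1977 (.cons 295 (.leaf 296 2170 (.leaf 294 2162 .nil)) .nil)) (.cons 299 (.leaf 300 2176 (.cons 296 (.leaf 295 2170 (.cons 227 (.cons 298 (.leaf 203 1622 (.leaf 322 1814 .nil)) (.cons 202 (.leaf 226 1623 (.cons 203 (.leaf 178 1431 (.cons 204 (.leaf 180 1437 (.leaf 228 1629 .nil)) .nil)) .nil)) (.cons 202 (.leaf 226 1623 (.cons 322 (.leaf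 298 1814 (.cons 204 (.leaf 228 1629 (.cons 323 (.leaf 346 2006 (.cons 347 (.leaf 250 2007 (.cons 348 (.leaf 324 2012 (.leaf 372 2204 .nil)) .nil)) .nil)) .nil)) .nil)) .nil)) .nil))) .nil)) .nil)) (.cons 299 (.leaf 300 2176 (.cons 271 (.leaf 298 2168 (.cons 295 (.leaf 296 2170 (.leaf 294 2162 .nil)) .nil)) .nil)) .nil)))) (.cons 273 (.leaf 252 1985 (.cons 271 (.leaf 250 1977 (.cons 295 (.leaf 296 2170 (.leaf 294 2162 .nil)) .nil)) .nil)) (.cons 273 (.leaf 252 1985 (.cons 299 (.leaf 300 2176 (.cons 271 (.leaf 298 2168 (.cons 295 (.leaf 296 2170 (.leaf 294 2162 .nil)) .nil)) .nil)) .nil)) .nil))))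
noncomputable def t132 : T := .cons 203 (.leaf 178 1431 (.cons 204 (.leaf 180 1437 (.cons 201 (.cons 225 (.leaf 224 1602 (.cons 176 (.leaf 177 1411 (.cons 205 (.leaf 226 1610 (.cons 200 (.leaf 228 1600 (.leaf 175 1403 .nil)) .nil)) .nil)) .nil)) (.cons 225 (.leaf 224 1602 (.cons 176 (.leaf 177 1411 (.cons 205 (.leaf 226 1610 (.cons 200 (.leaf 175 1403 (.cons 128 (.leaf 152 1028 (.cons 230 (.leaf 229 1616 (.cons 182 (.leaf 181 1425 (.cons 206 (.leaf 183 1433 (.leaf 231 1624 .nil)) .nil)) .nil)) .nil)) .nil)) .nil)) .nil)) .nil)) (.cons 228 (.leaf 299 1629 (.leaf 200 1600 .nil)) (.cons 225 (.leaf 224 1602 (.cons 176 (.leaf 177 1411 (.cons 205 (.leaf 226 1610 (.cons 229 (.leaf 228 1608 (.leaf 230 1616 .nil)) .nil)) .nil)) .nil)) .nil)))) .nil)) .nil)) (.cons 299 (.leaf 226 1623 (.cons 228 (.leaf 204 1629 (.cons 322 (.leaf 298 1814 (.cons 323 (.leaf 252 1821 (.leaf 346 2006 .nil)) .nil))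 .nil)) .nil)) (.cons 203 (.leaf 178 1431 (.cons 204 (.leaf 180 1437 (.cons 201 (.cons 225 (.leaf 224 1602 (.cons 176 (.leaf 177 1411 (.cons 205 (.leaf 226 1610 (.cons 200 (.leaf 228 1600 (.leaf 175 1403 .nil)) .nil)) .nil)) .nil)) (.cons 225 (.leaf 224 1602 (.cons 176 (.leaf 177 1411 (.cons 205 (.leaf 226 1610 (.cons 200 (.leaf 175 1403 (.cons 128 (.leaf 152 1028 (.cons 230 (.leaf 229 1616 (.cons 182 (.leaf 181 1425 (.cons 206 (.leaf 183 1433 (.leaf 231 1624 .nil)) .nil)) .nil)) .nil)) .nil)) .nil)) .nil)) .nil)) (.cons 228 (.leaf 200 1600 (.leaf 229 1608 .nil)) (.cons 225 (.leaf 224 1602 (.cons 176 (.leaf 177 1411 (.cons 205 (.leaf 226 1610 (.cons 229 (.leaf 228 1608 (.leaf 230 1616 .nil)) .nil)) .nil)) .nil)) .nil)))) .nil)) .nil)) (.cons 203 (.leaf 178 1431 (.cons 204 (.leaf 180 1437 (.cons 228 (.leaf 299 1629 (.cons 229 (.leaf 230 1619 (.leaf 201 1608 .nil)) .nil)) .nil)) .nil))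 (.cons 226 (.leaf 299 1623 (.cons 178 (.leaf 203 1431 (.leaf 154 1236 .nil)) .nil)) .nil))))
noncomputable def t133 : T := .cons 203 (.leaf 178 1431 (.cons 204 (.leaf 180 1437 (.cons 201 (.cons 176 (.leaf 177 1411 (.cons 175 (.leaf 200 1403 (.cons 228 (.leaf 299 1629 (.leaf 229 1608 .nil)) .nil)) .nil)) (.cons 226 (.leaf 299 1623 (.cons 225 (.leaf 224 1601 (.leaf 205 1610 .nil)) .nil)) (.cons 176 (.leaf 177 1411 (.cons 175 (.leaf 200 1403 (.cons 229 (.leaf 228 1608 (.cons 205 (.leaf 230 1616 (.cons 225 (.leaf 224 1602 (.leaf 226 1610 .nil)) .nil)) .nil)) .nil)) .nil)) .nil))) .nil)) .nil)) (.cons 299 (.leaf 226 1623 (.cons 228 (.leaf 204 1629 (.cons 323 (.leaf 252 1821 (.cons 324 (.leaf 300 1820 (.leaf 348 2012 .nil)) .nil)) .nil)) .nil)) (.cons 203 (.leaf 178 1431 (.cons 204 (.leaf 180 1437 (.cons 201 (.cons 176 (.leaf 177 1411 (.cons 175 (.leaf 200 1403 (.cons 229 (.leaf 228 1608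 (.cons 205 (.leaf 230 1616 (.cons 225 (.leaf 224 1602 (.leaf 226 1610 .nil)) .nil)) .nil)) .nil)) .nil)) (.cons 225 (.leaf 224 1602 (.cons 176 (.leaf 177 1411 (.cons 205 (.leaf 226 1610 (.cons 200 (.leaf 175 1403 (.cons 128 (.leaf 152 1028 (.cons 273 (.leaf 249 1415 (.cons 182 (.leaf 181 1425 (.cons 206 (.leaf 183 1433 (.cons 230 (.leaf 229 1616 (.leaf 231 1624 .nil)) .nil)) .nil)) .nil)) .nil)) .nil)) .nil)) .nil)) .nil)) (.cons 228 (.leaf 200 1600 (.leaf 229 1608 .nil)) (.cons 225 (.leaf 224 1602 (.cons 176 (.leaf 177 1411 (.cons 205 (.leaf 226 1610 (.cons 200 (.leaf 228 1600 (.leaf 175 1403 .nil)) .nil)) .nil)) .nil)) (.cons 225 (.leaf 224 1602 (.cons 176 (.leaf 177 1411 (.cons 205 (.leaf 226 1610 (.cons 229 (.leaf 228 1608 (.leaf 230 1616 .nil)) .nil)) .nil)) .nil)) .nil))))) .nil)) .nil)) (.cons 203 (.leaf 178 1431 (.cons 204 (.leaf 180 1437 (.cons 228 (.leaf 299 1629 (.cons 229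 (.leaf 230 1619 (.leaf 201 1608 .nil)) .nil)) .nil)) .nil)) (.cons 226 (.leaf 299 1623 (.cons 178 (.leaf 203 1431 (.leaf 154 1236 .nil)) .nil)) .nil))))
noncomputable def t134 : T := .cons 203 (.leaf 178 1431 (.cons 204 (.leaf 180 1437 (.cons 201 (.cons 176 (.leaf 177 1411 (.cons 175 (.leaf 200 1403 (.cons 228 (.leaf 299 1629 (.leaf 229 1608 .nil)) .nil)) .nil)) (.cons 176 (.leaf 177 1411 (.cons 175 (.leaf 200 1403 (.cons 226 (.leaf 299 1623 (.cons 225 (.leaf 224 1601 (.leaf 205 1610 .nil)) .nil)) .nil)) .nil)) (.cons 176 (.leaf 177 1411 (.cons 175 (.leaf 200 1403 (.cons 229 (.leaf 228 1608 (.cons 205 (.leaf 230 1616 (.cons 225 (.leaf 224 1602 (.leaf 226 1610 .nil)) .nil)) .nil)) .nil)) .nil)) (.cons 176 (.leaf 177 1411 (.cons 224 (.leaf 225 1602 (.cons 229 (.leaf 228 1608 (.cons 205 (.leaf 230 1616 (.cons 226 (.leaf 299 1623 (.leaf 206 1618 .nil)) .nil)) .nil)) .nil)) .nil)) (.cons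 228 (.leaf 299 1629 (.leaf 200 1600 .nil)) .nil))))) .nil)) .nil)) (.cons 203 (.leaf 178 1431 (.cons 180 (.leaf 204 1437 (.cons 156 (.leaf 179 1245 (.cons 274 (.leaf 298 1622 (.cons 273 (.leaf 252 1985 (.cons 247 (.leaf 248 1979 (.cons 271 (.leaf 246 1971 (.cons 295 (.leaf 296 2170 (.leaf 294 2162 .nil)) .nil)) .nil)) .nil)) .nil)) .nil)) .nil)) .nil)) (.cons 299 (.leaf 226 1623 (.cons 228 (.leaf 204 1629 (.cons 322 (.leaf 298 1814 (.cons 323 (.leaf 252 1821 (.leaf 346 2006 .nil)) .nil)) .nil)) .nil)) (.cons 299 (.leaf 226 1623 (.cons 178 (.leaf 203 1431 (.cons 298 (.leaf 322 1814 (.cons 300 (.leaf 324 1820 (.cons 297 (.leaf 273 2179 (.cons 296 (.leaf 271 2171 (.cons 320 (.leaf 319 2362 (.leaf 321 2370 .nil)) .nil)) .nil)) .nil)) .nil)) .nil)) .nil)) .nil)))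
noncomputable def t135 : T := .cons 202 t134 (.cons 203 (.cons 180 (.leaf 204 1437 (.cons 156 (.leaf 179 1245 (.cons 274 (.leaf 298 1622 (.cons 273 (.leaf 252 1985 (.cons 247 (.leaf 248 1979 (.cons 271 (.leaf 246 1971 (.cons 295 (.leaf 296 2170 (.leaf 294 2162 .nil)) .nil)) .nil)) .nil)) .nil)) .nil)) .nil)) (.cons 274 (.leaf 298 1622 (.cons 178 (.leaf 202 1431 (.cons 154 (.leaf 179 1239 (.cons 273 (.leaf 252 1985 (.cons 247 (.leaf 248 1979 (.cons 271 (.leaf 246 1971 (.cons 295 (.leaf 296 2170 (.leaf 294 2162 .nil)) .nil)) .nil)) .nil)) .nil)) .nil)) .nil)) (.cons 178 (.leaf 202 1431 (.cons 179 (.leaf 154 1239 (.cons 180 (.leaf 204 1437 (.leaf 156 1245 .nil)) .nil)) .nil)) (.cons 178 (.leaf 202 1431 (.cons 180 (.leaf 204 1437 (.cons 274 (.leaf 298 1622 (.cons 273 (.leaf 252 1985 (.cons 247 (.leaf 248 1979 (.cons 271 (.leaf 246 1971 (.cons 295 (.leaf 296 2170 (.leaf 294 2162 .nil))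 .nil)) .nil)) .nil)) .nil)) .nil)) .nil)) .nil)))) (.cons 299 (.cons 202 (.leaf 226 1623 (.cons 228 (.leaf 204 1629 (.cons 322 (.leaf 298 1814 (.cons 323 (.leaf 252 1821 (.leaf 346 2006 .nil)) .nil)) .nil)) .nil)) (.cons 202 (.leaf 226 1623 (.cons 298 (.leaf 322 1814 (.cons 300 (.leaf 324 1820 (.cons 273 (.leaf 274 2176 (.leaf 297 2179 .nil)) .nil)) .nil)) .nil)) (.cons 300 (.leaf 324 1820 (.cons 226 (.leaf 202 1623 (.cons 228 (.leaf 204 1629 (.cons 252 (.leaf 323 1821 (.cons 225 (.leaf 224 1792 (.leaf 253 1800 .nil)) .nil)) .nil)) .nil)) .nil)) (.cons 300 (.leaf 324 1820 (.cons 204 (.leaf 228 1629 (.cons 273 (.leaf 274 2176 (.cons 298 (.leaf 322 1814 (.leaf 297 2179 .nil)) .nil)) .nil)) .nil)) .nil)))) (.cons 299 (.cons 204 (.leaf 228 1629 (.cons 180 (.leaf 203 1437 (.cons 298 (.leaf 322 1814 (.cons 300 (.leaf 324 1820 (.cons 297 (.leaf 273 2179 (.cons 296 (.leaf 271 2171 (.cons 320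 (.leaf 319 2362 (.leaf 321 2370 .nil)) .nil)) .nil)) .nil)) .nil)) .nil)) .nil)) (.cons 202 (.leaf 226 1623 (.cons 178 (.leaf 203 1431 (.cons 298 (.leaf 322 1814 (.cons 300 (.leaf 324 1820 (.cons 297 (.leaf 273 2179 (.cons 296 (.leaf 271 2171 (.cons 320 (.leaf 319 2362 (.leaf 321 2370 .nil)) .nil)) .nil)) .nil)) .nil)) .nil)) .nil)) (.cons 228 (.leaf 204 1629 (.cons 323 (.leaf 252 1821 (.cons 324 (.leaf 300 1820 (.leaf 348 2012 .nil)) .nil)) .nil)) (.cons 202 (.leaf 226 1623 (.cons 228 (.leaf 204 1629 (.cons 322 (.leaf 298 1814 (.cons 323 (.leaf 252 1821 (.leaf 346 2006 .nil)) .nil)) .nil)) .nil)) .nil)))) (.cons 274 (.cons 273 (.leaf 252 1985 (.cons 247 (.leaf 248 1979 (.cons 299 (.leaf 300 2176 (.cons 298 (.leaf 203 1622 (.leaf 322 1814 .nil)) .nil)) .nil)) .nil)) (.cons 298 (.leaf 203 1622 (.cons 322 (.leaf 299 1814 (.leaf 346 2005 .nil)) .nil)) (.cons 273 (.leaf 252 1985 (.cons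 247 (.leaf 248 1979 (.cons 299 (.leaf 300 2176 (.cons 202 (.leaf 226 1623 (.cons 178 (.leaf 203 1431 (.cons 271 (.leaf 246 1971 (.cons 295 (.leaf 296 2170 (.leaf 294 2162 .nil)) .nil)) .nil)) .nil)) .nil)) .nil)) .nil)) (.cons 273 (.leaf 252 1985 (.cons 247 (.leaf 248 1979 (.cons 271 (.leaf 246 1971 (.cons 295 (.leaf 296 2170 (.leaf 294 2162 .nil)) .nil)) .nil)) .nil)) .nil)))) (.cons 202 t133 (.cons 274 (.cons 273 (.leaf 252 1985 (.cons 247 (.leaf 248 1979 (.cons 299 (.leaf 300 2176 (.cons 298 (.leaf 203 1622 (.leaf 322 1814 .nil)) .nil)) .nil)) .nil)) (.cons 298 (.leaf 203 1622 (.cons 322 (.leaf 299 1814 (.leaf 346 2005 .nil)) .nil)) (.cons 273 (.leaf 252 1985 (.cons 247 (.leaf 248 1979 (.cons 271 (.leaf 246 1971 (.cons 295 (.leaf 296 2170 (.leaf 294 2162 .nil)) .nil)) .nil)) .nil)) .nil))) (.cons 202 t132 (.cons 299 (.cons 202 (.leaf 226 1623 (.cons 204 (.leaf 228 1629 (.cons 298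 (.leaf 322 1814 (.cons 203 (.leaf 178 1431 (.leaf 180 1437 .nil)) .nil)) .nil)) .nil)) (.cons 202 (.leaf 226 1623 (.cons 203 (.leaf 178 1431 (.cons 204 (.leaf 180 1437 (.leaf 228 1629 .nil)) .nil)) .nil)) (.cons 202 (.leaf 226 1623 (.cons 298 (.leaf 322 1814 (.cons 300 (.leaf 324 1820 (.cons 273 (.leaf 274 2176 (.leaf 297 2179 .nil)) .nil)) .nil)) .nil)) (.cons 298 (.leaf 322 1814 (.cons 203 (.leaf 274 1622 (.cons 204 (.leaf 180 1437 (.leaf 228 1629 .nil)) .nil)) .nil)) .nil)))) .nil))))))))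
noncomputable def t136 : T := .cons 321 (.leaf 226 1805 (.cons 248 (.leaf 345 1991 (.leaf 224 1799 .nil)) .nil)) (.cons 225 (.cons 200 (.leaf 224 1607 (.cons 201 (.leaf 296 1606 (.leaf 176 1415 .nil)) .nil)) (.cons 226 (.leaf 202 1613 (.cons 298 (.leaf 322 1804 (.cons 299 (.leaf 323 1815 (.leaf 300 2179 .nil)) .nil)) .nil)) .nil)) (.cons 225 (.cons 200 (.leaf 224 1607 (.cons 176 (.leaf 201 1415 (.cons 322 (.leaf 298 1804 (.cons 321 (.leaf 346 1996 (.cons 344 (.leaf 320 1990 (.cons 345 (.leaf 248 1991 (.leaf 368 2182 .nil)) .nil)) .nil)) .nil)) .nil)) .nil)) (.cons 200 (.leaf 224 1607 (.cons 296 (.leaf 320 1798 (.cons 322 (.leaf 298 1804 (.cons 321 (.leaf 346 1996 (.cons 345 (.leaf 248 1991 (.leaf 369 2183 .nil)) .nil)) .nil)) .nil)) .nil)) (.cons 200 (.leaf 224 1607 (.cons 201 (.leaf 296 1606 (.leaf 176 1415 .nil)) .nil)) (.cons 296 (.leaf 201 1606 (.leaf 320 1798 .nil)) .nil)))) (.cons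 226 (.leaf 321 1805 (.cons 299 (.leaf 323 1815 (.cons 298 (.leaf 300 2179 (.cons 225 (.leaf 202 1613 (.leaf 322 1804 .nil)) .nil)) .nil)) .nil)) .nil)))
noncomputable def t137 : T := .cons 225 (.cons 200 (.leaf 224 1607 (.cons 202 (.leaf 226 1613 (.cons 296 (.leaf 201 1606 (.leaf 320 1798 .nil)) .nil)) .nil)) (.cons 200 (.leaf 224 1607 (.cons 176 (.leaf 201 1415 (.cons 226 (.leaf 202 1613 (.leaf 321 1805 .nil)) .nil)) .nil)) (.cons 296 (.leaf 201 1606 (.leaf 320 1798 .nil)) (.cons 200 (.leaf 224 1607 (.cons 202 (.leaf 226 1613 (.cons 296 (.leaf 320 1798 (.cons 298 (.leaf 299 2171 (.leaf 322 1804 .nil)) .nil)) .nil)) .nil)) .nil)))) (.cons 322 (.cons 321 (.leaf 346 1996 (.cons 344 (.leaf 320 1990 (.cons 345 (.leaf 368 2182 (.cons 296 (.leaf 369 2183 (.cons 295 (.leaf 294 2352 (.cons 298 (.leaf 299 2171 (.leaf 225 1804 .nil)) .nil)) .nil)) .nil)) .nil)) .nil)) (.cons 321 (.leaf 346 1996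 (.cons 320 (.leaf 344 1990 (.cons 296 (.leaf 225 1798 (.cons 295 (.leaf 294 2352 (.leaf 323 2363 .nil)) .nil)) .nil)) .nil)) (.cons 225 (.leaf 298 1804 (.cons 296 (.leaf 201 1606 (.leaf 320 1798 .nil)) .nil)) (.cons 321 (.leaf 346 1996 (.cons 344 (.leaf 320 1990 (.cons 345 (.leaf 368 2182 (.cons 296 (.leaf 369 2183 (.cons 295 (.leaf 294 2352 (.cons 298 (.leaf 299 2171 (.leaf 323 2360 .nil)) .nil)) .nil)) .nil)) .nil)) .nil)) (.cons 346 (.leaf 321 1996 (.cons 298 (.leaf 225 1804 (.leaf 370 2191 .nil)) .nil)) .nil))))) (.cons 225 (.cons 200 (.leaf 224 1607 (.cons 202 (.leaf 226 1613 (.cons 296 (.leaf 201 1606 (.leaf 320 1798 .nil)) .nil)) .nil)) (.cons 200 (.leaf 224 1607 (.cons 201 (.leaf 176 1415 (.cons 202 (.leaf 178 1421 (.leaf 226 1613 .nil)) .nil)) .nil)) (.cons 296 (.leaf 201 1606 (.leaf 320 1798 .nil)) (.cons 200 (.leaf 224 1607 (.cons 202 (.leaf 226 1613 (.cons 296 (.leaf 320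 1798 (.cons 298 (.leaf 299 2171 (.leaf 322 1804 .nil)) .nil)) .nil)) .nil)) .nil)))) (.cons 226 (.leaf 321 1805 (.cons 299 (.leaf 323 1815 (.cons 298 (.leaf 296 2171 (.leaf 300 2179 .nil)) .nil)) .nil)) (.cons 226 (.leaf 321 1805 (.cons 202 (.leaf 178 1428 (.leaf 225 1613 .nil)) .nil)) .nil))))
noncomputable def t138 : T := .cons 202 (.leaf 226 1613 (.cons 224 (.leaf 200 1607 (.cons 248 (.leaf 321 1799 (.cons 296 (.leaf 320 1797 (.cons 295 (.leaf 319 1790 (.cons 293 (.leaf 294 2153 (.cons 298 (.leaf 322 1804 (.cons 299 (.leaf 271 2171 (.leaf 300 2179 .nil)) .nil)) .nil)) .nil)) .nil)) .nil)) .nil)) .nil)) (.cons 224 (.leaf 200 1607 (.cons 202 (.leaf 226 1613 (.cons 321 (.leaf 248 1799 (.cons 344 (.leaf 320 1990 (.cons 345 (.leaf 368 2182 (.cons 322 (.leaf 298 1804 (.leaf 346 1996 .nil)) .nil)) .nil)) .nil)) .nil)) .nil)) (.cons 224 (.leaf 200 1607 (.cons 202 (.leaf 226 1613 (.cons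 248 (.leaf 321 1799 (.cons 298 (.leaf 322 1804 (.cons 271 (.leaf 270 2160 (.cons 299 (.leaf 296 2171 (.leaf 300 2179 .nil)) .nil)) .nil)) .nil)) .nil)) .nil)) (.cons 224 (.leaf 200 1607 (.cons 202 (.leaf 226 1613 (.cons 321 (.leaf 248 1799 (.cons 344 (.leaf 320 1990 (.cons 345 (.leaf 368 2182 (.cons 346 (.leaf 322 1996 (.leaf 370 2188 .nil)) .nil)) .nil)) .nil)) .nil)) .nil)) (.cons 320 (.leaf 296 1798 (.cons 202 (.leaf 226 1613 (.cons 321 (.leaf 344 1990 (.cons 322 (.leaf 298 1804 (.leaf 346 1996 .nil)) .nil)) .nil)) .nil)) (.cons 320 (.leaf 296 1798 (.cons 202 (.leaf 226 1613 (.cons 224 (.leaf 200 1607 (.cons 321 (.leaf 248 1799 (.leaf 344 1990 .nil)) .nil)) .nil)) .nil)) (.cons 296 (.leaf 320 1798 (.cons 200 (.leaf 224 1607 (.cons 298 (.leaf 322 1804 (.cons 271 (.leaf 270 2160 (.leaf 299 2171 .nil)) .nil)) .nil)) .nil)) .nil))))))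
noncomputable def t139 : T := .cons 201 (.leaf 296 1606 (.cons 176 (.leaf 200 1415 (.cons 202 (.leaf 178 1421 (.cons 297 (.leaf 226 1613 (.cons 322 (.leaf 298 1804 (.cons 177 (.leaf 248 1414 (.leaf 152 1223 .nil)) .nil)) .nil)) .nil)) .nil)) .nil)) (.cons 297 (.cons 200 (.leaf 224 1607 (.cons 176 (.leaf 201 1415 (.cons 322 (.leaf 298 1804 (.cons 321 (.leaf 346 1996 (.cons 344 (.leaf 320 1990 (.cons 345 (.leaf 248 1991 (.leaf 368 2182 .nil)) .nil)) .nil)) .nil)) .nil)) .nil)) (.cons 202 (.leaf 226 1613 (.cons 178 (.leaf 201 1421 (.cons 322 (.leaf 298 1804 (.cons 321 (.leaf 346 1996 (.cons 344 (.leaf 320 1990 (.cons 345 (.leaf 248 1991 (.leaf 368 2182 .nil)) .nil)) .nil)) .nil)) .nil)) .nil)) (.cons 200 (.leaf 224 1607 (.cons 201 (.leaf 176 1415 (.cons 202 (.leaf 178 1421 (.leaf 226 1613 .nil)) .nil)) .nil)) (.cons 200 (.leaf 224 1607 (.cons 202 (.leaf 226 1613 (.cons 322 (.leaf 298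 1804 (.cons 321 (.leaf 346 1996 (.cons 345 (.leaf 248 1991 (.cons 344 (.leaf 320 1990 (.leaf 368 2182 .nil)) .nil)) .nil)) .nil)) .nil)) .nil)) .nil)))) (.cons 297 t138 (.cons 201 (.leaf 296 1606 (.cons 176 (.leaf 200 1415 (.cons 177 (.leaf 248 1414 (.leaf 152 1223 .nil)) .nil)) .nil)) (.cons 201 (.leaf 296 1606 (.cons 176 (.leaf 200 1415 (.cons 177 (.leaf 152 1223 (.cons 178 (.leaf 202 1421 (.leaf 154 1229 .nil)) .nil)) .nil)) .nil)) (.cons 296 (.leaf 201 1606 (.cons 320 (.leaf 248 1797 (.leaf 344 1989 .nil)) .nil)) .nil)))))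
noncomputable def t140 : T := .cons 274 (.leaf 252 1985 (.cons 299 (.leaf 300 2176 (.cons 247 (.leaf 248 1979 (.cons 271 (.leaf 246 1971 (.leaf 250 1977 .nil)) .nil)) .nil)) .nil)) (.cons 249 (.cons 250 (.leaf 252 1986 (.cons 271 (.leaf 248 1978 (.leaf 270 1969 .nil)) .nil)) (.cons 225 t139 (.cons 250 (.leaf 252 1986 (.cons 271 (.leaf 270 1969 (.cons 297 t137 .nil)) .nil)) (.cons 250 (.leaf 252 1986 (.cons 297 t136 .nil)) .nil)))) (.cons 274 (.cons 299 (.leaf 300 2176 (.cons 247 (.leaf 248 1979 (.cons 271 (.leaf 246 1971 (.leaf 250 1977 .nil)) .nil)) .nil)) (.cons 299 (.leaf 300 2176 (.cons 296 (.leaf 295 2170 (.cons 248 (.leaf 247 1979 (.cons 323 (.cons 322 (.leaf 346 2006 (.cons 324 (.leaf 348 2012 (.cons 321 (.leaf 297 2371 (.cons 345 (.leaf 320 1988 (.leaf 344 2562 .nil)) .nil)) .nil)) .nil)) (.cons 250 (.leaf 226 1815 (.leaf 347 2007 .nil)) .nil)) .nil)) .nil)) .nil)) (.cons 271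 (.leaf 250 1977 (.cons 295 (.leaf 296 2170 (.leaf 294 2162 .nil)) .nil)) (.cons 299 (.leaf 300 2176 (.cons 247 (.leaf 248 1979 (.cons 271 (.leaf 246 1971 (.leaf 298 2168 .nil)) .nil)) .nil)) .nil)))) (.cons 274 (.leaf 252 1985 (.cons 299 (.leaf 300 2176 (.cons 247 (.leaf 248 1979 (.cons 271 (.leaf 246 1971 (.leaf 298 2168 .nil)) .nil)) .nil)) .nil)) (.cons 274 (.leaf 252 1985 (.cons 299 (.leaf 300 2176 (.cons 296 (.leaf 295 2170 (.cons 248 (.leaf 247 1979 (.cons 323 (.cons 322 (.leaf 346 2006 (.cons 324 (.leaf 348 2012 (.cons 321 (.leaf 297 2371 (.cons 345 (.leaf 320 1988 (.leaf 344 2562 .nil)) .nil)) .nil)) .nil)) (.cons 250 (.leaf 226 1815 (.leaf 347 2007 .nil)) .nil)) .nil)) .nil)) .nil)) .nil)) (.cons 274 (.leaf 252 1985 (.cons 271 (.leaf 250 1977 (.cons 295 (.leaf 296 2170 (.leaf 294 2162 .nil)) .nil)) .nil)) .nil)))))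
noncomputable def t141 : T := .cons 204 (.leaf 228 1629 (.cons 226 (.leaf 202 1623 (.cons 203 (.leaf 180 1437 (.cons 205 (.leaf 206 1618 (.cons 224 (.leaf 225 1601 (.cons 250 (.leaf 323 1815 (.cons 274 (.leaf 298 1621 (.leaf 179 1430 .nil)) .nil)) .nil)) .nil)) .nil)) .nil)) .nil)) (.cons 300 (.leaf 324 1820 (.cons 204 (.leaf 228 1629 (.cons 203 (.leaf 180 1437 (.cons 274 (.leaf 298 1622 (.leaf 273 2176 .nil)) .nil)) .nil)) .nil)) (.cons 202 (.leaf 226 1623 (.cons 203 (.leaf 178 1431 (.cons 274 (.leaf 298 1622 (.cons 250 (.leaf 179 1430 (.cons 323 (.leaf 347 2007 (.cons 324 (.leaf 300 1820 (.leaf 348 2012 .nil)) .nil)) .nil)) .nil)) .nil)) .nil)) (.cons 204 (.leaf 228 1629 (.cons 226 (.leaf 202 1623 (.cons 250 (.leaf 323 1815 (.cons 300 (.leaf 324 1820 (.cons 273 (.leaf 274 2176 (.cons 297 (.leaf 298 2179 (.cons 249 (.leaf 321 1805 (.cons 248 (.leaf 271 1978 (.leaf 247 1785 .nil))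 .nil)) .nil)) .nil)) .nil)) .nil)) .nil)) .nil)) (.cons 226 (.leaf 202 1623 (.cons 204 (.leaf 228 1629 (.cons 180 (.leaf 203 1437 (.cons 323 (.leaf 250 1815 (.cons 324 (.leaf 300 1820 (.leaf 348 2012 .nil)) .nil)) .nil)) .nil)) .nil)) .nil))))
noncomputable def t142 : T := .cons 204 (.leaf 228 1629 (.cons 180 (.leaf 203 1437 (.cons 322 (.leaf 298 1814 (.cons 323 (.leaf 346 2006 (.cons 250 (.leaf 226 1815 (.cons 274 (.leaf 347 2007 (.cons 273 (.leaf 271 1977 (.cons 296 (.leaf 295 2170 (.cons 324 (.leaf 348 2012 (.cons 321 (.leaf 297 2371 (.cons 248 (.leaf 247 1979 (.cons 345 (.leaf 320 1988 (.leaf 344 2562 .nil)) .nil)) .nil)) .nil)) .nil)) .nil)) .nil)) .nil)) .nil)) .nil)) .nil)) .nil)) (.cons 226 (.leaf 202 1623 (.cons 204 (.leaf 228 1629 (.cons 203 (.leaf 180 1437 (.cons 205 (.leaf 206 1618 (.cons 224 (.leaf 225 1601 (.cons 250 (.leaf 323 1815 (.cons 179 (.leaf 274 1430 (.leaf 155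 1238 .nil)) .nil)) .nil)) .nil)) .nil)) .nil)) .nil)) (.cons 298 (.leaf 322 1814 (.cons 203 (.leaf 274 1622 (.cons 178 (.leaf 202 1431 (.cons 179 (.leaf 154 1239 (.cons 180 (.leaf 204 1437 (.leaf 156 1245 .nil)) .nil)) .nil)) .nil)) .nil)) (.cons 298 (.leaf 322 1814 (.cons 202 (.leaf 226 1623 (.cons 203 (.leaf 178 1431 (.leaf 274 1622 .nil)) .nil)) .nil)) (.cons 226 (.leaf 202 1623 (.cons 204 (.leaf 228 1629 (.cons 322 (.leaf 298 1814 (.cons 323 (.leaf 250 1815 (.leaf 346 2006 .nil)) .nil)) .nil)) .nil)) .nil))))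
noncomputable def t143 : T := .cons 202 (.leaf 226 1623 (.cons 178 (.leaf 203 1431 (.cons 204 (.leaf 228 1629 (.cons 298 (.leaf 322 1814 (.cons 300 (.leaf 324 1820 (.cons 297 (.leaf 273 2179 (.cons 296 (.leaf 271 2171 (.cons 320 (.leaf 319 2362 (.leaf 321 2370 .nil)) .nil)) .nil)) .nil)) .nil)) .nil)) .nil)) .nil)) (.cons 204 (.leaf 228 1629 (.cons 180 (.leaf 203 1437 (.cons 298 (.leaf 322 1814 (.cons 300 (.leaf 324 1820 (.cons 297 (.leaf 273 2179 (.cons 296 (.leaf 271 2171 (.cons 320 (.leaf 319 2362 (.leaf 321 2370 .nil)) .nil)) .nil)) .nil)) .nil)) .nil)) .nil)) (.cons 202 (.leaf 226 1623 (.cons 178 (.leaf 203 1431 (.cons 298 (.leaf 322 1814 (.cons 300 (.leaf 324 1820 (.cons 297 (.leaf 273 2179 (.cons 296 (.leaf 271 2171 (.cons 320 (.leaf 319 2362 (.leaf 321 2370 .nil)) .nil)) .nil)) .nil)) .nil)) .nil)) .nil)) (.cons 202 (.leaf 226 1623 (.cons 203 (.leaf 178 1431 (.cons 204 (.leaf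 180 1437 (.leaf 228 1629 .nil)) .nil)) .nil)) (.cons 226 (.leaf 202 1623 (.cons 323 (.leaf 250 1815 (.cons 324 (.leaf 300 1820 (.leaf 348 2012 .nil)) .nil)) .nil)) .nil))))
noncomputable def t144 : T := .cons 227 (.cons 204 (.leaf 228 1629 (.cons 226 (.leaf 202 1623 (.cons 203 (.leaf 180 1437 (.cons 205 (.leaf 206 1618 (.cons 224 (.leaf 225 1601 (.cons 250 (.leaf 323 1815 (.cons 274 (.leaf 298 1621 (.leaf 179 1430 .nil)) .nil)) .nil)) .nil)) .nil)) .nil)) .nil)) (.cons 226 (.leaf 202 1623 (.cons 323 (.leaf 250 1815 (.cons 324 (.leaf 300 1820 (.leaf 348 2012 .nil)) .nil)) .nil)) (.cons 298 (.leaf 322 1814 (.cons 203 (.leaf 274 1622 (.cons 178 (.leaf 202 1431 (.cons 179 (.leaf 154 1239 (.cons 180 (.leaf 204 1437 (.leaf 156 1245 .nil)) .nil)) .nil)) .nil)) .nil)) (.cons 298 (.leaf 322 1814 (.cons 203 (.leaf 274 1622 (.cons 204 (.leaf 180 1437 (.leaf 228 1629 .nil)) .nil)) .nil)) .nil))))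 (.cons 323 (.cons 250 (.leaf 226 1815 (.cons 274 (.leaf 347 2007 (.cons 273 (.leaf 300 2176 (.leaf 271 1977 .nil)) .nil)) .nil)) (.cons 346 (.leaf 322 2006 (.cons 347 (.leaf 370 2198 (.cons 348 (.leaf 324 2012 (.leaf 372 2204 .nil)) .nil)) .nil)) (.cons 322 (.leaf 346 2006 (.cons 324 (.leaf 348 2012 (.cons 250 (.leaf 226 1815 (.cons 321 (.cons 300 (.leaf 320 2369 (.leaf 301 2377 .nil)) (.cons 296 (.leaf 297 2371 (.cons 295 (.leaf 320 2363 (.cons 274 (.leaf 273 2170 (.cons 345 (.leaf 344 2562 (.leaf 298 1998 .nil)) .nil)) .nil)) .nil)) (.cons 296 (.leaf 297 2371 (.cons 300 (.leaf 301 2377 (.cons 274 (.leaf 273 2176 (.cons 345 (.leaf 344 2562 (.leaf 298 1998 .nil)) .nil)) .nil)) .nil)) .nil))) .nil)) .nil)) .nil)) .nil))) (.cons 227 (.cons 202 (.leaf 226 1623 (.cons 203 (.leaf 178 1431 (.cons 298 (.leaf 274 1622 (.leaf 322 1814 .nil)) .nil)) .nil)) (.cons 202 (.leaf 226 1623 (.cons 203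 (.leaf 178 1431 (.cons 204 (.leaf 180 1437 (.leaf 228 1629 .nil)) .nil)) .nil)) (.cons 298 (.leaf 322 1814 (.cons 203 (.leaf 274 1622 (.cons 204 (.leaf 180 1437 (.leaf 228 1629 .nil)) .nil)) .nil)) (.cons 202 (.leaf 226 1623 (.cons 204 (.leaf 228 1629 (.cons 298 (.leaf 322 1814 (.cons 300 (.leaf 324 1820 (.cons 297 (.leaf 273 2179 (.cons 296 (.leaf 271 2171 (.cons 320 (.leaf 319 2362 (.leaf 321 2370 .nil)) .nil)) .nil)) .nil)) .nil)) .nil)) .nil)) .nil)))) (.cons 227 t143 (.cons 323 (.cons 250 (.leaf 226 1815 (.cons 274 (.leaf 347 2007 (.cons 322 (.leaf 346 2006 (.cons 324 (.leaf 348 2012 (.cons 300 (.leaf 227 1820 (.leaf 273 2176 .nil)) .nil)) .nil)) .nil)) .nil)) (.cons 250 (.leaf 226 1815 (.cons 274 (.leaf 347 2007 (.cons 273 (.leaf 300 2176 (.leaf 271 1977 .nil)) .nil)) .nil)) (.cons 346 (.leaf 322 2006 (.cons 347 (.leaf 370 2198 (.cons 348 (.leaf 324 2012 (.leaf 372 2204 .nil))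 .nil)) .nil)) (.cons 226 (.leaf 250 1815 (.cons 227 (.leaf 202 1623 (.cons 324 (.leaf 300 1820 (.leaf 348 2012 .nil)) .nil)) .nil)) .nil)))) (.cons 227 t142 (.cons 227 t141 (.cons 227 (.cons 204 (.leaf 228 1629 (.cons 180 (.leaf 203 1437 (.cons 298 (.leaf 322 1814 (.cons 300 (.leaf 324 1820 (.cons 297 (.leaf 273 2179 (.cons 296 (.leaf 271 2171 (.cons 320 (.leaf 319 2362 (.leaf 321 2370 .nil)) .nil)) .nil)) .nil)) .nil)) .nil)) .nil)) (.cons 300 (.leaf 324 1820 (.cons 204 (.leaf 228 1629 (.cons 203 (.leaf 180 1437 (.cons 178 (.leaf 202 1431 (.cons 179 (.leaf 154 1239 (.cons 274 (.leaf 273 2176 (.leaf 250 1430 .nil)) .nil)) .nil)) .nil)) .nil)) .nil)) (.cons 298 (.leaf 322 1814 (.cons 203 (.leaf 274 1622 (.cons 178 (.leaf 202 1431 (.cons 179 (.leaf 154 1239 (.cons 180 (.leaf 204 1437 (.leaf 156 1245 .nil)) .nil)) .nil)) .nil)) .nil)) (.cons 298 (.leaf 322 1814 (.cons 274 (.leaf 203 1622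 (.cons 324 (.leaf 300 1820 (.cons 323 (.leaf 348 2012 (.cons 347 (.leaf 250 2007 (.leaf 371 2199 .nil)) .nil)) .nil)) .nil)) .nil)) (.cons 300 (.leaf 324 1820 (.cons 204 (.leaf 228 1629 (.cons 273 (.leaf 274 2176 (.cons 298 (.leaf 322 1814 (.leaf 297 2179 .nil)) .nil)) .nil)) .nil)) .nil))))) (.cons 227 (.cons 202 (.leaf 226 1623 (.cons 203 (.leaf 178 1431 (.cons 298 (.leaf 274 1622 (.leaf 322 1814 .nil)) .nil)) .nil)) (.cons 202 (.leaf 226 1623 (.cons 203 (.leaf 178 1431 (.cons 204 (.leaf 180 1437 (.leaf 228 1629 .nil)) .nil)) .nil)) (.cons 298 (.leaf 322 1814 (.cons 203 (.leaf 274 1622 (.cons 178 (.leaf 202 1431 (.cons 179 (.leaf 154 1239 (.cons 180 (.leaf 204 1437 (.leaf 156 1245 .nil)) .nil)) .nil)) .nil)) .nil)) (.cons 298 (.leaf 322 1814 (.cons 203 (.leaf 274 1622 (.cons 204 (.leaf 180 1437 (.leaf 228 1629 .nil)) .nil)) .nil)) (.cons 204 (.leaf 228 1629 (.cons 226 (.leaf 202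 1623 (.cons 322 (.leaf 298 1814 (.cons 323 (.leaf 250 1815 (.leaf 346 2006 .nil)) .nil)) .nil)) .nil)) .nil))))) .nil))))))))
noncomputable def t145 : T := .cons 319 (.leaf 343 1982 (.cons 224 (.leaf 295 1790 (.cons 297 (.leaf 200 1604 (.leaf 321 1796 .nil)) .nil)) .nil)) (.cons 319 (.leaf 343 1982 (.cons 224 (.leaf 295 1790 (.cons 200 (.leaf 297 1604 (.leaf 176 1412 .nil)) .nil)) .nil)) (.cons 321 (.leaf 345 1988 (.cons 297 (.leaf 224 1796 (.cons 322 (.leaf 346 1996 (.cons 295 (.leaf 294 2352 (.leaf 323 2363 .nil)) .nil)) .nil)) .nil)) (.cons 319 (.leaf 343 1982 (.cons 295 (.leaf 224 1790 (.cons 294 (.leaf 293 2153 (.cons 321 (.leaf 345 1988 (.leaf 322 2355 .nil)) .nil)) .nil)) .nil)) (.cons 271 (.leaf 250 1978 (.cons 270 (.leaf 269 1961 (.cons 245 (.leaf 246 1963 (.cons 293 (.leaf 294 2154 (.cons 297 (.leaf 298 2160 (.cons 321 (.leaf 345 1988 (.cons 319 (.leaf 343 1982 (.cons 318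 (.leaf 317 2345 (.cons 322 (.leaf 346 1996 (.cons 323 (.leaf 295 2363 (.leaf 324 2371 .nil)) .nil)) .nil)) .nil)) .nil)) .nil)) .nil)) .nil)) .nil)) .nil)) (.cons 321 (.leaf 345 1988 (.cons 224 (.leaf 297 1796 (.cons 200 (.leaf 176 1412 (.cons 199 (.leaf 175 1407 (.cons 201 (.leaf 177 1413 (.cons 250 (.leaf 271 1978 (.cons 227 (.leaf 228 1793 (.cons 226 (.leaf 247 1785 (.leaf 202 1592 .nil)) .nil)) .nil)) .nil)) .nil)) .nil)) .nil)) .nil)) .nil)))))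
noncomputable def t146 : T := .cons 224 (.leaf 200 1607 (.cons 226 (.leaf 202 1613 (.cons 321 (.leaf 248 1796 (.leaf 250 1805 .nil)) .nil)) .nil)) (.cons 226 (.leaf 202 1613 (.cons 250 (.leaf 321 1805 (.cons 271 (.leaf 248 1978 (.leaf 270 1969 .nil)) .nil)) .nil)) (.cons 200 (.leaf 224 1607 (.cons 226 (.leaf 202 1613 (.cons 321 (.leaf 250 1805 (.cons 322 (.leaf 298 1804 (.leaf 346 1996 .nil)) .nil)) .nil)) .nil)) (.cons 298 (.leaf 322 1804 (.cons 224 (.leaf 200 1607 (.cons 226 (.leaf 202 1613 (.cons 271 (.leaf 270 2160 (.cons 248 (.leaf 250 1978 (.cons 227 (.leaf 228 1794 (.leaf 247 1786 .nil)) .nil)) .nil)) .nil)) .nil)) .nil)) (.cons 224 (.leaf 200 1607 (.cons 248 (.leaf 321 1796 (.cons 271 (.leaf 250 1978 (.cons 270 (.leaf 269 2152 (.leaf 298 2160 .nil)) .nil)) .nil)) .nil)) (.cons 224 (.leaf 200 1607 (.cons 248 (.leaf 321 1796 (.cons 202 (.leaf 226 1613 (.cons 295 (.leaf 319 1790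 (.cons 294 (.leaf 293 2153 (.cons 270 (.leaf 269 2155 (.cons 271 (.leaf 298 2160 (.cons 246 (.leaf 245 1963 (.cons 222 (.leaf 198 1588 (.cons 221 (.leaf 247 1771 (.leaf 197 1583 .nil)) .nil)) .nil)) .nil)) .nil)) .nil)) .nil)) .nil)) .nil)) .nil)) .nil)))))
noncomputable def t147 : T := .cons 201 (.leaf 296 1606 (.cons 176 (.leaf 200 1415 (.cons 202 (.leaf 178 1421 (.cons 297 (.leaf 226 1613 (.cons 322 (.leaf 298 1804 (.cons 177 (.leaf 248 1414 (.leaf 152 1223 .nil)) .nil)) .nil)) .nil)) .nil)) .nil)) (.cons 297 (.cons 200 (.leaf 224 1607 (.cons 202 (.leaf 226 1613 (.cons 322 (.leaf 298 1804 (.cons 321 (.leaf 346 1996 (.cons 320 (.leaf 296 1798 (.leaf 344 1990 .nil)) .nil)) .nil)) .nil)) .nil)) (.cons 224 (.leaf 200 1607 (.cons 226 (.leaf 202 1613 (.cons 227 (.leaf 252 1792 (.cons 248 (.leaf 321 1799 (.leaf 228 1794 .nil)) .nil)) .nil)) .nil)) (.cons 320 (.leaf 296 1798 (.cons 202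 (.leaf 226 1613 (.cons 321 (.leaf 344 1990 (.cons 322 (.leaf 298 1804 (.leaf 346 1996 .nil)) .nil)) .nil)) .nil)) (.cons 224 (.leaf 200 1607 (.cons 226 (.leaf 202 1613 (.cons 227 (.leaf 252 1792 (.cons 248 (.leaf 228 1794 (.leaf 247 1786 .nil)) .nil)) .nil)) .nil)) (.cons 200 (.leaf 224 1607 (.cons 296 (.leaf 320 1798 (.cons 322 (.leaf 298 1804 (.cons 321 (.leaf 346 1996 (.cons 345 (.leaf 248 1991 (.leaf 369 2183 .nil)) .nil)) .nil)) .nil)) .nil)) .nil))))) (.cons 297 (.cons 200 (.leaf 224 1607 (.cons 176 (.leaf 201 1415 (.cons 322 (.leaf 298 1804 (.cons 321 (.leaf 346 1996 (.cons 344 (.leaf 320 1990 (.cons 345 (.leaf 248 1991 (.leaf 368 2182 .nil)) .nil)) .nil)) .nil)) .nil)) .nil)) (.cons 202 (.leaf 226 1613 (.cons 178 (.leaf 201 1421 (.cons 203 (.leaf 227 1431 (.cons 322 (.leaf 298 1804 (.cons 321 (.leaf 346 1996 (.cons 345 (.leaf 248 1991 (.cons 344 (.leaf 320 1990 (.leaf 368 2182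 .nil)) .nil)) .nil)) .nil)) .nil)) .nil)) .nil)) (.cons 200 (.leaf 224 1607 (.cons 201 (.leaf 176 1415 (.cons 202 (.leaf 178 1421 (.leaf 226 1613 .nil)) .nil)) .nil)) (.cons 224 (.leaf 200 1607 (.cons 226 (.leaf 202 1613 (.cons 227 (.leaf 252 1792 (.cons 248 (.leaf 321 1799 (.leaf 228 1794 .nil)) .nil)) .nil)) .nil)) .nil)))) (.cons 201 (.leaf 296 1606 (.cons 176 (.leaf 200 1415 (.cons 177 (.leaf 248 1414 (.leaf 152 1223 .nil)) .nil)) .nil)) (.cons 201 (.leaf 296 1606 (.cons 176 (.leaf 200 1415 (.cons 177 (.leaf 152 1223 (.cons 178 (.leaf 202 1421 (.leaf 154 1229 .nil)) .nil)) .nil)) .nil)) (.cons 296 (.leaf 201 1606 (.cons 320 (.leaf 248 1797 (.leaf 344 1989 .nil)) .nil)) .nil)))))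
noncomputable def t148 : T := .cons 225 (.cons 201 (.leaf 296 1606 (.cons 176 (.leaf 200 1415 (.cons 202 (.leaf 178 1421 (.cons 297 (.leaf 226 1613 (.cons 322 (.leaf 298 1804 (.cons 177 (.leaf 248 1414 (.leaf 152 1223 .nil)) .nil)) .nil)) .nil)) .nil)) .nil)) (.cons 250 (.leaf 252 1986 (.cons 271 (.leaf 248 1978 (.leaf 270 1969 .nil)) .nil)) (.cons 201 (.leaf 296 1606 (.cons 176 (.leaf 200 1415 (.cons 177 (.leaf 152 1223 (.cons 178 (.leaf 202 1421 (.leaf 154 1229 .nil)) .nil)) .nil)) .nil)) .nil))) (.cons 225 t147 (.cons 296 (.cons 320 (.leaf 344 1989 (.cons 225 (.leaf 201 1606 (.leaf 248 1797 .nil)) .nil)) (.cons 225 (.leaf 201 1606 (.cons 297 t146 .nil)) (.cons 320 (.leaf 344 1989 (.cons 248 t145 .nil)) (.cons 320 (.leaf 344 1989 (.cons 225 (.leaf 201 1606 (.leaf 297 1798 .nil)) .nil)) (.cons 320 (.leaf 344 1989 (.cons 248 (.leaf 225 1797 (.cons 271 (.leaf 250 1978 (.cons 270 (.leaf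 269 1961 (.cons 245 (.leaf 246 1963 (.cons 293 (.leaf 294 2154 (.cons 297 (.leaf 298 2160 (.cons 321 (.leaf 224 1796 (.leaf 345 1988 .nil)) .nil)) .nil)) .nil)) .nil)) .nil)) .nil)) .nil)) .nil))))) (.cons 252 (.leaf 250 1986 (.cons 225 (.cons 226 (.cons 202 (.leaf 297 1613 (.cons 178 (.leaf 201 1421 (.leaf 154 1230 .nil)) .nil)) (.cons 227 (.leaf 224 1792 (.cons 253 (.leaf 254 1811 (.leaf 228 1800 .nil)) .nil)) .nil)) (.cons 297 (.cons 202 (.leaf 226 1613 (.cons 320 (.leaf 296 1798 (.cons 321 (.leaf 344 1990 (.cons 322 (.leaf 298 1804 (.leaf 346 1996 .nil)) .nil)) .nil)) .nil)) (.cons 224 (.leaf 200 1607 (.cons 226 (.leaf 227 1792 (.leaf 202 1613 .nil)) .nil)) (.cons 200 (.leaf 224 1607 (.cons 320 (.leaf 296 1798 (.cons 321 (.leaf 344 1990 (.cons 322 (.leaf 298 1804 (.leaf 346 1996 .nil)) .nil)) .nil)) .nil)) .nil))) (.cons 201 (.leaf 296 1606 (.cons 176 (.leaf 200 1415 (.cons 177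 (.leaf 152 1223 (.cons 178 (.leaf 202 1421 (.leaf 154 1229 .nil)) .nil)) .nil)) .nil)) (.cons 296 (.leaf 201 1606 (.cons 320 (.leaf 344 1989 (.leaf 297 1798 .nil)) .nil)) .nil)))) .nil)) (.cons 250 (.leaf 252 1986 (.cons 271 (.leaf 248 1978 (.leaf 270 1969 .nil)) .nil)) .nil))))
noncomputable def t149 : T := .cons 274 (.leaf 252 1985 (.cons 248 (.leaf 247 1979 (.cons 296 (.leaf 295 2170 (.cons 320 (.cons 225 (.leaf 249 1797 (.cons 321 (.leaf 345 1988 (.cons 224 (.leaf 201 1605 (.leaf 297 1796 .nil)) .nil)) .nil)) (.cons 321 (.leaf 345 1988 (.cons 343 (.leaf 319 1982 (.cons 344 (.leaf 367 2174 (.cons 322 (.leaf 323 2554 (.cons 298 (.leaf 346 2005 (.cons 297 (.leaf 224 1796 (.leaf 368 2181 .nil)) .nil)) .nil)) .nil)) .nil)) .nil)) (.cons 249 (.leaf 225 1797 (.leaf 344 1989 .nil)) .nil))) .nil)) .nil)) .nil)) (.cons 249 t148 (.cons 274 (.cons 271 (.leaf 250 1977 (.cons 295 (.leaf 296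 2170 (.leaf 294 2162 .nil)) .nil)) (.cons 248 (.leaf 247 1979 (.cons 296 (.leaf 295 2170 (.cons 320 (.cons 225 (.leaf 249 1797 (.cons 321 (.leaf 345 1988 (.cons 224 (.leaf 201 1605 (.leaf 297 1796 .nil)) .nil)) .nil)) (.cons 321 (.leaf 345 1988 (.cons 343 (.leaf 319 1982 (.cons 344 (.leaf 367 2174 (.cons 322 (.leaf 323 2554 (.cons 298 (.leaf 346 2005 (.cons 297 (.leaf 224 1796 (.leaf 368 2181 .nil)) .nil)) .nil)) .nil)) .nil)) .nil)) (.cons 249 (.leaf 225 1797 (.leaf 344 1989 .nil)) .nil))) .nil)) .nil)) (.cons 271 (.leaf 250 1977 (.cons 247 (.leaf 248 1979 (.leaf 246 1971 .nil)) .nil)) .nil))) (.cons 274 (.leaf 252 1985 (.cons 271 (.leaf 250 1977 (.cons 295 (.leaf 296 2170 (.leaf 294 2162 .nil)) .nil)) .nil)) (.cons 274 (.leaf 252 1985 (.cons 271 (.leaf 250 1977 (.cons 247 (.leaf 248 1979 (.leaf 246 1971 .nil)) .nil)) .nil)) .nil))))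
noncomputable def t150 : T := .cons 202 (.leaf 226 1623 (.cons 203 (.leaf 178 1431 (.cons 180 (.leaf 204 1437 (.cons 179 (.leaf 156 1245 (.cons 274 (.leaf 298 1622 (.leaf 250 1430 .nil)) .nil)) .nil)) .nil)) .nil)) (.cons 202 (.leaf 226 1623 (.cons 203 (.leaf 178 1431 (.cons 204 (.leaf 180 1437 (.leaf 228 1629 .nil)) .nil)) .nil)) (.cons 298 (.leaf 322 1814 (.cons 203 (.leaf 274 1622 (.cons 178 (.leaf 202 1431 (.cons 179 (.leaf 154 1239 (.cons 180 (.leaf 204 1437 (.leaf 156 1245 .nil)) .nil)) .nil)) .nil)) .nil)) (.cons 298 (.leaf 322 1814 (.cons 203 (.leaf 274 1622 (.cons 204 (.leaf 180 1437 (.leaf 228 1629 .nil)) .nil)) .nil)) (.cons 298 (.leaf 322 1814 (.cons 202 (.leaf 226 1623 (.cons 203 (.leaf 178 1431 (.leaf 274 1622 .nil)) .nil)) .nil)) (.cons 226 (.leaf 202 1623 (.cons 228 (.leaf 204 1629 (.cons 298 (.leaf 322 1814 (.cons 300 (.leaf 324 1820 (.cons 225 (.cons 252 (.leaf 224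 1792 (.leaf 253 1800 .nil)) (.cons 248 (.leaf 249 1794 (.cons 200 (.leaf 201 1603 (.cons 224 (.leaf 199 1595 (.leaf 247 1786 .nil)) .nil)) .nil)) (.cons 253 (.leaf 252 1800 (.cons 200 (.leaf 201 1603 (.cons 229 (.leaf 254 1808 (.cons 249 (.leaf 248 1794 (.leaf 250 1802 .nil)) .nil)) .nil)) .nil)) .nil))) .nil)) .nil)) .nil)) .nil)) .nil)))))
noncomputable def t151 : T := .cons 250 (.leaf 226 1815 (.cons 228 (.leaf 252 1821 (.cons 346 (.leaf 322 2006 (.cons 347 (.leaf 274 2007 (.leaf 370 2198 .nil)) .nil)) .nil)) .nil)) (.cons 250 (.leaf 226 1815 (.cons 228 (.leaf 252 1821 (.cons 347 (.leaf 274 2007 (.cons 348 (.leaf 324 2012 (.leaf 372 2204 .nil)) .nil)) .nil)) .nil)) (.cons 346 (.leaf 322 2006 (.cons 228 (.leaf 252 1821 (.cons 347 (.leaf 370 2198 (.cons 348 (.leaf 324 2012 (.leaf 372 2204 .nil)) .nil)) .nil)) .nil)) (.cons 250 (.leaf 226 1815 (.cons 322 (.leaf 346 2006 (.cons 347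 (.leaf 274 2007 (.cons 348 (.leaf 324 2012 (.leaf 372 2204 .nil)) .nil)) .nil)) .nil)) (.cons 322 (.leaf 346 2006 (.cons 324 (.leaf 348 2012 (.cons 250 (.leaf 226 1815 (.cons 252 (.leaf 228 1821 (.cons 321 (.cons 300 (.leaf 320 2369 (.leaf 301 2377 .nil)) (.cons 296 (.leaf 297 2371 (.cons 320 (.leaf 295 2363 (.cons 344 (.leaf 343 2554 (.leaf 345 2562 .nil)) .nil)) .nil)) (.cons 296 (.leaf 297 2371 (.cons 301 (.leaf 300 2377 (.cons 325 (.leaf 302 2385 (.cons 326 (.leaf 298 2387 (.cons 350 (.leaf 349 2576 (.leaf 351 2584 .nil)) .nil)) .nil)) .nil)) .nil)) .nil))) .nil)) .nil)) .nil)) .nil)) .nil))))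
noncomputable def t152 : T := .cons 227 (.cons 202 (.leaf 226 1623 (.cons 203 (.leaf 178 1431 (.cons 180 (.leaf 204 1437 (.cons 179 (.leaf 156 1245 (.cons 181 (.leaf 182 1426 (.cons 274 (.leaf 298 1622 (.leaf 250 1430 .nil)) .nil)) .nil)) .nil)) .nil)) .nil)) (.cons 204 (.leaf 228 1629 (.cons 203 (.leaf 180 1437 (.cons 298 (.leaf 274 1622 (.leaf 322 1814 .nil)) .nil)) .nil)) (.cons 202 (.leaf 226 1623 (.cons 228 (.leaf 204 1629 (.cons 323 (.leaf 252 1821 (.cons 324 (.leaf 300 1820 (.leaf 348 2012 .nil)) .nil)) .nil)) .nil)) (.cons 202 (.leaf 226 1623 (.cons 203 (.leaf 178 1431 (.cons 274 (.leaf 298 1622 (.cons 250 (.leaf 179 1430 (.cons 323 (.leaf 347 2007 (.cons 324 (.leaf 300 1820 (.leaf 348 2012 .nil)) .nil)) .nil)) .nil)) .nil)) .nil)) .nil)))) (.cons 323 t151 (.cons 227 t150 (.cons 227 (.cons 202 (.leaf 226 1623 (.cons 228 (.leaf 204 1629 (.cons 323 (.leaf 252 1821 (.cons 324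 (.leaf 300 1820 (.leaf 348 2012 .nil)) .nil)) .nil)) .nil)) (.cons 228 (.leaf 204 1629 (.cons 323 (.leaf 252 1821 (.cons 324 (.leaf 300 1820 (.leaf 348 2012 .nil)) .nil)) .nil)) (.cons 202 (.leaf 226 1623 (.cons 203 (.leaf 178 1431 (.cons 180 (.leaf 204 1437 (.cons 179 (.leaf 156 1245 (.cons 274 (.leaf 298 1622 (.leaf 250 1430 .nil)) .nil)) .nil)) .nil)) .nil)) (.cons 202 (.leaf 226 1623 (.cons 203 (.leaf 178 1431 (.cons 274 (.leaf 298 1622 (.cons 250 (.leaf 179 1430 (.cons 323 (.leaf 347 2007 (.cons 324 (.leaf 300 1820 (.leaf 348 2012 .nil)) .nil)) .nil)) .nil)) .nil)) .nil)) .nil)))) (.cons 323 (.cons 322 (.leaf 346 2006 (.cons 324 (.leaf 348 2012 (.cons 300 (.leaf 227 1820 (.cons 301 (.leaf 302 2386 (.leaf 321 2377 .nil)) .nil)) .nil)) .nil)) (.cons 228 (.leaf 252 1821 (.cons 227 (.leaf 204 1629 (.cons 324 (.leaf 300 1820 (.leaf 348 2012 .nil)) .nil)) .nil)) (.cons 228 (.leaf 252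 1821 (.cons 204 (.leaf 227 1629 (.cons 346 (.leaf 322 2006 (.cons 347 (.leaf 370 2198 (.cons 274 (.leaf 250 2007 (.cons 371 (.leaf 298 2199 (.cons 372 (.leaf 348 2204 (.leaf 396 2396 .nil)) .nil)) .nil)) .nil)) .nil)) .nil)) .nil)) (.cons 228 (.leaf 252 1821 (.cons 227 (.leaf 204 1629 (.cons 322 (.leaf 298 1814 (.leaf 346 2006 .nil)) .nil)) .nil)) (.cons 346 (.leaf 322 2006 (.cons 228 (.leaf 252 1821 (.cons 347 (.leaf 370 2198 (.cons 348 (.leaf 324 2012 (.leaf 372 2204 .nil)) .nil)) .nil)) .nil)) .nil))))) (.cons 323 (.cons 322 (.leaf 346 2006 (.cons 228 (.leaf 252 1821 (.cons 227 (.leaf 204 1629 (.cons 324 (.leaf 300 1820 (.leaf 348 2012 .nil)) .nil)) .nil)) .nil)) (.cons 226 (.leaf 250 1815 (.cons 227 (.leaf 202 1623 (.cons 228 (.leaf 204 1629 (.leaf 252 1821 .nil)) .nil)) .nil)) (.cons 322 (.leaf 346 2006 (.cons 324 (.leaf 348 2012 (.cons 300 (.leaf 227 1820 (.cons 301 (.leaf 302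 2386 (.leaf 321 2377 .nil)) .nil)) .nil)) .nil)) (.cons 346 (.leaf 322 2006 (.cons 228 (.leaf 252 1821 (.cons 347 (.leaf 370 2198 (.cons 348 (.leaf 324 2012 (.leaf 372 2204 .nil)) .nil)) .nil)) .nil)) .nil)))) (.cons 323 (.cons 226 (.leaf 250 1815 (.cons 346 (.leaf 322 2006 (.cons 347 (.leaf 370 2198 (.cons 348 (.leaf 324 2012 (.leaf 372 2204 .nil)) .nil)) .nil)) .nil)) (.cons 226 (.leaf 250 1815 (.cons 227 (.leaf 202 1623 (.cons 324 (.leaf 300 1820 (.leaf 348 2012 .nil)) .nil)) .nil)) (.cons 226 (.leaf 250 1815 (.cons 227 (.leaf 202 1623 (.cons 322 (.leaf 298 1814 (.leaf 346 2006 .nil)) .nil)) .nil)) (.cons 322 (.leaf 346 2006 (.cons 324 (.leaf 348 2012 (.cons 300 (.leaf 227 1820 (.cons 301 (.leaf 302 2386 (.leaf 321 2377 .nil)) .nil)) .nil)) .nil)) .nil)))) (.cons 227 (.cons 204 (.leaf 228 1629 (.cons 203 (.leaf 180 1437 (.cons 298 (.leaf 274 1622 (.leaf 322 1814 .nil)) .nil)) .nil))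 (.cons 202 (.leaf 226 1623 (.cons 203 (.leaf 178 1431 (.cons 298 (.leaf 274 1622 (.leaf 322 1814 .nil)) .nil)) .nil)) (.cons 226 (.leaf 202 1623 (.cons 204 (.leaf 228 1629 (.cons 203 (.leaf 180 1437 (.cons 205 (.leaf 206 1618 (.cons 224 (.leaf 225 1601 (.cons 250 (.leaf 323 1815 (.cons 179 (.leaf 274 1430 (.leaf 155 1238 .nil)) .nil)) .nil)) .nil)) .nil)) .nil)) .nil)) (.cons 202 (.leaf 226 1623 (.cons 228 (.leaf 204 1629 (.cons 322 (.leaf 298 1814 (.cons 323 (.leaf 252 1821 (.leaf 346 2006 .nil)) .nil)) .nil)) .nil)) .nil)))) (.cons 227 (.cons 202 (.leaf 226 1623 (.cons 228 (.leaf 204 1629 (.cons 322 (.leaf 298 1814 (.cons 323 (.leaf 252 1821 (.leaf 346 2006 .nil)) .nil)) .nil)) .nil)) (.cons 298 (.leaf 322 1814 (.cons 202 (.leaf 226 1623 (.cons 203 (.leaf 178 1431 (.leaf 274 1622 .nil)) .nil)) .nil)) (.cons 228 (.leaf 204 1629 (.cons 323 (.leaf 252 1821 (.cons 324 (.leaf 300 1820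 (.leaf 348 2012 .nil)) .nil)) .nil)) .nil))) .nil))))))))
noncomputable def t153 : T := .cons 324 (.leaf 348 2012 (.cons 250 (.leaf 226 1815 (.cons 252 (.leaf 228 1821 (.cons 249 (.leaf 273 1986 (.cons 248 (.leaf 271 1978 (.cons 296 (.cons 225 (.leaf 320 1797 (.leaf 224 1795 .nil)) (.cons 297 (.leaf 298 2368 (.cons 321 (.leaf 224 1796 (.leaf 322 2371 .nil)) .nil)) (.cons 297 (.leaf 298 2368 (.cons 322 (.leaf 346 2006 (.leaf 321 2371 .nil)) .nil)) .nil))) .nil)) .nil)) .nil)) .nil)) .nil)) (.cons 324 (.leaf 348 2012 (.cons 250 (.leaf 226 1815 (.cons 252 (.leaf 228 1821 (.cons 249 (.leaf 273 1986 (.cons 248 (.leaf 271 1978 (.cons 296 (.cons 225 (.leaf 320 1797 (.leaf 224 1795 .nil)) (.cons 297 (.leaf 298 2368 (.cons 321 (.leaf 224 1796 (.leaf 322 2371 .nil)) .nil)) (.cons 297 (.leaf 298 2368 (.cons 320 (.leaf 225 1797 (.cons 321 (.leaf 345 1988 (.leaf 322 2371 .nil)) .nil)) .nil)) .nil)))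 .nil)) .nil)) .nil)) .nil)) .nil)) (.cons 322 (.leaf 346 2006 (.cons 250 (.leaf 226 1815 (.cons 252 (.leaf 228 1821 (.cons 249 (.leaf 273 1986 (.cons 225 (.leaf 224 1795 (.cons 248 (.leaf 271 1978 (.cons 177 (.leaf 201 1414 (.cons 320 (.leaf 296 1797 (.cons 321 (.leaf 300 2369 (.cons 319 (.leaf 298 2361 (.cons 343 (.leaf 344 2554 (.leaf 342 2546 .nil)) .nil)) .nil)) .nil)) .nil)) .nil)) .nil)) .nil)) .nil)) .nil)) .nil)) (.cons 348 (.leaf 324 2012 (.cons 250 (.leaf 226 1815 (.cons 252 (.leaf 228 1821 (.cons 249 (.leaf 273 1986 (.cons 225 (.leaf 224 1795 (.cons 248 (.leaf 271 1978 (.cons 320 (.leaf 296 1797 (.cons 347 (.leaf 372 2204 (.cons 346 (.leaf 370 2198 (.cons 345 (.leaf 321 2563 (.cons 344 (.leaf 319 2555 (.cons 368 (.leaf 369 2754 (.leaf 367 2746 .nil)) .nil)) .nil)) .nil)) .nil)) .nil)) .nil)) .nil)) .nil)) .nil)) .nil)) .nil)) (.cons 346 (.leaf 322 2006 (.cons 228 (.leaf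 252 1821 (.cons 347 (.leaf 370 2198 (.cons 348 (.leaf 324 2012 (.leaf 372 2204 .nil)) .nil)) .nil)) .nil)) (.cons 346 (.leaf 322 2006 (.cons 226 (.leaf 250 1815 (.cons 347 (.leaf 370 2198 (.cons 348 (.leaf 324 2012 (.leaf 372 2204 .nil)) .nil)) .nil)) .nil)) .nil)))))
noncomputable def t154 : T := .cons 227 (.cons 228 (.leaf 204 1629 (.cons 323 (.leaf 252 1821 (.cons 324 (.leaf 300 1820 (.leaf 348 2012 .nil)) .nil)) .nil)) (.cons 298 (.leaf 322 1814 (.cons 300 (.leaf 324 1820 (.cons 297 (.leaf 273 2179 (.cons 296 (.leaf 271 2171 (.cons 320 (.leaf 319 2362 (.leaf 321 2370 .nil)) .nil)) .nil)) .nil)) .nil)) (.cons 228 (.leaf 204 1629 (.cons 322 (.leaf 298 1814 (.cons 323 (.leaf 252 1821 (.leaf 346 2006 .nil)) .nil)) .nil)) .nil))) (.cons 323 t153 (.cons 227 (.cons 202 (.leaf 226 1623 (.cons 204 (.leaf 228 1629 (.cons 298 (.leaf 322 1814 (.cons 203 (.leaf 178 1431 (.leaf 180 1437 .nil))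 .nil)) .nil)) .nil)) (.cons 298 (.leaf 322 1814 (.cons 300 (.leaf 324 1820 (.cons 297 (.leaf 273 2179 (.cons 296 (.leaf 271 2171 (.cons 320 (.leaf 319 2362 (.leaf 321 2370 .nil)) .nil)) .nil)) .nil)) .nil)) (.cons 202 (.leaf 226 1623 (.cons 203 (.leaf 178 1431 (.cons 204 (.leaf 180 1437 (.leaf 228 1629 .nil)) .nil)) .nil)) .nil))) (.cons 323 (.cons 226 (.leaf 250 1815 (.cons 346 (.leaf 322 2006 (.cons 347 (.leaf 370 2198 (.cons 348 (.leaf 324 2012 (.leaf 372 2204 .nil)) .nil)) .nil)) .nil)) (.cons 226 (.leaf 250 1815 (.cons 227 (.leaf 202 1623 (.cons 324 (.leaf 300 1820 (.leaf 348 2012 .nil)) .nil)) .nil)) (.cons 226 (.leaf 250 1815 (.cons 227 (.leaf 202 1623 (.cons 322 (.leaf 298 1814 (.leaf 346 2006 .nil)) .nil)) .nil)) (.cons 322 (.leaf 346 2006 (.cons 324 (.leaf 348 2012 (.cons 300 (.leaf 227 1820 (.cons 301 (.leaf 302 2386 (.leaf 321 2377 .nil)) .nil)) .nil)) .nil)) .nil)))) (.cons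 227 (.cons 228 (.leaf 204 1629 (.cons 323 (.leaf 252 1821 (.cons 324 (.leaf 300 1820 (.leaf 348 2012 .nil)) .nil)) .nil)) (.cons 226 (.leaf 202 1623 (.cons 323 (.leaf 250 1815 (.cons 324 (.leaf 300 1820 (.leaf 348 2012 .nil)) .nil)) .nil)) (.cons 202 (.leaf 226 1623 (.cons 203 (.leaf 178 1431 (.cons 204 (.leaf 180 1437 (.leaf 228 1629 .nil)) .nil)) .nil)) .nil))) (.cons 227 (.cons 226 (.leaf 202 1623 (.cons 250 (.leaf 323 1815 (.cons 228 (.leaf 204 1629 (.cons 229 (.leaf 230 1810 (.leaf 249 1802 .nil)) .nil)) .nil)) .nil)) (.cons 226 (.leaf 202 1623 (.cons 322 (.leaf 298 1814 (.cons 323 (.leaf 250 1815 (.leaf 346 2006 .nil)) .nil)) .nil)) (.cons 228 (.leaf 204 1629 (.cons 322 (.leaf 298 1814 (.cons 323 (.leaf 252 1821 (.leaf 346 2006 .nil)) .nil)) .nil)) (.cons 202 (.leaf 226 1623 (.cons 203 (.leaf 178 1431 (.cons 204 (.leaf 180 1437 (.leaf 228 1629 .nil)) .nil)) .nil)) .nil)))) .nil)))))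
noncomputable def t155 : T := .cons 225 (.leaf 249 1807 (.cons 229 (.leaf 230 1809 (.cons 323 (.leaf 347 2004 (.cons 228 (.leaf 299 1821 (.cons 204 (.leaf 180 1438 (.cons 277 (.leaf 278 2000 (.leaf 301 1639 .nil)) .nil)) .nil)) .nil)) .nil)) .nil)) (.cons 323 (.leaf 347 2004 (.cons 228 (.leaf 299 1821 (.cons 180 (.leaf 204 1438 (.cons 229 (.leaf 230 1809 (.cons 277 (.leaf 278 2000 (.cons 325 (.leaf 301 1831 (.cons 324 (.leaf 297 2379 (.cons 321 (.leaf 345 1998 (.cons 349 (.leaf 348 2568 (.leaf 350 2576 .nil)) .nil)) .nil)) .nil)) .nil)) .nil)) .nil)) .nil)) .nil)) (.cons 229 (.leaf 230 1809 (.cons 249 (.leaf 228 1801 (.leaf 225 1807 .nil)) .nil)) (.cons 225 (.leaf 249 1807 (.cons 277 (.leaf 278 2000 (.cons 323 (.leaf 347 2004 (.cons 228 (.leaf 299 1821 (.cons 180 (.leaf 204 1444 (.cons 325 (.leaf 301 1831 (.cons 324 (.leaf 297 2379 (.cons 321 (.leaf 345 1998 (.cons 349 (.leaf 348 2568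 (.leaf 350 2576 .nil)) .nil)) .nil)) .nil)) .nil)) .nil)) .nil)) .nil)) .nil)) (.cons 229 (.leaf 230 1809 (.cons 249 (.leaf 225 1807 (.cons 248 (.leaf 247 1976 (.leaf 271 1978 .nil)) .nil)) .nil)) .nil))))
noncomputable def t156 : T := .cons 226 (.leaf 225 1803 (.cons 202 (.leaf 178 1428 (.leaf 299 1620 .nil)) .nil)) (.cons 229 (.leaf 230 1809 (.cons 277 (.leaf 278 2000 (.cons 301 (.cons 228 (.leaf 249 1801 (.leaf 325 1831 .nil)) (.cons 324 (.leaf 300 1830 (.cons 302 (.leaf 326 1836 (.cons 325 (.leaf 348 2022 (.cons 322 (.leaf 323 2385 (.cons 298 (.leaf 346 2005 (.cons 249 (.leaf 225 1807 (.cons 248 (.leaf 247 1976 (.leaf 271 1978 .nil)) .nil)) .nil)) .nil)) .nil)) .nil)) .nil)) (.cons 228 (.leaf 325 1831 (.leaf 204 1639 .nil)) (.cons 228 (.leaf 249 1801 (.leaf 204 1639 .nil)) .nil)))) .nil)) .nil)) (.cons 229 (.leaf 230 1809 (.cons 277 (.leaf 278 2000 (.cons 301 (.cons 228 (.leaf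 249 1801 (.leaf 325 1831 .nil)) (.cons 324 (.leaf 300 1830 (.cons 302 (.leaf 326 1836 (.cons 325 (.leaf 348 2022 (.cons 322 (.leaf 323 2385 (.cons 298 (.leaf 346 2005 (.cons 321 (.leaf 345 1998 (.cons 226 (.leaf 297 1806 (.cons 202 (.leaf 178 1428 (.leaf 299 1620 .nil)) .nil)) .nil)) .nil)) .nil)) .nil)) .nil)) .nil)) (.cons 228 (.leaf 249 1801 (.leaf 204 1639 .nil)) .nil))) .nil)) .nil)) .nil))
noncomputable def t157 : T := .cons 226 (.cons 202 (.leaf 297 1613 (.cons 154 (.leaf 178 1230 (.cons 227 (.leaf 299 1623 (.leaf 224 1792 .nil)) .nil)) .nil)) (.cons 227 (.leaf 224 1792 (.cons 201 (.leaf 296 1606 (.cons 200 (.leaf 176 1415 (.leaf 228 1603 .nil)) .nil)) .nil)) (.cons 297 (.leaf 202 1613 (.cons 224 (.leaf 200 1607 (.cons 248 (.leaf 321 1799 (.cons 296 (.leaf 201 1605 (.leaf 320 1797 .nil)) .nil)) .nil)) .nil)) (.cons 202 (.leaf 297 1613 (.cons 154 (.leaf 178 1230 (.cons 227 (.leaf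 299 1623 (.cons 228 (.leaf 248 1794 (.cons 204 (.leaf 180 1438 (.leaf 205 1609 .nil)) .nil)) .nil)) .nil)) .nil)) .nil)))) (.cons 226 (.cons 202 (.leaf 297 1613 (.cons 154 (.leaf 178 1230 (.cons 227 (.leaf 299 1623 (.leaf 224 1792 .nil)) .nil)) .nil)) (.cons 227 (.leaf 224 1792 (.cons 202 (.leaf 299 1623 (.cons 178 (.leaf 203 1431 (.leaf 154 1236 .nil)) .nil)) .nil)) (.cons 297 (.leaf 202 1613 (.cons 224 (.leaf 200 1607 (.cons 248 (.leaf 321 1799 (.cons 296 (.leaf 320 1797 (.cons 295 (.leaf 319 1790 (.cons 294 (.leaf 293 2153 (.cons 246 (.leaf 247 1777 (.cons 270 (.leaf 269 2155 (.cons 271 (.leaf 245 1963 (.leaf 298 2160 .nil)) .nil)) .nil)) .nil)) .nil)) .nil)) .nil)) .nil)) .nil)) (.cons 297 (.leaf 202 1613 (.cons 296 (.leaf 320 1798 (.cons 298 (.leaf 322 1804 (.cons 271 (.leaf 270 2160 (.leaf 299 2171 .nil)) .nil)) .nil)) .nil)) (.cons 227 (.leaf 224 1792 (.cons 228 (.leaf 248 1794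 (.cons 204 (.leaf 180 1438 (.leaf 299 1629 .nil)) .nil)) .nil)) .nil))))) (.cons 201 (.cons 176 (.leaf 200 1415 (.cons 177 (.leaf 248 1414 (.leaf 152 1223 .nil)) .nil)) (.cons 176 (.leaf 200 1415 (.cons 202 (.leaf 178 1421 (.cons 226 (.leaf 297 1613 (.cons 227 (.leaf 299 1623 (.leaf 224 1792 .nil)) .nil)) .nil)) .nil)) (.cons 177 (.leaf 248 1414 (.cons 178 (.leaf 202 1421 (.leaf 154 1229 .nil)) .nil)) .nil))) (.cons 201 (.leaf 296 1606 (.cons 176 (.leaf 200 1415 (.cons 177 (.leaf 248 1414 (.leaf 152 1223 .nil)) .nil)) .nil)) (.cons 201 (.leaf 296 1606 (.cons 176 (.leaf 200 1415 (.cons 177 (.leaf 152 1223 (.cons 178 (.leaf 202 1421 (.leaf 154 1229 .nil)) .nil)) .nil)) .nil)) (.cons 296 (.leaf 201 1606 (.cons 320 (.leaf 248 1797 (.leaf 344 1989 .nil)) .nil)) .nil)))))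
noncomputable def t158 : T := .leaf 273 1985 (.cons 253 (.leaf 254 2002 (.cons 227 (.cons 203 (.leaf 298 1622 (.cons 178 (.leaf 202 1431 (.cons 179 (.leaf 154 1239 (.cons 180 (.leaf 204 1437 (.leaf 156 1245 .nil)) .nil)) .nil)) .nil)) (.cons 299 (.cons 202 (.leaf 226 1623 (.cons 322 (.leaf 298 1814 (.cons 323 (.leaf 228 1821 (.leaf 346 2006 .nil)) .nil)) .nil)) (.cons 202 (.leaf 226 1623 (.cons 322 (.leaf 298 1814 (.cons 323 (.leaf 346 2006 (.cons 324 (.leaf 300 1820 (.leaf 348 2012 .nil)) .nil)) .nil)) .nil)) (.cons 202 (.leaf 226 1623 (.cons 228 (.leaf 204 1629 (.cons 298 (.leaf 322 1814 (.cons 300 (.leaf 324 1820 (.cons 301 (.leaf 302 2195 (.cons 277 (.leaf 325 1831 (.leaf 278 2193 .nil)) .nil)) .nil)) .nil)) .nil)) .nil)) (.cons 228 (.leaf 204 1629 (.leaf 323 1821 .nil)) .nil)))) (.cons 226 (.cons 202 (.leaf 299 1623 (.cons 178 (.leaf 203 1431 (.leaf 154 1236 .nil)) .nil)) (.cons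 225 (.leaf 224 1792 (.leaf 228 1800 .nil)) .nil)) (.cons 298 (.leaf 203 1622 (.cons 322 (.leaf 299 1814 (.leaf 346 2005 .nil)) .nil)) .nil)))) .nil)) .nil)
noncomputable def t159 : T := .cons 227 (.cons 204 (.leaf 228 1629 (.cons 203 (.leaf 180 1437 (.cons 202 (.leaf 178 1431 (.leaf 226 1623 .nil)) .nil)) .nil)) (.cons 298 (.leaf 322 1814 (.cons 274 (.leaf 203 1622 (.cons 226 (.leaf 202 1623 (.cons 253 (.leaf 254 2002 (.cons 225 (.leaf 224 1792 (.leaf 250 1803 .nil)) .nil)) .nil)) .nil)) .nil)) (.cons 298 (.leaf 322 1814 (.cons 274 (.leaf 203 1622 (.cons 324 (.leaf 300 1820 (.cons 323 (.leaf 228 1821 (.leaf 348 2012 .nil)) .nil)) .nil)) .nil)) (.cons 204 (.leaf 228 1629 (.cons 226 (.leaf 202 1623 (.cons 225 (.leaf 224 1792 (.cons 253 (.leaf 250 1803 (.leaf 254 1811 .nil)) .nil)) .nil)) .nil)) .nil)))) (.cons 227 (.cons 204 (.leaf 228 1629 (.cons 203 (.leaf 180 1437 (.cons 202 (.leaf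 178 1431 (.leaf 226 1623 .nil)) .nil)) .nil)) (.cons 228 (.leaf 204 1629 (.cons 298 (.leaf 322 1814 (.cons 203 (.leaf 274 1622 (.cons 178 (.leaf 202 1431 (.cons 179 (.leaf 154 1239 (.leaf 155 1244 .nil)) .nil)) .nil)) .nil)) .nil)) (.cons 226 (.leaf 202 1623 (.cons 224 (.leaf 225 1792 (.cons 253 (.leaf 254 1811 (.cons 298 (.leaf 322 1814 (.cons 203 (.leaf 274 1622 (.cons 180 (.leaf 204 1437 (.cons 179 (.leaf 156 1245 (.cons 155 (.leaf 250 1238 (.cons 154 (.leaf 178 1239 (.leaf 130 1047 .nil)) .nil)) .nil)) .nil)) .nil)) .nil)) .nil)) .nil)) .nil)) (.cons 226 (.leaf 202 1623 (.cons 225 (.leaf 224 1792 (.cons 253 (.leaf 250 1803 (.leaf 254 1811 .nil)) .nil)) .nil)) (.cons 228 (.leaf 204 1629 (.cons 298 (.leaf 322 1814 (.cons 274 (.leaf 203 1622 (.cons 253 (.leaf 254 2002 (.cons 300 (.leaf 324 1820 (.cons 301 (.leaf 302 2195 (.cons 277 (.leaf 325 1831 (.leaf 278 2193 .nil)) .nil)) .nil))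 .nil)) .nil)) .nil)) .nil)) .nil))))) (.cons 227 (.cons 226 (.leaf 202 1623 (.cons 224 (.leaf 225 1792 (.cons 253 (.leaf 254 1811 (.cons 298 (.leaf 322 1814 (.cons 203 (.leaf 274 1622 (.cons 180 (.leaf 204 1437 (.cons 179 (.leaf 156 1245 (.cons 155 (.leaf 250 1238 (.cons 154 (.leaf 178 1239 (.leaf 130 1047 .nil)) .nil)) .nil)) .nil)) .nil)) .nil)) .nil)) .nil)) .nil)) (.cons 298 (.leaf 322 1814 (.cons 274 (.leaf 203 1622 (.cons 324 (.leaf 300 1820 (.cons 323 (.leaf 348 2012 (.cons 347 (.leaf 250 2007 (.leaf 371 2199 .nil)) .nil)) .nil)) .nil)) .nil)) (.cons 226 (.leaf 202 1623 (.cons 224 (.leaf 225 1792 (.cons 253 (.leaf 254 1811 (.cons 323 (.leaf 250 1815 (.cons 324 (.leaf 300 1820 (.leaf 348 2012 .nil)) .nil)) .nil)) .nil)) .nil)) (.cons 226 (.leaf 202 1623 (.cons 224 (.leaf 225 1792 (.cons 253 (.leaf 254 1811 (.cons 322 (.leaf 298 1814 (.cons 323 (.leaf 346 2006 (.cons 324 (.leaf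 300 1820 (.leaf 348 2012 .nil)) .nil)) .nil)) .nil)) .nil)) .nil)) .nil)))) (.cons 323 (.leaf 228 1821 (.cons 226 (.leaf 250 1815 (.cons 346 (.leaf 322 2006 (.cons 347 (.leaf 370 2198 (.cons 348 (.leaf 324 2012 (.leaf 372 2204 .nil)) .nil)) .nil)) .nil)) .nil)) (.cons 323 (.leaf 228 1821 (.cons 322 (.leaf 346 2006 (.cons 227 (.leaf 298 1814 (.cons 324 (.leaf 300 1820 (.leaf 348 2012 .nil)) .nil)) .nil)) .nil)) (.cons 323 (.leaf 228 1821 (.cons 226 (.leaf 250 1815 (.cons 227 (.leaf 202 1623 (.cons 324 (.leaf 300 1820 (.leaf 348 2012 .nil)) .nil)) .nil)) .nil)) (.cons 323 (.leaf 228 1821 (.cons 226 (.leaf 250 1815 (.cons 227 (.leaf 202 1623 (.cons 322 (.leaf 298 1814 (.leaf 346 2006 .nil)) .nil)) .nil)) .nil)) .nil))))))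
noncomputable def t160 : T := .cons 249 (.leaf 273 1986 (.cons 225 (.leaf 224 1795 (.cons 226 (.leaf 253 1803 (.cons 202 (.leaf 178 1428 (.cons 228 (.leaf 229 1801 (.cons 227 (.leaf 299 1623 (.leaf 248 1793 .nil)) .nil)) .nil)) .nil)) .nil)) .nil)) (.cons 226 (.cons 202 (.leaf 178 1428 (.cons 299 (.leaf 227 1623 (.leaf 323 1815 .nil)) .nil)) (.cons 178 (.leaf 202 1428 (.cons 253 (.leaf 225 1803 (.cons 254 (.leaf 227 1811 (.cons 278 (.leaf 277 2000 (.leaf 279 2008 .nil)) .nil)) .nil)) .nil)) (.cons 253 (.leaf 225 1803 (.cons 227 (.leaf 254 1811 (.cons 229 (.leaf 230 1809 (.cons 277 (.leaf 278 2000 (.cons 299 (.leaf 323 1815 (.cons 204 (.leaf 228 1629 (.cons 180 (.leaf 203 1437 (.leaf 205 1447 .nil)) .nil)) .nil)) .nil)) .nil)) .nil)) .nil)) (.cons 178 (.leaf 202 1428 (.cons 253 (.leaf 225 1803 (.cons 299 (.leaf 323 1815 (.cons 230 (.leaf 229 1809 (.cons 254 (.leaf 231 1817 (.cons 278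 (.leaf 277 2000 (.leaf 279 2008 .nil)) .nil)) .nil)) .nil)) .nil)) .nil)) .nil)))) (.cons 249 (.leaf 273 1986 (.cons 225 (.leaf 224 1795 (.cons 226 (.leaf 253 1803 (.cons 178 (.leaf 202 1428 (.cons 248 (.leaf 271 1978 (.cons 247 (.leaf 227 1785 (.leaf 246 1777 .nil)) .nil)) .nil)) .nil)) .nil)) .nil)) (.cons 249 (.leaf 273 1986 (.cons 228 (.leaf 229 1801 (.cons 248 (.leaf 271 1978 (.leaf 227 1793 .nil)) .nil)) .nil)) (.cons 249 (.leaf 273 1986 (.cons 225 (.leaf 224 1795 (.cons 229 (.leaf 228 1801 (.cons 253 (.leaf 226 1803 (.leaf 230 1809 .nil)) .nil)) .nil)) .nil)) .nil))))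
noncomputable def t161 : T := .cons 274 (.leaf 273 1985 (.cons 253 (.leaf 254 2002 (.cons 250 (.cons 229 (.leaf 230 1809 (.cons 277 (.leaf 278 2000 (.cons 301 (.cons 228 (.leaf 249 1801 (.leaf 325 1831 .nil)) (.cons 225 (.leaf 226 1803 (.cons 224 (.leaf 249 1795 (.cons 300 (.leaf 324 1830 (.cons 302 (.leaf 299 2195 (.leaf 326 1836 .nil)) .nil)) .nil)) .nil)) (.cons 228 (.leaf 325 1831 (.leaf 204 1639 .nil)) .nil))) .nil)) .nil)) (.cons 229 (.leaf 230 1809 (.cons 277 (.leaf 278 2000 (.cons 301 (.cons 228 (.leaf 249 1801 (.leaf 325 1831 .nil)) (.cons 324 (.leaf 300 1830 (.cons 302 (.leaf 326 1836 (.cons 325 (.leaf 348 2022 (.cons 322 (.leaf 323 2385 (.cons 298 (.leaf 346 2005 (.leaf 227 1813 .nil)) .nil)) .nil)) .nil)) .nil)) (.cons 228 (.leaf 249 1801 (.leaf 204 1639 .nil)) .nil))) .nil)) .nil)) (.cons 225 (.leaf 226 1803 (.cons 249 (.leaf 224 1795 (.cons 248 (.leaf 247 1976 (.leaf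 271 1978 .nil)) .nil)) .nil)) (.cons 226 (.leaf 225 1803 (.cons 299 (.leaf 202 1620 (.leaf 323 1815 .nil)) .nil)) .nil)))) .nil)) .nil)) (.cons 250 t160 (.cons 299 t159 (.cons 274 t158 (.cons 274 (.leaf 273 1985 (.cons 253 (.leaf 254 2002 (.cons 250 (.cons 229 (.leaf 230 1809 (.cons 228 (.leaf 249 1801 (.cons 204 (.leaf 180 1438 (.cons 277 (.leaf 278 2000 (.leaf 301 1639 .nil)) .nil)) .nil)) .nil)) (.cons 226 (.leaf 225 1803 (.cons 202 (.leaf 178 1428 (.cons 177 (.leaf 201 1423 (.cons 203 (.leaf 179 1429 (.cons 298 (.leaf 227 1621 (.cons 277 (.leaf 278 2000 (.cons 321 (.leaf 297 1806 (.cons 322 (.leaf 346 2005 (.leaf 345 1998 .nil)) .nil)) .nil)) .nil)) .nil)) .nil)) .nil)) .nil)) (.cons 226 (.leaf 225 1803 (.cons 178 (.leaf 202 1428 (.cons 229 (.leaf 230 1809 (.cons 249 (.leaf 228 1801 (.cons 248 (.leaf 247 1976 (.leaf 271 1978 .nil)) .nil)) .nil)) .nil)) .nil)) .nil))) .nil)) .nil))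 (.cons 273 (.leaf 274 1985 (.cons 250 (.leaf 249 1986 (.cons 226 (.cons 178 (.leaf 202 1428 (.cons 253 (.leaf 225 1803 (.cons 254 (.leaf 227 1811 (.cons 230 (.leaf 229 1809 (.leaf 231 1817 .nil)) .nil)) .nil)) .nil)) (.cons 202 (.leaf 178 1428 (.cons 299 (.leaf 227 1623 (.leaf 323 1815 .nil)) .nil)) (.cons 253 (.leaf 225 1803 (.cons 254 (.leaf 227 1811 (.cons 278 (.leaf 277 2000 (.leaf 279 2008 .nil)) .nil)) .nil)) (.cons 178 (.leaf 202 1428 (.cons 253 (.leaf 225 1803 (.cons 230 (.leaf 229 1809 (.cons 254 (.leaf 231 1817 (.cons 278 (.leaf 277 2000 (.leaf 279 2008 .nil)) .nil)) .nil)) .nil)) .nil)) .nil)))) .nil)) .nil)) (.cons 273 (.leaf 274 1985 (.cons 249 (.leaf 250 1986 (.cons 225 t157 .nil)) .nil)) (.cons 274 (.leaf 273 1985 (.cons 253 (.leaf 254 2002 (.cons 250 t156 .nil)) .nil)) (.cons 274 (.leaf 273 1985 (.cons 253 (.leaf 254 2002 (.cons 298 (.cons 322 (.leaf 346 2005 (.cons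 227 (.leaf 203 1622 (.leaf 299 1814 .nil)) .nil)) (.cons 227 (.leaf 203 1622 (.cons 299 (.cons 228 (.leaf 204 1629 (.leaf 323 1821 .nil)) (.cons 324 (.leaf 300 1820 (.cons 323 (.leaf 348 2012 (.cons 347 (.leaf 250 2007 (.leaf 371 2199 .nil)) .nil)) .nil)) (.cons 228 (.leaf 204 1629 (.cons 300 (.leaf 324 1820 (.cons 301 (.leaf 302 2195 (.cons 277 (.leaf 325 1831 (.leaf 278 2193 .nil)) .nil)) .nil)) .nil)) .nil))) .nil)) (.cons 322 (.leaf 346 2005 (.cons 250 t155 .nil)) (.cons 322 (.leaf 346 2005 (.cons 227 (.leaf 203 1622 (.leaf 250 1813 .nil)) .nil)) .nil)))) .nil)) .nil)) (.cons 274 (.leaf 273 1985 (.cons 253 (.leaf 254 2002 (.cons 299 (.cons 227 (.cons 202 (.leaf 226 1623 (.cons 203 (.leaf 178 1431 (.leaf 298 1622 .nil)) .nil)) (.cons 202 (.leaf 226 1623 (.cons 203 (.leaf 178 1431 (.cons 204 (.leaf 180 1437 (.leaf 228 1629 .nil)) .nil)) .nil)) (.cons 202 (.leaf 226 1623 (.cons 228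 (.leaf 204 1629 (.leaf 323 1821 .nil)) .nil)) (.cons 298 (.leaf 203 1622 (.leaf 322 1814 .nil)) .nil)))) (.cons 227 (.cons 298 (.leaf 203 1622 (.leaf 322 1814 .nil)) (.cons 228 (.leaf 204 1629 (.cons 300 (.leaf 324 1820 (.cons 301 (.leaf 302 2195 (.cons 277 (.leaf 325 1831 (.cons 250 (.leaf 278 2000 (.cons 229 (.leaf 230 1809 (.leaf 249 1801 .nil)) .nil)) .nil)) .nil)) .nil)) .nil)) .nil)) (.cons 227 (.cons 298 (.leaf 203 1622 (.leaf 322 1814 .nil)) (.cons 226 (.leaf 202 1623 (.cons 323 (.leaf 250 1815 (.cons 324 (.leaf 300 1820 (.leaf 348 2012 .nil)) .nil)) .nil)) .nil)) (.cons 323 (.leaf 228 1821 (.cons 250 (.leaf 226 1815 (.leaf 347 2007 .nil)) .nil)) .nil)))) .nil)) .nil)) .nil)))))))))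
noncomputable def top0 : T := .cons 247 (t89) (.cons 296 t86 (.cons 296 (.cons 224 (.cons 295 (.leaf 319 1790 (.cons 200 (.leaf 271 1598 (.cons 175 (.leaf 199 1407 (.cons 176 (.leaf 151 1215 (.cons 177 (.leaf 201 1413 (.leaf 153 1221 .nil)) .nil)) .nil)) .nil)) .nil)) (.cons 199 (.leaf 223 1599 (.cons 200 (.leaf 175 1407 (.cons 201 (.leaf 177 1413 (.leaf 225 1605 .nil)) .nil)) .nil)) (.cons 295 (.leaf 319 1790 (.cons 200 (.leaf 271 1598 (.cons 297 (.leaf 273 1604 (.leaf 321 1796 .nil)) .nil)) .nil)) (.cons 199 (.leaf 223 1599 (.cons 295 (.leaf 319 1790 (.cons 273 (.leaf 274 2170 (.cons 297 (.leaf 321 1796 (.cons 294 (.leaf 293 2153 (.cons 270 (.leaf 269 2155 (.cons 298 (.leaf 271 2160 (.cons 201 (.leaf 225 1605 (.cons 299 (.leaf 300 2179 (.cons 323 (.leaf 322 2360 (.leaf 324 2368 .nil)) .nil)) .nil)) .nil)) .nil)) .nil)) .nil)) .nil)) .nil)) .nil)) .nil)))) t84) (.cons 247 t83 (.cons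 247 t75 (.cons 224 t67 (.cons 273 t62 (.cons 273 t58 (.cons 247 (.cons 273 (.leaf 274 1979 (.cons 246 (.leaf 245 1960 (.cons 249 (.cons 270 (.leaf 269 1962 (.cons 271 (.leaf 250 1969 (.cons 297 (.leaf 298 2160 (.cons 224 (.leaf 200 1604 (.leaf 321 1799 .nil)) .nil)) .nil)) .nil)) (.cons 222 (.leaf 221 1771 (.cons 250 (.leaf 223 1779 (.cons 251 (.leaf 271 1978 (.leaf 252 1986 .nil)) .nil)) .nil)) (.cons 225 (.leaf 226 1777 (.cons 201 (.leaf 177 1414 (.leaf 296 1606 .nil)) .nil)) .nil))) .nil)) .nil)) t56) (.cons 224 (t51) (.cons 273 t49 (.cons 247 (t45) (.cons 247 t38 (.cons 273 t30 (.cons 273 t28 (.cons 247 t26 (.cons 247 t22 (.cons 273 t17 (.cons 273 t15 (.cons 273 t11 (.cons 247 (t8) (.cons 247 (t4) .nil)))))))))))))))))))))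
noncomputable def top1 : T := .cons 252 (t161) (.cons 299 t154 (.cons 299 (t152) (.cons 273 t149 (.cons 299 (t144) (.cons 273 t140 (.cons 227 (t135) (.cons 274 t131 (.cons 252 t128 (.cons 250 t118 (.cons 274 t111 (.cons 274 t109 (.cons 252 t106 (.cons 274 t101 (.cons 274 t98 (.cons 252 t94 .nil)))))))))))))))

end Vale.Agent.P062.PB.N5D10
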