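import Vale.Agent.P062.Checker

namespace Vale.Agent.P062.PB.N5D11

open Vale.Agent.P062

noncomputable def t0 : T := .cons 318 (.leaf 317 2346 (.cons 269 (.leaf 270 2155 (.cons 298 (.leaf 319 2354 (.cons 299 (.leaf 271 2171 (.leaf 300 2179 .nil)) .nil)) .nil)) .nil)) (.cons 318 (.leaf 317 2346 (.cons 298 (.leaf 319 2354 (.cons 299 (.leaf 271 2171 (.leaf 300 2179 .nil)) .nil)) .nil)) (.cons 318 (.leaf 317 2346 (.cons 269 (.leaf 270 2155 (.cons 298 (.leaf 319 2354 (.cons 299 (.leaf 300 2179 (.cons 323 (.leaf 322 2360 (.leaf 324 2368 .nil)) .nil)) .nil)) .nil)) .nil)) (.cons 270 (.leaf 269 2155 (.cons 271 (.leaf 298 2160 (.cons 246 (.leaf 245 1963 (.cons 222 (.leaf 198 1588 (.leaf 319 1780 .nil)) .nil)) .nil)) .nil)) (.cons 270 (.leaf 269 2155 (.cons 318 (.leaf 317 2346 (.cons 271 (.cons 247 (.leaf 223 1782 (.leaf 342 1973 .nil)) (.cons 246 (.leaf 245 1963 (.cons 222 (.leaf 198 1588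 (.leaf 319 1780 .nil)) .nil)) .nil)) .nil)) .nil)) (.cons 270 (.leaf 269 2155 (.cons 271 (.leaf 298 2160 (.cons 245 (.leaf 246 1963 (.cons 318 (.leaf 317 2346 (.cons 247 (.leaf 223 1782 (.leaf 342 1973 .nil)) .nil)) .nil)) .nil)) .nil)) .nil)))))
noncomputable def t1 : T := .cons 269 (.leaf 270 2155 (.cons 317 (.leaf 318 2346 (.cons 322 (.leaf 321 2352 (.cons 298 (.leaf 323 2360 (.cons 299 (.leaf 271 2171 (.leaf 300 2179 .nil)) .nil)) .nil)) .nil)) .nil)) (.cons 321 (.leaf 322 2352 (.cons 317 (.leaf 318 2346 (.cons 345 (.leaf 369 2183 (.cons 344 (.leaf 368 2182 (.cons 320 (.leaf 249 1989 (.cons 271 (.leaf 247 1983 (.cons 343 (.leaf 367 2174 (.cons 342 (.leaf 341 2537 (.cons 366 (.leaf 319 2166 (.leaf 365 2730 .nil)) .nil)) .nil)) .nil)) .nil)) .nil)) .nil)) .nil)) .nil)) (.cons 270 (.leaf 269 2155 (.cons 271 (.leaf 298 2160 (.cons 245 (.leaf 246 1963 (.cons 318 (.leaf 317 2346 (.cons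 247 (.leaf 223 1782 (.leaf 342 1973 .nil)) .nil)) .nil)) .nil)) .nil)) (.cons 270 (.leaf 269 2155 (.cons 271 (.leaf 298 2160 (.cons 246 (.leaf 245 1963 (.cons 222 (.leaf 198 1588 (.leaf 319 1780 .nil)) .nil)) .nil)) .nil)) (.cons 269 (.leaf 270 2155 (.cons 317 (.leaf 318 2346 (.cons 322 (.leaf 321 2352 (.cons 298 (.leaf 323 2360 (.cons 299 (.leaf 300 2179 (.cons 346 (.leaf 370 2197 (.cons 320 (.leaf 319 2362 (.cons 344 (.leaf 249 1989 (.leaf 368 2181 .nil)) .nil)) .nil)) .nil)) .nil)) .nil)) .nil)) .nil)) .nil))))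
noncomputable def t2 : T := .cons 345 (.leaf 321 1988 (.cons 344 (.leaf 369 2180 (.cons 368 (.leaf 271 2175 (.cons 391 (.leaf 367 2366 (.cons 392 (.leaf 319 2367 (.leaf 415 2558 .nil)) .nil)) .nil)) .nil)) .nil)) (.cons 247 (.leaf 223 1791 (.cons 249 (.leaf 250 1976 (.cons 321 (.leaf 345 1988 (.cons 322 (.leaf 323 2363 (.cons 344 (.leaf 271 1983 (.cons 367 (.leaf 343 2174 (.cons 368 (.leaf 391 2366 (.leaf 392 2373 .nil)) .nil)) .nil)) .nil)) .nil)) .nil)) .nil)) (.cons 343 (.leaf 319 1982 (.cons 344 (.leaf 367 2174 (.cons 368 (.leaf 271 2175 (.cons 369 (.leaf 345 2180 (.leaf 393 2372 .nil)) .nil)) .nil)) .nil)) (.cons 343 (.leaf 319 1982 (.cons 223 (.leaf 247 1791 (.cons 344 (.leaf 367 2174 (.cons 345 (.leaf 321 1988 (.leaf 369 2180 .nil)) .nil)) .nil)) .nil)) (.cons 343 (.leaf 319 1982 (.cons 344 (.leaf 367 2174 (.cons 368 (.leaf 271 2175 (.cons 392 (.leaf 321 2373 (.cons 393 (.leaf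 369 2372 (.leaf 417 2564 .nil)) .nil)) .nil)) .nil)) .nil)) (.cons 319 (.leaf 343 1982 (.cons 247 (.leaf 223 1791 (.cons 318 (.leaf 317 2345 (.cons 271 (.leaf 342 1974 (.cons 246 (.leaf 222 1783 (.cons 269 (.leaf 270 2152 (.cons 245 (.leaf 244 1952 (.leaf 268 1954 .nil)) .nil)) .nil)) .nil)) .nil)) .nil)) .nil)) .nil)))))
noncomputable def t3 : T := .cons 343 (.leaf 367 2173 (.cons 271 (.leaf 248 1981 (.cons 246 (.leaf 270 1975 (.cons 342 (.leaf 366 2166 (.cons 247 (.leaf 222 1783 (.leaf 318 1974 .nil)) .nil)) .nil)) .nil)) .nil)) (.cons 248 (.leaf 224 1790 (.cons 320 (.cons 247 (.leaf 223 1791 (.cons 246 (.leaf 245 1960 (.cons 222 (.leaf 271 1783 (.leaf 270 1780 .nil)) .nil)) .nil)) (.cons 344 (.leaf 249 1989 (.cons 368 (.leaf 271 2175 (.leaf 392 2367 .nil)) .nil)) (.cons 321 (.leaf 345 1988 (.leaf 322 2355 .nil)) .nil))) .nil)) (.cons 343 (.leaf 367 2173 (.cons 271 (.cons 246 (.leaf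 270 1975 (.cons 342 (.leaf 366 2166 (.cons 247 (.leaf 222 1783 (.leaf 318 1974 .nil)) .nil)) .nil)) (.cons 342 (.leaf 366 2166 (.cons 247 (.leaf 318 1974 (.cons 223 (.leaf 199 1596 (.leaf 320 1788 .nil)) .nil)) .nil)) (.cons 270 (.leaf 246 1975 (.cons 249 (.leaf 250 1969 (.cons 269 (.leaf 268 2144 (.cons 344 (.leaf 320 1989 (.leaf 368 2172 .nil)) .nil)) .nil)) .nil)) .nil))) .nil)) (.cons 343 (.leaf 367 2173 (.cons 248 (.leaf 224 1790 (.leaf 320 1982 .nil)) .nil)) .nil)))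
noncomputable def t4 : T := .cons 273 (.leaf 274 2170 (.cons 294 (.leaf 293 2153 (.cons 297 (.cons 270 (.leaf 269 2155 (.cons 271 (.leaf 298 2160 (.cons 246 (.leaf 245 1963 (.cons 222 (.leaf 198 1588 (.leaf 319 1780 .nil)) .nil)) .nil)) .nil)) (.cons 321 (.leaf 322 2352 (.cons 248 (.leaf 224 1796 (.leaf 345 1991 .nil)) .nil)) .nil)) .nil)) .nil)) (.cons 319 (.cons 343 (.leaf 367 2173 (.cons 248 (.leaf 224 1790 (.leaf 271 1981 .nil)) .nil)) (.cons 248 (.leaf 224 1790 (.cons 320 (.cons 321 (.leaf 345 1988 (.cons 294 (.leaf 293 2344 (.leaf 322 2355 .nil)) .nil)) (.cons 247 (.leaf 223 1791 (.cons 271 (.leaf 344 1980 (.cons 318 (.leaf 342 1974 (.cons 297 (.leaf 298 2354 (.leaf 317 2345 .nil)) .nil)) .nil)) .nil)) .nil)) .nil)) (.cons 343 (.leaf 367 2173 (.cons 271 (.cons 270 (.leaf 246 1975 (.cons 269 (.leaf 297 2152 (.leaf 268 2144 .nil)) .nil)) (.cons 344 (.leaf 368 2172 (.cons 247 (.leaf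 320 1980 (.cons 342 (.leaf 318 1974 (.leaf 366 2166 .nil)) .nil)) .nil)) .nil)) .nil)) (.cons 343 (.leaf 367 2173 (.cons 248 (.leaf 224 1790 (.leaf 320 1982 .nil)) .nil)) .nil)))) (.cons 273 (.leaf 274 2170 (.cons 294 (.leaf 293 2153 (.cons 297 (.cons 269 (.leaf 270 2155 (.cons 318 (.leaf 317 2346 (.cons 298 (.leaf 319 2354 (.cons 299 (.leaf 300 2179 (.cons 322 (.leaf 321 2352 (.leaf 323 2360 .nil)) .nil)) .nil)) .nil)) .nil)) (.cons 269 (.leaf 270 2155 (.cons 318 (.leaf 317 2346 (.cons 298 (.leaf 319 2354 (.cons 299 (.leaf 300 2179 (.cons 323 (.leaf 322 2360 (.leaf 324 2368 .nil)) .nil)) .nil)) .nil)) .nil)) (.cons 269 (.leaf 270 2155 (.cons 318 (.leaf 317 2346 (.cons 319 (.leaf 298 2354 (.cons 343 (.leaf 367 2173 (.cons 320 (.leaf 248 1982 (.cons 344 (.leaf 249 1989 (.leaf 368 2181 .nil)) .nil)) .nil)) .nil)) .nil)) .nil)) (.cons 321 (.leaf 322 2352 (.cons 248 (.leaf 224 1796 (.leaf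 345 1991 .nil)) .nil)) .nil)))) .nil)) .nil)) (.cons 273 (.leaf 274 2170 (.cons 294 (.leaf 293 2153 (.cons 319 t3 .nil)) .nil)) (.cons 273 (.leaf 274 2170 (.cons 294 (.leaf 293 2153 (.cons 297 (.cons 321 (.leaf 322 2352 (.cons 248 (.leaf 224 1796 (.leaf 345 1991 .nil)) .nil)) (.cons 270 (.leaf 269 2155 (.cons 271 (.leaf 298 2160 (.cons 245 (.leaf 246 1963 (.cons 318 (.leaf 317 2346 (.cons 247 (.leaf 223 1782 (.leaf 342 1973 .nil)) .nil)) .nil)) .nil)) .nil)) .nil)) .nil)) .nil)) (.cons 274 (.leaf 273 2170 (.cons 297 (.leaf 298 2169 (.cons 248 (.cons 319 (.leaf 224 1790 (.cons 343 (.leaf 271 1981 (.leaf 320 1982 .nil)) .nil)) (.cons 320 t2 (.cons 224 (.leaf 321 1796 (.cons 199 (.leaf 223 1599 (.cons 200 (.leaf 175 1407 (.leaf 271 1598 .nil)) .nil)) .nil)) (.cons 224 (.leaf 319 1790 (.leaf 321 1796 .nil)) .nil)))) .nil)) .nil)) (.cons 273 (.leaf 274 2170 (.cons 294 (.leaf 293 2153 (.cons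 297 t1 .nil)) .nil)) (.cons 273 (.leaf 274 2170 (.cons 294 (.leaf 293 2153 (.cons 297 t0 .nil)) .nil)) (.cons 273 (.leaf 274 2170 (.cons 294 (.leaf 293 2153 (.cons 297 (.cons 318 (.leaf 317 2346 (.cons 298 (.leaf 319 2354 (.cons 299 (.leaf 271 2171 (.leaf 300 2179 .nil)) .nil)) .nil)) (.cons 321 (.leaf 322 2352 (.cons 248 (.leaf 224 1796 (.leaf 345 1991 .nil)) .nil)) .nil)) .nil)) .nil)) (.cons 273 (.leaf 274 2170 (.cons 294 (.leaf 293 2153 (.cons 297 (.cons 318 (.leaf 317 2346 (.cons 270 (.leaf 269 2155 (.cons 319 (.leaf 298 2354 (.cons 343 (.leaf 367 2173 (.leaf 246 1972 .nil)) .nil)) .nil)) .nil)) (.cons 318 (.leaf 317 2346 (.cons 298 (.leaf 319 2354 (.cons 299 (.leaf 271 2171 (.leaf 300 2179 .nil)) .nil)) .nil)) (.cons 270 (.leaf 269 2155 (.cons 271 (.leaf 298 2160 (.cons 246 (.leaf 245 1963 (.cons 222 (.leaf 198 1588 (.leaf 319 1780 .nil)) .nil)) .nil)) .nil)) (.cons 270 (.leaf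 269 2155 (.cons 271 (.leaf 298 2160 (.cons 246 (.leaf 245 1963 (.cons 249 (.leaf 250 1969 (.cons 318 (.leaf 317 2346 (.cons 342 (.leaf 366 2165 (.leaf 247 1973 .nil)) .nil)) .nil)) .nil)) .nil)) .nil)) (.cons 270 (.leaf 269 2155 (.cons 318 (.leaf 317 2346 (.cons 271 (.cons 247 (.leaf 223 1782 (.leaf 342 1973 .nil)) (.cons 246 (.leaf 245 1963 (.cons 222 (.leaf 198 1588 (.leaf 319 1780 .nil)) .nil)) .nil)) .nil)) .nil)) .nil))))) .nil)) .nil)) .nil)))))))))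
noncomputable def t5 : T := .cons 343 (.leaf 367 2173 (.cons 320 (.leaf 248 1982 (.cons 321 (.leaf 322 2355 (.cons 344 (.leaf 249 1989 (.cons 341 (.leaf 342 2537 (.cons 345 (.leaf 369 2180 (.cons 318 (.leaf 317 2536 (.leaf 346 2544 .nil)) .nil)) .nil)) .nil)) .nil)) .nil)) .nil)) (.cons 320 (.cons 249 (.leaf 344 1989 (.cons 321 (.leaf 322 2355 (.cons 345 (.leaf 248 1988 (.cons 318 (.leaf 346 2544 (.cons 316 (.leaf 317 2337 (.cons 342 (.leaf 341 2538 (.cons 271 (.leaf 247 1974 (.leaf 366 2165 .nil)) .nil)) .nil)) .nil)) .nil)) .nil)) .nil)) (.cons 321 (.leaf 322 2355 (.cons 248 (.leaf 345 1988 (.cons 247 (.leaf 223 1791 (.cons 246 (.leaf 245 1960 (.cons 222 (.leaf 271 1783 (.leaf 270 1780 .nil)) .nil)) .nil)) .nil)) .nil)) (.cons 344 (.leaf 249 1989 (.cons 271 (.leaf 247 1980 (.leaf 368 2175 .nil)) .nil)) (.cons 249 (.leaf 344 1989 (.cons 321 (.leaf 322 2355 (.cons 345 (.leaf 248 1988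 (.cons 318 (.leaf 346 2544 (.cons 317 (.leaf 316 2337 (.cons 341 (.leaf 340 2530 (.leaf 342 2538 .nil)) .nil)) .nil)) .nil)) .nil)) .nil)) .nil)))) (.cons 343 (.leaf 367 2173 (.cons 271 (.leaf 248 1981 (.cons 270 (.leaf 246 1975 (.cons 249 (.leaf 250 1969 (.cons 269 (.leaf 268 2144 (.cons 245 (.leaf 244 1955 (.cons 342 (.leaf 366 2166 (.leaf 318 1967 .nil)) .nil)) .nil)) .nil)) .nil)) .nil)) .nil)) (.cons 343 (.leaf 367 2173 (.cons 248 (.leaf 271 1981 (.leaf 320 1982 .nil)) .nil)) (.cons 343 (.leaf 367 2173 (.cons 271 (.cons 246 (.leaf 270 1975 (.cons 342 (.leaf 366 2166 (.cons 247 (.leaf 222 1783 (.leaf 318 1974 .nil)) .nil)) .nil)) (.cons 342 (.leaf 366 2166 (.cons 247 (.leaf 318 1974 (.cons 223 (.leaf 199 1596 (.leaf 320 1788 .nil)) .nil)) .nil)) (.cons 246 (.leaf 270 1975 (.cons 344 (.leaf 368 2172 (.cons 247 (.leaf 320 1980 (.leaf 222 1783 .nil)) .nil)) .nil)) (.cons 270 (.leaf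 246 1975 (.cons 249 (.leaf 250 1969 (.cons 269 (.leaf 268 2144 (.cons 344 (.leaf 320 1989 (.leaf 368 2172 .nil)) .nil)) .nil)) .nil)) .nil)))) .nil)) .nil))))
noncomputable def t6 : T := .cons 227 (.leaf 203 1622 (.cons 322 (.leaf 299 1814 (.leaf 346 2005 .nil)) .nil)) (.cons 322 (.leaf 346 2005 (.cons 321 (.cons 250 (.leaf 345 1998 (.cons 323 (.leaf 320 2363 (.leaf 347 2004 .nil)) .nil)) (.cons 250 (.leaf 345 1998 (.cons 323 (.leaf 347 2004 (.cons 299 (.leaf 226 1812 (.cons 324 (.leaf 348 2012 (.cons 301 (.leaf 300 2377 (.cons 325 (.leaf 326 2387 (.leaf 302 2385 .nil)) .nil)) .nil)) .nil)) .nil)) .nil)) (.cons 345 (.leaf 250 1998 (.cons 369 (.leaf 393 2381 (.cons 320 (.leaf 248 1988 (.leaf 344 2180 .nil)) .nil)) .nil)) (.cons 323 (.leaf 320 2363 (.cons 250 (.leaf 347 2004 (.cons 299 (.leaf 226 1812 (.cons 324 (.leaf 348 2012 (.cons 301 (.leaf 300 2377 (.cons 325 (.leaf 326 2387 (.leaf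 302 2385 .nil)) .nil)) .nil)) .nil)) .nil)) .nil)) (.cons 320 (.leaf 323 2363 (.cons 319 (.leaf 299 2361 (.cons 343 (.leaf 248 1982 (.leaf 367 2173 .nil)) .nil)) .nil)) .nil))))) .nil)) (.cons 227 (.leaf 203 1622 (.cons 299 (.cons 228 (.leaf 204 1629 (.cons 300 (.leaf 324 1820 (.cons 301 (.leaf 302 2195 (.cons 277 (.leaf 278 2193 (.cons 325 (.leaf 326 2384 (.cons 253 (.leaf 252 1831 (.cons 226 (.leaf 202 1623 (.cons 254 (.leaf 229 1808 (.leaf 230 1837 .nil)) .nil)) .nil)) .nil)) .nil)) .nil)) .nil)) .nil)) (.cons 228 (.leaf 204 1629 (.cons 252 (.leaf 323 1821 (.cons 253 (.leaf 254 2002 (.cons 300 (.leaf 324 1820 (.cons 301 (.leaf 302 2195 (.cons 277 (.leaf 278 2193 (.leaf 325 1831 .nil)) .nil)) .nil)) .nil)) .nil)) .nil)) (.cons 226 (.leaf 202 1623 (.cons 323 (.leaf 250 1812 (.cons 324 (.leaf 300 1820 (.leaf 348 2012 .nil)) .nil)) .nil)) (.cons 226 (.leaf 202 1623 (.cons 250 (.leaf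 323 1812 (.cons 228 (.leaf 204 1629 (.cons 249 (.leaf 248 1793 (.leaf 229 1802 .nil)) .nil)) .nil)) .nil)) .nil)))) .nil)) (.cons 322 (.leaf 346 2005 (.cons 227 (.leaf 203 1622 (.leaf 250 1813 .nil)) .nil)) .nil)))
noncomputable def t7 : T := .cons 293 (.leaf 273 2153 (.cons 268 (.leaf 269 2147 (.cons 292 (.leaf 271 2145 (.leaf 267 2139 .nil)) .nil)) .nil)) (.cons 297 (.cons 269 (.leaf 270 2155 (.cons 318 (.leaf 317 2346 (.cons 321 (.leaf 322 2352 (.cons 298 (.leaf 319 2354 (.cons 299 (.leaf 271 2171 (.cons 300 (.leaf 273 2179 (.leaf 320 2370 .nil)) .nil)) .nil)) .nil)) .nil)) .nil)) (.cons 317 (.leaf 318 2346 (.cons 321 (.leaf 322 2352 (.cons 345 (.leaf 369 2183 (.cons 248 (.leaf 273 1991 (.leaf 320 1988 .nil)) .nil)) .nil)) .nil)) (.cons 269 (.leaf 270 2155 (.cons 321 (.leaf 322 2352 (.cons 345 (.leaf 369 2183 (.cons 248 (.leaf 273 1991 (.leaf 320 1988 .nil)) .nil)) .nil)) .nil))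 (.cons 269 (.leaf 270 2155 (.cons 318 (.leaf 317 2346 (.cons 298 (.leaf 319 2354 (.cons 299 (.leaf 271 2171 (.cons 323 (.leaf 322 2360 (.leaf 324 2368 .nil)) .nil)) .nil)) .nil)) .nil)) (.cons 269 (.leaf 270 2155 (.cons 318 (.leaf 317 2346 (.cons 298 (.leaf 319 2354 (.cons 299 (.leaf 271 2171 (.cons 300 (.leaf 273 2179 (.cons 324 (.leaf 323 2368 (.leaf 325 2376 .nil)) .nil)) .nil)) .nil)) .nil)) .nil)) .nil))))) (.cons 293 (.leaf 273 2153 (.cons 268 (.leaf 269 2147 (.cons 292 (.leaf 267 2139 (.cons 316 (.leaf 317 2338 (.leaf 315 2330 .nil)) .nil)) .nil)) .nil)) (.cons 293 (.cons 268 (.leaf 269 2147 (.cons 292 (.leaf 271 2145 (.leaf 267 2139 .nil)) .nil)) (.cons 268 (.leaf 269 2147 (.cons 317 (.leaf 316 2338 (.cons 297 (.leaf 318 2346 (.cons 322 (.leaf 321 2352 (.cons 298 (.leaf 323 2360 (.cons 271 (.leaf 299 2171 (.leaf 270 2163 .nil)) .nil)) .nil)) .nil)) .nil)) .nil)) (.cons 292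 (.leaf 271 2145 (.cons 316 (.leaf 317 2338 (.leaf 315 2330 .nil)) .nil)) (.cons 268 (.leaf 269 2147 (.cons 292 (.leaf 267 2139 (.cons 316 (.leaf 317 2338 (.leaf 315 2330 .nil)) .nil)) .nil)) .nil)))) (.cons 293 (.leaf 273 2153 (.cons 292 (.leaf 271 2145 (.cons 316 (.leaf 317 2338 (.leaf 315 2330 .nil)) .nil)) .nil)) .nil))))
noncomputable def t8 : T := .cons 298 (.leaf 274 2169 (.cons 271 (.leaf 299 2171 (.leaf 270 2163 .nil)) .nil)) (.cons 294 (.cons 321 (.leaf 322 2352 (.cons 269 (.leaf 270 2155 (.cons 293 (.leaf 268 2147 (.leaf 320 2344 .nil)) .nil)) .nil)) (.cons 269 (.leaf 270 2155 (.cons 293 (.leaf 268 2147 (.cons 292 (.leaf 271 2145 (.cons 316 (.leaf 317 2338 (.leaf 315 2330 .nil)) .nil)) .nil)) .nil)) (.cons 321 (.leaf 322 2352 (.cons 293 (.leaf 320 2344 (.cons 317 (.leaf 316 2338 (.leaf 318 2346 .nil)) .nil)) .nil)) (.cons 270 (.leaf 269 2155 (.cons 318 (.leaf 317 2346 (.cons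 321 (.leaf 322 2352 (.cons 345 (.leaf 369 2183 (.cons 319 (.cons 343 (.leaf 367 2173 (.leaf 246 1972 .nil)) (.cons 222 (.leaf 246 1780 (.cons 320 (.leaf 248 1988 (.leaf 346 2544 .nil)) .nil)) (.cons 343 (.leaf 367 2173 (.cons 346 (.leaf 320 2544 (.leaf 344 2547 .nil)) .nil)) .nil))) .nil)) .nil)) .nil)) .nil)) .nil)))) (.cons 298 (.leaf 274 2169 (.cons 318 (.leaf 319 2354 (.cons 294 (.leaf 317 2346 (.cons 269 (.leaf 270 2155 (.cons 322 (.leaf 321 2352 (.leaf 323 2360 .nil)) .nil)) .nil)) .nil)) .nil)) (.cons 298 (.leaf 274 2169 (.cons 318 (.leaf 319 2354 (.cons 294 (.leaf 317 2346 (.cons 322 (.leaf 321 2352 (.leaf 323 2360 .nil)) .nil)) .nil)) .nil)) .nil)))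
noncomputable def t9 : T := .cons 273 (.leaf 274 2170 (.cons 294 (.leaf 293 2153 (.cons 297 (.cons 318 (.leaf 317 2346 (.cons 269 (.leaf 270 2155 (.cons 298 (.leaf 319 2354 (.cons 299 (.leaf 271 2171 (.leaf 300 2179 .nil)) .nil)) .nil)) .nil)) (.cons 318 (.leaf 317 2346 (.cons 298 (.leaf 319 2354 (.cons 299 (.leaf 271 2171 (.leaf 300 2179 .nil)) .nil)) .nil)) (.cons 321 (.leaf 322 2352 (.cons 269 (.leaf 270 2155 (.cons 345 (.leaf 248 1991 (.leaf 369 2183 .nil)) .nil)) .nil)) .nil))) .nil)) .nil)) (.cons 297 t8 (.cons 294 t7 (.cons 274 (.leaf 273 2170 (.cons 298 (.leaf 297 2169 (.cons 251 t6 .nil)) .nil)) (.cons 273 (.leaf 274 2170 (.cons 294 (.leaf 293 2153 (.cons 319 t5 .nil)) .nil)) (.cons 273 (.leaf 274 2170 (.cons 294 (.leaf 293 2153 (.cons 297 (.cons 317 (.leaf 318 2346 (.cons 322 (.leaf 321 2352 (.cons 298 (.leaf 323 2360 (.cons 270 (.leaf 271 2160 (.leaf 269 2155 .nil)) .nil))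 .nil)) .nil)) (.cons 317 (.leaf 318 2346 (.cons 322 (.leaf 321 2352 (.cons 298 (.leaf 323 2360 (.cons 299 (.leaf 271 2171 (.leaf 300 2179 .nil)) .nil)) .nil)) .nil)) (.cons 270 (.leaf 269 2155 (.cons 271 (.leaf 298 2160 (.cons 245 (.leaf 246 1963 (.cons 318 (.leaf 317 2346 (.cons 247 (.leaf 223 1782 (.leaf 342 1973 .nil)) .nil)) .nil)) .nil)) .nil)) (.cons 269 (.leaf 270 2155 (.cons 317 (.leaf 318 2346 (.cons 321 (.leaf 322 2352 (.cons 345 (.leaf 248 1991 (.leaf 369 2183 .nil)) .nil)) .nil)) .nil)) (.cons 269 (.leaf 270 2155 (.cons 321 (.leaf 322 2352 (.cons 345 (.leaf 248 1991 (.leaf 369 2183 .nil)) .nil)) .nil)) .nil))))) .nil)) .nil)) (.cons 273 (.leaf 274 2170 (.cons 294 (.leaf 293 2153 (.cons 297 (.cons 270 (.leaf 269 2155 (.cons 271 (.leaf 298 2160 (.cons 245 (.leaf 246 1963 (.cons 318 (.leaf 317 2346 (.cons 247 (.leaf 223 1782 (.leaf 342 1973 .nil)) .nil)) .nil)) .nil)) .nil))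 (.cons 318 (.leaf 317 2346 (.cons 298 (.leaf 319 2354 (.cons 299 (.leaf 271 2171 (.leaf 300 2179 .nil)) .nil)) .nil)) (.cons 318 (.leaf 317 2346 (.cons 269 (.leaf 270 2155 (.cons 298 (.leaf 319 2354 (.cons 299 (.leaf 300 2179 (.cons 323 (.leaf 322 2360 (.leaf 324 2368 .nil)) .nil)) .nil)) .nil)) .nil)) (.cons 270 (.leaf 269 2155 (.cons 271 (.leaf 298 2160 (.cons 246 (.leaf 245 1963 (.cons 222 (.leaf 198 1588 (.leaf 319 1780 .nil)) .nil)) .nil)) .nil)) (.cons 270 (.leaf 269 2155 (.cons 318 (.leaf 317 2346 (.cons 271 (.cons 247 (.leaf 223 1782 (.leaf 342 1973 .nil)) (.cons 246 (.leaf 245 1963 (.cons 222 (.leaf 198 1588 (.leaf 319 1780 .nil)) .nil)) .nil)) .nil)) .nil)) .nil))))) .nil)) .nil)) (.cons 273 (.leaf 274 2170 (.cons 294 (.leaf 293 2153 (.cons 297 (.cons 270 (.leaf 269 2155 (.cons 271 (.leaf 298 2160 (.cons 246 (.leaf 245 1963 (.cons 222 (.leaf 198 1588 (.leaf 319 1780 .nil))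 .nil)) .nil)) .nil)) (.cons 318 (.leaf 317 2346 (.cons 298 (.leaf 319 2354 (.cons 299 (.leaf 271 2171 (.leaf 300 2179 .nil)) .nil)) .nil)) (.cons 318 (.leaf 317 2346 (.cons 270 (.leaf 269 2155 (.cons 319 (.leaf 298 2354 (.cons 246 (.leaf 222 1780 (.leaf 343 1972 .nil)) .nil)) .nil)) .nil)) (.cons 270 (.leaf 269 2155 (.cons 318 (.leaf 317 2346 (.cons 271 (.cons 247 (.leaf 223 1782 (.leaf 342 1973 .nil)) (.cons 246 (.leaf 245 1963 (.cons 222 (.leaf 198 1588 (.leaf 319 1780 .nil)) .nil)) .nil)) .nil)) .nil)) (.cons 270 (.leaf 269 2155 (.cons 271 (.leaf 298 2160 (.cons 246 (.leaf 245 1963 (.cons 249 (.leaf 250 1969 (.cons 318 (.leaf 317 2346 (.cons 342 (.leaf 366 2165 (.leaf 247 1973 .nil)) .nil)) .nil)) .nil)) .nil)) .nil)) .nil))))) .nil)) .nil)) .nil)))))))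
noncomputable def t10 : T := .cons 320 (.cons 223 (.leaf 247 1791 (.cons 224 (.leaf 199 1599 (.cons 319 (.leaf 295 1790 (.leaf 343 1982 .nil)) .nil)) .nil)) (.cons 319 (.leaf 343 1982 (.cons 295 (.leaf 224 1790 (.cons 273 (.leaf 274 2170 (.cons 321 (.leaf 345 1988 (.cons 322 (.leaf 323 2363 (.cons 298 (.leaf 299 2361 (.cons 344 (.leaf 249 1989 (.cons 368 (.leaf 271 2175 (.leaf 392 2367 .nil)) .nil)) .nil)) .nil)) .nil)) .nil)) .nil)) .nil)) (.cons 223 (.leaf 247 1791 (.cons 199 (.leaf 224 1599 (.cons 345 (.leaf 321 1988 (.cons 344 (.leaf 369 2180 (.cons 273 (.leaf 249 1989 (.cons 274 (.leaf 295 2170 (.cons 251 (.leaf 252 1985 (.cons 250 (.leaf 271 1977 (.cons 299 (.leaf 300 2176 (.cons 323 (.leaf 226 1815 (.leaf 347 2007 .nil)) .nil)) .nil)) .nil)) .nil)) .nil)) .nil)) .nil)) .nil)) .nil)) (.cons 247 (.leaf 223 1791 (.cons 273 (.leaf 274 1979 (.cons 344 (.leaf 271 1983 (.leaf 249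 1989 .nil)) .nil)) .nil)) .nil)))) (.cons 224 (.cons 199 (.leaf 223 1599 (.cons 200 (.leaf 175 1407 (.cons 177 (.leaf 201 1413 (.cons 176 (.leaf 153 1221 (.cons 178 (.leaf 179 1402 (.cons 197 (.leaf 198 1385 (.cons 273 (.leaf 297 1604 (.leaf 249 1412 .nil)) .nil)) .nil)) .nil)) .nil)) .nil)) .nil)) (.cons 297 (.leaf 321 1796 (.cons 200 (.leaf 273 1604 (.cons 271 (.leaf 295 1598 (.cons 176 (.leaf 247 1406 (.cons 177 (.leaf 201 1413 (.leaf 153 1221 .nil)) .nil)) .nil)) .nil)) .nil)) (.cons 199 (.leaf 223 1599 (.cons 200 (.leaf 175 1407 (.cons 177 (.leaf 201 1413 (.cons 176 (.leaf 153 1221 (.cons 178 (.leaf 179 1402 (.cons 197 (.leaf 198 1385 (.cons 273 (.leaf 249 1412 (.cons 295 (.leaf 274 2170 (.leaf 271 1598 .nil)) .nil)) .nil)) .nil)) .nil)) .nil)) .nil)) .nil)) (.cons 223 (.leaf 199 1599 (.cons 320 (.leaf 247 1791 (.cons 321 (.leaf 297 1796 (.leaf 345 1988 .nil)) .nil)) .nil)) .nil))))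 (.cons 224 (.cons 295 (.leaf 319 1790 (.cons 200 (.leaf 271 1598 (.cons 175 (.leaf 199 1407 (.cons 176 (.leaf 151 1215 (.cons 177 (.leaf 201 1413 (.leaf 153 1221 .nil)) .nil)) .nil)) .nil)) .nil)) (.cons 223 (.leaf 199 1599 (.cons 247 (.leaf 320 1791 (.cons 273 (.leaf 274 1979 (.cons 200 (.leaf 297 1604 (.cons 176 (.leaf 271 1406 (.leaf 249 1412 .nil)) .nil)) .nil)) .nil)) .nil)) (.cons 295 (.leaf 319 1790 (.cons 273 (.leaf 274 2170 (.cons 200 (.leaf 271 1598 (.leaf 297 1604 .nil)) .nil)) .nil)) (.cons 223 (.leaf 199 1599 (.cons 295 (.leaf 319 1790 (.cons 273 (.leaf 274 2170 (.cons 320 (.leaf 247 1791 (.cons 344 (.leaf 249 1989 (.cons 368 (.leaf 271 2175 (.leaf 297 2181 .nil)) .nil)) .nil)) .nil)) .nil)) .nil)) (.cons 295 (.leaf 319 1790 (.cons 273 (.leaf 274 2170 (.cons 200 (.leaf 297 1604 (.cons 176 (.leaf 249 1412 (.cons 151 (.leaf 175 1215 (.cons 177 (.leaf 201 1413 (.leaf 153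 1221 .nil)) .nil)) .nil)) .nil)) .nil)) .nil)) .nil))))) (.cons 320 (.cons 319 (.leaf 343 1982 (.cons 321 (.leaf 345 1988 (.cons 297 (.leaf 224 1796 (.cons 298 (.leaf 299 2362 (.leaf 318 2353 .nil)) .nil)) .nil)) .nil)) (.cons 319 (.leaf 343 1982 (.cons 223 (.leaf 247 1791 (.cons 224 (.leaf 199 1599 (.leaf 295 1790 .nil)) .nil)) .nil)) (.cons 321 (.leaf 345 1988 (.cons 223 (.leaf 247 1791 (.cons 224 (.leaf 199 1599 (.leaf 297 1796 .nil)) .nil)) .nil)) (.cons 223 (.leaf 247 1791 (.cons 319 (.leaf 343 1982 (.cons 345 (.leaf 321 1988 (.cons 344 (.leaf 369 2180 (.cons 273 (.leaf 249 1989 (.cons 368 (.leaf 297 2181 (.cons 295 (.leaf 274 2170 (.leaf 392 2367 .nil)) .nil)) .nil)) .nil)) .nil)) .nil)) .nil)) .nil)))) (.cons 320 (.cons 319 (.leaf 343 1982 (.cons 321 (.leaf 345 1988 (.cons 297 (.leaf 224 1796 (.cons 298 (.leaf 299 2362 (.leaf 318 2353 .nil)) .nil)) .nil)) .nil)) (.cons 345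 (.leaf 321 1988 (.cons 344 (.leaf 369 2180 (.cons 273 (.leaf 249 1989 (.cons 367 (.leaf 343 2174 (.cons 368 (.leaf 297 2181 (.leaf 391 2366 .nil)) .nil)) .nil)) .nil)) .nil)) (.cons 319 (.leaf 343 1982 (.cons 295 (.leaf 224 1790 (.cons 273 (.leaf 274 2170 (.cons 344 (.leaf 249 1989 (.cons 271 (.leaf 247 1980 (.leaf 368 2175 .nil)) .nil)) .nil)) .nil)) .nil)) (.cons 321 (.leaf 345 1988 (.cons 224 (.leaf 297 1796 (.cons 295 (.leaf 319 1790 (.cons 200 (.leaf 271 1598 (.cons 175 (.leaf 199 1407 (.cons 176 (.leaf 151 1215 (.cons 177 (.leaf 201 1413 (.leaf 153 1221 .nil)) .nil)) .nil)) .nil)) .nil)) .nil)) .nil)) .nil)))) .nil))))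
noncomputable def t11 : T := .cons 343 (.leaf 319 1982 (.cons 344 (.leaf 367 2174 (.cons 273 (.leaf 249 1989 (.cons 274 (.leaf 247 1979 (.leaf 295 2170 .nil)) .nil)) .nil)) .nil)) (.cons 343 (.leaf 319 1982 (.cons 344 (.leaf 367 2174 (.cons 273 (.leaf 249 1989 (.cons 274 (.leaf 295 2170 (.cons 251 (.leaf 252 1985 (.cons 250 (.leaf 271 1977 (.cons 297 (.leaf 368 2181 (.cons 202 (.leaf 226 1614 (.cons 299 (.leaf 300 2176 (.cons 323 (.leaf 347 2007 (.cons 324 (.leaf 348 2012 (.leaf 298 2368 .nil)) .nil)) .nil)) .nil)) .nil)) .nil)) .nil)) .nil)) .nil)) .nil)) .nil)) (.cons 247 (.leaf 223 1791 (.cons 273 (.leaf 274 1979 (.cons 344 (.leaf 271 1983 (.leaf 249 1989 .nil)) .nil)) .nil)) (.cons 247 (.leaf 223 1791 (.cons 274 (.leaf 273 1979 (.cons 319 (.leaf 343 1982 (.cons 321 (.leaf 345 1988 (.cons 250 (.leaf 249 1976 (.cons 322 (.cons 299 (.leaf 298 2361 (.cons 323 (.leaf 347 2007 (.leaf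 295 2363 .nil)) .nil)) (.cons 323 (.leaf 295 2363 (.cons 347 (.leaf 299 2007 (.leaf 346 2552 .nil)) .nil)) (.cons 298 (.leaf 299 2361 (.cons 251 (.leaf 346 2005 (.leaf 227 1813 .nil)) .nil)) (.cons 323 (.leaf 295 2363 (.cons 347 (.leaf 346 2552 (.leaf 348 2560 .nil)) .nil)) .nil)))) .nil)) .nil)) .nil)) .nil)) .nil)) (.cons 247 (.leaf 223 1791 (.cons 343 (.leaf 319 1982 (.cons 344 (.leaf 271 1983 (.leaf 367 2174 .nil)) .nil)) .nil)) .nil))))
noncomputable def t12 : T := .cons 224 (.cons 295 (.leaf 319 1790 (.cons 273 (.leaf 274 2170 (.cons 321 (.leaf 297 1796 (.cons 320 (.leaf 345 1988 (.cons 223 (.leaf 199 1599 (.leaf 247 1791 .nil)) .nil)) .nil)) .nil)) .nil)) (.cons 297 (.leaf 321 1796 (.cons 200 (.leaf 273 1604 (.cons 175 (.leaf 199 1407 (.cons 176 (.leaf 151 1215 (.cons 177 (.leaf 201 1413 (.leaf 153 1221 .nil)) .nil)) .nil)) .nil)) .nil)) (.cons 295 (.leaf 319 1790 (.cons 200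 (.leaf 271 1598 (.cons 175 (.leaf 199 1407 (.cons 176 (.leaf 151 1215 (.cons 177 (.leaf 201 1413 (.leaf 153 1221 .nil)) .nil)) .nil)) .nil)) .nil)) (.cons 295 (.leaf 319 1790 (.cons 273 (.leaf 274 2170 (.cons 321 (.leaf 297 1796 (.cons 320 (.leaf 345 1988 (.cons 322 (.leaf 323 2363 (.cons 344 (.leaf 249 1989 (.cons 271 (.leaf 200 1598 (.leaf 247 1983 .nil)) .nil)) .nil)) .nil)) .nil)) .nil)) .nil)) .nil)))) (.cons 224 (.cons 295 (.leaf 319 1790 (.cons 200 (.leaf 271 1598 (.cons 297 (.leaf 273 1604 (.leaf 321 1796 .nil)) .nil)) .nil)) (.cons 297 (.leaf 321 1796 (.cons 200 (.leaf 273 1604 (.cons 175 (.leaf 199 1407 (.cons 176 (.leaf 151 1215 (.cons 177 (.leaf 201 1413 (.leaf 153 1221 .nil)) .nil)) .nil)) .nil)) .nil)) (.cons 295 (.leaf 319 1790 (.cons 200 (.leaf 271 1598 (.cons 175 (.leaf 199 1407 (.cons 176 (.leaf 151 1215 (.cons 177 (.leaf 201 1413 (.leaf 153 1221 .nil)) .nil)) .nil))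 .nil)) .nil)) (.cons 199 (.leaf 223 1599 (.cons 295 (.leaf 319 1790 (.cons 274 (.leaf 273 2170 (.cons 297 (.leaf 298 2169 (.leaf 321 1796 .nil)) .nil)) .nil)) .nil)) .nil)))) (.cons 320 t11 (.cons 320 (.cons 223 (.leaf 247 1791 (.cons 224 (.leaf 199 1599 (.cons 321 (.leaf 297 1796 (.leaf 345 1988 .nil)) .nil)) .nil)) (.cons 319 (.leaf 343 1982 (.cons 224 (.leaf 295 1790 (.cons 321 (.leaf 297 1796 (.leaf 345 1988 .nil)) .nil)) .nil)) (.cons 319 (.leaf 343 1982 (.cons 223 (.leaf 247 1791 (.cons 224 (.leaf 199 1599 (.leaf 295 1790 .nil)) .nil)) .nil)) (.cons 247 (.leaf 223 1791 (.cons 343 (.leaf 319 1982 (.cons 344 (.leaf 271 1983 (.leaf 367 2174 .nil)) .nil)) .nil)) .nil)))) (.cons 320 (.cons 223 (.leaf 247 1791 (.cons 224 (.leaf 199 1599 (.cons 321 (.leaf 297 1796 (.leaf 345 1988 .nil)) .nil)) .nil)) (.cons 319 (.leaf 343 1982 (.cons 321 (.leaf 345 1988 (.cons 297 (.leaf 224 1796 (.cons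 298 (.leaf 299 2362 (.leaf 318 2353 .nil)) .nil)) .nil)) .nil)) (.cons 247 (.leaf 223 1791 (.cons 273 (.leaf 274 1979 (.cons 344 (.leaf 271 1983 (.leaf 249 1989 .nil)) .nil)) .nil)) .nil))) t10))))
noncomputable def t13 : T := .cons 295 (.leaf 319 1790 (.cons 200 (.leaf 271 1598 (.cons 175 (.leaf 199 1407 (.cons 176 (.leaf 151 1215 (.cons 177 (.leaf 201 1413 (.leaf 153 1221 .nil)) .nil)) .nil)) .nil)) .nil)) (.cons 199 (.leaf 223 1599 (.cons 200 (.leaf 175 1407 (.cons 177 (.leaf 201 1413 (.cons 176 (.leaf 153 1221 (.cons 178 (.leaf 179 1402 (.cons 197 (.leaf 198 1385 (.cons 247 (.leaf 271 1406 (.cons 273 (.leaf 274 1979 (.leaf 249 1412 .nil)) .nil)) .nil)) .nil)) .nil)) .nil)) .nil)) .nil)) (.cons 295 (.leaf 319 1790 (.cons 273 (.leaf 274 2170 (.cons 200 (.leaf 271 1598 (.cons 176 (.leaf 249 1412 (.cons 151 (.leaf 175 1215 (.cons 177 (.leaf 201 1413 (.leaf 153 1221 .nil)) .nil)) .nil))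 .nil)) .nil)) .nil)) (.cons 223 (.leaf 199 1599 (.cons 247 (.leaf 320 1791 (.cons 273 (.leaf 274 1979 (.cons 245 (.leaf 246 1960 (.cons 295 (.leaf 319 1790 (.cons 294 (.leaf 293 2153 (.cons 271 (.leaf 318 1782 (.cons 222 (.leaf 198 1591 (.cons 221 (.leaf 220 1760 (.leaf 249 1768 .nil)) .nil)) .nil)) .nil)) .nil)) .nil)) .nil)) .nil)) .nil)) (.cons 223 (.leaf 199 1599 (.cons 247 (.leaf 320 1791 (.cons 273 (.leaf 274 1979 (.cons 246 (.leaf 245 1960 (.cons 295 (.leaf 319 1790 (.cons 294 (.leaf 293 2153 (.cons 270 (.leaf 318 1781 (.cons 249 (.leaf 269 1962 (.cons 222 (.leaf 221 1768 (.leaf 250 1779 .nil)) .nil)) .nil)) .nil)) .nil)) .nil)) .nil)) .nil)) .nil)) .nil))))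
noncomputable def t14 : T := .cons 295 (.leaf 319 1790 (.cons 273 (.leaf 274 2170 (.cons 294 (.leaf 293 2153 (.cons 297 (.leaf 200 1604 (.leaf 321 1796 .nil)) .nil)) .nil)) .nil)) (.cons 297 (.leaf 321 1796 (.cons 200 (.leaf 273 1604 (.cons 175 (.leaf 199 1407 (.cons 176 (.leaf 151 1215 (.cons 177 (.leaf 201 1413 (.leaf 153 1221 .nil)) .nil)) .nil)) .nil)) .nil)) (.cons 295 (.leaf 319 1790 (.cons 273 (.leaf 274 2170 (.cons 200 (.leaf 271 1598 (.cons 176 (.leaf 249 1412 (.cons 151 (.leaf 175 1215 (.cons 177 (.leaf 201 1413 (.leaf 153 1221 .nil)) .nil)) .nil)) .nil)) .nil)) .nil)) (.cons 295 (.leaf 319 1790 (.cons 200 (.leaf 271 1598 (.cons 175 (.leaf 199 1407 (.cons 176 (.leaf 151 1215 (.cons 177 (.leaf 201 1413 (.leaf 153 1221 .nil)) .nil)) .nil)) .nil)) .nil)) (.cons 295 (.leaf 319 1790 (.cons 273 (.leaf 274 2170 (.cons 294 (.leaf 293 2153 (.cons 297 (.leaf 321 1796 (.cons 270 (.leaf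 269 2155 (.cons 271 (.leaf 298 2160 (.cons 245 (.leaf 246 1963 (.cons 249 (.leaf 250 1969 (.cons 318 (.leaf 317 2346 (.cons 342 (.leaf 366 2165 (.leaf 247 1973 .nil)) .nil)) .nil)) .nil)) .nil)) .nil)) .nil)) .nil)) .nil)) .nil)) .nil))))
noncomputable def t15 : T := .cons 223 (.leaf 199 1599 (.cons 247 (.leaf 320 1791 (.cons 274 (.leaf 273 1979 (.cons 249 (.leaf 250 1976 (.cons 222 (.leaf 221 1768 (.cons 297 (.leaf 321 1796 (.cons 295 (.leaf 298 2169 (.cons 271 (.leaf 200 1597 (.leaf 198 1591 .nil)) .nil)) .nil)) .nil)) .nil)) .nil)) .nil)) .nil)) (.cons 297 (.leaf 321 1796 (.cons 200 (.leaf 273 1604 (.cons 175 (.leaf 199 1407 (.cons 176 (.leaf 151 1215 (.cons 271 (.leaf 295 1598 (.leaf 247 1406 .nil)) .nil)) .nil)) .nil)) .nil)) (.cons 199 (.leaf 223 1599 (.cons 200 (.leaf 175 1407 (.cons 177 (.leaf 201 1413 (.cons 176 (.leaf 153 1221 (.cons 178 (.leaf 179 1402 (.cons 197 (.leaf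 198 1385 (.cons 273 (.leaf 249 1412 (.cons 295 (.leaf 274 2170 (.leaf 271 1598 .nil)) .nil)) .nil)) .nil)) .nil)) .nil)) .nil)) .nil)) (.cons 297 (.leaf 321 1796 (.cons 200 (.leaf 273 1604 (.cons 271 (.leaf 295 1598 (.cons 176 (.leaf 247 1406 (.cons 177 (.leaf 201 1413 (.leaf 153 1221 .nil)) .nil)) .nil)) .nil)) .nil)) (.cons 223 (.leaf 199 1599 (.cons 247 (.leaf 320 1791 (.cons 274 (.leaf 273 1979 (.cons 249 (.leaf 250 1976 (.cons 222 (.leaf 221 1768 (.cons 297 (.leaf 321 1796 (.cons 295 (.leaf 298 2169 (.cons 271 (.leaf 198 1591 (.cons 294 (.leaf 318 1782 (.cons 269 (.leaf 270 2152 (.cons 293 (.leaf 292 2145 (.leaf 268 2147 .nil)) .nil)) .nil)) .nil)) .nil)) .nil)) .nil)) .nil)) .nil)) .nil)) .nil)) (.cons 199 (.leaf 223 1599 (.cons 200 (.leaf 175 1407 (.cons 177 (.leaf 201 1413 (.cons 176 (.leaf 153 1221 (.cons 271 (.leaf 295 1598 (.leaf 247 1406 .nil)) .nil)) .nil)) .nil)) .nil))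 (.cons 223 (.leaf 199 1599 (.cons 247 (.leaf 320 1791 (.cons 273 (.leaf 274 1979 (.cons 200 (.leaf 297 1604 (.cons 176 (.leaf 249 1412 (.leaf 152 1214 .nil)) .nil)) .nil)) .nil)) .nil)) .nil))))))
noncomputable def t16 : T := .cons 223 (.leaf 199 1599 (.cons 297 (.leaf 321 1796 (.cons 319 (.leaf 295 1790 (.cons 320 (.leaf 247 1791 (.leaf 343 1982 .nil)) .nil)) .nil)) .nil)) (.cons 297 (.leaf 321 1796 (.cons 200 (.cons 177 (.leaf 201 1413 (.cons 176 (.leaf 153 1221 (.cons 151 (.leaf 175 1215 (.cons 152 (.leaf 127 1023 (.cons 247 (.leaf 271 1406 (.leaf 223 1214 .nil)) .nil)) .nil)) .nil)) .nil)) (.cons 175 (.leaf 199 1407 (.cons 176 (.leaf 151 1215 (.cons 177 (.leaf 201 1413 (.leaf 153 1221 .nil)) .nil)) .nil)) (.cons 223 (.leaf 199 1599 (.cons 177 (.leaf 201 1413 (.cons 176 (.leaf 153 1221 (.cons 247 (.leaf 320 1791 (.leaf 271 1406 .nil)) .nil)) .nil)) .nil)) (.cons 199 (.leaf 175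 1407 (.leaf 223 1599 .nil)) .nil)))) .nil)) (.cons 295 (.leaf 319 1790 (.cons 200 (.leaf 271 1598 (.cons 175 (.leaf 199 1407 (.cons 176 (.leaf 151 1215 (.cons 177 (.leaf 201 1413 (.leaf 153 1221 .nil)) .nil)) .nil)) .nil)) .nil)) (.cons 295 (.leaf 319 1790 (.cons 271 (.leaf 200 1598 (.cons 297 (.leaf 321 1796 (.cons 298 (.leaf 274 2169 (.leaf 299 2171 .nil)) .nil)) .nil)) .nil)) .nil)))
noncomputable def t17 : T := .cons 247 (.leaf 223 1791 (.cons 343 (.leaf 319 1982 (.cons 344 (.leaf 271 1983 (.leaf 367 2174 .nil)) .nil)) .nil)) (.cons 343 (.leaf 319 1982 (.cons 344 (.leaf 367 2174 (.cons 273 (.leaf 249 1989 (.cons 274 (.leaf 295 2170 (.cons 251 (.leaf 252 1985 (.cons 250 (.leaf 271 1977 (.cons 297 (.leaf 368 2181 (.cons 202 (.leaf 226 1614 (.cons 299 (.leaf 300 2176 (.cons 323 (.leaf 347 2007 (.cons 324 (.leaf 348 2012 (.leaf 298 2368 .nil)) .nil)) .nil)) .nil)) .nil)) .nil)) .nil))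 .nil)) .nil)) .nil)) .nil)) (.cons 247 (.leaf 223 1791 (.cons 273 (.leaf 274 1979 (.cons 344 (.leaf 271 1983 (.leaf 249 1989 .nil)) .nil)) .nil)) (.cons 247 (.leaf 223 1791 (.cons 274 (.leaf 273 1979 (.cons 249 (.leaf 250 1976 (.cons 319 (.leaf 343 1982 (.cons 246 (.cons 269 (.leaf 270 1962 (.cons 221 (.leaf 222 1771 (.cons 245 (.leaf 220 1763 (.leaf 268 1954 .nil)) .nil)) .nil)) (.cons 222 (.leaf 221 1771 (.cons 295 (.leaf 271 1783 (.cons 294 (.leaf 270 1780 (.cons 293 (.leaf 321 2344 (.leaf 292 2336 .nil)) .nil)) .nil)) .nil)) (.cons 221 (.leaf 222 1771 (.cons 245 (.leaf 220 1763 (.cons 244 (.leaf 271 1952 (.cons 268 (.leaf 269 1954 (.leaf 267 1946 .nil)) .nil)) .nil)) .nil)) (.cons 269 (.leaf 270 1962 (.cons 245 (.leaf 268 1954 (.cons 220 (.leaf 221 1763 (.cons 244 (.leaf 271 1952 (.leaf 219 1755 .nil)) .nil)) .nil)) .nil)) (.cons 269 (.leaf 270 1962 (.cons 245 (.leaf 268 1954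 (.cons 244 (.leaf 271 1952 (.cons 220 (.leaf 219 1755 (.cons 317 (.leaf 293 1767 (.cons 297 (.leaf 318 2345 (.cons 298 (.leaf 295 2169 (.leaf 299 2362 .nil)) .nil)) .nil)) .nil)) .nil)) .nil)) .nil)) .nil))))) .nil)) .nil)) .nil)) .nil)) (.cons 247 (.leaf 223 1791 (.cons 273 (.leaf 274 1979 (.cons 245 (.leaf 246 1960 (.cons 319 (.leaf 343 1982 (.cons 344 (.leaf 249 1989 (.cons 297 (.leaf 368 2181 (.cons 298 (.leaf 299 2362 (.cons 318 (.leaf 295 2354 (.leaf 317 2345 .nil)) .nil)) .nil)) .nil)) .nil)) .nil)) .nil)) .nil)) .nil))))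
noncomputable def t18 : T := .cons 224 (.cons 295 (.leaf 319 1790 (.cons 271 (.leaf 200 1598 (.cons 297 (.leaf 321 1796 (.cons 298 (.leaf 274 2169 (.leaf 299 2171 .nil)) .nil)) .nil)) .nil)) (.cons 199 (.leaf 223 1599 (.cons 200 (.leaf 175 1407 (.cons 297 (.leaf 273 1604 (.leaf 321 1796 .nil)) .nil)) .nil)) (.cons 295 (.leaf 319 1790 (.cons 199 (.leaf 223 1599 (.cons 200 (.leaf 175 1407 (.leaf 271 1598 .nil)) .nil)) .nil)) (.cons 199 (.leaf 223 1599 (.cons 295 (.leaf 319 1790 (.cons 274 (.leaf 273 2170 (.cons 297 (.leaf 298 2169 (.leaf 321 1796 .nil)) .nil)) .nil)) .nil)) .nil)))) (.cons 320 t17 (.cons 320 (.cons 343 (.leaf 319 1982 (.cons 344 (.leaf 367 2174 (.cons 247 (.leaf 223 1791 (.leaf 271 1983 .nil)) .nil)) .nil)) (.cons 343 (.leaf 319 1982 (.cons 344 (.leaf 367 2174 (.cons 273 (.leaf 249 1989 (.cons 297 (.leaf 368 2181 (.cons 224 (.leaf 200 1604 (.leaf 321 1796 .nil)) .nil))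 .nil)) .nil)) .nil)) (.cons 247 (.leaf 223 1791 (.cons 273 (.leaf 274 1979 (.cons 344 (.leaf 271 1983 (.leaf 249 1989 .nil)) .nil)) .nil)) (.cons 223 (.leaf 247 1791 (.cons 224 (.leaf 199 1599 (.cons 297 (.leaf 321 1796 (.cons 273 (.leaf 200 1604 (.cons 319 (.leaf 343 1982 (.cons 299 (.leaf 298 2362 (.cons 274 (.leaf 300 2176 (.cons 251 (.leaf 252 1985 (.cons 250 (.leaf 271 1977 (.leaf 249 1787 .nil)) .nil)) .nil)) .nil)) .nil)) .nil)) .nil)) .nil)) .nil)) .nil)))) (.cons 224 t16 (.cons 224 (.cons 223 (.leaf 199 1599 (.cons 297 (.leaf 321 1796 (.cons 319 (.leaf 295 1790 (.cons 320 (.leaf 247 1791 (.leaf 343 1982 .nil)) .nil)) .nil)) .nil)) (.cons 297 (.leaf 321 1796 (.cons 200 (.leaf 273 1604 (.cons 175 (.leaf 199 1407 (.cons 176 (.leaf 151 1215 (.cons 177 (.leaf 201 1413 (.leaf 153 1221 .nil)) .nil)) .nil)) .nil)) .nil)) (.cons 223 (.leaf 199 1599 (.cons 247 (.leaf 320 1791 (.cons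 295 (.leaf 319 1790 (.cons 200 (.leaf 271 1597 (.cons 176 (.leaf 152 1214 (.cons 177 (.leaf 201 1413 (.leaf 153 1221 .nil)) .nil)) .nil)) .nil)) .nil)) .nil)) (.cons 295 (.leaf 319 1790 (.cons 271 (.leaf 200 1598 (.cons 297 (.leaf 321 1796 (.cons 298 (.leaf 299 2171 (.leaf 270 2163 .nil)) .nil)) .nil)) .nil)) .nil)))) (.cons 224 (.cons 199 (.leaf 223 1599 (.cons 200 (.leaf 175 1407 (.cons 297 (.leaf 273 1604 (.leaf 321 1796 .nil)) .nil)) .nil)) (.cons 295 (.leaf 319 1790 (.cons 273 (.leaf 274 2170 (.cons 200 (.leaf 297 1604 (.cons 176 (.leaf 249 1412 (.cons 151 (.leaf 175 1215 (.cons 177 (.leaf 201 1413 (.leaf 153 1221 .nil)) .nil)) .nil)) .nil)) .nil)) .nil)) (.cons 199 (.leaf 223 1599 (.cons 200 (.leaf 175 1407 (.cons 177 (.leaf 201 1413 (.cons 176 (.leaf 153 1221 (.cons 178 (.leaf 179 1402 (.cons 197 (.leaf 198 1385 (.cons 273 (.leaf 249 1412 (.cons 295 (.leaf 274 2170 (.leaf 319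 1790 .nil)) .nil)) .nil)) .nil)) .nil)) .nil)) .nil)) .nil)) (.cons 223 (.leaf 199 1599 (.cons 297 (.leaf 321 1796 (.cons 319 (.leaf 295 1790 (.cons 320 (.leaf 247 1791 (.leaf 343 1982 .nil)) .nil)) .nil)) .nil)) .nil)))) (.cons 224 t15 (.cons 224 t14 (.cons 224 t13 .nil))))))))
noncomputable def t19 : T := .cons 269 (.leaf 270 2155 (.cons 321 (.leaf 322 2352 (.cons 345 (.leaf 369 2183 (.cons 344 (.leaf 368 2182 (.cons 320 (.leaf 249 1989 (.cons 318 (.leaf 317 2346 (.cons 319 (.leaf 298 2353 (.leaf 346 2544 .nil)) .nil)) .nil)) .nil)) .nil)) .nil)) .nil)) (.cons 321 (.leaf 322 2352 (.cons 317 (.leaf 318 2346 (.cons 345 (.leaf 369 2183 (.cons 344 (.leaf 368 2182 (.cons 320 (.leaf 249 1989 (.cons 247 (.leaf 271 1983 (.cons 346 (.leaf 370 2188 (.cons 347 (.leaf 348 2563 (.leaf 319 2555 .nil)) .nil)) .nil)) .nil)) .nil)) .nil)) .nil)) .nil)) (.cons 269 (.leaf 270 2155 (.cons 318 (.leaf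 317 2346 (.cons 298 (.leaf 319 2354 (.cons 299 (.leaf 271 2171 (.leaf 300 2179 .nil)) .nil)) .nil)) .nil)) (.cons 269 (.leaf 270 2155 (.cons 321 (.leaf 322 2352 (.cons 345 (.leaf 369 2183 (.cons 344 (.leaf 368 2182 (.cons 320 (.leaf 249 1989 (.cons 247 (.leaf 271 1983 (.cons 346 (.leaf 370 2188 (.cons 347 (.leaf 348 2563 (.leaf 319 2555 .nil)) .nil)) .nil)) .nil)) .nil)) .nil)) .nil)) .nil)) (.cons 270 (.leaf 269 2155 (.cons 271 (.leaf 298 2160 (.cons 245 (.leaf 246 1963 (.cons 318 (.leaf 317 2346 (.cons 247 (.leaf 223 1782 (.leaf 342 1973 .nil)) .nil)) .nil)) .nil)) .nil)) .nil))))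
noncomputable def t20 : T := .cons 320 (.leaf 323 2363 (.cons 248 (.leaf 345 1988 (.cons 319 (.leaf 224 1790 (.leaf 299 2361 .nil)) .nil)) .nil)) (.cons 345 (.leaf 250 1998 (.cons 248 (.leaf 320 1988 (.cons 224 (.leaf 319 1790 (.cons 199 (.leaf 223 1599 (.cons 200 (.leaf 175 1407 (.leaf 271 1598 .nil)) .nil)) .nil)) .nil)) .nil)) (.cons 250 (.leaf 345 1998 (.cons 248 (.cons 224 (.leaf 319 1790 (.cons 223 (.leaf 199 1599 (.leaf 249 1787 .nil)) .nil)) (.cons 224 (.leaf 319 1790 (.cons 323 (.leaf 347 2004 (.cons 226 (.leaf 299 1812 (.cons 178 (.leaf 202 1428 (.cons 199 (.leaf 223 1599 (.cons 200 (.leaf 175 1407 (.leaf 271 1598 .nil)) .nil)) .nil)) .nil)) .nil)) .nil)) (.cons 249 (.leaf 247 1976 (.leaf 271 1978 .nil)) .nil))) .nil)) (.cons 320 (.leaf 323 2363 (.cons 319 (.leaf 299 2361 (.cons 248 (.leaf 224 1790 (.cons 247 (.leaf 223 1791 (.cons 271 (.leaf 344 1980 (.cons 249 (.leaf 250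 1976 (.cons 246 (.leaf 222 1783 (.cons 269 (.leaf 270 1961 (.cons 245 (.leaf 244 1952 (.leaf 268 1954 .nil)) .nil)) .nil)) .nil)) .nil)) .nil)) .nil)) .nil)) .nil)) (.cons 250 (.leaf 345 1998 (.cons 323 (.leaf 320 2363 (.leaf 347 2004 .nil)) .nil)) .nil))))
noncomputable def t21 : T := .cons 227 (.leaf 203 1622 (.cons 322 (.leaf 299 1814 (.leaf 346 2005 .nil)) .nil)) (.cons 322 (.leaf 346 2005 (.cons 321 t20 .nil)) (.cons 227 (.leaf 203 1622 (.cons 299 (.cons 228 (.leaf 204 1629 (.cons 300 (.leaf 324 1820 (.cons 301 (.leaf 302 2195 (.cons 277 (.leaf 278 2193 (.cons 325 (.leaf 326 2384 (.cons 253 (.leaf 252 1831 (.cons 226 (.leaf 202 1623 (.cons 254 (.leaf 229 1808 (.leaf 230 1837 .nil)) .nil)) .nil)) .nil)) .nil)) .nil)) .nil)) .nil)) (.cons 228 (.leaf 204 1629 (.cons 252 (.leaf 323 1821 (.cons 253 (.leaf 254 2002 (.cons 300 (.leaf 324 1820 (.cons 301 (.leaf 302 2195 (.cons 277 (.leaf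 278 2193 (.leaf 325 1831 .nil)) .nil)) .nil)) .nil)) .nil)) .nil)) (.cons 226 (.leaf 202 1623 (.cons 323 (.leaf 250 1812 (.cons 324 (.leaf 300 1820 (.leaf 348 2012 .nil)) .nil)) .nil)) (.cons 226 (.leaf 202 1623 (.cons 250 (.leaf 323 1812 (.cons 228 (.leaf 204 1629 (.cons 249 (.leaf 248 1793 (.leaf 229 1802 .nil)) .nil)) .nil)) .nil)) .nil)))) .nil)) (.cons 322 (.leaf 346 2005 (.cons 227 (.leaf 203 1622 (.leaf 250 1813 .nil)) .nil)) .nil)))
noncomputable def t22 : T := .cons 344 (.leaf 249 1989 (.cons 271 (.leaf 247 1983 (.leaf 368 2175 .nil)) .nil)) (.cons 248 (.cons 223 (.leaf 247 1791 (.cons 224 (.leaf 199 1599 (.leaf 319 1790 .nil)) .nil)) (.cons 224 (.leaf 319 1790 (.cons 200 (.leaf 271 1598 (.cons 175 (.leaf 199 1407 (.cons 176 (.leaf 249 1412 (.leaf 151 1215 .nil)) .nil)) .nil)) .nil)) (.cons 223 (.leaf 247 1791 (.cons 321 (.leaf 345 1988 (.cons 322 (.leaf 323 2363 (.leaf 319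 2355 .nil)) .nil)) .nil)) (.cons 223 (.leaf 247 1791 (.cons 224 (.leaf 199 1599 (.cons 200 (.leaf 271 1598 (.cons 176 (.leaf 249 1412 (.cons 177 (.leaf 201 1413 (.leaf 153 1221 .nil)) .nil)) .nil)) .nil)) .nil)) .nil)))) (.cons 344 (.leaf 249 1989 (.cons 345 (.leaf 369 2180 (.cons 248 (.leaf 321 1988 (.cons 223 (.leaf 247 1791 (.cons 224 (.leaf 199 1599 (.leaf 319 1790 .nil)) .nil)) .nil)) .nil)) .nil)) (.cons 344 (.leaf 249 1989 (.cons 271 (.leaf 368 2175 (.cons 345 (.leaf 369 2180 (.cons 248 (.leaf 321 1988 (.cons 224 (.leaf 200 1598 (.leaf 319 1790 .nil)) .nil)) .nil)) .nil)) .nil)) (.cons 247 (.cons 344 (.leaf 271 1983 (.cons 345 (.leaf 369 2180 (.cons 321 (.leaf 248 1988 (.cons 322 (.leaf 323 2363 (.leaf 319 2355 .nil)) .nil)) .nil)) .nil)) (.cons 248 (.leaf 223 1791 (.cons 245 (.leaf 246 1960 (.cons 319 (.leaf 224 1790 (.cons 321 (.leaf 345 1988 (.leaf 322 2355 .nil)) .nil))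 .nil)) .nil)) (.cons 271 (.leaf 344 1983 (.leaf 223 1788 .nil)) .nil))) .nil))))
noncomputable def t23 : T := .cons 297 (.cons 321 (.leaf 322 2352 (.cons 248 (.leaf 224 1796 (.cons 345 (.leaf 273 1991 (.leaf 320 1988 .nil)) .nil)) .nil)) (.cons 269 (.leaf 270 2155 (.cons 318 (.leaf 317 2346 (.cons 298 (.leaf 319 2354 (.cons 299 (.leaf 271 2171 (.cons 323 (.leaf 322 2360 (.leaf 324 2368 .nil)) .nil)) .nil)) .nil)) .nil)) (.cons 269 (.leaf 270 2155 (.cons 318 (.leaf 317 2346 (.cons 298 (.leaf 319 2354 (.cons 299 (.leaf 271 2171 (.cons 300 (.leaf 273 2179 (.cons 324 (.leaf 323 2368 (.leaf 325 2376 .nil)) .nil)) .nil)) .nil)) .nil)) .nil)) .nil))) (.cons 293 (.leaf 273 2153 (.cons 268 (.leaf 269 2147 (.cons 292 (.leaf 271 2145 (.leaf 267 2139 .nil)) .nil)) .nil)) (.cons 293 (.leaf 273 2153 (.cons 268 (.leaf 269 2147 (.cons 292 (.leaf 267 2139 (.cons 316 (.leaf 317 2338 (.leaf 315 2330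 .nil)) .nil)) .nil)) .nil)) (.cons 293 (.cons 268 (.leaf 269 2147 (.cons 292 (.leaf 271 2145 (.leaf 267 2139 .nil)) .nil)) (.cons 268 (.leaf 269 2147 (.cons 317 (.leaf 316 2338 (.cons 297 (.leaf 318 2346 (.cons 322 (.leaf 321 2352 (.cons 298 (.leaf 323 2360 (.cons 271 (.leaf 299 2171 (.leaf 270 2163 .nil)) .nil)) .nil)) .nil)) .nil)) .nil)) (.cons 292 (.leaf 271 2145 (.cons 316 (.leaf 317 2338 (.leaf 315 2330 .nil)) .nil)) (.cons 268 (.leaf 269 2147 (.cons 292 (.leaf 267 2139 (.cons 316 (.leaf 317 2338 (.leaf 315 2330 .nil)) .nil)) .nil)) .nil)))) (.cons 293 (.leaf 273 2153 (.cons 292 (.leaf 271 2145 (.cons 316 (.leaf 317 2338 (.leaf 315 2330 .nil)) .nil)) .nil)) .nil))))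
noncomputable def t24 : T := .cons 273 (.leaf 274 2170 (.cons 294 (.leaf 293 2153 (.cons 297 (.cons 270 (.leaf 269 2155 (.cons 271 (.leaf 298 2160 (.cons 245 (.leaf 246 1963 (.cons 318 (.leaf 317 2346 (.cons 249 (.leaf 250 1969 (.cons 320 (.leaf 344 1989 (.cons 342 (.leaf 366 2165 (.leaf 247 1973 .nil)) .nil)) .nil)) .nil)) .nil)) .nil)) .nil)) (.cons 318 (.leaf 317 2346 (.cons 298 (.leaf 319 2354 (.cons 299 (.leaf 271 2171 (.leaf 300 2179 .nil)) .nil)) .nil)) (.cons 318 (.leaf 317 2346 (.cons 269 (.leaf 270 2155 (.cons 298 (.leaf 319 2354 (.cons 299 (.leaf 300 2179 (.cons 322 (.leaf 321 2352 (.leaf 323 2360 .nil)) .nil)) .nil)) .nil)) .nil)) (.cons 321 (.leaf 322 2352 (.cons 248 (.leaf 224 1796 (.leaf 345 1991 .nil)) .nil)) .nil)))) .nil)) .nil)) (.cons 297 (.cons 294 (.cons 321 (.leaf 322 2352 (.cons 248 (.leaf 224 1796 (.cons 345 (.leaf 320 1988 (.leaf 369 2183 .nil)) .nil)) .nil))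 (.cons 269 (.leaf 270 2155 (.cons 293 (.leaf 268 2147 (.cons 292 (.leaf 271 2145 (.cons 316 (.leaf 317 2338 (.leaf 315 2330 .nil)) .nil)) .nil)) .nil)) .nil)) (.cons 298 (.leaf 274 2169 (.cons 322 (.leaf 323 2360 (.cons 321 (.leaf 294 2352 (.cons 248 (.leaf 224 1796 (.cons 345 (.leaf 320 1988 (.leaf 369 2183 .nil)) .nil)) .nil)) .nil)) .nil)) (.cons 298 (.leaf 274 2169 (.cons 271 (.leaf 299 2171 (.leaf 270 2163 .nil)) .nil)) .nil))) (.cons 294 t23 (.cons 273 (.leaf 274 2170 (.cons 294 (.leaf 293 2153 (.cons 320 t22 .nil)) .nil)) (.cons 273 (.leaf 274 2170 (.cons 294 (.leaf 293 2153 (.cons 297 (.cons 321 (.leaf 322 2352 (.cons 248 (.leaf 224 1796 (.leaf 345 1991 .nil)) .nil)) (.cons 269 (.leaf 270 2155 (.cons 318 (.leaf 317 2346 (.cons 298 (.leaf 319 2354 (.cons 299 (.leaf 300 2179 (.cons 323 (.leaf 322 2360 (.leaf 324 2368 .nil)) .nil)) .nil)) .nil)) .nil)) (.cons 318 (.leaf 317 2346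 (.cons 270 (.leaf 269 2155 (.cons 319 (.leaf 298 2354 (.cons 246 (.leaf 222 1780 (.cons 245 (.leaf 221 1775 (.cons 247 (.leaf 248 1960 (.leaf 223 1781 .nil)) .nil)) .nil)) .nil)) .nil)) .nil)) .nil))) .nil)) .nil)) (.cons 274 (.leaf 273 2170 (.cons 298 (.leaf 297 2169 (.cons 251 t21 .nil)) .nil)) (.cons 273 (.leaf 274 2170 (.cons 294 (.leaf 293 2153 (.cons 297 t19 .nil)) .nil)) (.cons 273 (.leaf 274 2170 (.cons 294 (.leaf 293 2153 (.cons 297 t0 .nil)) .nil)) (.cons 273 (.leaf 274 2170 (.cons 294 (.leaf 293 2153 (.cons 297 (.cons 270 (.leaf 269 2155 (.cons 271 (.leaf 298 2160 (.cons 245 (.leaf 246 1963 (.cons 318 (.leaf 317 2346 (.cons 247 (.leaf 223 1782 (.leaf 342 1973 .nil)) .nil)) .nil)) .nil)) .nil)) (.cons 318 (.leaf 317 2346 (.cons 298 (.leaf 319 2354 (.cons 299 (.leaf 271 2171 (.leaf 300 2179 .nil)) .nil)) .nil)) (.cons 318 (.leaf 317 2346 (.cons 270 (.leaf 269 2155 (.cons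 319 (.leaf 298 2354 (.cons 246 (.leaf 222 1780 (.cons 245 (.leaf 221 1775 (.cons 247 (.leaf 248 1960 (.leaf 223 1781 .nil)) .nil)) .nil)) .nil)) .nil)) .nil)) (.cons 270 (.leaf 269 2155 (.cons 271 (.leaf 298 2160 (.cons 246 (.leaf 245 1963 (.cons 222 (.leaf 198 1588 (.leaf 319 1780 .nil)) .nil)) .nil)) .nil)) (.cons 270 (.leaf 269 2155 (.cons 318 (.leaf 317 2346 (.cons 271 (.cons 247 (.leaf 223 1782 (.leaf 342 1973 .nil)) (.cons 246 (.leaf 245 1963 (.cons 222 (.leaf 198 1588 (.leaf 319 1780 .nil)) .nil)) .nil)) .nil)) .nil)) .nil))))) .nil)) .nil)) .nil))))))))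
noncomputable def t25 : T := .cons 223 (.leaf 247 1791 (.cons 343 (.leaf 319 1982 (.cons 344 (.leaf 367 2174 (.cons 224 (.leaf 199 1599 (.cons 273 (.leaf 249 1989 (.cons 368 (.leaf 297 2181 (.cons 369 (.leaf 345 2180 (.leaf 393 2372 .nil)) .nil)) .nil)) .nil)) .nil)) .nil)) .nil)) (.cons 223 (.leaf 247 1791 (.cons 224 (.leaf 199 1599 (.cons 321 (.leaf 297 1796 (.leaf 345 1988 .nil)) .nil)) .nil)) (.cons 223 (.leaf 247 1791 (.cons 224 (.leaf 199 1599 (.cons 297 (.leaf 321 1796 (.cons 273 (.leaf 200 1604 (.cons 344 (.leaf 249 1989 (.leaf 368 2181 .nil)) .nil)) .nil)) .nil)) .nil)) (.cons 321 (.leaf 345 1988 (.cons 297 (.leaf 224 1796 (.cons 343 (.leaf 319 1982 (.cons 344 (.leaf 367 2174 (.cons 273 (.leaf 249 1989 (.leaf 368 2181 .nil)) .nil)) .nil)) .nil)) .nil)) (.cons 247 (.leaf 223 1791 (.cons 273 (.leaf 274 1979 (.cons 245 (.leaf 246 1960 (.cons 319 (.leaf 343 1982 (.cons 321 (.leaf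 345 1988 (.cons 344 (.leaf 249 1989 (.cons 297 (.leaf 368 2181 (.cons 318 (.leaf 317 2345 (.cons 294 (.leaf 293 2347 (.cons 322 (.leaf 295 2352 (.cons 323 (.leaf 324 2371 (.cons 347 (.leaf 346 2552 (.leaf 348 2560 .nil)) .nil)) .nil)) .nil)) .nil)) .nil)) .nil)) .nil)) .nil)) .nil)) .nil)) .nil)) (.cons 247 (.leaf 223 1791 (.cons 273 (.leaf 274 1979 (.cons 245 (.leaf 246 1960 (.cons 249 (.leaf 344 1989 (.cons 319 (.leaf 343 1982 (.cons 295 (.leaf 224 1790 (.cons 294 (.leaf 293 2153 (.cons 321 (.leaf 345 1988 (.leaf 322 2355 .nil)) .nil)) .nil)) .nil)) .nil)) .nil)) .nil)) .nil)) .nil)))))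
noncomputable def t26 : T := .cons 223 (.leaf 199 1599 (.cons 320 (.leaf 247 1791 (.cons 297 (.leaf 321 1796 (.cons 273 (.leaf 200 1604 (.cons 344 (.leaf 249 1989 (.leaf 368 2181 .nil)) .nil)) .nil)) .nil)) .nil)) (.cons 297 (.leaf 321 1796 (.cons 200 (.leaf 273 1604 (.cons 271 (.leaf 295 1598 (.cons 176 (.leaf 247 1406 (.cons 177 (.leaf 201 1413 (.leaf 153 1221 .nil)) .nil)) .nil)) .nil)) .nil)) (.cons 223 (.leaf 199 1599 (.cons 320 (.leaf 247 1791 (.cons 345 (.leaf 321 1988 (.cons 344 (.leaf 369 2180 (.cons 273 (.leaf 249 1989 (.cons 274 (.leaf 295 2170 (.cons 251 (.leaf 252 1985 (.cons 250 (.leaf 271 1977 (.cons 299 (.leaf 300 2176 (.cons 226 (.leaf 202 1620 (.leaf 323 1815 .nil)) .nil)) .nil)) .nil)) .nil)) .nil)) .nil)) .nil)) .nil)) .nil)) (.cons 223 (.leaf 199 1599 (.cons 247 (.leaf 320 1791 (.cons 273 (.leaf 274 1979 (.cons 200 (.leaf 297 1604 (.cons 176 (.leaf 271 1406 (.leaf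 249 1412 .nil)) .nil)) .nil)) .nil)) .nil)) (.cons 223 (.leaf 199 1599 (.cons 320 (.leaf 247 1791 (.cons 321 (.leaf 297 1796 (.leaf 345 1988 .nil)) .nil)) .nil)) (.cons 297 (.leaf 321 1796 (.cons 200 (.leaf 273 1604 (.cons 199 (.leaf 175 1407 (.leaf 223 1599 .nil)) .nil)) .nil)) .nil)))))
noncomputable def t27 : T := .cons 321 (.leaf 345 1988 (.cons 297 (.leaf 224 1796 (.cons 343 (.leaf 319 1982 (.cons 344 (.leaf 367 2174 (.cons 273 (.leaf 249 1989 (.leaf 368 2181 .nil)) .nil)) .nil)) .nil)) .nil)) (.cons 319 (.leaf 343 1982 (.cons 295 (.leaf 224 1790 (.cons 273 (.leaf 274 2170 (.cons 293 (.leaf 294 2153 (.cons 344 (.leaf 249 1989 (.cons 368 (.leaf 271 2175 (.leaf 297 2181 .nil)) .nil)) .nil)) .nil)) .nil)) .nil)) (.cons 345 (.leaf 321 1988 (.cons 344 (.leaf 369 2180 (.cons 273 (.leaf 249 1989 (.cons 367 (.leaf 343 2174 (.cons 368 (.leaf 297 2181 (.leaf 391 2366 .nil)) .nil)) .nil))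 .nil)) .nil)) (.cons 321 (.leaf 345 1988 (.cons 224 (.leaf 297 1796 (.cons 295 (.leaf 319 1790 (.cons 200 (.leaf 271 1598 (.cons 175 (.leaf 199 1407 (.cons 176 (.leaf 151 1215 (.cons 177 (.leaf 201 1413 (.leaf 153 1221 .nil)) .nil)) .nil)) .nil)) .nil)) .nil)) .nil)) (.cons 319 (.leaf 343 1982 (.cons 224 (.leaf 295 1790 (.cons 345 (.leaf 321 1988 (.cons 344 (.leaf 369 2180 (.cons 247 (.leaf 271 1983 (.cons 273 (.leaf 274 1979 (.leaf 249 1989 .nil)) .nil)) .nil)) .nil)) .nil)) .nil)) .nil))))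
noncomputable def t28 : T := .cons 223 (.leaf 247 1791 (.cons 343 (.leaf 319 1982 (.cons 344 (.leaf 367 2174 (.cons 224 (.leaf 199 1599 (.cons 273 (.leaf 249 1989 (.cons 368 (.leaf 297 2181 (.cons 369 (.leaf 345 2180 (.leaf 393 2372 .nil)) .nil)) .nil)) .nil)) .nil)) .nil)) .nil)) (.cons 321 (.leaf 345 1988 (.cons 297 (.leaf 224 1796 (.cons 343 (.leaf 319 1982 (.cons 344 (.leaf 367 2174 (.cons 273 (.leaf 249 1989 (.leaf 368 2181 .nil)) .nil)) .nil)) .nil)) .nil)) (.cons 247 (.leaf 223 1791 (.cons 273 (.leaf 274 1979 (.cons 344 (.leaf 271 1983 (.leaf 249 1989 .nil)) .nil)) .nil)) (.cons 247 (.leaf 223 1791 (.cons 273 (.leaf 274 1979 (.cons 245 (.leaf 246 1960 (.cons 319 (.leaf 343 1982 (.cons 321 (.leaf 345 1988 (.cons 297 (.leaf 224 1796 (.cons 318 (.leaf 317 2345 (.cons 294 (.leaf 293 2347 (.cons 342 (.leaf 341 2538 (.cons 270 (.leaf 271 1973 (.leaf 269 1967 .nil)) .nil)) .nil))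 .nil)) .nil)) .nil)) .nil)) .nil)) .nil)) .nil)) (.cons 247 (.leaf 223 1791 (.cons 271 (.leaf 344 1983 (.cons 319 (.leaf 343 1982 (.cons 321 (.leaf 345 1988 (.cons 297 (.leaf 224 1796 (.cons 270 (.leaf 269 2152 (.cons 249 (.leaf 250 1970 (.cons 318 (.leaf 317 2345 (.cons 294 (.leaf 293 2347 (.leaf 342 1973 .nil)) .nil)) .nil)) .nil)) .nil)) .nil)) .nil)) .nil)) .nil)) .nil))))
noncomputable def t29 : T := .cons 247 (.leaf 223 1791 (.cons 273 (.leaf 274 1979 (.cons 344 (.leaf 271 1983 (.leaf 249 1989 .nil)) .nil)) .nil)) (.cons 343 (.leaf 319 1982 (.cons 344 (.leaf 367 2174 (.cons 273 (.leaf 249 1989 (.cons 274 (.leaf 295 2170 (.cons 251 (.leaf 252 1985 (.cons 250 (.leaf 271 1977 (.cons 299 (.leaf 300 2176 (.cons 226 (.leaf 202 1620 (.leaf 323 1815 .nil)) .nil)) .nil)) .nil)) .nil)) .nil)) .nil)) .nil)) (.cons 247 (.leaf 223 1791 (.cons 273 (.leaf 274 1979 (.cons 321 (.leaf 345 1988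 (.cons 319 (.leaf 343 1982 (.cons 246 (.leaf 245 1960 (.cons 294 (.cons 293 (.leaf 295 2344 (.leaf 318 2347 .nil)) (.cons 293 (.leaf 318 2347 (.cons 270 (.leaf 271 2154 (.cons 222 (.leaf 317 1774 (.cons 198 (.leaf 269 1582 (.cons 221 (.leaf 249 1771 (.leaf 197 1583 .nil)) .nil)) .nil)) .nil)) .nil)) (.cons 295 (.leaf 322 2355 (.cons 222 (.leaf 271 1783 (.leaf 270 1780 .nil)) .nil)) .nil))) .nil)) .nil)) .nil)) .nil)) .nil)) (.cons 247 (.leaf 223 1791 (.cons 319 (.leaf 343 1982 (.cons 344 (.leaf 271 1983 (.cons 369 (.leaf 345 2180 (.cons 368 (.leaf 393 2372 (.cons 391 (.leaf 367 2366 (.cons 392 (.leaf 295 2367 (.leaf 415 2558 .nil)) .nil)) .nil)) .nil)) .nil)) .nil)) .nil)) (.cons 247 (.leaf 223 1791 (.cons 273 (.leaf 274 1979 (.cons 245 (.leaf 246 1960 (.cons 319 (.leaf 343 1982 (.cons 321 (.leaf 345 1988 (.cons 344 (.leaf 249 1989 (.cons 297 (.leaf 368 2181 (.cons 318 (.leaf 317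 2345 (.cons 294 (.leaf 293 2347 (.cons 322 (.leaf 295 2352 (.cons 323 (.leaf 324 2371 (.cons 347 (.leaf 346 2552 (.leaf 348 2560 .nil)) .nil)) .nil)) .nil)) .nil)) .nil)) .nil)) .nil)) .nil)) .nil)) .nil)) .nil)) .nil))))
noncomputable def t30 : T := .cons 223 (.leaf 199 1599 (.cons 295 (.leaf 319 1790 (.cons 273 (.leaf 274 2170 (.cons 200 (.leaf 271 1598 (.leaf 297 1604 .nil)) .nil)) .nil)) .nil)) (.cons 297 (.leaf 321 1796 (.cons 200 (.leaf 273 1604 (.cons 177 (.leaf 201 1413 (.cons 176 (.leaf 153 1221 (.cons 151 (.leaf 175 1215 (.cons 152 (.leaf 127 1023 (.cons 247 (.leaf 271 1406 (.leaf 223 1214 .nil)) .nil)) .nil)) .nil)) .nil)) .nil)) .nil)) (.cons 295 (.leaf 319 1790 (.cons 200 (.leaf 271 1598 (.cons 175 (.leaf 199 1407 (.cons 176 (.leaf 151 1215 (.cons 177 (.leaf 201 1413 (.leaf 153 1221 .nil)) .nil)) .nil)) .nil)) .nil)) (.cons 223 (.leaf 199 1599 (.cons 295 (.leaf 319 1790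 (.cons 273 (.leaf 274 2170 (.cons 294 (.leaf 293 2153 (.cons 297 (.leaf 321 1796 (.cons 270 (.leaf 269 2155 (.cons 318 (.leaf 317 2346 (.cons 247 (.leaf 246 1781 (.leaf 271 1782 .nil)) .nil)) .nil)) .nil)) .nil)) .nil)) .nil)) .nil)) (.cons 223 (.leaf 199 1599 (.cons 295 (.leaf 319 1790 (.cons 273 (.leaf 274 2170 (.cons 294 (.leaf 293 2153 (.cons 297 (.leaf 200 1604 (.leaf 321 1796 .nil)) .nil)) .nil)) .nil)) .nil)) .nil))))
noncomputable def t31 : T := .cons 224 (.cons 297 (.leaf 321 1796 (.cons 200 (.leaf 273 1604 (.cons 177 (.leaf 201 1413 (.cons 176 (.leaf 153 1221 (.cons 271 (.leaf 295 1598 (.leaf 247 1406 .nil)) .nil)) .nil)) .nil)) .nil)) (.cons 297 (.leaf 321 1796 (.cons 200 (.leaf 273 1604 (.cons 177 (.leaf 201 1413 (.cons 176 (.leaf 153 1221 (.cons 151 (.leaf 175 1215 (.cons 152 (.leaf 127 1023 (.cons 247 (.leaf 271 1406 (.leaf 223 1214 .nil)) .nil)) .nil)) .nil)) .nil))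 .nil)) .nil)) (.cons 199 (.leaf 223 1599 (.cons 200 (.leaf 175 1407 (.cons 177 (.leaf 201 1413 (.cons 176 (.leaf 153 1221 (.cons 178 (.leaf 179 1402 (.cons 197 (.leaf 198 1385 (.cons 273 (.leaf 249 1412 (.cons 295 (.leaf 274 2170 (.leaf 271 1598 .nil)) .nil)) .nil)) .nil)) .nil)) .nil)) .nil)) .nil)) (.cons 223 (.leaf 199 1599 (.cons 320 (.leaf 247 1791 (.cons 343 (.leaf 319 1982 (.cons 321 (.leaf 297 1796 (.leaf 345 1988 .nil)) .nil)) .nil)) .nil)) .nil)))) (.cons 224 t30 (.cons 320 t29 (.cons 320 (.cons 223 (.leaf 247 1791 (.cons 224 (.leaf 199 1599 (.cons 319 (.leaf 295 1790 (.leaf 343 1982 .nil)) .nil)) .nil)) (.cons 223 (.leaf 247 1791 (.cons 224 (.leaf 199 1599 (.cons 321 (.leaf 297 1796 (.leaf 345 1988 .nil)) .nil)) .nil)) (.cons 319 (.leaf 343 1982 (.cons 224 (.leaf 295 1790 (.cons 321 (.leaf 297 1796 (.leaf 345 1988 .nil)) .nil)) .nil)) (.cons 247 (.leaf 223 1791 (.cons 319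 (.leaf 343 1982 (.cons 344 (.leaf 271 1983 (.cons 369 (.leaf 345 2180 (.cons 368 (.leaf 393 2372 (.cons 391 (.leaf 367 2366 (.cons 392 (.leaf 295 2367 (.leaf 415 2558 .nil)) .nil)) .nil)) .nil)) .nil)) .nil)) .nil)) .nil)))) (.cons 224 (.cons 295 (.leaf 319 1790 (.cons 200 (.leaf 271 1598 (.cons 297 (.leaf 273 1604 (.leaf 321 1796 .nil)) .nil)) .nil)) (.cons 199 (.leaf 223 1599 (.cons 200 (.leaf 175 1407 (.cons 177 (.leaf 201 1413 (.cons 176 (.leaf 153 1221 (.cons 273 (.leaf 297 1604 (.leaf 249 1412 .nil)) .nil)) .nil)) .nil)) .nil)) (.cons 295 (.leaf 319 1790 (.cons 200 (.leaf 271 1598 (.cons 175 (.leaf 199 1407 (.cons 176 (.leaf 151 1215 (.cons 177 (.leaf 201 1413 (.leaf 153 1221 .nil)) .nil)) .nil)) .nil)) .nil)) (.cons 199 (.leaf 223 1599 (.cons 295 (.leaf 319 1790 (.cons 273 (.leaf 274 2170 (.cons 293 (.leaf 294 2153 (.cons 321 (.leaf 297 1796 (.cons 320 (.leaf 345 1988 (.cons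 322 (.leaf 323 2363 (.cons 344 (.leaf 249 1989 (.cons 367 (.leaf 343 2174 (.cons 368 (.leaf 271 2175 (.leaf 391 2366 .nil)) .nil)) .nil)) .nil)) .nil)) .nil)) .nil)) .nil)) .nil)) .nil)) .nil)))) (.cons 320 t28 (.cons 320 t27 (.cons 224 (.cons 199 (.leaf 223 1599 (.cons 200 (.leaf 175 1407 (.cons 177 (.leaf 201 1413 (.cons 153 (.leaf 176 1221 (.cons 273 (.leaf 297 1604 (.cons 274 (.leaf 247 1979 (.leaf 295 2170 .nil)) .nil)) .nil)) .nil)) .nil)) .nil)) (.cons 199 (.leaf 223 1599 (.cons 200 (.leaf 175 1407 (.cons 177 (.leaf 201 1413 (.cons 176 (.leaf 153 1221 (.cons 178 (.leaf 179 1402 (.cons 197 (.leaf 198 1385 (.cons 247 (.leaf 271 1406 (.cons 273 (.leaf 274 1979 (.leaf 297 1604 .nil)) .nil)) .nil)) .nil)) .nil)) .nil)) .nil)) .nil)) (.cons 295 (.leaf 319 1790 (.cons 200 (.leaf 271 1598 (.cons 175 (.leaf 199 1407 (.cons 176 (.leaf 151 1215 (.cons 177 (.leaf 201 1413 (.leaf 153 1221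 .nil)) .nil)) .nil)) .nil)) .nil)) (.cons 295 (.leaf 319 1790 (.cons 200 (.leaf 271 1598 (.cons 177 (.leaf 201 1413 (.cons 176 (.leaf 153 1221 (.cons 273 (.leaf 274 2170 (.leaf 297 1604 .nil)) .nil)) .nil)) .nil)) .nil)) (.cons 223 (.leaf 199 1599 (.cons 319 (.leaf 295 1790 (.cons 320 (.leaf 247 1791 (.leaf 343 1982 .nil)) .nil)) .nil)) .nil))))) (.cons 224 t26 (.cons 320 t25 (.cons 320 (.cons 223 (.leaf 247 1791 (.cons 199 (.leaf 224 1599 (.cons 343 (.leaf 319 1982 (.cons 344 (.leaf 367 2174 (.cons 273 (.leaf 249 1989 (.cons 274 (.leaf 295 2170 (.cons 251 (.leaf 252 1985 (.cons 250 (.leaf 271 1977 (.cons 345 (.leaf 321 1988 (.leaf 369 2180 .nil)) .nil)) .nil)) .nil)) .nil)) .nil)) .nil)) .nil)) .nil)) (.cons 319 (.leaf 343 1982 (.cons 295 (.leaf 224 1790 (.cons 321 (.leaf 345 1988 (.cons 294 (.leaf 293 2344 (.leaf 322 2355 .nil)) .nil)) .nil)) .nil)) (.cons 247 (.leaf 223 1791 (.cons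 273 (.leaf 274 1979 (.cons 344 (.leaf 271 1983 (.leaf 249 1989 .nil)) .nil)) .nil)) .nil))) .nil))))))))))
noncomputable def t32 : T := .cons 224 (.cons 295 (.leaf 274 2170 (.leaf 319 1790 .nil)) (.cons 295 (.leaf 319 1790 (.cons 200 (.leaf 271 1598 (.leaf 297 1604 .nil)) .nil)) (.cons 200 (.leaf 297 1604 (.cons 177 (.leaf 201 1413 (.cons 153 (.leaf 176 1221 (.cons 274 (.leaf 247 1979 (.cons 251 (.leaf 252 1985 (.cons 250 (.leaf 271 1977 (.cons 299 (.leaf 300 2176 (.cons 226 (.leaf 202 1620 (.leaf 323 1815 .nil)) .nil)) .nil)) .nil)) .nil)) .nil)) .nil)) .nil)) .nil))) (.cons 224 (.cons 295 (.leaf 319 1790 (.cons 200 (.leaf 271 1598 (.leaf 297 1604 .nil)) .nil)) (.cons 319 (.leaf 295 1790 (.cons 320 (.leaf 343 1982 (.cons 344 (.leaf 249 1989 (.cons 247 (.leaf 271 1983 (.cons 245 (.leaf 246 1960 (.cons 368 (.leaf 297 2181 (.cons 369 (.leaf 345 2180 (.leaf 393 2372 .nil)) .nil)) .nil))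 .nil)) .nil)) .nil)) .nil)) (.cons 200 (.leaf 297 1604 (.cons 176 (.leaf 249 1412 (.cons 151 (.leaf 175 1215 (.cons 177 (.leaf 201 1413 (.leaf 153 1221 .nil)) .nil)) .nil)) .nil)) (.cons 295 (.leaf 319 1790 (.cons 200 (.leaf 271 1598 (.cons 176 (.leaf 249 1412 (.cons 151 (.leaf 175 1215 (.cons 177 (.leaf 201 1413 (.leaf 153 1221 .nil)) .nil)) .nil)) .nil)) .nil)) .nil)))) (.cons 274 (.leaf 247 1979 (.cons 251 (.leaf 252 1985 (.cons 250 (.leaf 271 1977 (.cons 299 (.leaf 300 2176 (.cons 226 (.leaf 202 1620 (.leaf 323 1815 .nil)) .nil)) .nil)) .nil)) .nil)) (.cons 295 (.leaf 274 2170 (.cons 224 (.leaf 319 1790 (.cons 200 (.leaf 271 1598 (.leaf 297 1604 .nil)) .nil)) .nil)) (.cons 274 (.leaf 247 1979 (.leaf 295 2170 .nil)) .nil))))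
noncomputable def t33 : T := .cons 199 (.leaf 223 1599 (.cons 200 (.leaf 175 1407 (.cons 177 (.leaf 201 1413 (.cons 153 (.leaf 176 1221 (.cons 273 (.leaf 297 1604 (.cons 274 (.leaf 247 1979 (.leaf 295 2170 .nil)) .nil)) .nil)) .nil)) .nil)) .nil)) (.cons 199 (.leaf 223 1599 (.cons 200 (.leaf 175 1407 (.cons 177 (.leaf 201 1413 (.cons 176 (.leaf 153 1221 (.cons 178 (.leaf 179 1402 (.cons 197 (.leaf 198 1385 (.cons 247 (.leaf 271 1406 (.cons 273 (.leaf 274 1979 (.leaf 297 1604 .nil)) .nil)) .nil)) .nil)) .nil)) .nil)) .nil)) .nil)) (.cons 295 (.leaf 319 1790 (.cons 273 (.leaf 274 2170 (.cons 200 (.leaf 271 1598 (.leaf 297 1604 .nil)) .nil)) .nil)) (.cons 295 (.leaf 319 1790 (.cons 274 (.leaf 273 2170 (.cons 297 (.leaf 298 2169 (.cons 223 (.leaf 199 1599 (.cons 294 (.cons 269 (.leaf 270 2155 (.cons 293 (.leaf 268 2147 (.cons 317 (.leaf 316 2338 (.leaf 318 2346 .nil)) .nil)) .nil)) (.cons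 318 (.leaf 317 2346 (.cons 247 (.leaf 271 1782 (.cons 246 (.leaf 270 1781 (.cons 245 (.leaf 244 1761 (.cons 221 (.leaf 220 1763 (.cons 249 (.leaf 250 1976 (.leaf 222 1768 .nil)) .nil)) .nil)) .nil)) .nil)) .nil)) (.cons 317 (.leaf 318 2346 (.cons 293 (.leaf 316 2338 (.cons 268 (.leaf 269 2147 (.cons 292 (.leaf 271 2145 (.leaf 267 2139 .nil)) .nil)) .nil)) .nil)) (.cons 269 (.leaf 270 2155 (.cons 293 (.leaf 268 2147 (.cons 292 (.leaf 271 2145 (.cons 316 (.leaf 317 2338 (.leaf 315 2330 .nil)) .nil)) .nil)) .nil)) (.cons 269 (.leaf 270 2155 (.cons 293 (.leaf 268 2147 (.cons 271 (.leaf 292 2145 (.cons 247 (.leaf 318 1782 (.cons 222 (.leaf 198 1591 (.cons 249 (.leaf 250 1976 (.leaf 221 1768 .nil)) .nil)) .nil)) .nil)) .nil)) .nil)) .nil))))) .nil)) .nil)) .nil)) .nil)) (.cons 295 (.leaf 319 1790 (.cons 200 (.leaf 271 1598 (.cons 175 (.leaf 199 1407 (.cons 176 (.leaf 151 1215 (.cons 177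 (.leaf 201 1413 (.leaf 153 1221 .nil)) .nil)) .nil)) .nil)) .nil)) .nil))))
noncomputable def t34 : T := .leaf 223 1791 (.cons 274 (.leaf 273 1979 (.cons 249 (.leaf 250 1976 (.cons 319 (.leaf 343 1982 (.cons 246 (.cons 269 (.leaf 270 1962 (.cons 221 (.leaf 222 1771 (.cons 245 (.leaf 220 1763 (.leaf 268 1954 .nil)) .nil)) .nil)) (.cons 222 (.leaf 221 1771 (.cons 295 (.leaf 271 1783 (.cons 294 (.leaf 270 1780 (.cons 293 (.leaf 292 2336 (.cons 297 (.leaf 298 2169 (.cons 317 (.leaf 316 2338 (.leaf 318 2345 .nil)) .nil)) .nil)) .nil)) .nil)) .nil)) (.cons 221 (.leaf 222 1771 (.cons 245 (.leaf 220 1763 (.cons 244 (.leaf 271 1952 (.cons 268 (.leaf 269 1954 (.leaf 267 1946 .nil)) .nil)) .nil)) .nil)) (.cons 269 (.leaf 270 1962 (.cons 245 (.leaf 268 1954 (.cons 220 (.leaf 221 1763 (.cons 244 (.leaf 271 1952 (.leaf 219 1755 .nil)) .nil)) .nil)) .nil)) (.cons 269 (.leaf 270 1962 (.cons 245 (.leaf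 268 1954 (.cons 244 (.leaf 271 1952 (.cons 220 (.leaf 219 1755 (.cons 317 (.leaf 293 1767 (.cons 297 (.leaf 318 2345 (.cons 298 (.leaf 295 2169 (.leaf 299 2362 .nil)) .nil)) .nil)) .nil)) .nil)) .nil)) .nil)) .nil))))) .nil)) .nil)) .nil)) .nil)
noncomputable def t35 : T := .cons 247 (.leaf 223 1791 (.cons 274 (.leaf 273 1979 (.cons 249 (.leaf 250 1976 (.cons 343 (.leaf 319 1982 (.cons 344 (.leaf 271 1983 (.leaf 367 2174 .nil)) .nil)) .nil)) .nil)) .nil)) (.cons 343 (.leaf 319 1982 (.cons 344 (.leaf 367 2174 (.cons 273 (.leaf 249 1989 (.cons 274 (.leaf 295 2170 (.cons 251 (.leaf 252 1985 (.cons 250 (.leaf 271 1977 (.cons 297 (.leaf 368 2181 (.cons 202 (.leaf 226 1614 (.cons 299 (.leaf 300 2176 (.cons 323 (.leaf 347 2007 (.cons 324 (.leaf 348 2012 (.leaf 298 2368 .nil)) .nil)) .nil)) .nil)) .nil)) .nil)) .nil)) .nil)) .nil)) .nil)) .nil)) (.cons 247 (.leaf 223 1791 (.cons 273 (.leaf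 274 1979 (.cons 344 (.leaf 271 1983 (.leaf 249 1989 .nil)) .nil)) .nil)) (.cons 247 t34 (.cons 247 (.leaf 223 1791 (.cons 319 (.leaf 343 1982 (.cons 344 (.leaf 271 1983 (.cons 369 (.leaf 345 2180 (.cons 368 (.leaf 393 2372 (.cons 391 (.leaf 367 2366 (.cons 392 (.leaf 295 2367 (.leaf 415 2558 .nil)) .nil)) .nil)) .nil)) .nil)) .nil)) .nil)) (.cons 343 (.leaf 319 1982 (.cons 344 (.leaf 367 2174 (.cons 273 (.leaf 249 1989 (.cons 368 (.leaf 297 2181 (.cons 369 (.leaf 345 2180 (.leaf 393 2372 .nil)) .nil)) .nil)) .nil)) .nil)) .nil)))))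
noncomputable def t36 : T := .cons 223 (.leaf 199 1599 (.cons 319 (.leaf 295 1790 (.cons 320 (.leaf 247 1791 (.leaf 343 1982 .nil)) .nil)) .nil)) (.cons 295 (.leaf 319 1790 (.cons 200 (.leaf 271 1598 (.cons 175 (.leaf 199 1407 (.cons 176 (.leaf 151 1215 (.cons 177 (.leaf 201 1413 (.leaf 153 1221 .nil)) .nil)) .nil)) .nil)) .nil)) (.cons 200 (.cons 199 (.leaf 175 1407 (.leaf 223 1599 .nil)) (.cons 177 (.leaf 201 1413 (.cons 176 (.leaf 153 1221 (.cons 151 (.leaf 175 1215 (.cons 152 (.leaf 127 1023 (.cons 247 (.leaf 271 1406 (.leaf 223 1214 .nil)) .nil)) .nil)) .nil)) .nil)) (.cons 175 (.leaf 199 1407 (.cons 176 (.leaf 151 1215 (.cons 177 (.leaf 201 1413 (.leaf 153 1221 .nil)) .nil)) .nil)) (.cons 177 (.leaf 201 1413 (.cons 176 (.leaf 153 1221 (.cons 223 (.leaf 199 1599 (.cons 247 (.leaf 320 1791 (.leaf 271 1406 .nil)) .nil)) .nil)) .nil)) .nil)))) (.cons 320 (.cons 247 (.leaf 223 1791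 (.cons 271 (.leaf 344 1983 (.cons 200 (.leaf 295 1598 (.leaf 176 1406 .nil)) .nil)) .nil)) (.cons 247 (.leaf 223 1791 (.cons 343 (.leaf 319 1982 (.cons 344 (.leaf 271 1983 (.leaf 367 2174 .nil)) .nil)) .nil)) (.cons 319 (.leaf 295 1790 (.leaf 343 1982 .nil)) .nil))) .nil)))
noncomputable def t37 : T := .cons 200 (.cons 177 (.leaf 201 1413 (.cons 176 (.leaf 153 1221 (.cons 273 (.leaf 297 1604 (.leaf 249 1412 .nil)) .nil)) .nil)) (.cons 177 (.leaf 201 1413 (.cons 176 (.leaf 153 1221 (.cons 151 (.leaf 175 1215 (.cons 152 (.leaf 127 1023 (.cons 247 (.leaf 271 1406 (.leaf 223 1214 .nil)) .nil)) .nil)) .nil)) .nil)) (.cons 199 (.leaf 175 1407 (.leaf 223 1599 .nil)) .nil))) (.cons 200 (.cons 175 (.leaf 199 1407 (.cons 151 (.leaf 176 1215 (.cons 273 (.leaf 297 1604 (.cons 274 (.leaf 247 1979 (.cons 251 (.leaf 252 1985 (.cons 250 (.leaf 271 1977 (.cons 299 (.leaf 300 2176 (.cons 226 (.leaf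 202 1620 (.leaf 323 1815 .nil)) .nil)) .nil)) .nil)) .nil)) .nil)) .nil)) .nil)) (.cons 175 (.leaf 199 1407 (.cons 176 (.leaf 151 1215 (.cons 177 (.leaf 201 1413 (.leaf 153 1221 .nil)) .nil)) .nil)) (.cons 273 (.leaf 297 1604 (.cons 176 (.leaf 249 1412 (.cons 247 (.leaf 274 1979 (.leaf 271 1406 .nil)) .nil)) .nil)) (.cons 175 (.leaf 199 1407 (.cons 177 (.leaf 201 1413 (.cons 273 (.leaf 297 1604 (.cons 274 (.leaf 247 1979 (.cons 251 (.leaf 252 1985 (.cons 250 (.leaf 271 1977 (.cons 299 (.leaf 300 2176 (.cons 226 (.leaf 202 1620 (.leaf 323 1815 .nil)) .nil)) .nil)) .nil)) .nil)) .nil)) .nil)) .nil)) .nil)))) (.cons 273 (.cons 247 (.leaf 274 1979 (.cons 245 (.leaf 246 1960 (.cons 320 (.leaf 223 1791 (.cons 200 (.leaf 297 1604 (.cons 176 (.leaf 271 1406 (.leaf 249 1412 .nil)) .nil)) .nil)) .nil)) .nil)) (.cons 200 (.leaf 297 1604 (.cons 176 (.leaf 249 1412 (.cons 151 (.leaf 175 1215 (.cons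 177 (.leaf 201 1413 (.leaf 153 1221 .nil)) .nil)) .nil)) .nil)) (.cons 247 (.leaf 274 1979 (.cons 245 (.leaf 246 1960 (.cons 320 (.leaf 223 1791 (.cons 344 (.leaf 271 1983 (.leaf 249 1989 .nil)) .nil)) .nil)) .nil)) (.cons 200 (.leaf 297 1604 (.cons 177 (.leaf 201 1413 (.cons 153 (.leaf 176 1221 (.cons 274 (.leaf 247 1979 (.cons 251 (.leaf 252 1985 (.cons 250 (.leaf 271 1977 (.cons 299 (.leaf 300 2176 (.cons 226 (.leaf 202 1620 (.leaf 323 1815 .nil)) .nil)) .nil)) .nil)) .nil)) .nil)) .nil)) .nil)) .nil)))) (.cons 223 (.leaf 199 1599 (.cons 320 (.leaf 247 1791 (.cons 343 (.leaf 319 1982 (.cons 344 (.leaf 367 2174 (.cons 273 (.leaf 249 1989 (.cons 368 (.leaf 297 2181 (.cons 369 (.leaf 345 2180 (.leaf 393 2372 .nil)) .nil)) .nil)) .nil)) .nil)) .nil)) .nil)) (.cons 199 (.leaf 223 1599 (.cons 200 (.leaf 175 1407 (.cons 177 (.leaf 201 1413 (.cons 176 (.leaf 153 1221 (.cons 273 (.leaf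 297 1604 (.leaf 249 1412 .nil)) .nil)) .nil)) .nil)) .nil)) (.cons 200 (.cons 177 (.leaf 201 1413 (.cons 176 (.leaf 153 1221 (.cons 151 (.leaf 175 1215 (.cons 152 (.leaf 127 1023 (.cons 247 (.leaf 271 1406 (.leaf 223 1214 .nil)) .nil)) .nil)) .nil)) .nil)) (.cons 175 (.leaf 199 1407 (.cons 176 (.leaf 151 1215 (.cons 177 (.leaf 201 1413 (.leaf 153 1221 .nil)) .nil)) .nil)) (.cons 177 (.leaf 201 1413 (.cons 176 (.leaf 153 1221 (.cons 223 (.leaf 199 1599 (.cons 247 (.leaf 320 1791 (.leaf 271 1406 .nil)) .nil)) .nil)) .nil)) (.cons 199 (.leaf 175 1407 (.leaf 223 1599 .nil)) .nil)))) .nil)))))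
noncomputable def t38 : T := .cons 343 (.leaf 319 1982 (.cons 344 (.leaf 367 2174 (.cons 273 (.leaf 249 1989 (.cons 274 (.leaf 295 2170 (.cons 251 (.leaf 252 1985 (.cons 250 (.leaf 271 1977 (.cons 297 (.leaf 368 2181 (.cons 202 (.leaf 226 1614 (.cons 299 (.leaf 300 2176 (.cons 323 (.leaf 347 2007 (.cons 324 (.leaf 348 2012 (.leaf 298 2368 .nil)) .nil)) .nil)) .nil)) .nil)) .nil)) .nil)) .nil)) .nil)) .nil)) .nil)) (.cons 344 (.cons 367 (.leaf 343 2174 (.cons 368 (.leaf 391 2366 (.cons 369 (.leaf 345 2180 (.leaf 393 2372 .nil)) .nil)) .nil)) (.cons 273 (.leaf 249 1989 (.cons 274 (.leaf 295 2170 (.cons 251 (.leaf 252 1985 (.cons 250 (.leaf 271 1977 (.cons 297 (.leaf 368 2181 (.cons 200 (.leaf 224 1604 (.cons 202 (.leaf 226 1614 (.cons 299 (.leaf 300 2176 (.cons 323 (.leaf 347 2007 (.cons 324 (.leaf 348 2012 (.leaf 298 2368 .nil)) .nil)) .nil)) .nil)) .nil)) .nil)) .nil)) .nil)) .nil))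 .nil)) (.cons 273 (.leaf 249 1989 (.cons 274 (.leaf 295 2170 (.cons 251 (.leaf 252 1985 (.cons 250 (.leaf 271 1977 (.cons 299 (.leaf 300 2176 (.cons 226 (.leaf 202 1620 (.leaf 323 1815 .nil)) .nil)) .nil)) .nil)) .nil)) .nil)) .nil))) (.cons 273 (.cons 249 (.leaf 344 1989 (.cons 274 (.leaf 295 2170 (.cons 251 (.leaf 252 1985 (.cons 250 (.leaf 271 1977 (.cons 299 (.leaf 300 2176 (.cons 226 (.leaf 202 1620 (.leaf 323 1815 .nil)) .nil)) .nil)) .nil)) .nil)) .nil)) (.cons 344 (.leaf 249 1989 (.cons 368 (.leaf 297 2181 (.cons 369 (.leaf 345 2180 (.leaf 393 2372 .nil)) .nil)) .nil)) (.cons 274 (.leaf 295 2170 (.cons 251 (.leaf 252 1985 (.cons 250 (.leaf 271 1977 (.cons 299 (.leaf 300 2176 (.cons 226 (.leaf 202 1620 (.leaf 323 1815 .nil)) .nil)) .nil)) .nil)) .nil)) .nil))) (.cons 319 (.leaf 343 1982 (.cons 224 (.leaf 295 1790 (.cons 199 (.leaf 223 1599 (.cons 200 (.leaf 175 1407 (.cons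 177 (.leaf 201 1413 (.cons 176 (.leaf 153 1221 (.cons 273 (.leaf 297 1604 (.leaf 249 1412 .nil)) .nil)) .nil)) .nil)) .nil)) .nil)) .nil)) (.cons 343 (.leaf 319 1982 (.cons 344 (.leaf 367 2174 (.cons 273 (.leaf 249 1989 (.cons 368 (.leaf 297 2181 (.cons 369 (.leaf 345 2180 (.leaf 393 2372 .nil)) .nil)) .nil)) .nil)) .nil)) (.cons 344 (.cons 343 (.leaf 319 1982 (.leaf 367 2174 .nil)) (.cons 369 (.leaf 345 2180 (.cons 368 (.leaf 393 2372 (.cons 295 (.leaf 271 2175 (.cons 319 (.leaf 224 1790 (.leaf 392 2367 .nil)) .nil)) .nil)) .nil)) (.cons 367 (.leaf 343 2174 (.cons 368 (.leaf 391 2366 (.cons 369 (.leaf 345 2180 (.leaf 393 2372 .nil)) .nil)) .nil)) .nil))) .nil)))))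
noncomputable def t39 : T := .cons 274 (.leaf 247 1979 (.leaf 295 2170 .nil)) (.cons 223 (.cons 247 (.leaf 320 1791 (.cons 199 (.leaf 175 1404 (.leaf 224 1599 .nil)) .nil)) (.cons 224 (.leaf 199 1599 (.cons 200 (.leaf 297 1604 (.cons 176 (.leaf 249 1412 (.cons 177 (.leaf 201 1413 (.leaf 153 1221 .nil)) .nil)) .nil)) .nil)) (.cons 247 (.leaf 320 1791 (.cons 199 (.leaf 175 1404 (.leaf 271 1596 .nil)) .nil)) (.cons 320 (.leaf 247 1791 (.cons 319 (.leaf 343 1982 (.cons 344 (.leaf 249 1989 (.cons 297 (.leaf 368 2181 (.cons 298 (.leaf 299 2362 (.cons 318 (.leaf 295 2354 (.leaf 317 2345 .nil)) .nil)) .nil)) .nil)) .nil)) .nil)) .nil)))) (.cons 274 (.leaf 295 2170 (.cons 251 (.leaf 252 1985 (.cons 250 (.leaf 271 1977 (.cons 299 (.leaf 300 2176 (.cons 226 (.leaf 202 1620 (.leaf 323 1815 .nil)) .nil)) .nil)) .nil)) .nil)) (.cons 223 (.cons 247 (.leaf 274 1979 (.leaf 320 1791 .nil)) (.cons 224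 (.leaf 199 1599 (.cons 200 (.leaf 297 1604 (.cons 176 (.leaf 249 1412 (.cons 177 (.leaf 201 1413 (.leaf 153 1221 .nil)) .nil)) .nil)) .nil)) .nil)) .nil)))
noncomputable def t40 : T := .cons 273 t39 (.cons 320 t38 (.cons 224 t37 (.cons 224 t36 (.cons 320 t35 (.cons 224 t33 (.cons 224 (.cons 223 (.leaf 199 1599 (.cons 320 (.leaf 247 1791 (.cons 343 (.leaf 319 1982 (.cons 344 (.leaf 367 2174 (.cons 273 (.leaf 249 1989 (.cons 368 (.leaf 297 2181 (.cons 369 (.leaf 345 2180 (.leaf 393 2372 .nil)) .nil)) .nil)) .nil)) .nil)) .nil)) .nil)) (.cons 295 (.leaf 319 1790 (.cons 273 (.leaf 274 2170 (.cons 200 (.leaf 297 1604 (.cons 176 (.leaf 249 1412 (.cons 151 (.leaf 175 1215 (.cons 177 (.leaf 201 1413 (.leaf 153 1221 .nil)) .nil)) .nil)) .nil)) .nil)) .nil)) (.cons 223 (.leaf 199 1599 (.cons 247 (.leaf 320 1791 (.cons 273 (.leaf 274 1979 (.cons 200 (.leaf 297 1604 (.cons 176 (.leaf 249 1412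 (.leaf 152 1214 .nil)) .nil)) .nil)) .nil)) .nil)) (.cons 223 (.leaf 199 1599 (.cons 319 (.leaf 295 1790 (.cons 320 (.leaf 247 1791 (.leaf 343 1982 .nil)) .nil)) .nil)) .nil)))) (.cons 273 t32 (.cons 273 (.cons 223 (.cons 247 (.leaf 274 1979 (.leaf 320 1791 .nil)) (.cons 224 (.leaf 199 1599 (.cons 200 (.leaf 297 1604 (.cons 176 (.leaf 249 1412 (.cons 177 (.leaf 201 1413 (.leaf 153 1221 .nil)) .nil)) .nil)) .nil)) .nil)) (.cons 223 (.cons 247 (.leaf 320 1791 (.cons 199 (.leaf 175 1404 (.leaf 224 1599 .nil)) .nil)) (.cons 224 (.leaf 199 1599 (.cons 200 (.leaf 297 1604 (.cons 176 (.leaf 249 1412 (.cons 177 (.leaf 201 1413 (.leaf 153 1221 .nil)) .nil)) .nil)) .nil)) (.cons 320 (.leaf 247 1791 (.cons 344 (.leaf 249 1989 (.cons 343 (.leaf 367 2174 (.cons 368 (.leaf 297 2181 (.cons 369 (.leaf 345 2180 (.leaf 393 2372 .nil)) .nil)) .nil)) .nil)) .nil)) .nil))) (.cons 274 (.leaf 295 2170 (.cons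 251 (.leaf 252 1985 (.cons 250 (.leaf 271 1977 (.cons 299 (.leaf 300 2176 (.cons 226 (.leaf 202 1620 (.leaf 323 1815 .nil)) .nil)) .nil)) .nil)) .nil)) .nil))) .nil))))))))
noncomputable def t41 : T := .cons 273 (.leaf 249 1989 (.cons 274 (.leaf 295 2170 (.cons 247 (.leaf 248 1979 (.cons 251 (.leaf 252 1985 (.cons 368 (.leaf 297 2181 (.cons 367 (.leaf 343 2174 (.leaf 391 2366 .nil)) .nil)) .nil)) .nil)) .nil)) .nil)) (.cons 343 (.leaf 367 2174 (.cons 345 (.leaf 369 2180 (.cons 321 (.leaf 248 1988 (.cons 322 (.leaf 323 2554 (.leaf 342 2545 .nil)) .nil)) .nil)) .nil)) (.cons 273 (.leaf 249 1989 (.cons 274 (.leaf 295 2170 (.cons 247 (.leaf 248 1979 (.cons 251 (.leaf 252 1985 (.cons 299 (.leaf 300 2176 (.cons 297 (.leaf 368 2181 (.cons 345 (.leaf 369 2180 (.cons 250 (.leaf 321 1997 (.cons 226 (.leaf 202 1620 (.leaf 323 1815 .nil)) .nil)) .nil)) .nil)) .nil)) .nil)) .nil)) .nil)) .nil))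 (.cons 273 (.leaf 249 1989 (.cons 274 (.leaf 295 2170 (.cons 251 (.leaf 252 1985 (.cons 297 (.leaf 368 2181 (.cons 299 (.leaf 300 2176 (.cons 343 (.leaf 367 2174 (.cons 345 (.leaf 369 2180 (.cons 250 (.leaf 321 1997 (.cons 226 (.leaf 202 1620 (.leaf 323 1815 .nil)) .nil)) .nil)) .nil)) .nil)) .nil)) .nil)) .nil)) .nil)) .nil)))
noncomputable def t42 : T := .cons 247 (.leaf 271 1983 (.cons 273 (.leaf 249 1989 (.cons 274 (.leaf 295 2170 (.cons 251 (.leaf 252 1985 (.cons 368 (.leaf 297 2181 (.cons 367 (.leaf 343 2174 (.leaf 391 2366 .nil)) .nil)) .nil)) .nil)) .nil)) .nil)) (.cons 271 (.leaf 247 1983 (.cons 367 (.leaf 343 2174 (.cons 368 (.leaf 295 2175 (.leaf 391 2366 .nil)) .nil)) .nil)) (.cons 273 (.leaf 249 1989 (.cons 274 (.leaf 295 2170 (.cons 251 (.leaf 252 1985 (.cons 297 (.leaf 368 2181 (.cons 299 (.leaf 300 2176 (.cons 343 (.leaf 367 2174 (.cons 345 (.leaf 369 2180 (.cons 250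 (.leaf 321 1997 (.cons 226 (.leaf 202 1620 (.leaf 323 1815 .nil)) .nil)) .nil)) .nil)) .nil)) .nil)) .nil)) .nil)) .nil)) (.cons 271 (.leaf 247 1983 (.cons 273 (.leaf 249 1989 (.cons 368 (.leaf 295 2175 (.leaf 297 2181 .nil)) .nil)) .nil)) (.cons 271 (.leaf 247 1983 (.cons 273 (.leaf 249 1989 (.cons 274 (.leaf 295 2170 (.cons 299 (.leaf 300 2176 (.leaf 298 2168 .nil)) .nil)) .nil)) .nil)) (.cons 273 (.leaf 249 1989 (.cons 247 (.leaf 271 1983 (.cons 343 (.leaf 367 2174 (.cons 368 (.leaf 297 2181 (.cons 369 (.leaf 345 2180 (.leaf 393 2372 .nil)) .nil)) .nil)) .nil)) .nil)) .nil)))))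
noncomputable def t43 : T := .cons 321 (.leaf 345 1988 (.cons 223 (.leaf 247 1791 (.cons 224 (.leaf 199 1599 (.leaf 297 1796 .nil)) .nil)) .nil)) (.cons 321 (.leaf 345 1988 (.cons 224 (.leaf 297 1796 (.cons 199 (.leaf 223 1599 (.cons 200 (.leaf 175 1407 (.cons 177 (.leaf 201 1413 (.cons 176 (.leaf 153 1221 (.cons 178 (.leaf 179 1402 (.cons 197 (.leaf 198 1385 (.cons 295 (.leaf 271 1598 (.cons 273 (.leaf 274 2170 (.leaf 249 1412 .nil)) .nil)) .nil)) .nil)) .nil)) .nil)) .nil)) .nil)) .nil)) .nil)) (.cons 223 (.leaf 247 1791 (.cons 224 (.leaf 199 1599 (.cons 273 (.cons 274 (.leaf 295 2170 (.cons 251 (.leaf 252 1985 (.cons 250 (.leaf 271 1977 (.leaf 249 1787 .nil)) .nil)) .nil)) (.cons 200 (.leaf 297 1604 (.cons 176 (.leaf 249 1412 (.cons 151 (.leaf 175 1215 (.cons 152 (.leaf 127 1023 (.cons 153 (.leaf 177 1221 (.leaf 129 1029 .nil)) .nil)) .nil)) .nil)) .nil)) (.cons 274 (.leaf 295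 2170 (.cons 251 (.leaf 252 1985 (.cons 250 (.leaf 271 1977 (.cons 299 (.leaf 300 2176 (.cons 226 (.leaf 202 1620 (.leaf 323 1815 .nil)) .nil)) .nil)) .nil)) .nil)) .nil))) .nil)) .nil)) (.cons 321 (.leaf 345 1988 (.cons 297 (.leaf 224 1796 (.cons 295 (.cons 294 (.leaf 293 2344 (.leaf 322 2352 .nil)) (.cons 298 (.leaf 274 2169 (.cons 271 (.leaf 299 2171 (.leaf 270 2163 .nil)) .nil)) .nil)) .nil)) .nil)) (.cons 247 (.leaf 223 1791 (.cons 274 (.leaf 273 1979 (.cons 250 (.leaf 249 1976 (.cons 321 (.leaf 345 1988 (.cons 323 (.cons 322 (.leaf 295 2363 (.cons 347 (.leaf 299 2007 (.leaf 348 2560 .nil)) .nil)) (.cons 322 (.leaf 295 2363 (.cons 347 (.leaf 348 2560 (.leaf 298 2004 .nil)) .nil)) (.cons 299 (.leaf 347 2007 (.cons 226 (.leaf 202 1620 (.leaf 251 1815 .nil)) .nil)) (.cons 322 (.leaf 295 2363 (.cons 299 (.leaf 300 2369 (.cons 226 (.leaf 202 1620 (.leaf 251 1815 .nil)) .nil)) .nil))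 .nil)))) .nil)) .nil)) .nil)) .nil)) .nil))))
noncomputable def t44 : T := .cons 344 (.cons 271 (.leaf 247 1983 (.cons 367 (.leaf 343 2174 (.cons 368 (.leaf 295 2175 (.leaf 391 2366 .nil)) .nil)) .nil)) (.cons 273 (.leaf 249 1989 (.cons 274 (.leaf 295 2170 (.cons 247 (.leaf 248 1979 (.cons 251 (.leaf 252 1985 (.cons 368 (.leaf 297 2181 (.cons 367 (.leaf 343 2174 (.leaf 391 2366 .nil)) .nil)) .nil)) .nil)) .nil)) .nil)) (.cons 273 (.leaf 249 1989 (.cons 274 (.leaf 295 2170 (.cons 251 (.leaf 252 1985 (.cons 250 (.leaf 271 1977 (.cons 297 (.leaf 368 2181 (.cons 345 (.leaf 369 2180 (.leaf 321 1997 .nil)) .nil)) .nil)) .nil)) .nil)) .nil)) (.cons 273 (.leaf 249 1989 (.cons 274 (.leaf 295 2170 (.cons 251 (.leaf 252 1985 (.cons 250 (.leaf 271 1977 (.cons 299 (.leaf 300 2176 (.cons 226 (.leaf 202 1620 (.leaf 323 1815 .nil)) .nil)) .nil)) .nil)) .nil)) .nil)) (.cons 273 (.leaf 249 1989 (.cons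 247 (.leaf 271 1983 (.cons 248 (.leaf 274 1979 (.leaf 223 1791 .nil)) .nil)) .nil)) .nil))))) (.cons 248 t43 (.cons 344 (.cons 343 (.leaf 367 2174 (.cons 345 (.leaf 369 2180 (.cons 321 (.leaf 248 1988 (.cons 322 (.leaf 323 2554 (.leaf 342 2545 .nil)) .nil)) .nil)) .nil)) (.cons 271 (.leaf 247 1983 (.cons 367 (.leaf 343 2174 (.cons 368 (.leaf 295 2175 (.leaf 391 2366 .nil)) .nil)) .nil)) (.cons 247 (.leaf 271 1983 (.cons 248 (.leaf 223 1791 (.cons 345 (.leaf 321 1988 (.leaf 369 2180 .nil)) .nil)) .nil)) .nil))) (.cons 344 t42 (.cons 344 t41 (.cons 344 (.cons 343 (.leaf 367 2174 (.cons 345 (.leaf 369 2180 (.cons 321 (.leaf 248 1988 (.cons 322 (.leaf 323 2554 (.leaf 342 2545 .nil)) .nil)) .nil)) .nil)) (.cons 273 (.leaf 249 1989 (.cons 274 (.leaf 295 2170 (.cons 251 (.leaf 252 1985 (.cons 250 (.leaf 271 1977 (.cons 299 (.leaf 300 2176 (.cons 226 (.leaf 202 1620 (.leaf 323 1815 .nil))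 .nil)) .nil)) .nil)) .nil)) .nil)) (.cons 249 (.leaf 273 1989 (.cons 367 (.leaf 343 2174 (.cons 368 (.leaf 391 2366 (.cons 369 (.leaf 345 2180 (.leaf 393 2372 .nil)) .nil)) .nil)) .nil)) .nil))) (.cons 344 (.cons 247 (.leaf 271 1983 (.cons 248 (.leaf 223 1791 (.cons 273 (.leaf 274 1979 (.leaf 249 1989 .nil)) .nil)) .nil)) (.cons 247 (.leaf 271 1983 (.cons 248 (.leaf 223 1791 (.cons 345 (.leaf 321 1988 (.leaf 369 2180 .nil)) .nil)) .nil)) (.cons 249 (.leaf 273 1989 (.cons 343 (.leaf 367 2174 (.cons 345 (.leaf 369 2180 (.cons 321 (.leaf 248 1988 (.cons 322 (.leaf 323 2554 (.leaf 342 2545 .nil)) .nil)) .nil)) .nil)) .nil)) (.cons 249 (.leaf 273 1989 (.cons 367 (.leaf 343 2174 (.cons 368 (.leaf 391 2366 (.cons 369 (.leaf 345 2180 (.leaf 393 2372 .nil)) .nil)) .nil)) .nil)) .nil)))) (.cons 344 (.cons 249 (.leaf 273 1989 (.cons 367 (.leaf 343 2174 (.cons 368 (.leaf 391 2366 (.cons 369 (.leaf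 345 2180 (.leaf 393 2372 .nil)) .nil)) .nil)) .nil)) (.cons 271 (.leaf 247 1983 (.cons 367 (.leaf 343 2174 (.cons 368 (.leaf 295 2175 (.leaf 391 2366 .nil)) .nil)) .nil)) (.cons 247 (.leaf 271 1983 (.cons 223 (.leaf 248 1791 (.cons 273 (.leaf 249 1989 (.cons 368 (.leaf 297 2181 (.cons 369 (.leaf 345 2180 (.leaf 393 2372 .nil)) .nil)) .nil)) .nil)) .nil)) (.cons 247 (.leaf 271 1983 (.cons 248 (.leaf 223 1791 (.cons 273 (.leaf 274 1979 (.leaf 249 1989 .nil)) .nil)) .nil)) .nil)))) (.cons 344 (.cons 247 (.leaf 271 1983 (.cons 248 (.leaf 223 1791 (.cons 273 (.leaf 274 1979 (.leaf 249 1989 .nil)) .nil)) .nil)) (.cons 271 (.leaf 247 1983 (.cons 367 (.leaf 343 2174 (.cons 368 (.leaf 295 2175 (.leaf 391 2366 .nil)) .nil)) .nil)) (.cons 273 (.leaf 249 1989 (.cons 274 (.leaf 295 2170 (.cons 247 (.leaf 248 1979 (.cons 251 (.leaf 252 1985 (.cons 368 (.leaf 297 2181 (.cons 367 (.leaf 343 2174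 (.leaf 391 2366 .nil)) .nil)) .nil)) .nil)) .nil)) .nil)) (.cons 273 (.leaf 249 1989 (.cons 274 (.leaf 295 2170 (.cons 251 (.leaf 252 1985 (.cons 250 (.leaf 271 1977 (.cons 299 (.leaf 300 2176 (.cons 226 (.leaf 202 1620 (.leaf 323 1815 .nil)) .nil)) .nil)) .nil)) .nil)) .nil)) .nil)))) .nil))))))))
noncomputable def t45 : T := .leaf 293 2153 (.cons 297 (.cons 318 (.leaf 317 2346 (.cons 319 (.leaf 298 2354 (.cons 248 (.leaf 224 1790 (.cons 343 (.leaf 271 1981 (.leaf 320 1982 .nil)) .nil)) .nil)) .nil)) (.cons 270 (.leaf 269 2155 (.cons 271 (.leaf 298 2160 (.cons 246 (.leaf 245 1963 (.cons 222 (.leaf 198 1588 (.leaf 319 1780 .nil)) .nil)) .nil)) .nil)) (.cons 318 (.leaf 317 2346 (.cons 269 (.leaf 270 2155 (.cons 319 (.leaf 298 2354 (.cons 248 (.leaf 224 1790 (.cons 343 (.leaf 320 1982 (.leaf 367 2173 .nil)) .nil)) .nil)) .nil)) .nil)) (.cons 270 (.leaf 269 2155 (.cons 318 (.leaf 317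 2346 (.cons 319 (.cons 343 (.leaf 367 2173 (.leaf 246 1972 .nil)) (.cons 246 (.leaf 222 1780 (.cons 245 (.leaf 271 1963 (.leaf 221 1775 .nil)) .nil)) (.cons 343 (.leaf 367 2173 (.cons 248 (.leaf 224 1790 (.leaf 271 1981 .nil)) .nil)) .nil))) .nil)) .nil)) (.cons 270 (.leaf 269 2155 (.cons 271 (.leaf 298 2160 (.cons 245 (.leaf 246 1963 (.cons 318 (.leaf 317 2346 (.cons 247 (.leaf 223 1782 (.leaf 342 1973 .nil)) .nil)) .nil)) .nil)) .nil)) .nil))))) .nil)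
noncomputable def t46 : T := .cons 250 (.leaf 345 1998 (.cons 248 (.cons 224 (.leaf 319 1790 (.cons 223 (.leaf 199 1599 (.leaf 249 1787 .nil)) .nil)) (.cons 224 (.leaf 319 1790 (.cons 323 (.leaf 320 2363 (.leaf 347 2004 .nil)) .nil)) (.cons 249 (.leaf 247 1976 (.leaf 271 1978 .nil)) .nil))) .nil)) (.cons 345 (.leaf 250 1998 (.cons 248 (.leaf 320 1988 (.cons 224 (.leaf 319 1790 (.cons 199 (.leaf 223 1599 (.cons 200 (.leaf 175 1407 (.leaf 271 1598 .nil)) .nil)) .nil)) .nil)) .nil)) (.cons 250 (.leaf 345 1998 (.cons 248 (.cons 224 (.leaf 319 1790 (.cons 223 (.leaf 199 1599 (.leaf 249 1787 .nil)) .nil)) (.cons 224 (.leaf 319 1790 (.cons 323 (.leaf 347 2004 (.cons 226 (.leaf 299 1812 (.cons 178 (.leaf 202 1428 (.cons 199 (.leaf 223 1599 (.cons 200 (.leaf 175 1407 (.leaf 271 1598 .nil)) .nil)) .nil)) .nil)) .nil)) .nil)) (.cons 249 (.leaf 247 1976 (.leaf 271 1978 .nil)) .nil))) .nil)) (.cons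 320 (.leaf 323 2363 (.cons 319 (.leaf 299 2361 (.cons 343 (.leaf 248 1982 (.leaf 367 2173 .nil)) .nil)) .nil)) (.cons 250 (.leaf 345 1998 (.cons 323 (.leaf 320 2363 (.leaf 347 2004 .nil)) .nil)) .nil))))
noncomputable def t47 : T := .cons 322 (.leaf 346 2005 (.cons 227 (.leaf 203 1622 (.leaf 299 1814 .nil)) .nil)) (.cons 322 (.leaf 346 2005 (.cons 321 t46 .nil)) (.cons 227 (.leaf 203 1622 (.cons 299 (.cons 228 (.leaf 204 1629 (.cons 300 (.leaf 324 1820 (.cons 301 (.leaf 302 2195 (.cons 277 (.leaf 278 2193 (.cons 325 (.leaf 326 2384 (.cons 253 (.leaf 252 1831 (.cons 226 (.leaf 202 1623 (.cons 254 (.leaf 229 1808 (.leaf 230 1837 .nil)) .nil)) .nil)) .nil)) .nil)) .nil)) .nil)) .nil)) (.cons 228 (.leaf 204 1629 (.cons 252 (.leaf 323 1821 (.cons 253 (.leaf 254 2002 (.cons 300 (.leaf 324 1820 (.cons 301 (.leaf 302 2195 (.cons 277 (.leaf 278 2193 (.leaf 325 1831 .nil)) .nil)) .nil)) .nil))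 .nil)) .nil)) (.cons 226 (.leaf 202 1623 (.cons 323 (.leaf 250 1812 (.cons 324 (.leaf 300 1820 (.leaf 348 2012 .nil)) .nil)) .nil)) (.cons 226 (.leaf 202 1623 (.cons 250 (.leaf 323 1812 (.cons 228 (.leaf 204 1629 (.cons 249 (.leaf 248 1793 (.leaf 229 1802 .nil)) .nil)) .nil)) .nil)) .nil)))) .nil)) (.cons 322 (.leaf 346 2005 (.cons 227 (.leaf 203 1622 (.leaf 250 1813 .nil)) .nil)) .nil)))
noncomputable def t48 : T := .cons 248 (.leaf 224 1790 (.cons 320 (.leaf 343 1982 (.cons 247 (.leaf 223 1791 (.cons 246 (.leaf 245 1960 (.cons 222 (.leaf 271 1783 (.leaf 270 1780 .nil)) .nil)) .nil)) .nil)) .nil)) (.cons 248 (.leaf 224 1790 (.cons 320 (.cons 247 (.leaf 223 1791 (.cons 246 (.leaf 245 1960 (.cons 222 (.leaf 271 1783 (.leaf 270 1780 .nil)) .nil)) .nil)) (.cons 321 (.leaf 345 1988 (.leaf 322 2355 .nil)) .nil)) .nil)) (.cons 343 (.leaf 367 2173 (.cons 271 (.cons 246 (.leaf 270 1975 (.cons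 247 (.leaf 222 1783 (.cons 223 (.leaf 199 1596 (.leaf 320 1788 .nil)) .nil)) .nil)) (.cons 342 (.leaf 366 2166 (.cons 247 (.leaf 318 1974 (.cons 223 (.leaf 199 1596 (.leaf 320 1788 .nil)) .nil)) .nil)) (.cons 270 (.leaf 246 1975 (.cons 249 (.leaf 250 1969 (.cons 269 (.leaf 268 2144 (.cons 245 (.leaf 244 1955 (.cons 342 (.leaf 366 2166 (.leaf 318 1967 .nil)) .nil)) .nil)) .nil)) .nil)) .nil))) .nil)) (.cons 343 (.leaf 367 2173 (.cons 248 (.leaf 224 1790 (.leaf 320 1982 .nil)) .nil)) (.cons 343 (.leaf 367 2173 (.cons 248 (.leaf 224 1790 (.leaf 271 1981 .nil)) .nil)) .nil))))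
noncomputable def t49 : T := .cons 293 (.leaf 273 2153 (.cons 268 (.leaf 269 2147 (.cons 292 (.leaf 271 2145 (.leaf 267 2139 .nil)) .nil)) .nil)) (.cons 297 (.cons 269 (.leaf 270 2155 (.cons 318 (.leaf 317 2346 (.cons 321 (.leaf 322 2352 (.cons 248 (.leaf 224 1796 (.cons 345 (.leaf 273 1991 (.leaf 320 1988 .nil)) .nil)) .nil)) .nil)) .nil)) (.cons 321 (.leaf 322 2352 (.cons 248 (.leaf 224 1796 (.cons 345 (.leaf 273 1991 (.leaf 320 1988 .nil)) .nil)) .nil)) (.cons 269 (.leaf 270 2155 (.cons 318 (.leaf 317 2346 (.cons 298 (.leaf 319 2354 (.cons 299 (.leaf 271 2171 (.cons 323 (.leaf 322 2360 (.leaf 324 2368 .nil)) .nil)) .nil)) .nil)) .nil)) (.cons 269 (.leaf 270 2155 (.cons 318 (.leaf 317 2346 (.cons 319 (.leaf 298 2354 (.cons 248 (.leaf 224 1790 (.cons 343 (.leaf 271 1981 (.leaf 320 1982 .nil)) .nil)) .nil)) .nil)) .nil)) .nil)))) (.cons 293 (.leaf 273 2153 (.cons 268 (.leaf 269 2147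 (.cons 292 (.leaf 267 2139 (.cons 316 (.leaf 317 2338 (.leaf 315 2330 .nil)) .nil)) .nil)) .nil)) (.cons 297 (.cons 321 (.leaf 322 2352 (.cons 248 (.leaf 224 1796 (.cons 345 (.leaf 320 1988 (.leaf 369 2183 .nil)) .nil)) .nil)) (.cons 269 (.leaf 270 2155 (.cons 293 (.leaf 268 2147 (.cons 292 (.leaf 271 2145 (.cons 316 (.leaf 317 2338 (.leaf 315 2330 .nil)) .nil)) .nil)) .nil)) .nil)) (.cons 293 (.leaf 273 2153 (.cons 292 (.leaf 271 2145 (.cons 316 (.leaf 317 2338 (.leaf 315 2330 .nil)) .nil)) .nil)) .nil))))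
noncomputable def t50 : T := .cons 273 (.leaf 274 2170 (.cons 294 (.leaf 293 2153 (.cons 297 (.cons 318 (.leaf 317 2346 (.cons 319 (.leaf 298 2354 (.cons 248 (.leaf 224 1790 (.cons 343 (.leaf 271 1981 (.leaf 320 1982 .nil)) .nil)) .nil)) .nil)) (.cons 270 (.leaf 269 2155 (.cons 271 (.leaf 298 2160 (.cons 246 (.leaf 245 1963 (.cons 222 (.leaf 198 1588 (.leaf 319 1780 .nil)) .nil)) .nil)) .nil)) (.cons 321 (.leaf 322 2352 (.cons 248 (.leaf 224 1796 (.leaf 345 1991 .nil)) .nil)) .nil))) .nil)) .nil)) (.cons 297 (.cons 298 (.leaf 274 2169 (.cons 319 (.leaf 318 2354 (.cons 271 (.leaf 299 2171 (.leaf 270 2163 .nil)) .nil)) .nil)) (.cons 294 (.cons 269 (.leaf 270 2155 (.cons 293 (.leaf 268 2147 (.cons 292 (.leaf 271 2145 (.cons 316 (.leaf 317 2338 (.leaf 315 2330 .nil)) .nil)) .nil)) .nil)) (.cons 321 (.leaf 322 2352 (.cons 248 (.leaf 224 1796 (.cons 345 (.leaf 320 1988 (.leaf 369 2183 .nil))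 .nil)) .nil)) .nil)) (.cons 298 (.leaf 274 2169 (.cons 319 (.leaf 318 2354 (.cons 224 (.leaf 248 1790 (.cons 299 (.leaf 320 2362 (.cons 323 (.leaf 322 2360 (.leaf 324 2368 .nil)) .nil)) .nil)) .nil)) .nil)) .nil))) (.cons 294 t49 (.cons 273 (.leaf 274 2170 (.cons 294 (.leaf 293 2153 (.cons 319 t48 .nil)) .nil)) (.cons 274 (.leaf 273 2170 (.cons 298 (.leaf 297 2169 (.cons 251 t47 .nil)) .nil)) (.cons 273 (.leaf 274 2170 (.cons 294 (.leaf 293 2153 (.cons 297 (.cons 321 (.leaf 322 2352 (.cons 248 (.leaf 224 1796 (.leaf 345 1991 .nil)) .nil)) (.cons 270 (.leaf 269 2155 (.cons 271 (.leaf 298 2160 (.cons 245 (.leaf 246 1963 (.cons 318 (.leaf 317 2346 (.cons 247 (.leaf 223 1782 (.leaf 342 1973 .nil)) .nil)) .nil)) .nil)) .nil)) .nil)) .nil)) .nil)) (.cons 274 (.leaf 273 2170 (.cons 297 (.leaf 298 2169 (.cons 294 (.cons 321 (.leaf 322 2352 (.cons 269 (.leaf 270 2155 (.cons 293 (.leaf 268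 2147 (.leaf 320 2344 .nil)) .nil)) .nil)) (.cons 317 (.leaf 318 2346 (.cons 269 (.leaf 270 2155 (.cons 293 (.leaf 268 2147 (.leaf 316 2338 .nil)) .nil)) .nil)) (.cons 321 (.leaf 322 2352 (.cons 293 (.leaf 320 2344 (.cons 317 (.leaf 316 2338 (.leaf 318 2346 .nil)) .nil)) .nil)) (.cons 321 (.leaf 322 2352 (.cons 248 (.leaf 224 1796 (.cons 345 (.leaf 320 1988 (.leaf 369 2183 .nil)) .nil)) .nil)) .nil)))) .nil)) .nil)) (.cons 273 (.leaf 274 2170 (.cons 294 (.leaf 293 2153 (.cons 297 (.cons 317 (.leaf 318 2346 (.cons 322 (.leaf 321 2352 (.cons 298 (.leaf 323 2360 (.cons 270 (.leaf 271 2160 (.leaf 269 2155 .nil)) .nil)) .nil)) .nil)) (.cons 317 (.leaf 318 2346 (.cons 322 (.leaf 321 2352 (.cons 298 (.leaf 323 2360 (.cons 299 (.leaf 271 2171 (.leaf 300 2179 .nil)) .nil)) .nil)) .nil)) (.cons 270 (.leaf 269 2155 (.cons 271 (.leaf 298 2160 (.cons 246 (.leaf 245 1963 (.cons 222 (.leaf 198 1588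 (.leaf 319 1780 .nil)) .nil)) .nil)) .nil)) (.cons 270 (.leaf 269 2155 (.cons 318 (.leaf 317 2346 (.cons 321 (.leaf 322 2352 (.cons 345 (.leaf 369 2183 (.cons 346 (.leaf 370 2188 (.cons 319 (.leaf 320 2544 (.cons 343 (.leaf 367 2173 (.leaf 246 1972 .nil)) .nil)) .nil)) .nil)) .nil)) .nil)) .nil)) .nil)))) .nil)) .nil)) (.cons 273 (.leaf 274 2170 (.cons 294 t45 .nil)) .nil))))))))
noncomputable def t51 : T := .cons 318 (.leaf 317 2346 (.cons 319 (.leaf 298 2354 (.cons 248 (.leaf 224 1790 (.cons 343 (.leaf 271 1981 (.leaf 320 1982 .nil)) .nil)) .nil)) .nil)) (.cons 270 (.leaf 269 2155 (.cons 271 (.leaf 298 2160 (.cons 246 (.leaf 245 1963 (.cons 222 (.leaf 198 1588 (.leaf 319 1780 .nil)) .nil)) .nil)) .nil)) (.cons 318 (.leaf 317 2346 (.cons 269 (.leaf 270 2155 (.cons 319 (.leaf 298 2354 (.cons 248 (.leaf 224 1790 (.cons 343 (.leaf 320 1982 (.leaf 367 2173 .nil)) .nil)) .nil)) .nil))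 .nil)) (.cons 270 (.leaf 269 2155 (.cons 318 (.leaf 317 2346 (.cons 319 (.cons 343 (.leaf 367 2173 (.leaf 246 1972 .nil)) (.cons 246 (.leaf 222 1780 (.cons 245 (.leaf 271 1963 (.leaf 221 1775 .nil)) .nil)) (.cons 343 (.leaf 367 2173 (.cons 248 (.leaf 224 1790 (.leaf 271 1981 .nil)) .nil)) .nil))) .nil)) .nil)) (.cons 270 (.leaf 269 2155 (.cons 271 (.leaf 298 2160 (.cons 246 (.leaf 245 1963 (.cons 249 (.leaf 250 1969 (.cons 318 (.leaf 317 2346 (.cons 342 (.leaf 366 2165 (.cons 341 (.leaf 365 2158 (.cons 343 (.leaf 367 2164 (.cons 344 (.leaf 320 1989 (.cons 369 (.leaf 368 2728 (.cons 345 (.leaf 321 2183 (.leaf 370 2736 .nil)) .nil)) .nil)) .nil)) .nil)) .nil)) .nil)) .nil)) .nil)) .nil)) .nil)) .nil))))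
noncomputable def t52 : T := .cons 322 (.leaf 346 2005 (.cons 227 (.leaf 203 1622 (.leaf 299 1814 .nil)) .nil)) (.cons 227 (.leaf 203 1622 (.cons 299 (.cons 228 (.leaf 204 1629 (.cons 300 (.leaf 324 1820 (.cons 301 (.leaf 302 2195 (.cons 277 (.leaf 278 2193 (.cons 325 (.leaf 326 2384 (.cons 253 (.leaf 252 1831 (.cons 226 (.leaf 202 1623 (.cons 254 (.leaf 229 1808 (.leaf 230 1837 .nil)) .nil)) .nil)) .nil)) .nil)) .nil)) .nil)) .nil)) (.cons 228 (.leaf 204 1629 (.cons 252 (.leaf 323 1821 (.cons 253 (.leaf 254 2002 (.cons 300 (.leaf 324 1820 (.cons 301 (.leaf 302 2195 (.cons 277 (.leaf 278 2193 (.leaf 325 1831 .nil)) .nil)) .nil)) .nil)) .nil)) .nil)) (.cons 226 (.leaf 202 1623 (.cons 323 (.leaf 250 1812 (.cons 324 (.leaf 300 1820 (.leaf 348 2012 .nil)) .nil)) .nil)) (.cons 226 (.leaf 202 1623 (.cons 250 (.leaf 323 1812 (.cons 228 (.leaf 204 1629 (.cons 229 (.leaf 230 1810 (.leaf 249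 1802 .nil)) .nil)) .nil)) .nil)) .nil)))) .nil)) (.cons 322 (.leaf 346 2005 (.cons 321 (.cons 250 (.leaf 345 1998 (.cons 323 (.leaf 320 2363 (.leaf 347 2004 .nil)) .nil)) (.cons 250 (.leaf 345 1998 (.cons 323 (.leaf 347 2004 (.cons 299 (.leaf 226 1812 (.cons 324 (.leaf 348 2012 (.cons 301 (.leaf 300 2377 (.cons 325 (.leaf 326 2387 (.leaf 302 2385 .nil)) .nil)) .nil)) .nil)) .nil)) .nil)) (.cons 345 (.leaf 250 1998 (.cons 369 (.leaf 393 2381 (.cons 320 (.leaf 344 2180 (.cons 319 (.leaf 294 2355 (.leaf 299 2361 .nil)) .nil)) .nil)) .nil)) (.cons 320 (.leaf 323 2363 (.cons 319 (.leaf 294 2355 (.leaf 299 2361 .nil)) .nil)) .nil)))) .nil)) (.cons 322 (.leaf 346 2005 (.cons 227 (.leaf 203 1622 (.leaf 250 1813 .nil)) .nil)) .nil)))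
noncomputable def t53 : T := .cons 322 (.leaf 346 2005 (.cons 227 (.leaf 203 1622 (.leaf 299 1814 .nil)) .nil)) (.cons 322 (.leaf 346 2005 (.cons 321 (.cons 320 (.leaf 323 2363 (.cons 319 (.leaf 299 2361 (.cons 343 (.leaf 248 1982 (.leaf 367 2173 .nil)) .nil)) .nil)) (.cons 345 (.leaf 250 1998 (.cons 369 (.leaf 393 2381 (.cons 320 (.leaf 248 1988 (.leaf 344 2180 .nil)) .nil)) .nil)) (.cons 250 (.leaf 345 1998 (.cons 323 (.leaf 347 2004 (.cons 299 (.leaf 226 1812 (.cons 324 (.leaf 348 2012 (.cons 301 (.leaf 300 2377 (.cons 325 (.leaf 326 2387 (.leaf 302 2385 .nil)) .nil)) .nil)) .nil)) .nil)) .nil)) .nil))) .nil)) (.cons 227 (.leaf 203 1622 (.cons 299 (.cons 228 (.leaf 204 1629 (.cons 300 (.leaf 324 1820 (.cons 301 (.leaf 302 2195 (.cons 277 (.leaf 278 2193 (.cons 325 (.leaf 326 2384 (.cons 253 (.leaf 252 1831 (.cons 226 (.leaf 202 1623 (.cons 254 (.leaf 229 1808 (.leaf 230 1837 .nil))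 .nil)) .nil)) .nil)) .nil)) .nil)) .nil)) .nil)) (.cons 228 (.leaf 204 1629 (.cons 252 (.leaf 323 1821 (.cons 253 (.leaf 254 2002 (.cons 300 (.leaf 324 1820 (.cons 301 (.leaf 302 2195 (.cons 277 (.leaf 278 2193 (.leaf 325 1831 .nil)) .nil)) .nil)) .nil)) .nil)) .nil)) (.cons 226 (.leaf 202 1623 (.cons 323 (.leaf 250 1812 (.cons 324 (.leaf 300 1820 (.leaf 348 2012 .nil)) .nil)) .nil)) (.cons 226 (.leaf 202 1623 (.cons 250 (.leaf 323 1812 (.cons 228 (.leaf 204 1629 (.cons 249 (.leaf 248 1793 (.leaf 229 1802 .nil)) .nil)) .nil)) .nil)) .nil)))) .nil)) (.cons 322 (.leaf 346 2005 (.cons 227 (.leaf 203 1622 (.leaf 250 1813 .nil)) .nil)) .nil)))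
noncomputable def t54 : T := .cons 343 (.leaf 367 2173 (.cons 271 (.leaf 248 1981 (.cons 246 (.leaf 270 1975 (.cons 342 (.leaf 366 2166 (.cons 344 (.leaf 368 2172 (.cons 320 (.leaf 249 1989 (.cons 321 (.leaf 322 2546 (.leaf 341 2537 .nil)) .nil)) .nil)) .nil)) .nil)) .nil)) .nil)) (.cons 248 (.leaf 224 1790 (.cons 320 (.cons 344 (.leaf 249 1989 (.cons 368 (.leaf 271 2175 (.leaf 392 2367 .nil)) .nil)) (.cons 321 (.leaf 345 1988 (.leaf 322 2355 .nil)) .nil)) .nil)) (.cons 343 (.leaf 367 2173 (.cons 271 (.cons 246 (.leaf 270 1975 (.cons 342 (.leaf 366 2166 (.cons 344 (.leaf 368 2172 (.cons 320 (.leaf 249 1989 (.cons 321 (.leaf 322 2546 (.leaf 341 2537 .nil)) .nil)) .nil)) .nil)) .nil)) (.cons 342 (.leaf 366 2166 (.cons 344 (.leaf 368 2172 (.cons 320 (.leaf 249 1989 (.cons 321 (.leaf 322 2546 (.leaf 341 2537 .nil)) .nil)) .nil)) .nil)) (.cons 270 (.leaf 246 1975 (.cons 249 (.leaf 250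 1969 (.cons 269 (.leaf 268 2144 (.cons 245 (.leaf 244 1955 (.cons 342 (.leaf 366 2166 (.leaf 318 1967 .nil)) .nil)) .nil)) .nil)) .nil)) (.cons 246 (.leaf 270 1975 (.cons 344 (.leaf 368 2172 (.cons 320 (.leaf 249 1989 (.cons 345 (.leaf 369 2180 (.cons 318 (.leaf 317 2536 (.leaf 346 2547 .nil)) .nil)) .nil)) .nil)) .nil)) (.cons 270 (.leaf 246 1975 (.cons 269 (.leaf 268 2144 (.cons 245 (.leaf 244 1955 (.cons 342 (.leaf 366 2166 (.leaf 318 1967 .nil)) .nil)) .nil)) .nil)) .nil))))) .nil)) (.cons 343 (.leaf 367 2173 (.cons 248 (.leaf 224 1790 (.leaf 271 1981 .nil)) .nil)) (.cons 343 (.leaf 367 2173 (.cons 248 (.leaf 224 1790 (.leaf 320 1982 .nil)) .nil)) .nil))))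
noncomputable def t55 : T := .cons 293 (.leaf 273 2153 (.cons 268 (.leaf 269 2147 (.cons 292 (.leaf 271 2145 (.leaf 267 2139 .nil)) .nil)) .nil)) (.cons 297 (.cons 269 (.leaf 270 2155 (.cons 317 (.leaf 318 2346 (.cons 321 (.leaf 322 2352 (.cons 248 (.leaf 224 1796 (.cons 345 (.leaf 273 1991 (.leaf 320 1988 .nil)) .nil)) .nil)) .nil)) .nil)) (.cons 270 (.leaf 269 2155 (.cons 271 (.leaf 298 2163 (.cons 318 (.leaf 317 2346 (.cons 342 (.leaf 366 2165 (.cons 341 (.leaf 365 2158 (.cons 343 (.leaf 367 2164 (.cons 319 (.leaf 248 1981 (.leaf 246 1972 .nil)) .nil)) .nil)) .nil)) .nil)) .nil)) .nil)) (.cons 321 (.leaf 322 2352 (.cons 248 (.leaf 224 1796 (.cons 345 (.leaf 273 1991 (.leaf 320 1988 .nil)) .nil)) .nil)) (.cons 269 (.leaf 270 2155 (.cons 317 (.leaf 318 2346 (.cons 322 (.leaf 321 2352 (.cons 298 (.leaf 323 2360 (.cons 299 (.leaf 271 2171 (.cons 227 (.leaf 251 1814 (.cons 273 (.leaf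 300 2179 (.cons 320 (.leaf 319 2362 (.cons 344 (.leaf 249 1989 (.leaf 368 2181 .nil)) .nil)) .nil)) .nil)) .nil)) .nil)) .nil)) .nil)) .nil)) .nil)))) (.cons 293 (.cons 268 (.leaf 269 2147 (.cons 292 (.leaf 271 2145 (.leaf 267 2139 .nil)) .nil)) (.cons 268 (.leaf 269 2147 (.cons 317 (.leaf 316 2338 (.cons 297 (.leaf 318 2346 (.cons 322 (.leaf 321 2352 (.cons 298 (.leaf 323 2360 (.cons 271 (.leaf 299 2171 (.leaf 270 2163 .nil)) .nil)) .nil)) .nil)) .nil)) .nil)) (.cons 292 (.leaf 271 2145 (.cons 316 (.leaf 317 2338 (.leaf 315 2330 .nil)) .nil)) (.cons 268 (.leaf 269 2147 (.cons 292 (.leaf 267 2139 (.cons 316 (.leaf 317 2338 (.leaf 315 2330 .nil)) .nil)) .nil)) .nil)))) (.cons 293 (.leaf 273 2153 (.cons 268 (.leaf 269 2147 (.cons 292 (.leaf 267 2139 (.cons 316 (.leaf 317 2338 (.leaf 315 2330 .nil)) .nil)) .nil)) .nil)) (.cons 293 (.leaf 273 2153 (.cons 292 (.leaf 271 2145 (.cons 316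 (.leaf 317 2338 (.leaf 315 2330 .nil)) .nil)) .nil)) .nil))))
noncomputable def t56 : T := .cons 298 (.leaf 274 2169 (.cons 319 (.leaf 318 2354 (.cons 271 (.leaf 299 2171 (.leaf 270 2163 .nil)) .nil)) .nil)) (.cons 294 (.cons 321 (.leaf 322 2352 (.cons 293 (.leaf 320 2344 (.cons 317 (.leaf 316 2338 (.leaf 318 2346 .nil)) .nil)) .nil)) (.cons 269 (.leaf 270 2155 (.cons 293 (.leaf 268 2147 (.cons 292 (.leaf 271 2145 (.cons 316 (.leaf 317 2338 (.leaf 315 2330 .nil)) .nil)) .nil)) .nil)) (.cons 321 (.leaf 322 2352 (.cons 269 (.leaf 270 2155 (.cons 293 (.leaf 268 2147 (.leaf 320 2344 .nil)) .nil)) .nil)) (.cons 321 (.leaf 322 2352 (.cons 248 (.leaf 224 1796 (.cons 345 (.leaf 320 1988 (.leaf 369 2183 .nil)) .nil)) .nil)) .nil)))) (.cons 298 (.leaf 274 2169 (.cons 319 (.leaf 318 2354 (.cons 224 (.leaf 248 1790 (.cons 299 (.leaf 320 2362 (.cons 323 (.leaf 322 2360 (.leaf 324 2368 .nil)) .nil))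 .nil)) .nil)) .nil)) (.cons 298 (.leaf 274 2169 (.cons 322 (.leaf 323 2360 (.cons 321 (.leaf 294 2352 (.cons 248 (.leaf 224 1796 (.cons 345 (.leaf 320 1988 (.leaf 369 2183 .nil)) .nil)) .nil)) .nil)) .nil)) .nil)))
noncomputable def t57 : T := .cons 273 (.leaf 274 2170 (.cons 294 (.leaf 293 2153 (.cons 297 (.cons 270 (.leaf 269 2155 (.cons 271 (.leaf 298 2160 (.cons 246 (.leaf 245 1963 (.cons 222 (.leaf 198 1588 (.leaf 319 1780 .nil)) .nil)) .nil)) .nil)) (.cons 321 (.leaf 322 2352 (.cons 248 (.leaf 224 1796 (.leaf 345 1991 .nil)) .nil)) .nil)) .nil)) .nil)) (.cons 297 t56 (.cons 294 t55 (.cons 273 (.leaf 274 2170 (.cons 294 (.leaf 293 2153 (.cons 319 t54 .nil)) .nil)) (.cons 274 (.leaf 273 2170 (.cons 298 (.leaf 297 2169 (.cons 251 t53 .nil)) .nil)) (.cons 273 (.leaf 274 2170 (.cons 294 (.leaf 293 2153 (.cons 297 (.cons 270 (.leaf 269 2155 (.cons 298 (.leaf 271 2160 (.cons 299 (.leaf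 300 2179 (.cons 323 (.leaf 322 2360 (.leaf 324 2368 .nil)) .nil)) .nil)) .nil)) (.cons 321 (.leaf 322 2352 (.cons 248 (.leaf 224 1796 (.leaf 345 1991 .nil)) .nil)) (.cons 270 (.leaf 269 2155 (.cons 271 (.leaf 298 2160 (.cons 246 (.leaf 245 1963 (.cons 249 (.leaf 250 1969 (.cons 318 (.leaf 317 2346 (.cons 342 (.leaf 366 2165 (.cons 341 (.leaf 365 2158 (.cons 343 (.leaf 367 2164 (.cons 344 (.leaf 320 1989 (.cons 369 (.leaf 368 2728 (.cons 345 (.leaf 321 2183 (.leaf 370 2736 .nil)) .nil)) .nil)) .nil)) .nil)) .nil)) .nil)) .nil)) .nil)) .nil)) .nil)) .nil))) .nil)) .nil)) (.cons 274 (.leaf 273 2170 (.cons 298 (.leaf 297 2169 (.cons 251 t52 .nil)) .nil)) (.cons 273 (.leaf 274 2170 (.cons 294 (.leaf 293 2153 (.cons 297 (.cons 318 (.leaf 317 2346 (.cons 319 (.leaf 298 2354 (.cons 248 (.leaf 224 1790 (.cons 343 (.leaf 271 1981 (.leaf 320 1982 .nil)) .nil)) .nil)) .nil)) (.cons 270 (.leaf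 269 2155 (.cons 318 (.leaf 317 2346 (.cons 319 (.cons 343 (.leaf 367 2173 (.leaf 246 1972 .nil)) (.cons 246 (.leaf 222 1780 (.cons 245 (.leaf 271 1963 (.leaf 221 1775 .nil)) .nil)) (.cons 343 (.leaf 367 2173 (.cons 248 (.leaf 224 1790 (.leaf 271 1981 .nil)) .nil)) .nil))) .nil)) .nil)) (.cons 270 (.leaf 269 2155 (.cons 298 (.leaf 271 2160 (.cons 299 (.leaf 300 2179 (.cons 323 (.leaf 322 2360 (.leaf 324 2368 .nil)) .nil)) .nil)) .nil)) (.cons 318 (.leaf 317 2346 (.cons 269 (.leaf 270 2155 (.cons 319 (.leaf 298 2354 (.cons 248 (.leaf 224 1790 (.cons 343 (.leaf 320 1982 (.leaf 367 2173 .nil)) .nil)) .nil)) .nil)) .nil)) .nil)))) .nil)) .nil)) (.cons 273 (.leaf 274 2170 (.cons 294 (.leaf 293 2153 (.cons 297 t51 .nil)) .nil)) .nil))))))))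
noncomputable def t58 : T := .cons 317 (.leaf 318 2346 (.cons 321 (.leaf 322 2352 (.cons 345 (.leaf 369 2183 (.cons 344 (.leaf 368 2182 (.cons 320 (.leaf 249 1989 (.cons 247 (.leaf 271 1983 (.cons 343 (.leaf 367 2174 (.cons 342 (.leaf 341 2537 (.cons 346 (.leaf 370 2188 (.cons 347 (.leaf 348 2563 (.leaf 319 2555 .nil)) .nil)) .nil)) .nil)) .nil)) .nil)) .nil)) .nil)) .nil)) .nil)) (.cons 270 (.leaf 269 2155 (.cons 318 (.leaf 317 2346 (.cons 271 (.leaf 298 2160 (.cons 247 (.leaf 223 1782 (.leaf 342 1973 .nil)) .nil)) .nil)) .nil)) (.cons 270 (.leaf 269 2155 (.cons 271 (.leaf 298 2160 (.cons 245 (.leaf 246 1963 (.cons 249 (.leaf 250 1969 (.cons 321 (.leaf 322 2352 (.cons 344 (.leaf 320 1989 (.cons 345 (.leaf 369 2183 (.leaf 368 2182 .nil)) .nil)) .nil)) .nil)) .nil)) .nil)) .nil)) (.cons 321 (.leaf 322 2352 (.cons 269 (.leaf 270 2155 (.cons 345 (.leaf 369 2183 (.cons 344 (.leaf 368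 2182 (.cons 320 (.leaf 249 1989 (.cons 318 (.leaf 317 2346 (.cons 319 (.leaf 298 2353 (.leaf 346 2544 .nil)) .nil)) .nil)) .nil)) .nil)) .nil)) .nil)) .nil)))
noncomputable def t59 : T := .cons 343 (.leaf 367 2173 (.cons 248 (.leaf 224 1790 (.leaf 271 1981 .nil)) .nil)) (.cons 248 (.leaf 224 1790 (.cons 320 (.cons 223 (.leaf 247 1791 (.cons 344 (.leaf 249 1989 (.cons 368 (.leaf 271 2175 (.leaf 392 2367 .nil)) .nil)) .nil)) (.cons 321 (.leaf 345 1988 (.leaf 322 2355 .nil)) .nil)) .nil)) (.cons 343 (.leaf 367 2173 (.cons 271 (.cons 342 (.leaf 366 2166 (.cons 247 (.leaf 318 1974 (.cons 223 (.leaf 199 1596 (.leaf 320 1788 .nil)) .nil)) .nil)) (.cons 246 (.leaf 270 1975 (.cons 342 (.leaf 366 2166 (.cons 344 (.leaf 368 2172 (.cons 320 (.leaf 249 1989 (.cons 321 (.leaf 322 2546 (.leaf 341 2537 .nil)) .nil)) .nil)) .nil)) .nil)) (.cons 246 (.leaf 270 1975 (.cons 344 (.leaf 368 2172 (.cons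 247 (.leaf 320 1980 (.leaf 222 1783 .nil)) .nil)) .nil)) (.cons 270 (.leaf 246 1975 (.cons 249 (.leaf 250 1969 (.cons 269 (.leaf 268 2144 (.cons 245 (.leaf 244 1955 (.cons 342 (.leaf 366 2166 (.leaf 318 1967 .nil)) .nil)) .nil)) .nil)) .nil)) .nil)))) .nil)) (.cons 343 (.leaf 367 2173 (.cons 248 (.leaf 224 1790 (.leaf 320 1982 .nil)) .nil)) .nil)))
noncomputable def t60 : T := .cons 223 (.leaf 247 1791 (.cons 345 (.leaf 321 1988 (.cons 344 (.leaf 369 2180 (.cons 367 (.leaf 343 2174 (.cons 368 (.leaf 271 2175 (.leaf 391 2366 .nil)) .nil)) .nil)) .nil)) .nil)) (.cons 319 (.leaf 343 1982 (.cons 317 (.leaf 318 2345 (.cons 345 (.leaf 321 1988 (.cons 344 (.leaf 369 2180 (.cons 368 (.leaf 271 2175 (.leaf 392 2367 .nil)) .nil)) .nil)) .nil)) .nil)) (.cons 247 (.leaf 223 1791 (.cons 249 (.leaf 250 1976 (.cons 344 (.leaf 271 1983 (.cons 369 (.leaf 345 2180 (.cons 368 (.leaf 393 2372 (.cons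 391 (.leaf 367 2366 (.cons 392 (.leaf 319 2367 (.leaf 321 2373 .nil)) .nil)) .nil)) .nil)) .nil)) .nil)) .nil)) (.cons 247 (.leaf 223 1791 (.cons 249 (.leaf 250 1976 (.cons 344 (.leaf 271 1983 (.cons 369 (.leaf 345 2180 (.cons 368 (.leaf 393 2372 (.cons 391 (.leaf 367 2366 (.cons 392 (.leaf 319 2367 (.leaf 415 2558 .nil)) .nil)) .nil)) .nil)) .nil)) .nil)) .nil)) (.cons 247 (.leaf 223 1791 (.cons 249 (.leaf 250 1976 (.cons 319 (.leaf 343 1982 (.cons 318 (.leaf 317 2345 (.cons 271 (.leaf 344 1980 (.leaf 342 1974 .nil)) .nil)) .nil)) .nil)) .nil)) (.cons 343 (.leaf 319 1982 (.cons 223 (.leaf 247 1791 (.cons 344 (.leaf 367 2174 (.cons 345 (.leaf 321 1988 (.leaf 369 2180 .nil)) .nil)) .nil)) .nil)) (.cons 319 (.leaf 343 1982 (.cons 247 (.leaf 223 1791 (.cons 318 (.leaf 317 2345 (.cons 271 (.leaf 342 1974 (.cons 246 (.leaf 222 1783 (.cons 269 (.leaf 270 2152 (.cons 245 (.leaf 244 1952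 (.leaf 268 1954 .nil)) .nil)) .nil)) .nil)) .nil)) .nil)) .nil)) .nil))))))
noncomputable def t61 : T := .cons 273 (.leaf 274 2170 (.cons 294 (.leaf 293 2153 (.cons 297 (.cons 269 (.leaf 270 2155 (.cons 317 (.leaf 318 2346 (.cons 321 (.leaf 322 2352 (.cons 248 (.leaf 224 1796 (.leaf 345 1991 .nil)) .nil)) .nil)) .nil)) (.cons 269 (.leaf 270 2155 (.cons 318 (.leaf 317 2346 (.cons 319 (.leaf 298 2354 (.cons 248 (.leaf 224 1790 (.cons 343 (.leaf 320 1982 (.leaf 367 2173 .nil)) .nil)) .nil)) .nil)) .nil)) (.cons 321 (.leaf 322 2352 (.cons 269 (.leaf 270 2155 (.cons 345 (.leaf 248 1991 (.leaf 369 2183 .nil)) .nil)) .nil)) (.cons 269 (.leaf 270 2155 (.cons 317 (.leaf 318 2346 (.cons 321 (.leaf 322 2352 (.cons 345 (.leaf 369 2183 (.cons 344 (.leaf 368 2182 (.cons 320 (.leaf 249 1989 (.cons 346 (.leaf 370 2188 (.cons 347 (.leaf 348 2563 (.leaf 319 2555 .nil)) .nil)) .nil)) .nil)) .nil)) .nil))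 .nil)) .nil)) (.cons 321 (.leaf 322 2352 (.cons 248 (.leaf 224 1796 (.leaf 345 1991 .nil)) .nil)) .nil))))) .nil)) .nil)) (.cons 274 (.leaf 273 2170 (.cons 297 (.leaf 298 2169 (.cons 248 (.cons 224 (.leaf 319 1790 (.leaf 321 1796 .nil)) (.cons 320 t60 (.cons 224 (.leaf 321 1796 (.cons 199 (.leaf 223 1599 (.cons 200 (.leaf 175 1407 (.leaf 271 1598 .nil)) .nil)) .nil)) (.cons 319 (.leaf 224 1790 (.cons 343 (.leaf 271 1981 (.leaf 320 1982 .nil)) .nil)) .nil)))) .nil)) .nil)) (.cons 273 (.leaf 274 2170 (.cons 294 (.leaf 293 2153 (.cons 319 t59 .nil)) .nil)) (.cons 273 (.leaf 274 2170 (.cons 294 (.leaf 293 2153 (.cons 297 t58 .nil)) .nil)) (.cons 273 (.leaf 274 2170 (.cons 294 (.leaf 293 2153 (.cons 297 (.cons 317 (.leaf 318 2346 (.cons 321 (.leaf 322 2352 (.cons 248 (.leaf 224 1796 (.leaf 345 1991 .nil)) .nil)) .nil)) (.cons 270 (.leaf 269 2155 (.cons 318 (.leaf 317 2346 (.cons 271 (.leaf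 298 2160 (.cons 247 (.leaf 223 1782 (.leaf 342 1973 .nil)) .nil)) .nil)) .nil)) (.cons 270 (.leaf 269 2155 (.cons 271 (.leaf 298 2160 (.cons 246 (.leaf 245 1963 (.cons 222 (.leaf 198 1588 (.leaf 319 1780 .nil)) .nil)) .nil)) .nil)) .nil))) .nil)) .nil)) (.cons 273 (.leaf 274 2170 (.cons 294 (.leaf 293 2153 (.cons 297 (.cons 270 (.leaf 269 2155 (.cons 318 (.leaf 317 2346 (.cons 271 (.leaf 298 2160 (.cons 247 (.leaf 223 1782 (.leaf 342 1973 .nil)) .nil)) .nil)) .nil)) (.cons 318 (.leaf 317 2346 (.cons 319 (.leaf 298 2354 (.cons 248 (.leaf 224 1790 (.cons 343 (.leaf 271 1981 (.leaf 320 1982 .nil)) .nil)) .nil)) .nil)) (.cons 270 (.leaf 269 2155 (.cons 271 (.leaf 298 2160 (.cons 246 (.leaf 245 1963 (.cons 222 (.leaf 198 1588 (.leaf 319 1780 .nil)) .nil)) .nil)) .nil)) (.cons 318 (.leaf 317 2346 (.cons 270 (.leaf 269 2155 (.cons 319 (.leaf 298 2354 (.cons 246 (.leaf 222 1780 (.leaf 343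 1972 .nil)) .nil)) .nil)) .nil)) (.cons 270 (.leaf 269 2155 (.cons 318 (.leaf 317 2346 (.cons 271 (.cons 247 (.leaf 223 1782 (.leaf 342 1973 .nil)) (.cons 246 (.leaf 245 1963 (.cons 222 (.leaf 198 1588 (.leaf 319 1780 .nil)) .nil)) .nil)) .nil)) .nil)) .nil))))) .nil)) .nil)) (.cons 273 (.leaf 274 2170 (.cons 294 (.leaf 293 2153 (.cons 297 (.cons 317 (.leaf 318 2346 (.cons 321 (.leaf 322 2352 (.cons 345 (.leaf 248 1991 (.leaf 369 2183 .nil)) .nil)) .nil)) (.cons 318 (.leaf 317 2346 (.cons 319 (.leaf 298 2354 (.cons 248 (.leaf 224 1790 (.cons 343 (.leaf 271 1981 (.leaf 320 1982 .nil)) .nil)) .nil)) .nil)) (.cons 321 (.leaf 322 2352 (.cons 248 (.leaf 224 1796 (.leaf 345 1991 .nil)) .nil)) (.cons 317 (.leaf 318 2346 (.cons 321 (.leaf 322 2352 (.cons 345 (.leaf 369 2183 (.cons 344 (.leaf 368 2182 (.cons 320 (.leaf 249 1989 (.cons 247 (.leaf 271 1983 (.cons 343 (.leaf 367 2174 (.cons 342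 (.leaf 341 2537 (.cons 346 (.leaf 370 2188 (.cons 347 (.leaf 348 2563 (.leaf 319 2555 .nil)) .nil)) .nil)) .nil)) .nil)) .nil)) .nil)) .nil)) .nil)) .nil)) .nil)))) .nil)) .nil)) (.cons 273 (.leaf 274 2170 (.cons 294 (.leaf 293 2153 (.cons 297 (.cons 270 (.leaf 269 2155 (.cons 271 (.leaf 298 2160 (.cons 245 (.leaf 246 1963 (.cons 249 (.leaf 250 1969 (.cons 321 (.leaf 322 2352 (.cons 344 (.leaf 320 1989 (.cons 345 (.leaf 248 1991 (.leaf 369 2183 .nil)) .nil)) .nil)) .nil)) .nil)) .nil)) .nil)) (.cons 270 (.leaf 269 2155 (.cons 271 (.leaf 298 2160 (.cons 246 (.leaf 245 1963 (.cons 222 (.leaf 198 1588 (.leaf 319 1780 .nil)) .nil)) .nil)) .nil)) (.cons 321 (.leaf 322 2352 (.cons 248 (.leaf 224 1796 (.leaf 345 1991 .nil)) .nil)) .nil))) .nil)) .nil)) .nil)))))))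
noncomputable def t62 : T := .cons 273 (.leaf 274 2170 (.cons 294 (.leaf 293 2153 (.cons 297 (.cons 317 (.leaf 318 2346 (.cons 321 (.leaf 322 2352 (.cons 345 (.leaf 248 1991 (.leaf 369 2183 .nil)) .nil)) .nil)) (.cons 270 (.leaf 269 2155 (.cons 318 (.leaf 317 2346 (.cons 271 (.leaf 298 2160 (.cons 247 (.leaf 223 1782 (.leaf 342 1973 .nil)) .nil)) .nil)) .nil)) (.cons 270 (.leaf 269 2155 (.cons 271 (.leaf 298 2160 (.cons 245 (.leaf 246 1963 (.cons 249 (.leaf 250 1969 (.cons 321 (.leaf 322 2352 (.cons 344 (.leaf 320 1989 (.cons 345 (.leaf 248 1991 (.leaf 369 2183 .nil)) .nil)) .nil)) .nil)) .nil)) .nil)) .nil)) .nil))) .nil)) .nil)) (.cons 319 (.cons 343 (.leaf 367 2173 (.cons 248 (.leaf 224 1790 (.leaf 271 1981 .nil)) .nil)) (.cons 248 (.leaf 224 1790 (.cons 320 (.cons 321 (.leaf 345 1988 (.cons 294 (.leaf 293 2344 (.leaf 322 2355 .nil)) .nil)) (.cons 247 (.leaf 223 1791 (.cons 271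 (.leaf 344 1980 (.cons 318 (.leaf 342 1974 (.cons 297 (.leaf 298 2354 (.leaf 317 2345 .nil)) .nil)) .nil)) .nil)) .nil)) .nil)) (.cons 343 (.leaf 367 2173 (.cons 271 (.cons 270 (.leaf 246 1975 (.cons 269 (.leaf 297 2152 (.leaf 268 2144 .nil)) .nil)) (.cons 344 (.leaf 368 2172 (.cons 247 (.leaf 320 1980 (.cons 342 (.leaf 318 1974 (.leaf 366 2166 .nil)) .nil)) .nil)) .nil)) .nil)) (.cons 343 (.leaf 367 2173 (.cons 248 (.leaf 224 1790 (.leaf 320 1982 .nil)) .nil)) .nil)))) t61)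
noncomputable def t63 : T := .cons 249 (.leaf 273 1989 (.cons 343 (.leaf 367 2174 (.cons 319 (.leaf 248 1982 (.cons 345 (.leaf 369 2180 (.cons 318 (.leaf 317 2536 (.leaf 346 2547 .nil)) .nil)) .nil)) .nil)) .nil)) (.cons 345 (.leaf 369 2180 (.cons 248 (.leaf 321 1988 (.cons 273 (.leaf 249 1989 (.cons 274 (.leaf 295 2170 (.cons 251 (.leaf 252 1985 (.cons 250 (.leaf 271 1977 (.cons 299 (.leaf 300 2176 (.cons 323 (.leaf 226 1815 (.leaf 347 2007 .nil)) .nil)) .nil)) .nil)) .nil)) .nil)) .nil)) .nil)) (.cons 343 (.leaf 367 2174 (.cons 248 (.leaf 319 1982 (.cons 273 (.leaf 249 1989 (.cons 274 (.leaf 295 2170 (.cons 251 (.leaf 252 1985 (.cons 250 (.leaf 271 1977 (.cons 299 (.leaf 300 2176 (.cons 226 (.leaf 202 1620 (.leaf 323 1815 .nil)) .nil)) .nil)) .nil)) .nil)) .nil)) .nil)) .nil)) (.cons 343 (.leaf 367 2174 (.cons 248 (.leaf 319 1982 (.cons 345 (.leaf 321 1988 (.leaf 369 2180 .nil))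 .nil)) .nil)) (.cons 273 (.leaf 249 1989 (.cons 274 (.leaf 295 2170 (.cons 251 (.leaf 252 1985 (.cons 250 (.leaf 271 1977 (.cons 299 (.leaf 300 2176 (.cons 226 (.leaf 202 1620 (.leaf 323 1815 .nil)) .nil)) .nil)) .nil)) .nil)) .nil)) .nil))))
noncomputable def t64 : T := .cons 247 (.leaf 223 1791 (.cons 274 (.leaf 273 1979 (.cons 250 (.leaf 249 1976 (.cons 321 (.leaf 345 1988 (.cons 319 (.leaf 343 1982 (.cons 322 (.cons 347 (.leaf 346 2552 (.cons 323 (.leaf 299 2007 (.leaf 295 2363 .nil)) .nil)) (.cons 347 (.leaf 346 2552 (.cons 323 (.leaf 299 2007 (.leaf 348 2560 .nil)) .nil)) (.cons 298 (.leaf 299 2361 (.cons 251 (.leaf 346 2005 (.leaf 227 1813 .nil)) .nil)) (.cons 347 (.leaf 346 2552 (.cons 323 (.leaf 295 2363 (.leaf 348 2560 .nil)) .nil)) (.cons 295 (.leaf 224 1790 (.leaf 323 2363 .nil)) .nil))))) .nil)) .nil)) .nil)) .nil)) .nil)) (.cons 319 (.leaf 343 1982 (.cons 295 (.leaf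 224 1790 (.cons 273 (.leaf 274 2170 (.cons 294 (.leaf 293 2153 (.cons 321 (.leaf 345 1988 (.leaf 322 2355 .nil)) .nil)) .nil)) .nil)) .nil)) (.cons 247 (.leaf 223 1791 (.cons 274 (.leaf 273 1979 (.cons 250 (.leaf 249 1976 (.cons 321 (.leaf 345 1988 (.cons 323 (.cons 322 (.leaf 295 2363 (.cons 347 (.leaf 299 2007 (.leaf 348 2560 .nil)) .nil)) (.cons 322 (.leaf 295 2363 (.cons 347 (.leaf 348 2560 (.leaf 298 2004 .nil)) .nil)) (.cons 299 (.leaf 347 2007 (.cons 226 (.leaf 202 1620 (.leaf 251 1815 .nil)) .nil)) (.cons 322 (.leaf 295 2363 (.cons 299 (.leaf 300 2369 (.cons 226 (.leaf 202 1620 (.leaf 251 1815 .nil)) .nil)) .nil)) .nil)))) .nil)) .nil)) .nil)) .nil)) (.cons 319 (.leaf 343 1982 (.cons 223 (.leaf 247 1791 (.cons 224 (.leaf 199 1599 (.leaf 295 1790 .nil)) .nil)) .nil)) (.cons 247 (.leaf 223 1791 (.cons 274 (.leaf 273 1979 (.cons 319 (.leaf 343 1982 (.cons 321 (.leaf 345 1988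 (.cons 250 (.leaf 249 1976 (.cons 322 (.cons 347 (.leaf 346 2552 (.cons 323 (.leaf 299 2007 (.leaf 348 2560 .nil)) .nil)) (.cons 347 (.leaf 346 2552 (.cons 323 (.leaf 348 2560 (.leaf 298 2004 .nil)) .nil)) (.cons 298 (.leaf 299 2361 (.cons 251 (.leaf 346 2005 (.leaf 227 1813 .nil)) .nil)) (.cons 299 (.leaf 298 2361 (.cons 323 (.leaf 347 2007 (.leaf 300 2369 .nil)) .nil)) .nil)))) .nil)) .nil)) .nil)) .nil)) .nil)) .nil))))
noncomputable def t65 : T := .cons 344 (.cons 247 (.leaf 271 1983 (.cons 248 (.leaf 223 1791 (.cons 343 (.leaf 319 1982 (.leaf 367 2174 .nil)) .nil)) .nil)) (.cons 247 (.leaf 271 1983 (.cons 248 (.leaf 223 1791 (.cons 273 (.leaf 274 1979 (.leaf 249 1989 .nil)) .nil)) .nil)) (.cons 273 (.leaf 249 1989 (.cons 274 (.leaf 295 2170 (.cons 248 (.leaf 247 1979 (.cons 343 (.leaf 319 1982 (.leaf 367 2174 .nil)) .nil)) .nil)) .nil)) (.cons 249 (.leaf 273 1989 (.cons 369 (.leaf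 345 2180 (.cons 368 (.leaf 393 2372 (.cons 295 (.leaf 271 2175 (.cons 391 (.leaf 367 2366 (.cons 392 (.leaf 319 2367 (.leaf 415 2558 .nil)) .nil)) .nil)) .nil)) .nil)) .nil)) .nil)))) (.cons 248 t64 (.cons 344 (.cons 249 (.leaf 273 1989 (.cons 271 (.leaf 247 1983 (.cons 368 (.leaf 295 2175 (.cons 369 (.leaf 345 2180 (.leaf 393 2372 .nil)) .nil)) .nil)) .nil)) (.cons 367 (.leaf 343 2174 (.cons 368 (.leaf 391 2366 (.cons 369 (.leaf 345 2180 (.leaf 393 2372 .nil)) .nil)) .nil)) (.cons 271 (.leaf 247 1983 (.cons 273 (.leaf 249 1989 (.cons 274 (.leaf 295 2170 (.cons 299 (.leaf 300 2176 (.leaf 298 2168 .nil)) .nil)) .nil)) .nil)) .nil))) (.cons 344 (.cons 367 (.leaf 343 2174 (.cons 368 (.leaf 391 2366 (.cons 369 (.leaf 345 2180 (.leaf 393 2372 .nil)) .nil)) .nil)) (.cons 247 (.leaf 271 1983 (.cons 248 (.leaf 223 1791 (.cons 273 (.leaf 274 1979 (.leaf 249 1989 .nil)) .nil)) .nil)) .nil))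 (.cons 344 (.cons 247 (.leaf 271 1983 (.cons 248 (.leaf 223 1791 (.cons 343 (.leaf 319 1982 (.leaf 367 2174 .nil)) .nil)) .nil)) (.cons 247 (.leaf 271 1983 (.cons 248 (.leaf 223 1791 (.cons 345 (.leaf 321 1988 (.leaf 369 2180 .nil)) .nil)) .nil)) (.cons 343 (.leaf 367 2174 (.cons 248 (.leaf 319 1982 (.cons 345 (.leaf 321 1988 (.leaf 369 2180 .nil)) .nil)) .nil)) (.cons 271 (.leaf 247 1983 (.cons 343 (.leaf 367 2174 (.cons 368 (.leaf 295 2175 (.cons 369 (.leaf 345 2180 (.leaf 393 2372 .nil)) .nil)) .nil)) .nil)) .nil)))) (.cons 344 t63 (.cons 344 (.cons 273 (.leaf 249 1989 (.cons 274 (.leaf 295 2170 (.cons 251 (.leaf 252 1985 (.cons 250 (.leaf 271 1977 (.cons 299 (.leaf 300 2176 (.cons 226 (.leaf 202 1620 (.leaf 323 1815 .nil)) .nil)) .nil)) .nil)) .nil)) .nil)) (.cons 273 (.leaf 249 1989 (.cons 274 (.leaf 295 2170 (.cons 248 (.leaf 247 1979 (.cons 345 (.leaf 321 1988 (.leaf 369 2180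 .nil)) .nil)) .nil)) .nil)) (.cons 247 (.leaf 271 1983 (.cons 248 (.leaf 223 1791 (.cons 345 (.leaf 321 1988 (.leaf 369 2180 .nil)) .nil)) .nil)) .nil))) (.cons 344 (.cons 247 (.leaf 271 1983 (.cons 248 (.leaf 223 1791 (.cons 343 (.leaf 319 1982 (.leaf 367 2174 .nil)) .nil)) .nil)) (.cons 273 (.leaf 249 1989 (.cons 274 (.leaf 295 2170 (.cons 251 (.leaf 252 1985 (.cons 250 (.leaf 271 1977 (.cons 299 (.leaf 300 2176 (.cons 226 (.leaf 202 1620 (.leaf 323 1815 .nil)) .nil)) .nil)) .nil)) .nil)) .nil)) (.cons 273 (.leaf 249 1989 (.cons 274 (.leaf 295 2170 (.cons 248 (.leaf 247 1979 (.cons 343 (.leaf 319 1982 (.leaf 367 2174 .nil)) .nil)) .nil)) .nil)) .nil))) .nil)))))))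
noncomputable def t66 : T := .cons 224 (.leaf 319 1790 (.cons 199 (.leaf 223 1599 (.cons 200 (.leaf 175 1407 (.leaf 297 1604 .nil)) .nil)) .nil)) (.cons 320 (.cons 223 (.leaf 247 1791 (.cons 321 (.leaf 345 1988 (.cons 344 (.leaf 249 1989 (.cons 368 (.leaf 297 2181 (.cons 367 (.leaf 343 2174 (.leaf 391 2366 .nil)) .nil)) .nil)) .nil)) .nil)) (.cons 319 (.leaf 343 1982 (.cons 247 (.leaf 223 1791 (.cons 246 (.leaf 245 1960 (.cons 270 (.leaf 222 1780 (.cons 297 (.leaf 269 2155 (.cons 318 (.leaf 317 2345 (.leaf 298 2354 .nil)) .nil)) .nil)) .nil)) .nil)) .nil)) (.cons 344 (.leaf 249 1989 (.cons 345 (.leaf 321 1988 (.leaf 369 2180 .nil)) .nil)) .nil))) (.cons 224 (.cons 199 (.leaf 223 1599 (.cons 200 (.leaf 175 1407 (.leaf 297 1604 .nil)) .nil)) (.cons 223 (.leaf 199 1599 (.cons 247 (.leaf 320 1791 (.cons 246 (.leaf 245 1960 (.cons 270 (.leaf 318 1781 (.cons 249 (.leaf 269 1962 (.cons 222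 (.leaf 221 1768 (.leaf 250 1779 .nil)) .nil)) .nil)) .nil)) .nil)) .nil)) (.cons 200 (.leaf 297 1604 (.cons 176 (.leaf 249 1412 (.cons 151 (.leaf 175 1215 (.cons 152 (.leaf 127 1023 (.cons 177 (.leaf 201 1413 (.leaf 153 1221 .nil)) .nil)) .nil)) .nil)) .nil)) .nil))) (.cons 319 (.leaf 224 1790 (.cons 343 (.leaf 320 1982 (.leaf 367 2173 .nil)) .nil)) .nil)))
noncomputable def t67 : T := .cons 319 (.leaf 224 1790 (.cons 343 (.leaf 320 1982 (.leaf 367 2173 .nil)) .nil)) (.cons 224 (.cons 199 (.leaf 223 1599 (.cons 200 (.leaf 175 1407 (.leaf 297 1604 .nil)) .nil)) (.cons 223 (.leaf 199 1599 (.cons 247 (.leaf 320 1791 (.cons 246 (.leaf 245 1960 (.cons 270 (.leaf 318 1781 (.cons 269 (.leaf 297 2155 (.leaf 249 1962 .nil)) .nil)) .nil)) .nil)) .nil)) (.cons 200 (.leaf 297 1604 (.cons 176 (.leaf 249 1412 (.cons 151 (.leaf 175 1215 (.cons 152 (.leaf 127 1023 (.cons 177 (.leaf 201 1413 (.leaf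 153 1221 .nil)) .nil)) .nil)) .nil)) .nil)) (.cons 223 (.leaf 199 1599 (.cons 247 (.leaf 320 1791 (.cons 246 (.leaf 245 1960 (.cons 270 (.leaf 318 1781 (.cons 249 (.leaf 269 1962 (.cons 222 (.leaf 221 1768 (.leaf 250 1779 .nil)) .nil)) .nil)) .nil)) .nil)) .nil)) .nil)))) (.cons 320 (.cons 223 (.leaf 247 1791 (.cons 344 (.leaf 249 1989 (.cons 343 (.leaf 319 1982 (.leaf 367 2174 .nil)) .nil)) .nil)) (.cons 319 (.leaf 343 1982 (.cons 247 (.leaf 223 1791 (.cons 246 (.leaf 245 1960 (.cons 270 (.leaf 222 1780 (.cons 297 (.leaf 269 2155 (.cons 318 (.leaf 317 2345 (.leaf 298 2354 .nil)) .nil)) .nil)) .nil)) .nil)) .nil)) (.cons 344 (.leaf 249 1989 (.cons 223 (.leaf 247 1791 (.cons 343 (.leaf 367 2174 (.cons 368 (.leaf 297 2181 (.cons 369 (.leaf 345 2180 (.leaf 393 2372 .nil)) .nil)) .nil)) .nil)) .nil)) (.cons 344 (.leaf 249 1989 (.cons 223 (.leaf 247 1791 (.cons 297 (.leaf 368 2181 (.cons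 269 (.leaf 270 2155 (.cons 318 (.leaf 317 2346 (.cons 298 (.leaf 319 2354 (.cons 299 (.leaf 300 2179 (.cons 323 (.leaf 322 2360 (.leaf 324 2368 .nil)) .nil)) .nil)) .nil)) .nil)) .nil)) .nil)) .nil)) (.cons 344 (.leaf 249 1989 (.cons 343 (.leaf 319 1982 (.leaf 367 2174 .nil)) .nil)) .nil))))) (.cons 224 (.leaf 319 1790 (.cons 199 (.leaf 223 1599 (.cons 200 (.leaf 175 1407 (.leaf 297 1604 .nil)) .nil)) .nil)) .nil)))
noncomputable def t68 : T := .cons 322 (.leaf 346 2005 (.cons 227 (.leaf 203 1622 (.leaf 299 1814 .nil)) .nil)) (.cons 227 (.leaf 203 1622 (.cons 299 (.cons 300 (.leaf 324 1820 (.cons 228 (.leaf 204 1629 (.cons 301 (.leaf 302 2195 (.cons 277 (.leaf 278 2193 (.cons 325 (.leaf 326 2384 (.cons 253 (.leaf 252 1831 (.cons 226 (.leaf 202 1623 (.cons 254 (.leaf 229 1808 (.leaf 230 1837 .nil)) .nil)) .nil)) .nil)) .nil)) .nil)) .nil)) .nil)) (.cons 228 (.leaf 204 1629 (.cons 252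 (.leaf 323 1821 (.cons 253 (.leaf 254 2002 (.cons 300 (.leaf 324 1820 (.cons 301 (.leaf 302 2195 (.cons 277 (.leaf 278 2193 (.leaf 325 1831 .nil)) .nil)) .nil)) .nil)) .nil)) .nil)) (.cons 226 (.leaf 202 1623 (.cons 323 (.leaf 250 1812 (.cons 324 (.leaf 300 1820 (.leaf 348 2012 .nil)) .nil)) .nil)) (.cons 226 (.leaf 202 1623 (.cons 250 (.leaf 323 1812 (.cons 228 (.leaf 204 1629 (.cons 229 (.leaf 230 1810 (.leaf 249 1802 .nil)) .nil)) .nil)) .nil)) .nil)))) .nil)) (.cons 322 (.leaf 346 2005 (.cons 321 (.cons 320 (.leaf 323 2363 (.cons 319 (.leaf 294 2355 (.leaf 299 2361 .nil)) .nil)) (.cons 250 (.leaf 345 1998 (.cons 323 (.leaf 347 2004 (.cons 299 (.leaf 226 1812 (.cons 324 (.leaf 348 2012 (.cons 301 (.leaf 300 2377 (.cons 325 (.leaf 326 2387 (.leaf 302 2385 .nil)) .nil)) .nil)) .nil)) .nil)) .nil)) (.cons 345 (.leaf 250 1998 (.cons 369 (.leaf 393 2381 (.cons 320 (.leaf 344 2180 (.cons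 319 (.leaf 294 2355 (.leaf 299 2361 .nil)) .nil)) .nil)) .nil)) (.cons 320 (.leaf 323 2363 (.cons 294 (.leaf 293 2344 (.leaf 319 2355 .nil)) .nil)) .nil)))) .nil)) (.cons 322 (.leaf 346 2005 (.cons 227 (.leaf 203 1622 (.leaf 250 1813 .nil)) .nil)) .nil)))
noncomputable def t69 : T := .cons 322 (.leaf 346 2005 (.cons 227 (.leaf 203 1622 (.leaf 299 1814 .nil)) .nil)) (.cons 322 (.leaf 346 2005 (.cons 321 (.cons 320 (.leaf 323 2363 (.cons 319 (.leaf 299 2361 (.cons 343 (.leaf 248 1982 (.leaf 367 2173 .nil)) .nil)) .nil)) (.cons 345 (.leaf 250 1998 (.cons 369 (.leaf 393 2381 (.cons 320 (.leaf 248 1988 (.leaf 344 2180 .nil)) .nil)) .nil)) (.cons 250 (.leaf 345 1998 (.cons 323 (.leaf 347 2004 (.cons 299 (.leaf 226 1812 (.cons 324 (.leaf 348 2012 (.cons 301 (.leaf 300 2377 (.cons 325 (.leaf 326 2387 (.leaf 302 2385 .nil)) .nil)) .nil)) .nil)) .nil)) .nil)) .nil))) .nil)) (.cons 227 (.leaf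 203 1622 (.cons 299 (.cons 300 (.leaf 324 1820 (.cons 228 (.leaf 204 1629 (.cons 301 (.leaf 302 2195 (.cons 277 (.leaf 278 2193 (.cons 325 (.leaf 326 2384 (.cons 253 (.leaf 252 1831 (.cons 226 (.leaf 202 1623 (.cons 254 (.leaf 229 1808 (.leaf 230 1837 .nil)) .nil)) .nil)) .nil)) .nil)) .nil)) .nil)) .nil)) (.cons 228 (.leaf 204 1629 (.cons 252 (.leaf 323 1821 (.cons 253 (.leaf 254 2002 (.cons 300 (.leaf 324 1820 (.cons 301 (.leaf 302 2195 (.cons 277 (.leaf 278 2193 (.leaf 325 1831 .nil)) .nil)) .nil)) .nil)) .nil)) .nil)) (.cons 226 (.leaf 202 1623 (.cons 323 (.leaf 250 1812 (.cons 324 (.leaf 300 1820 (.leaf 348 2012 .nil)) .nil)) .nil)) (.cons 226 (.leaf 202 1623 (.cons 250 (.leaf 323 1812 (.cons 228 (.leaf 204 1629 (.cons 249 (.leaf 248 1793 (.leaf 229 1802 .nil)) .nil)) .nil)) .nil)) .nil)))) .nil)) (.cons 322 (.leaf 346 2005 (.cons 227 (.leaf 203 1622 (.leaf 250 1813 .nil)) .nil))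 .nil)))
noncomputable def t70 : T := .cons 273 (.leaf 274 2170 (.cons 293 (.leaf 294 2153 (.cons 344 (.leaf 249 1989 (.cons 343 (.leaf 367 2174 (.cons 345 (.leaf 369 2180 (.cons 321 (.leaf 248 1988 (.cons 322 (.leaf 323 2554 (.leaf 342 2545 .nil)) .nil)) .nil)) .nil)) .nil)) .nil)) .nil)) (.cons 321 (.cons 293 (.leaf 294 2344 (.cons 345 (.leaf 248 1988 (.cons 369 (.leaf 344 2180 (.leaf 393 2375 .nil)) .nil)) .nil)) (.cons 294 (.leaf 293 2344 (.cons 322 (.leaf 323 2363 (.leaf 319 2355 .nil)) .nil)) (.cons 248 (.leaf 345 1988 (.cons 319 (.leaf 224 1790 (.leaf 343 1982 .nil)) .nil)) .nil))) (.cons 273 (.leaf 274 2170 (.cons 293 (.leaf 294 2153 (.cons 344 (.leaf 249 1989 (.cons 345 (.leaf 369 2180 (.cons 367 (.leaf 343 2174 (.cons 368 (.leaf 391 2366 (.cons 319 (.leaf 392 2367 (.cons 346 (.leaf 347 2746 (.cons 318 (.leaf 317 2536 (.leaf 321 2544 .nil)) .nil)) .nil)) .nil)) .nil)) .nil))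 .nil)) .nil)) .nil)) (.cons 274 (.leaf 273 2170 (.cons 248 (.cons 247 (.leaf 223 1791 (.cons 250 (.leaf 249 1976 (.cons 321 (.leaf 345 1988 (.cons 293 (.leaf 294 2344 (.cons 323 (.leaf 322 2363 (.cons 299 (.leaf 347 2007 (.cons 226 (.leaf 202 1620 (.leaf 251 1815 .nil)) .nil)) .nil)) .nil)) .nil)) .nil)) .nil)) (.cons 319 (.leaf 224 1790 (.leaf 343 1982 .nil)) .nil)) .nil)) (.cons 273 (.leaf 274 2170 (.cons 293 (.leaf 294 2153 (.cons 344 (.leaf 249 1989 (.cons 343 (.leaf 367 2174 (.cons 319 (.leaf 248 1982 (.cons 345 (.leaf 369 2180 (.cons 318 (.leaf 317 2536 (.leaf 346 2547 .nil)) .nil)) .nil)) .nil)) .nil)) .nil)) .nil)) (.cons 273 (.leaf 274 2170 (.cons 293 (.leaf 294 2153 (.cons 344 (.leaf 249 1989 (.cons 345 (.leaf 369 2180 (.cons 248 (.leaf 321 1988 (.cons 223 (.leaf 247 1791 (.cons 224 (.leaf 199 1599 (.leaf 319 1790 .nil)) .nil)) .nil)) .nil)) .nil)) .nil)) .nil)) (.cons 273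 (.leaf 274 2170 (.cons 344 (.leaf 249 1989 (.cons 343 (.leaf 367 2174 (.cons 248 (.leaf 319 1982 (.cons 345 (.leaf 321 1988 (.leaf 369 2180 .nil)) .nil)) .nil)) .nil)) .nil)) (.cons 273 (.leaf 274 2170 (.cons 293 (.leaf 294 2153 (.cons 344 (.leaf 249 1989 (.cons 367 (.leaf 343 2174 (.cons 368 (.leaf 391 2366 (.cons 392 (.leaf 319 2367 (.cons 393 (.leaf 369 2372 (.leaf 417 2564 .nil)) .nil)) .nil)) .nil)) .nil)) .nil)) .nil)) .nil)))))))
noncomputable def t71 : T := .cons 293 (.leaf 273 2153 (.cons 268 (.leaf 269 2147 (.cons 292 (.leaf 267 2139 (.cons 316 (.leaf 317 2338 (.leaf 315 2330 .nil)) .nil)) .nil)) .nil)) (.cons 297 (.cons 317 (.leaf 318 2346 (.cons 321 (.leaf 322 2352 (.cons 248 (.leaf 224 1796 (.cons 345 (.leaf 273 1991 (.leaf 320 1988 .nil)) .nil)) .nil)) .nil)) (.cons 269 (.leaf 270 2155 (.cons 318 (.leaf 317 2346 (.cons 319 (.leaf 298 2354 (.cons 248 (.leaf 224 1790 (.cons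 343 (.leaf 320 1982 (.leaf 367 2173 .nil)) .nil)) .nil)) .nil)) .nil)) (.cons 269 (.leaf 270 2155 (.cons 321 (.leaf 322 2352 (.cons 248 (.leaf 224 1796 (.cons 345 (.leaf 273 1991 (.leaf 320 1988 .nil)) .nil)) .nil)) .nil)) (.cons 318 (.leaf 317 2346 (.cons 269 (.leaf 270 2155 (.cons 319 (.leaf 298 2354 (.cons 321 (.leaf 322 2352 (.cons 343 (.leaf 367 2173 (.cons 345 (.leaf 369 2183 (.cons 346 (.leaf 320 2544 (.leaf 344 2547 .nil)) .nil)) .nil)) .nil)) .nil)) .nil)) .nil)) (.cons 318 (.leaf 317 2346 (.cons 269 (.leaf 270 2155 (.cons 321 (.leaf 322 2352 (.cons 248 (.leaf 224 1796 (.cons 345 (.leaf 273 1991 (.leaf 369 2183 .nil)) .nil)) .nil)) .nil)) .nil)) .nil))))) (.cons 297 (.cons 269 (.leaf 270 2155 (.cons 318 (.leaf 317 2346 (.cons 319 (.leaf 298 2354 (.cons 248 (.leaf 224 1790 (.cons 343 (.leaf 320 1982 (.leaf 367 2173 .nil)) .nil)) .nil)) .nil)) .nil)) (.cons 269 (.leaf 270 2155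 (.cons 268 (.leaf 293 2147 (.cons 321 (.leaf 322 2352 (.cons 248 (.leaf 224 1796 (.cons 345 (.leaf 320 1988 (.leaf 369 2183 .nil)) .nil)) .nil)) .nil)) .nil)) (.cons 317 (.leaf 318 2346 (.cons 293 (.leaf 316 2338 (.cons 321 (.leaf 320 2344 (.leaf 322 2352 .nil)) .nil)) .nil)) (.cons 321 (.leaf 322 2352 (.cons 224 (.leaf 248 1796 (.cons 270 (.leaf 269 2155 (.cons 318 (.leaf 317 2346 (.cons 319 (.leaf 298 2354 (.cons 343 (.leaf 367 2173 (.leaf 246 1972 .nil)) .nil)) .nil)) .nil)) .nil)) .nil)) .nil)))) (.cons 293 (.leaf 273 2153 (.cons 268 (.leaf 269 2147 (.cons 292 (.leaf 267 2139 (.cons 320 (.leaf 321 2344 (.leaf 319 2336 .nil)) .nil)) .nil)) .nil)) (.cons 293 (.leaf 273 2153 (.cons 316 (.leaf 317 2338 (.cons 292 (.leaf 315 2330 (.cons 320 (.leaf 321 2344 (.leaf 319 2336 .nil)) .nil)) .nil)) .nil)) .nil))))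
noncomputable def t72 : T := .cons 294 (.cons 269 (.leaf 270 2155 (.cons 317 (.leaf 318 2346 (.cons 321 (.leaf 322 2352 (.cons 248 (.leaf 224 1796 (.cons 345 (.leaf 320 1988 (.leaf 369 2183 .nil)) .nil)) .nil)) .nil)) .nil)) (.cons 298 (.leaf 274 2169 (.cons 318 (.leaf 317 2346 (.leaf 319 2354 .nil)) .nil)) (.cons 321 (.leaf 322 2352 (.cons 269 (.leaf 270 2155 (.cons 293 (.leaf 268 2147 (.leaf 320 2344 .nil)) .nil)) .nil)) .nil))) (.cons 294 (.cons 269 (.leaf 270 2155 (.cons 317 (.leaf 318 2346 (.cons 321 (.leaf 322 2352 (.cons 248 (.leaf 224 1796 (.cons 345 (.leaf 320 1988 (.leaf 369 2183 .nil)) .nil)) .nil)) .nil)) .nil)) (.cons 317 (.leaf 318 2346 (.cons 269 (.leaf 270 2155 (.cons 293 (.leaf 268 2147 (.leaf 316 2338 .nil)) .nil)) .nil)) (.cons 321 (.leaf 322 2352 (.cons 269 (.leaf 270 2155 (.cons 293 (.leaf 268 2147 (.leaf 320 2344 .nil)) .nil)) .nil)) (.cons 321 (.leaf 322 2352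 (.cons 293 (.leaf 320 2344 (.cons 317 (.leaf 316 2338 (.leaf 318 2346 .nil)) .nil)) .nil)) .nil)))) (.cons 298 (.leaf 274 2169 (.cons 319 (.leaf 318 2354 (.cons 224 (.leaf 248 1790 (.cons 299 (.leaf 320 2362 (.cons 323 (.leaf 322 2360 (.leaf 324 2368 .nil)) .nil)) .nil)) .nil)) .nil)) (.cons 298 (.leaf 274 2169 (.cons 318 (.leaf 319 2354 (.cons 294 (.leaf 317 2346 (.cons 269 (.leaf 270 2155 (.cons 322 (.leaf 321 2352 (.leaf 323 2360 .nil)) .nil)) .nil)) .nil)) .nil)) (.cons 298 (.leaf 274 2169 (.cons 319 (.leaf 318 2354 (.cons 248 (.leaf 224 1790 (.cons 320 (.leaf 343 1982 (.leaf 299 2362 .nil)) .nil)) .nil)) .nil)) (.cons 298 (.leaf 274 2169 (.cons 322 (.leaf 323 2360 (.cons 321 (.leaf 294 2352 (.cons 248 (.leaf 224 1796 (.cons 345 (.leaf 320 1988 (.leaf 369 2183 .nil)) .nil)) .nil)) .nil)) .nil)) .nil)))))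
noncomputable def t73 : T := .cons 343 (.leaf 367 2173 (.cons 297 (.cons 270 (.leaf 269 2155 (.cons 248 (.leaf 224 1790 (.leaf 320 1982 .nil)) .nil)) (.cons 270 (.leaf 269 2155 (.cons 246 (.leaf 222 1780 (.leaf 318 1972 .nil)) .nil)) (.cons 318 (.leaf 317 2346 (.leaf 298 2354 .nil)) .nil))) .nil)) (.cons 248 (.leaf 224 1790 (.cons 297 (.cons 270 (.leaf 269 2155 (.cons 246 (.leaf 222 1780 (.cons 247 (.leaf 245 1960 (.cons 320 (.leaf 223 1791 (.cons 318 (.leaf 317 2345 (.leaf 298 2354 .nil)) .nil)) .nil)) .nil)) .nil)) (.cons 270 (.leaf 269 2155 (.cons 246 (.leaf 222 1780 (.cons 247 (.leaf 245 1960 (.cons 320 (.leaf 223 1791 (.cons 344 (.leaf 249 1989 (.leaf 368 2181 .nil)) .nil)) .nil)) .nil)) .nil)) (.cons 318 (.leaf 317 2346 (.leaf 298 2354 .nil)) .nil))) .nil)) (.cons 343 (.leaf 367 2173 (.cons 297 (.cons 270 (.leaf 269 2155 (.cons 246 (.leaf 222 1780 (.leaf 318 1972 .nil)) .nil))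 (.cons 269 (.leaf 270 2155 (.cons 322 (.leaf 321 2352 (.cons 298 (.leaf 323 2360 (.cons 299 (.leaf 300 2179 (.leaf 320 2362 .nil)) .nil)) .nil)) .nil)) (.cons 318 (.leaf 317 2346 (.leaf 298 2354 .nil)) .nil))) .nil)) (.cons 343 (.leaf 367 2173 (.cons 248 (.leaf 224 1790 (.leaf 320 1982 .nil)) .nil)) (.cons 343 (.leaf 367 2173 (.cons 248 (.leaf 224 1790 (.cons 270 (.cons 246 (.leaf 222 1780 (.leaf 318 1972 .nil)) (.cons 297 (.leaf 269 2155 (.cons 318 (.leaf 317 2346 (.leaf 298 2354 .nil)) .nil)) (.cons 246 (.leaf 222 1780 (.cons 247 (.leaf 245 1960 (.cons 269 (.leaf 297 2155 (.leaf 249 1962 .nil)) .nil)) .nil)) .nil))) .nil)) .nil)) .nil))))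
noncomputable def t74 : T := .cons 273 (.leaf 274 2170 (.cons 294 (.leaf 293 2153 (.cons 319 t73 .nil)) .nil)) (.cons 297 t72 (.cons 294 t71 (.cons 274 (.leaf 273 2170 (.cons 297 (.leaf 298 2169 (.cons 294 (.cons 269 (.leaf 270 2155 (.cons 293 (.leaf 268 2147 (.cons 321 (.leaf 320 2344 (.leaf 322 2352 .nil)) .nil)) .nil)) (.cons 269 (.leaf 270 2155 (.cons 293 (.leaf 268 2147 (.cons 317 (.leaf 316 2338 (.leaf 318 2346 .nil)) .nil)) .nil)) (.cons 321 (.leaf 322 2352 (.cons 293 (.leaf 320 2344 (.cons 317 (.leaf 316 2338 (.leaf 318 2346 .nil)) .nil)) .nil)) (.cons 321 (.leaf 322 2352 (.cons 248 (.leaf 224 1796 (.cons 345 (.leaf 320 1988 (.leaf 369 2183 .nil)) .nil)) .nil)) .nil)))) .nil)) .nil)) (.cons 320 t70 (.cons 274 (.leaf 273 2170 (.cons 298 (.leaf 297 2169 (.cons 251 t69 .nil)) .nil)) (.cons 274 (.leaf 273 2170 (.cons 298 (.leaf 297 2169 (.cons 251 t68 .nil)) .nil)) (.cons 273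 (.leaf 274 2170 (.cons 294 (.leaf 293 2153 (.cons 297 (.cons 269 (.leaf 270 2155 (.cons 318 (.leaf 317 2346 (.cons 298 (.leaf 319 2354 (.cons 299 (.leaf 300 2179 (.cons 322 (.leaf 321 2352 (.leaf 323 2360 .nil)) .nil)) .nil)) .nil)) .nil)) (.cons 269 (.leaf 270 2155 (.cons 318 (.leaf 317 2346 (.cons 298 (.leaf 319 2354 (.cons 299 (.leaf 300 2179 (.cons 323 (.leaf 322 2360 (.leaf 324 2368 .nil)) .nil)) .nil)) .nil)) .nil)) (.cons 269 (.leaf 270 2155 (.cons 321 (.leaf 322 2352 (.cons 345 (.leaf 248 1991 (.leaf 369 2183 .nil)) .nil)) .nil)) (.cons 318 (.leaf 317 2346 (.cons 270 (.leaf 269 2155 (.cons 319 (.leaf 298 2354 (.cons 246 (.leaf 222 1780 (.leaf 343 1972 .nil)) .nil)) .nil)) .nil)) (.cons 317 (.leaf 318 2346 (.cons 321 (.leaf 322 2352 (.cons 248 (.leaf 224 1796 (.leaf 345 1991 .nil)) .nil)) .nil)) .nil))))) .nil)) .nil)) (.cons 273 (.leaf 274 2170 (.cons 294 (.leaf 293 2153 (.cons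 248 t67 .nil)) .nil)) (.cons 273 (.leaf 274 2170 (.cons 294 (.leaf 293 2153 (.cons 248 t66 .nil)) .nil)) .nil)))))))))
noncomputable def t75 : T := .cons 321 (.leaf 322 2352 (.cons 269 (.leaf 270 2155 (.cons 318 (.leaf 317 2346 (.cons 345 (.leaf 369 2183 (.cons 344 (.leaf 368 2182 (.cons 320 (.leaf 249 1989 (.cons 271 (.leaf 247 1983 (.cons 299 (.leaf 298 2171 (.cons 342 (.leaf 366 2165 (.cons 343 (.leaf 367 2174 (.leaf 341 2537 .nil)) .nil)) .nil)) .nil)) .nil)) .nil)) .nil)) .nil)) .nil)) .nil)) (.cons 321 (.leaf 322 2352 (.cons 318 (.leaf 317 2346 (.cons 345 (.leaf 369 2183 (.cons 344 (.leaf 368 2182 (.cons 320 (.leaf 249 1989 (.cons 271 (.leaf 247 1983 (.cons 298 (.leaf 299 2171 (.cons 342 (.leaf 366 2165 (.cons 343 (.leaf 367 2174 (.leaf 341 2537 .nil)) .nil)) .nil)) .nil)) .nil)) .nil)) .nil)) .nil)) .nil)) (.cons 270 (.leaf 269 2155 (.cons 271 (.leaf 298 2160 (.cons 245 (.leaf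 246 1963 (.cons 318 (.leaf 317 2346 (.cons 247 (.leaf 223 1782 (.leaf 342 1973 .nil)) .nil)) .nil)) .nil)) .nil)) (.cons 270 (.leaf 269 2155 (.cons 318 (.leaf 317 2346 (.cons 344 (.cons 320 (.leaf 249 1989 (.leaf 368 2181 .nil)) (.cons 321 (.leaf 322 2352 (.cons 345 (.leaf 369 2183 (.leaf 368 2182 .nil)) .nil)) (.cons 320 (.leaf 249 1989 (.cons 322 (.leaf 321 2352 (.cons 323 (.leaf 298 2360 (.cons 343 (.leaf 367 2174 (.cons 345 (.leaf 369 2180 (.leaf 346 2553 .nil)) .nil)) .nil)) .nil)) .nil)) .nil))) .nil)) .nil)) (.cons 321 (.leaf 322 2352 (.cons 269 (.leaf 270 2155 (.cons 318 (.leaf 317 2346 (.cons 345 (.leaf 369 2183 (.cons 344 (.leaf 368 2182 (.cons 320 (.leaf 249 1989 (.cons 271 (.leaf 247 1983 (.cons 346 (.leaf 370 2188 (.cons 342 (.leaf 366 2165 (.cons 343 (.leaf 367 2174 (.leaf 341 2537 .nil)) .nil)) .nil)) .nil)) .nil)) .nil)) .nil)) .nil)) .nil)) .nil)) (.cons 270 (.leaf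 269 2155 (.cons 271 (.leaf 298 2160 (.cons 245 (.leaf 246 1963 (.cons 249 (.leaf 250 1969 (.cons 321 (.leaf 322 2352 (.cons 344 (.leaf 320 1989 (.cons 345 (.leaf 369 2183 (.leaf 368 2182 .nil)) .nil)) .nil)) .nil)) .nil)) .nil)) .nil)) .nil)))))
noncomputable def t76 : T := .leaf 293 2153 (.cons 297 (.cons 270 (.leaf 269 2155 (.cons 271 (.leaf 298 2160 (.cons 245 (.leaf 246 1963 (.cons 318 (.leaf 317 2346 (.cons 247 (.leaf 223 1782 (.leaf 342 1973 .nil)) .nil)) .nil)) .nil)) .nil)) (.cons 317 (.leaf 318 2346 (.cons 322 (.leaf 321 2352 (.cons 298 (.leaf 323 2360 (.cons 299 (.leaf 271 2171 (.leaf 300 2179 .nil)) .nil)) .nil)) .nil)) (.cons 270 (.leaf 269 2155 (.cons 271 (.leaf 298 2160 (.cons 246 (.leaf 245 1963 (.cons 222 (.leaf 198 1588 (.leaf 319 1780 .nil)) .nil)) .nil)) .nil)) (.cons 270 (.leaf 269 2155 (.cons 318 (.leaf 317 2346 (.cons 271 (.cons 247 (.leaf 223 1782 (.leaf 342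 1973 .nil)) (.cons 246 (.leaf 245 1963 (.cons 222 (.leaf 198 1588 (.leaf 319 1780 .nil)) .nil)) .nil)) .nil)) .nil)) (.cons 270 (.leaf 269 2155 (.cons 318 (.leaf 317 2346 (.cons 321 (.leaf 322 2352 (.cons 345 (.leaf 369 2183 (.cons 344 (.leaf 368 2182 (.cons 346 (.leaf 370 2188 (.cons 343 (.leaf 319 2547 (.cons 367 (.leaf 342 2164 (.leaf 366 2738 .nil)) .nil)) .nil)) .nil)) .nil)) .nil)) .nil)) .nil)) .nil))))) .nil)
noncomputable def t77 : T := .cons 343 (.leaf 367 2173 (.cons 342 (.leaf 366 2166 (.cons 344 (.leaf 368 2172 (.cons 247 (.leaf 320 1980 (.leaf 318 1974 .nil)) .nil)) .nil)) .nil)) (.cons 320 (.cons 247 (.leaf 344 1980 (.leaf 223 1788 .nil)) (.cons 247 (.leaf 223 1788 (.cons 318 (.leaf 342 1974 (.cons 317 (.leaf 316 2337 (.leaf 292 2339 .nil)) .nil)) .nil)) (.cons 344 (.leaf 249 1989 (.leaf 368 2175 .nil)) .nil))) (.cons 343 (.leaf 367 2173 (.cons 342 (.leaf 366 2166 (.cons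 318 (.leaf 247 1974 (.cons 317 (.leaf 316 2337 (.cons 344 (.leaf 368 2172 (.leaf 345 2539 .nil)) .nil)) .nil)) .nil)) .nil)) (.cons 343 (.leaf 367 2173 (.cons 342 (.leaf 366 2166 (.cons 247 (.leaf 318 1974 (.cons 223 (.leaf 199 1596 (.leaf 320 1788 .nil)) .nil)) .nil)) .nil)) (.cons 343 (.leaf 367 2173 (.cons 342 (.leaf 366 2166 (.cons 344 (.leaf 368 2172 (.cons 249 (.leaf 320 1989 (.cons 270 (.leaf 250 1969 (.cons 269 (.leaf 292 2146 (.leaf 268 2144 .nil)) .nil)) .nil)) .nil)) .nil)) .nil)) (.cons 343 (.leaf 367 2173 (.cons 344 (.leaf 368 2172 (.cons 320 (.leaf 247 1980 (.leaf 249 1989 .nil)) .nil)) .nil)) .nil)))))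
noncomputable def t78 : T := .cons 293 (.leaf 294 2153 (.cons 319 (.cons 343 (.leaf 367 2173 (.cons 342 (.leaf 366 2166 (.cons 344 (.leaf 368 2172 (.cons 247 (.leaf 320 1980 (.leaf 318 1974 .nil)) .nil)) .nil)) .nil)) (.cons 247 (.cons 199 (.leaf 223 1596 (.cons 246 (.leaf 222 1783 (.cons 245 (.leaf 244 1952 (.leaf 270 1963 .nil)) .nil)) .nil)) (.cons 320 (.leaf 344 1980 (.cons 222 (.leaf 246 1783 (.cons 318 (.leaf 342 1974 (.cons 317 (.leaf 316 2337 (.leaf 292 2339 .nil)) .nil)) .nil)) .nil)) (.cons 320 (.leaf 344 1980 (.leaf 223 1788 .nil)) .nil))) (.cons 343 (.leaf 367 2173 (.cons 342 (.leaf 366 2166 (.cons 270 (.leaf 246 1975 (.cons 269 (.leaf 292 2146 (.leaf 268 2144 .nil)) .nil)) .nil)) .nil)) (.cons 343 (.leaf 367 2173 (.cons 246 (.leaf 270 1975 (.cons 247 (.leaf 222 1783 (.cons 223 (.leaf 199 1596 (.leaf 320 1788 .nil)) .nil)) .nil)) .nil)) .nil)))) .nil)) (.cons 320 (.cons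 344 (.leaf 247 1983 (.leaf 249 1989 .nil)) (.cons 247 (.leaf 223 1788 (.cons 246 (.cons 245 (.leaf 244 1952 (.leaf 270 1963 .nil)) (.cons 319 (.leaf 222 1783 (.cons 343 (.leaf 367 2173 (.leaf 270 1975 .nil)) .nil)) (.cons 319 (.leaf 222 1783 (.cons 244 (.leaf 245 1952 (.cons 342 (.leaf 318 1974 (.cons 343 (.leaf 367 2173 (.leaf 366 2166 .nil)) .nil)) .nil)) .nil)) .nil))) .nil)) (.cons 344 (.leaf 249 1989 (.leaf 368 2175 .nil)) .nil))) (.cons 270 (.cons 294 (.leaf 293 2153 (.cons 246 (.leaf 245 1963 (.cons 222 (.leaf 198 1588 (.leaf 319 1780 .nil)) .nil)) .nil)) (.cons 245 (.leaf 246 1963 (.cons 269 (.leaf 244 1955 (.leaf 268 2144 .nil)) .nil)) (.cons 293 (.leaf 294 2153 (.cons 269 (.leaf 292 2146 (.leaf 268 2144 .nil)) .nil)) .nil))) (.cons 293 (.leaf 294 2153 (.cons 247 (.cons 319 (.cons 320 (.leaf 344 1980 (.leaf 223 1788 .nil)) (.cons 343 (.leaf 367 2173 (.cons 342 (.leaf 318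 1974 (.leaf 366 2166 .nil)) .nil)) .nil)) (.cons 223 (.leaf 199 1596 (.cons 200 (.leaf 224 1597 (.cons 222 (.leaf 198 1591 (.cons 319 (.leaf 246 1783 (.cons 342 (.leaf 318 1974 (.cons 343 (.leaf 367 2173 (.leaf 366 2166 .nil)) .nil)) .nil)) .nil)) .nil)) .nil)) (.cons 319 (.cons 343 (.leaf 367 2173 (.cons 342 (.leaf 318 1974 (.leaf 366 2166 .nil)) .nil)) (.cons 320 (.leaf 344 1980 (.cons 222 (.leaf 246 1783 (.cons 318 (.leaf 342 1974 (.cons 317 (.leaf 316 2337 (.leaf 292 2339 .nil)) .nil)) .nil)) .nil)) (.cons 344 (.leaf 320 1980 (.cons 343 (.leaf 367 2173 (.leaf 368 2172 .nil)) .nil)) .nil))) (.cons 320 (.leaf 344 1983 (.leaf 223 1788 .nil)) .nil)))) .nil)) (.cons 270 (.cons 293 (.leaf 294 2153 (.cons 269 (.leaf 292 2146 (.leaf 268 2144 .nil)) .nil)) (.cons 269 (.leaf 268 2144 (.cons 245 (.leaf 244 1955 (.leaf 246 1963 .nil)) .nil)) (.cons 294 (.leaf 293 2153 (.cons 246 (.leaf 245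 1963 (.cons 222 (.leaf 198 1588 (.cons 223 (.leaf 199 1589 (.cons 247 (.leaf 320 1788 (.leaf 318 1781 .nil)) .nil)) .nil)) .nil)) .nil)) .nil))) (.cons 293 (.leaf 294 2153 (.cons 319 t77 .nil)) .nil)))))
noncomputable def t79 : T := .cons 322 (.leaf 346 2005 (.cons 321 (.cons 345 (.leaf 250 1998 (.cons 369 (.leaf 393 2381 (.cons 320 (.leaf 344 2180 (.leaf 323 2363 .nil)) .nil)) .nil)) (.cons 227 (.leaf 203 1622 (.leaf 299 1814 .nil)) .nil)) .nil)) (.cons 227 (.leaf 203 1622 (.cons 299 (.cons 226 (.leaf 202 1623 (.cons 323 (.leaf 250 1812 (.cons 324 (.leaf 300 1820 (.leaf 348 2012 .nil)) .nil)) .nil)) (.cons 228 (.leaf 204 1629 (.cons 252 (.leaf 323 1821 (.cons 253 (.leaf 254 2002 (.cons 300 (.leaf 324 1820 (.cons 301 (.leaf 302 2195 (.cons 277 (.leaf 278 2193 (.leaf 325 1831 .nil)) .nil)) .nil)) .nil)) .nil)) .nil)) (.cons 300 (.leaf 324 1820 (.cons 228 (.leaf 204 1629 (.cons 301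 (.leaf 302 2195 (.cons 277 (.leaf 278 2193 (.cons 325 (.leaf 326 2384 (.cons 253 (.leaf 252 1831 (.cons 226 (.leaf 202 1623 (.cons 254 (.leaf 229 1808 (.leaf 230 1837 .nil)) .nil)) .nil)) .nil)) .nil)) .nil)) .nil)) .nil)) (.cons 226 (.leaf 202 1623 (.cons 250 (.leaf 323 1812 (.cons 228 (.leaf 204 1629 (.cons 229 (.leaf 230 1810 (.leaf 249 1802 .nil)) .nil)) .nil)) .nil)) .nil)))) .nil)) (.cons 322 (.leaf 346 2005 (.cons 321 (.cons 250 (.leaf 345 1998 (.cons 323 (.leaf 320 2363 (.leaf 347 2004 .nil)) .nil)) (.cons 345 (.leaf 250 1998 (.cons 369 (.leaf 393 2381 (.cons 320 (.leaf 344 2180 (.cons 319 (.leaf 299 2361 (.cons 343 (.leaf 367 2173 (.leaf 342 2546 .nil)) .nil)) .nil)) .nil)) .nil)) (.cons 250 (.leaf 345 1998 (.cons 323 (.leaf 347 2004 (.cons 299 (.leaf 226 1812 (.cons 324 (.leaf 348 2012 (.cons 301 (.leaf 300 2377 (.cons 325 (.leaf 326 2387 (.leaf 302 2385 .nil)) .nil)) .nil))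 .nil)) .nil)) .nil)) (.cons 320 (.leaf 323 2363 (.cons 319 (.leaf 299 2361 (.cons 343 (.leaf 367 2173 (.leaf 342 2546 .nil)) .nil)) .nil)) .nil)))) .nil)) (.cons 322 (.leaf 346 2005 (.cons 227 (.leaf 203 1622 (.leaf 250 1813 .nil)) .nil)) (.cons 322 (.leaf 346 2005 (.cons 227 (.leaf 203 1622 (.leaf 299 1814 .nil)) .nil)) .nil))))
noncomputable def t80 : T := .cons 318 (.leaf 317 2346 (.cons 298 (.leaf 319 2354 (.cons 299 (.leaf 271 2171 (.cons 322 (.leaf 321 2352 (.leaf 323 2360 .nil)) .nil)) .nil)) .nil)) (.cons 270 (.leaf 269 2155 (.cons 298 (.leaf 271 2163 (.cons 322 (.leaf 321 2352 (.leaf 323 2360 .nil)) .nil)) .nil)) (.cons 318 (.leaf 317 2346 (.cons 298 (.leaf 319 2354 (.cons 299 (.leaf 271 2171 (.cons 323 (.leaf 322 2360 (.leaf 324 2368 .nil)) .nil)) .nil)) .nil)) (.cons 318 (.leaf 317 2346 (.cons 298 (.leaf 319 2354 (.cons 299 (.leaf 271 2171 (.cons 300 (.leaf 273 2179 (.cons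 324 (.leaf 323 2368 (.leaf 325 2376 .nil)) .nil)) .nil)) .nil)) .nil)) (.cons 318 (.leaf 317 2346 (.cons 269 (.leaf 270 2155 (.cons 319 (.leaf 298 2354 (.cons 321 (.leaf 322 2352 (.cons 343 (.leaf 367 2173 (.cons 345 (.leaf 369 2183 (.cons 346 (.leaf 320 2544 (.leaf 344 2547 .nil)) .nil)) .nil)) .nil)) .nil)) .nil)) .nil)) (.cons 270 (.leaf 269 2155 (.cons 318 (.leaf 317 2346 (.cons 321 (.leaf 322 2352 (.cons 345 (.leaf 369 2183 (.cons 319 (.cons 343 (.leaf 367 2173 (.leaf 246 1972 .nil)) (.cons 222 (.leaf 246 1780 (.cons 320 (.leaf 346 2544 (.cons 342 (.leaf 341 2538 (.cons 271 (.leaf 247 1973 (.leaf 366 2165 .nil)) .nil)) .nil)) .nil)) (.cons 343 (.leaf 367 2173 (.cons 346 (.leaf 320 2544 (.leaf 344 2547 .nil)) .nil)) .nil))) .nil)) .nil)) .nil)) .nil)) .nil)))))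
noncomputable def t81 : T := .cons 293 (.leaf 273 2153 (.cons 271 (.leaf 292 2145 (.cons 317 (.leaf 316 2338 (.cons 297 (.leaf 318 2346 (.cons 270 (.leaf 269 2152 (.leaf 298 2163 .nil)) .nil)) .nil)) .nil)) .nil)) (.cons 297 t80 (.cons 293 (.leaf 273 2153 (.cons 292 (.leaf 271 2145 (.cons 268 (.leaf 269 2147 (.leaf 267 2139 .nil)) .nil)) .nil)) (.cons 293 (.cons 268 (.leaf 269 2147 (.cons 292 (.leaf 271 2145 (.leaf 267 2139 .nil)) .nil)) (.cons 268 (.leaf 269 2147 (.cons 317 (.leaf 316 2338 (.cons 297 (.leaf 318 2346 (.cons 322 (.leaf 321 2352 (.cons 298 (.leaf 323 2360 (.cons 271 (.leaf 299 2171 (.leaf 270 2163 .nil)) .nil)) .nil)) .nil)) .nil)) .nil)) (.cons 292 (.leaf 271 2145 (.cons 316 (.leaf 317 2338 (.leaf 315 2330 .nil)) .nil)) (.cons 268 (.leaf 269 2147 (.cons 292 (.leaf 267 2139 (.cons 316 (.leaf 317 2338 (.leaf 315 2330 .nil)) .nil)) .nil)) .nil)))) (.cons 293 (.leaf 273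 2153 (.cons 268 (.leaf 269 2147 (.cons 292 (.leaf 267 2139 (.cons 316 (.leaf 317 2338 (.leaf 315 2330 .nil)) .nil)) .nil)) .nil)) (.cons 293 (.leaf 273 2153 (.cons 292 (.leaf 271 2145 (.cons 316 (.leaf 317 2338 (.leaf 315 2330 .nil)) .nil)) .nil)) .nil)))))
noncomputable def t82 : T := .cons 298 (.leaf 274 2169 (.cons 271 (.leaf 299 2171 (.leaf 270 2163 .nil)) .nil)) (.cons 294 (.cons 321 (.leaf 322 2352 (.cons 293 (.leaf 320 2344 (.cons 317 (.leaf 316 2338 (.leaf 318 2346 .nil)) .nil)) .nil)) (.cons 269 (.leaf 270 2155 (.cons 293 (.leaf 268 2147 (.cons 292 (.leaf 271 2145 (.cons 316 (.leaf 317 2338 (.leaf 315 2330 .nil)) .nil)) .nil)) .nil)) (.cons 321 (.leaf 322 2352 (.cons 269 (.leaf 270 2155 (.cons 293 (.leaf 268 2147 (.leaf 320 2344 .nil)) .nil)) .nil)) (.cons 270 (.leaf 269 2155 (.cons 318 (.leaf 317 2346 (.cons 321 (.leaf 322 2352 (.cons 345 (.leaf 369 2183 (.cons 319 (.cons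 343 (.leaf 367 2173 (.leaf 246 1972 .nil)) (.cons 222 (.leaf 246 1780 (.cons 320 (.leaf 346 2544 (.cons 342 (.leaf 341 2538 (.cons 271 (.leaf 247 1973 (.leaf 366 2165 .nil)) .nil)) .nil)) .nil)) (.cons 343 (.leaf 367 2173 (.cons 346 (.leaf 320 2544 (.leaf 344 2547 .nil)) .nil)) .nil))) .nil)) .nil)) .nil)) .nil)) .nil)))) (.cons 298 (.leaf 274 2169 (.cons 318 (.leaf 319 2354 (.cons 294 (.leaf 317 2346 (.cons 269 (.leaf 270 2155 (.cons 322 (.leaf 321 2352 (.leaf 323 2360 .nil)) .nil)) .nil)) .nil)) .nil)) (.cons 298 (.leaf 274 2169 (.cons 318 (.leaf 319 2354 (.cons 294 (.leaf 317 2346 (.cons 322 (.leaf 321 2352 (.leaf 323 2360 .nil)) .nil)) .nil)) .nil)) .nil)))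
noncomputable def t83 : T := .cons 270 (.leaf 269 2155 (.cons 271 (.leaf 298 2160 (.cons 245 (.leaf 246 1963 (.cons 318 (.leaf 317 2346 (.cons 249 (.leaf 250 1969 (.cons 320 (.leaf 344 1989 (.cons 342 (.leaf 366 2165 (.leaf 247 1973 .nil)) .nil)) .nil)) .nil)) .nil)) .nil)) .nil)) (.cons 321 (.leaf 322 2352 (.cons 318 (.leaf 317 2346 (.cons 345 (.leaf 369 2183 (.cons 344 (.leaf 368 2182 (.cons 320 (.leaf 249 1989 (.cons 271 (.leaf 247 1983 (.cons 298 (.leaf 299 2171 (.leaf 319 2353 .nil)) .nil)) .nil)) .nil)) .nil)) .nil)) .nil)) (.cons 270 (.leaf 269 2155 (.cons 271 (.leaf 298 2160 (.cons 246 (.leaf 245 1963 (.cons 222 (.leaf 198 1588 (.leaf 319 1780 .nil)) .nil)) .nil)) .nil)) (.cons 321 (.leaf 322 2352 (.cons 269 (.leaf 270 2155 (.cons 318 (.leaf 317 2346 (.cons 345 (.leaf 369 2183 (.cons 344 (.leaf 368 2182 (.cons 320 (.leaf 249 1989 (.cons 271 (.leaf 247 1983 (.cons 346 (.leaf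 370 2188 (.leaf 319 2544 .nil)) .nil)) .nil)) .nil)) .nil)) .nil)) .nil)) .nil)) (.cons 321 (.leaf 322 2352 (.cons 269 (.leaf 270 2155 (.cons 345 (.leaf 369 2183 (.cons 344 (.leaf 368 2182 (.cons 320 (.leaf 249 1989 (.cons 318 (.leaf 317 2346 (.cons 319 (.leaf 298 2353 (.leaf 346 2544 .nil)) .nil)) .nil)) .nil)) .nil)) .nil)) .nil)) .nil))))
noncomputable def t84 : T := .cons 273 (.leaf 274 2170 (.cons 294 (.leaf 293 2153 (.cons 297 t83 .nil)) .nil)) (.cons 297 t82 (.cons 294 t81 (.cons 274 (.leaf 273 2170 (.cons 298 (.leaf 297 2169 (.cons 251 t79 .nil)) .nil)) (.cons 273 (.leaf 274 2170 (.cons 271 t78 .nil)) (.cons 273 (.leaf 274 2170 (.cons 294 t76 .nil)) (.cons 273 (.leaf 274 2170 (.cons 294 (.leaf 293 2153 (.cons 297 t75 .nil)) .nil)) (.cons 273 (.leaf 274 2170 (.cons 294 (.leaf 293 2153 (.cons 297 (.cons 269 (.leaf 270 2155 (.cons 322 (.leaf 321 2352 (.cons 298 (.leaf 323 2360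 (.cons 299 (.leaf 271 2171 (.leaf 300 2179 .nil)) .nil)) .nil)) .nil)) (.cons 317 (.leaf 318 2346 (.cons 322 (.leaf 321 2352 (.cons 298 (.leaf 323 2360 (.cons 299 (.leaf 271 2171 (.leaf 300 2179 .nil)) .nil)) .nil)) .nil)) (.cons 270 (.leaf 269 2155 (.cons 318 (.leaf 317 2346 (.cons 321 (.leaf 322 2352 (.cons 345 (.leaf 369 2183 (.cons 346 (.leaf 370 2188 (.cons 319 (.leaf 320 2544 (.cons 343 (.leaf 367 2173 (.leaf 246 1972 .nil)) .nil)) .nil)) .nil)) .nil)) .nil)) .nil)) (.cons 269 (.leaf 270 2155 (.cons 318 (.leaf 317 2346 (.cons 298 (.leaf 319 2354 (.cons 299 (.leaf 271 2171 (.leaf 300 2179 .nil)) .nil)) .nil)) .nil)) .nil)))) .nil)) .nil)) (.cons 273 (.leaf 274 2170 (.cons 294 (.leaf 293 2153 (.cons 297 (.cons 270 (.leaf 269 2155 (.cons 271 (.leaf 298 2160 (.cons 245 (.leaf 246 1963 (.cons 318 (.leaf 317 2346 (.cons 249 (.leaf 250 1969 (.cons 320 (.leaf 344 1989 (.cons 342 (.leaf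 366 2165 (.leaf 247 1973 .nil)) .nil)) .nil)) .nil)) .nil)) .nil)) .nil)) (.cons 318 (.leaf 317 2346 (.cons 298 (.leaf 319 2354 (.cons 299 (.leaf 271 2171 (.leaf 300 2179 .nil)) .nil)) .nil)) (.cons 270 (.leaf 269 2155 (.cons 271 (.leaf 298 2160 (.cons 246 (.leaf 245 1963 (.cons 222 (.leaf 198 1588 (.leaf 319 1780 .nil)) .nil)) .nil)) .nil)) (.cons 270 (.leaf 269 2155 (.cons 318 (.leaf 317 2346 (.cons 271 (.cons 247 (.leaf 223 1782 (.leaf 342 1973 .nil)) (.cons 246 (.leaf 245 1963 (.cons 222 (.leaf 198 1588 (.leaf 319 1780 .nil)) .nil)) .nil)) .nil)) .nil)) (.cons 322 (.leaf 321 2352 (.cons 269 (.leaf 270 2155 (.cons 298 (.leaf 323 2360 (.cons 318 (.leaf 317 2346 (.leaf 319 2354 .nil)) .nil)) .nil)) .nil)) .nil))))) .nil)) .nil)) .nil))))))))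
noncomputable def t85 : T := .cons 321 (.leaf 345 1998 (.cons 248 (.cons 224 (.leaf 319 1790 (.cons 223 (.leaf 199 1599 (.leaf 249 1787 .nil)) .nil)) (.cons 224 (.leaf 319 1790 (.cons 323 (.leaf 347 2004 (.cons 226 (.leaf 299 1812 (.cons 178 (.leaf 202 1428 (.cons 199 (.leaf 223 1599 (.cons 200 (.leaf 175 1407 (.leaf 271 1598 .nil)) .nil)) .nil)) .nil)) .nil)) .nil)) (.cons 249 (.leaf 247 1976 (.leaf 271 1978 .nil)) .nil))) .nil)) (.cons 321 (.leaf 345 1998 (.cons 248 (.cons 224 (.leaf 319 1790 (.cons 223 (.leaf 199 1599 (.leaf 249 1787 .nil)) .nil)) (.cons 224 (.leaf 319 1790 (.cons 200 (.leaf 271 1598 (.cons 199 (.leaf 175 1407 (.leaf 223 1599 .nil)) .nil)) .nil)) (.cons 249 (.leaf 247 1976 (.leaf 271 1978 .nil)) .nil))) .nil)) (.cons 323 (.leaf 347 2004 (.cons 299 (.leaf 226 1812 (.cons 324 (.leaf 348 2012 (.cons 325 (.leaf 326 2387 (.cons 252 (.leaf 228 1821 (.cons 253 (.leaf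 254 2002 (.cons 229 (.leaf 230 1809 (.cons 277 (.leaf 278 2000 (.cons 301 (.leaf 302 2385 (.leaf 300 1830 .nil)) .nil)) .nil)) .nil)) .nil)) .nil)) .nil)) .nil)) .nil)) .nil))
noncomputable def t86 : T := .cons 227 (.leaf 203 1622 (.cons 322 (.leaf 299 1814 (.leaf 346 2005 .nil)) .nil)) (.cons 322 (.leaf 346 2005 (.cons 250 t85 .nil)) (.cons 227 (.leaf 203 1622 (.cons 299 (.cons 202 (.leaf 226 1623 (.cons 204 (.leaf 228 1629 (.cons 324 (.leaf 300 1820 (.cons 323 (.leaf 348 2012 (.cons 347 (.leaf 250 2007 (.leaf 371 2199 .nil)) .nil)) .nil)) .nil)) .nil)) (.cons 228 (.leaf 204 1629 (.cons 252 (.leaf 323 1821 (.cons 253 (.leaf 254 2002 (.cons 300 (.leaf 324 1820 (.cons 301 (.leaf 302 2195 (.cons 277 (.leaf 278 2193 (.leaf 325 1831 .nil)) .nil)) .nil)) .nil)) .nil)) .nil)) (.cons 300 (.leaf 324 1820 (.cons 228 (.leaf 204 1629 (.cons 301 (.leaf 302 2195 (.cons 277 (.leaf 278 2193 (.cons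 325 (.leaf 326 2384 (.cons 253 (.leaf 252 1831 (.cons 226 (.leaf 202 1623 (.cons 254 (.leaf 229 1808 (.leaf 230 1837 .nil)) .nil)) .nil)) .nil)) .nil)) .nil)) .nil)) .nil)) (.cons 226 (.leaf 202 1623 (.cons 323 (.leaf 250 1812 (.cons 324 (.leaf 300 1820 (.leaf 348 2012 .nil)) .nil)) .nil)) (.cons 226 (.leaf 202 1623 (.cons 250 (.leaf 323 1812 (.cons 228 (.leaf 204 1629 (.cons 249 (.leaf 248 1793 (.leaf 229 1802 .nil)) .nil)) .nil)) .nil)) .nil))))) .nil)) (.cons 227 (.leaf 203 1622 (.cons 322 (.leaf 346 2005 (.leaf 250 1813 .nil)) .nil)) .nil)))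
noncomputable def t87 : T := .cons 245 (.leaf 247 1960 (.cons 270 (.leaf 271 1963 (.cons 221 (.leaf 318 1775 (.cons 197 (.leaf 222 1583 (.leaf 269 1580 .nil)) .nil)) .nil)) .nil)) (.cons 270 (.cons 245 (.leaf 271 1963 (.cons 221 (.leaf 318 1775 (.cons 197 (.leaf 222 1583 (.leaf 269 1580 .nil)) .nil)) .nil)) (.cons 222 (.leaf 319 1780 (.cons 197 (.leaf 221 1583 (.cons 198 (.leaf 173 1391 (.cons 199 (.leaf 223 1589 (.leaf 175 1397 .nil)) .nil)) .nil)) .nil)) (.cons 245 (.leaf 271 1963 (.cons 221 (.leaf 318 1775 (.cons 197 (.leaf 269 1580 (.leaf 173 1388 .nil)) .nil)) .nil)) (.cons 271 (.leaf 245 1963 (.cons 269 (.leaf 249 1961 (.leaf 268 2144 .nil)) .nil)) .nil)))) (.cons 319 (.cons 222 (.leaf 270 1780 (.cons 247 (.leaf 271 1783 (.cons 221 (.leaf 249 1771 (.cons 220 (.leaf 223 1760 (.leaf 219 1752 .nil)) .nil)) .nil)) .nil)) (.cons 343 (.leaf 271 1981 (.leaf 367 2173 .nil)) (.cons 270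 (.leaf 222 1780 (.cons 343 (.leaf 367 2173 (.leaf 318 1972 .nil)) .nil)) .nil))) (.cons 247 (.leaf 245 1960 (.cons 271 (.cons 319 (.leaf 343 1981 (.leaf 222 1783 .nil)) (.cons 223 (.leaf 199 1596 (.leaf 318 1782 .nil)) .nil)) .nil)) (.cons 247 (.leaf 245 1960 (.cons 270 (.cons 222 (.leaf 319 1780 (.cons 221 (.leaf 197 1583 (.leaf 249 1771 .nil)) .nil)) (.cons 249 (.leaf 269 1962 (.cons 318 (.leaf 223 1781 (.cons 317 (.leaf 341 1966 (.cons 316 (.leaf 319 2337 (.leaf 315 2329 .nil)) .nil)) .nil)) .nil)) (.cons 223 (.leaf 318 1781 (.cons 199 (.leaf 175 1404 (.leaf 222 1589 .nil)) .nil)) .nil))) .nil)) (.cons 245 (.leaf 247 1960 (.cons 270 (.leaf 271 1963 (.cons 221 (.leaf 318 1775 (.cons 197 (.leaf 269 1580 (.leaf 173 1388 .nil)) .nil)) .nil)) .nil)) (.cons 245 (.leaf 247 1960 (.cons 270 (.leaf 271 1963 (.cons 222 (.leaf 319 1780 (.cons 197 (.leaf 221 1583 (.cons 198 (.leaf 173 1391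 (.cons 199 (.leaf 223 1589 (.leaf 175 1397 .nil)) .nil)) .nil)) .nil)) .nil)) .nil)) .nil))))))
noncomputable def t88 : T := .cons 224 (.leaf 200 1598 (.cons 223 (.leaf 199 1599 (.cons 318 (.leaf 247 1782 (.cons 342 (.leaf 366 2165 (.cons 270 (.cons 269 (.leaf 249 1961 (.leaf 268 2144 .nil)) (.cons 246 (.leaf 245 1963 (.cons 341 (.leaf 317 1966 (.leaf 365 2158 .nil)) .nil)) .nil)) .nil)) .nil)) .nil)) .nil)) (.cons 270 (.cons 245 (.leaf 246 1963 (.cons 269 (.leaf 244 1955 (.leaf 249 1961 .nil)) .nil)) (.cons 246 (.leaf 245 1963 (.cons 222 (.leaf 198 1588 (.cons 223 (.leaf 199 1589 (.cons 247 (.leaf 318 1781 (.cons 249 (.leaf 250 1969 (.leaf 221 1771 .nil)) .nil)) .nil)) .nil)) .nil)) (.cons 245 (.leaf 246 1963 (.cons 269 (.leaf 244 1955 (.leaf 268 2144 .nil)) .nil)) (.cons 249 (.leaf 269 1961 (.leaf 250 1969 .nil)) .nil)))) (.cons 224 (.leaf 200 1598 (.cons 223 (.leaf 199 1599 (.cons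 247 (.leaf 318 1782 (.cons 222 (.leaf 198 1591 (.cons 221 (.leaf 220 1760 (.leaf 249 1768 .nil)) .nil)) .nil)) .nil)) .nil)) (.cons 224 (.leaf 200 1598 (.cons 223 (.leaf 199 1599 (.cons 270 (.cons 249 (.leaf 269 1961 (.leaf 250 1969 .nil)) (.cons 245 (.leaf 246 1963 (.cons 269 (.leaf 244 1955 (.leaf 268 2144 .nil)) .nil)) (.cons 246 (.leaf 245 1963 (.cons 222 (.leaf 198 1588 (.cons 221 (.leaf 197 1583 (.leaf 249 1768 .nil)) .nil)) .nil)) .nil))) .nil)) .nil)) (.cons 200 (.leaf 224 1598 (.cons 270 (.cons 249 (.leaf 269 1961 (.leaf 250 1969 .nil)) (.cons 246 (.leaf 245 1963 (.cons 222 (.leaf 198 1588 (.cons 221 (.leaf 197 1583 (.cons 249 (.leaf 250 1969 (.leaf 247 1771 .nil)) .nil)) .nil)) .nil)) (.cons 245 (.leaf 246 1963 (.cons 269 (.leaf 244 1955 (.leaf 268 2144 .nil)) .nil)) .nil))) .nil)) (.cons 224 (.leaf 200 1598 (.cons 223 (.leaf 199 1599 (.cons 247 (.leaf 318 1782 (.cons 222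 (.leaf 198 1591 (.cons 245 (.leaf 246 1960 (.cons 221 (.leaf 220 1760 (.leaf 244 1762 .nil)) .nil)) .nil)) .nil)) .nil)) .nil)) .nil)))))
noncomputable def t89 : T := .cons 269 (.leaf 270 2155 (.cons 318 (.leaf 317 2346 (.cons 298 (.leaf 319 2354 (.cons 299 (.leaf 271 2171 (.cons 323 (.leaf 322 2360 (.leaf 324 2368 .nil)) .nil)) .nil)) .nil)) .nil)) (.cons 321 (.leaf 322 2352 (.cons 224 (.leaf 248 1796 (.cons 318 (.leaf 317 2346 (.cons 298 (.leaf 319 2354 (.cons 299 (.leaf 271 2171 (.cons 300 (.leaf 273 2179 (.cons 324 (.leaf 323 2368 (.leaf 325 2376 .nil)) .nil)) .nil)) .nil)) .nil)) .nil)) .nil)) (.cons 270 (.leaf 269 2155 (.cons 298 (.leaf 271 2163 (.cons 322 (.leaf 321 2352 (.leaf 323 2360 .nil)) .nil)) .nil)) (.cons 270 (.leaf 269 2155 (.cons 271 (.leaf 298 2163 (.cons 318 (.leaf 317 2346 (.cons 342 (.leaf 366 2165 (.leaf 247 1973 .nil)) .nil)) .nil)) .nil)) (.cons 321 (.leaf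 322 2352 (.cons 224 (.leaf 248 1796 (.cons 270 (.leaf 269 2155 (.cons 318 (.leaf 317 2346 (.cons 319 (.leaf 298 2354 (.cons 343 (.leaf 367 2173 (.leaf 246 1972 .nil)) .nil)) .nil)) .nil)) .nil)) .nil)) (.cons 321 (.leaf 322 2352 (.cons 248 (.leaf 224 1796 (.cons 345 (.leaf 273 1991 (.leaf 369 2183 .nil)) .nil)) .nil)) .nil)))))
noncomputable def t90 : T := .cons 293 (.leaf 273 2153 (.cons 271 (.leaf 292 2145 (.cons 317 (.leaf 316 2338 (.cons 297 (.leaf 318 2346 (.cons 270 (.leaf 269 2152 (.leaf 298 2163 .nil)) .nil)) .nil)) .nil)) .nil)) (.cons 297 t89 (.cons 293 (.leaf 273 2153 (.cons 268 (.leaf 269 2147 (.cons 292 (.leaf 271 2145 (.leaf 267 2139 .nil)) .nil)) .nil)) (.cons 293 (.leaf 273 2153 (.cons 268 (.leaf 269 2147 (.cons 292 (.leaf 267 2139 (.cons 316 (.leaf 317 2338 (.leaf 315 2330 .nil)) .nil)) .nil)) .nil)) (.cons 293 (.cons 271 (.leaf 292 2145 (.cons 317 (.leaf 316 2338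 (.cons 297 (.leaf 318 2346 (.cons 270 (.leaf 269 2152 (.leaf 298 2163 .nil)) .nil)) .nil)) .nil)) (.cons 268 (.leaf 269 2147 (.cons 317 (.leaf 316 2338 (.cons 297 (.leaf 318 2346 (.cons 322 (.leaf 321 2352 (.cons 298 (.leaf 323 2360 (.cons 271 (.leaf 299 2171 (.leaf 270 2163 .nil)) .nil)) .nil)) .nil)) .nil)) .nil)) (.cons 271 (.leaf 292 2145 (.cons 317 (.leaf 316 2338 (.cons 297 (.leaf 318 2346 (.cons 298 (.leaf 299 2171 (.leaf 270 2163 .nil)) .nil)) .nil)) .nil)) (.cons 268 (.leaf 269 2147 (.cons 292 (.leaf 267 2139 (.cons 316 (.leaf 317 2338 (.leaf 315 2330 .nil)) .nil)) .nil)) (.cons 292 (.leaf 271 2145 (.cons 268 (.leaf 269 2147 (.leaf 267 2139 .nil)) .nil)) .nil))))) (.cons 293 (.leaf 273 2153 (.cons 271 (.leaf 292 2145 (.cons 317 (.leaf 316 2338 (.cons 297 (.leaf 318 2346 (.cons 298 (.leaf 299 2171 (.leaf 270 2163 .nil)) .nil)) .nil)) .nil)) .nil)) .nil)))))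
noncomputable def t91 : T := .cons 269 (.leaf 270 2155 (.cons 293 (.leaf 268 2147 (.cons 292 (.leaf 271 2145 (.cons 316 (.leaf 317 2338 (.leaf 315 2330 .nil)) .nil)) .nil)) .nil)) (.cons 321 (.leaf 322 2352 (.cons 248 (.leaf 224 1796 (.cons 318 (.leaf 317 2346 (.cons 369 (.leaf 345 2183 (.cons 271 (.cons 247 (.leaf 223 1782 (.cons 342 (.leaf 319 1974 (.leaf 366 2165 .nil)) .nil)) (.cons 343 (.leaf 319 1981 (.cons 342 (.leaf 366 2165 (.cons 367 (.leaf 270 2164 (.cons 292 (.leaf 293 2145 (.cons 368 (.leaf 370 2739 (.cons 341 (.leaf 344 2728 (.leaf 340 2720 .nil)) .nil)) .nil)) .nil)) .nil)) .nil)) (.cons 247 (.leaf 223 1782 (.cons 342 (.leaf 366 2165 (.leaf 270 1973 .nil)) .nil)) (.cons 247 (.leaf 223 1782 (.cons 319 (.leaf 343 1981 (.cons 246 (.leaf 222 1783 (.cons 245 (.leaf 244 1952 (.cons 221 (.leaf 270 1775 (.leaf 220 1763 .nil)) .nil)) .nil)) .nil)) .nil)) .nil)))) .nil)) .nil))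 .nil)) .nil)) (.cons 321 (.leaf 322 2352 (.cons 224 (.leaf 248 1796 (.cons 317 (.leaf 318 2346 (.cons 293 (.leaf 316 2338 (.cons 268 (.leaf 269 2147 (.cons 292 (.leaf 271 2145 (.leaf 267 2139 .nil)) .nil)) .nil)) .nil)) .nil)) .nil)) (.cons 269 (.leaf 270 2155 (.cons 321 (.leaf 322 2352 (.cons 293 (.leaf 268 2147 (.cons 248 (.leaf 224 1796 (.cons 271 (.leaf 292 2145 (.cons 319 (.leaf 343 1981 (.cons 345 (.leaf 369 2183 (.cons 247 (.cons 223 (.leaf 199 1596 (.leaf 318 1782 .nil)) (.cons 222 (.leaf 246 1783 (.cons 223 (.leaf 199 1596 (.leaf 198 1591 .nil)) .nil)) (.cons 246 (.leaf 222 1783 (.cons 318 (.leaf 342 1974 (.cons 245 (.leaf 244 1952 (.leaf 221 1772 .nil)) .nil)) .nil)) .nil))) .nil)) .nil)) .nil)) .nil)) .nil)) .nil)) .nil)) (.cons 321 (.leaf 322 2352 (.cons 224 (.leaf 248 1796 (.cons 269 (.leaf 270 2155 (.cons 293 (.leaf 268 2147 (.cons 317 (.leaf 316 2338 (.leaf 318 2346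 .nil)) .nil)) .nil)) .nil)) .nil)) (.cons 321 (.leaf 322 2352 (.cons 270 (.leaf 269 2155 (.cons 318 (.leaf 317 2346 (.cons 248 (.leaf 224 1796 (.cons 319 (.cons 343 (.leaf 271 1981 (.leaf 367 2173 .nil)) (.cons 246 (.leaf 222 1780 (.cons 221 (.leaf 245 1775 (.cons 247 (.leaf 223 1781 (.cons 342 (.leaf 271 1973 (.cons 345 (.leaf 369 2183 (.cons 365 (.leaf 341 2158 (.cons 366 (.leaf 390 2357 (.leaf 389 2350 .nil)) .nil)) .nil)) .nil)) .nil)) .nil)) .nil)) (.cons 343 (.leaf 367 2173 (.leaf 246 1972 .nil)) .nil))) .nil)) .nil)) .nil)) .nil)) .nil)))))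
noncomputable def t92 : T := .cons 273 (.leaf 274 2170 (.cons 294 (.leaf 293 2153 (.cons 297 (.cons 270 (.leaf 269 2155 (.cons 318 (.leaf 317 2346 (.cons 321 (.leaf 322 2352 (.cons 345 (.leaf 248 1991 (.leaf 369 2183 .nil)) .nil)) .nil)) .nil)) (.cons 321 (.leaf 322 2352 (.cons 248 (.leaf 224 1796 (.leaf 345 1991 .nil)) .nil)) (.cons 269 (.leaf 270 2155 (.cons 318 (.leaf 317 2346 (.cons 298 (.leaf 319 2354 (.cons 299 (.leaf 271 2171 (.leaf 300 2179 .nil)) .nil)) .nil)) .nil)) .nil))) .nil)) .nil)) (.cons 297 (.cons 298 (.leaf 274 2169 (.cons 271 (.leaf 299 2171 (.leaf 270 2163 .nil)) .nil)) (.cons 294 t91 (.cons 298 (.leaf 274 2169 (.cons 318 (.leaf 319 2354 (.cons 294 (.leaf 317 2346 (.cons 322 (.leaf 321 2352 (.leaf 323 2360 .nil)) .nil)) .nil)) .nil)) .nil))) (.cons 294 t90 (.cons 273 (.leaf 274 2170 (.cons 294 (.leaf 293 2153 (.cons 248 (.cons 246 (.cons 245 (.leaf 247 1960 (.cons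 270 (.leaf 271 1963 (.cons 221 (.leaf 318 1775 (.cons 197 (.leaf 222 1583 (.leaf 269 1580 .nil)) .nil)) .nil)) .nil)) (.cons 319 (.leaf 224 1790 (.cons 343 (.leaf 271 1981 (.leaf 367 2173 .nil)) .nil)) (.cons 319 (.leaf 224 1790 (.cons 270 (.leaf 222 1780 (.cons 245 (.leaf 247 1960 (.cons 343 (.leaf 367 2173 (.leaf 318 1972 .nil)) .nil)) .nil)) .nil)) .nil))) (.cons 271 t88 (.cons 246 t87 (.cons 224 (.leaf 319 1790 (.cons 199 (.leaf 223 1599 (.cons 200 (.leaf 175 1407 (.cons 176 (.leaf 249 1412 (.cons 177 (.leaf 201 1413 (.leaf 153 1221 .nil)) .nil)) .nil)) .nil)) .nil)) .nil)))) .nil)) .nil)) (.cons 274 (.leaf 273 2170 (.cons 298 (.leaf 297 2169 (.cons 251 t86 .nil)) .nil)) (.cons 273 (.leaf 274 2170 (.cons 294 (.leaf 293 2153 (.cons 297 (.cons 270 (.leaf 269 2155 (.cons 318 (.leaf 317 2346 (.cons 321 (.leaf 322 2352 (.cons 345 (.leaf 248 1991 (.leaf 369 2183 .nil)) .nil)) .nil))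 .nil)) (.cons 318 (.leaf 317 2346 (.cons 270 (.leaf 269 2155 (.cons 319 (.leaf 298 2354 (.cons 246 (.leaf 222 1780 (.leaf 343 1972 .nil)) .nil)) .nil)) .nil)) (.cons 321 (.leaf 322 2352 (.cons 248 (.leaf 224 1796 (.leaf 345 1991 .nil)) .nil)) .nil))) .nil)) .nil)) (.cons 273 (.leaf 274 2170 (.cons 294 (.leaf 293 2153 (.cons 297 (.cons 270 (.leaf 269 2155 (.cons 271 (.leaf 298 2160 (.cons 245 (.leaf 246 1963 (.cons 318 (.leaf 317 2346 (.cons 247 (.leaf 223 1782 (.leaf 342 1973 .nil)) .nil)) .nil)) .nil)) .nil)) (.cons 321 (.leaf 322 2352 (.cons 248 (.leaf 224 1796 (.leaf 345 1991 .nil)) .nil)) .nil)) .nil)) .nil)) (.cons 273 (.leaf 274 2170 (.cons 294 (.leaf 293 2153 (.cons 297 (.cons 270 (.leaf 269 2155 (.cons 318 (.leaf 317 2346 (.cons 321 (.leaf 322 2352 (.cons 345 (.leaf 369 2183 (.cons 344 (.leaf 368 2182 (.cons 346 (.leaf 370 2188 (.cons 343 (.leaf 319 2547 (.cons 367 (.leaf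 342 2164 (.leaf 366 2738 .nil)) .nil)) .nil)) .nil)) .nil)) .nil)) .nil)) .nil)) (.cons 321 (.leaf 322 2352 (.cons 318 (.leaf 317 2346 (.cons 298 (.leaf 319 2354 (.cons 299 (.leaf 271 2171 (.leaf 300 2179 .nil)) .nil)) .nil)) .nil)) (.cons 270 (.leaf 269 2155 (.cons 271 (.leaf 298 2160 (.cons 246 (.leaf 245 1963 (.cons 222 (.leaf 198 1588 (.leaf 319 1780 .nil)) .nil)) .nil)) .nil)) (.cons 270 (.leaf 269 2155 (.cons 271 (.leaf 298 2160 (.cons 245 (.leaf 246 1963 (.cons 318 (.leaf 317 2346 (.cons 247 (.leaf 223 1782 (.leaf 342 1973 .nil)) .nil)) .nil)) .nil)) .nil)) .nil)))) .nil)) .nil)) .nil)))))))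
noncomputable def t93 : T := .cons 343 (.leaf 367 2174 (.cons 248 (.leaf 319 1982 (.cons 273 (.leaf 249 1989 (.cons 297 (.leaf 368 2181 (.cons 224 (.leaf 200 1604 (.leaf 321 1796 .nil)) .nil)) .nil)) .nil)) .nil)) (.cons 345 (.leaf 369 2180 (.cons 248 (.leaf 321 1988 (.cons 273 (.leaf 249 1989 (.cons 297 (.leaf 368 2181 (.cons 224 (.leaf 200 1604 (.cons 199 (.leaf 223 1599 (.cons 295 (.leaf 319 1790 (.cons 294 (.leaf 293 2153 (.cons 270 (.leaf 269 2155 (.cons 298 (.leaf 271 2160 (.cons 299 (.leaf 300 2179 (.cons 323 (.leaf 322 2360 (.leaf 324 2368 .nil)) .nil)) .nil)) .nil)) .nil)) .nil)) .nil)) .nil)) .nil)) .nil)) .nil)) .nil)) (.cons 343 (.leaf 367 2174 (.cons 248 (.leaf 319 1982 (.cons 345 (.leaf 321 1988 (.leaf 369 2180 .nil)) .nil)) .nil)) (.cons 343 (.leaf 367 2174 (.cons 248 (.leaf 319 1982 (.cons 273 (.leaf 249 1989 (.cons 368 (.leaf 297 2181 (.cons 369 (.leaf 345 2180 (.leaf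 393 2372 .nil)) .nil)) .nil)) .nil)) .nil)) (.cons 345 (.leaf 369 2180 (.cons 248 (.leaf 321 1988 (.cons 273 (.leaf 249 1989 (.cons 367 (.leaf 343 2174 (.cons 368 (.leaf 297 2181 (.leaf 391 2366 .nil)) .nil)) .nil)) .nil)) .nil)) (.cons 367 (.leaf 343 2174 (.cons 368 (.leaf 391 2366 (.cons 295 (.leaf 271 2175 (.cons 392 (.leaf 319 2367 (.cons 321 (.leaf 297 2373 (.cons 345 (.leaf 369 2180 (.leaf 416 2565 .nil)) .nil)) .nil)) .nil)) .nil)) .nil)) .nil)))))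
noncomputable def t94 : T := .cons 247 (.leaf 271 1983 (.cons 223 (.leaf 248 1791 (.cons 273 (.leaf 249 1989 (.cons 368 (.leaf 297 2181 (.cons 391 (.leaf 367 2366 (.cons 392 (.leaf 415 2558 (.cons 393 (.leaf 369 2372 (.leaf 417 2564 .nil)) .nil)) .nil)) .nil)) .nil)) .nil)) .nil)) (.cons 343 (.leaf 367 2174 (.cons 248 (.leaf 319 1982 (.cons 223 (.leaf 247 1791 (.cons 224 (.leaf 199 1599 (.cons 273 (.leaf 249 1989 (.cons 297 (.leaf 200 1604 (.leaf 321 1796 .nil)) .nil)) .nil)) .nil)) .nil)) .nil)) (.cons 271 (.leaf 247 1983 (.cons 273 (.leaf 249 1989 (.cons 368 (.leaf 295 2175 (.leaf 297 2181 .nil)) .nil)) .nil)) (.cons 343 (.leaf 367 2174 (.cons 248 (.leaf 319 1982 (.cons 273 (.leaf 249 1989 (.cons 297 (.leaf 368 2181 (.cons 224 (.leaf 200 1604 (.leaf 321 1796 .nil)) .nil)) .nil)) .nil)) .nil)) (.cons 271 (.leaf 247 1983 (.cons 295 (.leaf 368 2175 (.cons 343 (.leaf 367 2174 (.cons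 248 (.leaf 319 1981 (.cons 224 (.leaf 200 1598 (.cons 199 (.leaf 223 1599 (.cons 297 (.leaf 321 1796 (.cons 270 (.leaf 269 2152 (.leaf 298 2163 .nil)) .nil)) .nil)) .nil)) .nil)) .nil)) .nil)) .nil)) (.cons 343 (.leaf 367 2174 (.cons 247 (.leaf 271 1983 (.cons 248 (.leaf 223 1791 (.leaf 319 1982 .nil)) .nil)) .nil)) .nil)))))
noncomputable def t95 : T := .cons 247 (.leaf 271 1983 (.cons 223 (.leaf 248 1791 (.cons 273 (.leaf 249 1989 (.cons 368 (.leaf 297 2181 (.cons 391 (.leaf 367 2366 (.cons 392 (.leaf 415 2558 (.cons 393 (.leaf 369 2372 (.leaf 417 2564 .nil)) .nil)) .nil)) .nil)) .nil)) .nil)) .nil)) (.cons 345 (.leaf 369 2180 (.cons 248 (.leaf 321 1988 (.cons 223 (.leaf 247 1791 (.cons 224 (.leaf 199 1599 (.cons 273 (.leaf 249 1989 (.cons 297 (.leaf 200 1604 (.leaf 368 2181 .nil)) .nil)) .nil)) .nil)) .nil)) .nil)) (.cons 345 (.leaf 369 2180 (.cons 248 (.leaf 321 1988 (.cons 273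 (.leaf 249 1989 (.cons 297 (.leaf 368 2181 (.cons 224 (.leaf 200 1604 (.cons 199 (.leaf 223 1599 (.cons 295 (.leaf 319 1790 (.cons 294 (.leaf 293 2153 (.cons 270 (.leaf 269 2155 (.cons 298 (.leaf 271 2160 (.cons 299 (.leaf 300 2179 (.cons 323 (.leaf 322 2360 (.leaf 324 2368 .nil)) .nil)) .nil)) .nil)) .nil)) .nil)) .nil)) .nil)) .nil)) .nil)) .nil)) .nil)) (.cons 271 (.leaf 247 1983 (.cons 368 (.leaf 295 2175 (.cons 391 (.leaf 367 2366 (.cons 392 (.leaf 415 2558 (.cons 321 (.leaf 297 2373 (.cons 345 (.leaf 248 1988 (.leaf 416 2565 .nil)) .nil)) .nil)) .nil)) .nil)) .nil)) (.cons 345 (.leaf 369 2180 (.cons 247 (.leaf 271 1983 (.cons 248 (.leaf 223 1791 (.leaf 321 1988 .nil)) .nil)) .nil)) (.cons 271 (.leaf 247 1983 (.cons 249 (.leaf 273 1989 (.cons 368 (.leaf 295 2175 (.cons 369 (.leaf 345 2180 (.leaf 393 2372 .nil)) .nil)) .nil)) .nil)) .nil)))))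
noncomputable def t96 : T := .cons 343 (.leaf 367 2174 (.cons 345 (.leaf 369 2180 (.cons 342 (.cons 322 (.leaf 321 2545 (.cons 317 (.leaf 318 2539 (.cons 346 (.leaf 323 2553 (.cons 347 (.leaf 319 2555 (.cons 371 (.leaf 370 2744 (.leaf 372 2752 .nil)) .nil)) .nil)) .nil)) .nil)) (.cons 319 (.leaf 248 1982 (.cons 318 (.leaf 317 2536 (.leaf 346 2547 .nil)) .nil)) (.cons 321 (.leaf 248 1988 (.leaf 341 2537 .nil)) .nil))) .nil)) .nil)) (.cons 343 (.leaf 367 2174 (.cons 248 (.leaf 319 1982 (.cons 223 (.leaf 247 1791 (.cons 224 (.leaf 199 1599 (.cons 273 (.leaf 249 1989 (.cons 297 (.leaf 200 1604 (.leaf 321 1796 .nil)) .nil)) .nil)) .nil)) .nil)) .nil)) (.cons 345 (.leaf 369 2180 (.cons 248 (.leaf 321 1988 (.cons 223 (.leaf 247 1791 (.cons 224 (.leaf 199 1599 (.cons 273 (.leaf 249 1989 (.cons 297 (.leaf 200 1604 (.leaf 368 2181 .nil)) .nil)) .nil)) .nil)) .nil)) .nil)) (.cons 249 (.leaf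 273 1989 (.cons 343 (.leaf 367 2174 (.cons 319 (.leaf 248 1982 (.cons 345 (.leaf 369 2180 (.cons 318 (.leaf 317 2536 (.leaf 346 2547 .nil)) .nil)) .nil)) .nil)) .nil)) (.cons 249 (.leaf 273 1989 (.cons 367 (.leaf 343 2174 (.cons 368 (.leaf 391 2366 (.cons 369 (.leaf 345 2180 (.leaf 393 2372 .nil)) .nil)) .nil)) .nil)) .nil))))
noncomputable def t97 : T := .cons 271 (.leaf 247 1983 (.cons 249 (.leaf 273 1989 (.cons 343 (.leaf 367 2174 (.cons 368 (.leaf 295 2175 (.cons 393 (.leaf 369 2372 (.cons 392 (.leaf 417 2564 (.cons 321 (.leaf 297 2373 (.cons 416 (.leaf 319 2559 (.leaf 345 2565 .nil)) .nil)) .nil)) .nil)) .nil)) .nil)) .nil)) .nil)) (.cons 343 (.leaf 367 2174 (.cons 345 (.leaf 369 2180 (.cons 342 (.cons 322 (.leaf 321 2545 (.cons 317 (.leaf 318 2539 (.cons 346 (.leaf 323 2553 (.cons 347 (.leaf 319 2555 (.cons 371 (.leaf 370 2744 (.leaf 372 2752 .nil)) .nil)) .nil)) .nil)) .nil))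 (.cons 318 (.leaf 317 2539 (.cons 249 (.leaf 273 1989 (.cons 319 (.leaf 346 2547 (.cons 341 (.leaf 340 2529 (.cons 365 (.leaf 364 2722 (.leaf 366 2730 .nil)) .nil)) .nil)) .nil)) .nil)) (.cons 321 (.leaf 341 2537 (.leaf 322 2545 .nil)) .nil))) .nil)) .nil)) (.cons 271 (.leaf 247 1983 (.cons 249 (.leaf 273 1989 (.cons 368 (.leaf 295 2175 (.cons 369 (.leaf 345 2180 (.leaf 393 2372 .nil)) .nil)) .nil)) .nil)) (.cons 271 (.leaf 247 1983 (.cons 249 (.leaf 273 1989 (.cons 343 (.leaf 367 2174 (.cons 368 (.leaf 295 2175 (.cons 393 (.leaf 369 2372 (.cons 392 (.leaf 417 2564 (.cons 297 (.leaf 321 2373 (.cons 269 (.leaf 270 2152 (.cons 298 (.leaf 299 2171 (.cons 415 (.leaf 391 2558 (.cons 416 (.leaf 319 2559 (.leaf 439 2750 .nil)) .nil)) .nil)) .nil)) .nil)) .nil)) .nil)) .nil)) .nil)) .nil)) .nil)) (.cons 271 (.leaf 247 1983 (.cons 249 (.leaf 273 1989 (.cons 367 (.leaf 343 2174 (.cons 368 (.leaf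 295 2175 (.leaf 391 2366 .nil)) .nil)) .nil)) .nil)) (.cons 343 (.leaf 367 2174 (.cons 345 (.leaf 369 2180 (.cons 342 (.cons 321 (.leaf 341 2537 (.leaf 322 2545 .nil)) (.cons 318 (.leaf 317 2539 (.cons 247 (.leaf 271 1983 (.cons 319 (.leaf 346 2547 (.cons 341 (.leaf 340 2529 (.cons 365 (.leaf 364 2722 (.leaf 366 2730 .nil)) .nil)) .nil)) .nil)) .nil)) (.cons 322 (.leaf 321 2545 (.cons 317 (.leaf 318 2539 (.cons 346 (.leaf 323 2553 (.cons 347 (.leaf 319 2555 (.cons 371 (.leaf 370 2744 (.leaf 372 2752 .nil)) .nil)) .nil)) .nil)) .nil)) .nil))) .nil)) .nil)) .nil)))))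
noncomputable def t98 : T := .cons 249 (.leaf 273 1989 (.cons 369 (.leaf 345 2180 (.cons 368 (.leaf 393 2372 (.cons 295 (.leaf 271 2175 (.cons 391 (.leaf 367 2366 (.cons 392 (.leaf 319 2367 (.leaf 415 2558 .nil)) .nil)) .nil)) .nil)) .nil)) .nil)) (.cons 271 (.leaf 247 1983 (.cons 249 (.leaf 273 1989 (.cons 343 (.leaf 367 2174 (.cons 368 (.leaf 295 2175 (.cons 393 (.leaf 369 2372 (.cons 392 (.leaf 417 2564 (.cons 319 (.leaf 248 1982 (.leaf 416 2559 .nil)) .nil)) .nil)) .nil)) .nil)) .nil)) .nil)) (.cons 343 (.leaf 367 2174 (.cons 345 (.leaf 369 2180 (.cons 342 (.cons 322 (.leaf 321 2545 (.cons 317 (.leaf 318 2539 (.cons 346 (.leaf 323 2553 (.cons 347 (.leaf 319 2555 (.cons 371 (.leaf 370 2744 (.leaf 372 2752 .nil)) .nil)) .nil)) .nil)) .nil)) (.cons 319 (.leaf 248 1982 (.cons 318 (.leaf 317 2536 (.leaf 346 2547 .nil)) .nil)) (.cons 321 (.leaf 248 1988 (.leaf 341 2537 .nil)) .nil)))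 .nil)) .nil)) (.cons 345 (.leaf 369 2180 (.cons 248 (.leaf 321 1988 (.cons 319 (.leaf 343 1982 (.cons 295 (.leaf 224 1790 (.cons 368 (.leaf 271 2175 (.leaf 392 2367 .nil)) .nil)) .nil)) .nil)) .nil)) (.cons 271 (.leaf 247 1983 (.cons 249 (.leaf 273 1989 (.cons 367 (.leaf 343 2174 (.cons 368 (.leaf 295 2175 (.leaf 391 2366 .nil)) .nil)) .nil)) .nil)) .nil))))
noncomputable def t99 : T := .cons 344 t98 (.cons 248 (.cons 321 (.leaf 345 1988 (.cons 223 (.leaf 247 1791 (.cons 224 (.leaf 199 1599 (.leaf 297 1796 .nil)) .nil)) .nil)) (.cons 319 (.leaf 343 1982 (.cons 223 (.leaf 247 1791 (.cons 224 (.leaf 199 1599 (.leaf 295 1790 .nil)) .nil)) .nil)) (.cons 319 (.leaf 343 1982 (.cons 224 (.leaf 295 1790 (.cons 321 (.leaf 297 1796 (.leaf 345 1988 .nil)) .nil)) .nil)) (.cons 319 (.leaf 343 1982 (.cons 321 (.leaf 345 1988 (.cons 247 (.leaf 223 1791 (.cons 318 (.cons 297 (.leaf 317 2345 (.leaf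 298 2353 .nil)) (.cons 293 (.leaf 294 2347 (.cons 317 (.leaf 292 2339 (.cons 341 (.leaf 340 2530 (.leaf 342 2538 .nil)) .nil)) .nil)) (.cons 293 (.leaf 294 2347 (.cons 298 (.leaf 297 2353 (.cons 322 (.leaf 299 2361 (.cons 295 (.leaf 323 2363 (.cons 342 (.leaf 341 2538 (.leaf 271 1974 .nil)) .nil)) .nil)) .nil)) .nil)) .nil))) .nil)) .nil)) .nil)) .nil)))) (.cons 344 t97 (.cons 344 (.cons 247 (.leaf 271 1983 (.cons 223 (.leaf 248 1791 (.cons 367 (.leaf 343 2174 (.cons 368 (.leaf 391 2366 (.cons 369 (.leaf 345 2180 (.leaf 393 2372 .nil)) .nil)) .nil)) .nil)) .nil)) (.cons 271 (.leaf 247 1983 (.cons 249 (.leaf 273 1989 (.cons 367 (.leaf 343 2174 (.cons 368 (.leaf 295 2175 (.leaf 391 2366 .nil)) .nil)) .nil)) .nil)) (.cons 249 (.leaf 273 1989 (.cons 343 (.leaf 367 2174 (.cons 345 (.leaf 369 2180 (.cons 321 (.leaf 248 1988 (.cons 322 (.leaf 323 2554 (.leaf 342 2545 .nil)) .nil)) .nil))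 .nil)) .nil)) (.cons 271 (.leaf 247 1983 (.cons 249 (.leaf 273 1989 (.cons 368 (.leaf 295 2175 (.cons 369 (.leaf 345 2180 (.leaf 393 2372 .nil)) .nil)) .nil)) .nil)) .nil)))) (.cons 344 (.cons 247 (.leaf 271 1983 (.cons 248 (.leaf 223 1791 (.cons 343 (.leaf 319 1982 (.leaf 367 2174 .nil)) .nil)) .nil)) (.cons 249 (.leaf 273 1989 (.cons 343 (.leaf 367 2174 (.cons 319 (.leaf 248 1982 (.cons 345 (.leaf 369 2180 (.cons 318 (.leaf 317 2536 (.leaf 346 2547 .nil)) .nil)) .nil)) .nil)) .nil)) (.cons 271 (.leaf 247 1983 (.cons 249 (.leaf 273 1989 (.cons 368 (.leaf 295 2175 (.cons 369 (.leaf 345 2180 (.leaf 393 2372 .nil)) .nil)) .nil)) .nil)) .nil))) (.cons 344 t96 (.cons 344 t95 (.cons 344 t94 (.cons 344 t93 .nil))))))))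
noncomputable def t100 : T := .cons 343 (.leaf 367 2174 (.cons 345 (.leaf 369 2180 (.cons 342 (.cons 322 (.leaf 321 2545 (.cons 317 (.leaf 318 2539 (.cons 346 (.leaf 323 2553 (.cons 347 (.leaf 319 2555 (.cons 371 (.leaf 370 2744 (.leaf 372 2752 .nil)) .nil)) .nil)) .nil)) .nil)) (.cons 319 (.leaf 248 1982 (.cons 318 (.leaf 317 2536 (.leaf 346 2547 .nil)) .nil)) (.cons 321 (.leaf 248 1988 (.leaf 341 2537 .nil)) .nil))) .nil)) .nil)) (.cons 369 (.leaf 345 2180 (.cons 368 (.leaf 393 2372 (.cons 295 (.leaf 271 2175 (.cons 391 (.leaf 367 2366 (.cons 392 (.leaf 319 2367 (.leaf 415 2558 .nil)) .nil)) .nil)) .nil)) .nil)) (.cons 367 (.leaf 343 2174 (.cons 368 (.leaf 391 2366 (.cons 295 (.leaf 271 2175 (.cons 392 (.leaf 319 2367 (.cons 393 (.leaf 369 2372 (.leaf 417 2564 .nil)) .nil)) .nil)) .nil)) .nil)) (.cons 345 (.leaf 369 2180 (.cons 248 (.leaf 321 1988 (.cons 319 (.leaf 343 1982 (.cons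 295 (.leaf 224 1790 (.cons 368 (.leaf 271 2175 (.leaf 392 2367 .nil)) .nil)) .nil)) .nil)) .nil)) (.cons 343 (.leaf 367 2174 (.cons 248 (.leaf 319 1982 (.cons 321 (.leaf 345 1988 (.cons 297 (.leaf 224 1796 (.cons 322 (.leaf 323 2554 (.cons 295 (.leaf 294 2352 (.cons 368 (.leaf 271 2175 (.leaf 392 2373 .nil)) .nil)) .nil)) .nil)) .nil)) .nil)) .nil)) (.cons 345 (.leaf 369 2180 (.cons 321 (.leaf 248 1988 (.cons 343 (.leaf 367 2174 (.cons 322 (.leaf 323 2554 (.leaf 342 2545 .nil)) .nil)) .nil)) .nil)) .nil)))))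
noncomputable def t101 : T := .cons 271 (.leaf 247 1983 (.cons 367 (.leaf 343 2174 (.cons 368 (.leaf 295 2175 (.leaf 391 2366 .nil)) .nil)) .nil)) (.cons 368 (.cons 367 (.leaf 343 2174 (.leaf 391 2366 .nil)) (.cons 393 (.leaf 369 2372 (.cons 392 (.leaf 417 2564 (.cons 297 (.leaf 321 2373 (.cons 319 (.leaf 295 2367 (.cons 343 (.leaf 248 1982 (.leaf 416 2559 .nil)) .nil)) .nil)) .nil)) .nil)) (.cons 391 (.leaf 367 2366 (.cons 392 (.leaf 415 2558 (.cons 393 (.leaf 369 2372 (.leaf 417 2564 .nil)) .nil)) .nil)) .nil))) (.cons 271 (.leaf 247 1983 (.cons 368 (.leaf 295 2175 (.cons 391 (.leaf 367 2366 (.cons 392 (.leaf 415 2558 (.cons 393 (.leaf 369 2372 (.leaf 417 2564 .nil)) .nil)) .nil)) .nil)) .nil)) (.cons 247 (.leaf 271 1983 (.cons 248 (.leaf 223 1791 (.cons 319 (.leaf 343 1982 (.cons 297 (.cons 224 (.leaf 295 1790 (.leaf 321 1796 .nil)) (.cons 298 (.leaf 299 2362 (.cons 318 (.leaf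 317 2345 (.leaf 321 2353 .nil)) .nil)) (.cons 295 (.leaf 224 1790 (.cons 298 (.leaf 274 2169 (.leaf 318 2354 .nil)) .nil)) .nil))) .nil)) .nil)) .nil)) (.cons 343 (.leaf 367 2174 (.cons 247 (.leaf 271 1983 (.cons 248 (.leaf 223 1791 (.leaf 319 1982 .nil)) .nil)) .nil)) .nil))))
noncomputable def t102 : T := .cons 248 (.cons 319 (.leaf 343 1982 (.cons 321 (.leaf 345 1988 (.cons 297 (.leaf 224 1796 (.cons 298 (.leaf 299 2362 (.leaf 318 2353 .nil)) .nil)) .nil)) .nil)) (.cons 321 (.leaf 345 1988 (.cons 223 (.leaf 247 1791 (.cons 224 (.leaf 199 1599 (.leaf 297 1796 .nil)) .nil)) .nil)) (.cons 319 (.leaf 343 1982 (.cons 223 (.leaf 247 1791 (.cons 224 (.leaf 199 1599 (.leaf 295 1790 .nil)) .nil)) .nil)) (.cons 319 (.leaf 343 1982 (.cons 321 (.leaf 345 1988 (.cons 247 (.leaf 223 1791 (.cons 318 (.cons 297 (.leaf 317 2345 (.leaf 298 2353 .nil)) (.cons 293 (.leaf 294 2347 (.cons 317 (.leaf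 292 2339 (.cons 341 (.leaf 340 2530 (.leaf 342 2538 .nil)) .nil)) .nil)) (.cons 293 (.leaf 294 2347 (.cons 298 (.leaf 297 2353 (.cons 322 (.leaf 299 2361 (.cons 295 (.leaf 323 2363 (.cons 342 (.leaf 341 2538 (.leaf 271 1974 .nil)) .nil)) .nil)) .nil)) .nil)) .nil))) .nil)) .nil)) .nil)) .nil)))) (.cons 344 (.cons 271 (.leaf 247 1983 (.cons 367 (.leaf 343 2174 (.cons 368 (.leaf 295 2175 (.leaf 391 2366 .nil)) .nil)) .nil)) (.cons 367 (.leaf 343 2174 (.cons 368 (.leaf 391 2366 (.cons 369 (.leaf 345 2180 (.leaf 393 2372 .nil)) .nil)) .nil)) (.cons 271 (.leaf 247 1983 (.cons 368 (.leaf 295 2175 (.cons 369 (.leaf 345 2180 (.leaf 393 2372 .nil)) .nil)) .nil)) (.cons 343 (.leaf 367 2174 (.cons 345 (.leaf 369 2180 (.cons 342 (.cons 321 (.leaf 341 2537 (.leaf 322 2545 .nil)) (.cons 318 (.leaf 317 2539 (.cons 247 (.leaf 271 1983 (.cons 319 (.leaf 346 2547 (.cons 341 (.leaf 340 2529 (.cons 365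 (.leaf 364 2722 (.leaf 366 2730 .nil)) .nil)) .nil)) .nil)) .nil)) (.cons 322 (.leaf 321 2545 (.cons 317 (.leaf 318 2539 (.cons 346 (.leaf 323 2553 (.cons 347 (.leaf 319 2555 (.cons 371 (.leaf 370 2744 (.leaf 372 2752 .nil)) .nil)) .nil)) .nil)) .nil)) .nil))) .nil)) .nil)) .nil)))) (.cons 344 (.cons 367 (.leaf 343 2174 (.cons 368 (.leaf 391 2366 (.cons 369 (.leaf 345 2180 (.leaf 393 2372 .nil)) .nil)) .nil)) (.cons 271 (.leaf 247 1983 (.cons 367 (.leaf 343 2174 (.cons 368 (.leaf 295 2175 (.leaf 391 2366 .nil)) .nil)) .nil)) (.cons 247 (.leaf 271 1983 (.cons 248 (.leaf 223 1791 (.cons 345 (.leaf 321 1988 (.leaf 369 2180 .nil)) .nil)) .nil)) .nil))) (.cons 344 (.cons 247 (.leaf 271 1983 (.cons 248 (.leaf 223 1791 (.cons 319 (.leaf 343 1982 (.cons 369 (.leaf 345 2180 (.cons 295 (.leaf 224 1790 (.cons 368 (.leaf 393 2372 (.leaf 392 2367 .nil)) .nil)) .nil)) .nil)) .nil)) .nil)) (.cons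 343 (.leaf 367 2174 (.cons 319 (.leaf 248 1982 (.cons 345 (.leaf 369 2180 (.cons 318 (.leaf 317 2536 (.leaf 346 2547 .nil)) .nil)) .nil)) .nil)) (.cons 271 (.leaf 247 1983 (.cons 368 (.leaf 295 2175 (.cons 369 (.leaf 345 2180 (.leaf 393 2372 .nil)) .nil)) .nil)) (.cons 271 (.leaf 247 1983 (.cons 367 (.leaf 343 2174 (.cons 368 (.leaf 295 2175 (.leaf 391 2366 .nil)) .nil)) .nil)) .nil)))) (.cons 344 (.cons 247 (.leaf 271 1983 (.cons 248 (.leaf 223 1791 (.cons 345 (.leaf 321 1988 (.leaf 369 2180 .nil)) .nil)) .nil)) (.cons 368 (.cons 391 (.leaf 367 2366 (.cons 392 (.leaf 415 2558 (.cons 393 (.leaf 369 2372 (.leaf 417 2564 .nil)) .nil)) .nil)) (.cons 391 (.leaf 367 2366 (.cons 392 (.leaf 415 2558 (.cons 295 (.leaf 319 2367 (.cons 321 (.leaf 297 2373 (.cons 345 (.leaf 248 1988 (.leaf 416 2565 .nil)) .nil)) .nil)) .nil)) .nil)) (.cons 369 (.leaf 345 2180 (.leaf 393 2372 .nil)) .nil))) (.cons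 271 (.leaf 247 1983 (.cons 368 (.leaf 295 2175 (.cons 391 (.leaf 367 2366 (.cons 392 (.leaf 415 2558 (.cons 393 (.leaf 369 2372 (.leaf 417 2564 .nil)) .nil)) .nil)) .nil)) .nil)) (.cons 271 (.leaf 247 1983 (.cons 368 (.leaf 295 2175 (.cons 391 (.leaf 367 2366 (.cons 392 (.leaf 415 2558 (.cons 321 (.leaf 297 2373 (.cons 345 (.leaf 248 1988 (.leaf 416 2565 .nil)) .nil)) .nil)) .nil)) .nil)) .nil)) .nil)))) (.cons 344 t101 (.cons 344 t100 (.cons 344 (.cons 247 (.leaf 271 1983 (.cons 248 (.leaf 223 1791 (.cons 345 (.leaf 321 1988 (.leaf 369 2180 .nil)) .nil)) .nil)) (.cons 247 (.leaf 271 1983 (.cons 248 (.leaf 223 1791 (.cons 343 (.leaf 319 1982 (.leaf 367 2174 .nil)) .nil)) .nil)) (.cons 345 (.leaf 369 2180 (.cons 321 (.leaf 248 1988 (.cons 343 (.leaf 367 2174 (.cons 322 (.leaf 323 2554 (.leaf 342 2545 .nil)) .nil)) .nil)) .nil)) (.cons 247 (.leaf 271 1983 (.cons 367 (.leaf 343 2174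 (.cons 368 (.leaf 391 2366 (.cons 369 (.leaf 345 2180 (.leaf 393 2372 .nil)) .nil)) .nil)) .nil)) .nil)))) .nil)))))))
noncomputable def t103 : T := .cons 247 (.leaf 271 1983 (.cons 223 (.leaf 248 1791 (.cons 249 (.leaf 273 1989 (.cons 367 (.leaf 343 2174 (.cons 368 (.leaf 391 2366 (.cons 369 (.leaf 345 2180 (.leaf 393 2372 .nil)) .nil)) .nil)) .nil)) .nil)) .nil)) (.cons 247 (.leaf 271 1983 (.cons 223 (.leaf 248 1791 (.cons 273 (.leaf 249 1989 (.cons 368 (.leaf 297 2181 (.cons 391 (.leaf 367 2366 (.cons 392 (.leaf 415 2558 (.cons 393 (.leaf 369 2372 (.leaf 417 2564 .nil)) .nil)) .nil)) .nil)) .nil)) .nil)) .nil)) (.cons 247 (.leaf 271 1983 (.cons 248 (.leaf 223 1791 (.cons 343 (.leaf 319 1982 (.leaf 367 2174 .nil)) .nil)) .nil)) (.cons 247 (.leaf 271 1983 (.cons 248 (.leaf 223 1791 (.cons 273 (.leaf 274 1979 (.leaf 249 1989 .nil)) .nil)) .nil)) (.cons 343 (.leaf 367 2174 (.cons 248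 (.leaf 319 1982 (.cons 273 (.leaf 249 1989 (.cons 368 (.leaf 297 2181 (.cons 369 (.leaf 345 2180 (.leaf 393 2372 .nil)) .nil)) .nil)) .nil)) .nil)) (.cons 273 (.leaf 249 1989 (.cons 247 (.leaf 271 1983 (.cons 367 (.leaf 343 2174 (.cons 368 (.leaf 297 2181 (.leaf 391 2366 .nil)) .nil)) .nil)) .nil)) .nil)))))
noncomputable def t104 : T := .cons 273 (.leaf 249 1989 (.cons 247 (.leaf 271 1983 (.cons 367 (.leaf 343 2174 (.cons 368 (.leaf 297 2181 (.leaf 391 2366 .nil)) .nil)) .nil)) .nil)) (.cons 345 (.leaf 369 2180 (.cons 343 (.leaf 367 2174 (.cons 342 (.cons 321 (.leaf 341 2537 (.leaf 322 2545 .nil)) (.cons 318 (.leaf 317 2539 (.cons 247 (.leaf 271 1983 (.cons 319 (.leaf 346 2547 (.cons 341 (.leaf 340 2529 (.cons 365 (.leaf 364 2722 (.leaf 366 2730 .nil)) .nil)) .nil)) .nil)) .nil)) (.cons 322 (.leaf 321 2545 (.cons 317 (.leaf 318 2539 (.cons 346 (.leaf 323 2553 (.cons 347 (.leaf 319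 2555 (.cons 371 (.leaf 370 2744 (.leaf 372 2752 .nil)) .nil)) .nil)) .nil)) .nil)) .nil))) .nil)) .nil)) (.cons 273 (.leaf 249 1989 (.cons 247 (.leaf 271 1983 (.cons 368 (.leaf 297 2181 (.cons 369 (.leaf 345 2180 (.leaf 393 2372 .nil)) .nil)) .nil)) .nil)) (.cons 345 (.leaf 369 2180 (.cons 343 (.leaf 367 2174 (.cons 342 (.cons 322 (.leaf 321 2545 (.cons 317 (.leaf 318 2539 (.cons 346 (.leaf 323 2553 (.cons 347 (.leaf 319 2555 (.cons 371 (.leaf 370 2744 (.leaf 372 2752 .nil)) .nil)) .nil)) .nil)) .nil)) (.cons 318 (.leaf 317 2539 (.cons 249 (.leaf 273 1989 (.cons 319 (.leaf 346 2547 (.cons 341 (.leaf 340 2529 (.cons 365 (.leaf 364 2722 (.leaf 366 2730 .nil)) .nil)) .nil)) .nil)) .nil)) (.cons 321 (.leaf 341 2537 (.leaf 322 2545 .nil)) .nil))) .nil)) .nil)) .nil)))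
noncomputable def t105 : T := .cons 223 (.leaf 199 1599 (.leaf 247 1791 .nil)) (.cons 200 (.cons 177 (.leaf 201 1413 (.cons 153 (.leaf 176 1221 (.cons 273 (.leaf 297 1604 (.cons 274 (.leaf 247 1979 (.cons 251 (.leaf 252 1985 (.cons 271 (.leaf 250 1977 (.cons 299 (.leaf 300 2176 (.leaf 298 2168 .nil)) .nil)) .nil)) .nil)) .nil)) .nil)) .nil)) (.cons 175 (.leaf 199 1407 (.cons 176 (.leaf 151 1215 (.cons 177 (.leaf 201 1413 (.leaf 153 1221 .nil)) .nil)) .nil)) (.cons 273 (.leaf 297 1604 (.cons 175 (.leaf 199 1407 (.cons 176 (.leaf 151 1215 (.leaf 249 1412 .nil)) .nil)) .nil)) (.cons 273 (.leaf 297 1604 (.cons 175 (.leaf 199 1407 (.cons 177 (.leaf 201 1413 (.cons 274 (.leaf 247 1979 (.cons 251 (.leaf 252 1985 (.cons 271 (.leaf 250 1977 (.cons 299 (.leaf 300 2176 (.leaf 298 2168 .nil)) .nil)) .nil)) .nil)) .nil)) .nil)) .nil)) .nil)))) (.cons 199 (.leaf 223 1599 (.cons 200 (.leaf 175 1407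 (.cons 177 (.leaf 201 1413 (.cons 176 (.leaf 153 1221 (.cons 273 (.leaf 297 1604 (.leaf 249 1412 .nil)) .nil)) .nil)) .nil)) .nil)) (.cons 247 (.leaf 223 1791 (.cons 273 (.leaf 274 1979 (.cons 200 (.leaf 297 1604 (.cons 176 (.leaf 271 1406 (.leaf 249 1412 .nil)) .nil)) .nil)) .nil)) .nil)))
noncomputable def t106 : T := .cons 247 (.leaf 223 1791 (.cons 274 (.leaf 273 1979 (.cons 250 (.leaf 249 1976 (.cons 321 (.leaf 345 1988 (.cons 297 (.leaf 224 1796 (.cons 226 (.leaf 298 1806 (.cons 202 (.leaf 299 1620 (.cons 177 (.leaf 201 1423 (.cons 178 (.leaf 251 1428 (.leaf 153 1231 .nil)) .nil)) .nil)) .nil)) .nil)) .nil)) .nil)) .nil)) .nil)) (.cons 321 (.leaf 345 1988 (.cons 297 (.leaf 224 1796 (.cons 319 (.leaf 343 1982 (.cons 298 (.leaf 299 2362 (.leaf 318 2353 .nil)) .nil)) .nil)) .nil)) (.cons 319 (.leaf 343 1982 (.cons 224 t105 .nil)) (.cons 247 (.leaf 223 1791 (.cons 274 (.leaf 273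 1979 (.cons 319 (.leaf 343 1982 (.cons 321 (.leaf 345 1988 (.cons 250 (.leaf 249 1976 (.cons 322 (.cons 299 (.leaf 298 2361 (.cons 323 (.leaf 347 2007 (.leaf 300 2369 .nil)) .nil)) (.cons 347 (.leaf 346 2552 (.cons 323 (.leaf 299 2007 (.leaf 348 2560 .nil)) .nil)) (.cons 347 (.leaf 346 2552 (.cons 323 (.leaf 348 2560 (.leaf 298 2004 .nil)) .nil)) (.cons 298 (.leaf 299 2361 (.cons 251 (.leaf 346 2005 (.leaf 227 1813 .nil)) .nil)) .nil)))) .nil)) .nil)) .nil)) .nil)) .nil)) (.cons 247 (.leaf 223 1791 (.cons 273 (.leaf 274 1979 (.cons 245 (.leaf 246 1960 (.cons 319 (.leaf 343 1982 (.cons 321 (.leaf 345 1988 (.cons 297 (.leaf 224 1796 (.cons 318 (.leaf 317 2345 (.leaf 298 2353 .nil)) .nil)) .nil)) .nil)) .nil)) .nil)) .nil)) (.cons 247 (.leaf 223 1791 (.cons 273 (.leaf 274 1979 (.cons 245 (.leaf 246 1960 (.cons 319 (.leaf 343 1982 (.cons 321 (.leaf 345 1988 (.cons 297 (.leaf 224 1796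 (.cons 318 (.leaf 317 2345 (.cons 294 (.leaf 293 2347 (.cons 342 (.leaf 341 2538 (.cons 270 (.leaf 271 1973 (.leaf 269 1967 .nil)) .nil)) .nil)) .nil)) .nil)) .nil)) .nil)) .nil)) .nil)) .nil)) .nil)))))
noncomputable def t107 : T := .cons 344 (.cons 343 (.leaf 367 2174 (.cons 345 (.leaf 369 2180 (.cons 342 (.cons 321 (.leaf 248 1988 (.leaf 341 2537 .nil)) (.cons 319 (.leaf 248 1982 (.cons 318 (.leaf 317 2536 (.leaf 346 2547 .nil)) .nil)) (.cons 321 (.leaf 341 2537 (.leaf 322 2545 .nil)) .nil))) .nil)) .nil)) (.cons 247 (.leaf 271 1983 (.cons 248 (.leaf 223 1791 (.cons 343 (.leaf 319 1982 (.leaf 367 2174 .nil)) .nil)) .nil)) (.cons 345 (.leaf 369 2180 (.cons 247 (.leaf 271 1983 (.cons 273 (.leaf 249 1989 (.cons 368 (.leaf 297 2181 (.cons 391 (.leaf 367 2366 (.cons 392 (.leaf 415 2558 (.cons 248 (.leaf 274 1979 (.leaf 223 1791 .nil)) .nil)) .nil)) .nil)) .nil)) .nil)) .nil)) (.cons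 345 (.leaf 369 2180 (.cons 247 (.leaf 271 1983 (.cons 248 (.leaf 223 1791 (.leaf 321 1988 .nil)) .nil)) .nil)) (.cons 247 (.leaf 271 1983 (.cons 273 (.leaf 249 1989 (.cons 367 (.leaf 343 2174 (.cons 368 (.leaf 297 2181 (.leaf 391 2366 .nil)) .nil)) .nil)) .nil)) .nil))))) (.cons 248 t106 (.cons 344 t104 (.cons 344 (.cons 273 (.leaf 249 1989 (.cons 297 (.leaf 368 2181 (.cons 343 (.leaf 367 2174 (.cons 248 (.leaf 319 1982 (.cons 224 (.leaf 200 1604 (.leaf 321 1796 .nil)) .nil)) .nil)) .nil)) .nil)) (.cons 343 (.leaf 367 2174 (.cons 247 (.leaf 271 1983 (.cons 248 (.leaf 223 1791 (.leaf 319 1982 .nil)) .nil)) .nil)) (.cons 247 (.leaf 271 1983 (.cons 223 (.leaf 248 1791 (.cons 273 (.leaf 249 1989 (.cons 368 (.leaf 297 2181 (.cons 391 (.leaf 367 2366 (.cons 392 (.leaf 415 2558 (.cons 393 (.leaf 369 2372 (.leaf 417 2564 .nil)) .nil)) .nil)) .nil)) .nil)) .nil)) .nil)) (.cons 247 (.leaf 271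 1983 (.cons 248 (.leaf 223 1791 (.cons 273 (.leaf 274 1979 (.leaf 249 1989 .nil)) .nil)) .nil)) (.cons 273 (.leaf 249 1989 (.cons 247 (.leaf 271 1983 (.cons 367 (.leaf 343 2174 (.cons 368 (.leaf 297 2181 (.leaf 391 2366 .nil)) .nil)) .nil)) .nil)) .nil))))) (.cons 344 (.cons 273 (.leaf 249 1989 (.cons 297 (.leaf 368 2181 (.cons 345 (.leaf 369 2180 (.cons 321 (.leaf 248 1988 (.cons 346 (.leaf 370 2188 (.cons 319 (.leaf 318 2544 (.leaf 347 2555 .nil)) .nil)) .nil)) .nil)) .nil)) .nil)) (.cons 343 (.leaf 367 2174 (.cons 248 (.leaf 319 1982 (.cons 273 (.leaf 249 1989 (.cons 297 (.leaf 368 2181 (.cons 224 (.leaf 200 1604 (.leaf 321 1796 .nil)) .nil)) .nil)) .nil)) .nil)) (.cons 343 (.leaf 367 2174 (.cons 345 (.leaf 369 2180 (.cons 342 (.cons 321 (.leaf 248 1988 (.leaf 341 2537 .nil)) (.cons 319 (.leaf 248 1982 (.cons 318 (.leaf 317 2536 (.leaf 346 2547 .nil)) .nil)) (.cons 321 (.leaf 341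 2537 (.leaf 322 2545 .nil)) .nil))) .nil)) .nil)) (.cons 249 (.leaf 273 1989 (.cons 367 (.leaf 343 2174 (.cons 368 (.leaf 391 2366 (.cons 369 (.leaf 345 2180 (.leaf 393 2372 .nil)) .nil)) .nil)) .nil)) .nil)))) (.cons 344 t103 (.cons 344 (.cons 247 (.leaf 271 1983 (.cons 273 (.leaf 249 1989 (.cons 368 (.leaf 297 2181 (.cons 369 (.leaf 345 2180 (.leaf 393 2372 .nil)) .nil)) .nil)) .nil)) (.cons 273 (.leaf 249 1989 (.cons 247 (.leaf 271 1983 (.cons 248 (.leaf 274 1979 (.leaf 223 1791 .nil)) .nil)) .nil)) (.cons 345 (.leaf 369 2180 (.cons 247 (.leaf 271 1983 (.cons 248 (.leaf 223 1791 (.leaf 321 1988 .nil)) .nil)) .nil)) (.cons 345 (.leaf 369 2180 (.cons 273 (.leaf 249 1989 (.cons 297 (.leaf 368 2181 (.cons 321 (.leaf 248 1988 (.cons 346 (.leaf 370 2188 (.cons 319 (.leaf 318 2544 (.leaf 347 2555 .nil)) .nil)) .nil)) .nil)) .nil)) .nil)) .nil)))) (.cons 344 (.cons 247 (.leaf 271 1983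 (.cons 248 (.leaf 223 1791 (.cons 345 (.leaf 321 1988 (.leaf 369 2180 .nil)) .nil)) .nil)) (.cons 247 (.leaf 271 1983 (.cons 248 (.leaf 223 1791 (.cons 343 (.leaf 319 1982 (.leaf 367 2174 .nil)) .nil)) .nil)) (.cons 343 (.leaf 367 2174 (.cons 248 (.leaf 319 1982 (.cons 345 (.leaf 321 1988 (.leaf 369 2180 .nil)) .nil)) .nil)) (.cons 247 (.leaf 271 1983 (.cons 367 (.leaf 343 2174 (.cons 368 (.leaf 391 2366 (.cons 369 (.leaf 345 2180 (.leaf 393 2372 .nil)) .nil)) .nil)) .nil)) .nil)))) (.cons 344 (.cons 247 (.leaf 271 1983 (.cons 223 (.leaf 248 1791 (.cons 273 (.leaf 249 1989 (.cons 368 (.leaf 297 2181 (.cons 391 (.leaf 367 2366 (.cons 392 (.leaf 415 2558 (.cons 393 (.leaf 369 2372 (.leaf 417 2564 .nil)) .nil)) .nil)) .nil)) .nil)) .nil)) .nil)) (.cons 345 (.leaf 369 2180 (.cons 247 (.leaf 271 1983 (.cons 248 (.leaf 223 1791 (.leaf 321 1988 .nil)) .nil)) .nil)) (.cons 273 (.leaf 249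 1989 (.cons 247 (.leaf 271 1983 (.cons 248 (.leaf 274 1979 (.leaf 223 1791 .nil)) .nil)) .nil)) (.cons 345 (.leaf 369 2180 (.cons 248 (.leaf 321 1988 (.cons 273 (.leaf 249 1989 (.cons 367 (.leaf 343 2174 (.cons 368 (.leaf 297 2181 (.leaf 391 2366 .nil)) .nil)) .nil)) .nil)) .nil)) (.cons 273 (.leaf 249 1989 (.cons 247 (.leaf 271 1983 (.cons 368 (.leaf 297 2181 (.cons 369 (.leaf 345 2180 (.leaf 393 2372 .nil)) .nil)) .nil)) .nil)) .nil))))) .nil))))))))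
noncomputable def t108 : T := .cons 321 (.leaf 345 1988 (.cons 297 (.leaf 224 1796 (.cons 319 (.leaf 343 1982 (.cons 298 (.leaf 299 2362 (.leaf 318 2353 .nil)) .nil)) .nil)) .nil)) (.cons 345 (.leaf 321 1988 (.cons 344 (.leaf 369 2180 (.cons 273 (.leaf 249 1989 (.cons 367 (.leaf 343 2174 (.cons 368 (.leaf 297 2181 (.leaf 391 2366 .nil)) .nil)) .nil)) .nil)) .nil)) (.cons 319 (.leaf 343 1982 (.cons 295 (.leaf 224 1790 (.cons 273 (.leaf 274 2170 (.cons 294 (.leaf 293 2153 (.cons 297 (.cons 318 (.leaf 317 2345 (.leaf 298 2354 .nil)) (.cons 270 (.leaf 269 2155 (.cons 298 (.leaf 271 2160 (.leaf 299 2362 .nil)) .nil)) (.cons 317 (.leaf 318 2345 (.cons 270 (.leaf 269 2155 (.cons 246 (.leaf 222 1780 (.cons 245 (.leaf 247 1960 (.leaf 271 1963 .nil)) .nil)) .nil)) .nil)) .nil))) .nil)) .nil)) .nil)) .nil)) (.cons 321 (.leaf 345 1988 (.cons 297 (.leaf 224 1796 (.cons 295 (.cons 294 (.leaf 293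 2344 (.leaf 322 2352 .nil)) (.cons 298 (.leaf 274 2169 (.cons 271 (.leaf 299 2171 (.leaf 270 2163 .nil)) .nil)) .nil)) .nil)) .nil)) (.cons 319 (.leaf 343 1982 (.cons 295 (.leaf 224 1790 (.cons 273 (.leaf 274 2170 (.cons 321 (.leaf 345 1988 (.cons 322 (.leaf 323 2363 (.leaf 294 2355 .nil)) .nil)) .nil)) .nil)) .nil)) .nil))))
noncomputable def t109 : T := .cons 295 (.leaf 319 1790 (.cons 200 (.leaf 271 1598 (.cons 175 (.leaf 199 1407 (.cons 176 (.leaf 151 1215 (.cons 177 (.leaf 201 1413 (.leaf 153 1221 .nil)) .nil)) .nil)) .nil)) .nil)) (.cons 223 (.leaf 199 1599 (.cons 247 (.leaf 320 1791 (.cons 273 (.leaf 274 1979 (.cons 200 (.leaf 297 1604 (.cons 176 (.leaf 271 1406 (.leaf 249 1412 .nil)) .nil)) .nil)) .nil)) .nil)) (.cons 295 (.leaf 319 1790 (.cons 200 (.leaf 271 1598 (.cons 177 (.leaf 201 1413 (.cons 176 (.leaf 153 1221 (.cons 273 (.leaf 274 2170 (.leaf 297 1604 .nil)) .nil))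 .nil)) .nil)) .nil)) (.cons 295 (.leaf 319 1790 (.cons 223 (.leaf 199 1599 (.cons 273 (.leaf 274 2170 (.cons 320 (.leaf 247 1791 (.cons 249 (.leaf 344 1989 (.cons 250 (.leaf 251 1787 (.cons 270 (.leaf 271 1969 (.cons 294 (.leaf 293 2153 (.cons 269 (.leaf 297 2155 (.cons 221 (.leaf 222 1768 (.cons 245 (.leaf 197 1580 (.cons 318 (.leaf 246 1775 (.leaf 342 1967 .nil)) .nil)) .nil)) .nil)) .nil)) .nil)) .nil)) .nil)) .nil)) .nil)) .nil)) .nil)) (.cons 223 (.leaf 199 1599 (.cons 247 (.leaf 320 1791 (.cons 273 (.leaf 274 1979 (.cons 200 (.leaf 297 1604 (.cons 176 (.leaf 249 1412 (.leaf 152 1214 .nil)) .nil)) .nil)) .nil)) .nil)) .nil))))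
noncomputable def t110 : T := .cons 223 (.leaf 199 1599 (.cons 320 (.leaf 247 1791 (.cons 321 (.leaf 297 1796 (.leaf 345 1988 .nil)) .nil)) .nil)) (.cons 223 (.leaf 199 1599 (.cons 320 (.leaf 247 1791 (.cons 345 (.leaf 321 1988 (.cons 344 (.leaf 369 2180 (.cons 273 (.leaf 249 1989 (.cons 274 (.leaf 295 2170 (.cons 251 (.leaf 252 1985 (.cons 250 (.leaf 271 1977 (.cons 299 (.leaf 300 2176 (.cons 226 (.leaf 202 1620 (.leaf 323 1815 .nil)) .nil)) .nil)) .nil)) .nil)) .nil)) .nil)) .nil)) .nil)) .nil)) (.cons 297 (.leaf 321 1796 (.cons 200 (.leaf 273 1604 (.cons 175 (.leaf 199 1407 (.cons 176 (.leaf 151 1215 (.cons 271 (.leaf 295 1598 (.leaf 247 1406 .nil)) .nil)) .nil)) .nil)) .nil)) (.cons 223 (.leaf 199 1599 (.cons 247 (.leaf 320 1791 (.cons 273 (.leaf 274 1979 (.cons 200 (.leaf 297 1604 (.cons 176 (.leaf 271 1406 (.leaf 249 1412 .nil)) .nil)) .nil)) .nil)) .nil)) (.cons 297 (.leaf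 321 1796 (.cons 200 (.leaf 273 1604 (.cons 271 (.leaf 295 1598 (.cons 176 (.leaf 247 1406 (.cons 177 (.leaf 201 1413 (.leaf 153 1221 .nil)) .nil)) .nil)) .nil)) .nil)) (.cons 297 (.leaf 321 1796 (.cons 200 (.leaf 273 1604 (.cons 199 (.leaf 175 1407 (.leaf 223 1599 .nil)) .nil)) .nil)) .nil)))))
noncomputable def t111 : T := .cons 247 (.leaf 223 1791 (.cons 274 (.leaf 273 1979 (.cons 249 (.leaf 250 1976 (.cons 343 (.leaf 319 1982 (.cons 344 (.leaf 271 1983 (.leaf 367 2174 .nil)) .nil)) .nil)) .nil)) .nil)) (.cons 343 (.leaf 319 1982 (.cons 344 (.leaf 367 2174 (.cons 273 (.leaf 249 1989 (.cons 274 (.leaf 295 2170 (.cons 251 (.leaf 252 1985 (.cons 250 (.leaf 271 1977 (.cons 297 (.leaf 368 2181 (.cons 202 (.leaf 226 1614 (.cons 299 (.leaf 300 2176 (.cons 323 (.leaf 347 2007 (.cons 324 (.leaf 348 2012 (.leaf 298 2368 .nil)) .nil)) .nil)) .nil)) .nil)) .nil)) .nil)) .nil)) .nil)) .nil))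 .nil)) (.cons 247 (.leaf 223 1791 (.cons 273 (.leaf 274 1979 (.cons 344 (.leaf 271 1983 (.leaf 249 1989 .nil)) .nil)) .nil)) (.cons 247 (.leaf 223 1791 (.cons 274 (.leaf 273 1979 (.cons 249 (.leaf 250 1976 (.cons 319 (.leaf 343 1982 (.cons 246 (.cons 269 (.leaf 270 1962 (.cons 221 (.leaf 222 1771 (.cons 245 (.leaf 220 1763 (.leaf 268 1954 .nil)) .nil)) .nil)) (.cons 321 (.leaf 345 1988 (.cons 222 (.leaf 221 1771 (.cons 295 (.leaf 271 1783 (.cons 294 (.leaf 293 2344 (.leaf 322 2355 .nil)) .nil)) .nil)) .nil)) (.cons 269 (.leaf 270 1962 (.cons 245 (.leaf 268 1954 (.cons 220 (.leaf 221 1763 (.cons 244 (.leaf 271 1952 (.leaf 219 1755 .nil)) .nil)) .nil)) .nil)) (.cons 269 (.leaf 270 1962 (.cons 245 (.leaf 268 1954 (.cons 244 (.leaf 271 1952 (.cons 220 (.leaf 219 1755 (.cons 317 (.leaf 293 1767 (.cons 297 (.leaf 318 2345 (.cons 298 (.leaf 295 2169 (.leaf 299 2362 .nil)) .nil)) .nil)) .nil))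 .nil)) .nil)) .nil)) .nil)))) .nil)) .nil)) .nil)) .nil)) (.cons 247 (.leaf 223 1791 (.cons 319 (.leaf 343 1982 (.cons 344 (.leaf 271 1983 (.cons 369 (.leaf 345 2180 (.cons 368 (.leaf 393 2372 (.cons 391 (.leaf 367 2366 (.cons 392 (.leaf 295 2367 (.leaf 415 2558 .nil)) .nil)) .nil)) .nil)) .nil)) .nil)) .nil)) (.cons 247 (.leaf 223 1791 (.cons 274 (.leaf 273 1979 (.cons 319 (.leaf 343 1982 (.cons 321 (.leaf 345 1988 (.cons 250 (.leaf 249 1976 (.cons 322 (.cons 299 (.leaf 298 2361 (.cons 323 (.leaf 347 2007 (.leaf 295 2363 .nil)) .nil)) (.cons 347 (.leaf 346 2552 (.cons 323 (.leaf 299 2007 (.leaf 295 2363 .nil)) .nil)) (.cons 299 (.leaf 298 2361 (.cons 323 (.leaf 347 2007 (.leaf 300 2369 .nil)) .nil)) (.cons 298 (.leaf 299 2361 (.cons 251 (.leaf 346 2005 (.leaf 227 1813 .nil)) .nil)) (.cons 295 (.leaf 323 2363 (.leaf 294 2355 .nil)) .nil))))) .nil)) .nil)) .nil)) .nil)) .nil)) .nil)))))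
noncomputable def t112 : T := .cons 295 (.leaf 319 1790 (.cons 273 (.leaf 274 2170 (.cons 321 (.leaf 297 1796 (.cons 293 (.leaf 294 2153 (.cons 320 (.leaf 345 1988 (.cons 322 (.leaf 323 2363 (.cons 344 (.leaf 249 1989 (.cons 271 (.leaf 200 1598 (.leaf 247 1983 .nil)) .nil)) .nil)) .nil)) .nil)) .nil)) .nil)) .nil)) (.cons 297 (.leaf 321 1796 (.cons 200 (.leaf 273 1604 (.cons 177 (.leaf 201 1413 (.cons 176 (.leaf 153 1221 (.cons 151 (.leaf 175 1215 (.cons 152 (.leaf 127 1023 (.cons 247 (.leaf 271 1406 (.leaf 223 1214 .nil)) .nil)) .nil)) .nil)) .nil)) .nil)) .nil)) (.cons 295 (.leaf 319 1790 (.cons 199 (.leaf 223 1599 (.cons 200 (.leaf 175 1407 (.leaf 271 1598 .nil)) .nil)) .nil)) (.cons 295 (.leaf 319 1790 (.cons 273 (.leaf 274 2170 (.cons 321 (.leaf 297 1796 (.cons 293 (.leaf 294 2153 (.cons 320 (.leaf 345 1988 (.cons 322 (.leaf 323 2363 (.cons 344 (.leaf 249 1989 (.cons 271 (.leaf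 247 1983 (.leaf 368 2175 .nil)) .nil)) .nil)) .nil)) .nil)) .nil)) .nil)) .nil)) (.cons 297 (.leaf 321 1796 (.cons 200 (.leaf 273 1604 (.cons 199 (.leaf 175 1407 (.leaf 223 1599 .nil)) .nil)) .nil)) .nil))))
noncomputable def t113 : T := .cons 224 t112 (.cons 224 (.cons 297 (.leaf 321 1796 (.cons 200 (.leaf 273 1604 (.cons 177 (.leaf 201 1413 (.cons 176 (.leaf 153 1221 (.cons 271 (.leaf 295 1598 (.leaf 247 1406 .nil)) .nil)) .nil)) .nil)) .nil)) (.cons 297 (.leaf 321 1796 (.cons 200 (.leaf 273 1604 (.cons 177 (.leaf 201 1413 (.cons 176 (.leaf 153 1221 (.cons 151 (.leaf 175 1215 (.cons 152 (.leaf 127 1023 (.cons 247 (.leaf 271 1406 (.leaf 223 1214 .nil)) .nil)) .nil)) .nil)) .nil)) .nil)) .nil)) (.cons 295 (.leaf 319 1790 (.cons 199 (.leaf 223 1599 (.cons 200 (.leaf 175 1407 (.leaf 271 1598 .nil)) .nil)) .nil)) (.cons 199 (.leaf 223 1599 (.cons 295 (.leaf 319 1790 (.cons 274 (.leaf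 273 2170 (.cons 297 (.leaf 298 2169 (.leaf 321 1796 .nil)) .nil)) .nil)) .nil)) .nil)))) (.cons 320 (.cons 319 (.leaf 343 1982 (.cons 321 (.leaf 345 1988 (.cons 297 (.leaf 224 1796 (.cons 298 (.leaf 299 2362 (.leaf 318 2353 .nil)) .nil)) .nil)) .nil)) (.cons 223 (.leaf 247 1791 (.cons 224 (.leaf 199 1599 (.cons 321 (.leaf 297 1796 (.leaf 345 1988 .nil)) .nil)) .nil)) (.cons 319 (.leaf 343 1982 (.cons 223 (.leaf 247 1791 (.cons 224 (.leaf 199 1599 (.leaf 295 1790 .nil)) .nil)) .nil)) (.cons 223 (.leaf 247 1791 (.cons 343 (.leaf 319 1982 (.cons 344 (.leaf 367 2174 (.cons 345 (.leaf 321 1988 (.leaf 369 2180 .nil)) .nil)) .nil)) .nil)) .nil)))) (.cons 320 t111 (.cons 320 (.cons 319 (.leaf 343 1982 (.cons 321 (.leaf 345 1988 (.cons 297 (.leaf 224 1796 (.cons 298 (.leaf 299 2362 (.leaf 318 2353 .nil)) .nil)) .nil)) .nil)) (.cons 247 (.leaf 223 1791 (.cons 273 (.leaf 274 1979 (.cons 344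 (.leaf 271 1983 (.leaf 249 1989 .nil)) .nil)) .nil)) .nil)) (.cons 224 (.cons 199 (.leaf 223 1599 (.cons 295 (.leaf 319 1790 (.cons 274 (.leaf 273 2170 (.cons 200 (.leaf 175 1407 (.leaf 271 1598 .nil)) .nil)) .nil)) .nil)) (.cons 199 (.leaf 223 1599 (.cons 200 (.leaf 175 1407 (.cons 297 (.leaf 273 1604 (.leaf 321 1796 .nil)) .nil)) .nil)) (.cons 295 (.leaf 319 1790 (.cons 273 (.leaf 274 2170 (.cons 297 (.leaf 200 1604 (.leaf 321 1796 .nil)) .nil)) .nil)) (.cons 199 (.leaf 223 1599 (.cons 295 (.leaf 319 1790 (.cons 274 (.leaf 273 2170 (.cons 297 (.leaf 298 2169 (.leaf 321 1796 .nil)) .nil)) .nil)) .nil)) (.cons 295 (.leaf 319 1790 (.cons 199 (.leaf 223 1599 (.cons 200 (.leaf 175 1407 (.leaf 271 1598 .nil)) .nil)) .nil)) .nil))))) (.cons 320 (.cons 223 (.leaf 247 1791 (.cons 224 (.leaf 199 1599 (.cons 319 (.leaf 295 1790 (.leaf 343 1982 .nil)) .nil)) .nil)) (.cons 319 (.leaf 343 1982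 (.cons 295 (.leaf 224 1790 (.cons 273 (.leaf 274 2170 (.cons 321 (.leaf 345 1988 (.cons 322 (.leaf 323 2363 (.leaf 294 2355 .nil)) .nil)) .nil)) .nil)) .nil)) (.cons 247 (.leaf 223 1791 (.cons 273 (.leaf 274 1979 (.cons 344 (.leaf 271 1983 (.leaf 249 1989 .nil)) .nil)) .nil)) .nil))) (.cons 224 t110 (.cons 224 t109 (.cons 320 t108 .nil)))))))))
noncomputable def t114 : T := .cons 318 (.leaf 317 2346 (.cons 269 (.leaf 270 2155 (.cons 298 (.leaf 319 2354 (.cons 299 (.leaf 271 2171 (.leaf 300 2179 .nil)) .nil)) .nil)) .nil)) (.cons 318 (.leaf 317 2346 (.cons 298 (.leaf 319 2354 (.cons 299 (.leaf 271 2171 (.leaf 300 2179 .nil)) .nil)) .nil)) (.cons 270 (.leaf 269 2155 (.cons 318 (.leaf 317 2346 (.cons 246 (.cons 245 (.leaf 271 1963 (.leaf 221 1775 .nil)) (.cons 319 (.leaf 222 1780 (.leaf 343 1972 .nil)) .nil)) .nil)) .nil)) (.cons 270 (.leaf 269 2155 (.cons 271 (.leaf 298 2160 (.cons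 246 (.leaf 245 1963 (.cons 222 (.leaf 198 1588 (.leaf 319 1780 .nil)) .nil)) .nil)) .nil)) (.cons 318 (.leaf 317 2346 (.cons 269 (.leaf 270 2155 (.cons 319 (.leaf 298 2354 (.cons 343 (.leaf 367 2173 (.cons 320 (.leaf 248 1982 (.cons 344 (.leaf 249 1989 (.leaf 368 2181 .nil)) .nil)) .nil)) .nil)) .nil)) .nil)) (.cons 270 (.leaf 269 2155 (.cons 271 (.leaf 298 2160 (.cons 245 (.leaf 246 1963 (.cons 249 (.leaf 250 1969 (.cons 320 (.leaf 344 1989 (.leaf 225 1798 .nil)) .nil)) .nil)) .nil)) .nil)) .nil)))))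
noncomputable def t115 : T := .cons 343 (.leaf 367 2173 (.cons 248 (.leaf 224 1790 (.leaf 271 1981 .nil)) .nil)) (.cons 248 (.leaf 224 1790 (.cons 320 (.cons 344 (.leaf 249 1989 (.cons 271 (.leaf 247 1980 (.leaf 368 2175 .nil)) .nil)) (.cons 321 (.leaf 345 1988 (.leaf 322 2355 .nil)) .nil)) .nil)) (.cons 343 (.leaf 367 2173 (.cons 271 (.cons 342 (.leaf 366 2166 (.cons 318 (.leaf 247 1974 (.cons 270 (.leaf 246 1972 (.cons 269 (.leaf 268 2144 (.leaf 245 1967 .nil)) .nil)) .nil)) .nil)) (.cons 342 (.leaf 366 2166 (.cons 318 (.leaf 247 1974 (.cons 344 (.leaf 368 2172 (.cons 317 (.leaf 316 2528 (.leaf 345 2539 .nil)) .nil)) .nil)) .nil)) (.cons 246 (.leaf 270 1975 (.cons 344 (.leaf 368 2172 (.cons 320 (.leaf 247 1980 (.leaf 249 1989 .nil)) .nil)) .nil)) (.cons 246 (.leaf 270 1975 (.cons 344 (.leaf 368 2172 (.cons 320 (.leaf 249 1989 (.cons 345 (.leaf 369 2180 (.cons 318 (.leaf 317 2536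 (.leaf 346 2547 .nil)) .nil)) .nil)) .nil)) .nil)) .nil)))) .nil)) (.cons 343 (.leaf 367 2173 (.cons 248 (.leaf 224 1790 (.leaf 320 1982 .nil)) .nil)) .nil)))
noncomputable def t116 : T := .cons 319 (.cons 343 (.leaf 367 2173 (.cons 248 (.leaf 224 1790 (.leaf 271 1981 .nil)) .nil)) (.cons 248 (.leaf 224 1790 (.cons 320 (.cons 249 (.leaf 225 1797 (.cons 344 (.leaf 273 1989 (.cons 271 (.leaf 247 1980 (.leaf 368 2175 .nil)) .nil)) .nil)) (.cons 321 (.leaf 345 1988 (.cons 294 (.leaf 293 2344 (.leaf 322 2355 .nil)) .nil)) .nil)) .nil)) (.cons 343 (.leaf 367 2173 (.cons 271 (.cons 270 (.leaf 246 1975 (.cons 269 (.leaf 297 2152 (.leaf 268 2144 .nil)) .nil)) (.cons 342 (.leaf 366 2166 (.cons 344 (.leaf 368 2172 (.cons 320 (.leaf 247 1980 (.cons 321 (.leaf 322 2546 (.leaf 341 2537 .nil)) .nil)) .nil)) .nil)) .nil)) .nil)) (.cons 343 (.leaf 367 2173 (.cons 248 (.leaf 224 1790 (.leaf 320 1982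 .nil)) .nil)) .nil)))) (.cons 273 (.leaf 274 2170 (.cons 294 (.leaf 293 2153 (.cons 319 t115 .nil)) .nil)) (.cons 273 (.leaf 274 2170 (.cons 294 (.leaf 293 2153 (.cons 297 (.cons 317 (.leaf 318 2346 (.cons 322 (.leaf 321 2352 (.cons 298 (.leaf 323 2360 (.cons 270 (.leaf 271 2160 (.leaf 269 2155 .nil)) .nil)) .nil)) .nil)) (.cons 270 (.leaf 269 2155 (.cons 271 (.leaf 298 2160 (.cons 245 (.leaf 246 1963 (.cons 249 (.leaf 250 1969 (.cons 320 (.leaf 344 1989 (.leaf 225 1798 .nil)) .nil)) .nil)) .nil)) .nil)) (.cons 317 (.leaf 318 2346 (.cons 322 (.leaf 321 2352 (.cons 298 (.leaf 323 2360 (.cons 299 (.leaf 271 2171 (.leaf 300 2179 .nil)) .nil)) .nil)) .nil)) (.cons 269 (.leaf 270 2155 (.cons 317 (.leaf 318 2346 (.cons 321 (.leaf 322 2352 (.cons 345 (.leaf 248 1991 (.leaf 369 2183 .nil)) .nil)) .nil)) .nil)) .nil)))) .nil)) .nil)) (.cons 274 (.leaf 273 2170 (.cons 298 (.leaf 297 2169 (.cons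 322 (.cons 346 (.leaf 251 2005 (.cons 370 (.leaf 299 2197 (.cons 369 (.leaf 345 2190 (.leaf 393 2382 .nil)) .nil)) .nil)) (.cons 250 (.cons 321 (.leaf 345 1998 (.cons 323 (.leaf 320 2363 (.leaf 347 2004 .nil)) .nil)) (.cons 249 (.leaf 225 1807 (.cons 248 (.leaf 247 1976 (.cons 251 (.leaf 271 1978 (.leaf 227 1813 .nil)) .nil)) .nil)) .nil)) (.cons 346 (.cons 370 (.leaf 299 2197 (.cons 369 (.leaf 345 2190 (.leaf 393 2382 .nil)) .nil)) (.cons 345 (.leaf 369 2190 (.cons 250 (.leaf 321 1998 (.cons 347 (.leaf 323 2004 (.leaf 371 2196 .nil)) .nil)) .nil)) (.cons 370 (.leaf 299 2197 (.cons 371 (.leaf 347 2196 (.leaf 395 2388 .nil)) .nil)) .nil))) (.cons 251 (.leaf 346 2005 (.cons 227 (.leaf 203 1622 (.leaf 299 1814 .nil)) .nil)) .nil)))) .nil)) .nil)) (.cons 273 (.leaf 274 2170 (.cons 294 (.leaf 293 2153 (.cons 297 (.cons 317 (.leaf 318 2346 (.cons 321 (.leaf 322 2352 (.cons 345 (.leaf 248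 1991 (.leaf 369 2183 .nil)) .nil)) .nil)) (.cons 269 (.leaf 270 2155 (.cons 318 (.leaf 317 2346 (.cons 319 (.leaf 298 2354 (.cons 343 (.leaf 367 2173 (.cons 320 (.leaf 248 1982 (.cons 344 (.leaf 249 1989 (.leaf 368 2181 .nil)) .nil)) .nil)) .nil)) .nil)) .nil)) (.cons 269 (.leaf 270 2155 (.cons 321 (.leaf 322 2352 (.cons 345 (.leaf 248 1991 (.leaf 369 2183 .nil)) .nil)) .nil)) (.cons 269 (.leaf 270 2155 (.cons 321 (.leaf 322 2352 (.cons 345 (.leaf 369 2183 (.cons 344 (.leaf 368 2182 (.cons 320 (.leaf 249 1989 (.cons 318 (.leaf 317 2346 (.cons 319 (.leaf 298 2353 (.leaf 346 2544 .nil)) .nil)) .nil)) .nil)) .nil)) .nil)) .nil)) .nil)))) .nil)) .nil)) (.cons 273 (.leaf 274 2170 (.cons 294 (.leaf 293 2153 (.cons 297 (.cons 317 (.leaf 318 2346 (.cons 322 (.leaf 321 2352 (.cons 298 (.leaf 323 2360 (.cons 270 (.leaf 271 2160 (.leaf 269 2155 .nil)) .nil)) .nil)) .nil)) (.cons 317 (.leaf 318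 2346 (.cons 322 (.leaf 321 2352 (.cons 298 (.leaf 323 2360 (.cons 299 (.leaf 271 2171 (.leaf 300 2179 .nil)) .nil)) .nil)) .nil)) (.cons 321 (.leaf 322 2352 (.cons 317 (.leaf 318 2346 (.cons 345 (.leaf 369 2183 (.cons 344 (.leaf 368 2182 (.cons 320 (.leaf 249 1989 (.cons 343 (.leaf 367 2174 (.cons 342 (.leaf 341 2537 (.cons 346 (.leaf 370 2188 (.cons 347 (.leaf 348 2563 (.leaf 319 2555 .nil)) .nil)) .nil)) .nil)) .nil)) .nil)) .nil)) .nil)) .nil)) (.cons 269 (.leaf 270 2155 (.cons 318 (.leaf 317 2346 (.cons 298 (.leaf 319 2354 (.cons 299 (.leaf 271 2171 (.leaf 300 2179 .nil)) .nil)) .nil)) .nil)) (.cons 270 (.leaf 269 2155 (.cons 271 (.leaf 298 2160 (.cons 246 (.leaf 245 1963 (.cons 222 (.leaf 198 1588 (.leaf 319 1780 .nil)) .nil)) .nil)) .nil)) .nil))))) .nil)) .nil)) (.cons 273 (.leaf 274 2170 (.cons 294 (.leaf 293 2153 (.cons 297 t114 .nil)) .nil)) .nil))))))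
noncomputable def t117 : T := .cons 294 (.cons 270 (.leaf 269 2155 (.cons 318 (.leaf 317 2346 (.cons 321 (.leaf 322 2352 (.cons 345 (.leaf 369 2183 (.cons 319 (.leaf 298 2354 (.cons 343 (.leaf 367 2173 (.leaf 246 1972 .nil)) .nil)) .nil)) .nil)) .nil)) .nil)) (.cons 321 (.leaf 322 2352 (.cons 269 (.leaf 270 2155 (.cons 293 (.leaf 268 2147 (.leaf 320 2344 .nil)) .nil)) .nil)) (.cons 270 (.leaf 269 2155 (.cons 271 (.leaf 298 2163 (.cons 318 (.leaf 317 2346 (.cons 342 (.leaf 366 2165 (.leaf 247 1973 .nil)) .nil)) .nil)) .nil)) (.cons 321 (.leaf 322 2352 (.cons 293 (.leaf 320 2344 (.cons 317 (.leaf 316 2338 (.leaf 318 2346 .nil)) .nil)) .nil)) .nil)))) (.cons 294 (.cons 321 (.leaf 322 2352 (.cons 269 (.leaf 270 2155 (.cons 293 (.leaf 268 2147 (.leaf 320 2344 .nil)) .nil)) .nil)) (.cons 269 (.leaf 270 2155 (.cons 293 (.leaf 268 2147 (.cons 292 (.leaf 271 2145 (.cons 316 (.leaf 317 2338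 (.leaf 315 2330 .nil)) .nil)) .nil)) .nil)) (.cons 321 (.leaf 322 2352 (.cons 293 (.leaf 320 2344 (.cons 317 (.leaf 316 2338 (.leaf 318 2346 .nil)) .nil)) .nil)) (.cons 321 (.leaf 322 2352 (.cons 248 (.leaf 224 1796 (.cons 345 (.leaf 320 1988 (.leaf 369 2183 .nil)) .nil)) .nil)) .nil)))) (.cons 298 (.leaf 274 2169 (.cons 322 (.leaf 323 2360 (.cons 321 (.leaf 294 2352 (.cons 248 (.leaf 224 1796 (.cons 320 (.leaf 345 1988 (.cons 319 (.leaf 343 1982 (.leaf 318 2353 .nil)) .nil)) .nil)) .nil)) .nil)) .nil)) (.cons 298 (.leaf 274 2169 (.cons 271 (.leaf 299 2171 (.leaf 270 2163 .nil)) .nil)) .nil)))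
noncomputable def t118 : T := .cons 247 (.leaf 248 1979 (.cons 251 (.leaf 252 1985 (.cons 271 (.leaf 246 1971 (.leaf 250 1977 .nil)) .nil)) .nil)) (.cons 299 (.leaf 300 2176 (.cons 251 (.leaf 252 1985 (.cons 271 (.leaf 250 1977 (.leaf 298 2168 .nil)) .nil)) .nil)) (.cons 248 (.leaf 247 1979 (.cons 299 (.leaf 300 2176 (.cons 224 (.cons 199 (.leaf 223 1599 (.cons 200 (.leaf 175 1407 (.leaf 297 1604 .nil)) .nil)) (.cons 225 (.leaf 201 1605 (.cons 199 (.leaf 223 1599 (.cons 249 (.leaf 320 1797 (.cons 200 (.leaf 175 1407 (.leaf 176 1412 .nil)) .nil)) .nil)) .nil)) (.cons 199 (.leaf 223 1599 (.cons 297 (.leaf 321 1796 (.cons 271 (.leaf 298 2168 (.cons 225 (.leaf 201 1605 (.cons 249 (.leaf 320 1797 (.cons 270 (.leaf 269 2152 (.leaf 250 1969 .nil)) .nil)) .nil)) .nil)) .nil)) .nil)) (.cons 297 (.leaf 200 1604 (.leaf 321 1796 .nil)) .nil)))) .nil)) .nil)) (.cons 248 (.leaf 247 1979 (.cons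 299 (.leaf 300 2176 (.cons 224 (.cons 199 (.leaf 223 1599 (.cons 200 (.leaf 175 1407 (.leaf 297 1604 .nil)) .nil)) (.cons 225 (.leaf 201 1605 (.cons 199 (.leaf 223 1599 (.cons 249 (.leaf 320 1797 (.cons 200 (.leaf 175 1407 (.leaf 176 1412 .nil)) .nil)) .nil)) .nil)) (.cons 199 (.leaf 223 1599 (.cons 225 (.leaf 201 1605 (.cons 249 (.leaf 320 1797 (.cons 297 (.leaf 321 1796 (.cons 251 (.leaf 252 1985 (.cons 298 (.leaf 322 1804 (.cons 227 (.leaf 203 1622 (.cons 228 (.leaf 204 1629 (.leaf 250 1793 .nil)) .nil)) .nil)) .nil)) .nil)) .nil)) .nil)) .nil)) (.cons 297 (.leaf 200 1604 (.leaf 321 1796 .nil)) .nil)))) .nil)) .nil)) (.cons 248 (.leaf 247 1979 (.cons 299 (.leaf 300 2176 (.cons 224 (.cons 199 (.leaf 223 1599 (.cons 297 (.leaf 200 1604 (.leaf 321 1796 .nil)) .nil)) (.cons 225 (.leaf 201 1605 (.cons 199 (.leaf 223 1599 (.cons 249 (.leaf 320 1797 (.cons 200 (.leaf 175 1407 (.leaf 176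 1412 .nil)) .nil)) .nil)) .nil)) (.cons 199 (.leaf 223 1599 (.cons 297 (.leaf 321 1796 (.cons 271 (.leaf 298 2168 (.cons 225 (.leaf 201 1605 (.cons 320 (.leaf 249 1797 (.cons 251 (.leaf 252 1985 (.cons 269 (.leaf 270 2152 (.cons 343 (.leaf 319 1982 (.cons 344 (.leaf 367 2174 (.leaf 368 2181 .nil)) .nil)) .nil)) .nil)) .nil)) .nil)) .nil)) .nil)) .nil)) (.cons 297 (.leaf 200 1604 (.leaf 321 1796 .nil)) .nil)))) .nil)) .nil)) .nil))))
noncomputable def t119 : T := .cons 247 (.leaf 223 1791 (.cons 246 (.leaf 245 1960 (.cons 270 (.leaf 269 1962 (.cons 222 (.leaf 221 1771 (.cons 319 (.leaf 343 1982 (.cons 294 (.leaf 295 1780 (.cons 317 (.leaf 293 1774 (.cons 318 (.leaf 297 2345 (.leaf 341 1966 .nil)) .nil)) .nil)) .nil)) .nil)) .nil)) .nil)) .nil)) (.cons 319 (.leaf 343 1982 (.cons 224 (.leaf 295 1790 (.cons 200 (.leaf 297 1604 (.leaf 176 1412 .nil)) .nil)) .nil)) (.cons 247 (.leaf 223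 1791 (.cons 246 (.leaf 245 1960 (.cons 270 (.leaf 269 1962 (.cons 271 (.leaf 250 1969 (.cons 221 (.leaf 222 1771 (.cons 294 (.leaf 293 2154 (.cons 297 (.leaf 298 2160 (.cons 318 (.leaf 342 1973 (.cons 317 (.leaf 295 2346 (.leaf 341 1966 .nil)) .nil)) .nil)) .nil)) .nil)) .nil)) .nil)) .nil)) .nil)) (.cons 247 (.leaf 223 1791 (.cons 246 (.leaf 245 1960 (.cons 222 (.leaf 221 1771 (.cons 270 (.leaf 269 1962 (.cons 271 (.leaf 250 1969 (.cons 198 (.leaf 174 1396 (.leaf 295 1588 .nil)) .nil)) .nil)) .nil)) .nil)) .nil)) (.cons 223 (.leaf 247 1791 (.cons 224 (.leaf 199 1599 (.cons 200 (.leaf 297 1604 (.leaf 176 1412 .nil)) .nil)) .nil)) .nil))))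
noncomputable def t120 : T := .cons 274 (.leaf 295 2170 (.cons 299 (.leaf 300 2176 (.cons 251 (.leaf 252 1985 (.cons 271 (.leaf 250 1977 (.leaf 298 2168 .nil)) .nil)) .nil)) .nil)) (.cons 249 (.cons 320 (.leaf 344 1989 (.cons 225 (.leaf 201 1606 (.leaf 248 1797 .nil)) .nil)) (.cons 225 (.leaf 201 1606 (.cons 297 (.cons 298 (.leaf 322 1804 (.cons 271 (.leaf 270 2160 (.leaf 299 2171 .nil)) .nil)) (.cons 224 (.leaf 200 1607 (.cons 248 (.leaf 321 1796 (.cons 223 (.leaf 199 1599 (.cons 222 (.leaf 221 1768 (.leaf 250 1776 .nil)) .nil)) .nil)) .nil)) .nil)) .nil)) (.cons 320 (.leaf 344 1989 (.cons 248 t119 .nil)) (.cons 320 (.leaf 344 1989 (.cons 225 (.leaf 201 1606 (.leaf 297 1798 .nil)) .nil)) .nil)))) (.cons 274 t118 (.cons 274 (.leaf 295 2170 (.cons 248 (.leaf 247 1979 (.cons 299 (.leaf 300 2176 (.cons 224 (.cons 199 (.leaf 223 1599 (.cons 225 (.leaf 201 1605 (.cons 249 (.leaf 320 1797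 (.cons 200 (.leaf 175 1407 (.leaf 297 1604 .nil)) .nil)) .nil)) .nil)) (.cons 225 (.leaf 201 1605 (.cons 199 (.leaf 223 1599 (.cons 249 (.leaf 320 1797 (.cons 200 (.leaf 175 1407 (.leaf 176 1412 .nil)) .nil)) .nil)) .nil)) (.cons 199 (.leaf 223 1599 (.cons 225 (.leaf 201 1605 (.cons 249 (.leaf 320 1797 (.cons 297 (.leaf 321 1796 (.cons 251 (.leaf 252 1985 (.cons 298 (.leaf 322 1804 (.cons 227 (.leaf 203 1622 (.cons 228 (.leaf 204 1629 (.leaf 250 1793 .nil)) .nil)) .nil)) .nil)) .nil)) .nil)) .nil)) .nil)) (.cons 297 (.leaf 200 1604 (.leaf 321 1796 .nil)) .nil)))) .nil)) .nil)) .nil)) (.cons 274 (.leaf 295 2170 (.cons 247 (.leaf 248 1979 (.cons 251 (.leaf 252 1985 (.cons 271 (.leaf 246 1971 (.leaf 250 1977 .nil)) .nil)) .nil)) .nil)) (.cons 274 (.leaf 295 2170 (.cons 248 (.leaf 247 1979 (.cons 299 (.leaf 300 2176 (.cons 224 (.cons 199 (.leaf 223 1599 (.cons 297 (.leaf 200 1604 (.leaf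 321 1796 .nil)) .nil)) (.cons 225 (.leaf 201 1605 (.cons 199 (.leaf 223 1599 (.cons 249 (.leaf 320 1797 (.cons 200 (.leaf 175 1407 (.leaf 176 1412 .nil)) .nil)) .nil)) .nil)) (.cons 199 (.leaf 223 1599 (.cons 297 (.leaf 321 1796 (.cons 271 (.leaf 298 2168 (.cons 225 (.leaf 201 1605 (.cons 320 (.leaf 249 1797 (.cons 251 (.leaf 252 1985 (.cons 269 (.leaf 270 2152 (.cons 343 (.leaf 319 1982 (.cons 344 (.leaf 367 2174 (.leaf 368 2181 .nil)) .nil)) .nil)) .nil)) .nil)) .nil)) .nil)) .nil)) .nil)) (.cons 297 (.leaf 200 1604 (.leaf 321 1796 .nil)) .nil)))) .nil)) .nil)) .nil)) .nil)))))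
noncomputable def t121 : T := .cons 247 (.leaf 223 1791 (.cons 246 (.leaf 245 1960 (.cons 270 (.leaf 269 1962 (.cons 271 (.leaf 250 1969 (.cons 221 (.leaf 222 1771 (.cons 294 (.leaf 293 2154 (.cons 297 (.leaf 298 2160 (.cons 318 (.leaf 342 1973 (.cons 321 (.leaf 224 1796 (.leaf 345 1988 .nil)) .nil)) .nil)) .nil)) .nil)) .nil)) .nil)) .nil)) .nil)) (.cons 247 (.leaf 223 1791 (.cons 246 (.leaf 245 1960 (.cons 270 (.leaf 269 1962 (.cons 271 (.leaf 250 1969 (.cons 221 (.leaf 222 1771 (.cons 294 (.leaf 293 2154 (.cons 297 (.leaf 298 2160 (.cons 318 (.leaf 342 1973 (.cons 317 (.leaf 295 2346 (.leaf 319 2345 .nil)) .nil)) .nil)) .nil)) .nil)) .nil)) .nil)) .nil)) .nil)) (.cons 321 (.leaf 345 1988 (.cons 224 (.leaf 297 1796 (.cons 200 (.leaf 176 1412 (.cons 199 (.leaf 175 1407 (.leaf 223 1599 .nil)) .nil)) .nil)) .nil)) (.cons 321 (.leaf 345 1988 (.cons 224 (.leaf 297 1796 (.cons 200 (.leaf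 176 1412 (.cons 271 (.leaf 295 1598 (.cons 250 (.leaf 251 1978 (.leaf 270 1969 .nil)) .nil)) .nil)) .nil)) .nil)) (.cons 247 (.leaf 223 1791 (.cons 246 (.leaf 245 1960 (.cons 222 (.leaf 221 1771 (.cons 270 (.leaf 269 1962 (.cons 271 (.leaf 250 1969 (.cons 198 (.leaf 174 1396 (.leaf 295 1588 .nil)) .nil)) .nil)) .nil)) .nil)) .nil)) .nil))))
noncomputable def t122 : T := .cons 274 (.leaf 295 2170 (.cons 247 (.leaf 248 1979 (.cons 251 (.leaf 252 1985 (.cons 271 (.leaf 246 1971 (.leaf 250 1977 .nil)) .nil)) .nil)) .nil)) (.cons 249 (.cons 320 (.leaf 344 1989 (.cons 225 (.leaf 201 1606 (.leaf 248 1797 .nil)) .nil)) (.cons 225 (.leaf 201 1606 (.cons 297 (.cons 298 (.leaf 322 1804 (.cons 271 (.leaf 270 2160 (.leaf 299 2171 .nil)) .nil)) (.cons 224 (.leaf 200 1607 (.cons 248 (.leaf 321 1796 (.cons 223 (.leaf 199 1599 (.cons 222 (.leaf 221 1768 (.leaf 250 1776 .nil)) .nil)) .nil)) .nil))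 .nil)) .nil)) (.cons 320 (.leaf 344 1989 (.cons 248 t121 .nil)) (.cons 320 (.leaf 344 1989 (.cons 225 (.leaf 201 1606 (.leaf 297 1798 .nil)) .nil)) .nil)))) (.cons 274 (.cons 248 (.leaf 247 1979 (.cons 251 (.leaf 252 1985 (.cons 250 (.leaf 271 1977 (.cons 224 (.cons 223 (.leaf 199 1599 (.leaf 249 1787 .nil)) (.cons 297 (.leaf 200 1604 (.leaf 321 1796 .nil)) .nil)) .nil)) .nil)) .nil)) (.cons 299 (.leaf 300 2176 (.cons 251 (.leaf 252 1985 (.cons 271 (.leaf 250 1977 (.leaf 298 2168 .nil)) .nil)) .nil)) (.cons 247 (.leaf 248 1979 (.cons 271 (.leaf 246 1971 (.cons 299 (.leaf 300 2176 (.leaf 298 2168 .nil)) .nil)) .nil)) (.cons 248 (.leaf 247 1979 (.cons 251 (.leaf 252 1985 (.cons 299 (.leaf 300 2176 (.cons 227 (.cons 298 (.leaf 203 1622 (.leaf 322 1814 .nil)) (.cons 204 (.leaf 228 1629 (.cons 203 (.leaf 180 1437 (.cons 178 (.leaf 202 1431 (.cons 179 (.leaf 250 1430 (.leaf 154 1239 .nil))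 .nil)) .nil)) .nil)) (.cons 204 (.leaf 228 1629 (.cons 322 (.leaf 298 1814 (.cons 323 (.leaf 346 2006 (.cons 347 (.leaf 250 2007 (.cons 348 (.leaf 324 2012 (.leaf 372 2204 .nil)) .nil)) .nil)) .nil)) .nil)) .nil))) .nil)) .nil)) .nil)) .nil)))) (.cons 274 (.leaf 295 2170 (.cons 299 (.leaf 300 2176 (.cons 251 (.leaf 252 1985 (.cons 271 (.leaf 250 1977 (.leaf 298 2168 .nil)) .nil)) .nil)) .nil)) (.cons 274 (.leaf 295 2170 (.cons 248 (.leaf 247 1979 (.cons 251 (.leaf 252 1985 (.cons 299 (.leaf 300 2176 (.cons 227 (.cons 298 (.leaf 203 1622 (.leaf 322 1814 .nil)) (.cons 204 (.leaf 228 1629 (.cons 203 (.leaf 180 1437 (.cons 178 (.leaf 202 1431 (.cons 179 (.leaf 250 1430 (.leaf 154 1239 .nil)) .nil)) .nil)) .nil)) (.cons 204 (.leaf 228 1629 (.cons 322 (.leaf 298 1814 (.cons 323 (.leaf 346 2006 (.cons 347 (.leaf 250 2007 (.cons 348 (.leaf 324 2012 (.leaf 372 2204 .nil)) .nil)) .nil)) .nil))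 .nil)) .nil))) .nil)) .nil)) .nil)) .nil)) (.cons 274 (.leaf 295 2170 (.cons 247 (.leaf 248 1979 (.cons 271 (.leaf 246 1971 (.cons 299 (.leaf 300 2176 (.leaf 298 2168 .nil)) .nil)) .nil)) .nil)) .nil)))))
noncomputable def t123 : T := .cons 247 (.leaf 223 1791 (.cons 319 (.leaf 343 1982 (.cons 318 (.leaf 317 2345 (.cons 271 (.leaf 344 1980 (.leaf 342 1974 .nil)) .nil)) .nil)) .nil)) (.cons 321 (.leaf 345 1988 (.cons 247 (.leaf 223 1791 (.cons 322 (.leaf 323 2363 (.cons 344 (.leaf 271 1983 (.cons 367 (.leaf 343 2174 (.cons 368 (.leaf 391 2366 (.leaf 392 2373 .nil)) .nil)) .nil)) .nil)) .nil)) .nil)) (.cons 247 (.leaf 223 1791 (.cons 344 (.leaf 271 1983 (.cons 345 (.leaf 321 1988 (.leaf 369 2180 .nil)) .nil)) .nil)) (.cons 319 (.leaf 343 1982 (.cons 317 (.leaf 318 2345 (.cons 345 (.leaf 321 1988 (.cons 344 (.leaf 369 2180 (.cons 368 (.leaf 271 2175 (.leaf 392 2367 .nil)) .nil)) .nil))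 .nil)) .nil)) (.cons 343 (.leaf 319 1982 (.cons 223 (.leaf 247 1791 (.cons 344 (.leaf 367 2174 (.cons 345 (.leaf 321 1988 (.leaf 369 2180 .nil)) .nil)) .nil)) .nil)) (.cons 319 (.leaf 343 1982 (.cons 247 (.leaf 223 1791 (.cons 318 (.leaf 317 2345 (.cons 271 (.leaf 342 1974 (.cons 246 (.leaf 222 1783 (.cons 321 (.leaf 345 1988 (.cons 245 (.leaf 244 1952 (.cons 269 (.leaf 270 2152 (.leaf 268 1954 .nil)) .nil)) .nil)) .nil)) .nil)) .nil)) .nil)) .nil)) .nil)))))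
noncomputable def t124 : T := .cons 273 (.leaf 274 2170 (.cons 294 (.leaf 293 2153 (.cons 319 (.cons 343 (.leaf 367 2173 (.cons 248 (.leaf 224 1790 (.leaf 271 1981 .nil)) .nil)) (.cons 248 (.leaf 224 1790 (.cons 320 (.cons 247 (.leaf 223 1791 (.cons 246 (.leaf 245 1960 (.cons 222 (.leaf 271 1783 (.leaf 270 1780 .nil)) .nil)) .nil)) (.cons 321 (.leaf 345 1988 (.leaf 322 2355 .nil)) .nil)) .nil)) (.cons 343 (.leaf 367 2173 (.cons 271 (.cons 246 (.leaf 270 1975 (.cons 247 (.leaf 222 1783 (.cons 223 (.leaf 199 1596 (.leaf 320 1788 .nil)) .nil)) .nil)) (.cons 344 (.leaf 368 2172 (.cons 247 (.leaf 320 1980 (.cons 223 (.leaf 199 1596 (.leaf 318 1782 .nil)) .nil)) .nil)) (.cons 270 (.leaf 246 1975 (.cons 269 (.leaf 268 2144 (.cons 245 (.leaf 244 1955 (.cons 342 (.leaf 366 2166 (.leaf 318 1967 .nil)) .nil)) .nil)) .nil)) .nil))) .nil)) (.cons 343 (.leaf 367 2173 (.cons 248 (.leaf 224 1790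 (.leaf 320 1982 .nil)) .nil)) .nil)))) .nil)) .nil)) (.cons 273 (.leaf 274 2170 (.cons 294 (.leaf 293 2153 (.cons 297 (.cons 270 (.leaf 269 2155 (.cons 271 (.leaf 298 2160 (.cons 245 (.leaf 246 1963 (.cons 318 (.leaf 317 2346 (.cons 247 (.leaf 223 1782 (.leaf 342 1973 .nil)) .nil)) .nil)) .nil)) .nil)) (.cons 321 (.leaf 322 2352 (.cons 248 (.leaf 224 1796 (.leaf 345 1991 .nil)) .nil)) .nil)) .nil)) .nil)) (.cons 273 (.leaf 274 2170 (.cons 294 (.leaf 293 2153 (.cons 297 (.cons 269 (.leaf 270 2155 (.cons 318 (.leaf 317 2346 (.cons 319 (.leaf 298 2354 (.cons 248 (.leaf 224 1790 (.cons 343 (.leaf 320 1982 (.leaf 367 2173 .nil)) .nil)) .nil)) .nil)) .nil)) (.cons 321 (.leaf 322 2352 (.cons 248 (.leaf 224 1796 (.leaf 345 1991 .nil)) .nil)) (.cons 269 (.leaf 270 2155 (.cons 318 (.leaf 317 2346 (.cons 321 (.leaf 322 2352 (.cons 345 (.leaf 369 2183 (.cons 344 (.leaf 368 2182 (.cons 319 (.leaf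 298 2354 (.cons 346 (.leaf 370 2188 (.leaf 320 2544 .nil)) .nil)) .nil)) .nil)) .nil)) .nil)) .nil)) .nil))) .nil)) .nil)) (.cons 274 (.leaf 273 2170 (.cons 297 (.leaf 298 2169 (.cons 248 (.cons 319 (.leaf 224 1790 (.cons 343 (.leaf 271 1981 (.leaf 320 1982 .nil)) .nil)) (.cons 320 t123 (.cons 224 (.leaf 321 1796 (.cons 199 (.leaf 223 1599 (.cons 200 (.leaf 175 1407 (.leaf 271 1598 .nil)) .nil)) .nil)) (.cons 224 (.leaf 319 1790 (.leaf 321 1796 .nil)) .nil)))) .nil)) .nil)) (.cons 273 (.leaf 274 2170 (.cons 294 (.leaf 293 2153 (.cons 297 (.cons 269 (.leaf 270 2155 (.cons 322 (.leaf 321 2352 (.cons 298 (.leaf 323 2360 (.cons 299 (.leaf 271 2171 (.leaf 300 2179 .nil)) .nil)) .nil)) .nil)) (.cons 317 (.leaf 318 2346 (.cons 322 (.leaf 321 2352 (.cons 298 (.leaf 323 2360 (.cons 299 (.leaf 271 2171 (.leaf 300 2179 .nil)) .nil)) .nil)) .nil)) (.cons 270 (.leaf 269 2155 (.cons 318 (.leaf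 317 2346 (.cons 246 (.cons 245 (.leaf 271 1963 (.leaf 221 1775 .nil)) (.cons 319 (.leaf 222 1780 (.leaf 343 1972 .nil)) .nil)) .nil)) .nil)) (.cons 270 (.leaf 269 2155 (.cons 318 (.leaf 317 2346 (.cons 321 (.leaf 322 2352 (.cons 345 (.leaf 369 2183 (.cons 344 (.leaf 368 2182 (.cons 346 (.leaf 370 2188 (.cons 343 (.leaf 319 2547 (.cons 367 (.leaf 320 2174 (.leaf 342 2164 .nil)) .nil)) .nil)) .nil)) .nil)) .nil)) .nil)) .nil)) .nil)))) .nil)) .nil)) (.cons 273 (.leaf 274 2170 (.cons 294 (.leaf 293 2153 (.cons 297 (.cons 270 (.leaf 269 2155 (.cons 271 (.leaf 298 2160 (.cons 246 (.leaf 245 1963 (.cons 222 (.leaf 198 1588 (.leaf 319 1780 .nil)) .nil)) .nil)) .nil)) (.cons 318 (.leaf 317 2346 (.cons 298 (.leaf 319 2354 (.cons 299 (.leaf 271 2171 (.leaf 300 2179 .nil)) .nil)) .nil)) (.cons 318 (.leaf 317 2346 (.cons 269 (.leaf 270 2155 (.cons 319 (.leaf 298 2354 (.cons 248 (.leaf 224 1790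 (.cons 343 (.leaf 320 1982 (.leaf 367 2173 .nil)) .nil)) .nil)) .nil)) .nil)) (.cons 270 (.leaf 269 2155 (.cons 318 (.leaf 317 2346 (.cons 246 (.cons 245 (.leaf 271 1963 (.leaf 221 1775 .nil)) (.cons 319 (.leaf 222 1780 (.leaf 343 1972 .nil)) .nil)) .nil)) .nil)) (.cons 270 (.leaf 269 2155 (.cons 271 (.leaf 298 2160 (.cons 245 (.leaf 246 1963 (.cons 318 (.leaf 317 2346 (.cons 247 (.leaf 223 1782 (.leaf 342 1973 .nil)) .nil)) .nil)) .nil)) .nil)) .nil))))) .nil)) .nil)) (.cons 273 (.leaf 274 2170 (.cons 294 (.leaf 293 2153 (.cons 297 (.cons 318 (.leaf 317 2346 (.cons 298 (.leaf 319 2354 (.cons 299 (.leaf 271 2171 (.leaf 300 2179 .nil)) .nil)) .nil)) (.cons 321 (.leaf 322 2352 (.cons 248 (.leaf 224 1796 (.leaf 345 1991 .nil)) .nil)) .nil)) .nil)) .nil)) (.cons 273 (.leaf 274 2170 (.cons 294 (.leaf 293 2153 (.cons 297 (.cons 321 (.leaf 322 2352 (.cons 248 (.leaf 224 1796 (.leaf 345 1991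 .nil)) .nil)) (.cons 270 (.leaf 269 2155 (.cons 271 (.leaf 298 2160 (.cons 246 (.leaf 245 1963 (.cons 222 (.leaf 198 1588 (.leaf 319 1780 .nil)) .nil)) .nil)) .nil)) .nil)) .nil)) .nil)) .nil)))))))
noncomputable def t125 : T := .cons 273 (.leaf 274 2170 (.cons 294 (.leaf 293 2153 (.cons 297 (.cons 318 (.leaf 317 2346 (.cons 269 (.leaf 270 2155 (.cons 298 (.leaf 319 2354 (.cons 299 (.leaf 271 2171 (.leaf 300 2179 .nil)) .nil)) .nil)) .nil)) (.cons 318 (.leaf 317 2346 (.cons 298 (.leaf 319 2354 (.cons 299 (.leaf 271 2171 (.leaf 300 2179 .nil)) .nil)) .nil)) (.cons 321 (.leaf 322 2352 (.cons 248 (.leaf 224 1796 (.leaf 345 1991 .nil)) .nil)) .nil))) .nil)) .nil)) (.cons 319 (.cons 343 (.leaf 367 2173 (.cons 271 (.leaf 248 1981 (.cons 270 (.leaf 246 1975 (.cons 269 (.leaf 297 2152 (.leaf 268 2144 .nil)) .nil)) .nil)) .nil)) (.cons 248 (.leaf 224 1790 (.cons 320 (.cons 247 (.leaf 223 1791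 (.cons 271 (.leaf 344 1980 (.cons 318 (.leaf 342 1974 (.cons 297 (.leaf 298 2354 (.leaf 317 2345 .nil)) .nil)) .nil)) .nil)) (.cons 321 (.leaf 345 1988 (.cons 294 (.leaf 293 2344 (.leaf 322 2355 .nil)) .nil)) .nil)) .nil)) (.cons 343 (.leaf 367 2173 (.cons 271 (.cons 270 (.leaf 246 1975 (.cons 269 (.leaf 297 2152 (.leaf 268 2144 .nil)) .nil)) (.cons 342 (.leaf 366 2166 (.cons 344 (.leaf 368 2172 (.cons 320 (.leaf 247 1980 (.cons 321 (.leaf 322 2546 (.leaf 341 2537 .nil)) .nil)) .nil)) .nil)) .nil)) .nil)) (.cons 343 (.leaf 367 2173 (.cons 248 (.leaf 224 1790 (.leaf 320 1982 .nil)) .nil)) .nil)))) t124)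
noncomputable def t126 : T := .cons 251 (.leaf 252 1985 (.cons 250 (.leaf 271 1977 (.cons 299 (.leaf 300 2176 (.cons 323 (.leaf 347 2007 (.cons 322 (.leaf 346 2006 (.cons 324 (.leaf 348 2012 (.cons 321 (.leaf 297 2371 (.cons 344 (.leaf 345 2562 (.cons 320 (.leaf 249 1989 (.leaf 343 2554 .nil)) .nil)) .nil)) .nil)) .nil)) .nil)) .nil)) .nil)) .nil)) (.cons 248 (.leaf 247 1979 (.cons 299 (.leaf 300 2176 (.cons 224 (.cons 199 (.leaf 223 1599 (.cons 200 (.leaf 175 1407 (.leaf 297 1604 .nil)) .nil)) (.cons 225 (.leaf 201 1605 (.cons 320 (.leaf 249 1797 (.cons 321 (.leaf 345 1988 (.cons 343 (.leaf 319 1982 (.cons 344 (.leaf 367 2174 (.cons 323 (.leaf 322 2554 (.cons 347 (.leaf 250 2007 (.cons 370 (.leaf 346 2198 (.cons 371 (.leaf 394 2390 (.cons 372 (.leaf 348 2204 (.leaf 396 2396 .nil)) .nil)) .nil)) .nil)) .nil)) .nil)) .nil)) .nil)) .nil)) .nil)) .nil)) .nil)) .nil)) (.cons 247 (.leaf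 248 1979 (.cons 251 (.leaf 252 1985 (.cons 271 (.leaf 246 1971 (.leaf 250 1977 .nil)) .nil)) .nil)) (.cons 248 (.leaf 247 1979 (.cons 299 (.leaf 300 2176 (.cons 224 (.cons 199 (.leaf 223 1599 (.cons 200 (.leaf 175 1407 (.leaf 297 1604 .nil)) .nil)) (.cons 225 (.leaf 201 1605 (.cons 199 (.leaf 223 1599 (.cons 320 (.leaf 249 1797 (.cons 175 (.leaf 200 1407 (.cons 343 (.leaf 319 1982 (.cons 344 (.leaf 367 2174 (.cons 345 (.leaf 321 1988 (.leaf 369 2180 .nil)) .nil)) .nil)) .nil)) .nil)) .nil)) .nil)) (.cons 199 (.leaf 223 1599 (.cons 321 (.leaf 297 1796 (.cons 201 (.leaf 225 1605 (.cons 320 (.leaf 345 1988 (.cons 343 (.leaf 319 1982 (.cons 344 (.leaf 249 1989 (.leaf 367 2174 .nil)) .nil)) .nil)) .nil)) .nil)) .nil)) (.cons 297 (.leaf 200 1604 (.leaf 321 1796 .nil)) .nil)))) .nil)) .nil)) .nil)))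
noncomputable def t127 : T := .cons 344 (.leaf 249 1989 (.cons 247 (.leaf 271 1983 (.cons 223 (.leaf 248 1791 (.cons 367 (.leaf 343 2174 (.cons 368 (.leaf 297 2181 (.leaf 391 2366 .nil)) .nil)) .nil)) .nil)) .nil)) (.cons 248 (.cons 225 (.leaf 249 1797 (.cons 224 (.leaf 201 1605 (.cons 319 (.leaf 295 1790 (.leaf 343 1982 .nil)) .nil)) .nil)) (.cons 321 (.leaf 345 1988 (.cons 223 (.leaf 247 1791 (.cons 224 (.leaf 199 1599 (.leaf 297 1796 .nil)) .nil)) .nil)) (.cons 249 (.leaf 225 1797 (.cons 247 (.leaf 223 1791 (.cons 246 (.leaf 245 1960 (.cons 222 (.leaf 221 1771 (.cons 270 (.leaf 269 1962 (.cons 319 (.leaf 343 1982 (.cons 294 (.leaf 295 1780 (.cons 317 (.leaf 293 1774 (.cons 318 (.leaf 297 2345 (.leaf 341 1966 .nil)) .nil)) .nil)) .nil)) .nil)) .nil)) .nil)) .nil)) .nil)) .nil))) (.cons 344 (.cons 247 (.leaf 271 1983 (.cons 223 (.leaf 248 1791 (.cons 367 (.leaf 343 2174 (.cons 368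 (.leaf 297 2181 (.leaf 391 2366 .nil)) .nil)) .nil)) .nil)) (.cons 247 (.leaf 271 1983 (.cons 248 (.leaf 223 1791 (.cons 343 (.leaf 319 1982 (.leaf 367 2174 .nil)) .nil)) .nil)) (.cons 368 (.leaf 297 2181 (.cons 271 (.leaf 247 1983 (.leaf 295 2175 .nil)) .nil)) (.cons 297 (.leaf 368 2181 (.cons 345 (.leaf 369 2180 (.cons 321 (.leaf 248 1988 (.cons 346 (.leaf 370 2188 (.cons 319 (.leaf 318 2544 (.leaf 347 2555 .nil)) .nil)) .nil)) .nil)) .nil)) .nil)))) (.cons 344 (.leaf 249 1989 (.cons 368 (.leaf 297 2181 (.cons 271 (.leaf 247 1983 (.leaf 295 2175 .nil)) .nil)) .nil)) (.cons 248 (.cons 225 (.leaf 249 1797 (.cons 224 (.leaf 201 1605 (.cons 319 (.leaf 295 1790 (.leaf 343 1982 .nil)) .nil)) .nil)) (.cons 247 (.leaf 223 1791 (.cons 245 (.leaf 246 1960 (.cons 344 (.leaf 271 1983 (.cons 343 (.leaf 319 1982 (.leaf 367 2174 .nil)) .nil)) .nil)) .nil)) (.cons 247 (.leaf 223 1791 (.cons 245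 (.leaf 246 1960 (.cons 344 (.leaf 271 1983 (.leaf 249 1989 .nil)) .nil)) .nil)) .nil))) (.cons 344 (.leaf 249 1989 (.cons 297 (.leaf 368 2181 (.cons 345 (.leaf 369 2180 (.cons 321 (.leaf 248 1988 (.cons 346 (.leaf 370 2188 (.cons 319 (.leaf 318 2544 (.leaf 347 2555 .nil)) .nil)) .nil)) .nil)) .nil)) .nil)) .nil)))))
noncomputable def t128 : T := .cons 274 (.leaf 295 2170 (.cons 251 (.leaf 252 1985 (.cons 250 (.leaf 271 1977 (.cons 299 (.leaf 300 2176 (.cons 323 (.leaf 347 2007 (.cons 322 (.leaf 346 2006 (.cons 324 (.leaf 348 2012 (.cons 321 (.leaf 297 2371 (.cons 344 (.leaf 345 2562 (.cons 320 (.leaf 249 1989 (.leaf 343 2554 .nil)) .nil)) .nil)) .nil)) .nil)) .nil)) .nil)) .nil)) .nil)) .nil)) (.cons 320 t127 (.cons 274 t126 (.cons 274 (.leaf 295 2170 (.cons 247 (.leaf 248 1979 (.cons 251 (.leaf 252 1985 (.cons 271 (.leaf 246 1971 (.leaf 250 1977 .nil)) .nil)) .nil)) .nil)) (.cons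 274 (.leaf 295 2170 (.cons 248 (.leaf 247 1979 (.cons 299 (.leaf 300 2176 (.cons 224 (.cons 199 (.leaf 223 1599 (.cons 200 (.leaf 175 1407 (.leaf 297 1604 .nil)) .nil)) (.cons 225 (.leaf 201 1605 (.cons 320 (.leaf 249 1797 (.cons 321 (.leaf 345 1988 (.cons 343 (.leaf 319 1982 (.cons 344 (.leaf 367 2174 (.cons 323 (.leaf 322 2554 (.cons 347 (.leaf 250 2007 (.cons 370 (.leaf 346 2198 (.cons 371 (.leaf 394 2390 (.cons 372 (.leaf 348 2204 (.leaf 396 2396 .nil)) .nil)) .nil)) .nil)) .nil)) .nil)) .nil)) .nil)) .nil)) .nil)) .nil)) .nil)) .nil)) .nil)) .nil))))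
noncomputable def t129 : T := .cons 247 (.leaf 248 1979 (.cons 251 (.leaf 252 1985 (.cons 271 (.leaf 246 1971 (.leaf 250 1977 .nil)) .nil)) .nil)) (.cons 247 (.leaf 248 1979 (.cons 271 (.leaf 246 1971 (.cons 299 (.leaf 300 2176 (.leaf 298 2168 .nil)) .nil)) .nil)) (.cons 251 (.leaf 252 1985 (.cons 250 (.leaf 271 1977 (.cons 299 (.leaf 300 2176 (.cons 323 (.leaf 347 2007 (.cons 322 (.leaf 346 2006 (.cons 227 (.leaf 298 1813 (.cons 179 (.leaf 203 1430 (.cons 228 (.leaf 204 1629 (.cons 229 (.leaf 230 1810 (.cons 249 (.leaf 248 1793 (.cons 225 (.leaf 201 1606 (.cons 320 (.leaf 344 1989 (.leaf 297 1798 .nil)) .nil)) .nil)) .nil)) .nil)) .nil)) .nil)) .nil)) .nil)) .nil)) .nil)) .nil)) (.cons 251 (.leaf 252 1985 (.cons 250 (.leaf 271 1977 (.cons 299 (.leaf 300 2176 (.cons 323 (.leaf 347 2007 (.cons 322 (.leaf 346 2006 (.cons 227 (.leaf 298 1813 (.cons 203 (.leaf 179 1430 (.cons 204 (.leaf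 180 1437 (.leaf 228 1629 .nil)) .nil)) .nil)) .nil)) .nil)) .nil)) .nil)) .nil)) (.cons 248 (.leaf 247 1979 (.cons 251 (.leaf 252 1985 (.cons 299 (.leaf 300 2176 (.cons 227 (.cons 298 (.leaf 203 1622 (.leaf 322 1814 .nil)) (.cons 204 (.leaf 228 1629 (.cons 203 (.leaf 180 1437 (.cons 178 (.leaf 202 1431 (.cons 179 (.leaf 250 1430 (.leaf 154 1239 .nil)) .nil)) .nil)) .nil)) (.cons 204 (.leaf 228 1629 (.cons 322 (.leaf 298 1814 (.cons 323 (.leaf 346 2006 (.cons 347 (.leaf 250 2007 (.cons 348 (.leaf 324 2012 (.leaf 372 2204 .nil)) .nil)) .nil)) .nil)) .nil)) .nil))) .nil)) .nil)) .nil)) .nil))))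
noncomputable def t130 : T := .cons 344 (.leaf 249 1989 (.cons 247 (.leaf 271 1983 (.cons 223 (.leaf 248 1791 (.cons 367 (.leaf 343 2174 (.cons 368 (.leaf 297 2181 (.leaf 391 2366 .nil)) .nil)) .nil)) .nil)) .nil)) (.cons 248 (.cons 223 (.leaf 247 1791 (.cons 224 (.leaf 199 1599 (.cons 319 (.leaf 295 1790 (.leaf 343 1982 .nil)) .nil)) .nil)) (.cons 223 (.leaf 247 1791 (.cons 224 (.leaf 199 1599 (.cons 225 (.leaf 201 1605 (.leaf 249 1797 .nil)) .nil)) .nil)) (.cons 225 (.leaf 249 1797 (.cons 224 (.leaf 201 1605 (.cons 319 (.leaf 295 1790 (.leaf 343 1982 .nil)) .nil)) .nil)) (.cons 249 (.leaf 225 1797 (.cons 247 (.leaf 223 1791 (.cons 246 (.leaf 245 1960 (.cons 270 (.leaf 269 1962 (.cons 222 (.leaf 221 1771 (.cons 319 (.leaf 343 1982 (.cons 294 (.leaf 295 1780 (.cons 317 (.leaf 293 1774 (.cons 318 (.leaf 297 2345 (.leaf 341 1966 .nil)) .nil)) .nil)) .nil)) .nil)) .nil)) .nil)) .nil))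 .nil)) .nil)))) (.cons 344 (.cons 247 (.leaf 271 1983 (.cons 223 (.leaf 248 1791 (.cons 367 (.leaf 343 2174 (.cons 368 (.leaf 297 2181 (.leaf 391 2366 .nil)) .nil)) .nil)) .nil)) (.cons 247 (.leaf 271 1983 (.cons 248 (.leaf 223 1791 (.cons 343 (.leaf 319 1982 (.leaf 367 2174 .nil)) .nil)) .nil)) (.cons 297 (.leaf 368 2181 (.cons 343 (.leaf 367 2174 (.cons 319 (.leaf 248 1982 (.cons 318 (.leaf 317 2345 (.cons 345 (.leaf 369 2180 (.leaf 346 2547 .nil)) .nil)) .nil)) .nil)) .nil)) (.cons 247 (.leaf 271 1983 (.cons 223 (.leaf 248 1791 (.cons 368 (.leaf 297 2181 (.cons 391 (.leaf 367 2366 (.cons 392 (.leaf 415 2558 (.cons 393 (.leaf 369 2372 (.leaf 417 2564 .nil)) .nil)) .nil)) .nil)) .nil)) .nil)) (.cons 247 (.leaf 271 1983 (.cons 223 (.leaf 248 1791 (.cons 368 (.leaf 297 2181 (.cons 369 (.leaf 345 2180 (.leaf 393 2372 .nil)) .nil)) .nil)) .nil)) (.cons 368 (.leaf 297 2181 (.cons 271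 (.leaf 247 1983 (.leaf 295 2175 .nil)) .nil)) .nil)))))) (.cons 344 (.leaf 249 1989 (.cons 368 (.leaf 297 2181 (.cons 271 (.leaf 247 1983 (.leaf 295 2175 .nil)) .nil)) .nil)) (.cons 344 (.leaf 249 1989 (.cons 247 (.leaf 271 1983 (.cons 248 (.leaf 223 1791 (.cons 343 (.leaf 319 1982 (.leaf 367 2174 .nil)) .nil)) .nil)) .nil)) (.cons 344 (.leaf 249 1989 (.cons 297 (.leaf 368 2181 (.cons 343 (.leaf 367 2174 (.cons 319 (.leaf 248 1982 (.cons 318 (.leaf 317 2345 (.cons 345 (.leaf 369 2180 (.leaf 346 2547 .nil)) .nil)) .nil)) .nil)) .nil)) .nil)) .nil)))))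
noncomputable def t131 : T := .cons 274 (.leaf 295 2170 (.cons 247 (.leaf 248 1979 (.cons 251 (.leaf 252 1985 (.cons 271 (.leaf 246 1971 (.leaf 250 1977 .nil)) .nil)) .nil)) .nil)) (.cons 320 t130 (.cons 274 t129 (.cons 274 (.leaf 295 2170 (.cons 248 (.leaf 247 1979 (.cons 251 (.leaf 252 1985 (.cons 299 (.leaf 300 2176 (.cons 227 (.cons 298 (.leaf 203 1622 (.leaf 322 1814 .nil)) (.cons 204 (.leaf 228 1629 (.cons 203 (.leaf 180 1437 (.cons 178 (.leaf 202 1431 (.cons 179 (.leaf 250 1430 (.leaf 154 1239 .nil)) .nil)) .nil)) .nil)) (.cons 204 (.leaf 228 1629 (.cons 322 (.leaf 298 1814 (.cons 323 (.leaf 346 2006 (.cons 347 (.leaf 250 2007 (.cons 348 (.leaf 324 2012 (.leaf 372 2204 .nil)) .nil)) .nil)) .nil)) .nil)) .nil))) .nil)) .nil)) .nil)) .nil)) (.cons 274 (.leaf 295 2170 (.cons 251 (.leaf 252 1985 (.cons 250 (.leaf 271 1977 (.cons 299 (.leaf 300 2176 (.cons 323 (.leaf 347 2007 (.cons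 322 (.leaf 346 2006 (.cons 227 (.leaf 298 1813 (.cons 203 (.leaf 179 1430 (.cons 204 (.leaf 180 1437 (.leaf 228 1629 .nil)) .nil)) .nil)) .nil)) .nil)) .nil)) .nil)) .nil)) .nil)) .nil))))
noncomputable def t132 : T := .cons 223 (.leaf 247 1791 (.cons 224 (.leaf 199 1599 (.cons 200 (.leaf 297 1604 (.leaf 176 1412 .nil)) .nil)) .nil)) (.cons 321 (.leaf 345 1988 (.cons 224 (.leaf 297 1796 (.cons 200 (.leaf 176 1412 (.cons 199 (.leaf 175 1407 (.leaf 223 1599 .nil)) .nil)) .nil)) .nil)) (.cons 321 (.leaf 345 1988 (.cons 224 (.leaf 297 1796 (.cons 200 (.leaf 176 1412 (.cons 271 (.leaf 295 1598 (.cons 250 (.leaf 251 1978 (.leaf 270 1969 .nil)) .nil)) .nil)) .nil)) .nil)) (.cons 247 (.leaf 223 1791 (.cons 246 (.leaf 245 1960 (.cons 270 (.leaf 269 1962 (.cons 271 (.leaf 250 1969 (.cons 221 (.leaf 222 1771 (.cons 294 (.leaf 293 2154 (.cons 297 (.leaf 298 2160 (.cons 318 (.leaf 342 1973 (.cons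 321 (.leaf 345 1988 (.cons 295 (.leaf 317 2346 (.leaf 322 2352 .nil)) .nil)) .nil)) .nil)) .nil)) .nil)) .nil)) .nil)) .nil)) .nil)) (.cons 247 (.leaf 223 1791 (.cons 246 (.leaf 245 1960 (.cons 222 (.leaf 221 1771 (.cons 270 (.leaf 269 1962 (.cons 271 (.leaf 250 1969 (.cons 198 (.leaf 174 1396 (.leaf 295 1588 .nil)) .nil)) .nil)) .nil)) .nil)) .nil)) .nil))))
noncomputable def t133 : T := .cons 274 (.leaf 295 2170 (.cons 251 (.leaf 252 1985 (.cons 299 (.leaf 300 2176 (.cons 227 (.cons 204 (.leaf 228 1629 (.cons 203 (.leaf 180 1437 (.leaf 298 1622 .nil)) .nil)) (.cons 204 (.leaf 228 1629 (.cons 203 (.leaf 180 1437 (.cons 178 (.leaf 202 1431 (.cons 179 (.leaf 250 1430 (.leaf 154 1239 .nil)) .nil)) .nil)) .nil)) (.cons 204 (.leaf 228 1629 (.cons 322 (.leaf 298 1814 (.cons 323 (.leaf 346 2006 (.cons 324 (.leaf 348 2012 (.cons 321 (.leaf 297 2371 (.cons 344 (.leaf 345 2562 (.cons 320 (.leaf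 249 1989 (.leaf 343 2554 .nil)) .nil)) .nil)) .nil)) .nil)) .nil)) .nil)) (.cons 298 (.leaf 203 1622 (.leaf 322 1814 .nil)) .nil)))) .nil)) .nil)) .nil)) (.cons 249 (.cons 225 (.leaf 201 1606 (.cons 297 (.leaf 320 1798 (.cons 298 (.leaf 322 1804 (.cons 271 (.leaf 270 2160 (.leaf 299 2171 .nil)) .nil)) .nil)) .nil)) (.cons 225 (.leaf 201 1606 (.cons 297 (.cons 298 (.leaf 322 1804 (.cons 271 (.leaf 270 2160 (.leaf 299 2171 .nil)) .nil)) (.cons 224 (.leaf 200 1607 (.cons 248 (.leaf 321 1796 (.cons 223 (.leaf 199 1599 (.cons 222 (.leaf 221 1768 (.leaf 250 1776 .nil)) .nil)) .nil)) .nil)) .nil)) .nil)) (.cons 320 (.leaf 344 1989 (.cons 248 t132 .nil)) (.cons 320 (.leaf 344 1989 (.cons 225 (.leaf 201 1606 (.leaf 248 1797 .nil)) .nil)) .nil)))) (.cons 274 (.cons 251 (.leaf 252 1985 (.cons 299 (.leaf 300 2176 (.cons 227 (.cons 204 (.leaf 228 1629 (.cons 203 (.leaf 180 1437 (.leaf 298 1622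 .nil)) .nil)) (.cons 204 (.leaf 228 1629 (.cons 203 (.leaf 180 1437 (.cons 178 (.leaf 202 1431 (.cons 179 (.leaf 250 1430 (.leaf 154 1239 .nil)) .nil)) .nil)) .nil)) (.cons 204 (.leaf 228 1629 (.cons 322 (.leaf 298 1814 (.cons 323 (.leaf 346 2006 (.cons 324 (.leaf 348 2012 (.cons 321 (.leaf 297 2371 (.cons 344 (.leaf 345 2562 (.cons 320 (.leaf 249 1989 (.leaf 343 2554 .nil)) .nil)) .nil)) .nil)) .nil)) .nil)) .nil)) (.cons 298 (.leaf 203 1622 (.leaf 322 1814 .nil)) .nil)))) .nil)) .nil)) (.cons 247 (.leaf 248 1979 (.cons 251 (.leaf 252 1985 (.cons 271 (.leaf 246 1971 (.leaf 250 1977 .nil)) .nil)) .nil)) (.cons 247 (.leaf 248 1979 (.cons 271 (.leaf 246 1971 (.cons 299 (.leaf 300 2176 (.leaf 298 2168 .nil)) .nil)) .nil)) .nil))) (.cons 274 (.leaf 295 2170 (.cons 251 (.leaf 252 1985 (.cons 250 (.leaf 271 1977 (.cons 299 (.leaf 300 2176 (.cons 323 (.leaf 347 2007 (.cons 322 (.leaf 346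 2006 (.cons 227 (.leaf 298 1813 (.cons 203 (.leaf 179 1430 (.cons 204 (.leaf 180 1437 (.leaf 228 1629 .nil)) .nil)) .nil)) .nil)) .nil)) .nil)) .nil)) .nil)) .nil)) (.cons 274 (.leaf 295 2170 (.cons 247 (.leaf 248 1979 (.cons 251 (.leaf 252 1985 (.cons 271 (.leaf 246 1971 (.leaf 250 1977 .nil)) .nil)) .nil)) .nil)) (.cons 274 (.leaf 295 2170 (.cons 247 (.leaf 248 1979 (.cons 271 (.leaf 246 1971 (.cons 299 (.leaf 300 2176 (.leaf 298 2168 .nil)) .nil)) .nil)) .nil)) .nil)))))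
noncomputable def t134 : T := .cons 248 (.cons 225 (.leaf 249 1797 (.cons 319 (.leaf 343 1982 (.cons 321 (.leaf 345 1988 (.leaf 322 2355 .nil)) .nil)) .nil)) (.cons 223 (.leaf 247 1791 (.cons 321 (.leaf 345 1988 (.cons 322 (.leaf 323 2363 (.leaf 319 2355 .nil)) .nil)) .nil)) (.cons 247 (.leaf 223 1791 (.cons 246 (.leaf 245 1960 (.cons 249 (.leaf 225 1797 (.leaf 344 1989 .nil)) .nil)) .nil)) .nil))) (.cons 248 (.cons 225 (.leaf 249 1797 (.cons 319 (.leaf 343 1982 (.cons 321 (.leaf 345 1988 (.leaf 322 2355 .nil)) .nil)) .nil)) (.cons 247 (.leaf 223 1791 (.cons 246 (.leaf 245 1960 (.cons 249 (.leaf 225 1797 (.cons 270 (.leaf 269 1962 (.cons 271 (.leaf 250 1969 (.cons 222 (.leaf 198 1588 (.leaf 221 1771 .nil)) .nil)) .nil)) .nil)) .nil)) .nil)) (.cons 223 (.leaf 247 1791 (.cons 321 (.leaf 345 1988 (.cons 322 (.leaf 323 2363 (.leaf 319 2355 .nil)) .nil)) .nil)) .nil))) (.cons 344 (.cons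 343 (.leaf 367 2174 (.cons 248 (.leaf 319 1982 (.cons 345 (.leaf 321 1988 (.leaf 369 2180 .nil)) .nil)) .nil)) (.cons 271 (.leaf 247 1983 (.leaf 368 2175 .nil)) .nil)) (.cons 344 (.leaf 249 1989 (.cons 271 (.leaf 247 1983 (.leaf 368 2175 .nil)) .nil)) (.cons 344 (.leaf 249 1989 (.cons 343 (.leaf 367 2174 (.cons 248 (.leaf 319 1982 (.cons 345 (.leaf 321 1988 (.leaf 369 2180 .nil)) .nil)) .nil)) .nil)) .nil))))
noncomputable def t135 : T := .cons 346 (.leaf 251 2005 (.cons 299 (.leaf 370 2197 (.cons 345 (.leaf 369 2190 (.cons 347 (.leaf 371 2196 (.cons 323 (.leaf 250 2004 (.cons 324 (.leaf 325 2570 (.leaf 344 2561 .nil)) .nil)) .nil)) .nil)) .nil)) .nil)) (.cons 250 (.cons 321 (.leaf 345 1998 (.cons 323 (.leaf 320 2363 (.leaf 347 2004 .nil)) .nil)) (.cons 249 (.leaf 225 1807 (.cons 248 (.leaf 247 1976 (.cons 251 (.leaf 271 1978 (.leaf 227 1813 .nil)) .nil)) .nil)) .nil)) (.cons 346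 (.cons 299 (.leaf 370 2197 (.cons 345 (.leaf 369 2190 (.cons 347 (.leaf 371 2196 (.cons 323 (.leaf 250 2004 (.cons 324 (.leaf 325 2570 (.leaf 344 2561 .nil)) .nil)) .nil)) .nil)) .nil)) (.cons 299 (.leaf 370 2197 (.cons 345 (.leaf 369 2190 (.cons 321 (.leaf 250 1998 (.cons 320 (.leaf 248 1988 (.leaf 323 2363 .nil)) .nil)) .nil)) .nil)) (.cons 345 (.leaf 369 2190 (.cons 250 (.leaf 321 1998 (.cons 347 (.leaf 323 2004 (.leaf 371 2196 .nil)) .nil)) .nil)) (.cons 370 (.leaf 299 2197 (.cons 371 (.leaf 347 2196 (.leaf 395 2388 .nil)) .nil)) .nil)))) (.cons 251 (.leaf 346 2005 (.cons 227 (.leaf 203 1622 (.leaf 299 1814 .nil)) .nil)) .nil)))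
noncomputable def t136 : T := .cons 293 (.leaf 273 2153 (.cons 268 (.leaf 269 2147 (.cons 317 (.leaf 316 2338 (.cons 297 (.leaf 318 2346 (.cons 322 (.leaf 321 2352 (.cons 298 (.leaf 323 2360 (.cons 271 (.leaf 292 2145 (.leaf 299 2171 .nil)) .nil)) .nil)) .nil)) .nil)) .nil)) .nil)) (.cons 297 (.cons 270 (.leaf 269 2155 (.cons 318 (.leaf 317 2346 (.cons 321 (.leaf 322 2352 (.cons 345 (.leaf 369 2183 (.cons 319 (.leaf 298 2354 (.cons 343 (.leaf 367 2173 (.leaf 246 1972 .nil)) .nil)) .nil)) .nil)) .nil)) .nil)) (.cons 321 (.leaf 322 2352 (.cons 317 (.leaf 318 2346 (.cons 345 (.leaf 369 2183 (.cons 248 (.leaf 273 1991 (.leaf 320 1988 .nil)) .nil)) .nil)) .nil)) (.cons 270 (.leaf 269 2155 (.cons 298 (.leaf 271 2163 (.cons 322 (.leaf 321 2352 (.leaf 323 2360 .nil)) .nil)) .nil)) (.cons 270 (.leaf 269 2155 (.cons 271 (.leaf 298 2163 (.cons 318 (.leaf 317 2346 (.cons 342 (.leaf 366 2165 (.leaf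 247 1973 .nil)) .nil)) .nil)) .nil)) .nil)))) (.cons 293 (.cons 268 (.leaf 269 2147 (.cons 317 (.leaf 316 2338 (.cons 297 (.leaf 318 2346 (.cons 322 (.leaf 321 2352 (.cons 298 (.leaf 323 2360 (.cons 271 (.leaf 292 2145 (.leaf 299 2171 .nil)) .nil)) .nil)) .nil)) .nil)) .nil)) (.cons 268 (.leaf 269 2147 (.cons 317 (.leaf 316 2338 (.cons 297 (.leaf 318 2346 (.cons 322 (.leaf 321 2352 (.cons 298 (.leaf 323 2360 (.cons 271 (.leaf 299 2171 (.leaf 270 2163 .nil)) .nil)) .nil)) .nil)) .nil)) .nil)) (.cons 271 (.leaf 292 2145 (.cons 317 (.leaf 316 2338 (.cons 297 (.leaf 318 2346 (.cons 298 (.leaf 299 2171 (.leaf 270 2163 .nil)) .nil)) .nil)) .nil)) (.cons 320 (.leaf 321 2344 (.cons 268 (.leaf 269 2147 (.cons 292 (.leaf 267 2139 (.leaf 319 2336 .nil)) .nil)) .nil)) .nil)))) (.cons 293 (.leaf 273 2153 (.cons 320 (.leaf 321 2344 (.cons 268 (.leaf 269 2147 (.cons 292 (.leaf 267 2139 (.leaf 319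 2336 .nil)) .nil)) .nil)) .nil)) (.cons 293 (.leaf 273 2153 (.cons 271 (.leaf 292 2145 (.cons 317 (.leaf 316 2338 (.cons 297 (.leaf 318 2346 (.cons 298 (.leaf 299 2171 (.leaf 270 2163 .nil)) .nil)) .nil)) .nil)) .nil)) .nil))))
noncomputable def t137 : T := .cons 294 (.cons 298 (.leaf 274 2169 (.cons 318 (.leaf 317 2346 (.leaf 319 2354 .nil)) .nil)) (.cons 321 (.leaf 322 2352 (.cons 269 (.leaf 270 2155 (.cons 293 (.leaf 268 2147 (.leaf 320 2344 .nil)) .nil)) .nil)) .nil)) (.cons 294 (.cons 321 (.leaf 322 2352 (.cons 269 (.leaf 270 2155 (.cons 293 (.leaf 268 2147 (.leaf 320 2344 .nil)) .nil)) .nil)) (.cons 269 (.leaf 270 2155 (.cons 293 (.leaf 268 2147 (.cons 292 (.leaf 271 2145 (.cons 316 (.leaf 317 2338 (.leaf 315 2330 .nil)) .nil)) .nil)) .nil)) (.cons 321 (.leaf 322 2352 (.cons 293 (.leaf 320 2344 (.cons 317 (.leaf 316 2338 (.leaf 318 2346 .nil)) .nil)) .nil)) (.cons 270 (.leaf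 269 2155 (.cons 318 (.leaf 317 2346 (.cons 321 (.leaf 322 2352 (.cons 345 (.leaf 369 2183 (.cons 319 (.cons 343 (.leaf 367 2173 (.leaf 246 1972 .nil)) (.cons 222 (.leaf 246 1780 (.cons 320 (.leaf 248 1988 (.leaf 346 2544 .nil)) .nil)) (.cons 343 (.leaf 367 2173 (.cons 346 (.leaf 320 2544 (.leaf 344 2547 .nil)) .nil)) .nil))) .nil)) .nil)) .nil)) .nil)) .nil)))) (.cons 298 (.leaf 274 2169 (.cons 271 (.leaf 299 2171 (.leaf 270 2163 .nil)) .nil)) (.cons 298 (.leaf 274 2169 (.cons 318 (.leaf 319 2354 (.cons 294 (.leaf 317 2346 (.cons 322 (.leaf 321 2352 (.leaf 323 2360 .nil)) .nil)) .nil)) .nil)) .nil)))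
noncomputable def t138 : T := .cons 273 (.leaf 274 2170 (.cons 294 (.leaf 293 2153 (.cons 297 (.cons 318 (.leaf 317 2346 (.cons 269 (.leaf 270 2155 (.cons 319 (.leaf 298 2354 (.cons 343 (.leaf 367 2173 (.cons 320 (.leaf 248 1982 (.cons 344 (.leaf 249 1989 (.leaf 368 2181 .nil)) .nil)) .nil)) .nil)) .nil)) .nil)) (.cons 318 (.leaf 317 2346 (.cons 298 (.leaf 319 2354 (.cons 299 (.leaf 271 2171 (.leaf 300 2179 .nil)) .nil)) .nil)) (.cons 270 (.leaf 269 2155 (.cons 318 (.leaf 317 2346 (.cons 246 (.cons 245 (.leaf 271 1963 (.leaf 221 1775 .nil)) (.cons 319 (.leaf 222 1780 (.leaf 343 1972 .nil)) .nil)) .nil)) .nil)) (.cons 270 (.leaf 269 2155 (.cons 271 (.leaf 298 2160 (.cons 246 (.leaf 245 1963 (.cons 222 (.leaf 198 1588 (.leaf 319 1780 .nil)) .nil)) .nil)) .nil)) (.cons 270 (.leaf 269 2155 (.cons 271 (.leaf 298 2160 (.cons 245 (.leaf 246 1963 (.cons 249 (.leaf 250 1969 (.cons 318 (.leaf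 317 2346 (.cons 225 (.leaf 201 1606 (.leaf 320 1798 .nil)) .nil)) .nil)) .nil)) .nil)) .nil)) .nil))))) .nil)) .nil)) (.cons 297 t137 (.cons 294 t136 (.cons 274 (.leaf 273 2170 (.cons 298 (.leaf 297 2169 (.cons 322 t135 .nil)) .nil)) (.cons 273 (.leaf 274 2170 (.cons 294 (.leaf 293 2153 (.cons 320 t134 .nil)) .nil)) (.cons 273 (.leaf 274 2170 (.cons 294 (.leaf 293 2153 (.cons 297 (.cons 317 (.leaf 318 2346 (.cons 321 (.leaf 322 2352 (.cons 345 (.leaf 248 1991 (.leaf 369 2183 .nil)) .nil)) .nil)) (.cons 318 (.leaf 317 2346 (.cons 269 (.leaf 270 2155 (.cons 319 (.leaf 298 2354 (.cons 343 (.leaf 367 2173 (.cons 320 (.leaf 248 1982 (.cons 344 (.leaf 249 1989 (.leaf 368 2181 .nil)) .nil)) .nil)) .nil)) .nil)) .nil)) (.cons 321 (.leaf 322 2352 (.cons 269 (.leaf 270 2155 (.cons 345 (.leaf 248 1991 (.leaf 369 2183 .nil)) .nil)) .nil)) (.cons 318 (.leaf 317 2346 (.cons 269 (.leaf 270 2155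 (.cons 298 (.leaf 319 2354 (.cons 299 (.leaf 300 2179 (.cons 322 (.leaf 321 2352 (.leaf 323 2360 .nil)) .nil)) .nil)) .nil)) .nil)) .nil)))) .nil)) .nil)) (.cons 273 (.leaf 274 2170 (.cons 294 (.leaf 293 2153 (.cons 297 (.cons 269 (.leaf 270 2155 (.cons 317 (.leaf 318 2346 (.cons 321 (.leaf 322 2352 (.cons 345 (.leaf 248 1991 (.leaf 369 2183 .nil)) .nil)) .nil)) .nil)) (.cons 321 (.leaf 322 2352 (.cons 345 (.leaf 248 1991 (.leaf 369 2183 .nil)) .nil)) (.cons 269 (.leaf 270 2155 (.cons 318 (.leaf 317 2346 (.cons 298 (.leaf 319 2354 (.cons 299 (.leaf 271 2171 (.leaf 300 2179 .nil)) .nil)) .nil)) .nil)) .nil))) .nil)) .nil)) (.cons 273 (.leaf 274 2170 (.cons 294 (.leaf 293 2153 (.cons 297 (.cons 317 (.leaf 318 2346 (.cons 322 (.leaf 321 2352 (.cons 298 (.leaf 323 2360 (.cons 270 (.leaf 271 2160 (.leaf 269 2155 .nil)) .nil)) .nil)) .nil)) (.cons 317 (.leaf 318 2346 (.cons 322 (.leaf 321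 2352 (.cons 298 (.leaf 323 2360 (.cons 299 (.leaf 271 2171 (.leaf 300 2179 .nil)) .nil)) .nil)) .nil)) (.cons 269 (.leaf 270 2155 (.cons 317 (.leaf 318 2346 (.cons 321 (.leaf 322 2352 (.cons 345 (.leaf 369 2183 (.cons 344 (.leaf 368 2182 (.cons 320 (.leaf 249 1989 (.cons 346 (.leaf 370 2188 (.cons 347 (.leaf 348 2563 (.leaf 319 2555 .nil)) .nil)) .nil)) .nil)) .nil)) .nil)) .nil)) .nil)) (.cons 270 (.leaf 269 2155 (.cons 271 (.leaf 298 2160 (.cons 246 (.leaf 245 1963 (.cons 222 (.leaf 198 1588 (.leaf 319 1780 .nil)) .nil)) .nil)) .nil)) .nil)))) .nil)) .nil)) .nil)))))))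
noncomputable def t139 : T := .cons 248 (.cons 223 (.leaf 247 1791 (.cons 224 (.leaf 199 1599 (.cons 319 (.leaf 295 1790 (.leaf 343 1982 .nil)) .nil)) .nil)) (.cons 225 (.leaf 249 1797 (.cons 224 (.leaf 201 1605 (.cons 319 (.leaf 295 1790 (.leaf 343 1982 .nil)) .nil)) .nil)) (.cons 223 (.leaf 247 1791 (.cons 224 (.leaf 199 1599 (.cons 225 (.leaf 201 1605 (.leaf 249 1797 .nil)) .nil)) .nil)) (.cons 247 (.leaf 274 1979 (.leaf 223 1791 .nil)) .nil)))) (.cons 344 (.leaf 249 1989 (.cons 247 (.leaf 271 1983 (.cons 367 (.leaf 343 2174 (.cons 368 (.leaf 391 2366 (.cons 369 (.leaf 345 2180 (.leaf 393 2372 .nil)) .nil)) .nil)) .nil)) .nil)) (.cons 344 (.cons 247 (.leaf 271 1983 (.cons 367 (.leaf 343 2174 (.cons 368 (.leaf 391 2366 (.cons 369 (.leaf 345 2180 (.leaf 393 2372 .nil)) .nil)) .nil)) .nil)) (.cons 343 (.leaf 367 2174 (.cons 248 (.leaf 319 1982 (.cons 345 (.leaf 321 1988 (.leaf 369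 2180 .nil)) .nil)) .nil)) (.cons 295 (.leaf 274 2170 (.cons 271 (.leaf 247 1983 (.leaf 368 2175 .nil)) .nil)) .nil))) (.cons 344 (.leaf 249 1989 (.cons 343 (.leaf 367 2174 (.cons 248 (.leaf 319 1982 (.cons 345 (.leaf 321 1988 (.leaf 369 2180 .nil)) .nil)) .nil)) .nil)) (.cons 274 (.leaf 295 2170 (.cons 247 (.leaf 248 1979 (.cons 271 (.leaf 246 1971 (.leaf 344 1983 .nil)) .nil)) .nil)) .nil))))
noncomputable def t140 : T := .cons 247 (.leaf 274 1979 (.cons 246 (.leaf 245 1960 (.cons 249 (.cons 201 (.leaf 225 1606 (.cons 221 (.leaf 222 1771 (.cons 270 (.leaf 269 1962 (.cons 271 (.leaf 250 1969 (.cons 223 (.leaf 199 1596 (.leaf 320 1791 .nil)) .nil)) .nil)) .nil)) .nil)) (.cons 201 (.leaf 225 1606 (.cons 221 (.leaf 222 1771 (.cons 270 (.leaf 269 1962 (.cons 271 (.leaf 250 1969 (.cons 223 (.leaf 199 1596 (.cons 294 (.leaf 293 2154 (.leaf 318 1781 .nil)) .nil)) .nil)) .nil)) .nil)) .nil))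 (.cons 221 (.leaf 222 1771 (.cons 269 (.leaf 270 1962 (.cons 320 (.leaf 223 1791 (.leaf 344 1989 .nil)) .nil)) .nil)) (.cons 201 (.leaf 225 1606 (.cons 221 (.leaf 222 1771 (.cons 270 (.leaf 269 1962 (.cons 271 (.leaf 250 1969 (.cons 293 (.leaf 294 2154 (.cons 297 (.leaf 298 2160 (.cons 224 (.leaf 200 1604 (.leaf 321 1796 .nil)) .nil)) .nil)) .nil)) .nil)) .nil)) .nil)) (.cons 225 (.leaf 201 1606 (.leaf 320 1797 .nil)) .nil))))) .nil)) .nil)) (.cons 224 (.cons 297 (.leaf 200 1604 (.leaf 321 1796 .nil)) (.cons 199 (.leaf 223 1599 (.cons 200 (.leaf 175 1407 (.cons 201 (.leaf 177 1413 (.leaf 225 1605 .nil)) .nil)) .nil)) (.cons 199 (.leaf 223 1599 (.cons 201 (.leaf 225 1605 (.cons 321 (.leaf 297 1796 (.cons 320 (.leaf 345 1988 (.cons 343 (.leaf 319 1982 (.cons 344 (.leaf 249 1989 (.leaf 367 2174 .nil)) .nil)) .nil)) .nil)) .nil)) .nil)) .nil))) (.cons 274 (.leaf 247 1979 (.cons 251 (.leaf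 252 1985 (.cons 250 (.leaf 271 1977 (.cons 224 (.cons 223 (.leaf 199 1599 (.leaf 249 1787 .nil)) (.cons 297 (.leaf 200 1604 (.leaf 321 1796 .nil)) .nil)) .nil)) .nil)) .nil)) (.cons 247 (.leaf 274 1979 (.cons 223 (.leaf 320 1791 (.cons 199 (.leaf 175 1404 (.leaf 224 1599 .nil)) .nil)) .nil)) (.cons 247 (.leaf 274 1979 (.cons 320 (.leaf 223 1791 (.cons 245 (.leaf 246 1960 (.cons 319 (.leaf 343 1982 (.cons 344 (.leaf 271 1983 (.leaf 249 1989 .nil)) .nil)) .nil)) .nil)) .nil)) (.cons 247 (.leaf 274 1979 (.cons 246 (.leaf 245 1960 (.cons 249 (.cons 201 (.leaf 225 1606 (.cons 221 (.leaf 222 1771 (.cons 270 (.leaf 269 1962 (.cons 271 (.leaf 250 1969 (.cons 293 (.leaf 294 2154 (.cons 297 (.leaf 298 2160 (.cons 224 (.leaf 200 1604 (.leaf 321 1796 .nil)) .nil)) .nil)) .nil)) .nil)) .nil)) .nil)) (.cons 221 (.leaf 222 1771 (.cons 269 (.leaf 270 1962 (.cons 320 (.leaf 344 1989 (.cons 319 (.leaf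 343 1982 (.cons 321 (.leaf 345 1988 (.cons 297 (.leaf 224 1796 (.cons 318 (.leaf 317 2345 (.leaf 298 2353 .nil)) .nil)) .nil)) .nil)) .nil)) .nil)) .nil)) (.cons 225 (.leaf 201 1606 (.leaf 320 1797 .nil)) .nil))) .nil)) .nil)) .nil)))))
noncomputable def t141 : T := .cons 344 (.leaf 249 1989 (.cons 343 (.leaf 367 2174 (.cons 248 (.leaf 319 1982 (.cons 297 (.leaf 368 2181 (.cons 224 (.leaf 200 1604 (.leaf 321 1796 .nil)) .nil)) .nil)) .nil)) .nil)) (.cons 248 (.cons 223 (.leaf 247 1791 (.cons 224 (.leaf 199 1599 (.cons 319 (.leaf 295 1790 (.leaf 343 1982 .nil)) .nil)) .nil)) (.cons 247 (.leaf 223 1791 (.cons 246 (.leaf 245 1960 (.cons 249 (.leaf 225 1797 (.cons 321 (.leaf 345 1988 (.cons 222 (.leaf 221 1771 (.cons 270 (.leaf 269 1962 (.cons 319 (.leaf 343 1982 (.cons 294 (.leaf 295 1780 (.cons 293 (.leaf 271 2154 (.leaf 318 2347 .nil)) .nil)) .nil)) .nil)) .nil)) .nil)) .nil)) .nil))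 .nil)) (.cons 223 (.leaf 247 1791 (.cons 224 (.leaf 199 1599 (.cons 297 (.leaf 200 1604 (.leaf 321 1796 .nil)) .nil)) .nil)) (.cons 225 (.leaf 249 1797 (.cons 224 (.leaf 201 1605 (.cons 319 (.leaf 295 1790 (.leaf 343 1982 .nil)) .nil)) .nil)) .nil)))) (.cons 344 (.cons 247 (.leaf 271 1983 (.cons 367 (.leaf 343 2174 (.cons 368 (.leaf 297 2181 (.leaf 391 2366 .nil)) .nil)) .nil)) (.cons 247 (.leaf 271 1983 (.cons 248 (.leaf 223 1791 (.cons 343 (.leaf 319 1982 (.leaf 367 2174 .nil)) .nil)) .nil)) (.cons 247 (.leaf 271 1983 (.cons 248 (.leaf 223 1791 (.cons 345 (.leaf 321 1988 (.leaf 369 2180 .nil)) .nil)) .nil)) (.cons 368 (.leaf 297 2181 (.cons 367 (.leaf 343 2174 (.leaf 391 2366 .nil)) .nil)) .nil)))) (.cons 344 (.leaf 249 1989 (.cons 368 (.leaf 297 2181 (.cons 271 (.leaf 247 1983 (.leaf 295 2175 .nil)) .nil)) .nil)) (.cons 248 (.cons 223 (.leaf 247 1791 (.cons 224 (.leaf 199 1599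 (.cons 319 (.leaf 295 1790 (.leaf 343 1982 .nil)) .nil)) .nil)) (.cons 225 (.leaf 249 1797 (.cons 224 (.leaf 201 1605 (.cons 319 (.leaf 295 1790 (.leaf 343 1982 .nil)) .nil)) .nil)) (.cons 223 (.leaf 247 1791 (.cons 224 (.leaf 199 1599 (.cons 225 (.leaf 201 1605 (.leaf 249 1797 .nil)) .nil)) .nil)) (.cons 247 (.leaf 223 1791 (.cons 245 (.leaf 246 1960 (.cons 344 (.leaf 271 1983 (.leaf 249 1989 .nil)) .nil)) .nil)) .nil)))) .nil))))
noncomputable def t142 : T := .cons 274 (.leaf 295 2170 (.cons 248 (.leaf 247 1979 (.cons 251 (.leaf 252 1985 (.cons 250 (.leaf 271 1977 (.cons 224 (.cons 223 (.leaf 199 1599 (.leaf 249 1787 .nil)) (.cons 297 (.leaf 200 1604 (.leaf 321 1796 .nil)) .nil)) .nil)) .nil)) .nil)) .nil)) (.cons 320 t141 (.cons 248 t140 (.cons 274 (.leaf 295 2170 (.cons 251 (.leaf 252 1985 (.cons 271 (.leaf 250 1977 (.cons 246 (.leaf 247 1971 (.cons 270 (.leaf 245 1963 (.cons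 297 (.leaf 269 2152 (.leaf 298 2160 .nil)) .nil)) .nil)) .nil)) .nil)) .nil)) (.cons 320 t139 (.cons 274 (.leaf 295 2170 (.cons 248 (.leaf 247 1979 (.cons 251 (.leaf 252 1985 (.cons 224 (.cons 297 (.leaf 200 1604 (.leaf 321 1796 .nil)) (.cons 199 (.leaf 223 1599 (.cons 200 (.leaf 175 1407 (.cons 201 (.leaf 177 1413 (.leaf 225 1605 .nil)) .nil)) .nil)) (.cons 199 (.leaf 223 1599 (.cons 321 (.leaf 297 1796 (.cons 320 (.leaf 345 1988 (.cons 249 (.leaf 225 1797 (.leaf 344 1989 .nil)) .nil)) .nil)) .nil)) .nil))) .nil)) .nil)) .nil)) (.cons 295 (.leaf 274 2170 (.cons 294 (.leaf 293 2153 (.cons 297 (.cons 269 (.leaf 270 2155 (.cons 318 (.leaf 317 2346 (.cons 319 (.leaf 298 2354 (.cons 343 (.leaf 367 2173 (.cons 320 (.leaf 248 1982 (.cons 344 (.leaf 249 1989 (.leaf 368 2181 .nil)) .nil)) .nil)) .nil)) .nil)) .nil)) (.cons 317 (.leaf 318 2346 (.cons 321 (.leaf 322 2352 (.cons 345 (.leaf 248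 1991 (.leaf 369 2183 .nil)) .nil)) .nil)) (.cons 321 (.leaf 322 2352 (.cons 248 (.leaf 224 1796 (.leaf 345 1991 .nil)) .nil)) (.cons 269 (.leaf 270 2155 (.cons 317 (.leaf 318 2346 (.cons 321 (.leaf 322 2352 (.cons 345 (.leaf 369 2183 (.cons 344 (.leaf 368 2182 (.cons 320 (.leaf 249 1989 (.cons 346 (.leaf 370 2188 (.cons 347 (.leaf 348 2563 (.leaf 319 2555 .nil)) .nil)) .nil)) .nil)) .nil)) .nil)) .nil)) .nil)) .nil)))) .nil)) .nil)) .nil))))))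
noncomputable def t143 : T := .cons 224 (.leaf 319 1790 (.cons 199 (.leaf 223 1599 (.cons 200 (.leaf 175 1407 (.leaf 271 1598 .nil)) .nil)) .nil)) (.cons 320 (.cons 223 (.leaf 247 1791 (.cons 225 (.leaf 249 1797 (.cons 319 (.leaf 343 1982 (.cons 321 (.leaf 345 1988 (.cons 322 (.leaf 323 2363 (.leaf 299 2361 .nil)) .nil)) .nil)) .nil)) .nil)) (.cons 247 (.leaf 223 1791 (.cons 249 (.leaf 250 1976 (.leaf 225 1797 .nil)) .nil)) (.cons 225 (.leaf 249 1797 (.cons 319 (.leaf 343 1982 (.cons 321 (.leaf 345 1988 (.cons 322 (.leaf 323 2363 (.leaf 299 2361 .nil)) .nil)) .nil)) .nil)) (.cons 223 (.leaf 247 1791 (.cons 319 (.leaf 343 1982 (.cons 321 (.leaf 345 1988 (.cons 322 (.leaf 323 2363 (.leaf 299 2361 .nil)) .nil)) .nil)) .nil)) .nil)))) (.cons 224 (.cons 199 (.leaf 223 1599 (.cons 200 (.leaf 175 1407 (.leaf 271 1598 .nil)) .nil)) (.cons 223 (.leaf 199 1599 (.cons 320 (.leaf 247 1791 (.cons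 321 (.leaf 345 1988 (.cons 322 (.leaf 323 2363 (.cons 251 (.leaf 346 2005 (.cons 227 (.leaf 203 1622 (.leaf 299 1814 .nil)) .nil)) .nil)) .nil)) .nil)) .nil)) (.cons 200 (.leaf 271 1598 (.cons 201 (.leaf 177 1413 (.leaf 225 1605 .nil)) .nil)) .nil))) (.cons 319 (.leaf 224 1790 (.cons 343 (.leaf 271 1981 (.leaf 320 1982 .nil)) .nil)) .nil)))
noncomputable def t144 : T := .cons 248 (.leaf 224 1790 (.cons 320 (.leaf 343 1982 (.cons 247 (.leaf 223 1791 (.cons 246 (.leaf 245 1960 (.cons 222 (.leaf 271 1783 (.leaf 270 1780 .nil)) .nil)) .nil)) .nil)) .nil)) (.cons 248 (.leaf 224 1790 (.cons 320 (.cons 247 (.leaf 223 1791 (.cons 246 (.leaf 245 1960 (.cons 222 (.leaf 271 1783 (.leaf 270 1780 .nil)) .nil)) .nil)) (.cons 321 (.leaf 345 1988 (.leaf 322 2355 .nil)) .nil)) .nil)) (.cons 343 (.leaf 367 2173 (.cons 271 (.cons 342 (.leaf 366 2166 (.cons 247 (.leaf 318 1974 (.cons 223 (.leaf 199 1596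 (.leaf 320 1788 .nil)) .nil)) .nil)) (.cons 246 (.leaf 270 1975 (.cons 247 (.leaf 222 1783 (.cons 223 (.leaf 199 1596 (.leaf 320 1788 .nil)) .nil)) .nil)) (.cons 270 (.leaf 246 1975 (.cons 249 (.leaf 250 1969 (.cons 269 (.leaf 268 2144 (.cons 245 (.leaf 244 1955 (.cons 342 (.leaf 366 2166 (.leaf 318 1967 .nil)) .nil)) .nil)) .nil)) .nil)) .nil))) .nil)) (.cons 343 (.leaf 367 2173 (.cons 248 (.leaf 224 1790 (.leaf 320 1982 .nil)) .nil)) (.cons 343 (.leaf 367 2173 (.cons 248 (.leaf 224 1790 (.leaf 271 1981 .nil)) .nil)) .nil))))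
noncomputable def t145 : T := .cons 293 (.leaf 273 2153 (.cons 268 (.leaf 269 2147 (.cons 317 (.leaf 316 2338 (.cons 297 (.leaf 318 2346 (.cons 322 (.leaf 321 2352 (.cons 298 (.leaf 323 2360 (.cons 271 (.leaf 292 2145 (.leaf 299 2171 .nil)) .nil)) .nil)) .nil)) .nil)) .nil)) .nil)) (.cons 297 (.cons 269 (.leaf 270 2155 (.cons 317 (.leaf 318 2346 (.cons 321 (.leaf 322 2352 (.cons 248 (.leaf 224 1796 (.cons 345 (.leaf 273 1991 (.leaf 320 1988 .nil)) .nil)) .nil)) .nil)) .nil)) (.cons 321 (.leaf 322 2352 (.cons 224 (.leaf 248 1796 (.cons 318 (.leaf 317 2346 (.cons 298 (.leaf 319 2354 (.cons 299 (.leaf 271 2171 (.cons 300 (.leaf 273 2179 (.leaf 320 2370 .nil)) .nil)) .nil)) .nil)) .nil)) .nil)) (.cons 270 (.leaf 269 2155 (.cons 271 (.leaf 298 2163 (.cons 318 (.leaf 317 2346 (.cons 342 (.leaf 366 2165 (.leaf 247 1973 .nil)) .nil)) .nil)) .nil)) (.cons 270 (.leaf 269 2155 (.cons 298 (.leaf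 271 2163 (.cons 322 (.leaf 321 2352 (.leaf 323 2360 .nil)) .nil)) .nil)) .nil)))) (.cons 293 (.leaf 273 2153 (.cons 268 (.leaf 269 2147 (.cons 292 (.leaf 271 2145 (.leaf 267 2139 .nil)) .nil)) .nil)) (.cons 293 (.cons 268 (.leaf 269 2147 (.cons 317 (.leaf 316 2338 (.cons 297 (.leaf 318 2346 (.cons 322 (.leaf 321 2352 (.cons 298 (.leaf 323 2360 (.cons 271 (.leaf 292 2145 (.leaf 299 2171 .nil)) .nil)) .nil)) .nil)) .nil)) .nil)) (.cons 268 (.leaf 269 2147 (.cons 317 (.leaf 316 2338 (.cons 297 (.leaf 318 2346 (.cons 322 (.leaf 321 2352 (.cons 298 (.leaf 323 2360 (.cons 271 (.leaf 299 2171 (.leaf 270 2163 .nil)) .nil)) .nil)) .nil)) .nil)) .nil)) (.cons 271 (.leaf 292 2145 (.cons 317 (.leaf 316 2338 (.cons 297 (.leaf 318 2346 (.cons 298 (.leaf 299 2171 (.leaf 270 2163 .nil)) .nil)) .nil)) .nil)) (.cons 320 (.leaf 321 2344 (.cons 268 (.leaf 269 2147 (.cons 292 (.leaf 267 2139 (.leaf 319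 2336 .nil)) .nil)) .nil)) .nil)))) (.cons 293 (.leaf 273 2153 (.cons 320 (.leaf 321 2344 (.cons 268 (.leaf 269 2147 (.cons 292 (.leaf 267 2139 (.leaf 319 2336 .nil)) .nil)) .nil)) .nil)) (.cons 293 (.leaf 273 2153 (.cons 271 (.leaf 292 2145 (.cons 317 (.leaf 316 2338 (.cons 297 (.leaf 318 2346 (.cons 298 (.leaf 299 2171 (.leaf 270 2163 .nil)) .nil)) .nil)) .nil)) .nil)) .nil)))))
noncomputable def t146 : T := .cons 248 (.leaf 224 1790 (.cons 320 (.leaf 343 1982 (.cons 247 (.leaf 223 1791 (.cons 249 (.leaf 225 1797 (.cons 250 (.leaf 274 1976 (.cons 271 (.leaf 251 1978 (.leaf 270 1970 .nil)) .nil)) .nil)) .nil)) .nil)) .nil)) (.cons 343 (.leaf 367 2173 (.cons 271 (.cons 270 (.leaf 246 1975 (.cons 269 (.leaf 297 2152 (.leaf 268 2144 .nil)) .nil)) (.cons 342 (.leaf 366 2166 (.cons 247 (.leaf 318 1974 (.cons 222 (.leaf 246 1783 (.cons 223 (.leaf 199 1596 (.leaf 320 1788 .nil)) .nil)) .nil))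 .nil)) (.cons 342 (.leaf 366 2166 (.cons 247 (.leaf 318 1974 (.cons 223 (.leaf 199 1596 (.leaf 320 1788 .nil)) .nil)) .nil)) .nil))) .nil)) (.cons 248 (.leaf 224 1790 (.cons 320 (.cons 247 (.leaf 223 1791 (.cons 249 (.leaf 225 1797 (.cons 250 (.leaf 274 1976 (.cons 271 (.leaf 251 1978 (.leaf 270 1970 .nil)) .nil)) .nil)) .nil)) (.cons 321 (.leaf 345 1988 (.cons 294 (.leaf 293 2344 (.leaf 322 2355 .nil)) .nil)) .nil)) .nil)) (.cons 248 (.leaf 224 1790 (.cons 343 (.leaf 320 1982 (.leaf 367 2173 .nil)) .nil)) (.cons 248 (.leaf 224 1790 (.cons 343 (.leaf 271 1981 (.leaf 367 2173 .nil)) .nil)) .nil))))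
noncomputable def t147 : T := .cons 273 (.leaf 274 2170 (.cons 294 (.leaf 293 2153 (.cons 297 (.cons 318 (.leaf 317 2346 (.cons 269 (.leaf 270 2155 (.cons 319 (.leaf 298 2354 (.cons 248 (.leaf 224 1790 (.cons 343 (.leaf 271 1981 (.leaf 320 1982 .nil)) .nil)) .nil)) .nil)) .nil)) (.cons 318 (.leaf 317 2346 (.cons 298 (.leaf 319 2354 (.cons 299 (.leaf 271 2171 (.leaf 300 2179 .nil)) .nil)) .nil)) (.cons 270 (.leaf 269 2155 (.cons 318 (.leaf 317 2346 (.cons 321 (.leaf 322 2352 (.cons 345 (.leaf 248 1991 (.leaf 369 2183 .nil)) .nil)) .nil)) .nil)) (.cons 321 (.leaf 322 2352 (.cons 248 (.leaf 224 1796 (.leaf 345 1991 .nil)) .nil)) .nil)))) .nil)) .nil)) (.cons 319 t146 (.cons 294 t145 (.cons 273 (.leaf 274 2170 (.cons 294 (.leaf 293 2153 (.cons 319 t144 .nil)) .nil)) (.cons 273 (.leaf 274 2170 (.cons 294 (.leaf 293 2153 (.cons 297 (.cons 270 (.leaf 269 2155 (.cons 318 (.leaf 317 2346 (.cons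 321 (.leaf 322 2352 (.cons 345 (.leaf 369 2183 (.cons 346 (.leaf 370 2188 (.cons 319 (.leaf 298 2354 (.leaf 320 2544 .nil)) .nil)) .nil)) .nil)) .nil)) .nil)) (.cons 322 (.leaf 321 2352 (.cons 298 (.leaf 323 2360 (.cons 299 (.leaf 271 2171 (.leaf 300 2179 .nil)) .nil)) .nil)) (.cons 270 (.leaf 269 2155 (.cons 318 (.leaf 317 2346 (.cons 321 (.leaf 322 2352 (.cons 345 (.leaf 369 2183 (.cons 346 (.leaf 370 2188 (.cons 319 (.leaf 320 2544 (.cons 343 (.leaf 367 2173 (.leaf 246 1972 .nil)) .nil)) .nil)) .nil)) .nil)) .nil)) .nil)) (.cons 270 (.leaf 269 2155 (.cons 271 (.leaf 298 2160 (.cons 246 (.leaf 245 1963 (.cons 222 (.leaf 198 1588 (.leaf 319 1780 .nil)) .nil)) .nil)) .nil)) .nil)))) .nil)) .nil)) (.cons 274 (.leaf 273 2170 (.cons 298 (.leaf 297 2169 (.cons 248 t143 .nil)) .nil)) (.cons 273 (.leaf 274 2170 (.cons 294 (.leaf 293 2153 (.cons 297 (.cons 270 (.leaf 269 2155 (.cons 271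 (.leaf 298 2160 (.cons 245 (.leaf 246 1963 (.cons 318 (.leaf 317 2346 (.cons 247 (.leaf 223 1782 (.leaf 342 1973 .nil)) .nil)) .nil)) .nil)) .nil)) (.cons 321 (.leaf 322 2352 (.cons 248 (.leaf 224 1796 (.leaf 345 1991 .nil)) .nil)) .nil)) .nil)) .nil)) (.cons 273 (.leaf 274 2170 (.cons 294 (.leaf 293 2153 (.cons 297 (.cons 321 (.leaf 322 2352 (.cons 248 (.leaf 224 1796 (.leaf 345 1991 .nil)) .nil)) (.cons 269 (.leaf 270 2155 (.cons 318 (.leaf 317 2346 (.cons 319 (.leaf 298 2354 (.cons 248 (.leaf 224 1790 (.cons 343 (.leaf 320 1982 (.leaf 367 2173 .nil)) .nil)) .nil)) .nil)) .nil)) (.cons 269 (.leaf 270 2155 (.cons 318 (.leaf 317 2346 (.cons 298 (.leaf 319 2354 (.cons 299 (.leaf 300 2179 (.cons 322 (.leaf 321 2352 (.leaf 323 2360 .nil)) .nil)) .nil)) .nil)) .nil)) .nil))) .nil)) .nil)) (.cons 273 (.leaf 274 2170 (.cons 294 (.leaf 293 2153 (.cons 297 (.cons 270 (.leaf 269 2155 (.cons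 271 (.leaf 298 2160 (.cons 246 (.leaf 245 1963 (.cons 222 (.leaf 198 1588 (.leaf 319 1780 .nil)) .nil)) .nil)) .nil)) (.cons 318 (.leaf 317 2346 (.cons 298 (.leaf 319 2354 (.cons 299 (.leaf 271 2171 (.leaf 300 2179 .nil)) .nil)) .nil)) (.cons 270 (.leaf 269 2155 (.cons 318 (.leaf 317 2346 (.cons 246 (.cons 245 (.leaf 271 1963 (.leaf 221 1775 .nil)) (.cons 319 (.leaf 222 1780 (.leaf 343 1972 .nil)) .nil)) .nil)) .nil)) (.cons 318 (.leaf 317 2346 (.cons 269 (.leaf 270 2155 (.cons 319 (.leaf 298 2354 (.cons 248 (.leaf 224 1790 (.cons 343 (.leaf 320 1982 (.leaf 367 2173 .nil)) .nil)) .nil)) .nil)) .nil)) (.cons 270 (.leaf 269 2155 (.cons 271 (.leaf 298 2160 (.cons 245 (.leaf 246 1963 (.cons 318 (.leaf 317 2346 (.cons 247 (.leaf 223 1782 (.leaf 342 1973 .nil)) .nil)) .nil)) .nil)) .nil)) .nil))))) .nil)) .nil)) .nil))))))))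
noncomputable def t148 : T := .cons 346 (.leaf 251 2005 (.cons 299 (.leaf 370 2197 (.cons 345 (.leaf 369 2190 (.cons 347 (.leaf 371 2196 (.cons 323 (.leaf 250 2004 (.cons 324 (.leaf 325 2570 (.leaf 344 2561 .nil)) .nil)) .nil)) .nil)) .nil)) .nil)) (.cons 250 (.cons 321 (.leaf 345 1998 (.cons 323 (.leaf 320 2363 (.leaf 347 2004 .nil)) .nil)) (.cons 249 (.leaf 225 1807 (.cons 251 (.leaf 227 1813 (.cons 248 (.leaf 271 1978 (.cons 224 (.leaf 319 1790 (.leaf 223 1787 .nil)) .nil)) .nil)) .nil)) .nil)) (.cons 346 (.cons 299 (.leaf 370 2197 (.cons 345 (.leaf 369 2190 (.cons 347 (.leaf 371 2196 (.cons 323 (.leaf 250 2004 (.cons 324 (.leaf 325 2570 (.leaf 344 2561 .nil)) .nil)) .nil)) .nil)) .nil)) (.cons 299 (.leaf 370 2197 (.cons 345 (.leaf 369 2190 (.cons 321 (.leaf 250 1998 (.cons 320 (.leaf 248 1988 (.leaf 323 2363 .nil)) .nil)) .nil)) .nil)) (.cons 345 (.leaf 369 2190 (.cons 250 (.leaf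 321 1998 (.cons 347 (.leaf 323 2004 (.leaf 371 2196 .nil)) .nil)) .nil)) (.cons 299 (.leaf 370 2197 (.cons 347 (.leaf 371 2196 (.cons 323 (.leaf 250 2004 (.cons 321 (.leaf 320 2363 (.cons 348 (.leaf 372 2204 (.leaf 349 2571 .nil)) .nil)) .nil)) .nil)) .nil)) (.cons 299 (.leaf 370 2197 (.cons 345 (.leaf 369 2190 (.cons 321 (.leaf 250 1998 (.cons 320 (.leaf 248 1988 (.leaf 319 2361 .nil)) .nil)) .nil)) .nil)) (.cons 370 (.leaf 299 2197 (.cons 369 (.leaf 345 2190 (.leaf 393 2382 .nil)) .nil)) .nil)))))) (.cons 251 (.leaf 346 2005 (.cons 227 (.leaf 203 1622 (.leaf 299 1814 .nil)) .nil)) .nil)))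
noncomputable def t149 : T := .cons 343 (.leaf 367 2173 (.cons 248 (.leaf 224 1790 (.leaf 271 1981 .nil)) .nil)) (.cons 248 (.leaf 224 1790 (.cons 320 (.cons 344 (.leaf 249 1989 (.cons 368 (.leaf 271 2175 (.leaf 392 2367 .nil)) .nil)) (.cons 321 (.leaf 345 1988 (.leaf 322 2355 .nil)) .nil)) .nil)) (.cons 343 (.leaf 367 2173 (.cons 271 (.cons 270 (.leaf 246 1975 (.cons 249 (.leaf 250 1969 (.cons 269 (.leaf 268 2144 (.cons 344 (.leaf 320 1989 (.leaf 368 2172 .nil)) .nil)) .nil)) .nil)) (.cons 344 (.leaf 368 2172 (.cons 320 (.leaf 249 1989 (.cons 321 (.leaf 322 2355 (.cons 342 (.leaf 366 2166 (.leaf 341 2537 .nil)) .nil)) .nil)) .nil)) (.cons 270 (.leaf 246 1975 (.cons 249 (.leaf 250 1969 (.cons 269 (.leaf 268 2144 (.cons 245 (.leaf 244 1955 (.cons 342 (.leaf 366 2166 (.leaf 318 1967 .nil)) .nil)) .nil)) .nil)) .nil)) (.cons 270 (.leaf 246 1975 (.cons 269 (.leaf 268 2144 (.cons 245 (.leaf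 244 1955 (.cons 342 (.leaf 366 2166 (.leaf 318 1967 .nil)) .nil)) .nil)) .nil)) .nil)))) .nil)) (.cons 343 (.leaf 367 2173 (.cons 248 (.leaf 224 1790 (.leaf 320 1982 .nil)) .nil)) .nil)))
noncomputable def t150 : T := .cons 224 (.leaf 319 1790 (.cons 199 (.leaf 223 1599 (.cons 225 (.leaf 201 1605 (.cons 320 (.leaf 249 1797 (.cons 321 (.leaf 297 1796 (.leaf 345 1988 .nil)) .nil)) .nil)) .nil)) .nil)) (.cons 320 (.cons 225 (.leaf 249 1797 (.cons 343 (.leaf 319 1982 (.cons 344 (.leaf 367 2174 (.cons 368 (.leaf 271 2175 (.cons 369 (.leaf 345 2180 (.leaf 393 2372 .nil)) .nil)) .nil)) .nil)) .nil)) (.cons 321 (.leaf 345 1988 (.cons 225 (.leaf 249 1797 (.cons 294 (.leaf 293 2344 (.cons 322 (.leaf 297 2352 (.leaf 323 2363 .nil)) .nil)) .nil)) .nil)) (.cons 319 (.leaf 343 1982 (.cons 321 (.leaf 345 1988 (.cons 294 (.leaf 293 2344 (.leaf 322 2355 .nil)) .nil)) .nil)) (.cons 225 (.leaf 249 1797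 (.cons 343 (.leaf 319 1982 (.cons 344 (.leaf 367 2174 (.cons 368 (.leaf 271 2175 (.cons 297 (.leaf 273 2181 (.cons 321 (.leaf 392 2373 (.cons 322 (.leaf 294 2352 (.leaf 323 2554 .nil)) .nil)) .nil)) .nil)) .nil)) .nil)) .nil)) .nil)))) (.cons 224 (.cons 199 (.leaf 223 1599 (.cons 225 (.leaf 201 1605 (.cons 320 (.leaf 249 1797 (.cons 321 (.leaf 297 1796 (.leaf 345 1988 .nil)) .nil)) .nil)) .nil)) (.cons 199 (.leaf 223 1599 (.cons 200 (.leaf 175 1407 (.leaf 271 1598 .nil)) .nil)) (.cons 200 (.leaf 271 1598 (.cons 201 (.leaf 177 1413 (.leaf 225 1605 .nil)) .nil)) .nil))) (.cons 224 (.leaf 319 1790 (.cons 199 (.leaf 223 1599 (.cons 200 (.leaf 175 1407 (.leaf 271 1598 .nil)) .nil)) .nil)) .nil)))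
noncomputable def t151 : T := .cons 297 (.cons 298 (.leaf 274 2169 (.cons 271 (.leaf 299 2171 (.leaf 270 2163 .nil)) .nil)) (.cons 294 (.cons 269 (.leaf 270 2155 (.cons 268 (.leaf 293 2147 (.cons 321 (.leaf 322 2352 (.cons 248 (.leaf 224 1796 (.cons 345 (.leaf 320 1988 (.leaf 369 2183 .nil)) .nil)) .nil)) .nil)) .nil)) (.cons 269 (.leaf 270 2155 (.cons 293 (.leaf 268 2147 (.cons 292 (.leaf 271 2145 (.cons 316 (.leaf 317 2338 (.leaf 315 2330 .nil)) .nil)) .nil)) .nil)) (.cons 321 (.leaf 322 2352 (.cons 224 (.leaf 248 1796 (.cons 293 (.leaf 320 2344 (.cons 317 (.leaf 316 2338 (.leaf 318 2346 .nil)) .nil)) .nil)) .nil)) (.cons 269 (.leaf 270 2155 (.cons 317 (.leaf 318 2346 (.cons 321 (.leaf 322 2352 (.cons 248 (.leaf 224 1796 (.cons 345 (.leaf 320 1988 (.leaf 369 2183 .nil)) .nil)) .nil)) .nil)) .nil)) .nil)))) (.cons 298 (.leaf 274 2169 (.cons 322 (.leaf 323 2360 (.cons 321 (.leaf 294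 2352 (.cons 248 (.leaf 224 1796 (.cons 320 (.leaf 345 1988 (.cons 319 (.leaf 343 1982 (.leaf 318 2353 .nil)) .nil)) .nil)) .nil)) .nil)) .nil)) .nil))) (.cons 248 t150 (.cons 273 (.leaf 274 2170 (.cons 294 (.leaf 293 2153 (.cons 319 t149 .nil)) .nil)) (.cons 274 (.leaf 273 2170 (.cons 298 (.leaf 297 2169 (.cons 322 t148 .nil)) .nil)) (.cons 273 (.leaf 274 2170 (.cons 294 (.leaf 293 2153 (.cons 297 (.cons 317 (.leaf 318 2346 (.cons 322 (.leaf 321 2352 (.cons 298 (.leaf 323 2360 (.cons 270 (.leaf 271 2160 (.leaf 269 2155 .nil)) .nil)) .nil)) .nil)) (.cons 270 (.leaf 269 2155 (.cons 271 (.leaf 298 2160 (.cons 245 (.leaf 246 1963 (.cons 249 (.leaf 250 1969 (.cons 320 (.leaf 344 1989 (.leaf 225 1798 .nil)) .nil)) .nil)) .nil)) .nil)) (.cons 317 (.leaf 318 2346 (.cons 322 (.leaf 321 2352 (.cons 298 (.leaf 323 2360 (.cons 299 (.leaf 271 2171 (.leaf 300 2179 .nil)) .nil)) .nil)) .nil)) (.cons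 269 (.leaf 270 2155 (.cons 321 (.leaf 322 2352 (.cons 345 (.leaf 248 1991 (.leaf 369 2183 .nil)) .nil)) .nil)) .nil)))) .nil)) .nil)) (.cons 273 (.leaf 274 2170 (.cons 294 (.leaf 293 2153 (.cons 297 (.cons 270 (.leaf 269 2155 (.cons 271 (.leaf 298 2160 (.cons 246 (.leaf 245 1963 (.cons 222 (.leaf 198 1588 (.leaf 319 1780 .nil)) .nil)) .nil)) .nil)) (.cons 321 (.leaf 322 2352 (.cons 317 (.leaf 318 2346 (.cons 345 (.leaf 369 2183 (.cons 344 (.leaf 368 2182 (.cons 320 (.leaf 249 1989 (.cons 343 (.leaf 367 2174 (.cons 342 (.leaf 341 2537 (.cons 346 (.leaf 370 2188 (.cons 347 (.leaf 348 2563 (.leaf 319 2555 .nil)) .nil)) .nil)) .nil)) .nil)) .nil)) .nil)) .nil)) .nil)) (.cons 270 (.leaf 269 2155 (.cons 271 (.leaf 298 2160 (.cons 245 (.leaf 246 1963 (.cons 249 (.leaf 250 1969 (.cons 320 (.leaf 344 1989 (.leaf 225 1798 .nil)) .nil)) .nil)) .nil)) .nil)) .nil))) .nil)) .nil)) (.cons 273 (.leaf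 274 2170 (.cons 294 (.leaf 293 2153 (.cons 297 (.cons 269 (.leaf 270 2155 (.cons 321 (.leaf 322 2352 (.cons 345 (.leaf 248 1991 (.leaf 369 2183 .nil)) .nil)) .nil)) (.cons 269 (.leaf 270 2155 (.cons 318 (.leaf 317 2346 (.cons 319 (.leaf 298 2354 (.cons 343 (.leaf 367 2173 (.cons 320 (.leaf 248 1982 (.cons 344 (.leaf 249 1989 (.leaf 368 2181 .nil)) .nil)) .nil)) .nil)) .nil)) .nil)) (.cons 321 (.leaf 322 2352 (.cons 317 (.leaf 318 2346 (.cons 345 (.leaf 369 2183 (.cons 344 (.leaf 368 2182 (.cons 320 (.leaf 249 1989 (.cons 343 (.leaf 367 2174 (.cons 342 (.leaf 341 2537 (.cons 346 (.leaf 370 2188 (.cons 347 (.leaf 348 2563 (.leaf 319 2555 .nil)) .nil)) .nil)) .nil)) .nil)) .nil)) .nil)) .nil)) .nil)) .nil))) .nil)) .nil)) (.cons 273 (.leaf 274 2170 (.cons 294 (.leaf 293 2153 (.cons 297 (.cons 318 (.leaf 317 2346 (.cons 269 (.leaf 270 2155 (.cons 319 (.leaf 298 2354 (.cons 343 (.leaf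 367 2173 (.cons 320 (.leaf 248 1982 (.cons 344 (.leaf 249 1989 (.leaf 368 2181 .nil)) .nil)) .nil)) .nil)) .nil)) .nil)) (.cons 318 (.leaf 317 2346 (.cons 298 (.leaf 319 2354 (.cons 299 (.leaf 271 2171 (.leaf 300 2179 .nil)) .nil)) .nil)) (.cons 270 (.leaf 269 2155 (.cons 318 (.leaf 317 2346 (.cons 246 (.cons 245 (.leaf 271 1963 (.leaf 221 1775 .nil)) (.cons 319 (.leaf 222 1780 (.leaf 343 1972 .nil)) .nil)) .nil)) .nil)) (.cons 270 (.leaf 269 2155 (.cons 271 (.leaf 298 2160 (.cons 246 (.leaf 245 1963 (.cons 222 (.leaf 198 1588 (.leaf 319 1780 .nil)) .nil)) .nil)) .nil)) (.cons 270 (.leaf 269 2155 (.cons 271 (.leaf 298 2160 (.cons 245 (.leaf 246 1963 (.cons 249 (.leaf 250 1969 (.cons 320 (.leaf 344 1989 (.leaf 225 1798 .nil)) .nil)) .nil)) .nil)) .nil)) .nil))))) .nil)) .nil)) .nil)))))))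
noncomputable def t152 : T := .cons 247 (.leaf 248 1979 (.cons 251 (.leaf 252 1985 (.cons 271 (.leaf 246 1971 (.leaf 250 1977 .nil)) .nil)) .nil)) (.cons 247 (.leaf 248 1979 (.cons 271 (.leaf 246 1971 (.cons 299 (.leaf 300 2176 (.leaf 298 2168 .nil)) .nil)) .nil)) (.cons 251 (.leaf 252 1985 (.cons 250 (.leaf 271 1977 (.cons 299 (.leaf 300 2176 (.cons 323 (.leaf 347 2007 (.cons 322 (.leaf 346 2006 (.cons 227 (.leaf 298 1813 (.cons 203 (.leaf 179 1430 (.cons 204 (.leaf 180 1437 (.leaf 228 1629 .nil)) .nil)) .nil)) .nil)) .nil)) .nil)) .nil)) .nil)) (.cons 248 (.leaf 247 1979 (.cons 251 (.leaf 252 1985 (.cons 299 (.leaf 300 2176 (.cons 320 (.cons 249 (.leaf 225 1797 (.leaf 344 1989 .nil)) (.cons 319 (.leaf 343 1982 (.cons 345 (.leaf 321 1988 (.cons 344 (.leaf 369 2180 (.cons 346 (.leaf 347 2555 (.cons 322 (.leaf 298 2005 (.leaf 323 2006 .nil)) .nil)) .nil)) .nil)) .nil)) (.cons 225 (.leaf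 249 1797 (.cons 201 (.leaf 224 1605 (.cons 319 (.leaf 343 1982 (.cons 321 (.leaf 345 1988 (.cons 322 (.leaf 298 2361 (.cons 346 (.leaf 323 2006 (.leaf 347 2552 .nil)) .nil)) .nil)) .nil)) .nil)) .nil)) .nil))) .nil)) .nil)) .nil)) .nil)))
noncomputable def t153 : T := .cons 344 (.leaf 249 1989 (.cons 247 (.leaf 271 1983 (.cons 367 (.leaf 343 2174 (.cons 368 (.leaf 391 2366 (.cons 369 (.leaf 345 2180 (.leaf 393 2372 .nil)) .nil)) .nil)) .nil)) .nil)) (.cons 248 (.cons 223 (.leaf 247 1791 (.cons 224 (.leaf 199 1599 (.cons 319 (.leaf 295 1790 (.leaf 343 1982 .nil)) .nil)) .nil)) (.cons 223 (.leaf 247 1791 (.cons 224 (.leaf 199 1599 (.cons 225 (.leaf 201 1605 (.leaf 249 1797 .nil)) .nil)) .nil)) (.cons 225 (.leaf 249 1797 (.cons 224 (.leaf 201 1605 (.cons 319 (.leaf 295 1790 (.leaf 343 1982 .nil)) .nil)) .nil)) (.cons 247 (.leaf 223 1791 (.cons 246 (.leaf 245 1960 (.cons 249 (.leaf 225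 1797 (.cons 321 (.leaf 345 1988 (.cons 222 (.leaf 221 1771 (.cons 270 (.leaf 269 1962 (.cons 319 (.leaf 343 1982 (.cons 294 (.leaf 295 1780 (.cons 293 (.leaf 271 2154 (.leaf 318 2347 .nil)) .nil)) .nil)) .nil)) .nil)) .nil)) .nil)) .nil)) .nil)) .nil)))) (.cons 248 (.cons 247 (.leaf 223 1791 (.cons 245 (.leaf 246 1960 (.cons 344 (.leaf 271 1983 (.cons 343 (.leaf 319 1982 (.leaf 367 2174 .nil)) .nil)) .nil)) .nil)) (.cons 319 (.leaf 343 1982 (.cons 295 (.leaf 224 1790 (.cons 294 (.leaf 293 2153 (.cons 321 (.leaf 345 1988 (.leaf 322 2355 .nil)) .nil)) .nil)) .nil)) (.cons 247 (.leaf 223 1791 (.cons 245 (.leaf 246 1960 (.cons 344 (.leaf 271 1983 (.cons 345 (.leaf 321 1988 (.leaf 369 2180 .nil)) .nil)) .nil)) .nil)) .nil))) (.cons 344 (.leaf 249 1989 (.cons 343 (.leaf 367 2174 (.cons 248 (.leaf 319 1982 (.cons 345 (.leaf 321 1988 (.leaf 369 2180 .nil)) .nil)) .nil)) .nil)) (.cons 344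 (.leaf 249 1989 (.cons 247 (.leaf 271 1983 (.cons 248 (.leaf 223 1791 (.cons 345 (.leaf 321 1988 (.leaf 369 2180 .nil)) .nil)) .nil)) .nil)) (.cons 344 (.leaf 249 1989 (.cons 247 (.leaf 271 1983 (.cons 248 (.leaf 223 1791 (.cons 343 (.leaf 319 1982 (.leaf 367 2174 .nil)) .nil)) .nil)) .nil)) .nil)))))
noncomputable def t154 : T := .cons 274 (.leaf 295 2170 (.cons 247 (.leaf 248 1979 (.cons 251 (.leaf 252 1985 (.cons 271 (.leaf 246 1971 (.leaf 250 1977 .nil)) .nil)) .nil)) .nil)) (.cons 320 t153 (.cons 274 t152 (.cons 274 (.leaf 295 2170 (.cons 251 (.leaf 252 1985 (.cons 250 (.leaf 271 1977 (.cons 299 (.leaf 300 2176 (.cons 323 (.leaf 347 2007 (.cons 322 (.leaf 346 2006 (.cons 227 (.leaf 298 1813 (.cons 203 (.leaf 179 1430 (.cons 204 (.leaf 180 1437 (.leaf 228 1629 .nil)) .nil)) .nil)) .nil)) .nil)) .nil)) .nil)) .nil)) .nil)) (.cons 274 (.leaf 295 2170 (.cons 248 (.leaf 247 1979 (.cons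 251 (.leaf 252 1985 (.cons 299 (.leaf 300 2176 (.cons 320 (.cons 249 (.leaf 225 1797 (.leaf 344 1989 .nil)) (.cons 319 (.leaf 343 1982 (.cons 345 (.leaf 321 1988 (.cons 344 (.leaf 369 2180 (.cons 346 (.leaf 347 2555 (.cons 322 (.leaf 298 2005 (.leaf 323 2006 .nil)) .nil)) .nil)) .nil)) .nil)) (.cons 225 (.leaf 249 1797 (.cons 201 (.leaf 224 1605 (.cons 319 (.leaf 343 1982 (.cons 321 (.leaf 345 1988 (.cons 322 (.leaf 298 2361 (.cons 346 (.leaf 323 2006 (.leaf 347 2552 .nil)) .nil)) .nil)) .nil)) .nil)) .nil)) .nil))) .nil)) .nil)) .nil)) .nil)) .nil))))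
noncomputable def t155 : T := .cons 274 (.leaf 247 1979 (.cons 251 (.leaf 252 1985 (.cons 299 (.leaf 300 2176 (.cons 224 (.cons 200 (.leaf 297 1604 (.cons 199 (.leaf 175 1407 (.leaf 223 1599 .nil)) .nil)) (.cons 225 (.leaf 201 1605 (.cons 199 (.leaf 223 1599 (.cons 175 (.leaf 200 1407 (.cons 320 (.leaf 249 1797 (.cons 343 (.leaf 319 1982 (.cons 344 (.leaf 367 2174 (.cons 345 (.leaf 321 1988 (.leaf 369 2180 .nil)) .nil)) .nil)) .nil)) .nil)) .nil)) .nil)) (.cons 201 (.leaf 225 1605 (.cons 223 (.leaf 199 1599 (.cons 250 (.leaf 249 1787 (.cons 297 (.leaf 321 1796 (.cons 323 (.leaf 347 2007 (.cons 324 (.leaf 348 2012 (.leaf 298 2368 .nil)) .nil)) .nil)) .nil)) .nil)) .nil)) (.cons 297 (.leaf 200 1604 (.leaf 321 1796 .nil)) .nil)))) .nil)) .nil)) .nil)) (.cons 224 (.cons 297 (.leaf 200 1604 (.leaf 321 1796 .nil)) (.cons 199 (.leaf 223 1599 (.cons 200 (.leaf 175 1407 (.cons 201 (.leaf 177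 1413 (.leaf 225 1605 .nil)) .nil)) .nil)) (.cons 199 (.leaf 223 1599 (.cons 201 (.leaf 225 1605 (.cons 321 (.leaf 297 1796 (.cons 320 (.leaf 345 1988 (.cons 343 (.leaf 319 1982 (.cons 344 (.leaf 249 1989 (.leaf 367 2174 .nil)) .nil)) .nil)) .nil)) .nil)) .nil)) .nil))) (.cons 274 (.leaf 247 1979 (.cons 251 (.leaf 252 1985 (.cons 299 (.leaf 300 2176 (.cons 224 (.cons 200 (.leaf 297 1604 (.cons 199 (.leaf 175 1407 (.leaf 223 1599 .nil)) .nil)) (.cons 201 (.leaf 225 1605 (.cons 199 (.leaf 223 1599 (.cons 200 (.leaf 175 1407 (.leaf 177 1413 .nil)) .nil)) .nil)) (.cons 297 (.leaf 321 1796 (.cons 201 (.leaf 225 1605 (.cons 223 (.leaf 199 1599 (.cons 250 (.leaf 249 1787 (.cons 323 (.leaf 347 2007 (.cons 324 (.leaf 348 2012 (.leaf 298 2368 .nil)) .nil)) .nil)) .nil)) .nil)) .nil)) (.cons 297 (.leaf 200 1604 (.leaf 321 1796 .nil)) .nil)))) .nil)) .nil)) .nil)) (.cons 247 (.leaf 274 1979 (.cons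 320 (.leaf 223 1791 (.cons 249 (.leaf 225 1797 (.leaf 344 1989 .nil)) .nil)) .nil)) (.cons 247 (.leaf 274 1979 (.cons 223 (.leaf 320 1791 (.cons 199 (.leaf 175 1404 (.leaf 224 1599 .nil)) .nil)) .nil)) (.cons 274 (.leaf 247 1979 (.cons 251 (.leaf 252 1985 (.cons 299 (.leaf 300 2176 (.cons 320 (.cons 249 (.leaf 225 1797 (.leaf 344 1989 .nil)) (.cons 319 (.leaf 343 1982 (.cons 345 (.leaf 321 1988 (.cons 344 (.leaf 369 2180 (.cons 297 (.leaf 368 2181 (.leaf 298 2362 .nil)) .nil)) .nil)) .nil)) (.cons 225 (.leaf 249 1797 (.cons 319 (.leaf 343 1982 (.cons 298 (.leaf 297 2362 (.cons 321 (.leaf 345 1988 (.leaf 322 2361 .nil)) .nil)) .nil)) .nil)) .nil))) .nil)) .nil)) .nil)) .nil)))))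
noncomputable def t156 : T := .cons 247 (.leaf 223 1791 (.cons 246 (.leaf 245 1960 (.cons 249 (.leaf 225 1797 (.cons 321 (.leaf 345 1988 (.cons 224 (.leaf 297 1796 (.cons 319 (.leaf 295 1790 (.leaf 343 1982 .nil)) .nil)) .nil)) .nil)) .nil)) .nil)) (.cons 247 (.leaf 223 1791 (.cons 246 (.leaf 245 1960 (.cons 249 (.leaf 225 1797 (.cons 319 (.leaf 343 1982 (.cons 221 (.leaf 222 1771 (.cons 224 (.leaf 295 1790 (.cons 200 (.leaf 297 1604 (.leaf 176 1412 .nil)) .nil)) .nil)) .nil)) .nil)) .nil)) .nil)) (.cons 223 (.leaf 247 1791 (.cons 224 (.leaf 199 1599 (.cons 319 (.leaf 295 1790 (.leaf 343 1982 .nil)) .nil)) .nil)) (.cons 225 (.leaf 249 1797 (.cons 224 (.leaf 201 1605 (.cons 297 (.leaf 200 1604 (.leaf 321 1796 .nil)) .nil)) .nil)) (.cons 247 (.leaf 223 1791 (.cons 246 (.leaf 245 1960 (.cons 249 (.leaf 225 1797 (.cons 321 (.leaf 345 1988 (.cons 222 (.leaf 221 1771 (.cons 270 (.leaf 269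 1962 (.cons 319 (.leaf 343 1982 (.cons 294 (.leaf 295 1780 (.cons 293 (.leaf 318 2347 (.leaf 317 1774 .nil)) .nil)) .nil)) .nil)) .nil)) .nil)) .nil)) .nil)) .nil)) .nil))))
noncomputable def t157 : T := .cons 344 (.leaf 249 1989 (.cons 343 (.leaf 367 2174 (.cons 248 (.leaf 319 1982 (.cons 297 (.leaf 368 2181 (.cons 224 (.leaf 200 1604 (.leaf 321 1796 .nil)) .nil)) .nil)) .nil)) .nil)) (.cons 248 t156 (.cons 248 (.cons 319 (.leaf 343 1982 (.cons 295 (.leaf 224 1790 (.cons 294 (.leaf 293 2153 (.cons 321 (.leaf 345 1988 (.leaf 322 2355 .nil)) .nil)) .nil)) .nil)) (.cons 223 (.leaf 247 1791 (.cons 224 (.leaf 199 1599 (.cons 319 (.leaf 295 1790 (.leaf 343 1982 .nil)) .nil)) .nil)) (.cons 321 (.leaf 345 1988 (.cons 223 (.leaf 247 1791 (.cons 224 (.leaf 199 1599 (.leaf 297 1796 .nil)) .nil)) .nil)) (.cons 223 (.leaf 247 1791 (.cons 319 (.leaf 343 1982 (.cons 345 (.leaf 321 1988 (.cons 344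 (.leaf 369 2180 (.cons 368 (.leaf 297 2181 (.cons 317 (.leaf 318 2536 (.cons 346 (.leaf 347 2555 (.cons 391 (.leaf 367 2366 (.cons 392 (.leaf 295 2367 (.leaf 415 2558 .nil)) .nil)) .nil)) .nil)) .nil)) .nil)) .nil)) .nil)) .nil)) .nil)))) (.cons 344 (.leaf 249 1989 (.cons 343 (.leaf 367 2174 (.cons 368 (.leaf 297 2181 (.cons 369 (.leaf 345 2180 (.leaf 393 2372 .nil)) .nil)) .nil)) .nil)) (.cons 249 (.leaf 344 1989 (.cons 225 (.leaf 201 1606 (.leaf 248 1797 .nil)) .nil)) .nil))))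
noncomputable def t158 : T := .cons 274 (.leaf 295 2170 (.cons 248 (.leaf 247 1979 (.cons 251 (.leaf 252 1985 (.cons 299 (.leaf 300 2176 (.cons 224 (.cons 297 (.leaf 200 1604 (.leaf 321 1796 .nil)) (.cons 225 (.leaf 201 1605 (.cons 199 (.leaf 223 1599 (.cons 175 (.leaf 200 1407 (.cons 320 (.leaf 249 1797 (.cons 343 (.leaf 319 1982 (.cons 344 (.leaf 367 2174 (.cons 345 (.leaf 321 1988 (.leaf 369 2180 .nil)) .nil)) .nil)) .nil)) .nil)) .nil)) .nil)) (.cons 201 (.leaf 225 1605 (.cons 223 (.leaf 199 1599 (.cons 250 (.leaf 249 1787 (.cons 297 (.leaf 321 1796 (.cons 323 (.leaf 347 2007 (.cons 324 (.leaf 348 2012 (.leaf 298 2368 .nil)) .nil)) .nil)) .nil)) .nil)) .nil)) (.cons 200 (.leaf 297 1604 (.cons 199 (.leaf 175 1407 (.leaf 223 1599 .nil)) .nil)) .nil)))) .nil)) .nil)) .nil)) .nil)) (.cons 320 t157 (.cons 248 t155 (.cons 274 (.leaf 295 2170 (.cons 251 (.leaf 252 1985 (.cons 299 (.leaf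 300 2176 (.cons 227 (.cons 204 (.leaf 228 1629 (.cons 203 (.leaf 180 1437 (.leaf 298 1622 .nil)) .nil)) (.cons 204 (.leaf 228 1629 (.cons 203 (.leaf 180 1437 (.cons 178 (.leaf 202 1431 (.cons 179 (.leaf 250 1430 (.leaf 154 1239 .nil)) .nil)) .nil)) .nil)) (.cons 204 (.leaf 228 1629 (.cons 322 (.leaf 298 1814 (.cons 323 (.leaf 346 2006 (.cons 324 (.leaf 348 2012 (.cons 321 (.leaf 297 2371 (.cons 344 (.leaf 345 2562 (.cons 320 (.leaf 249 1989 (.leaf 343 2554 .nil)) .nil)) .nil)) .nil)) .nil)) .nil)) .nil)) (.cons 298 (.leaf 203 1622 (.leaf 322 1814 .nil)) .nil)))) .nil)) .nil)) .nil)) (.cons 274 (.leaf 295 2170 (.cons 248 (.leaf 247 1979 (.cons 251 (.leaf 252 1985 (.cons 299 (.leaf 300 2176 (.cons 224 (.cons 297 (.leaf 200 1604 (.leaf 321 1796 .nil)) (.cons 201 (.leaf 225 1605 (.cons 199 (.leaf 223 1599 (.cons 200 (.leaf 175 1407 (.leaf 177 1413 .nil)) .nil)) .nil)) (.cons 297 (.leaf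 321 1796 (.cons 201 (.leaf 225 1605 (.cons 223 (.leaf 199 1599 (.cons 250 (.leaf 249 1787 (.cons 323 (.leaf 347 2007 (.cons 324 (.leaf 348 2012 (.leaf 298 2368 .nil)) .nil)) .nil)) .nil)) .nil)) .nil)) .nil))) .nil)) .nil)) .nil)) .nil)) (.cons 274 (.leaf 295 2170 (.cons 248 (.leaf 247 1979 (.cons 299 (.leaf 300 2176 (.cons 251 (.leaf 252 1985 (.cons 224 (.cons 199 (.leaf 223 1599 (.cons 321 (.leaf 297 1796 (.cons 320 (.leaf 345 1988 (.cons 319 (.leaf 343 1982 (.cons 322 (.leaf 298 2361 (.cons 346 (.leaf 323 2006 (.leaf 347 2552 .nil)) .nil)) .nil)) .nil)) .nil)) .nil)) (.cons 201 (.leaf 225 1605 (.cons 199 (.leaf 223 1599 (.cons 200 (.leaf 175 1407 (.leaf 177 1413 .nil)) .nil)) .nil)) (.cons 297 (.leaf 200 1604 (.leaf 321 1796 .nil)) .nil))) .nil)) .nil)) .nil)) .nil)) (.cons 274 (.leaf 295 2170 (.cons 248 (.leaf 247 1979 (.cons 251 (.leaf 252 1985 (.cons 299 (.leaf 300 2176 (.cons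 320 (.cons 249 (.leaf 225 1797 (.leaf 344 1989 .nil)) (.cons 319 (.leaf 343 1982 (.cons 345 (.leaf 321 1988 (.cons 344 (.leaf 369 2180 (.cons 346 (.leaf 347 2555 (.cons 322 (.leaf 298 2005 (.leaf 323 2006 .nil)) .nil)) .nil)) .nil)) .nil)) (.cons 225 (.leaf 249 1797 (.cons 201 (.leaf 224 1605 (.cons 319 (.leaf 343 1982 (.cons 321 (.leaf 345 1988 (.cons 322 (.leaf 298 2361 (.cons 346 (.leaf 323 2006 (.leaf 347 2552 .nil)) .nil)) .nil)) .nil)) .nil)) .nil)) .nil))) .nil)) .nil)) .nil)) .nil)) (.cons 274 (.leaf 295 2170 (.cons 248 (.leaf 247 1979 (.cons 251 (.leaf 252 1985 (.cons 299 (.leaf 300 2176 (.cons 227 (.cons 298 (.leaf 203 1622 (.leaf 322 1814 .nil)) (.cons 204 (.leaf 228 1629 (.cons 203 (.leaf 180 1437 (.cons 178 (.leaf 202 1431 (.cons 179 (.leaf 250 1430 (.leaf 154 1239 .nil)) .nil)) .nil)) .nil)) (.cons 204 (.leaf 228 1629 (.cons 322 (.leaf 298 1814 (.cons 323 (.leaf 346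 2006 (.cons 347 (.leaf 250 2007 (.cons 348 (.leaf 324 2012 (.leaf 372 2204 .nil)) .nil)) .nil)) .nil)) .nil)) .nil))) .nil)) .nil)) .nil)) .nil)) .nil)))))))
noncomputable def t159 : T := .cons 343 (.leaf 367 2174 (.cons 345 (.leaf 369 2180 (.cons 342 (.cons 318 (.leaf 317 2539 (.cons 249 (.leaf 273 1989 (.cons 319 (.leaf 248 1982 (.leaf 346 2547 .nil)) .nil)) .nil)) (.cons 321 (.leaf 248 1988 (.leaf 341 2537 .nil)) (.cons 318 (.leaf 317 2539 (.cons 249 (.leaf 273 1989 (.cons 319 (.leaf 346 2547 (.cons 341 (.leaf 321 2537 (.leaf 340 2529 .nil)) .nil)) .nil)) .nil)) .nil))) .nil)) .nil)) (.cons 249 (.leaf 273 1989 (.cons 248 (.leaf 225 1797 (.cons 345 (.leaf 321 1988 (.leaf 369 2180 .nil)) .nil)) .nil)) (.cons 249 (.leaf 273 1989 (.cons 248 (.leaf 225 1797 (.cons 343 (.leaf 319 1982 (.leaf 367 2174 .nil)) .nil)) .nil)) (.cons 343 (.leaf 367 2174 (.cons 345 (.leaf 369 2180 (.cons 342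 (.cons 321 (.leaf 248 1988 (.leaf 341 2537 .nil)) (.cons 319 (.leaf 248 1982 (.cons 318 (.leaf 317 2536 (.leaf 346 2547 .nil)) .nil)) (.cons 321 (.leaf 341 2537 (.leaf 322 2545 .nil)) .nil))) .nil)) .nil)) (.cons 273 (.leaf 249 1989 (.cons 343 (.leaf 367 2174 (.cons 368 (.leaf 297 2181 (.cons 369 (.leaf 345 2180 (.leaf 393 2372 .nil)) .nil)) .nil)) .nil)) .nil))))
noncomputable def t160 : T := .cons 343 (.leaf 367 2174 (.cons 247 (.leaf 271 1983 (.cons 273 (.leaf 249 1989 (.cons 368 (.leaf 297 2181 (.cons 369 (.leaf 345 2180 (.leaf 393 2372 .nil)) .nil)) .nil)) .nil)) .nil)) (.cons 343 (.leaf 367 2174 (.cons 345 (.leaf 369 2180 (.cons 342 (.cons 321 (.leaf 341 2537 (.leaf 322 2545 .nil)) (.cons 318 (.leaf 317 2539 (.cons 249 (.leaf 273 1989 (.cons 319 (.leaf 346 2547 (.cons 341 (.leaf 340 2529 (.cons 365 (.leaf 364 2722 (.leaf 366 2730 .nil)) .nil)) .nil)) .nil)) .nil)) (.cons 321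 (.leaf 322 2545 (.cons 249 (.leaf 273 1989 (.cons 318 (.leaf 317 2539 (.cons 319 (.leaf 346 2544 (.cons 297 (.leaf 298 2353 (.cons 293 (.leaf 294 2347 (.cons 366 (.leaf 365 2730 (.cons 390 (.leaf 414 2549 (.leaf 295 2357 .nil)) .nil)) .nil)) .nil)) .nil)) .nil)) .nil)) .nil)) .nil))) .nil)) .nil)) (.cons 271 (.leaf 247 1983 (.cons 249 (.leaf 273 1989 (.cons 368 (.leaf 295 2175 (.cons 369 (.leaf 345 2180 (.leaf 393 2372 .nil)) .nil)) .nil)) .nil)) (.cons 271 (.leaf 247 1983 (.cons 367 (.leaf 343 2174 (.cons 368 (.leaf 295 2175 (.leaf 391 2366 .nil)) .nil)) .nil)) .nil)))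
noncomputable def t161 : T := .cons 248 (.cons 223 (.leaf 247 1791 (.cons 343 (.leaf 319 1982 (.cons 344 (.leaf 367 2174 (.cons 224 (.leaf 199 1599 (.cons 273 (.leaf 249 1989 (.cons 368 (.leaf 297 2181 (.cons 369 (.leaf 345 2180 (.leaf 393 2372 .nil)) .nil)) .nil)) .nil)) .nil)) .nil)) .nil)) (.cons 223 (.leaf 247 1791 (.cons 224 (.leaf 199 1599 (.cons 225 (.leaf 201 1605 (.leaf 249 1797 .nil)) .nil)) .nil)) (.cons 223 (.leaf 247 1791 (.cons 343 (.leaf 319 1982 (.cons 344 (.leaf 367 2174 (.cons 345 (.leaf 321 1988 (.leaf 369 2180 .nil)) .nil)) .nil)) .nil)) (.cons 319 (.leaf 343 1982 (.cons 224 (.leaf 295 1790 (.cons 199 (.leaf 223 1599 (.cons 321 (.leaf 297 1796 (.leaf 345 1988 .nil)) .nil)) .nil)) .nil)) (.cons 319 (.leaf 343 1982 (.cons 224 (.leaf 295 1790 (.cons 321 (.leaf 297 1796 (.leaf 345 1988 .nil)) .nil)) .nil)) .nil))))) (.cons 248 (.cons 319 (.leaf 343 1982 (.cons 223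 (.leaf 247 1791 (.cons 224 (.leaf 199 1599 (.leaf 295 1790 .nil)) .nil)) .nil)) (.cons 321 (.leaf 345 1988 (.cons 224 (.leaf 297 1796 (.cons 225 (.leaf 201 1605 (.leaf 249 1797 .nil)) .nil)) .nil)) (.cons 319 (.leaf 343 1982 (.cons 321 (.leaf 345 1988 (.cons 247 (.leaf 223 1791 (.cons 318 (.cons 297 (.leaf 317 2345 (.leaf 298 2353 .nil)) (.cons 293 (.leaf 294 2347 (.cons 317 (.leaf 292 2339 (.cons 341 (.leaf 340 2530 (.leaf 342 2538 .nil)) .nil)) .nil)) (.cons 293 (.leaf 294 2347 (.cons 298 (.leaf 297 2353 (.cons 322 (.leaf 299 2361 (.cons 295 (.leaf 323 2363 (.cons 342 (.leaf 341 2538 (.leaf 271 1974 .nil)) .nil)) .nil)) .nil)) .nil)) .nil))) .nil)) .nil)) .nil)) .nil))) (.cons 344 t160 (.cons 344 (.cons 249 (.leaf 273 1989 (.cons 248 (.leaf 225 1797 (.cons 345 (.leaf 321 1988 (.leaf 369 2180 .nil)) .nil)) .nil)) (.cons 271 (.leaf 247 1983 (.cons 367 (.leaf 343 2174 (.cons 368 (.leaf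 295 2175 (.leaf 391 2366 .nil)) .nil)) .nil)) .nil)) (.cons 344 (.cons 249 (.leaf 273 1989 (.cons 367 (.leaf 343 2174 (.cons 368 (.leaf 391 2366 (.cons 369 (.leaf 345 2180 (.leaf 393 2372 .nil)) .nil)) .nil)) .nil)) (.cons 271 (.leaf 247 1983 (.cons 249 (.leaf 273 1989 (.cons 368 (.leaf 295 2175 (.cons 369 (.leaf 345 2180 (.leaf 393 2372 .nil)) .nil)) .nil)) .nil)) (.cons 247 (.leaf 271 1983 (.cons 248 (.leaf 223 1791 (.cons 343 (.leaf 319 1982 (.leaf 367 2174 .nil)) .nil)) .nil)) .nil))) (.cons 248 (.cons 223 (.leaf 247 1791 (.cons 249 (.leaf 225 1797 (.cons 344 (.leaf 273 1989 (.cons 345 (.leaf 321 1988 (.leaf 369 2180 .nil)) .nil)) .nil)) .nil)) (.cons 223 (.leaf 247 1791 (.cons 199 (.leaf 224 1599 (.cons 249 (.leaf 225 1797 (.cons 344 (.leaf 273 1989 (.cons 369 (.leaf 345 2180 (.cons 368 (.leaf 393 2372 (.cons 295 (.leaf 271 2175 (.cons 391 (.leaf 367 2366 (.cons 392 (.leaf 319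 2367 (.leaf 415 2558 .nil)) .nil)) .nil)) .nil)) .nil)) .nil)) .nil)) .nil)) .nil)) (.cons 223 (.leaf 247 1791 (.cons 224 (.leaf 199 1599 (.cons 321 (.leaf 297 1796 (.leaf 345 1988 .nil)) .nil)) .nil)) (.cons 321 (.leaf 345 1988 (.cons 224 (.leaf 297 1796 (.cons 225 (.leaf 201 1605 (.leaf 249 1797 .nil)) .nil)) .nil)) (.cons 223 (.leaf 247 1791 (.cons 224 (.leaf 199 1599 (.cons 225 (.leaf 201 1605 (.leaf 249 1797 .nil)) .nil)) .nil)) .nil))))) (.cons 248 (.cons 225 (.leaf 249 1797 (.cons 201 (.leaf 224 1605 (.cons 343 (.leaf 319 1982 (.cons 344 (.leaf 367 2174 (.cons 271 (.leaf 247 1983 (.cons 368 (.leaf 295 2175 (.cons 297 (.leaf 273 2181 (.cons 392 (.leaf 321 2373 (.cons 393 (.leaf 369 2372 (.leaf 417 2564 .nil)) .nil)) .nil)) .nil)) .nil)) .nil)) .nil)) .nil)) .nil)) (.cons 225 (.leaf 249 1797 (.cons 224 (.leaf 201 1605 (.cons 199 (.leaf 223 1599 (.cons 200 (.leaf 175 1407 (.cons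 297 (.leaf 273 1604 (.leaf 321 1796 .nil)) .nil)) .nil)) .nil)) .nil)) (.cons 319 (.leaf 343 1982 (.cons 223 (.leaf 247 1791 (.cons 224 (.leaf 199 1599 (.leaf 295 1790 .nil)) .nil)) .nil)) (.cons 223 (.leaf 247 1791 (.cons 249 (.leaf 225 1797 (.cons 343 (.leaf 319 1982 (.cons 344 (.leaf 273 1989 (.leaf 367 2174 .nil)) .nil)) .nil)) .nil)) .nil)))) (.cons 344 t159 (.cons 344 (.cons 247 (.leaf 271 1983 (.cons 343 (.leaf 367 2174 (.cons 248 (.leaf 223 1791 (.leaf 319 1982 .nil)) .nil)) .nil)) (.cons 345 (.leaf 369 2180 (.cons 247 (.leaf 271 1983 (.cons 248 (.leaf 223 1791 (.leaf 321 1988 .nil)) .nil)) .nil)) (.cons 345 (.leaf 369 2180 (.cons 248 (.leaf 321 1988 (.cons 343 (.leaf 319 1982 (.leaf 367 2174 .nil)) .nil)) .nil)) (.cons 247 (.leaf 271 1983 (.cons 343 (.leaf 367 2174 (.cons 369 (.leaf 345 2180 (.cons 368 (.leaf 393 2372 (.cons 297 (.leaf 273 2181 (.cons 321 (.leaf 392 2373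 (.cons 341 (.leaf 342 2728 (.cons 322 (.leaf 323 2554 (.cons 370 (.leaf 371 2747 (.cons 346 (.leaf 394 2383 (.cons 319 (.leaf 347 2552 (.cons 298 (.leaf 299 2361 (.leaf 318 2353 .nil)) .nil)) .nil)) .nil)) .nil)) .nil)) .nil)) .nil)) .nil)) .nil)) .nil)) .nil)) .nil)))) .nil))))))))
noncomputable def t162 : T := .cons 247 (.leaf 245 1960 (.cons 271 (.cons 319 (.leaf 343 1981 (.leaf 222 1783 .nil)) (.cons 223 (.leaf 199 1596 (.leaf 318 1782 .nil)) .nil)) .nil)) (.cons 270 (.cons 245 (.leaf 271 1963 (.cons 221 (.leaf 318 1775 (.cons 197 (.leaf 222 1583 (.leaf 269 1580 .nil)) .nil)) .nil)) (.cons 222 (.leaf 319 1780 (.cons 197 (.leaf 221 1583 (.cons 198 (.leaf 173 1391 (.cons 199 (.leaf 223 1589 (.leaf 175 1397 .nil)) .nil)) .nil)) .nil)) (.cons 245 (.leaf 271 1963 (.cons 221 (.leaf 318 1775 (.cons 197 (.leaf 269 1580 (.leaf 173 1388 .nil)) .nil)) .nil)) (.cons 271 (.leaf 245 1963 (.cons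 269 (.leaf 249 1961 (.leaf 268 2144 .nil)) .nil)) .nil)))) (.cons 319 (.cons 343 (.leaf 271 1981 (.leaf 367 2173 .nil)) (.cons 222 (.leaf 270 1780 (.cons 247 (.leaf 271 1783 (.cons 221 (.leaf 249 1771 (.cons 220 (.leaf 223 1760 (.leaf 219 1752 .nil)) .nil)) .nil)) .nil)) (.cons 270 (.leaf 222 1780 (.cons 343 (.leaf 367 2173 (.leaf 318 1972 .nil)) .nil)) .nil))) (.cons 247 (.leaf 245 1960 (.cons 270 (.cons 222 (.leaf 319 1780 (.cons 221 (.leaf 197 1583 (.leaf 249 1771 .nil)) .nil)) (.cons 249 (.leaf 269 1962 (.cons 318 (.leaf 223 1781 (.cons 317 (.leaf 341 1966 (.cons 316 (.leaf 319 2337 (.leaf 315 2329 .nil)) .nil)) .nil)) .nil)) (.cons 223 (.leaf 318 1781 (.cons 199 (.leaf 175 1404 (.leaf 222 1589 .nil)) .nil)) .nil))) .nil)) (.cons 245 (.leaf 247 1960 (.cons 270 (.leaf 271 1963 (.cons 221 (.leaf 318 1775 (.cons 197 (.leaf 222 1583 (.leaf 269 1580 .nil)) .nil)) .nil)) .nil)) (.cons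 245 (.leaf 247 1960 (.cons 270 (.leaf 271 1963 (.cons 221 (.leaf 318 1775 (.cons 197 (.leaf 269 1580 (.leaf 173 1388 .nil)) .nil)) .nil)) .nil)) (.cons 245 (.leaf 247 1960 (.cons 270 (.leaf 271 1963 (.cons 222 (.leaf 319 1780 (.cons 197 (.leaf 221 1583 (.cons 198 (.leaf 173 1391 (.cons 199 (.leaf 223 1589 (.leaf 175 1397 .nil)) .nil)) .nil)) .nil)) .nil)) .nil)) .nil))))))
noncomputable def t163 : T := .cons 224 (.leaf 319 1790 (.cons 200 (.leaf 271 1598 (.cons 199 (.leaf 175 1407 (.leaf 223 1599 .nil)) .nil)) .nil)) (.cons 246 t162 (.cons 224 (.cons 200 (.leaf 271 1598 (.cons 199 (.leaf 175 1407 (.leaf 223 1599 .nil)) .nil)) (.cons 225 (.leaf 201 1605 (.cons 223 (.leaf 199 1599 (.cons 222 (.cons 249 (.leaf 221 1768 (.leaf 250 1776 .nil)) (.cons 197 (.leaf 198 1579 (.cons 221 (.leaf 196 1571 (.cons 245 (.leaf 244 1762 (.leaf 246 1770 .nil)) .nil)) .nil)) (.cons 198 (.leaf 197 1579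 (.cons 246 (.leaf 245 1770 (.cons 271 (.leaf 247 1591 (.leaf 270 1588 .nil)) .nil)) .nil)) .nil))) .nil)) .nil)) (.cons 201 (.leaf 225 1605 (.cons 199 (.leaf 223 1599 (.cons 200 (.leaf 175 1407 (.leaf 177 1413 .nil)) .nil)) .nil)) (.cons 200 (.leaf 271 1598 (.cons 176 (.leaf 249 1412 (.cons 151 (.leaf 175 1215 (.cons 152 (.leaf 127 1023 (.cons 177 (.leaf 201 1413 (.leaf 153 1221 .nil)) .nil)) .nil)) .nil)) .nil)) .nil)))) (.cons 224 (.leaf 319 1790 (.cons 201 (.leaf 225 1605 (.cons 199 (.leaf 223 1599 (.cons 200 (.leaf 175 1407 (.leaf 177 1413 .nil)) .nil)) .nil)) .nil)) (.cons 319 (.leaf 224 1790 (.cons 343 (.leaf 271 1981 (.leaf 367 2173 .nil)) .nil)) .nil))))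
noncomputable def t164 : T := .cons 269 (.leaf 270 2155 (.cons 318 (.leaf 317 2346 (.cons 298 (.leaf 319 2354 (.cons 299 (.leaf 271 2171 (.cons 323 (.leaf 322 2360 (.leaf 324 2368 .nil)) .nil)) .nil)) .nil)) .nil)) (.cons 321 (.leaf 322 2352 (.cons 224 (.leaf 248 1796 (.cons 317 (.leaf 318 2346 (.cons 293 (.leaf 316 2338 (.cons 268 (.leaf 269 2147 (.cons 292 (.leaf 271 2145 (.leaf 267 2139 .nil)) .nil)) .nil)) .nil)) .nil)) .nil)) (.cons 321 (.leaf 322 2352 (.cons 224 (.leaf 248 1796 (.cons 317 (.leaf 318 2346 (.cons 293 (.leaf 316 2338 (.cons 271 (.leaf 292 2145 (.cons 298 (.leaf 299 2171 (.leaf 270 2163 .nil)) .nil)) .nil)) .nil)) .nil)) .nil)) (.cons 270 (.leaf 269 2155 (.cons 298 (.leaf 271 2163 (.cons 322 (.leaf 321 2352 (.leaf 323 2360 .nil)) .nil)) .nil)) (.cons 321 (.leaf 322 2352 (.cons 224 (.leaf 248 1796 (.cons 269 (.leaf 270 2155 (.cons 293 (.leaf 268 2147 (.cons 317 (.leaf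 316 2338 (.leaf 318 2346 .nil)) .nil)) .nil)) .nil)) .nil)) (.cons 270 (.leaf 269 2155 (.cons 271 (.leaf 298 2163 (.cons 318 (.leaf 317 2346 (.cons 342 (.leaf 366 2165 (.leaf 247 1973 .nil)) .nil)) .nil)) .nil)) .nil)))))
noncomputable def t165 : T := .cons 293 (.leaf 273 2153 (.cons 268 (.leaf 269 2147 (.cons 317 (.leaf 316 2338 (.cons 297 (.leaf 318 2346 (.cons 322 (.leaf 321 2352 (.cons 298 (.leaf 323 2360 (.cons 271 (.leaf 292 2145 (.leaf 299 2171 .nil)) .nil)) .nil)) .nil)) .nil)) .nil)) .nil)) (.cons 297 (.cons 269 (.leaf 270 2155 (.cons 318 (.leaf 317 2346 (.cons 298 (.leaf 319 2354 (.cons 299 (.leaf 271 2171 (.cons 323 (.leaf 322 2360 (.leaf 324 2368 .nil)) .nil)) .nil)) .nil)) .nil)) (.cons 317 (.leaf 318 2346 (.cons 321 (.leaf 322 2352 (.cons 248 (.leaf 224 1796 (.cons 345 (.leaf 273 1991 (.leaf 369 2183 .nil)) .nil)) .nil)) .nil)) (.cons 269 (.leaf 270 2155 (.cons 321 (.leaf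 322 2352 (.cons 248 (.leaf 224 1796 (.cons 345 (.leaf 273 1991 (.leaf 369 2183 .nil)) .nil)) .nil)) .nil)) (.cons 269 (.leaf 270 2155 (.cons 318 (.leaf 317 2346 (.cons 298 (.leaf 319 2354 (.cons 299 (.leaf 271 2171 (.cons 300 (.leaf 273 2179 (.cons 324 (.leaf 323 2368 (.leaf 325 2376 .nil)) .nil)) .nil)) .nil)) .nil)) .nil)) .nil)))) (.cons 293 (.leaf 273 2153 (.cons 268 (.leaf 269 2147 (.cons 292 (.leaf 271 2145 (.leaf 267 2139 .nil)) .nil)) .nil)) (.cons 297 t164 (.cons 293 (.leaf 273 2153 (.cons 268 (.leaf 269 2147 (.cons 292 (.leaf 267 2139 (.cons 316 (.leaf 317 2338 (.leaf 315 2330 .nil)) .nil)) .nil)) .nil)) (.cons 293 (.leaf 273 2153 (.cons 271 (.leaf 292 2145 (.cons 317 (.leaf 316 2338 (.cons 297 (.leaf 318 2346 (.cons 298 (.leaf 299 2171 (.leaf 270 2163 .nil)) .nil)) .nil)) .nil)) .nil)) .nil)))))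
noncomputable def t166 : T := .cons 322 (.leaf 346 2005 (.cons 227 (.leaf 203 1622 (.leaf 299 1814 .nil)) .nil)) (.cons 227 (.leaf 203 1622 (.cons 299 (.cons 228 (.leaf 204 1629 (.cons 252 (.leaf 323 1821 (.cons 253 (.leaf 254 2002 (.cons 300 (.leaf 324 1820 (.cons 301 (.leaf 302 2195 (.cons 277 (.leaf 278 2193 (.leaf 325 1831 .nil)) .nil)) .nil)) .nil)) .nil)) .nil)) (.cons 324 (.leaf 300 1820 (.cons 323 (.leaf 348 2012 (.cons 347 (.leaf 250 2007 (.leaf 371 2199 .nil)) .nil)) .nil)) (.cons 228 (.leaf 204 1629 (.cons 323 (.leaf 252 1821 (.cons 347 (.leaf 250 2007 (.leaf 371 2199 .nil)) .nil)) .nil)) (.cons 300 (.leaf 324 1820 (.cons 301 (.leaf 302 2195 (.cons 228 (.leaf 204 1629 (.cons 277 (.leaf 278 2193 (.cons 325 (.leaf 326 2384 (.cons 253 (.leaf 252 1831 (.cons 230 (.leaf 254 1837 (.cons 229 (.leaf 250 1810 (.leaf 206 1645 .nil)) .nil)) .nil)) .nil)) .nil)) .nil)) .nil)) .nil))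 .nil)))) .nil)) (.cons 322 (.leaf 346 2005 (.cons 250 (.cons 249 (.leaf 225 1807 (.cons 248 (.leaf 247 1976 (.leaf 271 1978 .nil)) .nil)) (.cons 323 (.leaf 347 2004 (.cons 321 (.leaf 345 1998 (.cons 324 (.cons 299 (.leaf 348 2012 (.cons 301 (.leaf 300 2377 (.cons 325 (.leaf 326 2387 (.leaf 302 2385 .nil)) .nil)) .nil)) (.cons 301 (.leaf 300 2377 (.cons 325 (.leaf 302 2385 (.cons 326 (.leaf 299 2387 (.cons 350 (.leaf 349 2576 (.leaf 351 2584 .nil)) .nil)) .nil)) .nil)) (.cons 301 (.leaf 300 2377 (.cons 325 (.leaf 302 2385 (.cons 349 (.leaf 348 2568 (.leaf 350 2576 .nil)) .nil)) .nil)) (.cons 348 (.leaf 299 2012 (.leaf 349 2568 .nil)) .nil)))) .nil)) .nil)) .nil)) .nil)) (.cons 322 (.leaf 346 2005 (.cons 227 (.leaf 203 1622 (.leaf 250 1813 .nil)) .nil)) .nil)))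
noncomputable def t167 : T := .cons 274 (.leaf 273 2170 (.cons 298 (.leaf 297 2169 (.cons 251 t166 .nil)) .nil)) (.cons 297 (.cons 298 (.leaf 274 2169 (.cons 271 (.leaf 299 2171 (.leaf 270 2163 .nil)) .nil)) (.cons 294 t91 (.cons 298 (.leaf 274 2169 (.cons 318 (.leaf 319 2354 (.cons 294 (.leaf 317 2346 (.cons 322 (.leaf 321 2352 (.leaf 323 2360 .nil)) .nil)) .nil)) .nil)) .nil))) (.cons 294 t165 (.cons 273 (.leaf 274 2170 (.cons 294 (.leaf 293 2153 (.cons 248 t163 .nil)) .nil)) (.cons 273 (.leaf 274 2170 (.cons 294 (.leaf 293 2153 (.cons 297 (.cons 270 (.leaf 269 2155 (.cons 318 (.leaf 317 2346 (.cons 319 (.leaf 298 2354 (.cons 246 (.leaf 222 1780 (.leaf 343 1972 .nil)) .nil)) .nil)) .nil)) (.cons 269 (.leaf 270 2155 (.cons 321 (.leaf 322 2352 (.cons 345 (.leaf 248 1991 (.leaf 369 2183 .nil)) .nil)) .nil)) (.cons 317 (.leaf 318 2346 (.cons 321 (.leaf 322 2352 (.cons 345 (.leaf 248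 1991 (.leaf 369 2183 .nil)) .nil)) .nil)) .nil))) .nil)) .nil)) (.cons 273 (.leaf 274 2170 (.cons 294 (.leaf 293 2153 (.cons 297 (.cons 270 (.leaf 269 2155 (.cons 271 (.leaf 298 2160 (.cons 246 (.leaf 245 1963 (.cons 222 (.leaf 198 1588 (.leaf 319 1780 .nil)) .nil)) .nil)) .nil)) (.cons 318 (.leaf 317 2346 (.cons 298 (.leaf 319 2354 (.cons 299 (.leaf 271 2171 (.leaf 300 2179 .nil)) .nil)) .nil)) (.cons 270 (.leaf 269 2155 (.cons 318 (.leaf 317 2346 (.cons 246 (.cons 245 (.leaf 271 1963 (.leaf 221 1775 .nil)) (.cons 319 (.leaf 222 1780 (.leaf 343 1972 .nil)) .nil)) .nil)) .nil)) (.cons 270 (.leaf 269 2155 (.cons 318 (.leaf 317 2346 (.cons 321 (.leaf 322 2352 (.cons 345 (.leaf 369 2183 (.cons 344 (.leaf 368 2182 (.cons 346 (.leaf 370 2188 (.cons 343 (.leaf 319 2547 (.cons 367 (.leaf 342 2164 (.leaf 366 2738 .nil)) .nil)) .nil)) .nil)) .nil)) .nil)) .nil)) .nil)) (.cons 270 (.leaf 269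 2155 (.cons 271 (.leaf 298 2160 (.cons 245 (.leaf 246 1963 (.cons 318 (.leaf 317 2346 (.cons 247 (.leaf 223 1782 (.leaf 342 1973 .nil)) .nil)) .nil)) .nil)) .nil)) .nil))))) .nil)) .nil)) .nil)))))
noncomputable def t168 : T := .leaf 293 2153 (.cons 297 (.cons 318 (.leaf 317 2346 (.cons 269 (.leaf 270 2155 (.cons 298 (.leaf 319 2354 (.cons 299 (.leaf 271 2171 (.leaf 300 2179 .nil)) .nil)) .nil)) .nil)) (.cons 318 (.leaf 317 2346 (.cons 298 (.leaf 319 2354 (.cons 299 (.leaf 271 2171 (.leaf 300 2179 .nil)) .nil)) .nil)) (.cons 270 (.leaf 269 2155 (.cons 318 (.leaf 317 2346 (.cons 246 (.cons 245 (.leaf 271 1963 (.leaf 221 1775 .nil)) (.cons 319 (.leaf 222 1780 (.leaf 343 1972 .nil)) .nil)) .nil)) .nil)) (.cons 270 (.leaf 269 2155 (.cons 271 (.leaf 298 2160 (.cons 246 (.leaf 245 1963 (.cons 222 (.leaf 198 1588 (.leaf 319 1780 .nil)) .nil)) .nil)) .nil)) (.cons 322 (.leaf 321 2352 (.cons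 269 (.leaf 270 2155 (.cons 298 (.leaf 323 2360 (.cons 318 (.leaf 317 2346 (.leaf 319 2354 .nil)) .nil)) .nil)) .nil)) (.cons 270 (.leaf 269 2155 (.cons 271 (.leaf 298 2160 (.cons 245 (.leaf 246 1963 (.cons 249 (.leaf 250 1969 (.cons 318 (.leaf 317 2346 (.cons 225 (.leaf 201 1606 (.leaf 320 1798 .nil)) .nil)) .nil)) .nil)) .nil)) .nil)) .nil)))))) .nil)
noncomputable def t169 : T := .cons 322 (.leaf 346 2005 (.cons 227 (.leaf 203 1622 (.leaf 299 1814 .nil)) .nil)) (.cons 227 (.leaf 203 1622 (.cons 299 (.cons 228 (.leaf 204 1629 (.cons 252 (.leaf 323 1821 (.cons 253 (.leaf 254 2002 (.cons 300 (.leaf 324 1820 (.cons 301 (.leaf 302 2195 (.cons 277 (.leaf 278 2193 (.leaf 325 1831 .nil)) .nil)) .nil)) .nil)) .nil)) .nil)) (.cons 324 (.leaf 300 1820 (.cons 323 (.leaf 348 2012 (.cons 347 (.leaf 250 2007 (.leaf 371 2199 .nil)) .nil)) .nil)) (.cons 228 (.leaf 204 1629 (.cons 323 (.leaf 252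 1821 (.cons 347 (.leaf 250 2007 (.leaf 371 2199 .nil)) .nil)) .nil)) (.cons 300 (.leaf 324 1820 (.cons 301 (.leaf 302 2195 (.cons 228 (.leaf 204 1629 (.cons 277 (.leaf 278 2193 (.cons 325 (.leaf 326 2384 (.cons 253 (.leaf 252 1831 (.cons 230 (.leaf 254 1837 (.cons 229 (.leaf 250 1810 (.leaf 206 1645 .nil)) .nil)) .nil)) .nil)) .nil)) .nil)) .nil)) .nil)) .nil)))) .nil)) (.cons 322 (.leaf 346 2005 (.cons 323 (.cons 347 (.leaf 250 2004 (.cons 371 (.leaf 299 2199 (.leaf 395 2391 .nil)) .nil)) (.cons 321 (.leaf 320 2363 (.cons 324 (.cons 299 (.leaf 348 2012 (.cons 301 (.leaf 300 2377 (.cons 325 (.leaf 326 2387 (.leaf 302 2385 .nil)) .nil)) .nil)) (.cons 301 (.leaf 300 2377 (.cons 325 (.leaf 302 2385 (.cons 326 (.leaf 299 2387 (.cons 350 (.leaf 349 2576 (.leaf 351 2584 .nil)) .nil)) .nil)) .nil)) (.cons 301 (.leaf 300 2377 (.cons 325 (.leaf 302 2385 (.cons 349 (.leaf 348 2568 (.leaf 350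 2576 .nil)) .nil)) .nil)) (.cons 348 (.leaf 299 2012 (.leaf 349 2568 .nil)) .nil)))) .nil)) (.cons 250 (.leaf 347 2004 (.cons 321 (.leaf 320 2363 (.leaf 345 1998 .nil)) .nil)) .nil))) .nil)) (.cons 322 (.leaf 346 2005 (.cons 227 (.leaf 203 1622 (.leaf 250 1813 .nil)) .nil)) .nil)))
noncomputable def t170 : T := .cons 270 (.leaf 269 2155 (.cons 318 (.leaf 317 2346 (.cons 246 (.cons 245 (.leaf 271 1963 (.leaf 221 1775 .nil)) (.cons 319 (.leaf 298 2354 (.leaf 222 1780 .nil)) .nil)) .nil)) .nil)) (.cons 318 (.leaf 317 2346 (.cons 298 (.leaf 319 2354 (.cons 299 (.leaf 271 2171 (.leaf 300 2179 .nil)) .nil)) .nil)) (.cons 270 (.leaf 269 2155 (.cons 318 (.leaf 317 2346 (.cons 246 (.cons 245 (.leaf 271 1963 (.leaf 221 1775 .nil)) (.cons 319 (.leaf 222 1780 (.leaf 343 1972 .nil)) .nil)) .nil)) .nil)) (.cons 270 (.leaf 269 2155 (.cons 271 (.leaf 298 2160 (.cons 246 (.leaf 245 1963 (.cons 222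 (.leaf 198 1588 (.leaf 319 1780 .nil)) .nil)) .nil)) .nil)) (.cons 270 (.leaf 269 2155 (.cons 318 (.leaf 317 2346 (.cons 321 (.leaf 322 2352 (.cons 345 (.leaf 369 2183 (.cons 344 (.leaf 368 2182 (.cons 346 (.leaf 370 2188 (.cons 343 (.leaf 319 2547 (.cons 367 (.leaf 342 2164 (.leaf 366 2738 .nil)) .nil)) .nil)) .nil)) .nil)) .nil)) .nil)) .nil)) (.cons 270 (.leaf 269 2155 (.cons 271 (.leaf 298 2160 (.cons 245 (.leaf 246 1963 (.cons 318 (.leaf 317 2346 (.cons 247 (.leaf 223 1782 (.leaf 342 1973 .nil)) .nil)) .nil)) .nil)) .nil)) .nil)))))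
noncomputable def t171 : T := .cons 293 (.leaf 294 2153 (.cons 270 (.cons 246 (.leaf 245 1963 (.cons 269 (.leaf 292 2146 (.leaf 268 2144 .nil)) .nil)) (.cons 246 (.leaf 245 1963 (.cons 249 (.leaf 250 1969 (.cons 320 (.leaf 344 1989 (.cons 198 (.leaf 222 1588 (.cons 247 (.leaf 223 1788 (.cons 319 (.leaf 343 1975 (.cons 318 (.leaf 342 1974 (.cons 317 (.leaf 316 2337 (.leaf 292 2339 .nil)) .nil)) .nil)) .nil)) .nil)) .nil)) .nil)) .nil)) (.cons 249 (.leaf 250 1969 (.cons 269 (.leaf 292 2146 (.leaf 268 2144 .nil)) .nil)) (.cons 246 (.leaf 245 1963 (.cons 222 (.leaf 198 1588 (.cons 319 (.leaf 247 1783 (.leaf 343 1975 .nil)) .nil)) .nil)) .nil)))) .nil)) (.cons 320 (.cons 344 (.leaf 247 1983 (.leaf 249 1989 .nil)) (.cons 247 (.leaf 223 1788 (.cons 246 (.cons 245 (.leaf 244 1952 (.leaf 270 1963 .nil)) (.cons 319 (.leaf 222 1783 (.cons 343 (.leaf 367 2173 (.leaf 270 1975 .nil)) .nil)) (.cons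 319 (.leaf 222 1783 (.cons 244 (.leaf 245 1952 (.cons 342 (.leaf 318 1974 (.cons 343 (.leaf 367 2173 (.leaf 366 2166 .nil)) .nil)) .nil)) .nil)) .nil))) .nil)) (.cons 344 (.leaf 249 1989 (.leaf 368 2175 .nil)) .nil))) (.cons 270 (.cons 294 (.leaf 293 2153 (.cons 246 (.leaf 245 1963 (.cons 222 (.leaf 198 1588 (.leaf 319 1780 .nil)) .nil)) .nil)) (.cons 246 (.leaf 245 1963 (.cons 222 (.leaf 198 1588 (.cons 319 (.leaf 247 1783 (.leaf 343 1975 .nil)) .nil)) .nil)) (.cons 293 (.leaf 294 2153 (.cons 269 (.leaf 292 2146 (.leaf 268 2144 .nil)) .nil)) .nil))) (.cons 293 (.leaf 294 2153 (.cons 247 (.cons 319 (.cons 343 (.leaf 367 2173 (.cons 342 (.leaf 318 1974 (.leaf 366 2166 .nil)) .nil)) (.cons 320 (.leaf 344 1980 (.leaf 223 1788 .nil)) .nil)) (.cons 223 (.leaf 199 1596 (.cons 200 (.leaf 224 1597 (.cons 222 (.leaf 198 1591 (.cons 319 (.leaf 246 1783 (.cons 342 (.leaf 318 1974 (.cons 343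 (.leaf 367 2173 (.leaf 366 2166 .nil)) .nil)) .nil)) .nil)) .nil)) .nil)) (.cons 319 (.cons 343 (.leaf 367 2173 (.cons 342 (.leaf 318 1974 (.leaf 366 2166 .nil)) .nil)) (.cons 320 (.leaf 344 1980 (.cons 222 (.leaf 246 1783 (.cons 318 (.leaf 342 1974 (.cons 317 (.leaf 316 2337 (.leaf 292 2339 .nil)) .nil)) .nil)) .nil)) (.cons 344 (.leaf 320 1980 (.cons 343 (.leaf 367 2173 (.leaf 368 2172 .nil)) .nil)) .nil))) (.cons 320 (.leaf 344 1983 (.leaf 223 1788 .nil)) .nil)))) .nil)) (.cons 270 (.cons 294 (.leaf 293 2153 (.cons 246 (.leaf 245 1963 (.cons 222 (.leaf 198 1588 (.leaf 319 1780 .nil)) .nil)) .nil)) (.cons 245 (.leaf 246 1963 (.cons 269 (.leaf 244 1955 (.leaf 268 2144 .nil)) .nil)) (.cons 293 (.leaf 294 2153 (.cons 269 (.leaf 292 2146 (.leaf 268 2144 .nil)) .nil)) .nil))) (.cons 270 (.cons 293 (.leaf 294 2153 (.cons 269 (.leaf 292 2146 (.leaf 268 2144 .nil)) .nil)) (.cons 269 (.leaf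 268 2144 (.cons 245 (.leaf 244 1955 (.leaf 246 1963 .nil)) .nil)) (.cons 294 (.leaf 293 2153 (.cons 246 (.leaf 245 1963 (.cons 222 (.leaf 198 1588 (.cons 223 (.leaf 199 1589 (.cons 247 (.leaf 320 1788 (.leaf 318 1781 .nil)) .nil)) .nil)) .nil)) .nil)) .nil))) (.cons 293 (.leaf 294 2153 (.cons 319 (.cons 343 (.leaf 367 2173 (.cons 342 (.leaf 366 2166 (.cons 247 (.leaf 318 1974 (.cons 223 (.leaf 199 1596 (.leaf 320 1788 .nil)) .nil)) .nil)) .nil)) (.cons 320 (.cons 247 (.leaf 344 1980 (.leaf 223 1788 .nil)) (.cons 247 (.leaf 223 1788 (.cons 318 (.leaf 342 1974 (.cons 317 (.leaf 316 2337 (.leaf 292 2339 .nil)) .nil)) .nil)) (.cons 344 (.leaf 249 1989 (.leaf 368 2175 .nil)) .nil))) (.cons 343 (.leaf 367 2173 (.cons 342 (.leaf 366 2166 (.cons 318 (.leaf 247 1974 (.cons 317 (.leaf 316 2337 (.cons 344 (.leaf 368 2172 (.leaf 345 2539 .nil)) .nil)) .nil)) .nil)) .nil)) (.cons 343 (.leaf 367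 2173 (.cons 342 (.leaf 366 2166 (.cons 344 (.leaf 368 2172 (.cons 249 (.leaf 320 1989 (.cons 270 (.leaf 250 1969 (.cons 269 (.leaf 292 2146 (.leaf 268 2144 .nil)) .nil)) .nil)) .nil)) .nil)) .nil)) (.cons 343 (.leaf 367 2173 (.cons 344 (.leaf 368 2172 (.cons 320 (.leaf 247 1980 (.leaf 249 1989 .nil)) .nil)) .nil)) .nil))))) .nil)) .nil))))))
noncomputable def t172 : T := .cons 322 (.leaf 346 2005 (.cons 227 (.leaf 203 1622 (.leaf 299 1814 .nil)) .nil)) (.cons 227 (.leaf 203 1622 (.cons 299 (.cons 228 (.leaf 204 1629 (.cons 252 (.leaf 323 1821 (.cons 253 (.leaf 254 2002 (.cons 300 (.leaf 324 1820 (.cons 301 (.leaf 302 2195 (.cons 277 (.leaf 278 2193 (.leaf 325 1831 .nil)) .nil)) .nil)) .nil)) .nil)) .nil)) (.cons 324 (.leaf 300 1820 (.cons 323 (.leaf 348 2012 (.cons 347 (.leaf 250 2007 (.leaf 371 2199 .nil)) .nil)) .nil)) (.cons 228 (.leaf 204 1629 (.cons 323 (.leaf 252 1821 (.cons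 347 (.leaf 250 2007 (.leaf 371 2199 .nil)) .nil)) .nil)) (.cons 300 (.leaf 324 1820 (.cons 301 (.leaf 302 2195 (.cons 228 (.leaf 204 1629 (.cons 277 (.leaf 278 2193 (.cons 325 (.leaf 326 2384 (.cons 253 (.leaf 252 1831 (.cons 230 (.leaf 254 1837 (.cons 229 (.leaf 250 1810 (.leaf 206 1645 .nil)) .nil)) .nil)) .nil)) .nil)) .nil)) .nil)) .nil)) .nil)))) .nil)) (.cons 322 (.leaf 346 2005 (.cons 323 (.cons 347 (.leaf 250 2004 (.cons 371 (.leaf 299 2199 (.leaf 395 2391 .nil)) .nil)) (.cons 321 (.leaf 320 2363 (.cons 345 (.leaf 250 1998 (.cons 324 (.leaf 344 2562 (.cons 348 (.leaf 299 2012 (.leaf 349 2568 .nil)) .nil)) .nil)) .nil)) (.cons 321 (.leaf 320 2363 (.cons 324 (.cons 299 (.leaf 348 2012 (.cons 301 (.leaf 300 2377 (.cons 325 (.leaf 326 2387 (.leaf 302 2385 .nil)) .nil)) .nil)) (.cons 301 (.leaf 300 2377 (.cons 325 (.leaf 302 2385 (.cons 326 (.leaf 299 2387 (.cons 350 (.leaf 349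 2576 (.leaf 351 2584 .nil)) .nil)) .nil)) .nil)) (.cons 301 (.leaf 300 2377 (.cons 325 (.leaf 302 2385 (.cons 349 (.leaf 348 2568 (.leaf 350 2576 .nil)) .nil)) .nil)) (.cons 348 (.leaf 299 2012 (.leaf 349 2568 .nil)) .nil)))) .nil)) (.cons 250 (.leaf 347 2004 (.cons 321 (.leaf 320 2363 (.leaf 345 1998 .nil)) .nil)) .nil)))) .nil)) (.cons 322 (.leaf 346 2005 (.cons 227 (.leaf 203 1622 (.leaf 250 1813 .nil)) .nil)) .nil)))
noncomputable def t173 : T := .cons 270 (.leaf 269 2155 (.cons 318 (.leaf 317 2346 (.cons 321 (.leaf 322 2352 (.cons 345 (.leaf 369 2183 (.cons 319 (.leaf 298 2354 (.cons 343 (.leaf 367 2173 (.leaf 246 1972 .nil)) .nil)) .nil)) .nil)) .nil)) .nil)) (.cons 318 (.leaf 317 2346 (.cons 298 (.leaf 319 2354 (.cons 299 (.leaf 271 2171 (.cons 322 (.leaf 321 2352 (.leaf 323 2360 .nil)) .nil)) .nil)) .nil)) (.cons 270 (.leaf 269 2155 (.cons 298 (.leaf 271 2163 (.cons 322 (.leaf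 321 2352 (.leaf 323 2360 .nil)) .nil)) .nil)) (.cons 318 (.leaf 317 2346 (.cons 298 (.leaf 319 2354 (.cons 299 (.leaf 271 2171 (.cons 323 (.leaf 322 2360 (.leaf 324 2368 .nil)) .nil)) .nil)) .nil)) (.cons 318 (.leaf 317 2346 (.cons 298 (.leaf 319 2354 (.cons 299 (.leaf 271 2171 (.cons 300 (.leaf 273 2179 (.cons 324 (.leaf 323 2368 (.leaf 325 2376 .nil)) .nil)) .nil)) .nil)) .nil)) (.cons 270 (.leaf 269 2155 (.cons 318 (.leaf 317 2346 (.cons 321 (.leaf 322 2352 (.cons 345 (.leaf 369 2183 (.cons 319 (.cons 343 (.leaf 367 2173 (.leaf 246 1972 .nil)) (.cons 222 (.leaf 246 1780 (.cons 320 (.leaf 346 2544 (.cons 342 (.leaf 341 2538 (.cons 271 (.leaf 247 1973 (.leaf 366 2165 .nil)) .nil)) .nil)) .nil)) (.cons 343 (.leaf 367 2173 (.cons 346 (.leaf 320 2544 (.leaf 344 2547 .nil)) .nil)) .nil))) .nil)) .nil)) .nil)) .nil)) .nil)))))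
noncomputable def t174 : T := .cons 293 (.leaf 273 2153 (.cons 268 (.leaf 269 2147 (.cons 317 (.leaf 316 2338 (.cons 297 (.leaf 318 2346 (.cons 322 (.leaf 321 2352 (.cons 298 (.leaf 323 2360 (.cons 271 (.leaf 292 2145 (.leaf 299 2171 .nil)) .nil)) .nil)) .nil)) .nil)) .nil)) .nil)) (.cons 297 t173 (.cons 293 (.cons 268 (.leaf 269 2147 (.cons 317 (.leaf 316 2338 (.cons 297 (.leaf 318 2346 (.cons 322 (.leaf 321 2352 (.cons 298 (.leaf 323 2360 (.cons 271 (.leaf 292 2145 (.leaf 299 2171 .nil)) .nil)) .nil)) .nil)) .nil)) .nil)) (.cons 268 (.leaf 269 2147 (.cons 317 (.leaf 316 2338 (.cons 297 (.leaf 318 2346 (.cons 322 (.leaf 321 2352 (.cons 298 (.leaf 323 2360 (.cons 271 (.leaf 299 2171 (.leaf 270 2163 .nil)) .nil)) .nil)) .nil)) .nil)) .nil)) (.cons 271 (.leaf 292 2145 (.cons 317 (.leaf 316 2338 (.cons 297 (.leaf 318 2346 (.cons 298 (.leaf 299 2171 (.leaf 270 2163 .nil)) .nil)) .nil))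 .nil)) (.cons 317 (.leaf 316 2338 (.cons 268 (.leaf 269 2147 (.cons 297 (.leaf 318 2346 (.cons 321 (.leaf 320 2344 (.leaf 322 2352 .nil)) .nil)) .nil)) .nil)) (.cons 292 (.leaf 271 2145 (.cons 268 (.leaf 269 2147 (.leaf 267 2139 .nil)) .nil)) .nil))))) (.cons 293 (.leaf 273 2153 (.cons 317 (.leaf 316 2338 (.cons 268 (.leaf 269 2147 (.cons 292 (.leaf 271 2145 (.leaf 267 2139 .nil)) .nil)) .nil)) .nil)) (.cons 293 (.leaf 273 2153 (.cons 317 (.leaf 316 2338 (.cons 268 (.leaf 269 2147 (.cons 297 (.leaf 318 2346 (.cons 321 (.leaf 320 2344 (.leaf 322 2352 .nil)) .nil)) .nil)) .nil)) .nil)) (.cons 293 (.leaf 273 2153 (.cons 271 (.leaf 292 2145 (.cons 317 (.leaf 316 2338 (.cons 297 (.leaf 318 2346 (.cons 298 (.leaf 299 2171 (.leaf 270 2163 .nil)) .nil)) .nil)) .nil)) .nil)) (.cons 293 (.leaf 273 2153 (.cons 292 (.leaf 271 2145 (.cons 268 (.leaf 269 2147 (.leaf 267 2139 .nil)) .nil)) .nil))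 .nil))))))
noncomputable def t175 : T := .cons 269 (.leaf 270 2155 (.cons 321 (.leaf 322 2352 (.cons 345 (.leaf 369 2183 (.cons 344 (.leaf 368 2182 (.cons 320 (.leaf 249 1989 (.cons 318 (.leaf 317 2346 (.cons 271 (.leaf 247 1983 (.cons 346 (.leaf 370 2188 (.leaf 319 2544 .nil)) .nil)) .nil)) .nil)) .nil)) .nil)) .nil)) .nil)) (.cons 321 (.leaf 322 2352 (.cons 317 (.leaf 318 2346 (.cons 345 (.leaf 369 2183 (.cons 344 (.leaf 368 2182 (.cons 320 (.leaf 249 1989 (.cons 247 (.leaf 271 1983 (.cons 343 (.leaf 367 2174 (.cons 342 (.leaf 341 2537 (.cons 346 (.leaf 370 2188 (.cons 347 (.leaf 348 2563 (.leaf 319 2555 .nil)) .nil)) .nil)) .nil)) .nil)) .nil)) .nil)) .nil)) .nil)) .nil)) (.cons 269 (.leaf 270 2155 (.cons 318 (.leaf 317 2346 (.cons 298 (.leaf 319 2354 (.cons 299 (.leaf 271 2171 (.leaf 300 2179 .nil)) .nil)) .nil)) .nil)) (.cons 269 (.leaf 270 2155 (.cons 321 (.leaf 322 2352 (.cons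 345 (.leaf 369 2183 (.cons 344 (.leaf 368 2182 (.cons 320 (.leaf 249 1989 (.cons 247 (.leaf 271 1983 (.cons 343 (.leaf 367 2174 (.cons 346 (.leaf 370 2188 (.cons 347 (.leaf 348 2563 (.leaf 319 2555 .nil)) .nil)) .nil)) .nil)) .nil)) .nil)) .nil)) .nil)) .nil)) (.cons 321 (.leaf 322 2352 (.cons 269 (.leaf 270 2155 (.cons 345 (.leaf 369 2183 (.cons 344 (.leaf 368 2182 (.cons 320 (.leaf 249 1989 (.cons 318 (.leaf 317 2346 (.cons 319 (.leaf 298 2353 (.leaf 346 2544 .nil)) .nil)) .nil)) .nil)) .nil)) .nil)) .nil)) (.cons 270 (.leaf 269 2155 (.cons 271 (.leaf 298 2160 (.cons 245 (.leaf 246 1963 (.cons 249 (.leaf 250 1969 (.cons 318 (.leaf 317 2346 (.cons 225 (.leaf 201 1606 (.leaf 320 1798 .nil)) .nil)) .nil)) .nil)) .nil)) .nil)) .nil)))))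
noncomputable def t176 : T := .cons 273 (.leaf 249 1989 (.cons 247 (.leaf 271 1983 (.cons 343 (.leaf 367 2174 (.cons 368 (.leaf 297 2181 (.cons 369 (.leaf 345 2180 (.leaf 393 2372 .nil)) .nil)) .nil)) .nil)) .nil)) (.cons 369 (.leaf 345 2180 (.cons 247 (.leaf 271 1983 (.cons 367 (.leaf 343 2174 (.cons 368 (.leaf 391 2366 (.leaf 393 2372 .nil)) .nil)) .nil)) .nil)) (.cons 273 (.leaf 249 1989 (.cons 247 (.leaf 271 1983 (.cons 343 (.leaf 367 2174 (.cons 368 (.leaf 297 2181 (.cons 393 (.leaf 369 2372 (.cons 392 (.leaf 417 2564 (.cons 416 (.leaf 319 2559 (.cons 415 (.leaf 391 2558 (.leaf 439 2750 .nil)) .nil)) .nil)) .nil)) .nil)) .nil)) .nil)) .nil)) (.cons 273 (.leaf 249 1989 (.cons 247 (.leaf 271 1983 (.cons 367 (.leaf 343 2174 (.cons 368 (.leaf 297 2181 (.leaf 391 2366 .nil)) .nil)) .nil)) .nil)) (.cons 273 (.leaf 249 1989 (.cons 247 (.leaf 271 1983 (.cons 368 (.leaf 297 2181 (.cons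 369 (.leaf 345 2180 (.leaf 393 2372 .nil)) .nil)) .nil)) .nil)) (.cons 273 (.leaf 249 1989 (.cons 343 (.leaf 367 2174 (.cons 368 (.leaf 297 2181 (.cons 369 (.leaf 345 2180 (.leaf 393 2372 .nil)) .nil)) .nil)) .nil)) (.cons 345 (.leaf 369 2180 (.cons 343 (.leaf 367 2174 (.cons 342 (.cons 322 (.leaf 321 2545 (.cons 317 (.leaf 318 2539 (.cons 346 (.leaf 323 2553 (.cons 347 (.leaf 319 2555 (.cons 371 (.leaf 370 2744 (.leaf 372 2752 .nil)) .nil)) .nil)) .nil)) .nil)) (.cons 318 (.leaf 317 2539 (.cons 247 (.leaf 271 1983 (.cons 319 (.leaf 346 2547 (.cons 341 (.leaf 340 2529 (.cons 365 (.leaf 364 2722 (.leaf 366 2730 .nil)) .nil)) .nil)) .nil)) .nil)) (.cons 321 (.leaf 341 2537 (.leaf 322 2545 .nil)) .nil))) .nil)) .nil)) .nil))))))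
noncomputable def t177 : T := .cons 248 (.cons 225 (.leaf 249 1797 (.cons 224 (.leaf 201 1605 (.cons 199 (.leaf 223 1599 (.cons 321 (.leaf 297 1796 (.leaf 345 1988 .nil)) .nil)) .nil)) .nil)) (.cons 223 (.leaf 247 1791 (.cons 199 (.leaf 224 1599 (.cons 343 (.leaf 319 1982 (.cons 344 (.leaf 367 2174 (.cons 345 (.leaf 321 1988 (.leaf 369 2180 .nil)) .nil)) .nil)) .nil)) .nil)) (.cons 249 (.leaf 225 1797 (.cons 247 (.leaf 223 1791 (.cons 250 (.leaf 274 1976 (.cons 271 (.leaf 344 1983 (.leaf 251 1978 .nil)) .nil)) .nil)) .nil)) (.cons 249 (.leaf 225 1797 (.cons 343 (.leaf 319 1982 (.cons 344 (.leaf 273 1989 (.leaf 367 2174 .nil)) .nil)) .nil)) .nil)))) (.cons 344 t176 (.cons 248 (.cons 225 (.leaf 249 1797 (.cons 224 (.leaf 201 1605 (.cons 199 (.leaf 223 1599 (.cons 321 (.leaf 297 1796 (.leaf 345 1988 .nil)) .nil)) .nil)) .nil)) (.cons 247 (.leaf 223 1791 (.cons 249 (.leaf 225 1797 (.cons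 250 (.leaf 274 1976 (.cons 271 (.leaf 251 1978 (.leaf 270 1970 .nil)) .nil)) .nil)) .nil)) (.cons 321 (.leaf 345 1988 (.cons 223 (.leaf 247 1791 (.cons 224 (.leaf 199 1599 (.leaf 297 1796 .nil)) .nil)) .nil)) (.cons 321 (.leaf 345 1988 (.cons 224 (.leaf 297 1796 (.cons 225 (.leaf 201 1605 (.leaf 249 1797 .nil)) .nil)) .nil)) .nil)))) (.cons 248 (.cons 223 (.leaf 247 1791 (.cons 224 (.leaf 199 1599 (.cons 225 (.leaf 201 1605 (.leaf 249 1797 .nil)) .nil)) .nil)) (.cons 249 (.leaf 225 1797 (.cons 343 (.leaf 319 1982 (.cons 344 (.leaf 273 1989 (.leaf 367 2174 .nil)) .nil)) .nil)) (.cons 247 (.leaf 223 1791 (.cons 273 (.leaf 274 1979 (.cons 245 (.leaf 246 1960 (.cons 319 (.leaf 343 1982 (.cons 344 (.leaf 271 1983 (.cons 297 (.leaf 368 2181 (.cons 224 (.leaf 200 1604 (.leaf 321 1796 .nil)) .nil)) .nil)) .nil)) .nil)) .nil)) .nil)) .nil))) (.cons 248 (.cons 247 (.leaf 223 1791 (.cons 273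 (.leaf 274 1979 (.cons 245 (.leaf 246 1960 (.cons 319 (.leaf 343 1982 (.cons 344 (.leaf 271 1983 (.cons 297 (.leaf 368 2181 (.cons 224 (.leaf 200 1604 (.leaf 321 1796 .nil)) .nil)) .nil)) .nil)) .nil)) .nil)) .nil)) (.cons 321 (.leaf 345 1988 (.cons 224 (.leaf 297 1796 (.cons 199 (.leaf 223 1599 (.cons 200 (.leaf 175 1407 (.cons 201 (.leaf 177 1413 (.leaf 225 1605 .nil)) .nil)) .nil)) .nil)) .nil)) (.cons 247 (.leaf 223 1791 (.cons 273 (.leaf 274 1979 (.cons 344 (.leaf 271 1983 (.cons 343 (.leaf 319 1982 (.leaf 367 2174 .nil)) .nil)) .nil)) .nil)) (.cons 321 (.leaf 345 1988 (.cons 297 (.leaf 224 1796 (.cons 319 (.leaf 343 1982 (.cons 298 (.leaf 299 2362 (.leaf 318 2353 .nil)) .nil)) .nil)) .nil)) .nil)))) (.cons 344 (.cons 249 (.leaf 273 1989 (.cons 248 (.leaf 225 1797 (.cons 345 (.leaf 321 1988 (.leaf 369 2180 .nil)) .nil)) .nil)) (.cons 249 (.leaf 273 1989 (.cons 248 (.leaf 225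 1797 (.cons 343 (.leaf 319 1982 (.leaf 367 2174 .nil)) .nil)) .nil)) (.cons 343 (.leaf 367 2174 (.cons 345 (.leaf 369 2180 (.cons 342 (.cons 321 (.leaf 248 1988 (.leaf 341 2537 .nil)) (.cons 319 (.leaf 248 1982 (.cons 318 (.leaf 317 2536 (.leaf 346 2547 .nil)) .nil)) (.cons 321 (.leaf 341 2537 (.leaf 322 2545 .nil)) .nil))) .nil)) .nil)) (.cons 273 (.leaf 249 1989 (.cons 343 (.leaf 367 2174 (.cons 368 (.leaf 297 2181 (.cons 369 (.leaf 345 2180 (.leaf 393 2372 .nil)) .nil)) .nil)) .nil)) .nil)))) (.cons 344 (.cons 273 (.leaf 249 1989 (.cons 247 (.leaf 271 1983 (.cons 343 (.leaf 367 2174 (.cons 368 (.leaf 297 2181 (.cons 369 (.leaf 345 2180 (.leaf 393 2372 .nil)) .nil)) .nil)) .nil)) .nil)) (.cons 247 (.leaf 271 1983 (.cons 248 (.leaf 223 1791 (.cons 343 (.leaf 319 1982 (.leaf 367 2174 .nil)) .nil)) .nil)) (.cons 247 (.leaf 271 1983 (.cons 273 (.leaf 249 1989 (.cons 368 (.leaf 297 2181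 (.cons 369 (.leaf 345 2180 (.leaf 393 2372 .nil)) .nil)) .nil)) .nil)) (.cons 273 (.leaf 249 1989 (.cons 343 (.leaf 367 2174 (.cons 368 (.leaf 297 2181 (.cons 369 (.leaf 345 2180 (.leaf 393 2372 .nil)) .nil)) .nil)) .nil)) .nil)))) (.cons 248 (.cons 223 (.leaf 247 1791 (.cons 199 (.leaf 224 1599 (.cons 249 (.leaf 225 1797 (.cons 344 (.leaf 273 1989 (.cons 343 (.leaf 319 1982 (.leaf 367 2174 .nil)) .nil)) .nil)) .nil)) .nil)) (.cons 249 (.leaf 225 1797 (.cons 343 (.leaf 319 1982 (.cons 344 (.leaf 273 1989 (.leaf 367 2174 .nil)) .nil)) .nil)) (.cons 247 (.leaf 223 1791 (.cons 273 (.leaf 274 1979 (.cons 245 (.leaf 246 1960 (.cons 344 (.leaf 271 1983 (.cons 343 (.leaf 319 1982 (.leaf 367 2174 .nil)) .nil)) .nil)) .nil)) .nil)) (.cons 247 (.leaf 223 1791 (.cons 273 (.leaf 274 1979 (.cons 245 (.leaf 246 1960 (.cons 344 (.leaf 271 1983 (.leaf 249 1989 .nil)) .nil)) .nil)) .nil)) (.cons 247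 (.leaf 223 1791 (.cons 249 (.leaf 225 1797 (.cons 250 (.leaf 274 1976 (.cons 271 (.leaf 251 1978 (.leaf 270 1970 .nil)) .nil)) .nil)) .nil)) .nil))))) .nil)))))))
noncomputable def t178 : T := .cons 224 (.cons 201 (.leaf 225 1605 (.cons 177 (.leaf 200 1413 (.cons 295 (.leaf 319 1790 (.cons 297 (.leaf 321 1796 (.cons 298 (.leaf 274 2169 (.cons 271 (.leaf 299 2171 (.leaf 270 2163 .nil)) .nil)) .nil)) .nil)) .nil)) .nil)) (.cons 199 (.leaf 223 1599 (.cons 200 (.leaf 175 1407 (.cons 201 (.leaf 177 1413 (.leaf 225 1605 .nil)) .nil)) .nil)) (.cons 199 (.leaf 223 1599 (.cons 175 (.leaf 200 1407 (.cons 295 (.leaf 319 1790 (.cons 297 (.leaf 321 1796 (.cons 298 (.leaf 274 2169 (.cons 271 (.leaf 299 2171 (.leaf 270 2163 .nil)) .nil)) .nil)) .nil)) .nil)) .nil)) (.cons 199 (.leaf 223 1599 (.cons 201 (.leaf 225 1605 (.cons 295 (.leaf 319 1790 (.cons 297 (.leaf 321 1796 (.cons 298 (.leaf 274 2169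 (.cons 271 (.leaf 299 2171 (.leaf 270 2163 .nil)) .nil)) .nil)) .nil)) .nil)) .nil)) .nil)))) (.cons 320 (.cons 225 (.leaf 249 1797 (.cons 343 (.leaf 319 1982 (.cons 247 (.leaf 223 1791 (.cons 344 (.leaf 271 1983 (.leaf 367 2174 .nil)) .nil)) .nil)) .nil)) (.cons 343 (.leaf 319 1982 (.cons 225 (.leaf 249 1797 (.cons 344 (.leaf 367 2174 (.cons 345 (.leaf 321 1988 (.leaf 369 2180 .nil)) .nil)) .nil)) .nil)) (.cons 247 (.leaf 223 1791 (.cons 249 (.leaf 225 1797 (.cons 250 (.leaf 274 1976 (.cons 271 (.leaf 344 1983 (.leaf 251 1978 .nil)) .nil)) .nil)) .nil)) (.cons 223 (.leaf 247 1791 (.cons 343 (.leaf 319 1982 (.cons 344 (.leaf 367 2174 (.cons 345 (.leaf 321 1988 (.leaf 369 2180 .nil)) .nil)) .nil)) .nil)) (.cons 247 (.leaf 223 1791 (.cons 249 (.leaf 225 1797 (.cons 319 (.leaf 343 1982 (.cons 250 (.leaf 274 1976 (.cons 271 (.leaf 251 1978 (.leaf 270 1970 .nil)) .nil)) .nil)) .nil)) .nil))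 .nil))))) (.cons 224 (.cons 199 (.leaf 223 1599 (.cons 200 (.leaf 175 1407 (.cons 271 (.leaf 295 1598 (.cons 247 (.leaf 176 1406 (.cons 320 (.leaf 344 1983 (.cons 321 (.leaf 297 1796 (.leaf 345 1988 .nil)) .nil)) .nil)) .nil)) .nil)) .nil)) (.cons 225 (.leaf 201 1605 (.cons 320 (.leaf 249 1797 (.cons 321 (.leaf 297 1796 (.leaf 345 1988 .nil)) .nil)) .nil)) (.cons 199 (.leaf 223 1599 (.cons 200 (.leaf 175 1407 (.cons 271 (.leaf 295 1598 (.cons 247 (.leaf 176 1406 (.cons 320 (.leaf 344 1983 (.cons 249 (.leaf 225 1797 (.cons 250 (.leaf 274 1976 (.leaf 251 1978 .nil)) .nil)) .nil)) .nil)) .nil)) .nil)) .nil)) (.cons 199 (.leaf 223 1599 (.cons 200 (.leaf 175 1407 (.cons 201 (.leaf 177 1413 (.leaf 225 1605 .nil)) .nil)) .nil)) .nil)))) (.cons 320 (.cons 225 (.leaf 249 1797 (.cons 224 (.leaf 201 1605 (.cons 321 (.leaf 297 1796 (.leaf 345 1988 .nil)) .nil)) .nil)) (.cons 225 (.leaf 249 1797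 (.cons 224 (.leaf 201 1605 (.cons 295 (.leaf 319 1790 (.cons 271 (.leaf 200 1598 (.cons 344 (.leaf 247 1983 (.leaf 368 2175 .nil)) .nil)) .nil)) .nil)) .nil)) (.cons 319 (.leaf 343 1982 (.cons 224 (.leaf 295 1790 (.cons 321 (.leaf 297 1796 (.leaf 345 1988 .nil)) .nil)) .nil)) (.cons 343 (.leaf 319 1982 (.cons 225 (.leaf 249 1797 (.cons 344 (.leaf 367 2174 (.cons 345 (.leaf 321 1988 (.leaf 369 2180 .nil)) .nil)) .nil)) .nil)) .nil)))) (.cons 320 (.cons 343 (.leaf 319 1982 (.cons 225 (.leaf 249 1797 (.cons 344 (.leaf 367 2174 (.cons 345 (.leaf 321 1988 (.leaf 369 2180 .nil)) .nil)) .nil)) .nil)) (.cons 223 (.leaf 247 1791 (.cons 224 (.leaf 199 1599 (.cons 225 (.leaf 201 1605 (.leaf 249 1797 .nil)) .nil)) .nil)) (.cons 319 (.leaf 343 1982 (.cons 224 (.leaf 295 1790 (.cons 321 (.leaf 297 1796 (.leaf 345 1988 .nil)) .nil)) .nil)) .nil))) (.cons 224 (.cons 199 (.leaf 223 1599 (.cons 200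 (.leaf 175 1407 (.cons 271 (.leaf 295 1598 (.cons 247 (.leaf 176 1406 (.cons 320 (.leaf 344 1983 (.cons 249 (.leaf 225 1797 (.cons 250 (.leaf 274 1976 (.leaf 251 1978 .nil)) .nil)) .nil)) .nil)) .nil)) .nil)) .nil)) (.cons 295 (.leaf 319 1790 (.cons 200 (.leaf 271 1598 (.cons 175 (.leaf 199 1407 (.cons 176 (.leaf 151 1215 (.cons 177 (.leaf 201 1413 (.leaf 153 1221 .nil)) .nil)) .nil)) .nil)) .nil)) (.cons 223 (.leaf 199 1599 (.cons 201 (.leaf 225 1605 (.cons 200 (.leaf 177 1413 (.cons 202 (.leaf 203 1594 (.cons 221 (.leaf 222 1577 (.cons 247 (.leaf 320 1791 (.cons 176 (.leaf 271 1406 (.leaf 152 1214 .nil)) .nil)) .nil)) .nil)) .nil)) .nil)) .nil)) (.cons 295 (.leaf 319 1790 (.cons 200 (.leaf 271 1598 (.cons 201 (.leaf 177 1413 (.leaf 225 1605 .nil)) .nil)) .nil)) (.cons 223 (.leaf 199 1599 (.cons 201 (.leaf 225 1605 (.cons 319 (.leaf 295 1790 (.cons 320 (.leaf 247 1791 (.leaf 343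 1982 .nil)) .nil)) .nil)) .nil)) .nil))))) (.cons 320 (.cons 223 (.leaf 247 1791 (.cons 343 (.leaf 319 1982 (.cons 344 (.leaf 367 2174 (.cons 345 (.leaf 321 1988 (.leaf 369 2180 .nil)) .nil)) .nil)) .nil)) (.cons 223 (.leaf 247 1791 (.cons 224 (.leaf 199 1599 (.cons 321 (.leaf 297 1796 (.leaf 345 1988 .nil)) .nil)) .nil)) (.cons 223 (.leaf 247 1791 (.cons 224 (.leaf 199 1599 (.cons 319 (.leaf 295 1790 (.leaf 343 1982 .nil)) .nil)) .nil)) (.cons 319 (.leaf 343 1982 (.cons 224 (.leaf 295 1790 (.cons 321 (.leaf 297 1796 (.leaf 345 1988 .nil)) .nil)) .nil)) .nil)))) .nil))))))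
noncomputable def t179 : T := .cons 251 (.leaf 252 1985 (.cons 271 (.leaf 250 1977 (.cons 299 (.leaf 300 2176 (.leaf 298 2168 .nil)) .nil)) .nil)) (.cons 251 (.leaf 252 1985 (.cons 271 (.leaf 250 1977 (.cons 246 (.leaf 247 1971 (.cons 270 (.leaf 245 1963 (.cons 297 (.leaf 269 2152 (.leaf 298 2160 .nil)) .nil)) .nil)) .nil)) .nil)) (.cons 247 (.leaf 248 1979 (.cons 271 (.leaf 246 1971 (.cons 299 (.leaf 300 2176 (.leaf 298 2168 .nil)) .nil)) .nil)) (.cons 248 (.leaf 247 1979 (.cons 251 (.leaf 252 1985 (.cons 299 (.leaf 300 2176 (.cons 224 (.cons 297 (.leaf 200 1604 (.leaf 321 1796 .nil)) (.cons 199 (.leaf 223 1599 (.cons 200 (.leaf 175 1407 (.cons 201 (.leaf 177 1413 (.leaf 225 1605 .nil)) .nil)) .nil)) (.cons 199 (.leaf 223 1599 (.cons 225 (.leaf 201 1605 (.cons 320 (.leaf 249 1797 (.cons 319 (.leaf 343 1982 (.cons 298 (.leaf 297 2362 (.cons 227 (.leaf 203 1622 (.leaf 322 1814 .nil))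 .nil)) .nil)) .nil)) .nil)) .nil)) .nil))) .nil)) .nil)) .nil)) (.cons 248 (.leaf 247 1979 (.cons 251 (.leaf 252 1985 (.cons 250 (.leaf 271 1977 (.cons 224 (.cons 223 (.leaf 199 1599 (.leaf 249 1787 .nil)) (.cons 297 (.leaf 200 1604 (.leaf 321 1796 .nil)) .nil)) .nil)) .nil)) .nil)) .nil))))
noncomputable def t180 : T := .cons 320 (.leaf 344 1989 (.cons 225 (.leaf 201 1606 (.leaf 248 1797 .nil)) .nil)) (.cons 225 (.leaf 201 1606 (.cons 297 (.cons 298 (.leaf 322 1804 (.cons 271 (.leaf 270 2160 (.leaf 299 2171 .nil)) .nil)) (.cons 224 (.leaf 200 1607 (.cons 248 (.leaf 321 1796 (.cons 223 (.leaf 199 1599 (.cons 222 (.leaf 221 1768 (.leaf 250 1776 .nil)) .nil)) .nil)) .nil)) .nil)) .nil)) (.cons 320 (.leaf 344 1989 (.cons 248 (.cons 319 (.leaf 343 1982 (.cons 295 (.leaf 224 1790 (.cons 294 (.leaf 293 2153 (.cons 321 (.leaf 345 1988 (.leaf 322 2355 .nil)) .nil)) .nil)) .nil)) (.cons 247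 (.leaf 223 1791 (.cons 246 (.leaf 245 1960 (.cons 221 (.leaf 222 1771 (.cons 270 (.leaf 269 1962 (.cons 271 (.leaf 250 1969 (.cons 294 (.leaf 293 2154 (.cons 297 (.leaf 298 2160 (.cons 318 (.leaf 342 1973 (.cons 319 (.leaf 343 1972 (.leaf 317 2345 .nil)) .nil)) .nil)) .nil)) .nil)) .nil)) .nil)) .nil)) .nil)) (.cons 247 (.leaf 223 1791 (.cons 246 (.leaf 245 1960 (.cons 221 (.leaf 222 1771 (.cons 270 (.leaf 269 1962 (.cons 271 (.leaf 250 1969 (.cons 294 (.leaf 293 2154 (.cons 297 (.leaf 298 2160 (.cons 318 (.leaf 342 1973 (.cons 321 (.leaf 224 1796 (.leaf 345 1988 .nil)) .nil)) .nil)) .nil)) .nil)) .nil)) .nil)) .nil)) .nil)) (.cons 223 (.leaf 247 1791 (.cons 321 (.leaf 345 1988 (.cons 224 (.leaf 199 1599 (.leaf 297 1796 .nil)) .nil)) .nil)) .nil)))) .nil)) (.cons 320 (.leaf 344 1989 (.cons 225 (.leaf 201 1606 (.leaf 297 1798 .nil)) .nil)) .nil)))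
noncomputable def t181 : T := .cons 274 (.leaf 295 2170 (.cons 247 (.leaf 248 1979 (.cons 251 (.leaf 252 1985 (.cons 271 (.leaf 246 1971 (.leaf 250 1977 .nil)) .nil)) .nil)) .nil)) (.cons 249 t180 (.cons 274 t179 (.cons 274 (.leaf 295 2170 (.cons 299 (.leaf 300 2176 (.cons 251 (.leaf 252 1985 (.cons 227 (.cons 204 (.leaf 228 1629 (.cons 203 (.leaf 180 1437 (.leaf 298 1622 .nil)) .nil)) (.cons 204 (.leaf 228 1629 (.cons 203 (.leaf 180 1437 (.cons 178 (.leaf 202 1431 (.cons 179 (.leaf 250 1430 (.leaf 154 1239 .nil)) .nil)) .nil)) .nil)) (.cons 204 (.leaf 228 1629 (.cons 322 (.leaf 298 1814 (.cons 323 (.leaf 346 2006 (.cons 324 (.leaf 348 2012 (.cons 321 (.leaf 297 2371 (.cons 344 (.leaf 345 2562 (.cons 320 (.leaf 249 1989 (.leaf 343 2554 .nil)) .nil)) .nil)) .nil)) .nil)) .nil)) .nil)) (.cons 298 (.leaf 203 1622 (.leaf 322 1814 .nil)) .nil)))) .nil)) .nil)) .nil)) (.cons 274 (.leaf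 295 2170 (.cons 247 (.leaf 248 1979 (.cons 271 (.leaf 246 1971 (.cons 299 (.leaf 300 2176 (.leaf 298 2168 .nil)) .nil)) .nil)) .nil)) .nil))))
noncomputable def top0 : T := .cons 248 t113 (.cons 320 (t107) (.cons 320 (.cons 248 (.cons 223 (.leaf 247 1791 (.cons 224 (.leaf 199 1599 (.cons 319 (.leaf 295 1790 (.leaf 343 1982 .nil)) .nil)) .nil)) (.cons 223 (.leaf 247 1791 (.cons 224 (.leaf 199 1599 (.cons 321 (.leaf 297 1796 (.leaf 345 1988 .nil)) .nil)) .nil)) (.cons 319 (.leaf 343 1982 (.cons 224 (.leaf 295 1790 (.cons 321 (.leaf 297 1796 (.leaf 345 1988 .nil)) .nil)) .nil)) (.cons 223 (.leaf 247 1791 (.cons 343 (.leaf 319 1982 (.cons 344 (.leaf 367 2174 (.cons 345 (.leaf 321 1988 (.leaf 369 2180 .nil)) .nil)) .nil)) .nil)) .nil)))) t102) (.cons 320 t99 (.cons 295 t92 (.cons 295 t84 (.cons 295 t74 (.cons 320 t65 (.cons 295 t62 (.cons 295 t57 (.cons 295 t50 (.cons 320 t44 (.cons 248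 t40 (.cons 248 (t31) (.cons 295 t24 (.cons 248 t18 (.cons 248 t12 (.cons 295 t9 (.cons 295 (t4) .nil))))))))))))))))))
noncomputable def top1 : T := .cons 273 t181 (.cons 248 (.cons 224 (.cons 295 (.leaf 319 1790 (.cons 200 (.leaf 271 1598 (.cons 175 (.leaf 199 1407 (.cons 176 (.leaf 151 1215 (.cons 177 (.leaf 201 1413 (.leaf 153 1221 .nil)) .nil)) .nil)) .nil)) .nil)) (.cons 223 (.leaf 199 1599 (.cons 320 (.leaf 247 1791 (.cons 225 (.leaf 201 1605 (.leaf 249 1797 .nil)) .nil)) .nil)) (.cons 295 (.leaf 319 1790 (.cons 271 (.leaf 200 1598 (.cons 321 (.leaf 297 1796 (.cons 320 (.leaf 345 1988 (.cons 247 (.leaf 223 1788 (.leaf 344 1983 .nil)) .nil)) .nil)) .nil)) .nil)) .nil))) t178) (.cons 320 (t177) (.cons 295 (.cons 273 (.leaf 274 2170 (.cons 294 (.leaf 293 2153 (.cons 297 t175 .nil)) .nil)) (.cons 297 t82 (.cons 294 t174 (.cons 274 (.leaf 273 2170 (.cons 298 (.leaf 297 2169 (.cons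 251 t172 .nil)) .nil)) (.cons 273 (.leaf 274 2170 (.cons 271 t171 .nil)) (.cons 273 (.leaf 274 2170 (.cons 294 (.leaf 293 2153 (.cons 297 t170 .nil)) .nil)) (.cons 274 (.leaf 273 2170 (.cons 298 (.leaf 297 2169 (.cons 251 t169 .nil)) .nil)) (.cons 273 (.leaf 274 2170 (.cons 294 t168 .nil)) .nil)))))))) (.cons 295 t167 (.cons 320 (t161) (.cons 273 t158 (.cons 273 t154 (.cons 295 (.cons 273 (.leaf 274 2170 (.cons 294 (.leaf 293 2153 (.cons 297 (.cons 270 (.leaf 269 2155 (.cons 271 (.leaf 298 2160 (.cons 246 (.leaf 245 1963 (.cons 222 (.leaf 198 1588 (.leaf 319 1780 .nil)) .nil)) .nil)) .nil)) (.cons 318 (.leaf 317 2346 (.cons 298 (.leaf 319 2354 (.cons 299 (.leaf 271 2171 (.leaf 300 2179 .nil)) .nil)) .nil)) (.cons 270 (.leaf 269 2155 (.cons 318 (.leaf 317 2346 (.cons 246 (.cons 245 (.leaf 271 1963 (.leaf 221 1775 .nil)) (.cons 319 (.leaf 222 1780 (.leaf 343 1972 .nil)) .nil)) .nil))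 .nil)) (.cons 321 (.leaf 322 2352 (.cons 269 (.leaf 270 2155 (.cons 345 (.leaf 248 1991 (.leaf 369 2183 .nil)) .nil)) .nil)) .nil)))) .nil)) .nil)) t151) (.cons 295 t147 (.cons 273 t142 (.cons 295 t138 (.cons 273 t133 (.cons 273 t131 (.cons 273 t128 (.cons 295 t125 (.cons 273 t122 (.cons 273 t120 (.cons 295 (.cons 273 (.leaf 274 2170 (.cons 294 (.leaf 293 2153 (.cons 297 (.cons 318 (.leaf 317 2346 (.cons 269 (.leaf 270 2155 (.cons 298 (.leaf 319 2354 (.cons 299 (.leaf 271 2171 (.leaf 300 2179 .nil)) .nil)) .nil)) .nil)) (.cons 318 (.leaf 317 2346 (.cons 298 (.leaf 319 2354 (.cons 299 (.leaf 271 2171 (.leaf 300 2179 .nil)) .nil)) .nil)) (.cons 321 (.leaf 322 2352 (.cons 317 (.leaf 318 2346 (.cons 345 (.leaf 248 1991 (.leaf 369 2183 .nil)) .nil)) .nil)) (.cons 270 (.leaf 269 2155 (.cons 271 (.leaf 298 2160 (.cons 246 (.leaf 245 1963 (.cons 222 (.leaf 198 1588 (.leaf 319 1780 .nil))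 .nil)) .nil)) .nil)) .nil)))) .nil)) .nil)) (.cons 297 t117 t116)) .nil))))))))))))))))))

end Vale.Agent.P062.PB.N5D11
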