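import Vale.Agent.P062.Checker

namespace Vale.Agent.P062.PB.N5D12

open Vale.Agent.P062

noncomputable def t0 : T := .cons 269 (.leaf 270 2155 (.cons 293 (.leaf 268 2147 (.cons 317 (.leaf 316 2338 (.leaf 318 2346 .nil)) .nil)) .nil)) (.cons 317 (.leaf 318 2346 (.cons 293 (.leaf 316 2338 (.cons 319 (.cons 248 (.leaf 224 1790 (.cons 271 (.leaf 343 1981 (.leaf 292 2145 .nil)) .nil)) (.cons 248 (.leaf 224 1790 (.cons 343 (.leaf 271 1981 (.leaf 320 1982 .nil)) .nil)) (.cons 292 (.leaf 271 2145 (.leaf 320 2336 .nil)) (.cons 320 (.leaf 321 2344 (.leaf 292 2336 .nil)) .nil)))) .nil)) .nil)) (.cons 269 (.leaf 270 2155 (.cons 293 (.leaf 268 2147 (.cons 292 (.leaf 271 2145 (.cons 315 (.leaf 316 2330 (.cons 291 (.leaf 314 2322 (.cons 319 (.leaf 320 2336 (.leaf 318 2328 .nil)) .nil)) .nil)) .nil)) .nil)) .nil)) (.cons 269 (.leaf 270 2155 (.cons 293 (.leaf 268 2147 (.cons 292 (.leaf 271 2145 (.cons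 316 (.leaf 317 2338 (.leaf 315 2330 .nil)) .nil)) .nil)) .nil)) (.cons 270 (.leaf 269 2155 (.cons 318 (.leaf 317 2346 (.cons 342 (.cons 271 (.leaf 366 2165 (.leaf 247 1973 .nil)) (.cons 343 (.leaf 367 2164 (.cons 365 (.leaf 341 2158 (.cons 366 (.leaf 389 2350 (.cons 319 (.leaf 390 2357 (.cons 248 (.leaf 224 1790 (.leaf 320 1982 .nil)) .nil)) .nil)) .nil)) .nil)) (.cons 271 (.leaf 247 1973 (.cons 341 (.leaf 365 2158 (.cons 343 (.leaf 367 2164 (.cons 319 (.leaf 248 1981 (.cons 340 (.leaf 339 2521 (.leaf 320 2529 .nil)) .nil)) .nil)) .nil)) .nil)) .nil))) .nil)) .nil)) .nil))))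
noncomputable def t1 : T := .cons 270 (.leaf 269 2155 (.cons 298 (.leaf 271 2160 (.cons 318 (.leaf 317 2346 (.leaf 319 2354 .nil)) .nil)) .nil)) (.cons 318 (.leaf 317 2346 (.cons 298 (.leaf 319 2354 (.cons 299 (.leaf 271 2171 (.leaf 300 2179 .nil)) .nil)) .nil)) (.cons 270 (.leaf 269 2155 (.cons 318 (.leaf 317 2346 (.cons 342 (.cons 271 (.leaf 366 2165 (.leaf 247 1973 .nil)) (.cons 367 (.leaf 343 2164 (.cons 365 (.leaf 341 2158 (.cons 366 (.leaf 389 2350 (.leaf 391 2356 .nil)) .nil)) .nil)) (.cons 271 (.leaf 247 1973 (.cons 341 (.leaf 365 2158 (.cons 343 (.leaf 367 2164 (.cons 319 (.leaf 248 1981 (.cons 340 (.leaf 339 2521 (.leaf 320 2529 .nil)) .nil)) .nil)) .nil)) .nil)) .nil))) .nil)) .nil)) (.cons 270 (.leaf 269 2155 (.cons 298 (.leaf 271 2160 (.cons 299 (.leaf 300 2179 (.cons 323 (.leaf 322 2360 (.leaf 324 2368 .nil)) .nil)) .nil)) .nil)) (.cons 318 (.leaf 317 2346 (.cons 269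 (.leaf 270 2155 (.cons 319 (.leaf 298 2354 (.cons 343 (.leaf 367 2173 (.cons 320 (.leaf 248 1982 (.cons 344 (.leaf 249 1989 (.leaf 368 2181 .nil)) .nil)) .nil)) .nil)) .nil)) .nil)) .nil))))
noncomputable def t2 : T := .cons 223 (.leaf 247 1791 (.cons 225 (.leaf 249 1797 (.cons 343 (.leaf 319 1982 (.cons 344 (.leaf 367 2174 (.cons 368 (.leaf 271 2175 (.cons 392 (.leaf 321 2373 (.cons 393 (.leaf 369 2372 (.leaf 417 2564 .nil)) .nil)) .nil)) .nil)) .nil)) .nil)) .nil)) (.cons 321 (.leaf 345 1988 (.cons 225 (.leaf 249 1797 (.cons 247 (.leaf 223 1791 (.cons 322 (.leaf 323 2363 (.cons 344 (.leaf 271 1983 (.cons 367 (.leaf 343 2174 (.cons 368 (.leaf 391 2366 (.leaf 392 2373 .nil)) .nil)) .nil)) .nil)) .nil)) .nil)) .nil)) (.cons 247 (.leaf 223 1791 (.cons 344 (.leaf 271 1983 (.cons 345 (.leaf 321 1988 (.leaf 369 2180 .nil)) .nil)) .nil)) (.cons 319 (.leaf 343 1982 (.cons 247 (.leaf 223 1791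 (.cons 271 (.leaf 344 1980 (.cons 318 (.leaf 317 2345 (.leaf 342 1974 .nil)) .nil)) .nil)) .nil)) (.cons 319 (.leaf 343 1982 (.cons 317 (.leaf 318 2345 (.cons 345 (.leaf 321 1988 (.cons 225 (.leaf 249 1797 (.cons 344 (.leaf 369 2180 (.cons 368 (.leaf 271 2175 (.leaf 392 2367 .nil)) .nil)) .nil)) .nil)) .nil)) .nil)) (.cons 343 (.leaf 319 1982 (.cons 223 (.leaf 247 1791 (.cons 344 (.leaf 367 2174 (.cons 345 (.leaf 321 1988 (.leaf 369 2180 .nil)) .nil)) .nil)) .nil)) (.cons 319 (.leaf 343 1982 (.cons 225 (.leaf 249 1797 (.cons 247 (.leaf 223 1791 (.cons 318 (.leaf 317 2345 (.cons 321 (.leaf 345 1988 (.cons 342 (.leaf 271 1974 (.leaf 341 2538 .nil)) .nil)) .nil)) .nil)) .nil)) .nil)) .nil))))))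
noncomputable def t3 : T := .cons 269 (.leaf 270 2155 (.cons 321 (.leaf 322 2352 (.cons 345 (.leaf 369 2183 (.cons 344 (.leaf 368 2182 (.cons 320 (.leaf 249 1989 (.cons 318 (.leaf 317 2346 (.cons 271 (.leaf 247 1983 (.cons 346 (.leaf 370 2188 (.leaf 319 2544 .nil)) .nil)) .nil)) .nil)) .nil)) .nil)) .nil)) .nil)) (.cons 317 (.leaf 318 2346 (.cons 322 (.leaf 321 2352 (.cons 298 (.leaf 323 2360 (.cons 299 (.leaf 271 2171 (.leaf 300 2179 .nil)) .nil)) .nil)) .nil)) (.cons 270 (.leaf 269 2155 (.cons 298 (.leaf 271 2160 (.cons 318 (.leaf 317 2346 (.leaf 319 2354 .nil)) .nil)) .nil)) (.cons 269 (.leaf 270 2155 (.cons 321 (.leaf 322 2352 (.cons 345 (.leaf 369 2183 (.cons 344 (.leaf 368 2182 (.cons 320 (.leaf 249 1989 (.cons 247 (.leaf 271 1983 (.cons 343 (.leaf 367 2174 (.cons 346 (.leaf 370 2188 (.cons 347 (.leaf 348 2563 (.leaf 319 2555 .nil)) .nil)) .nil)) .nil)) .nil)) .nil)) .nil)) .nil))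 .nil)) (.cons 269 (.leaf 270 2155 (.cons 321 (.leaf 322 2352 (.cons 345 (.leaf 369 2183 (.cons 344 (.leaf 368 2182 (.cons 320 (.leaf 249 1989 (.cons 318 (.leaf 317 2346 (.cons 319 (.leaf 298 2353 (.leaf 346 2544 .nil)) .nil)) .nil)) .nil)) .nil)) .nil)) .nil)) .nil))))
noncomputable def t4 : T := .cons 248 (.leaf 224 1790 (.cons 320 (.leaf 343 1982 (.cons 249 (.leaf 225 1797 (.leaf 344 1989 .nil)) .nil)) .nil)) (.cons 248 (.leaf 224 1790 (.cons 320 (.cons 249 (.leaf 225 1797 (.leaf 344 1989 .nil)) (.cons 321 (.leaf 345 1988 (.leaf 322 2355 .nil)) .nil)) .nil)) (.cons 343 (.leaf 367 2173 (.cons 271 (.cons 344 (.leaf 368 2172 (.cons 342 (.leaf 366 2166 (.cons 320 (.leaf 247 1980 (.leaf 249 1989 .nil)) .nil)) .nil)) (.cons 342 (.leaf 366 2166 (.cons 247 (.leaf 318 1974 (.cons 223 (.leaf 199 1596 (.leaf 320 1788 .nil)) .nil)) .nil)) (.cons 344 (.leaf 368 2172 (.cons 320 (.leaf 247 1980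 (.leaf 249 1989 .nil)) .nil)) (.cons 342 (.leaf 366 2166 (.cons 318 (.leaf 247 1974 (.cons 344 (.leaf 368 2172 (.cons 317 (.leaf 316 2528 (.leaf 345 2539 .nil)) .nil)) .nil)) .nil)) (.cons 344 (.leaf 368 2172 (.cons 320 (.leaf 249 1989 (.cons 321 (.leaf 322 2355 (.cons 342 (.leaf 366 2166 (.leaf 341 2537 .nil)) .nil)) .nil)) .nil)) .nil))))) .nil)) (.cons 343 (.leaf 367 2173 (.cons 248 (.leaf 224 1790 (.leaf 271 1981 .nil)) .nil)) .nil)))
noncomputable def t5 : T := .cons 224 (.leaf 319 1790 (.cons 200 (.leaf 271 1598 (.cons 297 (.leaf 273 1604 (.leaf 321 1796 .nil)) .nil)) .nil)) (.cons 320 (.cons 225 (.leaf 249 1797 (.cons 343 (.leaf 319 1982 (.cons 344 (.leaf 367 2174 (.cons 368 (.leaf 271 2175 (.cons 369 (.leaf 345 2180 (.leaf 393 2372 .nil)) .nil)) .nil)) .nil)) .nil)) (.cons 223 (.leaf 247 1791 (.cons 321 (.leaf 345 1988 (.cons 294 (.leaf 293 2344 (.cons 322 (.leaf 297 2352 (.leaf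 323 2363 .nil)) .nil)) .nil)) .nil)) (.cons 225 (.leaf 249 1797 (.cons 343 (.leaf 319 1982 (.cons 344 (.leaf 367 2174 (.cons 368 (.leaf 271 2175 (.cons 297 (.leaf 273 2181 (.cons 321 (.leaf 392 2373 (.cons 322 (.leaf 294 2352 (.leaf 323 2554 .nil)) .nil)) .nil)) .nil)) .nil)) .nil)) .nil)) .nil))) (.cons 224 (.cons 200 (.leaf 271 1598 (.cons 297 (.leaf 273 1604 (.leaf 321 1796 .nil)) .nil)) (.cons 225 (.leaf 201 1605 (.cons 320 (.leaf 249 1797 (.cons 321 (.leaf 297 1796 (.leaf 345 1988 .nil)) .nil)) .nil)) (.cons 200 (.leaf 271 1598 (.cons 201 (.leaf 177 1413 (.leaf 225 1605 .nil)) .nil)) .nil))) (.cons 224 (.leaf 319 1790 (.cons 225 (.leaf 201 1605 (.cons 320 (.leaf 249 1797 (.cons 321 (.leaf 297 1796 (.leaf 345 1988 .nil)) .nil)) .nil)) .nil)) (.cons 224 (.leaf 319 1790 (.cons 200 (.leaf 271 1598 (.cons 201 (.leaf 177 1413 (.leaf 225 1605 .nil)) .nil)) .nil)) .nil))))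
noncomputable def t6 : T := .cons 273 (.leaf 274 2170 (.cons 294 (.leaf 293 2153 (.cons 297 (.cons 270 (.leaf 269 2155 (.cons 298 (.leaf 271 2160 (.cons 318 (.leaf 317 2346 (.leaf 319 2354 .nil)) .nil)) .nil)) (.cons 321 (.leaf 322 2352 (.cons 248 (.leaf 224 1796 (.leaf 345 1991 .nil)) .nil)) .nil)) .nil)) .nil)) (.cons 297 (.cons 298 (.leaf 274 2169 (.cons 318 (.leaf 319 2354 (.cons 271 (.leaf 299 2171 (.leaf 270 2163 .nil)) .nil)) .nil)) (.cons 294 (.cons 321 (.leaf 322 2352 (.cons 248 (.leaf 224 1796 (.cons 345 (.leaf 320 1988 (.leaf 369 2183 .nil)) .nil)) .nil)) (.cons 269 (.leaf 270 2155 (.cons 293 (.leaf 268 2147 (.cons 317 (.leaf 316 2338 (.leaf 318 2346 .nil)) .nil)) .nil)) .nil)) (.cons 298 (.leaf 274 2169 (.cons 318 (.leaf 319 2354 (.cons 294 (.leaf 317 2346 (.cons 322 (.leaf 321 2352 (.leaf 323 2360 .nil)) .nil)) .nil)) .nil)) (.cons 298 (.leaf 274 2169 (.cons 271 (.leaf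 299 2171 (.leaf 270 2163 .nil)) .nil)) .nil)))) (.cons 248 t5 (.cons 273 (.leaf 274 2170 (.cons 294 (.leaf 293 2153 (.cons 319 t4 .nil)) .nil)) (.cons 273 (.leaf 274 2170 (.cons 294 (.leaf 293 2153 (.cons 297 (.cons 321 (.leaf 322 2352 (.cons 248 (.leaf 224 1796 (.leaf 345 1991 .nil)) .nil)) (.cons 270 (.leaf 269 2155 (.cons 298 (.leaf 271 2160 (.cons 299 (.leaf 300 2179 (.cons 323 (.leaf 322 2360 (.leaf 324 2368 .nil)) .nil)) .nil)) .nil)) (.cons 270 (.leaf 269 2155 (.cons 271 (.leaf 298 2160 (.cons 318 (.leaf 317 2346 (.cons 247 (.leaf 223 1782 (.leaf 342 1973 .nil)) .nil)) .nil)) .nil)) .nil))) .nil)) .nil)) (.cons 273 (.leaf 274 2170 (.cons 294 (.leaf 293 2153 (.cons 297 t3 .nil)) .nil)) (.cons 274 (.leaf 273 2170 (.cons 297 (.leaf 298 2169 (.cons 248 (.cons 319 (.leaf 224 1790 (.cons 343 (.leaf 271 1981 (.leaf 320 1982 .nil)) .nil)) (.cons 320 t2 (.cons 224 (.leaf 321 1796 (.cons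 199 (.leaf 223 1599 (.cons 200 (.leaf 175 1407 (.leaf 271 1598 .nil)) .nil)) .nil)) (.cons 224 (.leaf 319 1790 (.leaf 321 1796 .nil)) .nil)))) .nil)) .nil)) (.cons 273 (.leaf 274 2170 (.cons 294 (.leaf 293 2153 (.cons 297 (.cons 317 (.leaf 318 2346 (.cons 321 (.leaf 322 2352 (.cons 345 (.leaf 248 1991 (.leaf 369 2183 .nil)) .nil)) .nil)) (.cons 269 (.leaf 270 2155 (.cons 318 (.leaf 317 2346 (.cons 319 (.leaf 298 2354 (.cons 343 (.leaf 367 2173 (.cons 320 (.leaf 248 1982 (.cons 344 (.leaf 249 1989 (.leaf 368 2181 .nil)) .nil)) .nil)) .nil)) .nil)) .nil)) (.cons 321 (.leaf 322 2352 (.cons 248 (.leaf 224 1796 (.leaf 345 1991 .nil)) .nil)) (.cons 321 (.leaf 322 2352 (.cons 269 (.leaf 270 2155 (.cons 345 (.leaf 369 2183 (.cons 344 (.leaf 368 2182 (.cons 320 (.leaf 249 1989 (.cons 318 (.leaf 317 2346 (.cons 319 (.leaf 298 2353 (.leaf 346 2544 .nil)) .nil)) .nil)) .nil)) .nil)) .nil)) .nil))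 .nil)))) .nil)) .nil)) (.cons 273 (.leaf 274 2170 (.cons 294 (.leaf 293 2153 (.cons 297 t1 .nil)) .nil)) (.cons 274 (.leaf 273 2170 (.cons 297 (.leaf 298 2169 (.cons 294 t0 .nil)) .nil)) .nil)))))))))
noncomputable def t7 : T := .cons 322 (.leaf 346 2005 (.cons 227 (.leaf 203 1622 (.leaf 299 1814 .nil)) .nil)) (.cons 227 (.leaf 203 1622 (.cons 299 (.cons 228 (.leaf 204 1629 (.cons 300 (.leaf 324 1820 (.cons 301 (.leaf 302 2195 (.cons 277 (.leaf 278 2193 (.cons 325 (.leaf 326 2384 (.cons 253 (.leaf 252 1831 (.cons 230 (.leaf 254 1837 (.cons 229 (.leaf 250 1810 (.leaf 206 1645 .nil)) .nil)) .nil)) .nil)) .nil)) .nil)) .nil)) .nil)) (.cons 226 (.leaf 202 1623 (.cons 323 (.leaf 250 1812 (.cons 324 (.leaf 300 1820 (.leaf 348 2012 .nil)) .nil)) .nil)) (.cons 226 (.leaf 202 1623 (.cons 250 (.leaf 323 1812 (.cons 228 (.leaf 204 1629 (.cons 229 (.leaf 230 1810 (.leaf 249 1802 .nil)) .nil))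 .nil)) .nil)) (.cons 228 (.leaf 204 1629 (.cons 300 (.leaf 324 1820 (.cons 301 (.leaf 302 2195 (.cons 277 (.leaf 278 2193 (.cons 325 (.leaf 326 2384 (.cons 253 (.leaf 252 1831 (.cons 226 (.leaf 202 1623 (.cons 254 (.leaf 229 1808 (.leaf 230 1837 .nil)) .nil)) .nil)) .nil)) .nil)) .nil)) .nil)) .nil)) .nil)))) .nil)) (.cons 322 (.leaf 346 2005 (.cons 250 (.cons 225 (.leaf 249 1807 (.cons 321 (.leaf 345 1998 (.cons 323 (.leaf 320 2363 (.leaf 347 2004 .nil)) .nil)) .nil)) (.cons 225 (.leaf 249 1807 (.cons 226 (.leaf 201 1615 (.cons 202 (.leaf 178 1428 (.leaf 299 1620 .nil)) .nil)) .nil)) (.cons 323 (.leaf 347 2004 (.cons 299 (.leaf 226 1812 (.cons 324 (.leaf 348 2012 (.cons 325 (.leaf 326 2387 (.cons 252 (.leaf 228 1821 (.cons 253 (.leaf 254 2002 (.cons 229 (.leaf 230 1809 (.cons 277 (.leaf 278 2000 (.cons 301 (.leaf 302 2385 (.leaf 300 1830 .nil)) .nil)) .nil)) .nil)) .nil)) .nil)) .nil))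 .nil)) .nil)) .nil))) .nil)) (.cons 322 (.leaf 346 2005 (.cons 227 (.leaf 203 1622 (.leaf 250 1813 .nil)) .nil)) .nil)))
noncomputable def t8 : T := .cons 322 (.leaf 346 2005 (.cons 227 (.leaf 203 1622 (.leaf 299 1814 .nil)) .nil)) (.cons 227 (.leaf 203 1622 (.cons 299 (.cons 226 (.leaf 202 1623 (.cons 323 (.leaf 250 1812 (.cons 324 (.leaf 300 1820 (.leaf 348 2012 .nil)) .nil)) .nil)) (.cons 228 (.leaf 204 1629 (.cons 252 (.leaf 323 1821 (.cons 253 (.leaf 254 2002 (.cons 300 (.leaf 324 1820 (.cons 301 (.leaf 302 2195 (.cons 277 (.leaf 278 2193 (.leaf 325 1831 .nil)) .nil)) .nil)) .nil)) .nil)) .nil)) (.cons 300 (.leaf 324 1820 (.cons 228 (.leaf 204 1629 (.cons 301 (.leaf 302 2195 (.cons 277 (.leaf 278 2193 (.cons 325 (.leaf 326 2384 (.cons 253 (.leaf 252 1831 (.cons 230 (.leaf 254 1837 (.cons 229 (.leaf 250 1810 (.leaf 206 1645 .nil)) .nil)) .nil)) .nil)) .nil)) .nil)) .nil)) .nil))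 (.cons 226 (.leaf 202 1623 (.cons 250 (.leaf 323 1812 (.cons 228 (.leaf 204 1629 (.cons 249 (.leaf 248 1793 (.leaf 229 1802 .nil)) .nil)) .nil)) .nil)) .nil)))) .nil)) (.cons 322 (.leaf 346 2005 (.cons 250 (.cons 225 (.leaf 249 1807 (.cons 321 (.leaf 345 1998 (.cons 323 (.leaf 320 2363 (.leaf 347 2004 .nil)) .nil)) .nil)) (.cons 225 (.leaf 249 1807 (.cons 226 (.leaf 201 1615 (.cons 202 (.leaf 178 1428 (.leaf 299 1620 .nil)) .nil)) .nil)) (.cons 323 (.leaf 347 2004 (.cons 299 (.leaf 226 1812 (.cons 324 (.leaf 348 2012 (.cons 325 (.leaf 326 2387 (.cons 252 (.leaf 228 1821 (.cons 253 (.leaf 254 2002 (.cons 229 (.leaf 230 1809 (.cons 277 (.leaf 278 2000 (.cons 301 (.leaf 302 2385 (.leaf 300 1830 .nil)) .nil)) .nil)) .nil)) .nil)) .nil)) .nil)) .nil)) .nil)) .nil))) .nil)) (.cons 322 (.leaf 346 2005 (.cons 227 (.leaf 203 1622 (.leaf 250 1813 .nil)) .nil)) .nil)))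
noncomputable def t9 : T := .cons 293 (.leaf 273 2153 (.cons 292 (.leaf 271 2145 (.cons 268 (.leaf 269 2147 (.leaf 267 2139 .nil)) .nil)) .nil)) (.cons 297 (.cons 269 (.leaf 270 2155 (.cons 318 (.leaf 317 2346 (.cons 321 (.leaf 322 2352 (.cons 248 (.leaf 224 1796 (.cons 345 (.leaf 273 1991 (.leaf 320 1988 .nil)) .nil)) .nil)) .nil)) .nil)) (.cons 270 (.leaf 269 2155 (.cons 271 (.leaf 298 2163 (.cons 318 (.leaf 317 2346 (.cons 342 (.leaf 366 2165 (.leaf 247 1973 .nil)) .nil)) .nil)) .nil)) (.cons 321 (.leaf 322 2352 (.cons 224 (.leaf 248 1796 (.cons 318 (.leaf 317 2346 (.cons 298 (.leaf 319 2354 (.cons 299 (.leaf 271 2171 (.cons 300 (.leaf 273 2179 (.leaf 320 2370 .nil)) .nil)) .nil)) .nil)) .nil)) .nil)) (.cons 321 (.leaf 322 2352 (.cons 248 (.leaf 224 1796 (.cons 345 (.leaf 273 1991 (.leaf 320 1988 .nil)) .nil)) .nil)) .nil)))) (.cons 293 (.cons 292 (.leaf 271 2145 (.cons 268 (.leaf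 269 2147 (.leaf 267 2139 .nil)) .nil)) (.cons 269 (.leaf 268 2147 (.cons 270 (.leaf 297 2155 (.cons 317 (.leaf 316 2338 (.cons 320 (.leaf 321 2344 (.cons 341 (.leaf 365 2157 (.cons 340 (.leaf 364 2150 (.cons 318 (.leaf 319 2530 (.cons 342 (.leaf 245 1964 (.leaf 366 2156 .nil)) .nil)) .nil)) .nil)) .nil)) .nil)) .nil)) .nil)) (.cons 271 (.leaf 292 2145 (.cons 317 (.leaf 316 2338 (.cons 297 (.leaf 318 2346 (.cons 298 (.leaf 299 2171 (.leaf 270 2163 .nil)) .nil)) .nil)) .nil)) .nil))) (.cons 293 (.leaf 273 2153 (.cons 269 (.leaf 268 2147 (.cons 270 (.leaf 297 2155 (.cons 317 (.leaf 316 2338 (.cons 320 (.leaf 321 2344 (.cons 341 (.leaf 365 2157 (.cons 340 (.leaf 364 2150 (.cons 318 (.leaf 319 2530 (.cons 342 (.leaf 245 1964 (.leaf 366 2156 .nil)) .nil)) .nil)) .nil)) .nil)) .nil)) .nil)) .nil)) .nil)) (.cons 293 (.leaf 273 2153 (.cons 271 (.leaf 292 2145 (.cons 317 (.leaf 316 2338 (.cons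 297 (.leaf 318 2346 (.cons 298 (.leaf 299 2171 (.leaf 270 2163 .nil)) .nil)) .nil)) .nil)) .nil)) .nil))))
noncomputable def t10 : T := .cons 298 (.leaf 274 2169 (.cons 318 (.leaf 319 2354 (.cons 271 (.leaf 299 2171 (.leaf 270 2163 .nil)) .nil)) .nil)) (.cons 294 (.cons 269 (.leaf 270 2155 (.cons 293 (.leaf 268 2147 (.cons 321 (.leaf 320 2344 (.leaf 322 2352 .nil)) .nil)) .nil)) (.cons 269 (.leaf 270 2155 (.cons 293 (.leaf 268 2147 (.cons 317 (.leaf 316 2338 (.leaf 318 2346 .nil)) .nil)) .nil)) (.cons 321 (.leaf 322 2352 (.cons 293 (.leaf 320 2344 (.cons 317 (.leaf 316 2338 (.leaf 318 2346 .nil)) .nil)) .nil)) (.cons 321 (.leaf 322 2352 (.cons 269 (.leaf 270 2155 (.cons 318 (.leaf 317 2346 (.cons 345 (.leaf 369 2183 (.cons 320 (.leaf 248 1988 (.cons 319 (.leaf 346 2544 (.cons 342 (.leaf 341 2538 (.cons 271 (.leaf 247 1974 (.leaf 366 2165 .nil)) .nil)) .nil)) .nil)) .nil)) .nil)) .nil))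 .nil)) .nil)))) (.cons 298 (.leaf 274 2169 (.cons 271 (.leaf 299 2171 (.leaf 270 2163 .nil)) .nil)) (.cons 298 (.leaf 274 2169 (.cons 318 (.leaf 319 2354 (.cons 294 (.leaf 317 2346 (.cons 269 (.leaf 270 2155 (.cons 322 (.leaf 321 2352 (.leaf 323 2360 .nil)) .nil)) .nil)) .nil)) .nil)) (.cons 298 (.leaf 274 2169 (.cons 318 (.leaf 319 2354 (.cons 294 (.leaf 317 2346 (.cons 322 (.leaf 321 2352 (.leaf 323 2360 .nil)) .nil)) .nil)) .nil)) .nil))))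
noncomputable def t11 : T := .cons 273 (.leaf 274 2170 (.cons 294 (.leaf 293 2153 (.cons 297 (.cons 318 (.leaf 317 2346 (.cons 269 (.leaf 270 2155 (.cons 319 (.leaf 298 2354 (.cons 343 (.leaf 367 2173 (.cons 320 (.leaf 248 1982 (.cons 344 (.leaf 249 1989 (.leaf 368 2181 .nil)) .nil)) .nil)) .nil)) .nil)) .nil)) (.cons 318 (.leaf 317 2346 (.cons 298 (.leaf 319 2354 (.cons 299 (.leaf 271 2171 (.leaf 300 2179 .nil)) .nil)) .nil)) (.cons 321 (.leaf 322 2352 (.cons 248 (.leaf 224 1796 (.leaf 345 1991 .nil)) .nil)) .nil))) .nil)) .nil)) (.cons 297 t10 (.cons 294 t9 (.cons 273 (.leaf 274 2170 (.cons 294 (.leaf 293 2153 (.cons 319 (.cons 248 (.leaf 224 1790 (.cons 343 (.leaf 271 1981 (.leaf 320 1982 .nil)) .nil)) (.cons 248 (.leaf 224 1790 (.cons 320 (.cons 321 (.leaf 345 1988 (.leaf 322 2355 .nil)) (.cons 249 (.leaf 225 1797 (.leaf 344 1989 .nil)) .nil)) .nil)) (.cons 343 (.leaf 367 2173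 (.cons 344 (.cons 320 (.leaf 249 1989 (.cons 321 (.leaf 322 2355 (.cons 341 (.leaf 342 2537 (.cons 345 (.leaf 369 2180 (.cons 318 (.leaf 317 2536 (.leaf 346 2544 .nil)) .nil)) .nil)) .nil)) .nil)) (.cons 271 (.leaf 368 2172 (.cons 342 (.leaf 366 2166 (.cons 318 (.leaf 247 1974 (.cons 317 (.leaf 316 2528 (.leaf 345 2539 .nil)) .nil)) .nil)) .nil)) (.cons 271 (.leaf 368 2172 (.cons 320 (.leaf 247 1980 (.leaf 249 1989 .nil)) .nil)) .nil))) .nil)) (.cons 343 (.leaf 367 2173 (.cons 248 (.leaf 224 1790 (.leaf 271 1981 .nil)) .nil)) .nil)))) .nil)) .nil)) (.cons 273 (.leaf 274 2170 (.cons 294 (.leaf 293 2153 (.cons 297 (.cons 321 (.leaf 322 2352 (.cons 248 (.leaf 224 1796 (.leaf 345 1991 .nil)) .nil)) (.cons 270 (.leaf 269 2155 (.cons 271 (.leaf 298 2160 (.cons 249 (.leaf 250 1969 (.cons 225 (.leaf 201 1606 (.leaf 320 1798 .nil)) .nil)) .nil)) .nil)) .nil)) .nil)) .nil)) (.cons 274 (.leaf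 273 2170 (.cons 298 (.leaf 297 2169 (.cons 251 t8 .nil)) .nil)) (.cons 274 (.leaf 273 2170 (.cons 298 (.leaf 297 2169 (.cons 251 t7 .nil)) .nil)) (.cons 273 (.leaf 274 2170 (.cons 294 (.leaf 293 2153 (.cons 297 (.cons 321 (.leaf 322 2352 (.cons 248 (.leaf 224 1796 (.leaf 345 1991 .nil)) .nil)) (.cons 269 (.leaf 270 2155 (.cons 318 (.leaf 317 2346 (.cons 298 (.leaf 319 2354 (.cons 299 (.leaf 271 2171 (.leaf 300 2179 .nil)) .nil)) .nil)) .nil)) .nil)) .nil)) .nil)) (.cons 273 (.leaf 274 2170 (.cons 294 (.leaf 293 2153 (.cons 297 (.cons 318 (.leaf 317 2346 (.cons 269 (.leaf 270 2155 (.cons 319 (.leaf 298 2354 (.cons 343 (.leaf 367 2173 (.cons 320 (.leaf 248 1982 (.cons 344 (.leaf 249 1989 (.leaf 368 2181 .nil)) .nil)) .nil)) .nil)) .nil)) .nil)) (.cons 318 (.leaf 317 2346 (.cons 298 (.leaf 319 2354 (.cons 299 (.leaf 271 2171 (.leaf 300 2179 .nil)) .nil)) .nil)) (.cons 270 (.leaf 269 2155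 (.cons 318 (.leaf 317 2346 (.cons 342 (.cons 271 (.leaf 366 2165 (.leaf 247 1973 .nil)) (.cons 365 (.leaf 341 2158 (.cons 367 (.leaf 343 2164 (.cons 366 (.leaf 389 2350 (.leaf 391 2356 .nil)) .nil)) .nil)) (.cons 271 (.leaf 247 1973 (.cons 249 (.leaf 250 1969 (.cons 320 (.leaf 344 1989 (.leaf 225 1798 .nil)) .nil)) .nil)) .nil))) .nil)) .nil)) (.cons 270 (.leaf 269 2155 (.cons 271 (.leaf 298 2160 (.cons 249 (.leaf 250 1969 (.cons 225 (.leaf 201 1606 (.leaf 320 1798 .nil)) .nil)) .nil)) .nil)) .nil)))) .nil)) .nil)) .nil))))))))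
noncomputable def t12 : T := .cons 270 (.leaf 269 2155 (.cons 318 (.leaf 317 2346 (.cons 342 (.cons 271 (.leaf 298 2160 (.leaf 366 2165 .nil)) (.cons 365 (.leaf 341 2158 (.cons 367 (.leaf 343 2164 (.cons 366 (.leaf 389 2350 (.leaf 391 2356 .nil)) .nil)) .nil)) (.cons 271 (.leaf 298 2160 (.leaf 247 1973 .nil)) .nil))) .nil)) .nil)) (.cons 318 (.leaf 317 2346 (.cons 298 (.leaf 319 2354 (.cons 299 (.leaf 271 2171 (.leaf 300 2179 .nil)) .nil)) .nil)) (.cons 318 (.leaf 317 2346 (.cons 269 (.leaf 270 2155 (.cons 319 (.leaf 298 2354 (.cons 343 (.leaf 367 2173 (.cons 320 (.leaf 248 1982 (.cons 344 (.leaf 249 1989 (.leaf 368 2181 .nil)) .nil)) .nil)) .nil)) .nil)) .nil)) (.cons 270 (.leaf 269 2155 (.cons 298 (.leaf 271 2160 (.cons 299 (.leaf 300 2179 (.cons 320 (.leaf 319 2362 (.cons 344 (.leaf 249 1989 (.leaf 368 2181 .nil)) .nil)) .nil)) .nil)) .nil)) (.cons 270 (.leaf 269 2155 (.cons 318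 (.leaf 317 2346 (.cons 342 (.cons 271 (.leaf 366 2165 (.leaf 247 1973 .nil)) (.cons 365 (.leaf 341 2158 (.cons 367 (.leaf 343 2164 (.cons 366 (.leaf 389 2350 (.leaf 391 2356 .nil)) .nil)) .nil)) (.cons 271 (.leaf 247 1973 (.cons 249 (.leaf 250 1969 (.cons 320 (.leaf 344 1989 (.cons 343 (.leaf 367 2164 (.cons 319 (.leaf 248 1981 (.cons 341 (.leaf 365 2158 (.leaf 321 2538 .nil)) .nil)) .nil)) .nil)) .nil)) .nil)) .nil))) .nil)) .nil)) .nil))))
noncomputable def t13 : T := .leaf 274 2170 (.cons 294 (.leaf 293 2153 (.cons 297 (.cons 318 (.leaf 317 2346 (.cons 269 (.leaf 270 2155 (.cons 319 (.leaf 298 2354 (.cons 343 (.leaf 367 2173 (.cons 320 (.leaf 248 1982 (.cons 344 (.leaf 249 1989 (.leaf 368 2181 .nil)) .nil)) .nil)) .nil)) .nil)) .nil)) (.cons 318 (.leaf 317 2346 (.cons 298 (.leaf 319 2354 (.cons 299 (.leaf 271 2171 (.leaf 300 2179 .nil)) .nil)) .nil)) (.cons 270 (.leaf 269 2155 (.cons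 298 (.leaf 271 2160 (.cons 299 (.leaf 300 2179 (.cons 323 (.leaf 322 2360 (.leaf 324 2368 .nil)) .nil)) .nil)) .nil)) (.cons 270 (.leaf 269 2155 (.cons 318 (.leaf 317 2346 (.cons 342 (.cons 271 (.leaf 366 2165 (.leaf 247 1973 .nil)) (.cons 365 (.leaf 341 2158 (.cons 367 (.leaf 343 2164 (.cons 366 (.leaf 389 2350 (.leaf 391 2356 .nil)) .nil)) .nil)) (.cons 271 (.leaf 247 1973 (.cons 249 (.leaf 250 1969 (.cons 320 (.leaf 344 1989 (.cons 343 (.leaf 367 2164 (.cons 319 (.leaf 248 1981 (.cons 341 (.leaf 365 2158 (.leaf 340 2529 .nil)) .nil)) .nil)) .nil)) .nil)) .nil)) .nil))) .nil)) .nil)) .nil)))) .nil)) .nil)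
noncomputable def t14 : T := .cons 322 (.leaf 346 2005 (.cons 227 (.leaf 203 1622 (.leaf 299 1814 .nil)) .nil)) (.cons 227 (.leaf 203 1622 (.cons 299 (.cons 226 (.leaf 202 1623 (.cons 323 (.leaf 250 1812 (.cons 324 (.leaf 300 1820 (.leaf 348 2012 .nil)) .nil)) .nil)) (.cons 228 (.leaf 204 1629 (.cons 252 (.leaf 323 1821 (.cons 253 (.leaf 254 2002 (.cons 300 (.leaf 324 1820 (.cons 301 (.leaf 302 2195 (.cons 277 (.leaf 278 2193 (.leaf 325 1831 .nil)) .nil)) .nil)) .nil)) .nil)) .nil)) (.cons 300 (.leaf 324 1820 (.cons 228 (.leaf 204 1629 (.cons 301 (.leaf 302 2195 (.cons 277 (.leaf 278 2193 (.cons 325 (.leaf 326 2384 (.cons 253 (.leaf 252 1831 (.cons 230 (.leaf 254 1837 (.cons 229 (.leaf 250 1810 (.leaf 206 1645 .nil)) .nil)) .nil)) .nil)) .nil)) .nil)) .nil)) .nil)) (.cons 226 (.leaf 202 1623 (.cons 250 (.leaf 323 1812 (.cons 228 (.leaf 204 1629 (.cons 229 (.leaf 230 1810 (.leaf 249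 1802 .nil)) .nil)) .nil)) .nil)) .nil)))) .nil)) (.cons 322 (.leaf 346 2005 (.cons 321 (.cons 250 (.leaf 345 1998 (.cons 323 (.leaf 320 2363 (.leaf 347 2004 .nil)) .nil)) (.cons 250 (.leaf 345 1998 (.cons 323 (.leaf 347 2004 (.cons 299 (.leaf 226 1812 (.cons 324 (.leaf 348 2012 (.cons 301 (.leaf 300 2377 (.cons 325 (.leaf 326 2387 (.leaf 302 2385 .nil)) .nil)) .nil)) .nil)) .nil)) .nil)) (.cons 345 (.leaf 250 1998 (.cons 369 (.leaf 393 2381 (.cons 320 (.leaf 344 2180 (.cons 319 (.leaf 294 2355 (.leaf 299 2361 .nil)) .nil)) .nil)) .nil)) (.cons 320 (.leaf 323 2363 (.cons 319 (.leaf 294 2355 (.leaf 299 2361 .nil)) .nil)) .nil)))) .nil)) (.cons 322 (.leaf 346 2005 (.cons 227 (.leaf 203 1622 (.leaf 250 1813 .nil)) .nil)) .nil)))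
noncomputable def t15 : T := .leaf 346 2005 (.cons 321 (.cons 250 (.leaf 345 1998 (.cons 248 (.cons 224 (.leaf 319 1790 (.cons 223 (.leaf 199 1599 (.leaf 249 1787 .nil)) .nil)) (.cons 224 (.leaf 319 1790 (.cons 323 (.leaf 320 2363 (.leaf 347 2004 .nil)) .nil)) (.cons 249 (.leaf 247 1976 (.leaf 271 1978 .nil)) .nil))) .nil)) (.cons 250 (.leaf 345 1998 (.cons 248 (.cons 224 (.leaf 319 1790 (.cons 223 (.leaf 199 1599 (.leaf 249 1787 .nil)) .nil)) (.cons 224 (.leaf 319 1790 (.cons 323 (.leaf 347 2004 (.cons 226 (.leaf 299 1812 (.cons 178 (.leaf 202 1428 (.cons 199 (.leaf 223 1599 (.cons 200 (.leaf 175 1407 (.leaf 271 1598 .nil)) .nil)) .nil)) .nil)) .nil)) .nil)) (.cons 249 (.leaf 247 1976 (.leaf 271 1978 .nil)) .nil))) .nil)) (.cons 345 (.leaf 250 1998 (.cons 369 (.leaf 393 2381 (.cons 320 (.leaf 248 1988 (.leaf 344 2180 .nil)) .nil)) .nil)) (.cons 320 (.leaf 323 2363 (.cons 319 (.leaf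 299 2361 (.cons 343 (.leaf 248 1982 (.leaf 367 2173 .nil)) .nil)) .nil)) (.cons 250 (.leaf 345 1998 (.cons 323 (.leaf 320 2363 (.leaf 347 2004 .nil)) .nil)) .nil))))) .nil)
noncomputable def t16 : T := .cons 322 (.leaf 346 2005 (.cons 227 (.leaf 203 1622 (.leaf 299 1814 .nil)) .nil)) (.cons 322 t15 (.cons 227 (.leaf 203 1622 (.cons 299 (.cons 228 (.leaf 204 1629 (.cons 300 (.leaf 324 1820 (.cons 301 (.leaf 302 2195 (.cons 277 (.leaf 278 2193 (.cons 325 (.leaf 326 2384 (.cons 253 (.leaf 252 1831 (.cons 230 (.leaf 254 1837 (.cons 229 (.leaf 250 1810 (.leaf 206 1645 .nil)) .nil)) .nil)) .nil)) .nil)) .nil)) .nil)) .nil)) (.cons 226 (.leaf 202 1623 (.cons 323 (.leaf 250 1812 (.cons 324 (.leaf 300 1820 (.leaf 348 2012 .nil)) .nil)) .nil)) (.cons 226 (.leaf 202 1623 (.cons 250 (.leaf 323 1812 (.cons 228 (.leaf 204 1629 (.cons 249 (.leaf 248 1793 (.leaf 229 1802 .nil)) .nil)) .nil)) .nil))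 (.cons 228 (.leaf 204 1629 (.cons 300 (.leaf 324 1820 (.cons 301 (.leaf 302 2195 (.cons 277 (.leaf 278 2193 (.cons 325 (.leaf 326 2384 (.cons 253 (.leaf 252 1831 (.cons 226 (.leaf 202 1623 (.cons 254 (.leaf 229 1808 (.leaf 230 1837 .nil)) .nil)) .nil)) .nil)) .nil)) .nil)) .nil)) .nil)) .nil)))) .nil)) (.cons 322 (.leaf 346 2005 (.cons 227 (.leaf 203 1622 (.leaf 250 1813 .nil)) .nil)) .nil)))
noncomputable def t17 : T := .cons 343 (.leaf 367 2173 (.cons 271 (.leaf 248 1981 (.cons 342 (.leaf 366 2166 (.cons 247 (.leaf 318 1974 (.cons 223 (.leaf 199 1596 (.leaf 320 1788 .nil)) .nil)) .nil)) .nil)) .nil)) (.cons 248 (.leaf 224 1790 (.cons 320 (.cons 321 (.leaf 345 1988 (.leaf 322 2355 .nil)) (.cons 247 (.leaf 223 1791 (.cons 344 (.leaf 271 1980 (.leaf 249 1989 .nil)) .nil)) .nil)) .nil)) (.cons 343 (.leaf 367 2173 (.cons 271 (.cons 342 (.leaf 366 2166 (.cons 247 (.leaf 318 1974 (.cons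 223 (.leaf 199 1596 (.leaf 320 1788 .nil)) .nil)) .nil)) (.cons 344 (.leaf 368 2172 (.cons 320 (.leaf 247 1980 (.leaf 249 1989 .nil)) .nil)) (.cons 342 (.leaf 366 2166 (.cons 318 (.leaf 247 1974 (.cons 344 (.leaf 368 2172 (.cons 317 (.leaf 316 2528 (.leaf 345 2539 .nil)) .nil)) .nil)) .nil)) (.cons 342 (.leaf 366 2166 (.cons 344 (.leaf 368 2172 (.cons 320 (.leaf 249 1989 (.cons 321 (.leaf 322 2546 (.leaf 341 2537 .nil)) .nil)) .nil)) .nil)) .nil)))) .nil)) (.cons 343 (.leaf 367 2173 (.cons 248 (.leaf 224 1790 (.leaf 271 1981 .nil)) .nil)) (.cons 343 (.leaf 367 2173 (.cons 248 (.leaf 224 1790 (.leaf 320 1982 .nil)) .nil)) .nil))))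
noncomputable def t18 : T := .cons 293 (.leaf 273 2153 (.cons 292 (.leaf 271 2145 (.cons 268 (.leaf 269 2147 (.leaf 267 2139 .nil)) .nil)) .nil)) (.cons 297 (.cons 269 (.leaf 270 2155 (.cons 321 (.leaf 322 2352 (.cons 345 (.leaf 369 2183 (.cons 248 (.leaf 224 1796 (.leaf 273 1991 .nil)) .nil)) .nil)) .nil)) (.cons 270 (.leaf 269 2155 (.cons 271 (.leaf 298 2163 (.cons 318 (.leaf 317 2346 (.cons 247 (.leaf 223 1782 (.leaf 342 1973 .nil)) .nil)) .nil)) .nil)) (.cons 321 (.leaf 322 2352 (.cons 224 (.leaf 248 1796 (.cons 318 (.leaf 317 2346 (.cons 298 (.leaf 319 2354 (.cons 299 (.leaf 271 2171 (.cons 300 (.leaf 273 2179 (.leaf 320 2370 .nil)) .nil)) .nil)) .nil)) .nil)) .nil)) .nil))) (.cons 293 (.leaf 273 2153 (.cons 269 (.leaf 268 2147 (.cons 270 (.leaf 297 2155 (.cons 317 (.leaf 316 2338 (.cons 320 (.leaf 321 2344 (.cons 341 (.leaf 365 2157 (.cons 340 (.leaf 364 2150 (.cons 318 (.leaf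 319 2530 (.cons 342 (.leaf 245 1964 (.leaf 366 2156 .nil)) .nil)) .nil)) .nil)) .nil)) .nil)) .nil)) .nil)) .nil)) (.cons 293 (.cons 292 (.leaf 271 2145 (.cons 268 (.leaf 269 2147 (.leaf 267 2139 .nil)) .nil)) (.cons 269 (.leaf 268 2147 (.cons 270 (.leaf 297 2155 (.cons 317 (.leaf 316 2338 (.cons 320 (.leaf 321 2344 (.cons 341 (.leaf 365 2157 (.cons 340 (.leaf 364 2150 (.cons 318 (.leaf 319 2530 (.cons 342 (.leaf 245 1964 (.leaf 366 2156 .nil)) .nil)) .nil)) .nil)) .nil)) .nil)) .nil)) .nil)) (.cons 271 (.leaf 292 2145 (.cons 317 (.leaf 316 2338 (.cons 297 (.leaf 318 2346 (.cons 298 (.leaf 299 2171 (.leaf 270 2163 .nil)) .nil)) .nil)) .nil)) .nil))) (.cons 293 (.leaf 273 2153 (.cons 271 (.leaf 292 2145 (.cons 317 (.leaf 316 2338 (.cons 297 (.leaf 318 2346 (.cons 298 (.leaf 299 2171 (.leaf 270 2163 .nil)) .nil)) .nil)) .nil)) .nil)) .nil))))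
noncomputable def t19 : T := .cons 298 (.leaf 274 2169 (.cons 318 (.leaf 319 2354 (.cons 271 (.leaf 299 2171 (.leaf 270 2163 .nil)) .nil)) .nil)) (.cons 294 (.cons 269 (.leaf 270 2155 (.cons 293 (.leaf 268 2147 (.cons 321 (.leaf 320 2344 (.leaf 322 2352 .nil)) .nil)) .nil)) (.cons 269 (.leaf 270 2155 (.cons 293 (.leaf 268 2147 (.cons 317 (.leaf 316 2338 (.leaf 318 2346 .nil)) .nil)) .nil)) (.cons 321 (.leaf 322 2352 (.cons 293 (.leaf 320 2344 (.cons 317 (.leaf 316 2338 (.leaf 318 2346 .nil)) .nil)) .nil)) (.cons 321 (.leaf 322 2352 (.cons 269 (.leaf 270 2155 (.cons 318 (.leaf 317 2346 (.cons 345 (.leaf 369 2183 (.cons 320 (.leaf 248 1988 (.cons 319 (.leaf 346 2544 (.cons 342 (.leaf 341 2538 (.cons 271 (.leaf 247 1974 (.leaf 366 2165 .nil)) .nil)) .nil)) .nil)) .nil)) .nil)) .nil)) .nil)) .nil)))) (.cons 298 (.leaf 274 2169 (.cons 318 (.leaf 319 2354 (.cons 294 (.leaf 317 2346 (.cons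 269 (.leaf 270 2155 (.cons 322 (.leaf 321 2352 (.leaf 323 2360 .nil)) .nil)) .nil)) .nil)) .nil)) (.cons 298 (.leaf 274 2169 (.cons 271 (.leaf 299 2171 (.leaf 270 2163 .nil)) .nil)) (.cons 298 (.leaf 274 2169 (.cons 318 (.leaf 319 2354 (.cons 294 (.leaf 317 2346 (.cons 322 (.leaf 321 2352 (.leaf 323 2360 .nil)) .nil)) .nil)) .nil)) .nil))))
noncomputable def t20 : T := .cons 273 (.leaf 274 2170 (.cons 294 (.leaf 293 2153 (.cons 297 (.cons 270 (.leaf 269 2155 (.cons 298 (.leaf 271 2160 (.cons 318 (.leaf 317 2346 (.leaf 319 2354 .nil)) .nil)) .nil)) (.cons 321 (.leaf 322 2352 (.cons 248 (.leaf 224 1796 (.leaf 345 1991 .nil)) .nil)) .nil)) .nil)) .nil)) (.cons 297 t19 (.cons 294 t18 (.cons 273 (.leaf 274 2170 (.cons 294 (.leaf 293 2153 (.cons 319 t17 .nil)) .nil)) (.cons 273 (.leaf 274 2170 (.cons 294 (.leaf 293 2153 (.cons 297 (.cons 270 (.leaf 269 2155 (.cons 298 (.leaf 271 2160 (.cons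 299 (.leaf 300 2179 (.cons 323 (.leaf 322 2360 (.leaf 324 2368 .nil)) .nil)) .nil)) .nil)) (.cons 321 (.leaf 322 2352 (.cons 248 (.leaf 224 1796 (.leaf 345 1991 .nil)) .nil)) (.cons 270 (.leaf 269 2155 (.cons 271 (.leaf 298 2160 (.cons 318 (.leaf 317 2346 (.cons 247 (.leaf 223 1782 (.leaf 342 1973 .nil)) .nil)) .nil)) .nil)) .nil))) .nil)) .nil)) (.cons 273 (.leaf 274 2170 (.cons 294 (.leaf 293 2153 (.cons 297 (.cons 269 (.leaf 270 2155 (.cons 318 (.leaf 317 2346 (.cons 319 (.leaf 298 2354 (.cons 343 (.leaf 367 2173 (.cons 320 (.leaf 248 1982 (.cons 344 (.leaf 249 1989 (.leaf 368 2181 .nil)) .nil)) .nil)) .nil)) .nil)) .nil)) (.cons 321 (.leaf 322 2352 (.cons 248 (.leaf 224 1796 (.leaf 345 1991 .nil)) .nil)) (.cons 269 (.leaf 270 2155 (.cons 317 (.leaf 318 2346 (.cons 321 (.leaf 322 2352 (.cons 345 (.leaf 369 2183 (.cons 344 (.leaf 368 2182 (.cons 320 (.leaf 249 1989 (.cons 346 (.leaf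 370 2188 (.cons 347 (.leaf 348 2563 (.leaf 319 2555 .nil)) .nil)) .nil)) .nil)) .nil)) .nil)) .nil)) .nil)) .nil))) .nil)) .nil)) (.cons 274 (.leaf 273 2170 (.cons 298 (.leaf 297 2169 (.cons 251 t16 .nil)) .nil)) (.cons 274 (.leaf 273 2170 (.cons 298 (.leaf 297 2169 (.cons 251 t14 .nil)) .nil)) (.cons 273 t13 (.cons 273 (.leaf 274 2170 (.cons 294 (.leaf 293 2153 (.cons 297 t12 .nil)) .nil)) .nil)))))))))
noncomputable def t21 : T := .cons 199 (.leaf 223 1599 (.cons 295 (.leaf 319 1790 (.cons 200 (.leaf 175 1407 (.leaf 271 1598 .nil)) .nil)) .nil)) (.cons 223 (.leaf 199 1599 (.cons 247 (.leaf 320 1791 (.cons 273 (.leaf 274 1979 (.cons 200 (.leaf 297 1604 (.cons 176 (.leaf 271 1406 (.leaf 249 1412 .nil)) .nil)) .nil)) .nil)) .nil)) (.cons 295 (.leaf 319 1790 (.cons 200 (.leaf 271 1598 (.cons 175 (.leaf 199 1407 (.cons 176 (.leaf 151 1215 (.cons 177 (.leaf 201 1413 (.leaf 153 1221 .nil))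 .nil)) .nil)) .nil)) .nil)) (.cons 295 (.leaf 319 1790 (.cons 200 (.leaf 271 1598 (.cons 273 (.leaf 274 2170 (.leaf 297 1604 .nil)) .nil)) .nil)) (.cons 295 (.leaf 319 1790 (.cons 199 (.leaf 223 1599 (.cons 273 (.leaf 274 2170 (.cons 294 (.leaf 293 2153 (.cons 297 (.leaf 321 1796 (.cons 270 (.leaf 269 2155 (.cons 298 (.leaf 271 2160 (.cons 299 (.leaf 300 2179 (.cons 323 (.leaf 322 2360 (.leaf 324 2368 .nil)) .nil)) .nil)) .nil)) .nil)) .nil)) .nil)) .nil)) .nil)) (.cons 223 (.leaf 199 1599 (.cons 247 (.leaf 320 1791 (.cons 273 (.leaf 274 1979 (.cons 200 (.leaf 297 1604 (.cons 176 (.leaf 249 1412 (.leaf 152 1214 .nil)) .nil)) .nil)) .nil)) .nil)) .nil)))))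
noncomputable def t22 : T := .cons 224 (.cons 201 (.leaf 225 1605 (.cons 200 (.leaf 177 1413 (.cons 295 (.leaf 271 1598 (.leaf 319 1790 .nil)) .nil)) .nil)) (.cons 199 (.leaf 223 1599 (.cons 200 (.leaf 175 1407 (.cons 297 (.leaf 273 1604 (.leaf 321 1796 .nil)) .nil)) .nil)) (.cons 295 (.leaf 319 1790 (.cons 199 (.leaf 223 1599 (.cons 273 (.leaf 274 2170 (.cons 294 (.leaf 293 2153 (.cons 297 (.leaf 321 1796 (.cons 270 (.leaf 269 2155 (.cons 298 (.leaf 271 2160 (.cons 225 (.leaf 201 1605 (.cons 322 (.leaf 323 2360 (.leaf 249 1804 .nil)) .nil)) .nil)) .nil)) .nil)) .nil)) .nil)) .nil)) .nil)) .nil))) (.cons 224 (.cons 201 (.leaf 225 1605 (.cons 200 (.leaf 177 1413 (.cons 297 (.leaf 273 1604 (.leaf 321 1796 .nil)) .nil)) .nil)) (.cons 199 (.leaf 223 1599 (.cons 200 (.leaf 175 1407 (.cons 297 (.leaf 273 1604 (.leaf 321 1796 .nil)) .nil)) .nil)) (.cons 223 (.leaf 199 1599 (.cons 225 (.leaf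 201 1605 (.cons 320 (.leaf 247 1791 (.leaf 249 1797 .nil)) .nil)) .nil)) .nil))) (.cons 224 (.cons 223 (.leaf 199 1599 (.cons 247 (.leaf 320 1791 (.cons 295 (.leaf 319 1790 (.cons 200 (.leaf 271 1597 (.cons 201 (.leaf 177 1413 (.leaf 225 1605 .nil)) .nil)) .nil)) .nil)) .nil)) (.cons 201 (.leaf 225 1605 (.cons 200 (.leaf 177 1413 (.cons 295 (.leaf 271 1598 (.leaf 319 1790 .nil)) .nil)) .nil)) (.cons 223 (.leaf 199 1599 (.cons 225 (.leaf 201 1605 (.cons 320 (.leaf 247 1791 (.leaf 249 1797 .nil)) .nil)) .nil)) (.cons 199 (.leaf 223 1599 (.cons 175 (.leaf 200 1407 (.cons 295 (.leaf 319 1790 (.cons 297 (.leaf 321 1796 (.cons 298 (.leaf 274 2169 (.cons 271 (.leaf 299 2171 (.leaf 270 2163 .nil)) .nil)) .nil)) .nil)) .nil)) .nil)) .nil)))) (.cons 224 (.cons 199 (.leaf 223 1599 (.cons 201 (.leaf 225 1605 (.cons 295 (.leaf 319 1790 (.cons 273 (.leaf 274 2170 (.cons 294 (.leaf 293 2153 (.cons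 200 (.leaf 175 1407 (.leaf 177 1413 .nil)) .nil)) .nil)) .nil)) .nil)) .nil)) (.cons 199 (.leaf 223 1599 (.cons 200 (.leaf 175 1407 (.cons 297 (.leaf 273 1604 (.leaf 321 1796 .nil)) .nil)) .nil)) (.cons 295 (.leaf 319 1790 (.cons 200 (.leaf 271 1598 (.cons 175 (.leaf 199 1407 (.cons 176 (.leaf 151 1215 (.cons 177 (.leaf 201 1413 (.leaf 153 1221 .nil)) .nil)) .nil)) .nil)) .nil)) (.cons 295 (.leaf 319 1790 (.cons 200 (.leaf 271 1598 (.cons 201 (.leaf 177 1413 (.leaf 225 1605 .nil)) .nil)) .nil)) (.cons 199 (.leaf 223 1599 (.cons 201 (.leaf 225 1605 (.cons 295 (.leaf 319 1790 (.cons 273 (.leaf 274 2170 (.cons 294 (.leaf 293 2153 (.cons 297 (.leaf 321 1796 (.cons 270 (.leaf 269 2155 (.cons 298 (.leaf 271 2160 (.cons 299 (.leaf 300 2179 (.cons 323 (.leaf 322 2360 (.leaf 324 2368 .nil)) .nil)) .nil)) .nil)) .nil)) .nil)) .nil)) .nil)) .nil)) .nil)) .nil))))) (.cons 224 (.cons 295 (.leaf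 319 1790 (.cons 200 (.leaf 271 1598 (.cons 175 (.leaf 199 1407 (.cons 176 (.leaf 151 1215 (.cons 177 (.leaf 201 1413 (.leaf 153 1221 .nil)) .nil)) .nil)) .nil)) .nil)) (.cons 201 (.leaf 225 1605 (.cons 200 (.leaf 177 1413 (.cons 297 (.leaf 273 1604 (.leaf 321 1796 .nil)) .nil)) .nil)) (.cons 295 (.leaf 319 1790 (.cons 200 (.leaf 271 1598 (.cons 273 (.leaf 274 2170 (.leaf 297 1604 .nil)) .nil)) .nil)) (.cons 201 (.leaf 225 1605 (.cons 295 (.leaf 319 1790 (.cons 273 (.leaf 274 2170 (.cons 294 (.leaf 293 2153 (.cons 297 (.leaf 321 1796 (.cons 270 (.leaf 269 2155 (.cons 271 (.leaf 298 2160 (.cons 249 (.leaf 250 1969 (.cons 318 (.leaf 317 2346 (.cons 342 (.leaf 366 2165 (.leaf 247 1973 .nil)) .nil)) .nil)) .nil)) .nil)) .nil)) .nil)) .nil)) .nil)) .nil)) .nil)))) (.cons 224 t21 (.cons 224 (.cons 199 (.leaf 223 1599 (.cons 175 (.leaf 200 1407 (.cons 319 (.leaf 295 1790 (.cons 320 (.leaf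 343 1982 (.cons 249 (.leaf 225 1797 (.cons 273 (.leaf 344 1989 (.cons 274 (.leaf 247 1979 (.cons 251 (.leaf 252 1985 (.cons 250 (.leaf 271 1977 (.cons 227 (.leaf 228 1793 (.cons 203 (.leaf 298 1622 (.leaf 179 1430 .nil)) .nil)) .nil)) .nil)) .nil)) .nil)) .nil)) .nil)) .nil)) .nil)) .nil)) (.cons 223 (.leaf 199 1599 (.cons 225 (.leaf 201 1605 (.cons 320 (.leaf 247 1791 (.leaf 249 1797 .nil)) .nil)) .nil)) (.cons 295 (.leaf 319 1790 (.cons 200 (.leaf 271 1598 (.cons 175 (.leaf 199 1407 (.cons 176 (.leaf 151 1215 (.cons 177 (.leaf 201 1413 (.leaf 153 1221 .nil)) .nil)) .nil)) .nil)) .nil)) (.cons 295 (.leaf 319 1790 (.cons 200 (.leaf 271 1598 (.cons 201 (.leaf 177 1413 (.leaf 225 1605 .nil)) .nil)) .nil)) .nil)))) .nil))))))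
noncomputable def t23 : T := .cons 224 (.cons 199 (.leaf 223 1599 (.cons 200 (.leaf 175 1407 (.cons 297 (.leaf 273 1604 (.leaf 321 1796 .nil)) .nil)) .nil)) (.cons 201 (.leaf 225 1605 (.cons 200 (.leaf 177 1413 (.cons 295 (.leaf 271 1598 (.leaf 319 1790 .nil)) .nil)) .nil)) (.cons 199 (.leaf 223 1599 (.cons 225 (.leaf 201 1605 (.cons 297 (.leaf 321 1796 (.cons 320 (.leaf 249 1797 (.cons 343 (.leaf 319 1982 (.cons 344 (.leaf 367 2174 (.cons 247 (.leaf 271 1983 (.cons 273 (.leaf 274 1979 (.leaf 368 2181 .nil)) .nil)) .nil)) .nil)) .nil)) .nil)) .nil)) .nil)) .nil))) (.cons 320 (.cons 249 (.leaf 225 1797 (.cons 223 (.leaf 247 1791 (.cons 273 (.leaf 344 1989 (.cons 274 (.leaf 295 2170 (.cons 251 (.leaf 252 1985 (.cons 250 (.leaf 271 1977 (.cons 227 (.leaf 228 1793 (.cons 203 (.leaf 298 1622 (.leaf 179 1430 .nil)) .nil)) .nil)) .nil)) .nil)) .nil)) .nil)) .nil)) (.cons 249 (.leaf 225 1797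 (.cons 343 (.leaf 319 1982 (.cons 344 (.leaf 273 1989 (.leaf 367 2174 .nil)) .nil)) .nil)) (.cons 247 (.leaf 223 1791 (.cons 273 (.leaf 274 1979 (.cons 319 (.leaf 343 1982 (.cons 344 (.leaf 271 1983 (.cons 297 (.leaf 368 2181 (.cons 298 (.leaf 299 2362 (.cons 318 (.leaf 295 2354 (.leaf 317 2345 .nil)) .nil)) .nil)) .nil)) .nil)) .nil)) .nil)) (.cons 247 (.leaf 223 1791 (.cons 249 (.leaf 225 1797 (.cons 250 (.leaf 274 1976 (.cons 271 (.leaf 344 1983 (.leaf 251 1978 .nil)) .nil)) .nil)) .nil)) (.cons 247 (.leaf 223 1791 (.cons 249 (.leaf 225 1797 (.cons 250 (.leaf 274 1976 (.cons 271 (.leaf 251 1978 (.leaf 270 1970 .nil)) .nil)) .nil)) .nil)) .nil))))) t22)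
noncomputable def t24 : T := .cons 269 (.leaf 270 2155 (.cons 293 (.leaf 268 2147 (.cons 317 (.leaf 316 2338 (.leaf 318 2346 .nil)) .nil)) .nil)) (.cons 317 (.leaf 318 2346 (.cons 293 (.leaf 316 2338 (.cons 319 (.cons 248 (.leaf 224 1790 (.cons 271 (.leaf 343 1981 (.leaf 292 2145 .nil)) .nil)) (.cons 248 (.leaf 224 1790 (.cons 343 (.leaf 271 1981 (.leaf 320 1982 .nil)) .nil)) (.cons 292 (.leaf 271 2145 (.leaf 320 2336 .nil)) (.cons 248 (.leaf 224 1790 (.cons 320 (.leaf 343 1982 (.leaf 292 2336 .nil)) .nil)) .nil)))) .nil)) .nil)) (.cons 269 (.leaf 270 2155 (.cons 293 (.leaf 268 2147 (.cons 292 (.leaf 271 2145 (.cons 315 (.leaf 316 2330 (.cons 291 (.leaf 314 2322 (.cons 319 (.leaf 320 2336 (.leaf 318 2328 .nil)) .nil)) .nil)) .nil)) .nil)) .nil)) (.cons 269 (.leaf 270 2155 (.cons 293 (.leaf 268 2147 (.cons 292 (.leaf 271 2145 (.cons 316 (.leaf 317 2338 (.leaf 315 2330 .nil)) .nil))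 .nil)) .nil)) (.cons 270 (.leaf 269 2155 (.cons 318 (.leaf 317 2346 (.cons 342 (.cons 271 (.leaf 366 2165 (.leaf 247 1973 .nil)) (.cons 343 (.leaf 367 2164 (.cons 365 (.leaf 341 2158 (.cons 366 (.leaf 389 2350 (.cons 319 (.leaf 390 2357 (.cons 248 (.leaf 224 1790 (.leaf 320 1982 .nil)) .nil)) .nil)) .nil)) .nil)) (.cons 271 (.leaf 247 1973 (.cons 341 (.leaf 365 2158 (.cons 343 (.leaf 367 2164 (.cons 319 (.leaf 248 1981 (.cons 340 (.leaf 339 2521 (.leaf 320 2529 .nil)) .nil)) .nil)) .nil)) .nil)) .nil))) .nil)) .nil)) .nil))))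
noncomputable def t25 : T := .cons 322 (.leaf 346 2005 (.cons 227 (.leaf 203 1622 (.leaf 299 1814 .nil)) .nil)) (.cons 322 (.leaf 346 2005 (.cons 321 (.cons 250 (.leaf 345 1998 (.cons 323 (.leaf 320 2363 (.leaf 347 2004 .nil)) .nil)) (.cons 250 (.leaf 345 1998 (.cons 323 (.leaf 347 2004 (.cons 226 (.leaf 299 1812 (.cons 202 (.leaf 178 1428 (.cons 201 (.leaf 177 1423 (.leaf 225 1615 .nil)) .nil)) .nil)) .nil)) .nil)) (.cons 345 (.leaf 250 1998 (.cons 369 (.leaf 393 2381 (.cons 320 (.leaf 344 2180 (.cons 319 (.leaf 294 2355 (.leaf 299 2361 .nil)) .nil)) .nil)) .nil)) (.cons 320 (.leaf 323 2363 (.cons 319 (.leaf 294 2355 (.leaf 299 2361 .nil)) .nil)) .nil)))) .nil)) (.cons 227 (.leaf 203 1622 (.cons 299 (.cons 226 (.leaf 202 1623 (.cons 323 (.leaf 250 1812 (.cons 324 (.leaf 300 1820 (.leaf 348 2012 .nil)) .nil)) .nil)) (.cons 228 (.leaf 204 1629 (.cons 252 (.leaf 323 1821 (.cons 253 (.leaf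 254 2002 (.cons 300 (.leaf 324 1820 (.cons 301 (.leaf 302 2195 (.cons 277 (.leaf 278 2193 (.leaf 325 1831 .nil)) .nil)) .nil)) .nil)) .nil)) .nil)) (.cons 228 (.leaf 204 1629 (.cons 300 (.leaf 324 1820 (.cons 301 (.leaf 302 2195 (.cons 277 (.leaf 278 2193 (.cons 325 (.leaf 326 2384 (.cons 253 (.leaf 252 1831 (.cons 230 (.leaf 254 1837 (.cons 229 (.leaf 250 1810 (.leaf 206 1645 .nil)) .nil)) .nil)) .nil)) .nil)) .nil)) .nil)) .nil)) (.cons 226 (.leaf 202 1623 (.cons 250 (.leaf 323 1812 (.cons 225 (.leaf 201 1615 (.cons 224 (.leaf 223 1784 (.leaf 252 1792 .nil)) .nil)) .nil)) .nil)) .nil)))) .nil)) (.cons 322 (.leaf 346 2005 (.cons 227 (.leaf 203 1622 (.leaf 250 1813 .nil)) .nil)) .nil)))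
noncomputable def t26 : T := .cons 322 (.leaf 346 2005 (.cons 227 (.leaf 203 1622 (.leaf 299 1814 .nil)) .nil)) (.cons 322 (.leaf 346 2005 (.cons 321 (.cons 250 (.leaf 345 1998 (.cons 323 (.leaf 320 2363 (.leaf 347 2004 .nil)) .nil)) (.cons 250 (.leaf 345 1998 (.cons 323 (.leaf 347 2004 (.cons 226 (.leaf 299 1812 (.cons 202 (.leaf 178 1428 (.cons 201 (.leaf 177 1423 (.leaf 225 1615 .nil)) .nil)) .nil)) .nil)) .nil)) (.cons 345 (.leaf 250 1998 (.cons 369 (.leaf 393 2381 (.cons 320 (.leaf 248 1988 (.leaf 344 2180 .nil)) .nil)) .nil)) (.cons 320 (.leaf 323 2363 (.cons 319 (.leaf 299 2361 (.cons 343 (.leaf 248 1982 (.leaf 367 2173 .nil)) .nil)) .nil)) .nil)))) .nil)) (.cons 227 (.leaf 203 1622 (.cons 299 (.cons 226 (.leaf 202 1623 (.cons 323 (.leaf 250 1812 (.cons 324 (.leaf 300 1820 (.leaf 348 2012 .nil)) .nil)) .nil)) (.cons 228 (.leaf 204 1629 (.cons 252 (.leaf 323 1821 (.cons 253 (.leaf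 254 2002 (.cons 300 (.leaf 324 1820 (.cons 301 (.leaf 302 2195 (.cons 277 (.leaf 278 2193 (.leaf 325 1831 .nil)) .nil)) .nil)) .nil)) .nil)) .nil)) (.cons 228 (.leaf 204 1629 (.cons 300 (.leaf 324 1820 (.cons 301 (.leaf 302 2195 (.cons 277 (.leaf 278 2193 (.cons 325 (.leaf 326 2384 (.cons 253 (.leaf 252 1831 (.cons 230 (.leaf 254 1837 (.cons 229 (.leaf 250 1810 (.leaf 206 1645 .nil)) .nil)) .nil)) .nil)) .nil)) .nil)) .nil)) .nil)) (.cons 226 (.leaf 202 1623 (.cons 250 (.leaf 323 1812 (.cons 225 (.leaf 201 1615 (.cons 224 (.leaf 223 1784 (.leaf 252 1792 .nil)) .nil)) .nil)) .nil)) .nil)))) .nil)) (.cons 322 (.leaf 346 2005 (.cons 227 (.leaf 203 1622 (.leaf 250 1813 .nil)) .nil)) .nil)))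
noncomputable def t27 : T := .cons 320 (.cons 223 (.leaf 247 1791 (.cons 343 (.leaf 319 1982 (.cons 344 (.leaf 367 2174 (.cons 368 (.leaf 271 2175 (.cons 369 (.leaf 345 2180 (.leaf 393 2372 .nil)) .nil)) .nil)) .nil)) .nil)) (.cons 247 (.leaf 223 1791 (.cons 344 (.leaf 271 1983 (.cons 345 (.leaf 321 1988 (.leaf 369 2180 .nil)) .nil)) .nil)) (.cons 319 (.leaf 224 1790 (.leaf 343 1982 .nil)) .nil))) (.cons 224 (.cons 199 (.leaf 223 1599 (.cons 200 (.leaf 175 1407 (.leaf 271 1598 .nil)) .nil)) (.cons 223 (.leaf 199 1599 (.cons 201 (.leaf 225 1605 (.cons 320 (.leaf 247 1791 (.cons 345 (.leaf 321 1988 (.cons 344 (.leaf 369 2180 (.cons 367 (.leaf 343 2174 (.cons 368 (.leaf 271 2175 (.leaf 391 2366 .nil)) .nil)) .nil)) .nil)) .nil)) .nil)) .nil)) (.cons 200 (.leaf 271 1598 (.cons 201 (.leaf 177 1413 (.leaf 225 1605 .nil)) .nil)) (.cons 199 (.leaf 223 1599 (.cons 200 (.leaf 175 1407 (.cons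 201 (.leaf 177 1413 (.leaf 225 1605 .nil)) .nil)) .nil)) .nil)))) (.cons 320 (.cons 247 (.leaf 223 1791 (.cons 343 (.leaf 319 1982 (.cons 344 (.leaf 271 1983 (.leaf 367 2174 .nil)) .nil)) .nil)) (.cons 247 (.leaf 223 1791 (.cons 344 (.leaf 271 1983 (.cons 345 (.leaf 321 1988 (.leaf 369 2180 .nil)) .nil)) .nil)) (.cons 319 (.leaf 343 1982 (.cons 321 (.leaf 345 1988 (.leaf 322 2355 .nil)) .nil)) .nil))) (.cons 224 (.leaf 319 1790 (.cons 199 (.leaf 223 1599 (.cons 200 (.leaf 175 1407 (.leaf 271 1598 .nil)) .nil)) .nil)) (.cons 319 (.leaf 224 1790 (.cons 343 (.leaf 320 1982 (.leaf 367 2173 .nil)) .nil)) .nil))))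
noncomputable def t28 : T := .cons 298 (.leaf 274 2169 (.cons 318 (.leaf 319 2354 (.cons 271 (.leaf 299 2171 (.leaf 270 2163 .nil)) .nil)) .nil)) (.cons 294 (.cons 321 (.leaf 322 2352 (.cons 269 (.leaf 270 2155 (.cons 318 (.leaf 317 2346 (.cons 224 (.leaf 248 1796 (.cons 293 (.leaf 268 2147 (.leaf 320 2344 .nil)) .nil)) .nil)) .nil)) .nil)) (.cons 269 (.leaf 270 2155 (.cons 293 (.leaf 268 2147 (.cons 317 (.leaf 316 2338 (.leaf 318 2346 .nil)) .nil)) .nil)) (.cons 321 (.leaf 322 2352 (.cons 293 (.leaf 320 2344 (.cons 317 (.leaf 316 2338 (.leaf 318 2346 .nil)) .nil)) .nil)) (.cons 321 (.leaf 322 2352 (.cons 269 (.leaf 270 2155 (.cons 293 (.leaf 268 2147 (.leaf 320 2344 .nil)) .nil)) .nil)) (.cons 321 (.leaf 322 2352 (.cons 269 (.leaf 270 2155 (.cons 318 (.leaf 317 2346 (.cons 345 (.leaf 369 2183 (.cons 320 (.leaf 248 1988 (.cons 319 (.leaf 346 2544 (.cons 342 (.leaf 341 2538 (.cons 271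 (.leaf 247 1974 (.leaf 366 2165 .nil)) .nil)) .nil)) .nil)) .nil)) .nil)) .nil)) .nil)) .nil))))) (.cons 298 (.leaf 274 2169 (.cons 318 (.leaf 319 2354 (.cons 294 (.leaf 317 2346 (.cons 269 (.leaf 270 2155 (.cons 322 (.leaf 321 2352 (.leaf 323 2360 .nil)) .nil)) .nil)) .nil)) .nil)) (.cons 298 (.leaf 274 2169 (.cons 271 (.leaf 299 2171 (.leaf 270 2163 .nil)) .nil)) (.cons 298 (.leaf 274 2169 (.cons 318 (.leaf 319 2354 (.cons 294 (.leaf 317 2346 (.cons 322 (.leaf 321 2352 (.leaf 323 2360 .nil)) .nil)) .nil)) .nil)) .nil))))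
noncomputable def t29 : T := .cons 224 (.leaf 319 1790 (.cons 200 (.leaf 271 1598 (.cons 175 (.leaf 199 1407 (.cons 176 (.leaf 151 1215 (.cons 177 (.leaf 201 1413 (.leaf 153 1221 .nil)) .nil)) .nil)) .nil)) .nil)) (.cons 320 (.cons 223 (.leaf 247 1791 (.cons 321 (.leaf 345 1988 (.cons 294 (.leaf 293 2344 (.cons 322 (.leaf 297 2352 (.leaf 323 2363 .nil)) .nil)) .nil)) .nil)) (.cons 223 (.leaf 247 1791 (.cons 343 (.leaf 319 1982 (.cons 344 (.leaf 367 2174 (.cons 368 (.leaf 271 2175 (.cons 369 (.leaf 345 2180 (.leaf 393 2372 .nil)) .nil)) .nil)) .nil)) .nil)) (.cons 319 (.leaf 343 1982 (.cons 321 (.leaf 345 1988 (.cons 294 (.leaf 293 2344 (.leaf 322 2355 .nil)) .nil)) .nil)) (.cons 223 (.leaf 247 1791 (.cons 343 (.leaf 319 1982 (.cons 344 (.leaf 367 2174 (.cons 368 (.leaf 271 2175 (.cons 297 (.leaf 273 2181 (.cons 321 (.leaf 392 2373 (.cons 322 (.leaf 294 2352 (.leaf 323 2554 .nil)) .nil))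 .nil)) .nil)) .nil)) .nil)) .nil)) .nil)))) (.cons 224 (.cons 200 (.leaf 271 1598 (.cons 175 (.leaf 199 1407 (.cons 176 (.leaf 151 1215 (.cons 177 (.leaf 201 1413 (.leaf 153 1221 .nil)) .nil)) .nil)) .nil)) (.cons 223 (.leaf 199 1599 (.cons 320 (.leaf 247 1791 (.cons 321 (.leaf 297 1796 (.leaf 345 1988 .nil)) .nil)) .nil)) (.cons 200 (.leaf 271 1598 (.cons 201 (.leaf 177 1413 (.leaf 225 1605 .nil)) .nil)) .nil))) (.cons 224 (.leaf 319 1790 (.cons 223 (.leaf 199 1599 (.cons 320 (.leaf 247 1791 (.cons 321 (.leaf 297 1796 (.leaf 345 1988 .nil)) .nil)) .nil)) .nil)) .nil)))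
noncomputable def t30 : T := .cons 227 (.leaf 203 1622 (.cons 322 (.leaf 299 1814 (.leaf 346 2005 .nil)) .nil)) (.cons 322 (.leaf 346 2005 (.cons 321 (.cons 345 (.leaf 250 1998 (.cons 369 (.leaf 393 2381 (.cons 320 (.leaf 248 1988 (.leaf 344 2180 .nil)) .nil)) .nil)) (.cons 250 (.leaf 345 1998 (.cons 323 (.leaf 347 2004 (.cons 226 (.leaf 299 1812 (.cons 202 (.leaf 178 1428 (.cons 201 (.leaf 177 1423 (.leaf 225 1615 .nil)) .nil)) .nil)) .nil)) .nil)) (.cons 320 (.leaf 323 2363 (.cons 319 (.leaf 294 2355 (.leaf 299 2361 .nil)) .nil)) .nil))) .nil)) (.cons 227 (.leaf 203 1622 (.cons 299 (.cons 300 (.leaf 324 1820 (.cons 301 (.leaf 302 2195 (.cons 228 (.leaf 204 1629 (.cons 277 (.leaf 278 2193 (.cons 325 (.leaf 326 2384 (.cons 253 (.leaf 252 1831 (.cons 230 (.leaf 254 1837 (.cons 229 (.leaf 250 1810 (.leaf 206 1645 .nil)) .nil)) .nil)) .nil)) .nil)) .nil)) .nil)) .nil)) (.cons 226 (.leaf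 202 1623 (.cons 323 (.leaf 250 1812 (.cons 324 (.leaf 300 1820 (.leaf 348 2012 .nil)) .nil)) .nil)) (.cons 226 (.leaf 202 1623 (.cons 250 (.leaf 323 1812 (.cons 225 (.leaf 201 1615 (.cons 224 (.leaf 223 1784 (.leaf 252 1792 .nil)) .nil)) .nil)) .nil)) (.cons 228 (.leaf 204 1629 (.cons 300 (.leaf 324 1820 (.cons 301 (.leaf 302 2195 (.cons 277 (.leaf 278 2193 (.cons 325 (.leaf 326 2384 (.cons 253 (.leaf 252 1831 (.cons 226 (.leaf 202 1623 (.cons 254 (.leaf 229 1808 (.leaf 230 1837 .nil)) .nil)) .nil)) .nil)) .nil)) .nil)) .nil)) .nil)) .nil)))) .nil)) (.cons 322 (.leaf 346 2005 (.cons 227 (.leaf 203 1622 (.leaf 250 1813 .nil)) .nil)) .nil)))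
noncomputable def t31 : T := .cons 274 (.leaf 273 2170 (.cons 298 (.leaf 297 2169 (.cons 251 t30 .nil)) .nil)) (.cons 248 t29 (.cons 297 t28 (.cons 273 (.leaf 274 2170 (.cons 294 (.leaf 293 2153 (.cons 248 t27 .nil)) .nil)) (.cons 273 (.leaf 274 2170 (.cons 294 (.leaf 293 2153 (.cons 297 (.cons 270 (.leaf 269 2155 (.cons 271 (.leaf 298 2160 (.cons 318 (.leaf 317 2346 (.cons 247 (.leaf 223 1782 (.leaf 342 1973 .nil)) .nil)) .nil)) .nil)) (.cons 317 (.leaf 318 2346 (.cons 322 (.leaf 321 2352 (.cons 298 (.leaf 323 2360 (.cons 299 (.leaf 271 2171 (.leaf 300 2179 .nil)) .nil)) .nil)) .nil)) (.cons 269 (.leaf 270 2155 (.cons 321 (.leaf 322 2352 (.cons 345 (.leaf 248 1991 (.leaf 369 2183 .nil)) .nil)) .nil)) .nil))) .nil)) .nil)) (.cons 274 (.leaf 273 2170 (.cons 298 (.leaf 297 2169 (.cons 251 t26 .nil)) .nil)) (.cons 274 (.leaf 273 2170 (.cons 298 (.leaf 297 2169 (.cons 251 t25 .nil)) .nil))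 (.cons 274 (.leaf 273 2170 (.cons 297 (.leaf 298 2169 (.cons 294 t24 .nil)) .nil)) .nil)))))))
noncomputable def t32 : T := .cons 319 (.leaf 343 1982 (.cons 224 (.leaf 295 1790 (.cons 201 (.leaf 225 1605 (.cons 200 (.leaf 177 1413 (.cons 175 (.leaf 199 1407 (.cons 151 (.leaf 176 1215 (.cons 273 (.leaf 297 1604 (.cons 247 (.leaf 274 1979 (.cons 344 (.leaf 271 1983 (.leaf 249 1989 .nil)) .nil)) .nil)) .nil)) .nil)) .nil)) .nil)) .nil)) .nil)) (.cons 249 (.leaf 225 1797 (.cons 273 (.leaf 344 1989 (.cons 274 (.leaf 247 1979 (.leaf 295 2170 .nil)) .nil)) .nil)) (.cons 319 (.leaf 343 1982 (.cons 224 (.leaf 295 1790 (.cons 201 (.leaf 225 1605 (.cons 200 (.leaf 177 1413 (.cons 175 (.leaf 199 1407 (.cons 151 (.leaf 176 1215 (.cons 273 (.leaf 297 1604 (.cons 274 (.leaf 247 1979 (.cons 251 (.leaf 252 1985 (.cons 271 (.leaf 250 1977 (.cons 299 (.leaf 300 2176 (.leaf 298 2168 .nil)) .nil)) .nil))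 .nil)) .nil)) .nil)) .nil)) .nil)) .nil)) .nil)) .nil)) (.cons 319 (.leaf 343 1982 (.cons 295 (.leaf 224 1790 (.cons 273 (.leaf 274 2170 (.cons 293 (.leaf 294 2153 (.cons 344 (.leaf 249 1989 (.cons 368 (.leaf 271 2175 (.leaf 297 2181 .nil)) .nil)) .nil)) .nil)) .nil)) .nil)) (.cons 319 (.leaf 343 1982 (.cons 224 (.leaf 295 1790 (.cons 225 (.leaf 201 1605 (.leaf 249 1797 .nil)) .nil)) .nil)) (.cons 249 (.leaf 225 1797 (.cons 343 (.leaf 319 1982 (.cons 344 (.leaf 273 1989 (.leaf 367 2174 .nil)) .nil)) .nil)) .nil)))))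
noncomputable def t33 : T := .cons 224 (.cons 199 (.leaf 223 1599 (.cons 200 (.leaf 175 1407 (.cons 201 (.leaf 177 1413 (.leaf 225 1605 .nil)) .nil)) .nil)) (.cons 199 (.leaf 223 1599 (.cons 200 (.leaf 175 1407 (.cons 295 (.leaf 271 1598 (.leaf 319 1790 .nil)) .nil)) .nil)) (.cons 295 (.leaf 319 1790 (.cons 200 (.leaf 271 1598 (.cons 201 (.leaf 177 1413 (.leaf 225 1605 .nil)) .nil)) .nil)) (.cons 199 (.leaf 223 1599 (.cons 225 (.leaf 201 1605 (.cons 249 (.leaf 320 1797 (.cons 295 (.leaf 319 1790 (.cons 274 (.leaf 273 2170 (.cons 298 (.leaf 297 2169 (.cons 250 (.leaf 322 1807 (.cons 251 (.leaf 271 1978 (.leaf 252 1795 .nil)) .nil)) .nil)) .nil)) .nil)) .nil)) .nil)) .nil)) .nil)))) (.cons 224 (.cons 201 (.leaf 225 1605 (.cons 223 (.leaf 199 1599 (.cons 319 (.leaf 295 1790 (.cons 320 (.leaf 247 1791 (.leaf 343 1982 .nil)) .nil)) .nil)) .nil)) (.cons 199 (.leaf 223 1599 (.cons 200 (.leaf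 175 1407 (.cons 201 (.leaf 177 1413 (.leaf 225 1605 .nil)) .nil)) .nil)) (.cons 295 (.leaf 319 1790 (.cons 200 (.leaf 271 1598 (.cons 175 (.leaf 199 1407 (.cons 176 (.leaf 151 1215 (.cons 177 (.leaf 201 1413 (.leaf 153 1221 .nil)) .nil)) .nil)) .nil)) .nil)) (.cons 295 (.leaf 319 1790 (.cons 200 (.leaf 271 1598 (.cons 201 (.leaf 177 1413 (.leaf 225 1605 .nil)) .nil)) .nil)) (.cons 295 (.leaf 319 1790 (.cons 199 (.leaf 223 1599 (.cons 200 (.leaf 175 1407 (.leaf 271 1598 .nil)) .nil)) .nil)) .nil))))) (.cons 320 t32 (.cons 224 (.cons 295 (.leaf 319 1790 (.cons 200 (.leaf 271 1598 (.cons 175 (.leaf 199 1407 (.cons 176 (.leaf 151 1215 (.cons 177 (.leaf 201 1413 (.leaf 153 1221 .nil)) .nil)) .nil)) .nil)) .nil)) (.cons 223 (.leaf 199 1599 (.cons 247 (.leaf 320 1791 (.cons 273 (.leaf 274 1979 (.cons 200 (.leaf 297 1604 (.cons 176 (.leaf 271 1406 (.leaf 249 1412 .nil)) .nil)) .nil)) .nil))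 .nil)) (.cons 295 (.leaf 319 1790 (.cons 200 (.leaf 271 1598 (.cons 273 (.leaf 274 2170 (.leaf 297 1604 .nil)) .nil)) .nil)) (.cons 295 (.leaf 319 1790 (.cons 223 (.leaf 199 1599 (.cons 273 (.leaf 274 2170 (.cons 320 (.leaf 247 1791 (.cons 344 (.leaf 249 1989 (.cons 368 (.leaf 271 2175 (.leaf 297 2181 .nil)) .nil)) .nil)) .nil)) .nil)) .nil)) (.cons 223 (.leaf 199 1599 (.cons 247 (.leaf 320 1791 (.cons 273 (.leaf 274 1979 (.cons 200 (.leaf 297 1604 (.cons 176 (.leaf 249 1412 (.leaf 152 1214 .nil)) .nil)) .nil)) .nil)) .nil)) .nil))))) (.cons 224 (.cons 201 (.leaf 225 1605 (.cons 223 (.leaf 199 1599 (.cons 319 (.leaf 295 1790 (.cons 320 (.leaf 247 1791 (.leaf 343 1982 .nil)) .nil)) .nil)) .nil)) (.cons 223 (.leaf 199 1599 (.cons 247 (.leaf 320 1791 (.cons 273 (.leaf 274 1979 (.cons 200 (.leaf 297 1604 (.cons 176 (.leaf 249 1412 (.leaf 152 1214 .nil)) .nil)) .nil)) .nil)) .nil)) (.cons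 225 (.leaf 201 1605 (.cons 249 (.leaf 320 1797 (.cons 295 (.leaf 319 1790 (.cons 274 (.leaf 273 2170 (.cons 250 (.leaf 247 1976 (.cons 298 (.leaf 297 2169 (.leaf 322 1807 .nil)) .nil)) .nil)) .nil)) .nil)) .nil)) (.cons 295 (.leaf 319 1790 (.cons 199 (.leaf 223 1599 (.cons 200 (.leaf 175 1407 (.cons 177 (.leaf 201 1413 (.cons 176 (.leaf 153 1221 (.cons 273 (.leaf 274 2170 (.leaf 297 1604 .nil)) .nil)) .nil)) .nil)) .nil)) .nil)) .nil)))) (.cons 224 (.cons 199 (.leaf 223 1599 (.cons 200 (.leaf 175 1407 (.cons 177 (.leaf 201 1413 (.cons 176 (.leaf 153 1221 (.cons 178 (.leaf 179 1402 (.cons 197 (.leaf 198 1385 (.cons 273 (.leaf 297 1604 (.leaf 249 1412 .nil)) .nil)) .nil)) .nil)) .nil)) .nil)) .nil)) (.cons 201 (.leaf 225 1605 (.cons 200 (.leaf 177 1413 (.cons 175 (.leaf 199 1407 (.cons 151 (.leaf 176 1215 (.cons 273 (.leaf 297 1604 (.cons 274 (.leaf 247 1979 (.leaf 295 2170 .nil)) .nil))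 .nil)) .nil)) .nil)) .nil)) (.cons 223 (.leaf 199 1599 (.cons 247 (.leaf 320 1791 (.cons 273 (.leaf 274 1979 (.cons 200 (.leaf 297 1604 (.cons 176 (.leaf 271 1406 (.leaf 249 1412 .nil)) .nil)) .nil)) .nil)) .nil)) (.cons 225 (.leaf 201 1605 (.cons 320 (.leaf 249 1797 (.cons 247 (.leaf 223 1791 (.cons 226 (.leaf 227 1786 (.cons 271 (.leaf 344 1983 (.cons 200 (.leaf 295 1598 (.leaf 176 1406 .nil)) .nil)) .nil)) .nil)) .nil)) .nil)) (.cons 223 (.leaf 199 1599 (.cons 225 (.leaf 201 1605 (.cons 320 (.leaf 247 1791 (.leaf 249 1797 .nil)) .nil)) .nil)) .nil))))) .nil)))))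
noncomputable def t34 : T := .cons 224 (.cons 201 (.leaf 225 1605 (.cons 177 (.leaf 200 1413 (.cons 319 (.leaf 295 1790 (.cons 320 (.leaf 343 1982 (.cons 247 (.leaf 223 1791 (.cons 273 (.leaf 274 1979 (.cons 344 (.leaf 271 1983 (.leaf 249 1989 .nil)) .nil)) .nil)) .nil)) .nil)) .nil)) .nil)) (.cons 223 (.leaf 199 1599 (.cons 225 (.leaf 201 1605 (.cons 320 (.leaf 247 1791 (.leaf 249 1797 .nil)) .nil)) .nil)) (.cons 295 (.leaf 319 1790 (.cons 200 (.leaf 271 1598 (.cons 175 (.leaf 199 1407 (.cons 176 (.leaf 151 1215 (.cons 177 (.leaf 201 1413 (.leaf 153 1221 .nil)) .nil)) .nil)) .nil)) .nil)) (.cons 295 (.leaf 319 1790 (.cons 200 (.leaf 271 1598 (.cons 273 (.leaf 274 2170 (.leaf 297 1604 .nil)) .nil)) .nil)) .nil)))) (.cons 320 (.cons 223 (.leaf 247 1791 (.cons 343 (.leaf 319 1982 (.cons 344 (.leaf 367 2174 (.cons 369 (.leaf 345 2180 (.cons 368 (.leaf 393 2372 (.cons 273 (.leaf 249 1989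 (.leaf 297 2181 .nil)) .nil)) .nil)) .nil)) .nil)) .nil)) (.cons 249 (.leaf 225 1797 (.cons 343 (.leaf 319 1982 (.cons 344 (.leaf 273 1989 (.leaf 367 2174 .nil)) .nil)) .nil)) (.cons 247 (.leaf 223 1791 (.cons 273 (.leaf 274 1979 (.cons 319 (.leaf 343 1982 (.cons 344 (.leaf 271 1983 (.cons 368 (.leaf 297 2181 (.cons 369 (.leaf 345 2180 (.leaf 393 2372 .nil)) .nil)) .nil)) .nil)) .nil)) .nil)) (.cons 247 (.leaf 223 1791 (.cons 249 (.leaf 225 1797 (.cons 250 (.leaf 274 1976 (.cons 271 (.leaf 344 1983 (.leaf 251 1978 .nil)) .nil)) .nil)) .nil)) (.cons 247 (.leaf 223 1791 (.cons 249 (.leaf 225 1797 (.cons 250 (.leaf 274 1976 (.cons 271 (.leaf 251 1978 (.leaf 270 1970 .nil)) .nil)) .nil)) .nil)) .nil))))) (.cons 224 (.cons 295 (.leaf 319 1790 (.cons 200 (.leaf 271 1598 (.cons 175 (.leaf 199 1407 (.cons 176 (.leaf 151 1215 (.cons 177 (.leaf 201 1413 (.leaf 153 1221 .nil)) .nil)) .nil)) .nil))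 .nil)) (.cons 199 (.leaf 223 1599 (.cons 200 (.leaf 175 1407 (.cons 201 (.leaf 177 1413 (.leaf 225 1605 .nil)) .nil)) .nil)) (.cons 295 (.leaf 319 1790 (.cons 200 (.leaf 271 1598 (.cons 273 (.leaf 274 2170 (.leaf 297 1604 .nil)) .nil)) .nil)) (.cons 295 (.leaf 319 1790 (.cons 274 (.leaf 273 2170 (.cons 223 (.leaf 199 1599 (.cons 225 (.leaf 201 1605 (.cons 298 (.leaf 297 2169 (.cons 249 (.cons 250 (.leaf 247 1976 (.leaf 251 1787 .nil)) (.cons 222 (.leaf 221 1768 (.cons 198 (.leaf 197 1579 (.cons 247 (.leaf 271 1591 (.cons 227 (.leaf 226 1786 (.cons 251 (.leaf 203 1622 (.cons 322 (.leaf 299 1814 (.leaf 346 2005 .nil)) .nil)) .nil)) .nil)) .nil)) .nil)) (.cons 250 (.leaf 247 1976 (.leaf 222 1776 .nil)) (.cons 250 (.leaf 251 1787 (.leaf 222 1776 .nil)) .nil)))) .nil)) .nil)) .nil)) .nil)) .nil)) .nil)))) (.cons 224 (.cons 199 (.leaf 223 1599 (.cons 200 (.leaf 175 1407 (.cons 201 (.leaf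 177 1413 (.leaf 225 1605 .nil)) .nil)) .nil)) (.cons 295 (.leaf 319 1790 (.cons 200 (.leaf 271 1598 (.cons 175 (.leaf 199 1407 (.cons 176 (.leaf 151 1215 (.cons 177 (.leaf 201 1413 (.leaf 153 1221 .nil)) .nil)) .nil)) .nil)) .nil)) (.cons 295 (.leaf 319 1790 (.cons 200 (.leaf 271 1598 (.cons 201 (.leaf 177 1413 (.leaf 225 1605 .nil)) .nil)) .nil)) (.cons 223 (.leaf 199 1599 (.cons 247 (.leaf 320 1791 (.cons 295 (.leaf 319 1790 (.cons 271 (.leaf 200 1597 (.cons 198 (.leaf 222 1591 (.cons 294 (.leaf 318 1782 (.cons 293 (.leaf 292 2145 (.cons 269 (.leaf 268 2147 (.cons 270 (.leaf 249 1961 (.leaf 297 2152 .nil)) .nil)) .nil)) .nil)) .nil)) .nil)) .nil)) .nil)) .nil)) (.cons 223 (.leaf 199 1599 (.cons 225 (.leaf 201 1605 (.cons 320 (.leaf 247 1791 (.leaf 249 1797 .nil)) .nil)) .nil)) .nil))))) t33)))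
noncomputable def t35 : T := .cons 322 (.leaf 346 2005 (.cons 227 (.leaf 203 1622 (.leaf 299 1814 .nil)) .nil)) (.cons 227 (.leaf 203 1622 (.cons 299 (.cons 300 (.leaf 324 1820 (.cons 301 (.leaf 302 2195 (.cons 228 (.leaf 204 1629 (.cons 277 (.leaf 278 2193 (.cons 325 (.leaf 326 2384 (.cons 253 (.leaf 252 1831 (.cons 230 (.leaf 254 1837 (.cons 229 (.leaf 250 1810 (.leaf 206 1645 .nil)) .nil)) .nil)) .nil)) .nil)) .nil)) .nil)) .nil)) (.cons 226 (.leaf 202 1623 (.cons 323 (.leaf 250 1812 (.cons 324 (.leaf 300 1820 (.leaf 348 2012 .nil)) .nil)) .nil)) (.cons 226 (.leaf 202 1623 (.cons 250 (.leaf 323 1812 (.cons 228 (.leaf 204 1629 (.cons 229 (.leaf 230 1810 (.leaf 249 1802 .nil)) .nil)) .nil)) .nil)) (.cons 300 (.leaf 324 1820 (.cons 301 (.leaf 302 2195 (.cons 228 (.leaf 204 1629 (.cons 277 (.leaf 278 2193 (.cons 325 (.leaf 326 2384 (.cons 253 (.leaf 252 1831 (.cons 226 (.leaf 202 1623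 (.cons 254 (.leaf 229 1808 (.leaf 230 1837 .nil)) .nil)) .nil)) .nil)) .nil)) .nil)) .nil)) .nil)) .nil)))) .nil)) (.cons 322 (.leaf 346 2005 (.cons 250 (.cons 225 (.leaf 249 1807 (.cons 321 (.leaf 345 1998 (.cons 323 (.leaf 320 2363 (.leaf 347 2004 .nil)) .nil)) .nil)) (.cons 225 (.leaf 249 1807 (.cons 226 (.leaf 201 1615 (.cons 202 (.leaf 178 1428 (.leaf 299 1620 .nil)) .nil)) .nil)) (.cons 323 (.leaf 347 2004 (.cons 299 (.leaf 226 1812 (.cons 324 (.leaf 348 2012 (.cons 325 (.leaf 326 2387 (.cons 252 (.leaf 228 1821 (.cons 253 (.leaf 254 2002 (.cons 229 (.leaf 230 1809 (.cons 277 (.leaf 278 2000 (.cons 301 (.leaf 302 2385 (.leaf 300 1830 .nil)) .nil)) .nil)) .nil)) .nil)) .nil)) .nil)) .nil)) .nil)) .nil))) .nil)) (.cons 322 (.leaf 346 2005 (.cons 227 (.leaf 203 1622 (.leaf 250 1813 .nil)) .nil)) .nil)))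
noncomputable def t36 : T := .cons 227 (.leaf 203 1622 (.cons 322 (.leaf 299 1814 (.leaf 346 2005 .nil)) .nil)) (.cons 227 (.leaf 203 1622 (.cons 299 (.cons 300 (.leaf 324 1820 (.cons 301 (.leaf 302 2195 (.cons 228 (.leaf 204 1629 (.cons 277 (.leaf 278 2193 (.cons 325 (.leaf 326 2384 (.cons 253 (.leaf 252 1831 (.cons 230 (.leaf 254 1837 (.cons 229 (.leaf 250 1810 (.leaf 206 1645 .nil)) .nil)) .nil)) .nil)) .nil)) .nil)) .nil)) .nil)) (.cons 226 (.leaf 202 1623 (.cons 323 (.leaf 250 1812 (.cons 324 (.leaf 300 1820 (.leaf 348 2012 .nil)) .nil)) .nil)) (.cons 226 (.leaf 202 1623 (.cons 250 (.leaf 323 1812 (.cons 228 (.leaf 204 1629 (.cons 249 (.leaf 248 1793 (.leaf 229 1802 .nil)) .nil)) .nil)) .nil)) (.cons 300 (.leaf 324 1820 (.cons 301 (.leaf 302 2195 (.cons 228 (.leaf 204 1629 (.cons 277 (.leaf 278 2193 (.cons 325 (.leaf 326 2384 (.cons 253 (.leaf 252 1831 (.cons 226 (.leaf 202 1623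 (.cons 254 (.leaf 229 1808 (.leaf 230 1837 .nil)) .nil)) .nil)) .nil)) .nil)) .nil)) .nil)) .nil)) .nil)))) .nil)) (.cons 322 (.leaf 346 2005 (.cons 250 (.cons 225 (.leaf 249 1807 (.cons 321 (.leaf 345 1998 (.cons 323 (.leaf 320 2363 (.leaf 347 2004 .nil)) .nil)) .nil)) (.cons 225 (.leaf 249 1807 (.cons 226 (.leaf 201 1615 (.cons 202 (.leaf 178 1428 (.leaf 299 1620 .nil)) .nil)) .nil)) (.cons 323 (.leaf 347 2004 (.cons 299 (.leaf 226 1812 (.cons 324 (.leaf 348 2012 (.cons 325 (.leaf 326 2387 (.cons 252 (.leaf 228 1821 (.cons 253 (.leaf 254 2002 (.cons 229 (.leaf 230 1809 (.cons 277 (.leaf 278 2000 (.cons 301 (.leaf 302 2385 (.leaf 300 1830 .nil)) .nil)) .nil)) .nil)) .nil)) .nil)) .nil)) .nil)) .nil)) .nil))) .nil)) (.cons 227 (.leaf 203 1622 (.cons 322 (.leaf 346 2005 (.leaf 250 1813 .nil)) .nil)) .nil)))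
noncomputable def t37 : T := .cons 227 (.leaf 203 1622 (.cons 322 (.leaf 299 1814 (.leaf 346 2005 .nil)) .nil)) (.cons 227 (.leaf 203 1622 (.cons 299 (.cons 300 (.leaf 324 1820 (.cons 301 (.leaf 302 2195 (.cons 228 (.leaf 204 1629 (.cons 277 (.leaf 278 2193 (.cons 325 (.leaf 326 2384 (.cons 253 (.leaf 252 1831 (.cons 230 (.leaf 254 1837 (.cons 229 (.leaf 250 1810 (.leaf 206 1645 .nil)) .nil)) .nil)) .nil)) .nil)) .nil)) .nil)) .nil)) (.cons 226 (.leaf 202 1623 (.cons 323 (.leaf 250 1812 (.cons 324 (.leaf 300 1820 (.leaf 348 2012 .nil)) .nil)) .nil)) (.cons 226 (.leaf 202 1623 (.cons 250 (.leaf 323 1812 (.cons 228 (.leaf 204 1629 (.cons 249 (.leaf 248 1793 (.leaf 229 1802 .nil)) .nil)) .nil)) .nil)) (.cons 300 (.leaf 324 1820 (.cons 301 (.leaf 302 2195 (.cons 228 (.leaf 204 1629 (.cons 277 (.leaf 278 2193 (.cons 325 (.leaf 326 2384 (.cons 253 (.leaf 252 1831 (.cons 226 (.leaf 202 1623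 (.cons 254 (.leaf 229 1808 (.leaf 230 1837 .nil)) .nil)) .nil)) .nil)) .nil)) .nil)) .nil)) .nil)) .nil)))) .nil)) (.cons 322 (.leaf 346 2005 (.cons 321 (.cons 345 (.leaf 250 1998 (.cons 369 (.leaf 393 2381 (.cons 320 (.leaf 248 1988 (.leaf 344 2180 .nil)) .nil)) .nil)) (.cons 250 (.leaf 345 1998 (.cons 323 (.leaf 347 2004 (.cons 226 (.leaf 299 1812 (.cons 225 (.leaf 201 1615 (.leaf 249 1807 .nil)) .nil)) .nil)) .nil)) (.cons 320 (.leaf 323 2363 (.cons 319 (.leaf 299 2361 (.cons 343 (.leaf 248 1982 (.leaf 367 2173 .nil)) .nil)) .nil)) .nil))) .nil)) (.cons 227 (.leaf 203 1622 (.cons 322 (.leaf 346 2005 (.leaf 250 1813 .nil)) .nil)) .nil)))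
noncomputable def t38 : T := .cons 343 (.leaf 367 2173 (.cons 271 (.leaf 248 1981 (.cons 344 (.leaf 368 2172 (.cons 247 (.leaf 320 1980 (.cons 223 (.leaf 199 1596 (.leaf 318 1782 .nil)) .nil)) .nil)) .nil)) .nil)) (.cons 320 (.cons 249 (.leaf 344 1989 (.cons 225 (.leaf 201 1606 (.leaf 248 1797 .nil)) .nil)) (.cons 321 (.leaf 322 2355 (.cons 345 (.leaf 248 1988 (.cons 318 (.leaf 346 2544 (.cons 316 (.leaf 317 2337 (.cons 342 (.leaf 341 2538 (.cons 271 (.leaf 247 1974 (.leaf 366 2165 .nil)) .nil)) .nil)) .nil)) .nil)) .nil)) (.cons 321 (.leaf 322 2355 (.cons 344 (.leaf 249 1989 (.cons 271 (.leaf 247 1980 (.leaf 368 2175 .nil)) .nil)) .nil)) .nil))) (.cons 343 (.leaf 367 2173 (.cons 271 (.leaf 248 1981 (.cons 342 (.leaf 366 2166 (.cons 318 (.leaf 247 1974 (.cons 344 (.leaf 368 2172 (.cons 317 (.leaf 316 2528 (.leaf 345 2539 .nil)) .nil)) .nil)) .nil)) .nil)) .nil)) (.cons 343 (.leaf 367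 2173 (.cons 320 (.leaf 248 1982 (.cons 321 (.leaf 322 2355 (.cons 344 (.leaf 249 1989 (.cons 341 (.leaf 342 2537 (.cons 345 (.leaf 369 2180 (.cons 318 (.leaf 317 2536 (.leaf 346 2544 .nil)) .nil)) .nil)) .nil)) .nil)) .nil)) .nil)) (.cons 343 (.leaf 367 2173 (.cons 248 (.leaf 271 1981 (.leaf 320 1982 .nil)) .nil)) (.cons 343 (.leaf 367 2173 (.cons 271 (.cons 344 (.leaf 368 2172 (.cons 247 (.leaf 320 1980 (.cons 223 (.leaf 199 1596 (.leaf 318 1782 .nil)) .nil)) .nil)) (.cons 342 (.leaf 366 2166 (.cons 247 (.leaf 318 1974 (.cons 223 (.leaf 199 1596 (.leaf 320 1788 .nil)) .nil)) .nil)) (.cons 342 (.leaf 366 2166 (.cons 318 (.leaf 247 1974 (.cons 344 (.leaf 368 2172 (.cons 317 (.leaf 316 2528 (.leaf 345 2539 .nil)) .nil)) .nil)) .nil)) (.cons 344 (.leaf 368 2172 (.cons 249 (.leaf 320 1989 (.cons 201 (.leaf 225 1606 (.cons 270 (.leaf 250 1969 (.cons 269 (.leaf 268 2144 (.cons 245 (.leaf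 244 1955 (.cons 342 (.leaf 366 2166 (.leaf 318 1967 .nil)) .nil)) .nil)) .nil)) .nil)) .nil)) .nil)) (.cons 344 (.leaf 368 2172 (.cons 320 (.leaf 247 1980 (.leaf 249 1989 .nil)) .nil)) .nil))))) .nil)) .nil)))))
noncomputable def t39 : T := .cons 293 (.leaf 273 2153 (.cons 292 (.leaf 271 2145 (.cons 268 (.leaf 269 2147 (.leaf 267 2139 .nil)) .nil)) .nil)) (.cons 297 (.cons 269 (.leaf 270 2155 (.cons 321 (.leaf 322 2352 (.cons 345 (.leaf 369 2183 (.cons 248 (.leaf 273 1991 (.leaf 320 1988 .nil)) .nil)) .nil)) .nil)) (.cons 317 (.leaf 318 2346 (.cons 322 (.leaf 321 2352 (.cons 298 (.leaf 323 2360 (.cons 299 (.leaf 271 2171 (.cons 227 (.leaf 251 1814 (.cons 273 (.leaf 300 2179 (.cons 346 (.leaf 370 2197 (.cons 320 (.leaf 319 2362 (.cons 249 (.leaf 344 1989 (.leaf 225 1804 .nil)) .nil)) .nil)) .nil)) .nil)) .nil)) .nil)) .nil)) .nil)) (.cons 269 (.leaf 270 2155 (.cons 318 (.leaf 317 2346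 (.cons 298 (.leaf 319 2354 (.cons 299 (.leaf 271 2171 (.cons 323 (.leaf 322 2360 (.leaf 324 2368 .nil)) .nil)) .nil)) .nil)) .nil)) (.cons 269 (.leaf 270 2155 (.cons 318 (.leaf 317 2346 (.cons 298 (.leaf 319 2354 (.cons 299 (.leaf 271 2171 (.cons 300 (.leaf 273 2179 (.cons 324 (.leaf 323 2368 (.leaf 325 2376 .nil)) .nil)) .nil)) .nil)) .nil)) .nil)) .nil)))) (.cons 293 (.cons 292 (.leaf 271 2145 (.cons 268 (.leaf 269 2147 (.leaf 267 2139 .nil)) .nil)) (.cons 269 (.leaf 268 2147 (.cons 270 (.leaf 297 2155 (.cons 317 (.leaf 316 2338 (.cons 320 (.leaf 321 2344 (.cons 341 (.leaf 365 2157 (.cons 340 (.leaf 364 2150 (.cons 318 (.leaf 319 2530 (.cons 342 (.leaf 245 1964 (.leaf 366 2156 .nil)) .nil)) .nil)) .nil)) .nil)) .nil)) .nil)) .nil)) (.cons 271 (.leaf 292 2145 (.cons 317 (.leaf 316 2338 (.cons 297 (.leaf 318 2346 (.cons 298 (.leaf 299 2171 (.leaf 270 2163 .nil)) .nil)) .nil)) .nil))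 .nil))) (.cons 293 (.leaf 273 2153 (.cons 269 (.leaf 268 2147 (.cons 270 (.leaf 297 2155 (.cons 317 (.leaf 316 2338 (.cons 320 (.leaf 321 2344 (.cons 341 (.leaf 365 2157 (.cons 340 (.leaf 364 2150 (.cons 318 (.leaf 319 2530 (.cons 342 (.leaf 245 1964 (.leaf 366 2156 .nil)) .nil)) .nil)) .nil)) .nil)) .nil)) .nil)) .nil)) .nil)) (.cons 293 (.leaf 273 2153 (.cons 271 (.leaf 292 2145 (.cons 317 (.leaf 316 2338 (.cons 297 (.leaf 318 2346 (.cons 298 (.leaf 299 2171 (.leaf 270 2163 .nil)) .nil)) .nil)) .nil)) .nil)) .nil))))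
noncomputable def t40 : T := .cons 298 (.leaf 274 2169 (.cons 318 (.leaf 319 2354 (.cons 271 (.leaf 299 2171 (.leaf 270 2163 .nil)) .nil)) .nil)) (.cons 294 (.cons 321 (.leaf 322 2352 (.cons 269 (.leaf 270 2155 (.cons 293 (.leaf 268 2147 (.leaf 320 2344 .nil)) .nil)) .nil)) (.cons 269 (.leaf 270 2155 (.cons 293 (.leaf 268 2147 (.cons 317 (.leaf 316 2338 (.leaf 318 2346 .nil)) .nil)) .nil)) (.cons 321 (.leaf 322 2352 (.cons 293 (.leaf 320 2344 (.cons 317 (.leaf 316 2338 (.leaf 318 2346 .nil)) .nil)) .nil)) (.cons 321 (.leaf 322 2352 (.cons 269 (.leaf 270 2155 (.cons 318 (.leaf 317 2346 (.cons 345 (.leaf 369 2183 (.cons 320 (.leaf 248 1988 (.cons 319 (.leaf 346 2544 (.cons 342 (.leaf 341 2538 (.cons 271 (.leaf 247 1974 (.leaf 366 2165 .nil)) .nil)) .nil)) .nil)) .nil)) .nil)) .nil)) .nil)) .nil)))) (.cons 298 (.leaf 274 2169 (.cons 318 (.leaf 319 2354 (.cons 294 (.leaf 317 2346 (.cons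 269 (.leaf 270 2155 (.cons 322 (.leaf 321 2352 (.leaf 323 2360 .nil)) .nil)) .nil)) .nil)) .nil)) (.cons 298 (.leaf 274 2169 (.cons 271 (.leaf 299 2171 (.leaf 270 2163 .nil)) .nil)) (.cons 298 (.leaf 274 2169 (.cons 318 (.leaf 319 2354 (.cons 294 (.leaf 317 2346 (.cons 322 (.leaf 321 2352 (.leaf 323 2360 .nil)) .nil)) .nil)) .nil)) .nil))))
noncomputable def t41 : T := .cons 273 (.leaf 274 2170 (.cons 294 (.leaf 293 2153 (.cons 297 (.cons 318 (.leaf 317 2346 (.cons 298 (.leaf 319 2354 (.cons 299 (.leaf 271 2171 (.leaf 300 2179 .nil)) .nil)) .nil)) (.cons 321 (.leaf 322 2352 (.cons 270 (.leaf 269 2155 (.cons 345 (.leaf 248 1991 (.leaf 369 2183 .nil)) .nil)) .nil)) .nil)) .nil)) .nil)) (.cons 297 t40 (.cons 294 t39 (.cons 273 (.leaf 274 2170 (.cons 294 (.leaf 293 2153 (.cons 319 t38 .nil)) .nil)) (.cons 274 (.leaf 273 2170 (.cons 298 (.leaf 297 2169 (.cons 251 t37 .nil)) .nil)) (.cons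 274 (.leaf 273 2170 (.cons 298 (.leaf 297 2169 (.cons 251 t36 .nil)) .nil)) (.cons 273 (.leaf 274 2170 (.cons 294 (.leaf 293 2153 (.cons 297 (.cons 318 (.leaf 317 2346 (.cons 298 (.leaf 319 2354 (.cons 299 (.leaf 271 2171 (.leaf 300 2179 .nil)) .nil)) .nil)) (.cons 270 (.leaf 269 2155 (.cons 318 (.leaf 317 2346 (.cons 271 (.cons 247 (.leaf 223 1782 (.leaf 342 1973 .nil)) (.cons 249 (.leaf 250 1969 (.cons 320 (.leaf 344 1989 (.leaf 225 1798 .nil)) .nil)) .nil)) .nil)) .nil)) (.cons 270 (.leaf 269 2155 (.cons 271 (.leaf 298 2160 (.cons 249 (.leaf 250 1969 (.cons 225 (.leaf 201 1606 (.leaf 320 1798 .nil)) .nil)) .nil)) .nil)) (.cons 318 (.leaf 317 2346 (.cons 269 (.leaf 270 2155 (.cons 319 (.leaf 298 2354 (.cons 343 (.leaf 367 2173 (.cons 320 (.leaf 248 1982 (.cons 344 (.leaf 249 1989 (.leaf 368 2181 .nil)) .nil)) .nil)) .nil)) .nil)) .nil)) .nil)))) .nil)) .nil)) (.cons 274 (.leaf 273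 2170 (.cons 298 (.leaf 297 2169 (.cons 251 t35 .nil)) .nil)) .nil)))))))
noncomputable def t42 : T := .cons 227 (.leaf 203 1622 (.cons 322 (.leaf 299 1814 (.leaf 346 2005 .nil)) .nil)) (.cons 322 (.leaf 346 2005 (.cons 250 (.cons 249 (.leaf 225 1807 (.cons 248 (.leaf 247 1976 (.leaf 271 1978 .nil)) .nil)) (.cons 323 (.leaf 347 2004 (.cons 299 (.leaf 226 1812 (.cons 324 (.leaf 348 2012 (.cons 325 (.leaf 326 2387 (.cons 252 (.leaf 228 1821 (.cons 253 (.leaf 254 2002 (.cons 229 (.leaf 230 1809 (.cons 277 (.leaf 278 2000 (.cons 301 (.leaf 302 2385 (.leaf 300 1830 .nil)) .nil)) .nil)) .nil)) .nil)) .nil)) .nil)) .nil)) .nil)) .nil)) .nil)) (.cons 227 (.leaf 203 1622 (.cons 299 (.cons 300 (.leaf 324 1820 (.cons 301 (.leaf 302 2195 (.cons 228 (.leaf 204 1629 (.cons 277 (.leaf 278 2193 (.cons 325 (.leaf 326 2384 (.cons 253 (.leaf 252 1831 (.cons 230 (.leaf 254 1837 (.cons 229 (.leaf 250 1810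 (.leaf 206 1645 .nil)) .nil)) .nil)) .nil)) .nil)) .nil)) .nil)) .nil)) (.cons 226 (.leaf 202 1623 (.cons 323 (.leaf 250 1812 (.cons 324 (.leaf 300 1820 (.leaf 348 2012 .nil)) .nil)) .nil)) (.cons 300 (.leaf 324 1820 (.cons 301 (.leaf 302 2195 (.cons 228 (.leaf 204 1629 (.cons 277 (.leaf 278 2193 (.cons 325 (.leaf 326 2384 (.cons 253 (.leaf 252 1831 (.cons 226 (.leaf 202 1623 (.cons 254 (.leaf 229 1808 (.leaf 230 1837 .nil)) .nil)) .nil)) .nil)) .nil)) .nil)) .nil)) .nil)) (.cons 226 (.leaf 202 1623 (.cons 250 (.leaf 323 1812 (.cons 225 (.leaf 201 1615 (.cons 224 (.leaf 223 1784 (.leaf 252 1792 .nil)) .nil)) .nil)) .nil)) .nil)))) .nil)) (.cons 227 (.leaf 203 1622 (.cons 322 (.leaf 346 2005 (.leaf 250 1813 .nil)) .nil)) .nil)))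
noncomputable def t43 : T := .cons 227 (.leaf 203 1622 (.cons 322 (.leaf 299 1814 (.leaf 346 2005 .nil)) .nil)) (.cons 227 (.leaf 203 1622 (.cons 299 (.cons 300 (.leaf 324 1820 (.cons 301 (.leaf 302 2195 (.cons 228 (.leaf 204 1629 (.cons 277 (.leaf 278 2193 (.cons 325 (.leaf 326 2384 (.cons 253 (.leaf 252 1831 (.cons 230 (.leaf 254 1837 (.cons 229 (.leaf 250 1810 (.leaf 206 1645 .nil)) .nil)) .nil)) .nil)) .nil)) .nil)) .nil)) .nil)) (.cons 226 (.leaf 202 1623 (.cons 323 (.leaf 250 1812 (.cons 324 (.leaf 300 1820 (.leaf 348 2012 .nil)) .nil)) .nil)) (.cons 226 (.leaf 202 1623 (.cons 250 (.leaf 323 1812 (.cons 225 (.leaf 201 1615 (.cons 224 (.leaf 223 1784 (.leaf 252 1792 .nil)) .nil)) .nil)) .nil)) (.cons 300 (.leaf 324 1820 (.cons 301 (.leaf 302 2195 (.cons 228 (.leaf 204 1629 (.cons 277 (.leaf 278 2193 (.cons 325 (.leaf 326 2384 (.cons 253 (.leaf 252 1831 (.cons 226 (.leaf 202 1623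 (.cons 254 (.leaf 229 1808 (.leaf 230 1837 .nil)) .nil)) .nil)) .nil)) .nil)) .nil)) .nil)) .nil)) .nil)))) .nil)) (.cons 322 (.leaf 346 2005 (.cons 250 (.cons 249 (.leaf 225 1807 (.cons 248 (.leaf 247 1976 (.cons 224 (.leaf 319 1790 (.leaf 223 1787 .nil)) .nil)) .nil)) (.cons 321 (.leaf 345 1998 (.cons 323 (.leaf 320 2363 (.leaf 347 2004 .nil)) .nil)) .nil)) .nil)) .nil))
noncomputable def t44 : T := .leaf 203 1622 (.cons 299 (.cons 202 (.leaf 226 1623 (.cons 204 (.leaf 228 1629 (.cons 324 (.leaf 300 1820 (.cons 323 (.leaf 348 2012 (.cons 347 (.leaf 250 2007 (.leaf 371 2199 .nil)) .nil)) .nil)) .nil)) .nil)) (.cons 228 (.leaf 204 1629 (.cons 252 (.leaf 323 1821 (.cons 253 (.leaf 254 2002 (.cons 300 (.leaf 324 1820 (.cons 301 (.leaf 302 2195 (.cons 277 (.leaf 278 2193 (.leaf 325 1831 .nil)) .nil)) .nil)) .nil)) .nil)) .nil)) (.cons 202 (.leaf 226 1623 (.cons 324 (.leaf 300 1820 (.cons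 323 (.leaf 348 2012 (.cons 347 (.leaf 250 2007 (.leaf 371 2199 .nil)) .nil)) .nil)) .nil)) (.cons 300 (.leaf 324 1820 (.cons 228 (.leaf 204 1629 (.cons 301 (.leaf 302 2195 (.cons 277 (.leaf 278 2193 (.cons 325 (.leaf 326 2384 (.cons 253 (.leaf 252 1831 (.cons 230 (.leaf 254 1837 (.cons 229 (.leaf 250 1810 (.leaf 206 1645 .nil)) .nil)) .nil)) .nil)) .nil)) .nil)) .nil)) .nil)) (.cons 226 (.leaf 202 1623 (.cons 250 (.leaf 323 1812 (.cons 225 (.leaf 201 1615 (.cons 224 (.leaf 223 1784 (.leaf 252 1792 .nil)) .nil)) .nil)) .nil)) .nil))))) .nil)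
noncomputable def t45 : T := .leaf 293 2153 (.cons 297 (.cons 270 (.leaf 269 2155 (.cons 271 (.leaf 298 2160 (.cons 318 (.leaf 317 2346 (.cons 247 (.leaf 223 1782 (.leaf 342 1973 .nil)) .nil)) .nil)) .nil)) (.cons 321 (.leaf 322 2352 (.cons 318 (.leaf 317 2346 (.cons 298 (.leaf 319 2354 (.cons 299 (.leaf 271 2171 (.leaf 300 2179 .nil)) .nil)) .nil)) .nil)) (.cons 321 (.leaf 322 2352 (.cons 270 (.leaf 269 2155 (.cons 318 (.leaf 317 2346 (.cons 345 (.leaf 369 2183 (.cons 346 (.leaf 370 2188 (.cons 320 (.leaf 319 2544 (.cons 249 (.leaf 225 1798 (.cons 250 (.leaf 271 1969 (.leaf 226 1805 .nil)) .nil)) .nil)) .nil)) .nil)) .nil)) .nil)) .nil)) (.cons 270 (.leaf 269 2155 (.cons 271 (.leaf 298 2160 (.cons 249 (.leaf 250 1969 (.cons 225 (.leaf 201 1606 (.leaf 320 1798 .nil)) .nil)) .nil)) .nil)) (.cons 321 (.leaf 322 2352 (.cons 269 (.leaf 270 2155 (.cons 318 (.leaf 317 2346 (.cons 319 (.leaf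 298 2354 (.cons 343 (.leaf 367 2173 (.cons 345 (.leaf 369 2183 (.cons 346 (.leaf 370 2188 (.leaf 320 2544 .nil)) .nil)) .nil)) .nil)) .nil)) .nil)) .nil)) .nil))))) .nil)
noncomputable def t46 : T := .cons 319 (.leaf 224 1790 (.cons 343 (.leaf 271 1981 (.leaf 320 1982 .nil)) .nil)) (.cons 320 (.cons 225 (.leaf 249 1797 (.cons 319 (.leaf 343 1982 (.cons 321 (.leaf 345 1988 (.cons 294 (.leaf 293 2344 (.leaf 322 2355 .nil)) .nil)) .nil)) .nil)) (.cons 247 (.leaf 223 1791 (.cons 249 (.leaf 250 1976 (.leaf 225 1797 .nil)) .nil)) (.cons 223 (.leaf 247 1791 (.cons 319 (.leaf 343 1982 (.cons 321 (.leaf 345 1988 (.cons 294 (.leaf 293 2344 (.leaf 322 2355 .nil)) .nil)) .nil)) .nil)) .nil))) (.cons 224 (.cons 199 (.leaf 223 1599 (.cons 225 (.leaf 201 1605 (.cons 249 (.leaf 320 1797 (.cons 250 (.leaf 247 1976 (.cons 251 (.leaf 271 1978 (.leaf 252 1795 .nil)) .nil)) .nil)) .nil)) .nil)) (.cons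 200 (.leaf 271 1598 (.cons 201 (.leaf 177 1413 (.leaf 225 1605 .nil)) .nil)) (.cons 200 (.leaf 271 1598 (.cons 199 (.leaf 175 1407 (.leaf 223 1599 .nil)) .nil)) (.cons 199 (.leaf 223 1599 (.cons 175 (.leaf 200 1407 (.cons 225 (.leaf 201 1605 (.cons 249 (.leaf 320 1797 (.cons 250 (.leaf 247 1976 (.cons 251 (.leaf 252 1795 (.cons 227 (.leaf 228 1793 (.cons 298 (.leaf 203 1622 (.leaf 322 1813 .nil)) .nil)) .nil)) .nil)) .nil)) .nil)) .nil)) .nil)) .nil)))) (.cons 319 (.leaf 224 1790 (.cons 343 (.leaf 271 1981 (.leaf 367 2173 .nil)) .nil)) .nil)))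
noncomputable def t47 : T := .cons 293 (.leaf 273 2153 (.cons 271 (.leaf 292 2145 (.cons 317 (.leaf 316 2338 (.cons 297 (.leaf 318 2346 (.cons 270 (.leaf 269 2152 (.leaf 298 2163 .nil)) .nil)) .nil)) .nil)) .nil)) (.cons 297 (.cons 269 (.leaf 270 2155 (.cons 317 (.leaf 318 2346 (.cons 321 (.leaf 322 2352 (.cons 248 (.leaf 224 1796 (.cons 345 (.leaf 273 1991 (.leaf 320 1988 .nil)) .nil)) .nil)) .nil)) .nil)) (.cons 269 (.leaf 270 2155 (.cons 318 (.leaf 317 2346 (.cons 298 (.leaf 319 2354 (.cons 299 (.leaf 271 2171 (.cons 323 (.leaf 322 2360 (.leaf 324 2368 .nil)) .nil)) .nil)) .nil)) .nil)) (.cons 321 (.leaf 322 2352 (.cons 248 (.leaf 224 1796 (.cons 345 (.leaf 273 1991 (.leaf 320 1988 .nil)) .nil)) .nil)) (.cons 269 (.leaf 270 2155 (.cons 318 (.leaf 317 2346 (.cons 298 (.leaf 319 2354 (.cons 299 (.leaf 271 2171 (.cons 300 (.leaf 273 2179 (.cons 324 (.leaf 323 2368 (.leaf 325 2376 .nil))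 .nil)) .nil)) .nil)) .nil)) .nil)) .nil)))) (.cons 293 (.leaf 273 2153 (.cons 268 (.leaf 269 2147 (.cons 292 (.leaf 271 2145 (.leaf 267 2139 .nil)) .nil)) .nil)) (.cons 293 (.cons 271 (.leaf 292 2145 (.cons 317 (.leaf 316 2338 (.cons 297 (.leaf 318 2346 (.cons 270 (.leaf 269 2152 (.leaf 298 2163 .nil)) .nil)) .nil)) .nil)) (.cons 269 (.leaf 268 2147 (.cons 270 (.leaf 297 2155 (.cons 317 (.leaf 316 2338 (.cons 320 (.leaf 321 2344 (.cons 341 (.leaf 365 2157 (.cons 340 (.leaf 364 2150 (.cons 318 (.leaf 319 2530 (.cons 342 (.leaf 245 1964 (.leaf 366 2156 .nil)) .nil)) .nil)) .nil)) .nil)) .nil)) .nil)) .nil)) (.cons 271 (.leaf 292 2145 (.cons 317 (.leaf 316 2338 (.cons 297 (.leaf 318 2346 (.cons 298 (.leaf 299 2171 (.leaf 270 2163 .nil)) .nil)) .nil)) .nil)) (.cons 292 (.leaf 271 2145 (.cons 268 (.leaf 269 2147 (.leaf 267 2139 .nil)) .nil)) .nil)))) (.cons 293 (.leaf 273 2153 (.cons 268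 (.leaf 269 2147 (.cons 292 (.leaf 267 2139 (.cons 316 (.leaf 317 2338 (.leaf 315 2330 .nil)) .nil)) .nil)) .nil)) (.cons 293 (.leaf 273 2153 (.cons 271 (.leaf 292 2145 (.cons 317 (.leaf 316 2338 (.cons 297 (.leaf 318 2346 (.cons 298 (.leaf 299 2171 (.leaf 270 2163 .nil)) .nil)) .nil)) .nil)) .nil)) .nil)))))
noncomputable def t48 : T := .cons 319 (.leaf 224 1790 (.cons 343 (.leaf 271 1981 (.leaf 320 1982 .nil)) .nil)) (.cons 320 (.cons 225 (.leaf 249 1797 (.cons 319 (.leaf 343 1982 (.cons 321 (.leaf 345 1988 (.cons 294 (.leaf 293 2344 (.leaf 322 2355 .nil)) .nil)) .nil)) .nil)) (.cons 247 (.leaf 223 1791 (.cons 249 (.leaf 250 1976 (.leaf 225 1797 .nil)) .nil)) (.cons 223 (.leaf 247 1791 (.cons 319 (.leaf 343 1982 (.cons 321 (.leaf 345 1988 (.cons 294 (.leaf 293 2344 (.leaf 322 2355 .nil)) .nil)) .nil)) .nil)) .nil))) (.cons 224 (.cons 199 (.leaf 223 1599 (.cons 225 (.leaf 201 1605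 (.cons 249 (.leaf 320 1797 (.cons 298 (.leaf 297 2169 (.cons 250 (.leaf 247 1976 (.leaf 322 1807 .nil)) .nil)) .nil)) .nil)) .nil)) (.cons 199 (.leaf 223 1599 (.cons 225 (.leaf 201 1605 (.cons 249 (.leaf 320 1797 (.cons 250 (.leaf 247 1976 (.cons 251 (.leaf 271 1978 (.leaf 252 1795 .nil)) .nil)) .nil)) .nil)) .nil)) (.cons 200 (.leaf 271 1598 (.cons 297 (.leaf 298 2169 (.leaf 321 1796 .nil)) .nil)) .nil))) (.cons 319 (.leaf 224 1790 (.cons 343 (.leaf 271 1981 (.leaf 367 2173 .nil)) .nil)) .nil)))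
noncomputable def t49 : T := .cons 274 (.leaf 273 2170 (.cons 248 t48 .nil)) (.cons 297 (.cons 298 (.leaf 274 2169 (.cons 318 (.leaf 319 2354 (.cons 271 (.leaf 299 2171 (.leaf 270 2163 .nil)) .nil)) .nil)) (.cons 294 (.cons 321 (.leaf 322 2352 (.cons 248 (.leaf 224 1796 (.cons 345 (.leaf 320 1988 (.leaf 369 2183 .nil)) .nil)) .nil)) (.cons 269 (.leaf 270 2155 (.cons 293 (.leaf 268 2147 (.cons 317 (.leaf 316 2338 (.leaf 318 2346 .nil)) .nil)) .nil)) .nil)) (.cons 298 (.leaf 274 2169 (.cons 318 (.leaf 319 2354 (.cons 294 (.leaf 317 2346 (.cons 322 (.leaf 321 2352 (.leaf 323 2360 .nil)) .nil)) .nil)) .nil)) (.cons 298 (.leaf 274 2169 (.cons 322 (.leaf 323 2360 (.cons 321 (.leaf 294 2352 (.cons 248 (.leaf 224 1796 (.cons 345 (.leaf 320 1988 (.leaf 369 2183 .nil)) .nil)) .nil)) .nil)) .nil)) .nil)))) (.cons 294 t47 (.cons 274 (.leaf 273 2170 (.cons 248 t46 .nil)) (.cons 273 (.leaf 274 2170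 (.cons 294 t45 .nil)) (.cons 274 (.leaf 273 2170 (.cons 298 (.leaf 297 2169 (.cons 251 (.cons 227 (.leaf 203 1622 (.cons 322 (.leaf 299 1814 (.leaf 346 2005 .nil)) .nil)) (.cons 322 (.leaf 346 2005 (.cons 250 (.cons 249 (.leaf 225 1807 (.cons 248 (.leaf 247 1976 (.leaf 271 1978 .nil)) .nil)) (.cons 321 (.leaf 345 1998 (.cons 323 (.leaf 320 2363 (.leaf 347 2004 .nil)) .nil)) .nil)) .nil)) (.cons 227 t44 .nil))) .nil)) .nil)) (.cons 274 (.leaf 273 2170 (.cons 298 (.leaf 297 2169 (.cons 251 t43 .nil)) .nil)) (.cons 273 (.leaf 274 2170 (.cons 294 (.leaf 293 2153 (.cons 297 (.cons 321 (.leaf 322 2352 (.cons 270 (.leaf 269 2155 (.cons 248 (.leaf 224 1796 (.leaf 345 1991 .nil)) .nil)) .nil)) (.cons 270 (.leaf 269 2155 (.cons 318 (.leaf 317 2346 (.cons 271 (.cons 247 (.leaf 223 1782 (.leaf 342 1973 .nil)) (.cons 249 (.leaf 250 1969 (.cons 225 (.leaf 201 1606 (.leaf 320 1798 .nil)) .nil)) .nil))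 .nil)) .nil)) (.cons 321 (.leaf 322 2352 (.cons 248 (.leaf 224 1796 (.leaf 345 1991 .nil)) .nil)) .nil))) .nil)) .nil)) (.cons 274 (.leaf 273 2170 (.cons 298 (.leaf 297 2169 (.cons 251 t42 .nil)) .nil)) (.cons 273 (.leaf 274 2170 (.cons 294 (.leaf 293 2153 (.cons 297 (.cons 270 (.leaf 269 2155 (.cons 271 (.leaf 298 2160 (.cons 318 (.leaf 317 2346 (.cons 247 (.leaf 223 1782 (.leaf 342 1973 .nil)) .nil)) .nil)) .nil)) (.cons 318 (.leaf 317 2346 (.cons 319 (.leaf 298 2354 (.cons 248 (.leaf 224 1790 (.cons 343 (.leaf 271 1981 (.leaf 320 1982 .nil)) .nil)) .nil)) .nil)) (.cons 270 (.leaf 269 2155 (.cons 271 (.leaf 298 2160 (.cons 249 (.leaf 250 1969 (.cons 225 (.leaf 201 1606 (.leaf 320 1798 .nil)) .nil)) .nil)) .nil)) (.cons 318 (.leaf 317 2346 (.cons 269 (.leaf 270 2155 (.cons 319 (.leaf 298 2354 (.cons 248 (.leaf 224 1790 (.cons 343 (.leaf 320 1982 (.leaf 367 2173 .nil)) .nil)) .nil))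 .nil)) .nil)) (.cons 270 (.leaf 269 2155 (.cons 318 (.leaf 317 2346 (.cons 271 (.cons 247 (.leaf 223 1782 (.leaf 342 1973 .nil)) (.cons 249 (.leaf 250 1969 (.cons 225 (.leaf 201 1606 (.leaf 320 1798 .nil)) .nil)) .nil)) .nil)) .nil)) .nil))))) .nil)) .nil)) .nil)))))))))
noncomputable def t50 : T := .cons 270 (.leaf 269 2155 (.cons 318 (.leaf 317 2346 (.cons 249 (.cons 271 (.leaf 250 1969 (.leaf 298 2160 .nil)) (.cons 225 (.leaf 201 1606 (.leaf 320 1798 .nil)) .nil)) .nil)) .nil)) (.cons 318 (.leaf 317 2346 (.cons 319 (.leaf 298 2354 (.cons 248 (.leaf 224 1790 (.cons 343 (.leaf 271 1981 (.leaf 320 1982 .nil)) .nil)) .nil)) .nil)) (.cons 270 (.leaf 269 2155 (.cons 271 (.leaf 298 2160 (.cons 249 (.leaf 250 1969 (.cons 225 (.leaf 201 1606 (.leaf 320 1798 .nil)) .nil)) .nil)) .nil)) (.cons 318 (.leaf 317 2346 (.cons 269 (.leaf 270 2155 (.cons 319 (.leaf 298 2354 (.cons 343 (.leaf 367 2173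 (.cons 320 (.leaf 248 1982 (.cons 344 (.leaf 249 1989 (.leaf 368 2181 .nil)) .nil)) .nil)) .nil)) .nil)) .nil)) (.cons 270 (.leaf 269 2155 (.cons 271 (.leaf 298 2160 (.cons 318 (.leaf 317 2346 (.cons 247 (.leaf 223 1782 (.leaf 342 1973 .nil)) .nil)) .nil)) .nil)) (.cons 270 (.leaf 269 2155 (.cons 318 (.leaf 317 2346 (.cons 249 (.cons 271 (.leaf 250 1969 (.cons 247 (.leaf 223 1782 (.leaf 342 1973 .nil)) .nil)) (.cons 225 (.leaf 201 1606 (.leaf 320 1798 .nil)) .nil)) .nil)) .nil)) .nil)))))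
noncomputable def t51 : T := .cons 343 (.leaf 367 2173 (.cons 344 (.cons 320 (.leaf 248 1982 (.leaf 249 1989 .nil)) (.cons 271 (.leaf 248 1981 (.leaf 368 2172 .nil)) (.cons 320 (.leaf 249 1989 (.cons 321 (.leaf 322 2355 (.cons 341 (.leaf 342 2537 (.cons 345 (.leaf 369 2180 (.cons 318 (.leaf 317 2536 (.leaf 346 2544 .nil)) .nil)) .nil)) .nil)) .nil)) .nil))) .nil)) (.cons 248 (.leaf 224 1790 (.cons 320 (.cons 321 (.leaf 345 1988 (.leaf 322 2355 .nil)) (.cons 247 (.leaf 223 1791 (.cons 344 (.leaf 271 1980 (.leaf 249 1989 .nil)) .nil)) .nil)) .nil)) (.cons 343 (.leaf 367 2173 (.cons 344 (.cons 320 (.leaf 249 1989 (.cons 321 (.leaf 322 2355 (.cons 341 (.leaf 342 2537 (.cons 345 (.leaf 369 2180 (.cons 318 (.leaf 317 2536 (.leaf 346 2544 .nil)) .nil)) .nil)) .nil)) .nil)) (.cons 271 (.leaf 368 2172 (.cons 342 (.leaf 366 2166 (.cons 318 (.leaf 247 1974 (.cons 317 (.leaf 316 2528 (.leaf 345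 2539 .nil)) .nil)) .nil)) .nil)) (.cons 271 (.leaf 368 2172 (.cons 320 (.leaf 247 1980 (.leaf 249 1989 .nil)) .nil)) .nil))) .nil)) (.cons 343 (.leaf 367 2173 (.cons 248 (.leaf 224 1790 (.leaf 271 1981 .nil)) .nil)) (.cons 248 (.leaf 224 1790 (.cons 343 (.leaf 320 1982 (.leaf 367 2173 .nil)) .nil)) .nil))))
noncomputable def t52 : T := .cons 225 (.leaf 249 1797 (.cons 247 (.leaf 223 1791 (.cons 319 (.leaf 343 1982 (.cons 271 (.leaf 344 1980 (.cons 318 (.leaf 342 1974 (.cons 316 (.leaf 317 2337 (.cons 321 (.leaf 345 1988 (.cons 294 (.leaf 293 2344 (.leaf 322 2355 .nil)) .nil)) .nil)) .nil)) .nil)) .nil)) .nil)) .nil)) (.cons 223 (.leaf 247 1791 (.cons 225 (.leaf 249 1797 (.cons 321 (.leaf 345 1988 (.cons 294 (.leaf 293 2344 (.cons 322 (.leaf 297 2352 (.leaf 323 2363 .nil)) .nil)) .nil)) .nil)) .nil)) (.cons 225 (.leaf 249 1797 (.cons 247 (.leaf 223 1791 (.cons 271 (.leaf 344 1983 (.cons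 319 (.leaf 343 1981 (.cons 318 (.leaf 342 1974 (.cons 297 (.leaf 298 2354 (.leaf 317 2345 .nil)) .nil)) .nil)) .nil)) .nil)) .nil)) (.cons 225 (.leaf 249 1797 (.cons 343 (.leaf 319 1982 (.cons 344 (.leaf 367 2174 (.cons 368 (.leaf 271 2175 (.cons 369 (.leaf 345 2180 (.leaf 393 2372 .nil)) .nil)) .nil)) .nil)) .nil)) (.cons 319 (.leaf 343 1982 (.cons 247 (.leaf 223 1791 (.cons 271 (.leaf 344 1980 (.cons 318 (.leaf 342 1974 (.cons 297 (.leaf 298 2354 (.leaf 317 2345 .nil)) .nil)) .nil)) .nil)) .nil)) .nil))))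
noncomputable def t53 : T := .cons 274 (.leaf 273 2170 (.cons 297 (.leaf 298 2169 (.cons 248 (.cons 320 (.cons 247 (.leaf 223 1791 (.cons 344 (.leaf 271 1983 (.cons 345 (.leaf 321 1988 (.leaf 369 2180 .nil)) .nil)) .nil)) (.cons 247 (.leaf 223 1791 (.cons 249 (.leaf 250 1976 (.leaf 225 1797 .nil)) .nil)) (.cons 225 (.leaf 249 1797 (.cons 343 (.leaf 319 1982 (.cons 344 (.leaf 367 2174 (.cons 368 (.leaf 271 2175 (.cons 369 (.leaf 345 2180 (.leaf 393 2372 .nil)) .nil)) .nil)) .nil)) .nil)) .nil))) (.cons 321 (.leaf 224 1796 (.cons 345 (.leaf 320 1988 (.leaf 369 2183 .nil)) .nil)) (.cons 319 (.leaf 224 1790 (.cons 343 (.leaf 271 1981 (.leaf 320 1982 .nil)) .nil)) (.cons 319 (.leaf 224 1790 (.cons 343 (.leaf 271 1981 (.leaf 367 2173 .nil)) .nil)) .nil)))) .nil)) .nil)) (.cons 248 (.cons 224 (.leaf 319 1790 (.cons 200 (.leaf 271 1598 (.cons 175 (.leaf 199 1407 (.cons 176 (.leaf 151 1215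 (.cons 177 (.leaf 201 1413 (.leaf 153 1221 .nil)) .nil)) .nil)) .nil)) .nil)) (.cons 320 t52 (.cons 224 (.cons 200 (.leaf 271 1598 (.cons 175 (.leaf 199 1407 (.cons 176 (.leaf 151 1215 (.cons 177 (.leaf 201 1413 (.leaf 153 1221 .nil)) .nil)) .nil)) .nil)) (.cons 199 (.leaf 223 1599 (.cons 225 (.leaf 201 1605 (.cons 320 (.leaf 249 1797 (.cons 321 (.leaf 297 1796 (.leaf 345 1988 .nil)) .nil)) .nil)) .nil)) (.cons 200 (.leaf 271 1598 (.cons 201 (.leaf 177 1413 (.leaf 225 1605 .nil)) .nil)) (.cons 199 (.leaf 223 1599 (.cons 200 (.leaf 175 1407 (.leaf 271 1598 .nil)) .nil)) .nil)))) (.cons 224 (.leaf 319 1790 (.cons 199 (.leaf 223 1599 (.cons 225 (.leaf 201 1605 (.cons 320 (.leaf 249 1797 (.cons 321 (.leaf 297 1796 (.leaf 345 1988 .nil)) .nil)) .nil)) .nil)) .nil)) .nil)))) (.cons 273 (.leaf 274 2170 (.cons 294 (.leaf 293 2153 (.cons 297 (.cons 270 (.leaf 269 2155 (.cons 271 (.leaf 298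 2160 (.cons 318 (.leaf 317 2346 (.cons 247 (.leaf 223 1782 (.leaf 342 1973 .nil)) .nil)) .nil)) .nil)) (.cons 317 (.leaf 318 2346 (.cons 321 (.leaf 322 2352 (.cons 345 (.leaf 369 2183 (.cons 344 (.leaf 368 2182 (.cons 320 (.leaf 249 1989 (.cons 343 (.leaf 367 2174 (.cons 342 (.leaf 341 2537 (.cons 346 (.leaf 370 2188 (.cons 347 (.leaf 348 2563 (.leaf 319 2555 .nil)) .nil)) .nil)) .nil)) .nil)) .nil)) .nil)) .nil)) .nil)) (.cons 270 (.leaf 269 2155 (.cons 271 (.leaf 298 2160 (.cons 249 (.leaf 250 1969 (.cons 225 (.leaf 201 1606 (.leaf 320 1798 .nil)) .nil)) .nil)) .nil)) .nil))) .nil)) .nil)) (.cons 273 (.leaf 274 2170 (.cons 294 (.leaf 293 2153 (.cons 319 t51 .nil)) .nil)) (.cons 273 (.leaf 274 2170 (.cons 294 (.leaf 293 2153 (.cons 297 (.cons 317 (.leaf 318 2346 (.cons 321 (.leaf 322 2352 (.cons 345 (.leaf 248 1991 (.leaf 369 2183 .nil)) .nil)) .nil)) (.cons 270 (.leaf 269 2155 (.cons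 271 (.leaf 298 2160 (.cons 318 (.leaf 317 2346 (.cons 247 (.leaf 223 1782 (.leaf 342 1973 .nil)) .nil)) .nil)) .nil)) (.cons 321 (.leaf 322 2352 (.cons 248 (.leaf 224 1796 (.leaf 345 1991 .nil)) .nil)) .nil))) .nil)) .nil)) (.cons 273 (.leaf 274 2170 (.cons 294 (.leaf 293 2153 (.cons 297 (.cons 269 (.leaf 270 2155 (.cons 321 (.leaf 322 2352 (.cons 345 (.leaf 248 1991 (.leaf 369 2183 .nil)) .nil)) .nil)) (.cons 269 (.leaf 270 2155 (.cons 318 (.leaf 317 2346 (.cons 319 (.leaf 298 2354 (.cons 343 (.leaf 367 2173 (.cons 320 (.leaf 248 1982 (.cons 344 (.leaf 249 1989 (.leaf 368 2181 .nil)) .nil)) .nil)) .nil)) .nil)) .nil)) (.cons 269 (.leaf 270 2155 (.cons 321 (.leaf 322 2352 (.cons 345 (.leaf 369 2183 (.cons 344 (.leaf 368 2182 (.cons 249 (.leaf 320 1989 (.cons 225 (.leaf 201 1606 (.cons 226 (.leaf 202 1613 (.leaf 250 1805 .nil)) .nil)) .nil)) .nil)) .nil)) .nil)) .nil)) (.cons 321 (.leaf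 322 2352 (.cons 317 (.leaf 318 2346 (.cons 345 (.leaf 248 1991 (.leaf 369 2183 .nil)) .nil)) .nil)) .nil)))) .nil)) .nil)) (.cons 273 (.leaf 274 2170 (.cons 294 (.leaf 293 2153 (.cons 297 t50 .nil)) .nil)) .nil))))))
noncomputable def t54 : T := .cons 202 (.leaf 226 1623 (.cons 204 (.leaf 228 1629 (.cons 324 (.leaf 300 1820 (.cons 323 (.leaf 348 2012 (.cons 347 (.leaf 250 2007 (.leaf 371 2199 .nil)) .nil)) .nil)) .nil)) .nil)) (.cons 300 (.leaf 324 1820 (.cons 301 (.leaf 302 2195 (.cons 228 (.leaf 204 1629 (.cons 277 (.leaf 278 2193 (.cons 325 (.leaf 326 2384 (.cons 253 (.leaf 252 1831 (.cons 230 (.leaf 254 1837 (.cons 229 (.leaf 250 1810 (.leaf 206 1645 .nil)) .nil)) .nil)) .nil)) .nil)) .nil)) .nil)) .nil)) (.cons 202 (.leaf 226 1623 (.cons 324 (.leaf 300 1820 (.cons 323 (.leaf 348 2012 (.cons 347 (.leaf 250 2007 (.leaf 371 2199 .nil)) .nil)) .nil)) .nil)) (.cons 226 (.leaf 202 1623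 (.cons 250 (.leaf 323 1812 (.cons 225 (.leaf 201 1615 (.cons 224 (.leaf 223 1784 (.leaf 252 1792 .nil)) .nil)) .nil)) .nil)) (.cons 228 (.leaf 204 1629 (.cons 300 (.leaf 324 1820 (.cons 301 (.leaf 302 2195 (.cons 277 (.leaf 278 2193 (.cons 325 (.leaf 326 2384 (.cons 253 (.leaf 252 1831 (.cons 226 (.leaf 202 1623 (.cons 254 (.leaf 229 1808 (.leaf 230 1837 .nil)) .nil)) .nil)) .nil)) .nil)) .nil)) .nil)) .nil)) .nil))))
noncomputable def t55 : T := .cons 318 (.leaf 317 2346 (.cons 319 (.leaf 298 2354 (.cons 343 (.leaf 367 2173 (.cons 270 (.leaf 269 2155 (.cons 249 (.cons 225 (.leaf 201 1606 (.leaf 320 1798 .nil)) (.cons 225 (.leaf 201 1606 (.cons 226 (.leaf 202 1613 (.cons 250 (.leaf 321 1805 (.cons 224 (.leaf 200 1607 (.cons 251 (.leaf 252 1986 (.leaf 223 1784 .nil)) .nil)) .nil)) .nil)) .nil)) (.cons 344 (.leaf 320 1989 (.cons 345 (.leaf 346 2547 (.cons 321 (.leaf 369 2183 (.leaf 322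 2352 .nil)) .nil)) .nil)) .nil))) .nil)) .nil)) .nil)) .nil)) (.cons 318 (.leaf 317 2346 (.cons 269 (.leaf 270 2155 (.cons 298 (.leaf 319 2354 (.cons 299 (.leaf 300 2179 (.cons 323 (.leaf 322 2360 (.leaf 324 2368 .nil)) .nil)) .nil)) .nil)) .nil)) (.cons 318 (.leaf 317 2346 (.cons 319 (.leaf 298 2354 (.cons 343 (.leaf 367 2173 (.cons 270 (.leaf 269 2155 (.cons 249 (.cons 225 (.leaf 201 1606 (.leaf 320 1798 .nil)) (.cons 225 (.leaf 201 1606 (.cons 226 (.leaf 202 1613 (.cons 250 (.leaf 321 1805 (.cons 224 (.leaf 200 1607 (.cons 251 (.leaf 252 1986 (.leaf 223 1784 .nil)) .nil)) .nil)) .nil)) .nil)) (.cons 344 (.leaf 320 1989 (.cons 345 (.leaf 346 2547 (.cons 321 (.leaf 369 2183 (.leaf 368 2182 .nil)) .nil)) .nil)) .nil))) .nil)) .nil)) .nil)) .nil)) (.cons 321 (.leaf 322 2352 (.cons 269 (.leaf 270 2155 (.cons 345 (.leaf 369 2183 (.cons 344 (.leaf 368 2182 (.cons 249 (.leaf 320 1989 (.cons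 225 (.leaf 201 1606 (.cons 226 (.leaf 202 1613 (.leaf 250 1805 .nil)) .nil)) .nil)) .nil)) .nil)) .nil)) .nil)) (.cons 321 (.leaf 322 2352 (.cons 317 (.leaf 318 2346 (.cons 345 (.leaf 369 2183 (.cons 344 (.leaf 368 2182 (.cons 320 (.leaf 249 1989 (.cons 343 (.leaf 367 2174 (.cons 342 (.leaf 341 2537 (.cons 346 (.leaf 370 2188 (.cons 347 (.leaf 348 2563 (.leaf 319 2555 .nil)) .nil)) .nil)) .nil)) .nil)) .nil)) .nil)) .nil)) .nil)) .nil))))
noncomputable def t56 : T := .cons 248 (.cons 223 (.leaf 247 1791 (.cons 224 (.leaf 199 1599 (.leaf 319 1790 .nil)) .nil)) (.cons 223 (.leaf 247 1791 (.cons 224 (.leaf 199 1599 (.cons 225 (.leaf 201 1605 (.leaf 249 1797 .nil)) .nil)) .nil)) (.cons 249 (.leaf 225 1797 (.leaf 344 1989 .nil)) .nil))) (.cons 248 (.cons 223 (.leaf 247 1791 (.cons 224 (.leaf 199 1599 (.leaf 319 1790 .nil)) .nil)) (.cons 223 (.leaf 247 1791 (.cons 224 (.leaf 199 1599 (.cons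 225 (.leaf 201 1605 (.leaf 249 1797 .nil)) .nil)) .nil)) (.cons 319 (.leaf 343 1982 (.cons 321 (.leaf 345 1988 (.leaf 322 2355 .nil)) .nil)) .nil))) (.cons 321 (.cons 322 (.leaf 323 2363 (.leaf 319 2355 .nil)) (.cons 248 (.leaf 345 1988 (.cons 319 (.leaf 224 1790 (.leaf 343 1982 .nil)) .nil)) (.cons 322 (.leaf 323 2363 (.cons 345 (.leaf 248 1988 (.cons 369 (.leaf 344 2180 (.leaf 393 2375 .nil)) .nil)) .nil)) .nil))) (.cons 344 (.leaf 249 1989 (.cons 345 (.leaf 369 2180 (.cons 367 (.leaf 343 2174 (.cons 368 (.leaf 391 2366 (.cons 319 (.leaf 392 2367 (.cons 346 (.leaf 347 2746 (.cons 318 (.leaf 317 2536 (.leaf 321 2544 .nil)) .nil)) .nil)) .nil)) .nil)) .nil)) .nil)) (.cons 344 (.leaf 249 1989 (.cons 343 (.leaf 367 2174 (.cons 345 (.leaf 369 2180 (.cons 321 (.leaf 248 1988 (.cons 322 (.leaf 323 2554 (.leaf 342 2545 .nil)) .nil)) .nil)) .nil)) .nil)) .nil))))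
noncomputable def t57 : T := .cons 224 (.leaf 319 1790 (.cons 199 (.leaf 223 1599 (.cons 200 (.leaf 175 1407 (.cons 201 (.leaf 177 1413 (.leaf 225 1605 .nil)) .nil)) .nil)) .nil)) (.cons 320 (.cons 223 (.leaf 247 1791 (.cons 249 (.leaf 225 1797 (.cons 319 (.leaf 343 1982 (.cons 321 (.leaf 345 1988 (.cons 294 (.leaf 293 2344 (.leaf 322 2355 .nil)) .nil)) .nil)) .nil)) .nil)) (.cons 223 (.leaf 247 1791 (.cons 249 (.leaf 225 1797 (.cons 319 (.leaf 343 1982 (.cons 344 (.leaf 273 1989 (.cons 368 (.leaf 392 2367 (.cons 369 (.leaf 345 2180 (.leaf 393 2372 .nil)) .nil)) .nil)) .nil)) .nil)) .nil)) (.cons 225 (.leaf 249 1797 (.cons 321 (.leaf 345 1988 (.cons 294 (.leaf 293 2344 (.cons 322 (.leaf 297 2352 (.leaf 323 2363 .nil)) .nil)) .nil)) .nil)) (.cons 223 (.leaf 247 1791 (.cons 249 (.leaf 225 1797 (.cons 343 (.leaf 319 1982 (.cons 344 (.leaf 273 1989 (.leaf 367 2174 .nil)) .nil)) .nil))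 .nil)) (.cons 223 (.leaf 247 1791 (.cons 319 (.leaf 343 1982 (.cons 321 (.leaf 345 1988 (.cons 294 (.leaf 293 2344 (.leaf 322 2355 .nil)) .nil)) .nil)) .nil)) .nil))))) (.cons 320 (.cons 223 (.leaf 247 1791 (.cons 199 (.leaf 224 1599 (.cons 249 (.leaf 225 1797 (.cons 344 (.leaf 273 1989 (.cons 367 (.leaf 343 2174 (.cons 368 (.leaf 391 2366 (.cons 369 (.leaf 345 2180 (.leaf 393 2372 .nil)) .nil)) .nil)) .nil)) .nil)) .nil)) .nil)) (.cons 223 (.leaf 247 1791 (.cons 199 (.leaf 224 1599 (.cons 321 (.leaf 345 1988 (.cons 294 (.leaf 293 2344 (.cons 322 (.leaf 297 2352 (.leaf 323 2363 .nil)) .nil)) .nil)) .nil)) .nil)) (.cons 223 (.leaf 247 1791 (.cons 224 (.leaf 199 1599 (.cons 225 (.leaf 201 1605 (.leaf 249 1797 .nil)) .nil)) .nil)) (.cons 321 (.leaf 345 1988 (.cons 225 (.leaf 249 1797 (.cons 294 (.leaf 293 2344 (.cons 322 (.leaf 297 2352 (.leaf 323 2363 .nil)) .nil)) .nil)) .nil)) .nil))))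 (.cons 224 (.leaf 319 1790 (.cons 199 (.leaf 223 1599 (.cons 200 (.leaf 175 1407 (.cons 297 (.leaf 273 1604 (.leaf 321 1796 .nil)) .nil)) .nil)) .nil)) (.cons 224 (.leaf 319 1790 (.cons 201 (.leaf 225 1605 (.cons 200 (.leaf 177 1413 (.cons 297 (.leaf 273 1604 (.leaf 321 1796 .nil)) .nil)) .nil)) .nil)) .nil))))
noncomputable def t58 : T := .cons 298 (.leaf 274 2169 (.cons 318 (.leaf 319 2354 (.cons 294 (.leaf 317 2346 (.cons 269 (.leaf 270 2155 (.cons 322 (.leaf 321 2352 (.leaf 323 2360 .nil)) .nil)) .nil)) .nil)) .nil)) (.cons 294 (.cons 317 (.leaf 318 2346 (.cons 293 (.leaf 316 2338 (.cons 321 (.leaf 320 2344 (.leaf 322 2352 .nil)) .nil)) .nil)) (.cons 269 (.leaf 270 2155 (.cons 293 (.leaf 268 2147 (.cons 317 (.leaf 316 2338 (.leaf 318 2346 .nil)) .nil)) .nil)) (.cons 269 (.leaf 270 2155 (.cons 268 (.leaf 293 2147 (.cons 321 (.leaf 322 2352 (.cons 248 (.leaf 224 1796 (.cons 345 (.leaf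 320 1988 (.leaf 369 2183 .nil)) .nil)) .nil)) .nil)) .nil)) (.cons 321 (.leaf 322 2352 (.cons 248 (.leaf 224 1796 (.cons 345 (.leaf 320 1988 (.leaf 369 2183 .nil)) .nil)) .nil)) .nil)))) (.cons 298 (.leaf 274 2169 (.cons 319 (.leaf 318 2354 (.cons 224 (.leaf 248 1790 (.cons 299 (.leaf 320 2362 (.cons 323 (.leaf 322 2360 (.leaf 324 2368 .nil)) .nil)) .nil)) .nil)) .nil)) (.cons 298 (.leaf 274 2169 (.cons 319 (.leaf 318 2354 (.cons 248 (.leaf 224 1790 (.cons 320 (.leaf 343 1982 (.leaf 299 2362 .nil)) .nil)) .nil)) .nil)) (.cons 298 (.leaf 274 2169 (.cons 322 (.leaf 323 2360 (.cons 321 (.leaf 294 2352 (.cons 248 (.leaf 224 1796 (.cons 345 (.leaf 320 1988 (.leaf 369 2183 .nil)) .nil)) .nil)) .nil)) .nil)) .nil))))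
noncomputable def t59 : T := .cons 274 (.leaf 273 2170 (.cons 297 (.leaf 298 2169 (.cons 248 (.cons 320 (.cons 247 (.leaf 223 1791 (.cons 249 (.leaf 250 1976 (.leaf 225 1797 .nil)) .nil)) (.cons 225 (.leaf 249 1797 (.cons 343 (.leaf 319 1982 (.cons 344 (.leaf 367 2174 (.cons 345 (.leaf 321 1988 (.leaf 369 2180 .nil)) .nil)) .nil)) .nil)) (.cons 223 (.leaf 247 1791 (.cons 343 (.leaf 319 1982 (.cons 344 (.leaf 367 2174 (.cons 345 (.leaf 321 1988 (.leaf 369 2180 .nil)) .nil)) .nil)) .nil)) .nil))) (.cons 224 (.leaf 319 1790 (.cons 199 (.leaf 223 1599 (.cons 200 (.leaf 175 1407 (.cons 201 (.leaf 177 1413 (.leaf 225 1605 .nil)) .nil)) .nil)) .nil)) (.cons 321 (.leaf 224 1796 (.cons 345 (.leaf 320 1988 (.leaf 369 2183 .nil)) .nil)) .nil))) .nil)) .nil)) (.cons 297 t58 (.cons 248 t57 (.cons 273 (.leaf 274 2170 (.cons 294 (.leaf 293 2153 (.cons 320 t56 .nil)) .nil)) (.cons 274 (.leaf 273 2170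 (.cons 297 (.leaf 298 2169 (.cons 294 (.cons 321 (.leaf 322 2352 (.cons 269 (.leaf 270 2155 (.cons 293 (.leaf 268 2147 (.leaf 320 2344 .nil)) .nil)) .nil)) (.cons 269 (.leaf 270 2155 (.cons 293 (.leaf 268 2147 (.cons 317 (.leaf 316 2338 (.leaf 318 2346 .nil)) .nil)) .nil)) (.cons 321 (.leaf 322 2352 (.cons 293 (.leaf 320 2344 (.cons 317 (.leaf 316 2338 (.leaf 318 2346 .nil)) .nil)) .nil)) (.cons 321 (.leaf 322 2352 (.cons 248 (.leaf 224 1796 (.cons 345 (.leaf 320 1988 (.leaf 369 2183 .nil)) .nil)) .nil)) .nil)))) .nil)) .nil)) (.cons 273 (.leaf 274 2170 (.cons 294 (.leaf 293 2153 (.cons 297 t55 .nil)) .nil)) (.cons 273 (.leaf 274 2170 (.cons 294 (.leaf 293 2153 (.cons 297 (.cons 321 (.leaf 322 2352 (.cons 248 (.leaf 224 1796 (.leaf 345 1991 .nil)) .nil)) (.cons 318 (.leaf 317 2346 (.cons 269 (.leaf 270 2155 (.cons 298 (.leaf 319 2354 (.cons 299 (.leaf 300 2179 (.cons 323 (.leaf 322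 2360 (.leaf 324 2368 .nil)) .nil)) .nil)) .nil)) .nil)) (.cons 318 (.leaf 317 2346 (.cons 319 (.leaf 298 2354 (.cons 248 (.leaf 224 1790 (.cons 270 (.leaf 269 2155 (.cons 345 (.leaf 321 1991 (.cons 342 (.cons 343 (.leaf 367 2164 (.cons 341 (.leaf 365 2158 (.cons 339 (.leaf 340 2521 (.cons 344 (.leaf 346 2547 (.cons 369 (.leaf 370 2736 (.leaf 368 2728 .nil)) .nil)) .nil)) .nil)) .nil)) (.cons 365 (.leaf 341 2158 (.cons 366 (.leaf 390 2357 (.leaf 389 2350 .nil)) .nil)) (.cons 367 (.leaf 343 2164 (.cons 366 (.leaf 390 2357 (.leaf 391 2356 .nil)) .nil)) .nil))) .nil)) .nil)) .nil)) .nil)) .nil)) .nil))) .nil)) .nil)) (.cons 273 (.leaf 274 2170 (.cons 294 (.leaf 293 2153 (.cons 297 (.cons 269 (.leaf 270 2155 (.cons 317 (.leaf 318 2346 (.cons 321 (.leaf 322 2352 (.cons 345 (.leaf 248 1991 (.leaf 369 2183 .nil)) .nil)) .nil)) .nil)) (.cons 269 (.leaf 270 2155 (.cons 318 (.leaf 317 2346 (.cons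 298 (.leaf 319 2354 (.cons 299 (.leaf 300 2179 (.cons 323 (.leaf 322 2360 (.leaf 324 2368 .nil)) .nil)) .nil)) .nil)) .nil)) (.cons 269 (.leaf 270 2155 (.cons 318 (.leaf 317 2346 (.cons 319 (.leaf 298 2354 (.cons 343 (.leaf 367 2173 (.cons 320 (.leaf 248 1982 (.cons 344 (.leaf 249 1989 (.leaf 368 2181 .nil)) .nil)) .nil)) .nil)) .nil)) .nil)) (.cons 269 (.leaf 270 2155 (.cons 321 (.leaf 322 2352 (.cons 345 (.leaf 248 1991 (.leaf 369 2183 .nil)) .nil)) .nil)) (.cons 317 (.leaf 318 2346 (.cons 321 (.leaf 322 2352 (.cons 345 (.leaf 248 1991 (.leaf 369 2183 .nil)) .nil)) .nil)) .nil))))) .nil)) .nil)) (.cons 274 (.leaf 273 2170 (.cons 298 (.leaf 297 2169 (.cons 251 (.cons 227 (.leaf 203 1622 (.cons 322 (.leaf 299 1814 (.leaf 346 2005 .nil)) .nil)) (.cons 322 (.leaf 346 2005 (.cons 250 (.cons 249 (.leaf 225 1807 (.cons 248 (.leaf 247 1976 (.cons 224 (.leaf 319 1790 (.leaf 223 1787 .nil))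 .nil)) .nil)) (.cons 323 (.leaf 347 2004 (.cons 299 (.leaf 226 1812 (.cons 324 (.leaf 348 2012 (.cons 325 (.leaf 326 2387 (.cons 252 (.leaf 228 1821 (.cons 253 (.leaf 254 2002 (.cons 229 (.leaf 230 1809 (.cons 277 (.leaf 278 2000 (.cons 301 (.leaf 302 2385 (.leaf 300 1830 .nil)) .nil)) .nil)) .nil)) .nil)) .nil)) .nil)) .nil)) .nil)) .nil)) .nil)) (.cons 227 (.leaf 203 1622 (.cons 299 t54 .nil)) (.cons 227 (.leaf 203 1622 (.cons 322 (.leaf 346 2005 (.leaf 250 1813 .nil)) .nil)) .nil)))) .nil)) .nil)) .nil))))))))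
noncomputable def t60 : T := .cons 199 (.leaf 223 1599 (.cons 200 (.leaf 175 1407 (.cons 295 (.leaf 271 1598 (.leaf 319 1790 .nil)) .nil)) .nil)) (.cons 225 (.leaf 201 1605 (.cons 199 (.leaf 223 1599 (.cons 175 (.leaf 200 1407 (.cons 320 (.leaf 249 1797 (.cons 343 (.leaf 319 1982 (.cons 344 (.leaf 367 2174 (.cons 345 (.leaf 321 1988 (.leaf 369 2180 .nil)) .nil)) .nil)) .nil)) .nil)) .nil)) .nil)) (.cons 225 (.leaf 201 1605 (.cons 199 (.leaf 223 1599 (.cons 200 (.leaf 175 1407 (.cons 197 (.leaf 198 1576 (.cons 249 (.leaf 320 1797 (.cons 176 (.leaf 273 1412 (.leaf 152 1220 .nil)) .nil)) .nil)) .nil)) .nil)) .nil)) (.cons 295 (.leaf 319 1790 (.cons 200 (.leaf 271 1598 (.cons 201 (.leaf 177 1413 (.leaf 225 1605 .nil)) .nil)) .nil)) (.cons 225 (.leaf 201 1605 (.cons 199 (.leaf 223 1599 (.cons 295 (.leaf 319 1790 (.cons 273 (.leaf 274 2170 (.cons 320 (.leaf 249 1797 (.cons 293 (.leaf 294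 2153 (.cons 345 (.leaf 321 1988 (.cons 344 (.leaf 369 2180 (.cons 368 (.leaf 271 2175 (.cons 367 (.leaf 343 2174 (.leaf 391 2366 .nil)) .nil)) .nil)) .nil)) .nil)) .nil)) .nil)) .nil)) .nil)) .nil)) .nil))))
noncomputable def t61 : T := .cons 320 (.cons 247 (.leaf 223 1791 (.cons 273 (.leaf 274 1979 (.cons 344 (.leaf 271 1983 (.leaf 249 1989 .nil)) .nil)) .nil)) (.cons 249 (.leaf 225 1797 (.cons 273 (.leaf 344 1989 (.cons 274 (.leaf 295 2170 (.cons 251 (.leaf 252 1985 (.cons 250 (.leaf 271 1977 (.cons 299 (.leaf 300 2176 (.cons 226 (.leaf 202 1620 (.leaf 323 1815 .nil)) .nil)) .nil)) .nil)) .nil)) .nil)) .nil)) (.cons 247 (.leaf 223 1791 (.cons 273 (.leaf 274 1979 (.cons 344 (.leaf 271 1983 (.cons 343 (.leaf 319 1982 (.leaf 367 2174 .nil)) .nil)) .nil)) .nil)) (.cons 247 (.leaf 223 1791 (.cons 249 (.leaf 225 1797 (.cons 250 (.leaf 274 1976 (.cons 271 (.leaf 251 1978 (.leaf 270 1970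 .nil)) .nil)) .nil)) .nil)) (.cons 249 (.leaf 225 1797 (.cons 223 (.leaf 247 1791 (.cons 343 (.leaf 319 1982 (.cons 344 (.leaf 273 1989 (.leaf 367 2174 .nil)) .nil)) .nil)) .nil)) .nil))))) (.cons 320 (.cons 223 (.leaf 247 1791 (.cons 224 (.leaf 199 1599 (.cons 225 (.leaf 201 1605 (.leaf 249 1797 .nil)) .nil)) .nil)) (.cons 225 (.leaf 249 1797 (.cons 201 (.leaf 224 1605 (.cons 343 (.leaf 319 1982 (.cons 344 (.leaf 367 2174 (.cons 345 (.leaf 321 1988 (.leaf 369 2180 .nil)) .nil)) .nil)) .nil)) .nil)) (.cons 223 (.leaf 247 1791 (.cons 199 (.leaf 224 1599 (.cons 343 (.leaf 319 1982 (.cons 344 (.leaf 367 2174 (.cons 345 (.leaf 321 1988 (.leaf 369 2180 .nil)) .nil)) .nil)) .nil)) .nil)) (.cons 247 (.leaf 223 1791 (.cons 273 (.leaf 274 1979 (.cons 344 (.leaf 271 1983 (.leaf 249 1989 .nil)) .nil)) .nil)) .nil)))) (.cons 320 (.cons 223 (.leaf 247 1791 (.cons 224 (.leaf 199 1599 (.cons 225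 (.leaf 201 1605 (.leaf 249 1797 .nil)) .nil)) .nil)) (.cons 225 (.leaf 249 1797 (.cons 201 (.leaf 224 1605 (.cons 343 (.leaf 319 1982 (.cons 344 (.leaf 367 2174 (.cons 345 (.leaf 321 1988 (.leaf 369 2180 .nil)) .nil)) .nil)) .nil)) .nil)) (.cons 223 (.leaf 247 1791 (.cons 199 (.leaf 224 1599 (.cons 343 (.leaf 319 1982 (.cons 344 (.leaf 367 2174 (.cons 345 (.leaf 321 1988 (.leaf 369 2180 .nil)) .nil)) .nil)) .nil)) .nil)) (.cons 223 (.leaf 247 1791 (.cons 225 (.leaf 249 1797 (.cons 343 (.leaf 319 1982 (.cons 344 (.leaf 367 2174 (.cons 345 (.leaf 321 1988 (.leaf 369 2180 .nil)) .nil)) .nil)) .nil)) .nil)) .nil)))) (.cons 224 t60 (.cons 320 (.cons 247 (.leaf 223 1791 (.cons 273 (.leaf 274 1979 (.cons 344 (.leaf 271 1983 (.cons 343 (.leaf 319 1982 (.leaf 367 2174 .nil)) .nil)) .nil)) .nil)) (.cons 319 (.leaf 343 1982 (.cons 295 (.leaf 224 1790 (.cons 321 (.leaf 345 1988 (.cons 294 (.leaf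 293 2344 (.leaf 322 2355 .nil)) .nil)) .nil)) .nil)) (.cons 247 (.leaf 223 1791 (.cons 273 (.leaf 274 1979 (.cons 344 (.leaf 271 1983 (.cons 345 (.leaf 321 1988 (.leaf 369 2180 .nil)) .nil)) .nil)) .nil)) .nil))) (.cons 320 (.cons 225 (.leaf 249 1797 (.cons 201 (.leaf 224 1605 (.cons 343 (.leaf 319 1982 (.cons 344 (.leaf 367 2174 (.cons 345 (.leaf 321 1988 (.leaf 369 2180 .nil)) .nil)) .nil)) .nil)) .nil)) (.cons 225 (.leaf 249 1797 (.cons 201 (.leaf 224 1605 (.cons 345 (.leaf 321 1988 (.cons 344 (.leaf 369 2180 (.cons 367 (.leaf 343 2174 (.cons 271 (.leaf 247 1983 (.cons 368 (.leaf 295 2175 (.leaf 391 2366 .nil)) .nil)) .nil)) .nil)) .nil)) .nil)) .nil)) (.cons 319 (.leaf 343 1982 (.cons 295 (.leaf 224 1790 (.cons 321 (.leaf 345 1988 (.cons 294 (.leaf 293 2344 (.leaf 322 2355 .nil)) .nil)) .nil)) .nil)) (.cons 225 (.leaf 249 1797 (.cons 224 (.leaf 201 1605 (.cons 295 (.leaf 319 1790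 (.cons 271 (.leaf 200 1598 (.cons 344 (.leaf 247 1983 (.leaf 368 2175 .nil)) .nil)) .nil)) .nil)) .nil)) (.cons 225 (.leaf 249 1797 (.cons 343 (.leaf 319 1982 (.cons 344 (.leaf 367 2174 (.cons 345 (.leaf 321 1988 (.leaf 369 2180 .nil)) .nil)) .nil)) .nil)) .nil))))) (.cons 320 (.cons 223 (.leaf 247 1791 (.cons 199 (.leaf 224 1599 (.cons 345 (.leaf 321 1988 (.cons 344 (.leaf 369 2180 (.cons 273 (.leaf 249 1989 (.cons 274 (.leaf 295 2170 (.cons 251 (.leaf 252 1985 (.cons 250 (.leaf 271 1977 (.cons 299 (.leaf 300 2176 (.cons 323 (.leaf 226 1815 (.leaf 347 2007 .nil)) .nil)) .nil)) .nil)) .nil)) .nil)) .nil)) .nil)) .nil)) .nil)) (.cons 249 (.leaf 225 1797 (.cons 273 (.leaf 344 1989 (.cons 274 (.leaf 295 2170 (.cons 251 (.leaf 252 1985 (.cons 250 (.leaf 271 1977 (.cons 299 (.leaf 300 2176 (.cons 226 (.leaf 202 1620 (.leaf 323 1815 .nil)) .nil)) .nil)) .nil)) .nil)) .nil)) .nil)) (.cons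 247 (.leaf 223 1791 (.cons 273 (.leaf 274 1979 (.cons 344 (.leaf 271 1983 (.cons 345 (.leaf 321 1988 (.leaf 369 2180 .nil)) .nil)) .nil)) .nil)) (.cons 223 (.leaf 247 1791 (.cons 224 (.leaf 199 1599 (.cons 225 (.leaf 201 1605 (.leaf 249 1797 .nil)) .nil)) .nil)) .nil)))) .nil))))))
noncomputable def t62 : T := .cons 295 (.leaf 319 1790 (.cons 200 (.leaf 271 1598 (.cons 175 (.leaf 199 1407 (.cons 176 (.leaf 151 1215 (.cons 177 (.leaf 201 1413 (.leaf 153 1221 .nil)) .nil)) .nil)) .nil)) .nil)) (.cons 199 (.leaf 223 1599 (.cons 200 (.leaf 175 1407 (.cons 201 (.leaf 177 1413 (.leaf 225 1605 .nil)) .nil)) .nil)) (.cons 295 (.leaf 319 1790 (.cons 199 (.leaf 223 1599 (.cons 200 (.leaf 175 1407 (.leaf 271 1598 .nil)) .nil)) .nil)) (.cons 295 (.leaf 319 1790 (.cons 200 (.leaf 271 1598 (.cons 201 (.leaf 177 1413 (.leaf 225 1605 .nil)) .nil)) .nil)) (.cons 295 (.leaf 319 1790 (.cons 273 (.leaf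 274 2170 (.cons 225 (.leaf 201 1605 (.cons 223 (.leaf 199 1599 (.cons 294 (.leaf 293 2153 (.cons 222 (.cons 197 (.leaf 198 1579 (.cons 221 (.leaf 249 1768 (.leaf 196 1571 .nil)) .nil)) (.cons 197 (.leaf 198 1579 (.cons 221 (.leaf 196 1571 (.cons 220 (.leaf 247 1760 (.cons 244 (.leaf 245 1762 (.leaf 243 1754 .nil)) .nil)) .nil)) .nil)) (.cons 197 (.leaf 198 1579 (.cons 250 (.leaf 249 1776 (.cons 226 (.leaf 251 1784 (.cons 203 (.leaf 202 1593 (.cons 227 (.leaf 247 1786 (.leaf 204 1601 .nil)) .nil)) .nil)) .nil)) .nil)) (.cons 249 (.leaf 221 1768 (.leaf 250 1776 .nil)) .nil)))) .nil)) .nil)) .nil)) .nil)) .nil)) .nil))))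
noncomputable def t63 : T := .cons 225 (.leaf 249 1797 (.cons 224 (.leaf 201 1605 (.cons 295 (.leaf 319 1790 (.cons 271 (.leaf 200 1598 (.cons 344 (.leaf 247 1983 (.leaf 368 2175 .nil)) .nil)) .nil)) .nil)) .nil)) (.cons 249 (.leaf 225 1797 (.cons 223 (.leaf 247 1791 (.cons 224 (.leaf 199 1599 (.cons 221 (.leaf 222 1768 (.cons 250 (.leaf 251 1787 (.cons 273 (.leaf 344 1989 (.cons 200 (.leaf 297 1604 (.leaf 176 1412 .nil)) .nil)) .nil)) .nil)) .nil)) .nil)) .nil)) (.cons 223 (.leaf 247 1791 (.cons 224 (.leaf 199 1599 (.cons 201 (.leaf 225 1605 (.cons 200 (.leaf 177 1413 (.cons 295 (.leaf 271 1598 (.leaf 319 1790 .nil)) .nil)) .nil)) .nil)) .nil)) (.cons 319 (.leaf 343 1982 (.cons 224 (.leaf 295 1790 (.cons 199 (.leaf 223 1599 (.cons 200 (.leaf 175 1407 (.cons 177 (.leaf 201 1413 (.cons 176 (.leaf 153 1221 (.cons 273 (.leaf 297 1604 (.leaf 249 1412 .nil)) .nil)) .nil)) .nil)) .nil))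 .nil)) .nil)) (.cons 223 (.leaf 247 1791 (.cons 249 (.leaf 225 1797 (.cons 343 (.leaf 319 1982 (.cons 344 (.leaf 273 1989 (.leaf 367 2174 .nil)) .nil)) .nil)) .nil)) .nil))))
noncomputable def t64 : T := .cons 223 (.leaf 247 1791 (.cons 249 (.leaf 225 1797 (.cons 344 (.leaf 273 1989 (.cons 345 (.leaf 321 1988 (.leaf 369 2180 .nil)) .nil)) .nil)) .nil)) (.cons 249 (.leaf 225 1797 (.cons 223 (.leaf 247 1791 (.cons 199 (.leaf 224 1599 (.cons 344 (.leaf 273 1989 (.cons 369 (.leaf 345 2180 (.cons 368 (.leaf 393 2372 (.cons 295 (.leaf 271 2175 (.cons 391 (.leaf 367 2366 (.cons 392 (.leaf 319 2367 (.leaf 415 2558 .nil)) .nil)) .nil)) .nil)) .nil)) .nil)) .nil)) .nil)) .nil)) (.cons 321 (.leaf 345 1988 (.cons 224 (.leaf 297 1796 (.cons 199 (.leaf 223 1599 (.cons 200 (.leaf 175 1407 (.cons 177 (.leaf 201 1413 (.cons 176 (.leaf 153 1221 (.cons 271 (.leaf 295 1598 (.leaf 247 1406 .nil)) .nil))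 .nil)) .nil)) .nil)) .nil)) .nil)) (.cons 321 (.leaf 345 1988 (.cons 224 (.leaf 297 1796 (.cons 225 (.leaf 201 1605 (.leaf 249 1797 .nil)) .nil)) .nil)) (.cons 249 (.leaf 225 1797 (.cons 223 (.leaf 247 1791 (.cons 224 (.leaf 199 1599 (.cons 221 (.leaf 222 1768 (.cons 250 (.leaf 251 1787 (.cons 273 (.leaf 344 1989 (.cons 200 (.leaf 297 1604 (.leaf 176 1412 .nil)) .nil)) .nil)) .nil)) .nil)) .nil)) .nil)) .nil))))
noncomputable def t65 : T := .cons 344 (.cons 247 (.leaf 271 1983 (.cons 249 (.leaf 273 1989 (.cons 367 (.leaf 343 2174 (.cons 368 (.leaf 391 2366 (.cons 369 (.leaf 345 2180 (.leaf 393 2372 .nil)) .nil)) .nil)) .nil)) .nil)) (.cons 273 (.leaf 249 1989 (.cons 343 (.leaf 367 2174 (.cons 368 (.leaf 297 2181 (.cons 369 (.leaf 345 2180 (.leaf 393 2372 .nil)) .nil)) .nil)) .nil)) (.cons 271 (.leaf 247 1983 (.cons 249 (.leaf 273 1989 (.cons 368 (.leaf 295 2175 (.cons 369 (.leaf 345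 2180 (.leaf 393 2372 .nil)) .nil)) .nil)) .nil)) (.cons 271 (.leaf 247 1983 (.cons 367 (.leaf 343 2174 (.cons 368 (.leaf 295 2175 (.leaf 391 2366 .nil)) .nil)) .nil)) (.cons 343 (.leaf 367 2174 (.cons 345 (.leaf 369 2180 (.cons 342 (.cons 321 (.leaf 341 2537 (.leaf 322 2545 .nil)) (.cons 318 (.leaf 317 2539 (.cons 247 (.leaf 271 1983 (.cons 319 (.leaf 346 2547 (.cons 366 (.leaf 365 2730 (.cons 390 (.leaf 414 2549 (.leaf 295 2357 .nil)) .nil)) .nil)) .nil)) .nil)) .nil)) .nil)) .nil)) .nil))))) (.cons 344 (.cons 247 (.leaf 271 1983 (.cons 249 (.leaf 273 1989 (.cons 367 (.leaf 343 2174 (.cons 368 (.leaf 391 2366 (.cons 369 (.leaf 345 2180 (.leaf 393 2372 .nil)) .nil)) .nil)) .nil)) .nil)) (.cons 271 (.leaf 247 1983 (.cons 367 (.leaf 343 2174 (.cons 368 (.leaf 295 2175 (.leaf 391 2366 .nil)) .nil)) .nil)) (.cons 345 (.leaf 369 2180 (.cons 248 (.leaf 321 1988 (.cons 273 (.leaf 249 1989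 (.cons 367 (.leaf 343 2174 (.cons 368 (.leaf 297 2181 (.leaf 391 2366 .nil)) .nil)) .nil)) .nil)) .nil)) (.cons 247 (.leaf 271 1983 (.cons 248 (.leaf 223 1791 (.cons 345 (.leaf 321 1988 (.leaf 369 2180 .nil)) .nil)) .nil)) .nil)))) (.cons 344 (.cons 249 (.leaf 273 1989 (.cons 367 (.leaf 343 2174 (.cons 368 (.leaf 391 2366 (.cons 369 (.leaf 345 2180 (.leaf 393 2372 .nil)) .nil)) .nil)) .nil)) (.cons 247 (.leaf 271 1983 (.cons 248 (.leaf 223 1791 (.cons 249 (.leaf 225 1797 (.leaf 273 1989 .nil)) .nil)) .nil)) (.cons 247 (.leaf 271 1983 (.cons 248 (.leaf 223 1791 (.cons 343 (.leaf 319 1982 (.leaf 367 2174 .nil)) .nil)) .nil)) .nil))) (.cons 248 t64 (.cons 248 t63 (.cons 248 (.cons 249 (.leaf 225 1797 (.cons 223 (.leaf 247 1791 (.cons 224 (.leaf 199 1599 (.cons 221 (.leaf 222 1768 (.cons 250 (.leaf 251 1787 (.cons 273 (.leaf 344 1989 (.cons 200 (.leaf 297 1604 (.leaf 176 1412 .nil)) .nil))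 .nil)) .nil)) .nil)) .nil)) .nil)) (.cons 321 (.leaf 345 1988 (.cons 224 (.leaf 297 1796 (.cons 199 (.leaf 223 1599 (.cons 200 (.leaf 175 1407 (.cons 201 (.leaf 177 1413 (.leaf 225 1605 .nil)) .nil)) .nil)) .nil)) .nil)) (.cons 319 (.leaf 343 1982 (.cons 223 (.leaf 247 1791 (.cons 224 (.leaf 199 1599 (.leaf 295 1790 .nil)) .nil)) .nil)) (.cons 321 (.leaf 345 1988 (.cons 224 (.leaf 297 1796 (.cons 225 (.leaf 201 1605 (.leaf 249 1797 .nil)) .nil)) .nil)) (.cons 249 (.leaf 225 1797 (.cons 343 (.leaf 319 1982 (.cons 344 (.leaf 273 1989 (.leaf 367 2174 .nil)) .nil)) .nil)) .nil))))) (.cons 344 (.cons 247 (.leaf 271 1983 (.cons 343 (.leaf 367 2174 (.cons 248 (.leaf 223 1791 (.leaf 319 1982 .nil)) .nil)) .nil)) (.cons 247 (.leaf 271 1983 (.cons 345 (.leaf 369 2180 (.cons 248 (.leaf 223 1791 (.leaf 321 1988 .nil)) .nil)) .nil)) (.cons 343 (.leaf 367 2174 (.cons 345 (.leaf 369 2180 (.cons 342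 (.cons 319 (.leaf 248 1982 (.cons 318 (.leaf 317 2536 (.leaf 346 2547 .nil)) .nil)) (.cons 321 (.leaf 248 1988 (.leaf 341 2537 .nil)) (.cons 321 (.leaf 341 2537 (.leaf 322 2545 .nil)) .nil))) .nil)) .nil)) (.cons 247 (.leaf 271 1983 (.cons 343 (.leaf 367 2174 (.cons 369 (.leaf 345 2180 (.cons 368 (.leaf 393 2372 (.cons 297 (.leaf 273 2181 (.cons 321 (.leaf 392 2373 (.cons 341 (.leaf 342 2728 (.cons 322 (.leaf 323 2554 (.cons 370 (.leaf 371 2747 (.cons 346 (.leaf 394 2383 (.cons 319 (.leaf 347 2552 (.cons 298 (.leaf 299 2361 (.leaf 318 2353 .nil)) .nil)) .nil)) .nil)) .nil)) .nil)) .nil)) .nil)) .nil)) .nil)) .nil)) .nil)) .nil)))) (.cons 344 (.cons 249 (.leaf 273 1989 (.cons 248 (.leaf 225 1797 (.cons 345 (.leaf 321 1988 (.leaf 369 2180 .nil)) .nil)) .nil)) (.cons 249 (.leaf 273 1989 (.cons 248 (.leaf 225 1797 (.cons 343 (.leaf 319 1982 (.leaf 367 2174 .nil)) .nil)) .nil)) (.cons 343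 (.leaf 367 2174 (.cons 345 (.leaf 369 2180 (.cons 342 (.cons 319 (.leaf 248 1982 (.cons 318 (.leaf 317 2536 (.leaf 346 2547 .nil)) .nil)) (.cons 321 (.leaf 248 1988 (.leaf 341 2537 .nil)) (.cons 321 (.leaf 341 2537 (.leaf 322 2545 .nil)) .nil))) .nil)) .nil)) (.cons 249 (.leaf 273 1989 (.cons 367 (.leaf 343 2174 (.cons 368 (.leaf 391 2366 (.cons 369 (.leaf 345 2180 (.leaf 393 2372 .nil)) .nil)) .nil)) .nil)) .nil)))) .nil)))))))
noncomputable def t66 : T := .cons 248 (.cons 225 (.leaf 249 1797 (.cons 224 (.leaf 201 1605 (.cons 295 (.leaf 319 1790 (.cons 271 (.leaf 200 1598 (.cons 344 (.leaf 247 1983 (.leaf 368 2175 .nil)) .nil)) .nil)) .nil)) .nil)) (.cons 225 (.leaf 249 1797 (.cons 224 (.leaf 201 1605 (.cons 321 (.leaf 297 1796 (.leaf 345 1988 .nil)) .nil)) .nil)) (.cons 319 (.leaf 343 1982 (.cons 223 (.leaf 247 1791 (.cons 224 (.leaf 199 1599 (.leaf 295 1790 .nil)) .nil)) .nil))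 (.cons 225 (.leaf 249 1797 (.cons 343 (.leaf 319 1982 (.cons 247 (.leaf 223 1791 (.cons 344 (.leaf 271 1983 (.leaf 367 2174 .nil)) .nil)) .nil)) .nil)) .nil)))) (.cons 248 (.cons 319 (.leaf 343 1982 (.cons 223 (.leaf 247 1791 (.cons 224 (.leaf 199 1599 (.leaf 295 1790 .nil)) .nil)) .nil)) (.cons 321 (.leaf 345 1988 (.cons 224 (.leaf 297 1796 (.cons 225 (.leaf 201 1605 (.leaf 249 1797 .nil)) .nil)) .nil)) (.cons 319 (.leaf 343 1982 (.cons 321 (.leaf 345 1988 (.cons 247 (.leaf 223 1791 (.cons 318 (.cons 297 (.leaf 317 2345 (.leaf 298 2353 .nil)) (.cons 293 (.leaf 294 2347 (.cons 317 (.leaf 292 2339 (.cons 341 (.leaf 340 2530 (.leaf 342 2538 .nil)) .nil)) .nil)) (.cons 293 (.leaf 294 2347 (.cons 298 (.leaf 297 2353 (.cons 322 (.leaf 299 2361 (.cons 295 (.leaf 323 2363 (.cons 342 (.leaf 341 2538 (.leaf 271 1974 .nil)) .nil)) .nil)) .nil)) .nil)) .nil))) .nil)) .nil)) .nil)) .nil))) t65)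
noncomputable def t67 : T := .cons 299 (.leaf 300 2176 (.cons 251 (.leaf 252 1985 (.cons 298 (.leaf 271 2168 (.cons 227 (.leaf 203 1622 (.leaf 322 1814 .nil)) .nil)) .nil)) .nil)) (.cons 251 (.leaf 252 1985 (.cons 250 (.leaf 271 1977 (.cons 248 (.leaf 247 1979 (.cons 224 (.cons 223 (.leaf 199 1599 (.leaf 249 1787 .nil)) (.cons 297 (.leaf 200 1604 (.leaf 321 1796 .nil)) .nil)) .nil)) .nil)) .nil)) (.cons 299 (.leaf 300 2176 (.cons 298 (.leaf 271 2168 (.cons 248 (.leaf 247 1979 (.cons 224 (.cons 297 (.leaf 200 1604 (.leaf 321 1796 .nil)) (.cons 199 (.leaf 223 1599 (.cons 200 (.leaf 175 1407 (.cons 201 (.leaf 177 1413 (.leaf 225 1605 .nil)) .nil)) .nil)) (.cons 199 (.leaf 223 1599 (.cons 201 (.leaf 225 1605 (.cons 297 (.leaf 321 1796 (.cons 323 (.leaf 324 2368 (.cons 250 (.leaf 347 2007 (.leaf 226 1812 .nil)) .nil)) .nil)) .nil)) .nil)) .nil))) .nil)) .nil)) .nil)) (.cons 299 (.leaf 300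 2176 (.cons 251 (.leaf 252 1985 (.cons 248 (.leaf 247 1979 (.cons 227 (.cons 298 (.leaf 203 1622 (.leaf 322 1814 .nil)) (.cons 204 (.leaf 228 1629 (.cons 203 (.leaf 180 1437 (.cons 178 (.leaf 202 1431 (.cons 179 (.leaf 250 1430 (.leaf 154 1239 .nil)) .nil)) .nil)) .nil)) (.cons 204 (.leaf 228 1629 (.cons 322 (.leaf 298 1814 (.cons 323 (.leaf 346 2006 (.cons 347 (.leaf 250 2007 (.cons 348 (.leaf 324 2012 (.leaf 372 2204 .nil)) .nil)) .nil)) .nil)) .nil)) .nil))) .nil)) .nil)) .nil)) .nil)))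
noncomputable def t68 : T := .cons 346 (.leaf 251 2005 (.cons 347 (.leaf 371 2196 (.cons 369 (.leaf 345 2190 (.cons 370 (.leaf 393 2382 (.cons 348 (.leaf 349 2762 (.cons 367 (.leaf 368 2745 (.cons 323 (.leaf 250 2004 (.cons 321 (.leaf 324 2371 (.leaf 394 2383 .nil)) .nil)) .nil)) .nil)) .nil)) .nil)) .nil)) .nil)) (.cons 250 (.cons 321 (.leaf 226 1806 (.leaf 345 1998 .nil)) (.cons 225 (.leaf 249 1807 (.cons 226 (.leaf 201 1615 (.cons 227 (.leaf 203 1621 (.leaf 251 1813 .nil)) .nil)) .nil)) (.cons 225 (.leaf 249 1807 (.cons 323 (.leaf 347 2004 (.cons 321 (.leaf 324 2371 (.leaf 345 1998 .nil)) .nil)) .nil)) .nil))) (.cons 346 (.leaf 251 2005 (.cons 345 (.leaf 369 2190 (.cons 347 (.leaf 371 2196 (.cons 323 (.leaf 250 2004 (.cons 324 (.leaf 325 2570 (.leaf 344 2561 .nil)) .nil)) .nil)) .nil)) .nil)) (.cons 323 (.cons 324 (.leaf 321 2371 (.leaf 325 2379 .nil)) (.cons 324 (.leaf 325 2379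 (.cons 347 (.leaf 250 2004 (.cons 371 (.leaf 346 2196 (.leaf 395 2391 .nil)) .nil)) .nil)) (.cons 250 (.leaf 347 2004 (.cons 321 (.leaf 226 1806 (.leaf 345 1998 .nil)) .nil)) .nil))) (.cons 346 (.leaf 251 2005 (.cons 347 (.leaf 371 2196 (.cons 369 (.leaf 345 2190 (.cons 370 (.leaf 393 2382 (.cons 348 (.leaf 349 2762 (.cons 367 (.leaf 368 2745 (.cons 394 (.leaf 321 2383 (.cons 418 (.leaf 323 2581 (.cons 419 (.leaf 395 2580 (.leaf 443 2772 .nil)) .nil)) .nil)) .nil)) .nil)) .nil)) .nil)) .nil)) .nil)) (.cons 251 (.leaf 346 2005 (.cons 227 (.leaf 203 1622 (.leaf 250 1813 .nil)) .nil)) .nil)))))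
noncomputable def t69 : T := .cons 227 (.leaf 203 1622 (.cons 322 (.leaf 299 1814 (.leaf 346 2005 .nil)) .nil)) (.cons 322 (.leaf 346 2005 (.cons 250 (.cons 323 (.leaf 347 2004 (.cons 226 (.leaf 299 1812 (.cons 225 (.leaf 201 1615 (.leaf 249 1807 .nil)) .nil)) .nil)) (.cons 249 (.leaf 225 1807 (.cons 248 (.leaf 247 1976 (.leaf 271 1978 .nil)) .nil)) (.cons 323 (.leaf 347 2004 (.cons 226 (.leaf 299 1812 (.cons 201 (.leaf 225 1615 (.cons 202 (.leaf 178 1428 (.leaf 177 1423 .nil)) .nil)) .nil)) .nil)) (.cons 323 (.leaf 347 2004 (.cons 299 (.leaf 226 1812 (.cons 228 (.leaf 252 1821 (.cons 321 (.leaf 345 1998 (.cons 301 (.leaf 300 2378 (.cons 324 (.leaf 348 2012 (.cons 325 (.leaf 326 2387 (.leaf 302 2385 .nil)) .nil)) .nil)) .nil)) .nil)) .nil)) .nil)) .nil)))) .nil)) (.cons 227 (.leaf 203 1622 (.cons 299 (.cons 202 (.leaf 226 1623 (.cons 324 (.leaf 300 1820 (.cons 323 (.leaf 348 2012 (.cons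 347 (.leaf 250 2007 (.leaf 371 2199 .nil)) .nil)) .nil)) .nil)) (.cons 228 (.leaf 204 1629 (.cons 252 (.leaf 323 1821 (.cons 253 (.leaf 254 2002 (.cons 300 (.leaf 324 1820 (.cons 301 (.leaf 302 2195 (.cons 277 (.leaf 278 2193 (.leaf 325 1831 .nil)) .nil)) .nil)) .nil)) .nil)) .nil)) (.cons 300 (.leaf 324 1820 (.cons 228 (.leaf 204 1629 (.cons 301 (.leaf 302 2195 (.cons 277 (.leaf 278 2193 (.cons 325 (.leaf 326 2384 (.cons 253 (.leaf 252 1831 (.cons 226 (.leaf 202 1623 (.cons 254 (.leaf 229 1808 (.leaf 230 1837 .nil)) .nil)) .nil)) .nil)) .nil)) .nil)) .nil)) .nil)) (.cons 226 (.leaf 202 1623 (.cons 228 (.leaf 204 1629 (.cons 323 (.leaf 250 1812 (.leaf 252 1821 .nil)) .nil)) .nil)) .nil)))) .nil)) (.cons 322 (.leaf 346 2005 (.cons 227 (.leaf 203 1622 (.leaf 250 1813 .nil)) .nil)) .nil)))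
noncomputable def t70 : T := .cons 346 (.leaf 251 2005 (.cons 347 (.leaf 371 2196 (.cons 369 (.leaf 345 2190 (.cons 370 (.leaf 299 2197 (.leaf 393 2382 .nil)) .nil)) .nil)) .nil)) (.cons 346 (.leaf 251 2005 (.cons 347 (.leaf 371 2196 (.cons 369 (.leaf 345 2190 (.cons 370 (.leaf 393 2382 (.cons 348 (.leaf 349 2762 (.cons 367 (.leaf 368 2745 (.cons 323 (.leaf 250 2004 (.cons 321 (.leaf 324 2371 (.leaf 394 2383 .nil)) .nil)) .nil)) .nil)) .nil)) .nil)) .nil)) .nil)) (.cons 250 (.cons 321 (.leaf 226 1806 (.leaf 345 1998 .nil)) (.cons 225 (.leaf 249 1807 (.cons 226 (.leaf 201 1615 (.cons 227 (.leaf 203 1621 (.leaf 251 1813 .nil)) .nil)) .nil)) (.cons 225 (.leaf 249 1807 (.cons 323 (.leaf 347 2004 (.cons 321 (.leaf 324 2371 (.leaf 345 1998 .nil)) .nil)) .nil)) .nil))) (.cons 323 (.cons 324 (.leaf 299 2368 (.leaf 321 2371 .nil)) (.cons 250 (.leaf 347 2004 (.cons 321 (.leaf 226 1806 (.leaf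 345 1998 .nil)) .nil)) (.cons 324 (.leaf 299 2368 (.leaf 325 2379 .nil)) .nil))) (.cons 299 (.leaf 271 2171 (.cons 251 (.leaf 227 1814 (.leaf 346 2005 .nil)) .nil)) .nil))))
noncomputable def t71 : T := .cons 297 (.leaf 295 2169 (.cons 322 t70 .nil)) (.cons 251 t69 (.cons 297 (.leaf 295 2169 (.cons 299 (.leaf 271 2171 (.cons 323 (.leaf 324 2368 (.cons 250 (.leaf 347 2007 (.leaf 226 1812 .nil)) .nil)) .nil)) .nil)) (.cons 297 (.leaf 295 2169 (.cons 322 t68 .nil)) (.cons 297 (.leaf 295 2169 (.cons 299 (.leaf 271 2171 (.cons 323 (.leaf 324 2368 (.cons 347 (.leaf 371 2199 (.cons 346 (.leaf 370 2198 (.cons 251 (.leaf 322 2005 (.cons 227 (.leaf 203 1622 (.cons 228 (.leaf 204 1629 (.leaf 252 1821 .nil)) .nil)) .nil)) .nil)) .nil)) .nil)) .nil)) .nil)) (.cons 297 (.leaf 295 2169 (.cons 271 (.leaf 299 2171 (.cons 270 (.leaf 269 2152 (.cons 250 (.cons 321 (.leaf 226 1806 (.cons 345 (.leaf 369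 2189 (.leaf 322 1998 .nil)) .nil)) (.cons 249 (.cons 248 (.leaf 247 1976 (.leaf 251 1978 .nil)) (.cons 225 (.leaf 322 1807 (.cons 201 (.leaf 177 1420 (.leaf 226 1615 .nil)) .nil)) .nil)) (.cons 248 (.cons 249 (.leaf 247 1976 (.leaf 251 1978 .nil)) (.cons 224 (.leaf 321 1796 (.cons 199 (.leaf 223 1599 (.cons 200 (.leaf 175 1407 (.cons 201 (.leaf 177 1413 (.leaf 225 1605 .nil)) .nil)) .nil)) .nil)) .nil)) .nil))) .nil)) .nil)) .nil)) .nil)))))
noncomputable def t72 : T := .cons 273 (.leaf 295 2170 (.cons 299 (.leaf 300 2176 (.cons 251 (.leaf 252 1985 (.cons 298 (.leaf 271 2168 (.cons 227 (.leaf 203 1622 (.leaf 322 1814 .nil)) .nil)) .nil)) .nil)) .nil)) (.cons 298 t71 (.cons 273 t67 (.cons 273 (.leaf 295 2170 (.cons 247 (.leaf 248 1979 (.cons 251 (.leaf 252 1985 (.cons 250 (.leaf 271 1977 (.cons 299 (.leaf 300 2176 (.cons 226 (.leaf 202 1620 (.leaf 323 1815 .nil)) .nil)) .nil)) .nil))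 .nil)) .nil)) (.cons 273 (.leaf 295 2170 (.cons 251 (.leaf 252 1985 (.cons 250 (.leaf 271 1977 (.cons 248 (.leaf 247 1979 (.cons 224 (.cons 223 (.leaf 199 1599 (.leaf 249 1787 .nil)) (.cons 297 (.leaf 200 1604 (.leaf 321 1796 .nil)) .nil)) .nil)) .nil)) .nil)) .nil)) (.cons 273 (.leaf 295 2170 (.cons 299 (.leaf 300 2176 (.cons 298 (.leaf 271 2168 (.cons 248 (.leaf 247 1979 (.cons 224 (.cons 297 (.leaf 200 1604 (.leaf 321 1796 .nil)) (.cons 199 (.leaf 223 1599 (.cons 200 (.leaf 175 1407 (.cons 201 (.leaf 177 1413 (.leaf 225 1605 .nil)) .nil)) .nil)) (.cons 199 (.leaf 223 1599 (.cons 201 (.leaf 225 1605 (.cons 297 (.leaf 321 1796 (.cons 323 (.leaf 324 2368 (.cons 250 (.leaf 347 2007 (.leaf 226 1812 .nil)) .nil)) .nil)) .nil)) .nil)) .nil))) .nil)) .nil)) .nil)) .nil)) (.cons 273 (.leaf 295 2170 (.cons 299 (.leaf 300 2176 (.cons 251 (.leaf 252 1985 (.cons 248 (.leaf 247 1979 (.cons 227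 (.cons 298 (.leaf 203 1622 (.leaf 322 1814 .nil)) (.cons 204 (.leaf 228 1629 (.cons 203 (.leaf 180 1437 (.cons 178 (.leaf 202 1431 (.cons 179 (.leaf 250 1430 (.leaf 154 1239 .nil)) .nil)) .nil)) .nil)) (.cons 204 (.leaf 228 1629 (.cons 322 (.leaf 298 1814 (.cons 323 (.leaf 346 2006 (.cons 347 (.leaf 250 2007 (.cons 348 (.leaf 324 2012 (.leaf 372 2204 .nil)) .nil)) .nil)) .nil)) .nil)) .nil))) .nil)) .nil)) .nil)) .nil)) .nil))))))
noncomputable def t73 : T := .cons 251 (.leaf 252 1985 (.cons 250 (.leaf 271 1977 (.cons 299 (.leaf 300 2176 (.cons 226 (.leaf 202 1620 (.leaf 323 1815 .nil)) .nil)) .nil)) .nil)) (.cons 251 (.leaf 252 1985 (.cons 250 (.leaf 271 1977 (.cons 298 (.cons 227 (.leaf 203 1622 (.leaf 322 1813 .nil)) (.cons 227 (.leaf 203 1622 (.cons 226 (.cons 202 (.leaf 178 1428 (.leaf 297 1614 .nil)) (.cons 225 (.leaf 201 1615 (.cons 224 (.leaf 223 1784 (.cons 200 (.leaf 199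 1595 (.cons 297 (.leaf 321 1806 (.leaf 249 1607 .nil)) .nil)) .nil)) .nil)) (.cons 201 (.leaf 225 1615 (.cons 202 (.leaf 178 1428 (.leaf 177 1423 .nil)) .nil)) .nil))) .nil)) (.cons 322 (.leaf 346 2005 (.cons 225 (.leaf 249 1807 (.cons 226 (.leaf 201 1615 (.cons 202 (.leaf 178 1428 (.leaf 297 1614 .nil)) .nil)) .nil)) .nil)) .nil))) .nil)) .nil)) (.cons 299 (.leaf 300 2176 (.cons 298 (.leaf 271 2168 (.cons 249 (.cons 225 (.leaf 201 1612 (.cons 322 (.leaf 250 1807 (.leaf 346 1999 .nil)) .nil)) (.cons 322 (.leaf 346 1999 (.cons 320 (.leaf 344 1989 (.cons 319 (.leaf 297 2362 (.leaf 321 2361 .nil)) .nil)) .nil)) (.cons 225 (.leaf 201 1612 (.cons 320 (.leaf 344 1989 (.leaf 297 1798 .nil)) .nil)) .nil))) .nil)) .nil)) (.cons 299 (.leaf 300 2176 (.cons 251 (.leaf 252 1985 (.cons 227 (.cons 204 (.leaf 228 1629 (.cons 203 (.leaf 180 1437 (.leaf 298 1622 .nil)) .nil)) (.cons 204 (.leaf 228 1629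 (.cons 203 (.leaf 180 1437 (.cons 178 (.leaf 202 1431 (.cons 179 (.leaf 250 1430 (.leaf 154 1239 .nil)) .nil)) .nil)) .nil)) (.cons 204 (.leaf 228 1629 (.cons 322 (.leaf 298 1814 (.cons 323 (.leaf 346 2006 (.cons 324 (.leaf 348 2012 (.cons 321 (.leaf 297 2371 (.cons 344 (.leaf 345 2562 (.cons 320 (.leaf 249 1989 (.leaf 343 2554 .nil)) .nil)) .nil)) .nil)) .nil)) .nil)) .nil)) (.cons 298 (.leaf 203 1622 (.leaf 322 1814 .nil)) .nil)))) .nil)) .nil)) (.cons 299 (.leaf 300 2176 (.cons 251 (.leaf 252 1985 (.cons 298 (.leaf 271 2168 (.cons 227 (.leaf 203 1622 (.leaf 322 1814 .nil)) .nil)) .nil)) .nil)) .nil))))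
noncomputable def t74 : T := .cons 322 (.leaf 346 2005 (.cons 227 (.leaf 203 1622 (.leaf 299 1814 .nil)) .nil)) (.cons 227 (.leaf 203 1622 (.cons 299 (.cons 228 (.leaf 204 1629 (.cons 300 (.leaf 324 1820 (.cons 226 (.leaf 202 1623 (.cons 323 (.leaf 250 1812 (.leaf 252 1821 .nil)) .nil)) .nil)) .nil)) (.cons 297 (.leaf 271 2171 (.cons 324 (.leaf 300 1820 (.leaf 323 2368 .nil)) .nil)) (.cons 226 (.leaf 202 1623 (.cons 204 (.leaf 228 1629 (.cons 297 (.leaf 271 2171 (.cons 300 (.leaf 324 1820 (.cons 320 (.leaf 319 2362 (.leaf 321 2370 .nil)) .nil)) .nil)) .nil)) .nil)) (.cons 226 (.leaf 202 1623 (.cons 228 (.leaf 204 1629 (.cons 323 (.leaf 250 1812 (.leaf 252 1821 .nil)) .nil)) .nil)) .nil)))) .nil)) (.cons 322 (.leaf 346 2005 (.cons 250 (.cons 323 (.leaf 347 2004 (.cons 226 (.leaf 299 1812 (.cons 225 (.leaf 201 1615 (.leaf 249 1807 .nil)) .nil)) .nil)) (.cons 321 (.leaf 345 1998 (.cons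 225 (.leaf 249 1807 (.cons 226 (.leaf 201 1615 (.leaf 297 1806 .nil)) .nil)) .nil)) (.cons 323 (.leaf 347 2004 (.cons 225 (.leaf 249 1807 (.cons 321 (.leaf 345 1998 (.cons 297 (.leaf 324 2371 (.cons 299 (.leaf 271 2171 (.cons 320 (.leaf 319 2361 (.leaf 300 2369 .nil)) .nil)) .nil)) .nil)) .nil)) .nil)) (.cons 323 (.leaf 347 2004 (.cons 226 (.leaf 299 1812 (.cons 321 (.leaf 297 1806 (.leaf 345 1998 .nil)) .nil)) .nil)) .nil)))) .nil)) (.cons 322 (.leaf 346 2005 (.cons 227 (.leaf 203 1622 (.leaf 250 1813 .nil)) .nil)) .nil)))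
noncomputable def t75 : T := .cons 250 (.cons 225 (.leaf 249 1807 (.cons 321 (.leaf 345 1998 (.cons 226 (.leaf 201 1615 (.cons 202 (.leaf 299 1620 (.cons 203 (.leaf 179 1429 (.leaf 227 1621 .nil)) .nil)) .nil)) .nil)) .nil)) (.cons 225 (.leaf 249 1807 (.cons 321 (.leaf 345 1998 (.cons 323 (.leaf 347 2004 (.cons 320 (.leaf 295 2363 (.cons 299 (.leaf 226 1812 (.leaf 319 2361 .nil)) .nil)) .nil)) .nil)) .nil)) (.cons 251 (.leaf 346 2005 (.leaf 227 1813 .nil)) .nil))) (.cons 250 (.cons 225 (.leaf 249 1807 (.cons 321 (.leaf 345 1998 (.cons 226 (.leaf 201 1615 (.cons 202 (.leaf 299 1620 (.cons 203 (.leaf 179 1429 (.leaf 227 1621 .nil)) .nil)) .nil)) .nil)) .nil)) (.cons 225 (.leaf 249 1807 (.cons 321 (.leaf 345 1998 (.cons 323 (.leaf 347 2004 (.cons 320 (.leaf 295 2363 (.cons 299 (.leaf 226 1812 (.leaf 319 2361 .nil)) .nil)) .nil)) .nil)) .nil)) (.cons 227 (.leaf 251 1813 (.cons 225 (.leaf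 249 1807 (.cons 226 (.leaf 201 1615 (.leaf 203 1621 .nil)) .nil)) .nil)) (.cons 227 (.leaf 251 1813 (.cons 203 (.leaf 226 1621 (.cons 321 (.leaf 345 1998 (.cons 323 (.leaf 347 2004 (.cons 320 (.leaf 295 2363 (.cons 299 (.leaf 319 2361 (.leaf 300 2369 .nil)) .nil)) .nil)) .nil)) .nil)) .nil)) (.cons 251 (.leaf 227 1813 (.cons 225 (.leaf 249 1807 (.cons 321 (.leaf 345 1998 (.cons 323 (.leaf 347 2004 (.cons 320 (.leaf 295 2363 (.cons 299 (.leaf 319 2361 (.leaf 300 2369 .nil)) .nil)) .nil)) .nil)) .nil)) .nil)) .nil))))) (.cons 250 (.cons 323 (.leaf 347 2004 (.cons 225 (.leaf 249 1807 (.cons 226 (.leaf 201 1615 (.leaf 299 1812 .nil)) .nil)) .nil)) (.cons 345 (.leaf 321 1998 (.cons 225 (.leaf 249 1807 (.cons 346 (.leaf 369 2190 (.cons 370 (.leaf 299 2197 (.cons 371 (.leaf 347 2196 (.leaf 395 2388 .nil)) .nil)) .nil)) .nil)) .nil)) (.cons 345 (.leaf 321 1998 (.cons 225 (.leaf 249 1807 (.cons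 226 (.leaf 201 1615 (.cons 299 (.leaf 202 1620 (.leaf 323 1812 .nil)) .nil)) .nil)) .nil)) (.cons 323 (.leaf 347 2004 (.cons 299 (.leaf 226 1812 (.cons 321 (.leaf 345 1998 (.cons 320 (.leaf 295 2363 (.leaf 319 2361 .nil)) .nil)) .nil)) .nil)) (.cons 345 (.leaf 321 1998 (.cons 225 (.leaf 249 1807 (.cons 201 (.leaf 226 1615 (.cons 346 (.leaf 369 2190 (.cons 347 (.leaf 323 2004 (.leaf 371 2196 .nil)) .nil)) .nil)) .nil)) .nil)) .nil))))) (.cons 346 (.leaf 251 2005 (.cons 345 (.leaf 369 2190 (.cons 370 (.leaf 299 2197 (.cons 371 (.leaf 347 2196 (.leaf 395 2388 .nil)) .nil)) .nil)) .nil)) (.cons 346 (.leaf 251 2005 (.cons 345 (.leaf 369 2190 (.cons 250 (.leaf 321 1998 (.cons 347 (.leaf 323 2004 (.leaf 371 2196 .nil)) .nil)) .nil)) .nil)) (.cons 251 (.leaf 346 2005 (.cons 227 (.leaf 203 1622 (.leaf 299 1814 .nil)) .nil)) .nil)))))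
noncomputable def t76 : T := .cons 322 (.leaf 346 2005 (.cons 227 (.leaf 203 1622 (.leaf 299 1814 .nil)) .nil)) (.cons 227 (.leaf 203 1622 (.cons 299 (.cons 228 (.leaf 204 1629 (.cons 300 (.leaf 324 1820 (.cons 297 (.leaf 295 2169 (.leaf 271 2171 .nil)) .nil)) .nil)) (.cons 228 (.leaf 204 1629 (.cons 300 (.leaf 324 1820 (.cons 226 (.leaf 202 1623 (.cons 323 (.leaf 250 1812 (.leaf 252 1821 .nil)) .nil)) .nil)) .nil)) (.cons 202 (.leaf 226 1623 (.cons 228 (.leaf 204 1629 (.cons 323 (.leaf 252 1821 (.cons 347 (.leaf 250 2007 (.leaf 371 2199 .nil)) .nil)) .nil)) .nil)) (.cons 202 (.leaf 226 1623 (.cons 324 (.leaf 300 1820 (.cons 323 (.leaf 348 2012 (.leaf 297 2368 .nil)) .nil)) .nil)) .nil)))) .nil)) (.cons 322 (.leaf 346 2005 (.cons 250 (.cons 321 (.leaf 345 1998 (.cons 323 (.leaf 347 2004 (.cons 299 (.leaf 226 1812 (.cons 297 (.leaf 295 2360 (.leaf 271 2171 .nil)) .nil)) .nil)) .nil))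 (.cons 297 (.leaf 295 2169 (.cons 321 (.leaf 226 1806 (.leaf 345 1998 .nil)) .nil)) (.cons 321 (.leaf 345 1998 (.cons 323 (.leaf 347 2004 (.cons 299 (.leaf 226 1812 (.cons 300 (.leaf 301 2378 (.leaf 320 2369 .nil)) .nil)) .nil)) .nil)) (.cons 323 (.leaf 347 2004 (.cons 226 (.leaf 299 1812 (.cons 225 (.leaf 201 1615 (.leaf 249 1807 .nil)) .nil)) .nil)) (.cons 297 (.leaf 295 2169 (.cons 225 (.leaf 249 1807 (.cons 271 (.leaf 299 2171 (.cons 269 (.leaf 270 2152 (.cons 321 (.leaf 345 1998 (.cons 323 (.leaf 324 2371 (.leaf 347 2004 .nil)) .nil)) .nil)) .nil)) .nil)) .nil)) .nil))))) .nil)) (.cons 322 (.leaf 346 2005 (.cons 227 (.leaf 203 1622 (.leaf 250 1813 .nil)) .nil)) .nil)))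
noncomputable def t77 : T := .cons 251 t76 (.cons 322 t75 (.cons 251 t74 (.cons 297 (.leaf 295 2169 (.cons 322 (.cons 250 (.cons 321 (.leaf 226 1806 (.leaf 345 1998 .nil)) (.cons 225 (.leaf 249 1807 (.cons 226 (.leaf 201 1615 (.cons 227 (.leaf 203 1621 (.leaf 251 1813 .nil)) .nil)) .nil)) (.cons 225 (.leaf 249 1807 (.cons 323 (.leaf 347 2004 (.cons 321 (.leaf 324 2371 (.leaf 345 1998 .nil)) .nil)) .nil)) .nil))) (.cons 323 (.cons 324 (.leaf 321 2371 (.leaf 325 2379 .nil)) (.cons 324 (.leaf 325 2379 (.cons 347 (.leaf 250 2004 (.cons 371 (.leaf 346 2196 (.leaf 395 2391 .nil)) .nil)) .nil)) (.cons 250 (.leaf 347 2004 (.cons 321 (.leaf 226 1806 (.leaf 345 1998 .nil)) .nil)) .nil))) (.cons 251 (.leaf 346 2005 (.cons 227 (.leaf 203 1622 (.leaf 250 1813 .nil)) .nil)) (.cons 346 (.leaf 251 2005 (.cons 347 (.leaf 371 2196 (.cons 369 (.leaf 345 2190 (.cons 370 (.leaf 393 2382 (.cons 321 (.leaf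 394 2383 (.cons 348 (.leaf 349 2762 (.cons 320 (.leaf 319 2552 (.leaf 323 2560 .nil)) .nil)) .nil)) .nil)) .nil)) .nil)) .nil)) .nil)))) .nil)) (.cons 297 (.leaf 295 2169 (.cons 299 (.leaf 271 2171 (.cons 323 (.leaf 324 2368 (.cons 250 (.leaf 347 2007 (.leaf 226 1812 .nil)) .nil)) .nil)) .nil)) (.cons 297 (.leaf 295 2169 (.cons 299 (.leaf 271 2171 (.cons 323 (.leaf 324 2368 (.cons 347 (.leaf 371 2199 (.cons 346 (.leaf 370 2198 (.cons 251 (.leaf 322 2005 (.cons 227 (.leaf 203 1622 (.cons 228 (.leaf 204 1629 (.leaf 252 1821 .nil)) .nil)) .nil)) .nil)) .nil)) .nil)) .nil)) .nil)) (.cons 297 (.leaf 295 2169 (.cons 299 (.leaf 271 2171 (.cons 320 (.leaf 319 2362 (.cons 300 (.leaf 321 2370 (.cons 301 (.leaf 302 2195 (.cons 325 (.leaf 324 2376 (.leaf 326 2384 .nil)) .nil)) .nil)) .nil)) .nil)) .nil)) .nil))))))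
noncomputable def t78 : T := .cons 273 (.leaf 295 2170 (.cons 251 (.leaf 252 1985 (.cons 298 (.cons 227 (.leaf 203 1622 (.cons 322 (.leaf 299 1814 (.leaf 346 2005 .nil)) .nil)) (.cons 203 (.leaf 227 1622 (.cons 250 (.leaf 271 1977 (.cons 322 (.leaf 346 2005 (.cons 225 (.leaf 249 1807 (.cons 226 (.leaf 201 1615 (.cons 202 (.leaf 178 1428 (.leaf 179 1429 .nil)) .nil)) .nil)) .nil)) .nil)) .nil)) (.cons 271 (.leaf 250 1977 (.leaf 299 2168 .nil)) .nil))) .nil)) .nil)) (.cons 298 t77 (.cons 273 t73 (.cons 273 (.leaf 295 2170 (.cons 251 (.leaf 252 1985 (.cons 250 (.leaf 271 1977 (.cons 299 (.leaf 300 2176 (.cons 226 (.leaf 202 1620 (.leaf 323 1815 .nil)) .nil)) .nil)) .nil)) .nil)) (.cons 273 (.leaf 295 2170 (.cons 251 (.leaf 252 1985 (.cons 250 (.leaf 271 1977 (.cons 298 (.cons 227 (.leaf 203 1622 (.leaf 322 1813 .nil)) (.cons 227 (.leaf 203 1622 (.cons 226 (.cons 202 (.leaf 178 1428 (.leaf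 297 1614 .nil)) (.cons 225 (.leaf 201 1615 (.cons 224 (.leaf 223 1784 (.cons 200 (.leaf 199 1595 (.cons 297 (.leaf 321 1806 (.leaf 249 1607 .nil)) .nil)) .nil)) .nil)) (.cons 201 (.leaf 225 1615 (.cons 202 (.leaf 178 1428 (.leaf 177 1423 .nil)) .nil)) .nil))) .nil)) (.cons 322 (.leaf 346 2005 (.cons 225 (.leaf 249 1807 (.cons 226 (.leaf 201 1615 (.cons 202 (.leaf 178 1428 (.leaf 297 1614 .nil)) .nil)) .nil)) .nil)) .nil))) .nil)) .nil)) .nil)) (.cons 273 (.leaf 295 2170 (.cons 299 (.leaf 300 2176 (.cons 298 (.leaf 271 2168 (.cons 249 (.cons 322 (.leaf 346 1999 (.cons 320 (.leaf 344 1989 (.cons 319 (.leaf 297 2362 (.leaf 321 2361 .nil)) .nil)) .nil)) (.cons 225 (.leaf 201 1612 (.cons 320 (.leaf 344 1989 (.leaf 297 1798 .nil)) .nil)) (.cons 225 (.leaf 201 1612 (.cons 322 (.leaf 250 1807 (.leaf 346 1999 .nil)) .nil)) .nil))) .nil)) .nil)) .nil)) (.cons 273 (.leaf 295 2170 (.cons 299 (.leaf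 300 2176 (.cons 251 (.leaf 252 1985 (.cons 227 (.cons 204 (.leaf 228 1629 (.cons 203 (.leaf 180 1437 (.leaf 298 1622 .nil)) .nil)) (.cons 204 (.leaf 228 1629 (.cons 203 (.leaf 180 1437 (.cons 178 (.leaf 202 1431 (.cons 179 (.leaf 250 1430 (.leaf 154 1239 .nil)) .nil)) .nil)) .nil)) (.cons 204 (.leaf 228 1629 (.cons 322 (.leaf 298 1814 (.cons 323 (.leaf 346 2006 (.cons 324 (.leaf 348 2012 (.cons 321 (.leaf 297 2371 (.cons 344 (.leaf 345 2562 (.cons 320 (.leaf 249 1989 (.leaf 343 2554 .nil)) .nil)) .nil)) .nil)) .nil)) .nil)) .nil)) (.cons 298 (.leaf 203 1622 (.leaf 322 1814 .nil)) .nil)))) .nil)) .nil)) .nil)) (.cons 273 (.leaf 295 2170 (.cons 251 (.leaf 252 1985 (.cons 299 (.leaf 300 2176 (.cons 298 (.leaf 271 2168 (.cons 227 (.leaf 203 1622 (.leaf 322 1814 .nil)) .nil)) .nil)) .nil)) .nil)) .nil)))))))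
noncomputable def t79 : T := .cons 199 (.leaf 223 1599 (.cons 200 (.leaf 175 1407 (.cons 297 (.leaf 273 1604 (.leaf 321 1796 .nil)) .nil)) .nil)) (.cons 199 (.leaf 223 1599 (.cons 200 (.leaf 175 1407 (.cons 201 (.leaf 177 1413 (.leaf 225 1605 .nil)) .nil)) .nil)) (.cons 297 (.leaf 321 1796 (.cons 200 (.leaf 273 1604 (.cons 201 (.leaf 177 1413 (.leaf 225 1605 .nil)) .nil)) .nil)) (.cons 223 (.leaf 199 1599 (.cons 225 (.leaf 201 1605 (.cons 297 (.leaf 321 1796 (.cons 222 (.cons 197 (.leaf 198 1579 (.cons 250 (.leaf 249 1776 (.cons 226 (.leaf 251 1784 (.cons 202 (.leaf 203 1593 (.cons 221 (.leaf 196 1571 (.cons 220 (.leaf 247 1760 (.cons 244 (.leaf 245 1762 (.leaf 243 1754 .nil)) .nil)) .nil)) .nil)) .nil)) .nil)) .nil)) (.cons 197 (.leaf 198 1579 (.cons 221 (.leaf 196 1571 (.cons 220 (.leaf 247 1760 (.cons 244 (.leaf 245 1762 (.leaf 243 1754 .nil)) .nil)) .nil)) .nil)) (.cons 197 (.leaf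 198 1579 (.cons 250 (.leaf 249 1776 (.cons 226 (.leaf 251 1784 (.cons 202 (.leaf 203 1593 (.cons 274 (.leaf 299 1620 (.leaf 273 1614 .nil)) .nil)) .nil)) .nil)) .nil)) (.cons 249 (.leaf 221 1768 (.leaf 250 1776 .nil)) .nil)))) .nil)) .nil)) .nil)) .nil)))
noncomputable def t80 : T := .cons 320 (.cons 225 (.leaf 249 1797 (.cons 343 (.leaf 319 1982 (.cons 247 (.leaf 223 1791 (.cons 344 (.leaf 271 1983 (.leaf 367 2174 .nil)) .nil)) .nil)) .nil)) (.cons 319 (.leaf 343 1982 (.cons 321 (.leaf 345 1988 (.cons 297 (.leaf 224 1796 (.cons 298 (.leaf 299 2362 (.leaf 318 2353 .nil)) .nil)) .nil)) .nil)) (.cons 225 (.leaf 249 1797 (.cons 224 (.leaf 201 1605 (.cons 321 (.leaf 297 1796 (.leaf 345 1988 .nil)) .nil)) .nil)) .nil))) (.cons 224 t79 (.cons 320 (.cons 247 (.leaf 223 1791 (.cons 249 (.leaf 225 1797 (.cons 250 (.leaf 274 1976 (.cons 271 (.leaf 344 1983 (.leaf 251 1978 .nil)) .nil)) .nil))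 .nil)) (.cons 247 (.leaf 223 1791 (.cons 273 (.leaf 274 1979 (.cons 344 (.leaf 271 1983 (.cons 343 (.leaf 319 1982 (.leaf 367 2174 .nil)) .nil)) .nil)) .nil)) (.cons 249 (.leaf 225 1797 (.cons 343 (.leaf 319 1982 (.cons 344 (.leaf 273 1989 (.leaf 367 2174 .nil)) .nil)) .nil)) (.cons 247 (.leaf 223 1791 (.cons 249 (.leaf 225 1797 (.cons 250 (.leaf 274 1976 (.cons 271 (.leaf 251 1978 (.leaf 270 1970 .nil)) .nil)) .nil)) .nil)) .nil)))) (.cons 320 (.cons 319 (.leaf 343 1982 (.cons 321 (.leaf 345 1988 (.cons 297 (.leaf 224 1796 (.cons 298 (.leaf 299 2362 (.leaf 318 2353 .nil)) .nil)) .nil)) .nil)) (.cons 247 (.leaf 223 1791 (.cons 273 (.leaf 274 1979 (.cons 319 (.leaf 343 1982 (.cons 344 (.leaf 271 1983 (.cons 368 (.leaf 297 2181 (.cons 369 (.leaf 345 2180 (.leaf 393 2372 .nil)) .nil)) .nil)) .nil)) .nil)) .nil)) (.cons 223 (.leaf 247 1791 (.cons 224 (.leaf 199 1599 (.cons 201 (.leaf 225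 1605 (.cons 200 (.leaf 177 1413 (.cons 297 (.leaf 273 1604 (.leaf 321 1796 .nil)) .nil)) .nil)) .nil)) .nil)) (.cons 223 (.leaf 247 1791 (.cons 199 (.leaf 224 1599 (.cons 343 (.leaf 319 1982 (.cons 344 (.leaf 367 2174 (.cons 345 (.leaf 321 1988 (.leaf 369 2180 .nil)) .nil)) .nil)) .nil)) .nil)) .nil)))) (.cons 224 (.cons 199 (.leaf 223 1599 (.cons 225 (.leaf 201 1605 (.cons 320 (.leaf 249 1797 (.cons 321 (.leaf 297 1796 (.leaf 345 1988 .nil)) .nil)) .nil)) .nil)) (.cons 225 (.leaf 201 1605 (.cons 199 (.leaf 223 1599 (.cons 175 (.leaf 200 1407 (.cons 320 (.leaf 249 1797 (.cons 343 (.leaf 319 1982 (.cons 344 (.leaf 367 2174 (.cons 345 (.leaf 321 1988 (.leaf 369 2180 .nil)) .nil)) .nil)) .nil)) .nil)) .nil)) .nil)) (.cons 199 (.leaf 223 1599 (.cons 200 (.leaf 175 1407 (.cons 297 (.leaf 273 1604 (.leaf 321 1796 .nil)) .nil)) .nil)) (.cons 225 (.leaf 201 1605 (.cons 199 (.leaf 223 1599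 (.cons 200 (.leaf 175 1407 (.cons 197 (.leaf 198 1576 (.cons 249 (.leaf 320 1797 (.cons 273 (.leaf 297 1604 (.leaf 176 1412 .nil)) .nil)) .nil)) .nil)) .nil)) .nil)) (.cons 297 (.leaf 321 1796 (.cons 200 (.leaf 273 1604 (.cons 201 (.leaf 177 1413 (.leaf 225 1605 .nil)) .nil)) .nil)) .nil))))) (.cons 320 (.cons 223 (.leaf 247 1791 (.cons 224 (.leaf 199 1599 (.cons 321 (.leaf 297 1796 (.leaf 345 1988 .nil)) .nil)) .nil)) (.cons 321 (.leaf 345 1988 (.cons 297 (.leaf 224 1796 (.cons 319 (.leaf 343 1982 (.cons 298 (.leaf 299 2362 (.leaf 318 2353 .nil)) .nil)) .nil)) .nil)) (.cons 247 (.leaf 223 1791 (.cons 273 (.leaf 274 1979 (.cons 319 (.leaf 343 1982 (.cons 344 (.leaf 271 1983 (.leaf 249 1989 .nil)) .nil)) .nil)) .nil)) .nil))) (.cons 320 (.cons 225 (.leaf 249 1797 (.cons 224 (.leaf 201 1605 (.cons 321 (.leaf 297 1796 (.leaf 345 1988 .nil)) .nil)) .nil)) (.cons 321 (.leaf 345 1988 (.cons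 297 (.leaf 224 1796 (.cons 319 (.leaf 343 1982 (.cons 298 (.leaf 299 2362 (.leaf 318 2353 .nil)) .nil)) .nil)) .nil)) (.cons 249 (.leaf 225 1797 (.cons 343 (.leaf 319 1982 (.cons 344 (.leaf 273 1989 (.leaf 367 2174 .nil)) .nil)) .nil)) .nil))) .nil))))))
noncomputable def t81 : T := .cons 199 (.leaf 223 1599 (.cons 225 (.leaf 201 1605 (.cons 319 (.leaf 295 1790 (.cons 320 (.leaf 249 1797 (.leaf 343 1982 .nil)) .nil)) .nil)) .nil)) (.cons 295 (.leaf 319 1790 (.cons 200 (.leaf 271 1598 (.cons 175 (.leaf 199 1407 (.cons 176 (.leaf 151 1215 (.cons 177 (.leaf 201 1413 (.leaf 153 1221 .nil)) .nil)) .nil)) .nil)) .nil)) (.cons 223 (.leaf 199 1599 (.cons 201 (.leaf 225 1605 (.cons 200 (.leaf 177 1413 (.cons 202 (.leaf 203 1594 (.cons 221 (.leaf 222 1577 (.cons 247 (.leaf 320 1791 (.cons 176 (.leaf 271 1406 (.leaf 152 1214 .nil)) .nil)) .nil)) .nil)) .nil)) .nil)) .nil)) (.cons 295 (.leaf 319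 1790 (.cons 200 (.leaf 271 1598 (.cons 201 (.leaf 177 1413 (.leaf 225 1605 .nil)) .nil)) .nil)) (.cons 223 (.leaf 199 1599 (.cons 247 (.leaf 320 1791 (.cons 295 (.leaf 319 1790 (.cons 271 (.leaf 200 1597 (.cons 198 (.leaf 222 1591 (.cons 294 (.leaf 318 1782 (.cons 293 (.leaf 292 2145 (.cons 269 (.leaf 268 2147 (.cons 270 (.leaf 249 1961 (.leaf 297 2152 .nil)) .nil)) .nil)) .nil)) .nil)) .nil)) .nil)) .nil)) .nil)) .nil))))
noncomputable def t82 : T := .cons 224 (.cons 201 (.leaf 225 1605 (.cons 200 (.leaf 177 1413 (.cons 175 (.leaf 199 1407 (.cons 176 (.leaf 151 1215 (.cons 271 (.leaf 295 1598 (.leaf 247 1406 .nil)) .nil)) .nil)) .nil)) .nil)) (.cons 199 (.leaf 223 1599 (.cons 200 (.leaf 175 1407 (.cons 201 (.leaf 177 1413 (.leaf 225 1605 .nil)) .nil)) .nil)) (.cons 295 (.leaf 319 1790 (.cons 200 (.leaf 271 1598 (.cons 201 (.leaf 177 1413 (.leaf 225 1605 .nil)) .nil)) .nil)) (.cons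 295 (.leaf 319 1790 (.cons 199 (.leaf 223 1599 (.cons 200 (.leaf 175 1407 (.leaf 271 1598 .nil)) .nil)) .nil)) (.cons 223 (.leaf 199 1599 (.cons 201 (.leaf 225 1605 (.cons 295 (.leaf 319 1790 (.cons 297 (.leaf 321 1796 (.cons 298 (.leaf 274 2169 (.cons 271 (.leaf 299 2171 (.leaf 270 2163 .nil)) .nil)) .nil)) .nil)) .nil)) .nil)) .nil))))) (.cons 320 (.cons 223 (.leaf 247 1791 (.cons 343 (.leaf 319 1982 (.cons 344 (.leaf 367 2174 (.cons 345 (.leaf 321 1988 (.leaf 369 2180 .nil)) .nil)) .nil)) .nil)) (.cons 247 (.leaf 223 1791 (.cons 249 (.leaf 225 1797 (.cons 250 (.leaf 274 1976 (.cons 271 (.leaf 344 1983 (.leaf 251 1978 .nil)) .nil)) .nil)) .nil)) (.cons 225 (.leaf 249 1797 (.cons 343 (.leaf 319 1982 (.cons 344 (.leaf 367 2174 (.cons 345 (.leaf 321 1988 (.leaf 369 2180 .nil)) .nil)) .nil)) .nil)) (.cons 247 (.leaf 223 1791 (.cons 249 (.leaf 225 1797 (.cons 250 (.leaf 274 1976 (.cons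 271 (.leaf 251 1978 (.leaf 270 1970 .nil)) .nil)) .nil)) .nil)) .nil)))) (.cons 224 (.cons 199 (.leaf 223 1599 (.cons 200 (.leaf 175 1407 (.cons 271 (.leaf 295 1598 (.cons 247 (.leaf 176 1406 (.cons 320 (.leaf 344 1983 (.cons 321 (.leaf 297 1796 (.leaf 345 1988 .nil)) .nil)) .nil)) .nil)) .nil)) .nil)) (.cons 225 (.leaf 201 1605 (.cons 320 (.leaf 249 1797 (.cons 321 (.leaf 297 1796 (.leaf 345 1988 .nil)) .nil)) .nil)) (.cons 199 (.leaf 223 1599 (.cons 200 (.leaf 175 1407 (.cons 271 (.leaf 295 1598 (.cons 247 (.leaf 176 1406 (.cons 320 (.leaf 344 1983 (.cons 249 (.leaf 225 1797 (.cons 250 (.leaf 274 1976 (.leaf 251 1978 .nil)) .nil)) .nil)) .nil)) .nil)) .nil)) .nil)) (.cons 199 (.leaf 223 1599 (.cons 200 (.leaf 175 1407 (.cons 201 (.leaf 177 1413 (.leaf 225 1605 .nil)) .nil)) .nil)) .nil)))) (.cons 320 (.cons 319 (.leaf 343 1982 (.cons 224 (.leaf 295 1790 (.cons 321 (.leaf 297 1796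 (.leaf 345 1988 .nil)) .nil)) .nil)) (.cons 321 (.leaf 345 1988 (.cons 224 (.leaf 297 1796 (.cons 225 (.leaf 201 1605 (.leaf 249 1797 .nil)) .nil)) .nil)) (.cons 225 (.leaf 249 1797 (.cons 201 (.leaf 224 1605 (.cons 343 (.leaf 319 1982 (.cons 344 (.leaf 367 2174 (.cons 271 (.leaf 247 1983 (.cons 368 (.leaf 295 2175 (.cons 369 (.leaf 345 2180 (.leaf 393 2372 .nil)) .nil)) .nil)) .nil)) .nil)) .nil)) .nil)) (.cons 225 (.leaf 249 1797 (.cons 224 (.leaf 201 1605 (.cons 295 (.leaf 319 1790 (.cons 271 (.leaf 200 1598 (.cons 344 (.leaf 247 1983 (.leaf 368 2175 .nil)) .nil)) .nil)) .nil)) .nil)) (.cons 343 (.leaf 319 1982 (.cons 225 (.leaf 249 1797 (.cons 344 (.leaf 367 2174 (.cons 345 (.leaf 321 1988 (.leaf 369 2180 .nil)) .nil)) .nil)) .nil)) .nil))))) (.cons 224 t81 (.cons 320 (.cons 223 (.leaf 247 1791 (.cons 343 (.leaf 319 1982 (.cons 344 (.leaf 367 2174 (.cons 345 (.leaf 321 1988 (.leaf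 369 2180 .nil)) .nil)) .nil)) .nil)) (.cons 223 (.leaf 247 1791 (.cons 224 (.leaf 199 1599 (.cons 225 (.leaf 201 1605 (.leaf 249 1797 .nil)) .nil)) .nil)) (.cons 321 (.leaf 345 1988 (.cons 224 (.leaf 297 1796 (.cons 225 (.leaf 201 1605 (.leaf 249 1797 .nil)) .nil)) .nil)) .nil))) (.cons 320 (.cons 223 (.leaf 247 1791 (.cons 224 (.leaf 199 1599 (.cons 321 (.leaf 297 1796 (.leaf 345 1988 .nil)) .nil)) .nil)) (.cons 223 (.leaf 247 1791 (.cons 224 (.leaf 199 1599 (.cons 319 (.leaf 295 1790 (.leaf 343 1982 .nil)) .nil)) .nil)) (.cons 319 (.leaf 343 1982 (.cons 224 (.leaf 295 1790 (.cons 321 (.leaf 297 1796 (.leaf 345 1988 .nil)) .nil)) .nil)) (.cons 247 (.leaf 223 1791 (.cons 319 (.leaf 343 1982 (.cons 344 (.leaf 271 1983 (.cons 369 (.leaf 345 2180 (.cons 368 (.leaf 393 2372 (.cons 391 (.leaf 367 2366 (.cons 392 (.leaf 295 2367 (.leaf 415 2558 .nil)) .nil)) .nil)) .nil)) .nil)) .nil)) .nil))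 .nil)))) (.cons 224 (.cons 199 (.leaf 223 1599 (.cons 225 (.leaf 201 1605 (.cons 320 (.leaf 249 1797 (.cons 321 (.leaf 297 1796 (.leaf 345 1988 .nil)) .nil)) .nil)) .nil)) (.cons 199 (.leaf 223 1599 (.cons 175 (.leaf 200 1407 (.cons 295 (.leaf 319 1790 (.cons 297 (.leaf 321 1796 (.cons 298 (.leaf 274 2169 (.cons 271 (.leaf 299 2171 (.leaf 270 2163 .nil)) .nil)) .nil)) .nil)) .nil)) .nil)) (.cons 295 (.leaf 319 1790 (.cons 200 (.leaf 271 1598 (.cons 175 (.leaf 199 1407 (.cons 176 (.leaf 151 1215 (.cons 177 (.leaf 201 1413 (.leaf 153 1221 .nil)) .nil)) .nil)) .nil)) .nil)) (.cons 295 (.leaf 319 1790 (.cons 200 (.leaf 271 1598 (.cons 201 (.leaf 177 1413 (.leaf 225 1605 .nil)) .nil)) .nil)) .nil)))) .nil)))))))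
noncomputable def t83 : T := .cons 270 (.leaf 269 2155 (.cons 318 (.leaf 317 2346 (.cons 249 (.cons 271 (.leaf 250 1969 (.leaf 298 2160 .nil)) (.cons 298 (.leaf 319 2354 (.cons 299 (.leaf 300 2179 (.cons 323 (.leaf 322 2360 (.leaf 324 2368 .nil)) .nil)) .nil)) (.cons 271 (.leaf 250 1969 (.cons 247 (.leaf 223 1782 (.leaf 342 1973 .nil)) .nil)) .nil))) .nil)) .nil)) (.cons 318 (.leaf 317 2346 (.cons 298 (.leaf 319 2354 (.cons 299 (.leaf 271 2171 (.leaf 300 2179 .nil)) .nil)) .nil)) (.cons 318 (.leaf 317 2346 (.cons 269 (.leaf 270 2155 (.cons 319 (.leaf 298 2354 (.cons 343 (.leaf 367 2173 (.cons 320 (.leaf 248 1982 (.cons 344 (.leaf 249 1989 (.leaf 368 2181 .nil)) .nil)) .nil)) .nil)) .nil)) .nil)) (.cons 270 (.leaf 269 2155 (.cons 318 (.leaf 317 2346 (.cons 249 (.cons 271 (.leaf 250 1969 (.cons 247 (.leaf 223 1782 (.leaf 342 1973 .nil)) .nil)) (.cons 225 (.leaf 201 1606 (.leaf 320 1798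 .nil)) .nil)) .nil)) .nil)) (.cons 270 (.leaf 269 2155 (.cons 271 (.leaf 298 2160 (.cons 249 (.leaf 250 1969 (.cons 225 (.leaf 201 1606 (.leaf 320 1798 .nil)) .nil)) .nil)) .nil)) .nil))))
noncomputable def t84 : T := .cons 343 (.leaf 367 2173 (.cons 344 (.cons 271 (.leaf 248 1981 (.leaf 368 2172 .nil)) (.cons 320 (.leaf 248 1982 (.leaf 249 1989 .nil)) (.cons 271 (.leaf 368 2172 (.cons 247 (.leaf 320 1980 (.cons 223 (.leaf 199 1596 (.leaf 318 1782 .nil)) .nil)) .nil)) .nil))) .nil)) (.cons 248 (.leaf 224 1790 (.cons 320 (.cons 321 (.leaf 345 1988 (.leaf 322 2355 .nil)) (.cons 247 (.leaf 223 1791 (.cons 344 (.leaf 271 1980 (.leaf 249 1989 .nil)) .nil)) .nil)) .nil)) (.cons 343 (.leaf 367 2173 (.cons 344 (.cons 271 (.leaf 368 2172 (.cons 247 (.leaf 320 1980 (.cons 223 (.leaf 199 1596 (.leaf 318 1782 .nil)) .nil)) .nil)) (.cons 271 (.leaf 368 2172 (.cons 342 (.leaf 366 2166 (.cons 318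 (.leaf 247 1974 (.cons 317 (.leaf 316 2528 (.leaf 345 2539 .nil)) .nil)) .nil)) .nil)) (.cons 320 (.leaf 249 1989 (.cons 321 (.leaf 322 2355 (.cons 341 (.leaf 342 2537 (.cons 345 (.leaf 369 2180 (.cons 318 (.leaf 317 2536 (.leaf 346 2544 .nil)) .nil)) .nil)) .nil)) .nil)) (.cons 271 (.leaf 368 2172 (.cons 320 (.leaf 247 1980 (.leaf 249 1989 .nil)) .nil)) .nil)))) .nil)) (.cons 343 (.leaf 367 2173 (.cons 248 (.leaf 224 1790 (.leaf 271 1981 .nil)) .nil)) (.cons 248 (.leaf 224 1790 (.cons 343 (.leaf 320 1982 (.leaf 367 2173 .nil)) .nil)) .nil))))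
noncomputable def t85 : T := .cons 224 (.leaf 319 1790 (.cons 200 (.leaf 271 1598 (.cons 201 (.leaf 177 1413 (.leaf 225 1605 .nil)) .nil)) .nil)) (.cons 320 (.cons 225 (.leaf 249 1797 (.cons 343 (.leaf 319 1982 (.cons 344 (.leaf 367 2174 (.cons 368 (.leaf 271 2175 (.cons 369 (.leaf 345 2180 (.leaf 393 2372 .nil)) .nil)) .nil)) .nil)) .nil)) (.cons 223 (.leaf 247 1791 (.cons 321 (.leaf 345 1988 (.cons 294 (.leaf 293 2344 (.cons 322 (.leaf 297 2352 (.leaf 323 2363 .nil)) .nil)) .nil)) .nil)) (.cons 225 (.leaf 249 1797 (.cons 343 (.leaf 319 1982 (.cons 344 (.leaf 367 2174 (.cons 368 (.leaf 271 2175 (.cons 297 (.leaf 273 2181 (.cons 321 (.leaf 392 2373 (.cons 322 (.leaf 294 2352 (.leaf 323 2554 .nil)) .nil)) .nil)) .nil)) .nil)) .nil)) .nil)) .nil))) (.cons 224 (.cons 200 (.leaf 271 1598 (.cons 201 (.leaf 177 1413 (.leaf 225 1605 .nil)) .nil)) (.cons 225 (.leaf 201 1605 (.cons 320 (.leaf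 249 1797 (.cons 321 (.leaf 297 1796 (.leaf 345 1988 .nil)) .nil)) .nil)) (.cons 200 (.leaf 271 1598 (.cons 297 (.leaf 273 1604 (.leaf 321 1796 .nil)) .nil)) .nil))) (.cons 224 (.leaf 319 1790 (.cons 225 (.leaf 201 1605 (.cons 320 (.leaf 249 1797 (.cons 321 (.leaf 297 1796 (.leaf 345 1988 .nil)) .nil)) .nil)) .nil)) (.cons 224 (.leaf 319 1790 (.cons 200 (.leaf 271 1598 (.cons 297 (.leaf 273 1604 (.leaf 321 1796 .nil)) .nil)) .nil)) .nil))))
noncomputable def t86 : T := .cons 273 (.leaf 274 2170 (.cons 294 (.leaf 293 2153 (.cons 297 (.cons 318 (.leaf 317 2346 (.cons 298 (.leaf 319 2354 (.cons 299 (.leaf 271 2171 (.leaf 300 2179 .nil)) .nil)) .nil)) (.cons 270 (.leaf 269 2155 (.cons 318 (.leaf 317 2346 (.cons 249 (.cons 271 (.leaf 250 1969 (.cons 247 (.leaf 223 1782 (.leaf 342 1973 .nil)) .nil)) (.cons 225 (.leaf 201 1606 (.leaf 320 1798 .nil)) .nil)) .nil)) .nil)) (.cons 318 (.leaf 317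 2346 (.cons 269 (.leaf 270 2155 (.cons 298 (.leaf 319 2354 (.cons 299 (.leaf 300 2179 (.cons 322 (.leaf 321 2352 (.leaf 323 2360 .nil)) .nil)) .nil)) .nil)) .nil)) (.cons 270 (.leaf 269 2155 (.cons 271 (.leaf 298 2160 (.cons 249 (.leaf 250 1969 (.cons 225 (.leaf 201 1606 (.leaf 320 1798 .nil)) .nil)) .nil)) .nil)) .nil)))) .nil)) .nil)) (.cons 297 (.cons 298 (.leaf 274 2169 (.cons 322 (.leaf 323 2360 (.cons 321 (.leaf 294 2352 (.cons 248 (.leaf 224 1796 (.cons 320 (.leaf 345 1988 (.cons 319 (.leaf 343 1982 (.leaf 318 2353 .nil)) .nil)) .nil)) .nil)) .nil)) .nil)) (.cons 294 (.cons 321 (.leaf 322 2352 (.cons 248 (.leaf 224 1796 (.cons 345 (.leaf 320 1988 (.leaf 369 2183 .nil)) .nil)) .nil)) (.cons 269 (.leaf 270 2155 (.cons 293 (.leaf 268 2147 (.cons 317 (.leaf 316 2338 (.leaf 318 2346 .nil)) .nil)) .nil)) .nil)) (.cons 298 (.leaf 274 2169 (.cons 271 (.leaf 299 2171 (.leaf 270 2163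 .nil)) .nil)) .nil))) (.cons 248 t85 (.cons 273 (.leaf 274 2170 (.cons 294 (.leaf 293 2153 (.cons 319 t84 .nil)) .nil)) (.cons 273 (.leaf 274 2170 (.cons 294 (.leaf 293 2153 (.cons 297 (.cons 317 (.leaf 318 2346 (.cons 322 (.leaf 321 2352 (.cons 298 (.leaf 323 2360 (.cons 270 (.leaf 271 2160 (.leaf 269 2155 .nil)) .nil)) .nil)) .nil)) (.cons 270 (.leaf 269 2155 (.cons 271 (.leaf 298 2160 (.cons 318 (.leaf 317 2346 (.cons 247 (.leaf 223 1782 (.leaf 342 1973 .nil)) .nil)) .nil)) .nil)) (.cons 317 (.leaf 318 2346 (.cons 322 (.leaf 321 2352 (.cons 298 (.leaf 323 2360 (.cons 299 (.leaf 271 2171 (.leaf 300 2179 .nil)) .nil)) .nil)) .nil)) (.cons 269 (.leaf 270 2155 (.cons 321 (.leaf 322 2352 (.cons 345 (.leaf 248 1991 (.leaf 369 2183 .nil)) .nil)) .nil)) .nil)))) .nil)) .nil)) (.cons 273 (.leaf 274 2170 (.cons 294 (.leaf 293 2153 (.cons 297 (.cons 317 (.leaf 318 2346 (.cons 321 (.leaf 322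 2352 (.cons 345 (.leaf 248 1991 (.leaf 369 2183 .nil)) .nil)) .nil)) (.cons 269 (.leaf 270 2155 (.cons 318 (.leaf 317 2346 (.cons 319 (.leaf 298 2354 (.cons 343 (.leaf 367 2173 (.cons 320 (.leaf 248 1982 (.cons 344 (.leaf 249 1989 (.leaf 368 2181 .nil)) .nil)) .nil)) .nil)) .nil)) .nil)) (.cons 321 (.leaf 322 2352 (.cons 248 (.leaf 224 1796 (.leaf 345 1991 .nil)) .nil)) (.cons 269 (.leaf 270 2155 (.cons 317 (.leaf 318 2346 (.cons 321 (.leaf 322 2352 (.cons 345 (.leaf 369 2183 (.cons 344 (.leaf 368 2182 (.cons 249 (.leaf 320 1989 (.cons 225 (.leaf 201 1606 (.cons 226 (.leaf 202 1613 (.leaf 250 1805 .nil)) .nil)) .nil)) .nil)) .nil)) .nil)) .nil)) .nil)) .nil)))) .nil)) .nil)) (.cons 274 (.leaf 273 2170 (.cons 297 (.leaf 298 2169 (.cons 248 (.cons 224 (.leaf 319 1790 (.leaf 321 1796 .nil)) (.cons 320 (.cons 247 (.leaf 223 1791 (.cons 344 (.leaf 271 1983 (.cons 345 (.leaf 321 1988 (.leaf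 369 2180 .nil)) .nil)) .nil)) (.cons 225 (.leaf 249 1797 (.cons 343 (.leaf 319 1982 (.cons 344 (.leaf 367 2174 (.cons 368 (.leaf 271 2175 (.cons 369 (.leaf 345 2180 (.leaf 393 2372 .nil)) .nil)) .nil)) .nil)) .nil)) (.cons 247 (.leaf 223 1791 (.cons 249 (.leaf 250 1976 (.leaf 225 1797 .nil)) .nil)) .nil))) (.cons 224 (.leaf 321 1796 (.cons 199 (.leaf 223 1599 (.cons 200 (.leaf 175 1407 (.leaf 271 1598 .nil)) .nil)) .nil)) (.cons 224 (.leaf 319 1790 (.cons 199 (.leaf 223 1599 (.cons 200 (.leaf 175 1407 (.leaf 271 1598 .nil)) .nil)) .nil)) .nil)))) .nil)) .nil)) (.cons 273 (.leaf 274 2170 (.cons 294 (.leaf 293 2153 (.cons 297 t83 .nil)) .nil)) .nil)))))))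
noncomputable def t87 : T := .cons 270 (.leaf 269 1962 (.cons 250 (.leaf 271 1969 (.cons 251 (.leaf 252 1986 (.cons 224 (.leaf 223 1787 (.cons 200 (.leaf 297 1604 (.leaf 176 1412 .nil)) .nil)) .nil)) .nil)) .nil)) (.cons 222 (.leaf 221 1771 (.cons 223 (.leaf 250 1779 (.cons 199 (.leaf 175 1404 (.cons 224 (.leaf 296 1599 (.cons 200 (.leaf 297 1604 (.leaf 176 1412 .nil)) .nil)) .nil)) .nil)) .nil)) (.cons 270 (.leaf 269 1962 (.cons 222 (.leaf 221 1771 (.cons 198 (.cons 173 (.leaf 197 1391 (.cons 174 (.leaf 271 1396 (.leaf 149 1199 .nil)) .nil)) (.cons 173 (.leaf 197 1391 (.cons 174 (.leaf 149 1199 (.cons 175 (.leaf 151 1205 (.leaf 199 1397 .nil)) .nil)) .nil)) (.cons 173 (.leaf 197 1391 (.cons 199 (.leaf 175 1397 (.cons 271 (.leaf 295 1588 (.cons 223 (.leaf 296 1596 (.cons 200 (.leaf 176 1405 (.cons 297 (.leaf 224 1604 (.leaf 298 2160 .nil)) .nil)) .nil)) .nil)) .nil)) .nil)) (.cons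 271 (.leaf 174 1396 (.leaf 295 1588 .nil)) .nil)))) .nil)) .nil)) (.cons 270 (.leaf 269 1962 (.cons 271 (.leaf 250 1969 (.cons 222 (.leaf 221 1771 (.cons 198 (.leaf 174 1396 (.leaf 295 1588 .nil)) .nil)) .nil)) .nil)) .nil)))
noncomputable def t88 : T := .cons 270 (.leaf 269 1962 (.cons 250 (.leaf 271 1969 (.cons 221 (.leaf 222 1771 (.cons 227 (.leaf 226 1785 (.cons 251 (.leaf 252 1986 (.leaf 228 1793 .nil)) .nil)) .nil)) .nil)) .nil)) (.cons 222 (.leaf 221 1771 (.cons 223 (.leaf 250 1779 (.cons 199 (.leaf 175 1404 (.cons 224 (.leaf 296 1599 (.cons 200 (.leaf 297 1604 (.leaf 176 1412 .nil)) .nil)) .nil)) .nil)) .nil)) (.cons 270 (.leaf 269 1962 (.cons 250 (.leaf 271 1969 (.cons 251 (.leaf 252 1986 (.cons 224 (.leaf 223 1787 (.cons 200 (.leaf 297 1604 (.leaf 176 1412 .nil)) .nil)) .nil)) .nil)) .nil)) (.cons 270 (.leaf 269 1962 (.cons 222 (.leaf 221 1771 (.cons 198 (.cons 173 (.leaf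 197 1391 (.cons 174 (.leaf 271 1396 (.leaf 149 1199 .nil)) .nil)) (.cons 173 (.leaf 197 1391 (.cons 174 (.leaf 149 1199 (.cons 175 (.leaf 151 1205 (.leaf 199 1397 .nil)) .nil)) .nil)) (.cons 173 (.leaf 197 1391 (.cons 199 (.leaf 175 1397 (.cons 271 (.leaf 295 1588 (.cons 223 (.leaf 296 1596 (.cons 200 (.leaf 176 1405 (.cons 297 (.leaf 224 1604 (.leaf 298 2160 .nil)) .nil)) .nil)) .nil)) .nil)) .nil)) (.cons 271 (.leaf 174 1396 (.leaf 295 1588 .nil)) .nil)))) .nil)) .nil)) .nil)))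
noncomputable def t89 : T := .cons 226 (.leaf 202 1620 (.cons 323 (.leaf 251 1815 (.leaf 347 2007 .nil)) .nil)) (.cons 323 (.leaf 347 2007 (.cons 251 (.cons 322 (.leaf 346 2006 (.cons 227 (.leaf 298 1813 (.cons 324 (.leaf 300 1820 (.leaf 348 2012 .nil)) .nil)) .nil)) (.cons 228 (.leaf 252 1821 (.cons 227 (.leaf 204 1629 (.cons 203 (.leaf 298 1622 (.leaf 179 1430 .nil)) .nil)) .nil)) (.cons 252 (.leaf 228 1821 (.cons 253 (.leaf 254 2002 (.cons 229 (.leaf 230 1809 (.cons 277 (.leaf 278 2000 (.cons 324 (.leaf 348 2012 (.cons 301 (.leaf 300 1830 (.cons 302 (.leaf 326 1836 (.cons 322 (.leaf 346 2006 (.leaf 325 2385 .nil)) .nil)) .nil)) .nil)) .nil)) .nil)) .nil)) .nil)) .nil))) .nil)) (.cons 226 (.leaf 202 1620 (.cons 225 (.cons 298 (.leaf 201 1615 (.cons 227 (.leaf 224 1786 (.leaf 203 1621 .nil)) .nil)) (.cons 298 (.leaf 201 1615 (.cons 227 (.leaf 203 1621 (.cons 251 (.leaf 322 1813 (.cons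 228 (.leaf 204 1629 (.cons 253 (.leaf 252 1800 (.cons 229 (.leaf 230 1810 (.leaf 254 1808 .nil)) .nil)) .nil)) .nil)) .nil)) .nil)) (.cons 201 (.leaf 298 1615 (.cons 177 (.leaf 153 1228 (.cons 224 (.leaf 200 1413 (.cons 223 (.leaf 246 1778 (.leaf 251 1784 .nil)) .nil)) .nil)) .nil)) (.cons 224 (.leaf 227 1786 (.cons 223 (.leaf 246 1778 (.leaf 251 1784 .nil)) .nil)) .nil)))) .nil)) (.cons 226 (.leaf 202 1620 (.cons 323 (.leaf 347 2007 (.leaf 298 1812 .nil)) .nil)) .nil)))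
noncomputable def t90 : T := .cons 226 (.leaf 202 1620 (.cons 323 (.leaf 251 1815 (.leaf 347 2007 .nil)) .nil)) (.cons 226 (.leaf 202 1620 (.cons 225 (.cons 224 (.leaf 227 1786 (.cons 201 (.leaf 296 1605 (.leaf 298 1615 .nil)) .nil)) (.cons 298 (.leaf 201 1615 (.cons 227 (.leaf 203 1621 (.cons 251 (.leaf 322 1813 (.cons 228 (.leaf 204 1629 (.cons 253 (.leaf 252 1800 (.cons 229 (.leaf 230 1810 (.leaf 254 1808 .nil)) .nil)) .nil)) .nil)) .nil)) .nil)) (.cons 201 (.leaf 298 1615 (.cons 177 (.leaf 153 1228 (.cons 224 (.leaf 200 1413 (.leaf 296 1605 .nil)) .nil)) .nil)) (.cons 227 (.leaf 224 1786 (.cons 203 (.leaf 298 1621 (.cons 179 (.leaf 251 1430 (.leaf 155 1238 .nil)) .nil)) .nil)) (.cons 224 (.leaf 227 1786 (.cons 201 (.leaf 296 1605 (.cons 177 (.leaf 200 1413 (.leaf 153 1228 .nil)) .nil)) .nil)) .nil))))) .nil)) (.cons 323 (.leaf 347 2007 (.cons 251 (.cons 322 (.leaf 346 2006 (.cons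 227 (.leaf 298 1813 (.cons 324 (.leaf 300 1820 (.leaf 348 2012 .nil)) .nil)) .nil)) (.cons 228 (.leaf 252 1821 (.cons 227 (.leaf 204 1629 (.cons 203 (.leaf 298 1622 (.leaf 179 1430 .nil)) .nil)) .nil)) (.cons 252 (.leaf 228 1821 (.cons 253 (.leaf 254 2002 (.cons 229 (.leaf 230 1809 (.cons 277 (.leaf 278 2000 (.cons 324 (.leaf 348 2012 (.cons 301 (.leaf 300 1830 (.cons 302 (.leaf 326 1836 (.cons 322 (.leaf 346 2006 (.leaf 325 2385 .nil)) .nil)) .nil)) .nil)) .nil)) .nil)) .nil)) .nil)) .nil))) .nil)) (.cons 226 (.leaf 202 1620 (.cons 323 (.leaf 347 2007 (.leaf 298 1812 .nil)) .nil)) .nil)))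
noncomputable def t91 : T := .cons 199 (.leaf 175 1404 (.cons 271 (.leaf 296 1596 (.cons 174 (.leaf 198 1399 (.cons 200 (.leaf 176 1405 (.cons 224 (.leaf 295 1597 (.leaf 297 1604 .nil)) .nil)) .nil)) .nil)) .nil)) (.cons 296 (.leaf 320 1791 (.cons 224 (.cons 200 (.leaf 297 1604 (.cons 271 (.leaf 295 1597 (.leaf 176 1406 .nil)) .nil)) (.cons 225 (.leaf 201 1605 (.leaf 226 1778 .nil)) .nil)) .nil)) (.cons 199 (.leaf 175 1404 (.cons 200 (.cons 224 (.leaf 297 1604 (.cons 152 (.leaf 176 1214 (.cons 271 (.leaf 295 1597 (.cons 198 (.leaf 174 1399 (.cons 225 (.leaf 226 1778 (.leaf 197 1576 .nil)) .nil)) .nil)) .nil)) .nil)) (.cons 271 (.leaf 176 1405 (.cons 198 (.leaf 174 1399 (.cons 222 (.leaf 295 1591 (.cons 221 (.leaf 220 1760 (.leaf 201 1578 .nil)) .nil)) .nil)) .nil)) (.cons 224 (.leaf 297 1604 (.cons 152 (.leaf 176 1214 (.cons 225 (.leaf 226 1778 (.cons 197 (.leaf 198 1576 (.cons 201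 (.leaf 177 1413 (.cons 222 (.leaf 202 1585 (.leaf 221 1577 .nil)) .nil)) .nil)) .nil)) .nil)) .nil)) (.cons 224 (.leaf 297 1604 (.cons 271 (.leaf 295 1597 (.cons 201 (.leaf 177 1413 (.cons 202 (.leaf 222 1586 (.leaf 203 1594 .nil)) .nil)) .nil)) .nil)) .nil)))) .nil)) (.cons 199 (.leaf 175 1404 (.cons 271 (.leaf 296 1596 (.cons 200 (.leaf 176 1405 (.cons 198 (.leaf 174 1399 (.cons 222 (.leaf 295 1591 (.cons 221 (.leaf 220 1760 (.leaf 201 1578 .nil)) .nil)) .nil)) .nil)) .nil)) .nil)) (.cons 199 (.leaf 175 1404 (.cons 224 (.leaf 296 1599 (.cons 200 (.leaf 297 1604 (.cons 152 (.leaf 176 1214 (.cons 225 (.leaf 226 1778 (.cons 197 (.leaf 198 1576 (.cons 201 (.leaf 177 1413 (.cons 222 (.leaf 202 1585 (.leaf 221 1577 .nil)) .nil)) .nil)) .nil)) .nil)) .nil)) .nil)) .nil)) (.cons 199 (.leaf 175 1404 (.cons 296 (.leaf 224 1599 (.leaf 271 1596 .nil)) .nil)) .nil)))))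
noncomputable def t92 : T := .cons 245 (.leaf 273 1960 (.cons 220 (.leaf 221 1763 (.cons 244 (.leaf 271 1952 (.leaf 219 1755 .nil)) .nil)) .nil)) (.cons 249 (.cons 222 (.leaf 221 1771 (.cons 223 (.leaf 250 1779 (.cons 199 (.leaf 175 1404 (.cons 225 (.leaf 226 1777 (.cons 201 (.leaf 177 1414 (.cons 200 (.leaf 202 1586 (.cons 271 (.leaf 296 1596 (.leaf 176 1405 .nil)) .nil)) .nil)) .nil)) .nil)) .nil)) .nil)) (.cons 222 (.leaf 221 1771 (.cons 223 (.leaf 250 1779 (.cons 199 (.leaf 175 1404 (.cons 296 (.leaf 224 1599 (.leaf 271 1596 .nil)) .nil)) .nil)) .nil)) (.cons 225 (.leaf 226 1777 (.cons 201 (.leaf 177 1414 (.cons 296 (.leaf 224 1605 (.leaf 273 1606 .nil)) .nil)) .nil)) (.cons 221 (.leaf 222 1771 (.cons 270 (.leaf 269 1962 (.cons 250 (.leaf 271 1970 (.cons 227 (.leaf 226 1785 (.cons 251 (.leaf 228 1793 (.cons 224 (.leaf 223 1787 (.cons 273 (.leaf 252 1986 (.cons 200 (.leaf 297 1604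 (.leaf 176 1412 .nil)) .nil)) .nil)) .nil)) .nil)) .nil)) .nil)) .nil)) .nil)))) (.cons 245 (.leaf 273 1960 (.cons 220 (.leaf 221 1763 (.cons 224 (.leaf 225 1769 (.cons 244 (.leaf 219 1755 (.leaf 223 1761 .nil)) .nil)) .nil)) .nil)) (.cons 245 (.cons 220 (.leaf 221 1763 (.cons 244 (.leaf 271 1952 (.leaf 219 1755 .nil)) .nil)) (.cons 220 (.leaf 221 1763 (.cons 225 (.leaf 224 1769 (.cons 249 (.leaf 226 1777 (.cons 269 (.leaf 268 1954 (.leaf 270 1962 .nil)) .nil)) .nil)) .nil)) (.cons 224 (.leaf 225 1769 (.cons 223 (.leaf 244 1761 (.cons 175 (.leaf 199 1404 (.cons 269 (.leaf 268 1954 (.cons 249 (.leaf 270 1962 (.cons 250 (.leaf 222 1779 (.leaf 251 1787 .nil)) .nil)) .nil)) .nil)) .nil)) .nil)) .nil))) (.cons 245 (.leaf 273 1960 (.cons 224 (.leaf 225 1769 (.cons 223 (.leaf 244 1761 (.cons 175 (.leaf 199 1404 (.cons 269 (.leaf 268 1954 (.cons 249 (.leaf 270 1962 (.cons 250 (.leaf 222 1779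 (.leaf 251 1787 .nil)) .nil)) .nil)) .nil)) .nil)) .nil)) .nil)) .nil))))
noncomputable def t93 : T := .cons 273 (.leaf 274 1979 (.cons 246 (.leaf 245 1960 (.cons 249 (.cons 270 (.leaf 269 1962 (.cons 250 (.leaf 271 1969 (.cons 221 (.leaf 222 1771 (.cons 227 (.leaf 226 1785 (.cons 251 (.leaf 252 1986 (.leaf 228 1793 .nil)) .nil)) .nil)) .nil)) .nil)) (.cons 222 (.leaf 221 1771 (.cons 223 (.leaf 250 1779 (.cons 199 (.leaf 175 1404 (.cons 224 (.leaf 296 1599 (.cons 200 (.leaf 297 1604 (.leaf 176 1412 .nil)) .nil)) .nil)) .nil)) .nil)) (.cons 225 (.leaf 226 1777 (.cons 201 (.leaf 177 1414 (.leaf 296 1606 .nil)) .nil)) .nil))) .nil)) .nil)) (.cons 249 (.cons 250 (.leaf 274 1976 (.cons 226 (.leaf 227 1785 (.cons 222 (.leaf 223 1779 (.cons 246 (.leaf 221 1771 (.leaf 225 1777 .nil)) .nil)) .nil)) .nil)) (.cons 246 (.cons 225 (.leaf 226 1777 (.cons 201 (.leaf 177 1414 (.cons 296 (.leaf 224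 1605 (.leaf 320 1797 .nil)) .nil)) .nil)) (.cons 269 (.leaf 270 1962 (.cons 221 (.leaf 222 1771 (.cons 245 (.leaf 220 1763 (.leaf 268 1954 .nil)) .nil)) .nil)) .nil)) (.cons 250 (.leaf 274 1976 (.cons 271 (.leaf 251 1978 (.leaf 270 1970 .nil)) .nil)) .nil))) (.cons 246 t92 (.cons 273 (.leaf 274 1979 (.cons 246 (.leaf 245 1960 (.cons 223 t91 .nil)) .nil)) (.cons 273 (.leaf 274 1979 (.cons 246 (.leaf 245 1960 (.cons 249 (.cons 270 (.leaf 269 1962 (.cons 271 (.leaf 250 1969 (.cons 222 (.leaf 221 1771 (.cons 198 (.leaf 174 1396 (.leaf 295 1588 .nil)) .nil)) .nil)) .nil)) (.cons 225 (.leaf 226 1777 (.cons 201 (.leaf 177 1414 (.leaf 296 1606 .nil)) .nil)) .nil)) .nil)) .nil)) (.cons 273 (.leaf 274 1979 (.cons 246 (.leaf 245 1960 (.cons 249 (.cons 222 (.leaf 221 1771 (.cons 223 (.leaf 250 1779 (.cons 296 (.leaf 320 1791 (.cons 199 (.leaf 175 1404 (.leaf 224 1599 .nil)) .nil)) .nil)) .nil))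 (.cons 225 (.leaf 226 1777 (.cons 201 (.leaf 177 1414 (.leaf 296 1606 .nil)) .nil)) (.cons 221 (.leaf 222 1771 (.cons 225 (.leaf 226 1777 (.cons 201 (.leaf 177 1414 (.cons 200 (.leaf 176 1415 (.cons 224 (.leaf 297 1604 (.cons 175 (.leaf 199 1407 (.cons 202 (.leaf 178 1421 (.cons 203 (.leaf 204 1602 (.leaf 223 1594 .nil)) .nil)) .nil)) .nil)) .nil)) .nil)) .nil)) .nil)) .nil))) .nil)) .nil)) (.cons 274 (.leaf 273 1979 (.cons 250 (.leaf 249 1976 (.cons 299 t90 .nil)) .nil)) (.cons 274 (.leaf 273 1979 (.cons 250 (.leaf 249 1976 (.cons 299 t89 .nil)) .nil)) (.cons 273 (.leaf 274 1979 (.cons 246 (.leaf 245 1960 (.cons 249 t88 .nil)) .nil)) (.cons 273 (.leaf 274 1979 (.cons 246 (.leaf 245 1960 (.cons 249 t87 .nil)) .nil)) .nil)))))))))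
noncomputable def t94 : T := .cons 223 (.leaf 247 1791 (.cons 199 (.leaf 224 1599 (.cons 249 (.leaf 225 1797 (.cons 344 (.leaf 273 1989 (.cons 343 (.leaf 319 1982 (.leaf 367 2174 .nil)) .nil)) .nil)) .nil)) .nil)) (.cons 319 (.leaf 343 1982 (.cons 224 (.leaf 295 1790 (.cons 199 (.leaf 223 1599 (.cons 175 (.leaf 200 1407 (.cons 249 (.leaf 225 1797 (.cons 344 (.leaf 273 1989 (.cons 345 (.leaf 321 1988 (.leaf 369 2180 .nil)) .nil)) .nil)) .nil)) .nil)) .nil)) .nil)) (.cons 247 (.leaf 223 1791 (.cons 344 (.leaf 271 1983 (.cons 273 (.leaf 274 1979 (.leaf 249 1989 .nil)) .nil)) .nil)) (.cons 223 (.leaf 247 1791 (.cons 199 (.leaf 224 1599 (.cons 343 (.leaf 319 1982 (.cons 344 (.leaf 367 2174 (.cons 345 (.leaf 321 1988 (.leaf 369 2180 .nil)) .nil)) .nil)) .nil)) .nil)) (.cons 319 (.leaf 343 1982 (.cons 295 (.leaf 224 1790 (.cons 273 (.leaf 274 2170 (.cons 321 (.leaf 345 1988 (.cons 322 (.leaf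 323 2363 (.cons 298 (.leaf 299 2361 (.cons 344 (.leaf 249 1989 (.cons 368 (.leaf 271 2175 (.leaf 392 2367 .nil)) .nil)) .nil)) .nil)) .nil)) .nil)) .nil)) .nil)) (.cons 247 (.leaf 223 1791 (.cons 249 (.leaf 225 1797 (.cons 250 (.leaf 274 1976 (.cons 271 (.leaf 251 1978 (.leaf 270 1970 .nil)) .nil)) .nil)) .nil)) .nil)))))
noncomputable def t95 : T := .cons 223 (.leaf 247 1791 (.cons 199 (.leaf 224 1599 (.cons 249 (.leaf 225 1797 (.cons 344 (.leaf 273 1989 (.cons 343 (.leaf 319 1982 (.leaf 367 2174 .nil)) .nil)) .nil)) .nil)) .nil)) (.cons 223 (.leaf 247 1791 (.cons 199 (.leaf 224 1599 (.cons 249 (.leaf 225 1797 (.cons 321 (.leaf 345 1988 (.cons 344 (.leaf 273 1989 (.cons 367 (.leaf 343 2174 (.cons 368 (.leaf 391 2366 (.cons 271 (.leaf 295 2175 (.cons 250 (.leaf 251 1978 (.cons 269 (.leaf 270 1961 (.cons 392 (.leaf 297 2373 (.cons 393 (.leaf 369 2372 (.leaf 417 2564 .nil)) .nil)) .nil))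 .nil)) .nil)) .nil)) .nil)) .nil)) .nil)) .nil)) .nil)) .nil)) (.cons 319 (.leaf 343 1982 (.cons 224 (.leaf 295 1790 (.cons 321 (.leaf 297 1796 (.leaf 345 1988 .nil)) .nil)) .nil)) (.cons 223 (.leaf 247 1791 (.cons 199 (.leaf 224 1599 (.cons 249 (.leaf 225 1797 (.cons 344 (.leaf 273 1989 (.cons 369 (.leaf 345 2180 (.cons 368 (.leaf 393 2372 (.cons 295 (.leaf 271 2175 (.cons 392 (.leaf 319 2367 (.cons 391 (.leaf 367 2366 (.leaf 415 2558 .nil)) .nil)) .nil)) .nil)) .nil)) .nil)) .nil)) .nil)) .nil)) (.cons 223 (.leaf 247 1791 (.cons 225 (.leaf 249 1797 (.cons 343 (.leaf 319 1982 (.cons 344 (.leaf 367 2174 (.cons 345 (.leaf 321 1988 (.leaf 369 2180 .nil)) .nil)) .nil)) .nil)) .nil)) .nil))))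
noncomputable def t96 : T := .cons 320 (.cons 223 (.leaf 247 1791 (.cons 224 (.leaf 199 1599 (.cons 319 (.leaf 295 1790 (.leaf 343 1982 .nil)) .nil)) .nil)) (.cons 319 (.leaf 343 1982 (.cons 224 (.leaf 295 1790 (.cons 321 (.leaf 297 1796 (.leaf 345 1988 .nil)) .nil)) .nil)) (.cons 247 (.leaf 223 1791 (.cons 344 (.leaf 271 1983 (.cons 273 (.leaf 274 1979 (.leaf 249 1989 .nil)) .nil)) .nil)) .nil))) (.cons 224 (.cons 199 (.leaf 223 1599 (.cons 200 (.leaf 175 1407 (.cons 295 (.leaf 271 1598 (.leaf 319 1790 .nil)) .nil)) .nil)) (.cons 297 (.leaf 321 1796 (.cons 199 (.leaf 223 1599 (.cons 200 (.leaf 175 1407 (.leaf 273 1604 .nil)) .nil)) .nil)) (.cons 295 (.leaf 319 1790 (.cons 200 (.leaf 271 1598 (.cons 273 (.leaf 274 2170 (.leaf 297 1604 .nil)) .nil)) .nil)) (.cons 199 (.leaf 223 1599 (.cons 295 (.leaf 319 1790 (.cons 274 (.leaf 273 2170 (.cons 297 (.leaf 298 2169 (.leaf 321 1796 .nil))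 .nil)) .nil)) .nil)) .nil)))) (.cons 320 (.cons 223 (.leaf 247 1791 (.cons 343 (.leaf 319 1982 (.cons 344 (.leaf 367 2174 (.cons 369 (.leaf 345 2180 (.cons 368 (.leaf 393 2372 (.cons 273 (.leaf 249 1989 (.leaf 297 2181 .nil)) .nil)) .nil)) .nil)) .nil)) .nil)) (.cons 249 (.leaf 225 1797 (.cons 343 (.leaf 319 1982 (.cons 344 (.leaf 273 1989 (.leaf 367 2174 .nil)) .nil)) .nil)) (.cons 247 (.leaf 223 1791 (.cons 344 (.leaf 271 1983 (.cons 343 (.leaf 319 1982 (.leaf 367 2174 .nil)) .nil)) .nil)) (.cons 247 (.leaf 223 1791 (.cons 344 (.leaf 271 1983 (.cons 273 (.leaf 274 1979 (.leaf 249 1989 .nil)) .nil)) .nil)) (.cons 247 (.leaf 223 1791 (.cons 249 (.leaf 225 1797 (.cons 250 (.leaf 274 1976 (.cons 271 (.leaf 251 1978 (.leaf 270 1970 .nil)) .nil)) .nil)) .nil)) .nil))))) (.cons 320 (.cons 223 (.leaf 247 1791 (.cons 224 (.leaf 199 1599 (.cons 319 (.leaf 295 1790 (.leaf 343 1982 .nil)) .nil))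 .nil)) (.cons 247 (.leaf 223 1791 (.cons 249 (.leaf 225 1797 (.cons 250 (.leaf 274 1976 (.cons 271 (.leaf 344 1983 (.leaf 251 1978 .nil)) .nil)) .nil)) .nil)) (.cons 225 (.leaf 249 1797 (.cons 319 (.leaf 343 1982 (.cons 321 (.leaf 345 1988 (.cons 224 (.leaf 295 1790 (.leaf 297 1796 .nil)) .nil)) .nil)) .nil)) .nil))) (.cons 320 t95 (.cons 320 t94 (.cons 320 (.cons 225 (.leaf 249 1797 (.cons 321 (.leaf 345 1988 (.cons 224 (.leaf 297 1796 (.cons 295 (.leaf 319 1790 (.cons 271 (.leaf 200 1598 (.cons 344 (.leaf 247 1983 (.leaf 368 2175 .nil)) .nil)) .nil)) .nil)) .nil)) .nil)) (.cons 225 (.leaf 249 1797 (.cons 345 (.leaf 321 1988 (.cons 344 (.leaf 369 2180 (.cons 367 (.leaf 343 2174 (.cons 368 (.leaf 391 2366 (.cons 273 (.leaf 297 2181 (.cons 295 (.leaf 274 2170 (.leaf 271 2175 .nil)) .nil)) .nil)) .nil)) .nil)) .nil)) .nil)) (.cons 319 (.leaf 343 1982 (.cons 295 (.leaf 224 1790 (.cons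 273 (.leaf 274 2170 (.cons 344 (.leaf 249 1989 (.cons 271 (.leaf 247 1980 (.leaf 368 2175 .nil)) .nil)) .nil)) .nil)) .nil)) (.cons 319 (.leaf 343 1982 (.cons 321 (.leaf 345 1988 (.cons 297 (.leaf 224 1796 (.cons 298 (.leaf 299 2362 (.leaf 318 2353 .nil)) .nil)) .nil)) .nil)) .nil)))) (.cons 320 (.cons 225 (.leaf 249 1797 (.cons 345 (.leaf 321 1988 (.cons 344 (.leaf 369 2180 (.cons 367 (.leaf 343 2174 (.cons 368 (.leaf 391 2366 (.cons 273 (.leaf 297 2181 (.cons 295 (.leaf 274 2170 (.leaf 271 2175 .nil)) .nil)) .nil)) .nil)) .nil)) .nil)) .nil)) (.cons 223 (.leaf 247 1791 (.cons 224 (.leaf 199 1599 (.cons 321 (.leaf 297 1796 (.leaf 345 1988 .nil)) .nil)) .nil)) (.cons 247 (.leaf 223 1791 (.cons 344 (.leaf 271 1983 (.cons 273 (.leaf 274 1979 (.leaf 249 1989 .nil)) .nil)) .nil)) .nil))) (.cons 320 (.cons 223 (.leaf 247 1791 (.cons 224 (.leaf 199 1599 (.cons 319 (.leaf 295 1790 (.leaf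 343 1982 .nil)) .nil)) .nil)) (.cons 321 (.leaf 345 1988 (.cons 223 (.leaf 247 1791 (.cons 224 (.leaf 199 1599 (.leaf 297 1796 .nil)) .nil)) .nil)) (.cons 225 (.leaf 249 1797 (.cons 319 (.leaf 343 1982 (.cons 321 (.leaf 345 1988 (.cons 224 (.leaf 295 1790 (.leaf 297 1796 .nil)) .nil)) .nil)) .nil)) (.cons 223 (.leaf 247 1791 (.cons 225 (.leaf 249 1797 (.cons 343 (.leaf 319 1982 (.cons 344 (.leaf 367 2174 (.cons 345 (.leaf 321 1988 (.leaf 369 2180 .nil)) .nil)) .nil)) .nil)) .nil)) .nil)))) .nil))))))))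
noncomputable def t97 : T := .cons 269 (.leaf 270 1962 (.cons 245 (.leaf 268 1954 (.cons 244 (.leaf 271 1952 (.cons 220 (.leaf 221 1763 (.leaf 219 1755 .nil)) .nil)) .nil)) .nil)) (.cons 221 (.leaf 222 1771 (.cons 245 (.leaf 220 1763 (.cons 223 (.cons 199 (.leaf 175 1404 (.cons 296 (.leaf 224 1599 (.leaf 271 1596 .nil)) .nil)) (.cons 244 (.leaf 271 1952 (.leaf 224 1761 .nil)) (.cons 199 (.leaf 175 1404 (.cons 224 (.leaf 296 1599 (.leaf 244 1761 .nil)) .nil)) (.cons 199 (.leaf 175 1404 (.cons 271 (.leaf 296 1596 (.leaf 244 1952 .nil)) .nil)) .nil)))) .nil)) .nil)) (.cons 269 (.leaf 270 1962 (.cons 245 (.leaf 268 1954 (.cons 244 (.leaf 271 1952 (.cons 219 (.leaf 220 1755 (.cons 223 (.leaf 224 1761 (.cons 243 (.leaf 218 1747 (.leaf 222 1753 .nil)) .nil)) .nil)) .nil)) .nil)) .nil)) (.cons 221 (.leaf 222 1771 (.cons 245 (.leaf 220 1763 (.cons 269 (.leaf 268 1954 (.leaf 270 1962 .nil))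 .nil)) .nil)) (.cons 270 (.leaf 269 1962 (.cons 222 (.leaf 221 1771 (.cons 198 (.cons 197 (.leaf 173 1391 (.cons 199 (.leaf 175 1397 (.cons 271 (.leaf 174 1396 (.leaf 295 1588 .nil)) .nil)) .nil)) (.cons 175 (.leaf 199 1397 (.cons 173 (.leaf 197 1391 (.cons 174 (.leaf 149 1199 (.leaf 151 1205 .nil)) .nil)) .nil)) (.cons 271 (.leaf 174 1396 (.leaf 295 1588 .nil)) (.cons 197 (.leaf 173 1391 (.cons 199 (.leaf 175 1397 (.cons 271 (.leaf 295 1588 (.cons 223 (.leaf 296 1596 (.cons 196 (.leaf 195 1560 (.leaf 224 1568 .nil)) .nil)) .nil)) .nil)) .nil)) .nil)))) .nil)) .nil)) .nil))))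
noncomputable def t98 : T := .cons 226 (.leaf 202 1620 (.cons 323 (.leaf 251 1815 (.leaf 347 2007 .nil)) .nil)) (.cons 226 (.leaf 202 1620 (.cons 225 (.cons 298 (.leaf 201 1615 (.cons 227 (.leaf 224 1786 (.leaf 203 1621 .nil)) .nil)) (.cons 298 (.leaf 201 1615 (.cons 227 (.leaf 203 1621 (.cons 251 (.leaf 322 1813 (.cons 228 (.leaf 204 1629 (.cons 253 (.leaf 252 1800 (.cons 229 (.leaf 230 1810 (.leaf 254 1808 .nil)) .nil)) .nil)) .nil)) .nil)) .nil)) (.cons 201 (.leaf 298 1615 (.cons 177 (.leaf 153 1228 (.cons 224 (.leaf 200 1413 (.cons 223 (.leaf 246 1778 (.leaf 251 1784 .nil)) .nil)) .nil)) .nil)) (.cons 224 (.leaf 227 1786 (.cons 223 (.leaf 246 1778 (.leaf 251 1784 .nil)) .nil)) .nil)))) .nil)) (.cons 323 (.leaf 347 2007 (.cons 251 (.cons 322 (.leaf 346 2006 (.cons 227 (.leaf 298 1813 (.cons 324 (.leaf 300 1820 (.leaf 348 2012 .nil)) .nil)) .nil)) (.cons 228 (.leaf 252 1821 (.cons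 227 (.leaf 204 1629 (.cons 203 (.leaf 298 1622 (.leaf 179 1430 .nil)) .nil)) .nil)) (.cons 252 (.leaf 228 1821 (.cons 253 (.leaf 254 2002 (.cons 229 (.leaf 230 1809 (.cons 277 (.leaf 278 2000 (.cons 324 (.leaf 348 2012 (.cons 301 (.leaf 300 1830 (.cons 302 (.leaf 326 1836 (.cons 322 (.leaf 346 2006 (.leaf 325 2385 .nil)) .nil)) .nil)) .nil)) .nil)) .nil)) .nil)) .nil)) .nil))) .nil)) (.cons 226 (.leaf 202 1620 (.cons 323 (.leaf 347 2007 (.leaf 298 1812 .nil)) .nil)) .nil)))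
noncomputable def t99 : T := .cons 226 (.leaf 202 1620 (.cons 323 (.leaf 251 1815 (.leaf 347 2007 .nil)) .nil)) (.cons 226 (.leaf 202 1620 (.cons 225 (.cons 201 (.leaf 298 1615 (.cons 177 (.leaf 153 1228 (.cons 224 (.leaf 200 1413 (.leaf 296 1605 .nil)) .nil)) .nil)) (.cons 298 (.leaf 201 1615 (.cons 227 (.leaf 203 1621 (.cons 251 (.leaf 322 1813 (.cons 228 (.leaf 204 1629 (.cons 253 (.leaf 252 1800 (.cons 229 (.leaf 230 1810 (.leaf 254 1808 .nil)) .nil)) .nil)) .nil)) .nil)) .nil)) (.cons 227 (.leaf 224 1786 (.cons 203 (.leaf 298 1621 (.cons 179 (.leaf 251 1430 (.leaf 155 1238 .nil)) .nil)) .nil)) (.cons 224 (.leaf 227 1786 (.cons 201 (.leaf 296 1605 (.cons 177 (.leaf 200 1413 (.leaf 153 1228 .nil)) .nil)) .nil)) .nil)))) .nil)) (.cons 323 (.leaf 347 2007 (.cons 251 (.cons 322 (.leaf 346 2006 (.cons 227 (.leaf 298 1813 (.cons 324 (.leaf 300 1820 (.leaf 348 2012 .nil)) .nil)) .nil))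 (.cons 228 (.leaf 252 1821 (.cons 227 (.leaf 204 1629 (.cons 203 (.leaf 298 1622 (.leaf 179 1430 .nil)) .nil)) .nil)) (.cons 252 (.leaf 228 1821 (.cons 253 (.leaf 254 2002 (.cons 229 (.leaf 230 1809 (.cons 277 (.leaf 278 2000 (.cons 324 (.leaf 348 2012 (.cons 301 (.leaf 300 1830 (.cons 302 (.leaf 326 1836 (.cons 322 (.leaf 346 2006 (.leaf 325 2385 .nil)) .nil)) .nil)) .nil)) .nil)) .nil)) .nil)) .nil)) .nil))) .nil)) (.cons 226 (.leaf 202 1620 (.cons 323 (.leaf 347 2007 (.leaf 298 1812 .nil)) .nil)) .nil)))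
noncomputable def t100 : T := .cons 224 (.cons 223 (.leaf 199 1599 (.leaf 320 1791 .nil)) (.cons 201 (.leaf 225 1605 (.cons 200 (.leaf 177 1413 (.cons 271 (.leaf 295 1598 (.leaf 176 1406 .nil)) .nil)) .nil)) .nil)) (.cons 320 (.cons 344 (.leaf 271 1983 (.cons 345 (.leaf 321 1988 (.leaf 369 2180 .nil)) .nil)) (.cons 319 (.leaf 343 1982 (.cons 224 (.leaf 295 1790 (.cons 201 (.leaf 225 1605 (.cons 200 (.leaf 177 1413 (.cons 175 (.leaf 199 1407 (.cons 176 (.leaf 151 1215 (.leaf 271 1406 .nil)) .nil)) .nil)) .nil)) .nil)) .nil)) (.cons 343 (.leaf 319 1982 (.cons 344 (.leaf 367 2174 (.cons 345 (.leaf 321 1988 (.leaf 369 2180 .nil)) .nil)) .nil)) .nil))) (.cons 224 (.cons 223 (.leaf 199 1599 (.cons 225 (.leaf 201 1605 (.leaf 226 1778 .nil)) .nil)) (.cons 201 (.leaf 225 1605 (.cons 200 (.leaf 177 1413 (.cons 271 (.leaf 295 1598 (.leaf 176 1406 .nil)) .nil)) .nil)) (.cons 199 (.leaf 223 1599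 (.cons 200 (.leaf 175 1407 (.cons 271 (.leaf 295 1598 (.leaf 176 1406 .nil)) .nil)) .nil)) .nil))) (.cons 320 (.leaf 223 1791 (.cons 344 (.leaf 271 1983 (.cons 345 (.leaf 321 1988 (.leaf 369 2180 .nil)) .nil)) .nil)) (.cons 223 (.leaf 320 1791 (.cons 199 (.leaf 175 1404 (.leaf 224 1599 .nil)) .nil)) .nil))))
noncomputable def t101 : T := .cons 320 (.leaf 223 1791 (.cons 225 (.leaf 249 1797 (.cons 319 (.leaf 343 1982 (.cons 344 (.leaf 271 1983 (.cons 345 (.leaf 321 1988 (.leaf 369 2180 .nil)) .nil)) .nil)) .nil)) .nil)) (.cons 224 (.cons 225 (.leaf 201 1605 (.cons 226 (.leaf 227 1786 (.cons 246 (.leaf 245 1769 (.leaf 249 1777 .nil)) .nil)) .nil)) (.cons 199 (.leaf 223 1599 (.cons 200 (.leaf 175 1407 (.cons 176 (.leaf 271 1406 (.cons 177 (.leaf 201 1413 (.leaf 153 1221 .nil)) .nil)) .nil)) .nil)) (.cons 199 (.leaf 223 1599 (.cons 200 (.leaf 175 1407 (.cons 271 (.leaf 295 1598 (.leaf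 176 1406 .nil)) .nil)) .nil)) .nil))) (.cons 320 (.cons 225 (.leaf 249 1797 (.cons 319 (.leaf 343 1982 (.cons 344 (.leaf 271 1983 (.cons 345 (.leaf 321 1988 (.leaf 369 2180 .nil)) .nil)) .nil)) .nil)) (.cons 319 (.leaf 343 1982 (.cons 224 (.leaf 295 1790 (.cons 225 (.leaf 201 1605 (.leaf 249 1797 .nil)) .nil)) .nil)) (.cons 344 (.leaf 271 1983 (.cons 343 (.leaf 319 1982 (.leaf 367 2174 .nil)) .nil)) (.cons 344 (.leaf 271 1983 (.cons 249 (.leaf 225 1797 (.leaf 273 1989 .nil)) .nil)) .nil)))) (.cons 320 (.leaf 223 1791 (.cons 319 (.leaf 343 1982 (.cons 224 (.leaf 295 1790 (.cons 225 (.leaf 201 1605 (.leaf 249 1797 .nil)) .nil)) .nil)) .nil)) (.cons 320 (.leaf 223 1791 (.cons 344 (.leaf 271 1983 (.cons 343 (.leaf 319 1982 (.leaf 367 2174 .nil)) .nil)) .nil)) .nil))))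
noncomputable def t102 : T := .cons 226 (.leaf 202 1620 (.cons 323 (.leaf 251 1815 (.leaf 347 2007 .nil)) .nil)) (.cons 226 (.leaf 202 1620 (.cons 225 (.cons 298 (.leaf 201 1615 (.cons 227 (.leaf 224 1786 (.leaf 203 1621 .nil)) .nil)) (.cons 298 (.leaf 201 1615 (.cons 227 (.leaf 203 1621 (.cons 251 (.leaf 322 1813 (.cons 228 (.leaf 204 1629 (.cons 253 (.leaf 252 1800 (.cons 229 (.leaf 230 1810 (.leaf 254 1808 .nil)) .nil)) .nil)) .nil)) .nil)) .nil)) (.cons 201 (.leaf 298 1615 (.cons 177 (.leaf 153 1228 (.cons 224 (.leaf 200 1413 (.leaf 296 1605 .nil)) .nil)) .nil)) (.cons 224 (.leaf 227 1786 (.cons 223 (.leaf 246 1778 (.leaf 251 1784 .nil)) .nil)) .nil)))) .nil)) (.cons 323 (.leaf 347 2007 (.cons 251 (.cons 322 (.leaf 346 2006 (.cons 227 (.leaf 298 1813 (.cons 324 (.leaf 300 1820 (.leaf 348 2012 .nil)) .nil)) .nil)) (.cons 228 (.leaf 252 1821 (.cons 227 (.leaf 204 1629 (.cons 203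 (.leaf 298 1622 (.leaf 179 1430 .nil)) .nil)) .nil)) (.cons 252 (.leaf 228 1821 (.cons 253 (.leaf 254 2002 (.cons 229 (.leaf 230 1809 (.cons 277 (.leaf 278 2000 (.cons 324 (.leaf 348 2012 (.cons 301 (.leaf 300 1830 (.cons 302 (.leaf 326 1836 (.cons 322 (.leaf 346 2006 (.leaf 325 2385 .nil)) .nil)) .nil)) .nil)) .nil)) .nil)) .nil)) .nil)) .nil))) .nil)) (.cons 226 (.leaf 202 1620 (.cons 323 (.leaf 347 2007 (.leaf 298 1812 .nil)) .nil)) .nil)))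
noncomputable def t103 : T := .cons 274 (.leaf 273 1979 (.cons 250 (.leaf 249 1976 (.cons 299 t102 .nil)) .nil)) (.cons 296 t101 (.cons 249 (.cons 250 (.leaf 274 1976 (.cons 226 (.leaf 227 1785 (.cons 222 (.leaf 223 1779 (.cons 246 (.leaf 221 1771 (.leaf 225 1777 .nil)) .nil)) .nil)) .nil)) (.cons 246 (.cons 225 (.leaf 226 1777 (.cons 201 (.leaf 177 1414 (.cons 296 (.leaf 224 1605 (.leaf 320 1797 .nil)) .nil)) .nil)) (.cons 269 (.leaf 270 1962 (.cons 221 (.leaf 222 1771 (.cons 245 (.leaf 220 1763 (.leaf 268 1954 .nil)) .nil)) .nil)) .nil)) (.cons 250 (.leaf 274 1976 (.cons 271 (.leaf 251 1978 (.leaf 270 1970 .nil)) .nil)) .nil))) (.cons 273 (.leaf 274 1979 (.cons 246 (.leaf 245 1960 (.cons 296 t100 .nil)) .nil)) (.cons 273 (.leaf 274 1979 (.cons 246 (.leaf 245 1960 (.cons 249 (.cons 225 (.leaf 226 1777 (.cons 201 (.leaf 177 1414 (.leaf 296 1606 .nil)) .nil)) (.cons 270 (.leaf 269 1962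 (.cons 271 (.leaf 250 1969 (.cons 222 (.leaf 221 1771 (.cons 198 (.leaf 174 1396 (.leaf 295 1588 .nil)) .nil)) .nil)) .nil)) .nil)) .nil)) .nil)) (.cons 274 (.leaf 273 1979 (.cons 250 (.leaf 249 1976 (.cons 299 t99 .nil)) .nil)) (.cons 274 (.leaf 273 1979 (.cons 250 (.leaf 249 1976 (.cons 299 t98 .nil)) .nil)) (.cons 274 (.leaf 273 1979 (.cons 249 (.leaf 250 1976 (.cons 246 t97 .nil)) .nil)) .nil)))))))
noncomputable def t104 : T := .cons 223 (.leaf 199 1599 (.cons 295 (.leaf 319 1790 (.cons 273 (.leaf 274 2170 (.cons 320 (.leaf 247 1791 (.cons 200 (.leaf 271 1598 (.leaf 297 1604 .nil)) .nil)) .nil)) .nil)) .nil)) (.cons 223 (.leaf 199 1599 (.cons 247 (.leaf 320 1791 (.cons 273 (.leaf 274 1979 (.cons 200 (.leaf 297 1604 (.cons 176 (.leaf 271 1406 (.leaf 249 1412 .nil)) .nil)) .nil)) .nil)) .nil)) (.cons 295 (.leaf 319 1790 (.cons 200 (.leaf 271 1598 (.cons 273 (.leaf 274 2170 (.leaf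 297 1604 .nil)) .nil)) .nil)) (.cons 223 (.leaf 199 1599 (.cons 295 (.leaf 319 1790 (.cons 273 (.leaf 274 2170 (.cons 320 (.leaf 247 1791 (.cons 344 (.leaf 249 1989 (.cons 368 (.leaf 271 2175 (.leaf 297 2181 .nil)) .nil)) .nil)) .nil)) .nil)) .nil)) (.cons 223 (.leaf 199 1599 (.cons 247 (.leaf 320 1791 (.cons 295 (.leaf 319 1790 (.cons 271 (.leaf 200 1597 (.cons 222 (.leaf 198 1591 (.cons 221 (.leaf 220 1760 (.leaf 249 1768 .nil)) .nil)) .nil)) .nil)) .nil)) .nil)) (.cons 223 (.leaf 199 1599 (.cons 247 (.leaf 320 1791 (.cons 273 (.leaf 274 1979 (.cons 200 (.leaf 297 1604 (.cons 176 (.leaf 249 1412 (.leaf 152 1214 .nil)) .nil)) .nil)) .nil)) .nil)) .nil)))))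
noncomputable def t105 : T := .cons 343 (.leaf 319 1982 (.cons 344 (.leaf 367 2174 (.cons 345 (.leaf 321 1988 (.leaf 369 2180 .nil)) .nil)) .nil)) (.cons 247 (.leaf 223 1791 (.cons 271 (.leaf 344 1983 (.cons 273 (.leaf 274 1979 (.cons 246 (.leaf 245 1960 (.cons 319 (.leaf 343 1982 (.cons 222 (.leaf 295 1783 (.cons 174 (.leaf 198 1396 (.cons 249 (.leaf 221 1771 (.cons 270 (.leaf 269 1961 (.leaf 250 1969 .nil)) .nil)) .nil)) .nil)) .nil)) .nil)) .nil)) .nil)) .nil)) (.cons 247 (.leaf 223 1791 (.cons 273 (.leaf 274 1979 (.cons 245 (.leaf 246 1960 (.cons 321 (.leaf 345 1988 (.cons 344 (.leaf 271 1983 (.leaf 249 1989 .nil)) .nil)) .nil)) .nil)) .nil)) (.cons 247 (.leaf 223 1791 (.cons 274 (.leaf 273 1979 (.cons 319 (.leaf 343 1982 (.cons 321 (.leaf 345 1988 (.cons 250 (.leaf 249 1976 (.cons 322 (.cons 298 (.leaf 299 2361 (.cons 297 (.leaf 295 2169 (.leaf 318 2353 .nil)) .nil)) (.cons 323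 (.leaf 295 2363 (.cons 347 (.leaf 299 2007 (.leaf 346 2552 .nil)) .nil)) (.cons 323 (.leaf 295 2363 (.cons 347 (.leaf 346 2552 (.leaf 348 2560 .nil)) .nil)) (.cons 298 (.leaf 299 2361 (.cons 297 (.leaf 318 2353 (.leaf 226 1806 .nil)) .nil)) .nil)))) .nil)) .nil)) .nil)) .nil)) .nil)) .nil)))
noncomputable def t106 : T := .cons 224 (.cons 199 (.leaf 223 1599 (.cons 295 (.leaf 319 1790 (.cons 274 (.leaf 273 2170 (.cons 297 (.leaf 298 2169 (.leaf 321 1796 .nil)) .nil)) .nil)) .nil)) (.cons 297 (.leaf 321 1796 (.cons 200 (.leaf 273 1604 (.cons 175 (.leaf 199 1407 (.cons 176 (.leaf 151 1215 (.cons 177 (.leaf 201 1413 (.leaf 153 1221 .nil)) .nil)) .nil)) .nil)) .nil)) (.cons 295 (.leaf 319 1790 (.cons 200 (.leaf 271 1598 (.cons 175 (.leaf 199 1407 (.cons 176 (.leaf 151 1215 (.cons 177 (.leaf 201 1413 (.leaf 153 1221 .nil)) .nil)) .nil)) .nil)) .nil)) (.cons 295 (.leaf 319 1790 (.cons 273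 (.leaf 274 2170 (.cons 297 (.leaf 200 1604 (.leaf 321 1796 .nil)) .nil)) .nil)) .nil)))) (.cons 320 t105 (.cons 320 (.cons 319 (.leaf 343 1982 (.cons 224 (.leaf 295 1790 (.cons 321 (.leaf 297 1796 (.leaf 345 1988 .nil)) .nil)) .nil)) (.cons 247 (.leaf 223 1791 (.cons 271 (.leaf 344 1983 (.cons 321 (.leaf 345 1988 (.cons 224 (.leaf 297 1796 (.cons 200 (.leaf 295 1598 (.leaf 176 1406 .nil)) .nil)) .nil)) .nil)) .nil)) (.cons 223 (.leaf 247 1791 (.cons 224 (.leaf 199 1599 (.cons 319 (.leaf 295 1790 (.leaf 343 1982 .nil)) .nil)) .nil)) (.cons 223 (.leaf 247 1791 (.cons 343 (.leaf 319 1982 (.cons 344 (.leaf 367 2174 (.cons 345 (.leaf 321 1988 (.leaf 369 2180 .nil)) .nil)) .nil)) .nil)) .nil)))) (.cons 320 (.cons 223 (.leaf 247 1791 (.cons 224 (.leaf 199 1599 (.cons 297 (.leaf 321 1796 (.cons 273 (.leaf 200 1604 (.cons 319 (.leaf 343 1982 (.cons 299 (.leaf 298 2362 (.cons 274 (.leaf 300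 2176 (.cons 251 (.leaf 252 1985 (.cons 250 (.leaf 271 1977 (.leaf 249 1787 .nil)) .nil)) .nil)) .nil)) .nil)) .nil)) .nil)) .nil)) .nil)) (.cons 321 (.leaf 345 1988 (.cons 297 (.leaf 224 1796 (.cons 319 (.leaf 343 1982 (.cons 298 (.leaf 299 2362 (.leaf 318 2353 .nil)) .nil)) .nil)) .nil)) (.cons 247 (.leaf 223 1791 (.cons 273 (.leaf 274 1979 (.cons 344 (.leaf 271 1983 (.leaf 249 1989 .nil)) .nil)) .nil)) .nil))) (.cons 320 (.cons 247 (.leaf 223 1791 (.cons 273 (.leaf 274 1979 (.cons 344 (.leaf 271 1983 (.leaf 249 1989 .nil)) .nil)) .nil)) (.cons 319 (.leaf 343 1982 (.cons 295 (.leaf 224 1790 (.cons 273 (.leaf 274 2170 (.cons 321 (.leaf 345 1988 (.cons 322 (.leaf 323 2363 (.cons 298 (.leaf 299 2361 (.cons 344 (.leaf 249 1989 (.cons 368 (.leaf 271 2175 (.leaf 392 2367 .nil)) .nil)) .nil)) .nil)) .nil)) .nil)) .nil)) .nil)) (.cons 223 (.leaf 247 1791 (.cons 224 (.leaf 199 1599 (.cons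 319 (.leaf 295 1790 (.leaf 343 1982 .nil)) .nil)) .nil)) .nil))) (.cons 224 (.cons 223 (.leaf 199 1599 (.cons 320 (.leaf 247 1791 (.cons 321 (.leaf 297 1796 (.leaf 345 1988 .nil)) .nil)) .nil)) (.cons 297 (.leaf 321 1796 (.cons 200 (.leaf 273 1604 (.cons 271 (.leaf 295 1598 (.cons 176 (.leaf 247 1406 (.cons 177 (.leaf 201 1413 (.leaf 153 1221 .nil)) .nil)) .nil)) .nil)) .nil)) (.cons 199 (.leaf 223 1599 (.cons 200 (.leaf 175 1407 (.cons 177 (.leaf 201 1413 (.cons 176 (.leaf 153 1221 (.cons 178 (.leaf 179 1402 (.cons 197 (.leaf 198 1385 (.cons 273 (.leaf 249 1412 (.cons 295 (.leaf 274 2170 (.leaf 271 1598 .nil)) .nil)) .nil)) .nil)) .nil)) .nil)) .nil)) .nil)) .nil))) (.cons 224 t104 (.cons 320 (.cons 223 (.leaf 247 1791 (.cons 319 (.leaf 343 1982 (.cons 224 (.leaf 199 1599 (.leaf 295 1790 .nil)) .nil)) .nil)) (.cons 223 (.leaf 247 1791 (.cons 224 (.leaf 199 1599 (.cons 321 (.leaf 297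 1796 (.leaf 345 1988 .nil)) .nil)) .nil)) (.cons 319 (.leaf 343 1982 (.cons 224 (.leaf 295 1790 (.cons 321 (.leaf 297 1796 (.leaf 345 1988 .nil)) .nil)) .nil)) (.cons 223 (.leaf 247 1791 (.cons 319 (.leaf 343 1982 (.cons 345 (.leaf 321 1988 (.cons 344 (.leaf 369 2180 (.cons 273 (.leaf 249 1989 (.cons 368 (.leaf 297 2181 (.cons 295 (.leaf 274 2170 (.leaf 392 2367 .nil)) .nil)) .nil)) .nil)) .nil)) .nil)) .nil)) .nil)))) (.cons 320 (.cons 345 (.leaf 321 1988 (.cons 344 (.leaf 369 2180 (.cons 343 (.leaf 319 1982 (.leaf 367 2174 .nil)) .nil)) .nil)) (.cons 345 (.leaf 321 1988 (.cons 344 (.leaf 369 2180 (.cons 273 (.leaf 249 1989 (.cons 367 (.leaf 343 2174 (.cons 368 (.leaf 297 2181 (.leaf 391 2366 .nil)) .nil)) .nil)) .nil)) .nil)) (.cons 319 (.leaf 343 1982 (.cons 295 (.leaf 224 1790 (.cons 273 (.leaf 274 2170 (.cons 344 (.leaf 249 1989 (.cons 271 (.leaf 247 1980 (.leaf 368 2175 .nil))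 .nil)) .nil)) .nil)) .nil)) (.cons 321 (.leaf 345 1988 (.cons 224 (.leaf 297 1796 (.cons 295 (.leaf 319 1790 (.cons 200 (.leaf 271 1598 (.cons 175 (.leaf 199 1407 (.cons 176 (.leaf 151 1215 (.cons 177 (.leaf 201 1413 (.leaf 153 1221 .nil)) .nil)) .nil)) .nil)) .nil)) .nil)) .nil)) .nil)))) .nil))))))))
noncomputable def t107 : T := .cons 226 (.leaf 202 1620 (.cons 323 (.leaf 251 1815 (.leaf 347 2007 .nil)) .nil)) (.cons 323 (.leaf 347 2007 (.cons 251 (.cons 322 (.leaf 346 2006 (.cons 227 (.leaf 298 1813 (.cons 324 (.leaf 300 1820 (.leaf 348 2012 .nil)) .nil)) .nil)) (.cons 228 (.leaf 252 1821 (.cons 227 (.leaf 204 1629 (.cons 203 (.leaf 298 1622 (.leaf 179 1430 .nil)) .nil)) .nil)) (.cons 252 (.leaf 228 1821 (.cons 253 (.leaf 254 2002 (.cons 229 (.leaf 230 1809 (.cons 277 (.leaf 278 2000 (.cons 324 (.leaf 348 2012 (.cons 301 (.leaf 300 1830 (.cons 302 (.leaf 326 1836 (.cons 322 (.leaf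 346 2006 (.leaf 325 2385 .nil)) .nil)) .nil)) .nil)) .nil)) .nil)) .nil)) .nil)) .nil))) .nil)) (.cons 226 (.leaf 202 1620 (.cons 225 (.cons 201 (.leaf 298 1615 (.cons 177 (.leaf 153 1228 (.cons 224 (.leaf 200 1413 (.leaf 227 1786 .nil)) .nil)) .nil)) (.cons 298 (.leaf 201 1615 (.cons 227 (.leaf 203 1621 (.cons 251 (.leaf 322 1813 (.cons 228 (.leaf 204 1629 (.cons 253 (.leaf 252 1800 (.cons 229 (.leaf 230 1810 (.leaf 254 1808 .nil)) .nil)) .nil)) .nil)) .nil)) .nil)) (.cons 298 (.leaf 201 1615 (.cons 321 (.leaf 297 1806 (.cons 322 (.leaf 345 1998 (.cons 346 (.leaf 251 2005 (.leaf 370 2197 .nil)) .nil)) .nil)) .nil)) (.cons 224 (.leaf 227 1786 (.cons 223 (.leaf 246 1778 (.leaf 251 1784 .nil)) .nil)) .nil)))) .nil)) (.cons 226 (.leaf 202 1620 (.cons 323 (.leaf 347 2007 (.leaf 298 1812 .nil)) .nil)) .nil)))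
noncomputable def t108 : T := .cons 270 (.leaf 269 1962 (.cons 222 (.leaf 221 1771 (.cons 198 (.cons 173 (.leaf 197 1391 (.cons 174 (.leaf 271 1396 (.leaf 149 1199 .nil)) .nil)) (.cons 173 (.leaf 197 1391 (.cons 174 (.leaf 149 1199 (.cons 175 (.leaf 151 1205 (.leaf 199 1397 .nil)) .nil)) .nil)) (.cons 173 (.leaf 197 1391 (.cons 199 (.leaf 175 1397 (.cons 271 (.leaf 250 1969 (.leaf 295 1588 .nil)) .nil)) .nil)) (.cons 271 (.leaf 250 1969 (.leaf 174 1396 .nil)) .nil)))) .nil)) .nil)) (.cons 222 (.leaf 221 1771 (.cons 223 (.leaf 250 1779 (.cons 199 (.leaf 175 1404 (.cons 224 (.leaf 296 1599 (.cons 200 (.leaf 297 1604 (.leaf 176 1412 .nil)) .nil)) .nil)) .nil)) .nil)) (.cons 270 (.leaf 269 1962 (.cons 222 (.leaf 221 1771 (.cons 198 (.cons 173 (.leaf 197 1391 (.cons 174 (.leaf 271 1396 (.leaf 149 1199 .nil)) .nil)) (.cons 173 (.leaf 197 1391 (.cons 174 (.leaf 149 1199 (.cons 175 (.leaf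 151 1205 (.leaf 199 1397 .nil)) .nil)) .nil)) (.cons 173 (.leaf 197 1391 (.cons 199 (.leaf 175 1397 (.cons 271 (.leaf 295 1588 (.cons 223 (.leaf 296 1596 (.cons 200 (.leaf 176 1405 (.cons 297 (.leaf 224 1604 (.leaf 298 2160 .nil)) .nil)) .nil)) .nil)) .nil)) .nil)) (.cons 271 (.leaf 174 1396 (.leaf 295 1588 .nil)) .nil)))) .nil)) .nil)) (.cons 270 (.leaf 269 1962 (.cons 250 (.leaf 271 1969 (.cons 251 (.leaf 252 1986 (.cons 224 (.leaf 223 1787 (.cons 200 (.leaf 297 1604 (.leaf 176 1412 .nil)) .nil)) .nil)) .nil)) .nil)) .nil)))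
noncomputable def t109 : T := .cons 226 (.leaf 202 1620 (.cons 323 (.leaf 251 1815 (.leaf 347 2007 .nil)) .nil)) (.cons 323 (.leaf 347 2007 (.cons 251 (.cons 322 (.leaf 346 2006 (.cons 227 (.leaf 298 1813 (.cons 324 (.leaf 300 1820 (.leaf 348 2012 .nil)) .nil)) .nil)) (.cons 228 (.leaf 252 1821 (.cons 227 (.leaf 204 1629 (.cons 203 (.leaf 298 1622 (.leaf 179 1430 .nil)) .nil)) .nil)) (.cons 252 (.leaf 228 1821 (.cons 253 (.leaf 254 2002 (.cons 229 (.leaf 230 1809 (.cons 277 (.leaf 278 2000 (.cons 324 (.leaf 348 2012 (.cons 301 (.leaf 300 1830 (.cons 302 (.leaf 326 1836 (.cons 322 (.leaf 346 2006 (.leaf 325 2385 .nil)) .nil)) .nil)) .nil)) .nil)) .nil)) .nil)) .nil)) .nil))) .nil)) (.cons 226 (.leaf 202 1620 (.cons 225 (.cons 224 (.leaf 227 1786 (.cons 201 (.leaf 296 1605 (.leaf 298 1615 .nil)) .nil)) (.cons 298 (.leaf 201 1615 (.cons 227 (.leaf 203 1621 (.cons 251 (.leaf 322 1813 (.cons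 228 (.leaf 204 1629 (.cons 253 (.leaf 252 1800 (.cons 229 (.leaf 230 1810 (.leaf 254 1808 .nil)) .nil)) .nil)) .nil)) .nil)) .nil)) (.cons 201 (.leaf 298 1615 (.cons 177 (.leaf 153 1228 (.cons 224 (.leaf 200 1413 (.leaf 296 1605 .nil)) .nil)) .nil)) (.cons 224 (.leaf 227 1786 (.cons 201 (.leaf 296 1605 (.cons 177 (.leaf 200 1413 (.leaf 153 1228 .nil)) .nil)) .nil)) (.cons 224 (.leaf 227 1786 (.cons 223 (.leaf 246 1778 (.leaf 251 1784 .nil)) .nil)) .nil))))) .nil)) (.cons 226 (.leaf 202 1620 (.cons 323 (.leaf 347 2007 (.leaf 298 1812 .nil)) .nil)) .nil)))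
noncomputable def t110 : T := .cons 323 (.leaf 347 2007 (.cons 251 (.leaf 226 1815 (.cons 322 (.leaf 346 2006 (.cons 227 (.leaf 298 1813 (.cons 324 (.leaf 300 1820 (.leaf 348 2012 .nil)) .nil)) .nil)) .nil)) .nil)) (.cons 323 (.leaf 347 2007 (.cons 251 (.cons 322 (.leaf 346 2006 (.cons 227 (.leaf 298 1813 (.cons 324 (.leaf 300 1820 (.leaf 348 2012 .nil)) .nil)) .nil)) (.cons 228 (.leaf 252 1821 (.cons 227 (.leaf 204 1629 (.cons 203 (.leaf 298 1622 (.leaf 179 1430 .nil)) .nil)) .nil)) (.cons 252 (.leaf 228 1821 (.cons 253 (.leaf 254 2002 (.cons 229 (.leaf 230 1809 (.cons 277 (.leaf 278 2000 (.cons 324 (.leaf 348 2012 (.cons 301 (.leaf 300 1830 (.cons 302 (.leaf 326 1836 (.cons 322 (.leaf 346 2006 (.leaf 325 2385 .nil)) .nil)) .nil)) .nil)) .nil)) .nil)) .nil)) .nil)) .nil))) .nil)) (.cons 226 (.leaf 202 1620 (.cons 225 (.cons 224 (.leaf 227 1786 (.cons 201 (.leaf 296 1605 (.leaf 298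 1615 .nil)) .nil)) (.cons 298 (.leaf 201 1615 (.cons 227 (.leaf 203 1621 (.cons 251 (.leaf 322 1813 (.cons 204 (.leaf 228 1629 (.cons 252 (.leaf 253 1803 (.cons 297 (.leaf 321 1806 (.cons 296 (.leaf 295 2169 (.leaf 271 2171 .nil)) .nil)) .nil)) .nil)) .nil)) .nil)) .nil)) (.cons 201 (.leaf 298 1615 (.cons 177 (.leaf 153 1228 (.cons 224 (.leaf 200 1413 (.leaf 296 1605 .nil)) .nil)) .nil)) (.cons 224 (.leaf 227 1786 (.cons 201 (.leaf 296 1605 (.cons 177 (.leaf 200 1413 (.leaf 153 1228 .nil)) .nil)) .nil)) (.cons 227 (.leaf 224 1786 (.cons 203 (.leaf 298 1621 (.cons 179 (.leaf 251 1430 (.leaf 155 1238 .nil)) .nil)) .nil)) .nil))))) .nil)) (.cons 323 (.leaf 347 2007 (.cons 226 (.leaf 202 1620 (.leaf 251 1815 .nil)) .nil)) (.cons 226 (.leaf 202 1620 (.cons 323 (.leaf 347 2007 (.leaf 298 1812 .nil)) .nil)) .nil))))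
noncomputable def t111 : T := .cons 199 (.leaf 175 1404 (.cons 224 (.leaf 296 1599 (.cons 200 (.leaf 297 1604 (.cons 152 (.leaf 176 1214 (.cons 271 (.leaf 295 1597 (.cons 198 (.leaf 174 1399 (.cons 225 (.leaf 226 1778 (.leaf 197 1576 .nil)) .nil)) .nil)) .nil)) .nil)) .nil)) .nil)) (.cons 224 (.cons 200 (.leaf 297 1604 (.cons 152 (.leaf 176 1214 (.cons 295 (.leaf 271 1597 (.cons 201 (.leaf 177 1413 (.cons 225 (.leaf 296 1605 (.leaf 226 1778 .nil)) .nil)) .nil)) .nil)) .nil)) (.cons 225 (.leaf 226 1778 (.cons 201 (.leaf 296 1605 (.cons 153 (.leaf 177 1222 (.cons 222 (.leaf 202 1585 (.cons 197 (.leaf 198 1579 (.cons 221 (.leaf 220 1760 (.leaf 196 1571 .nil)) .nil)) .nil)) .nil)) .nil)) .nil)) (.cons 200 (.leaf 297 1604 (.cons 176 (.leaf 271 1406 (.leaf 152 1214 .nil)) .nil)) .nil))) (.cons 199 (.leaf 175 1404 (.cons 271 (.leaf 296 1596 (.cons 200 (.leaf 176 1405 (.cons 198 (.leaf 174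 1399 (.cons 222 (.leaf 295 1591 (.cons 221 (.leaf 220 1760 (.leaf 201 1578 .nil)) .nil)) .nil)) .nil)) .nil)) .nil)) (.cons 199 (.leaf 175 1404 (.cons 224 (.leaf 296 1599 (.cons 200 (.leaf 297 1604 (.cons 152 (.leaf 176 1214 (.cons 225 (.leaf 226 1778 (.cons 197 (.leaf 198 1576 (.cons 201 (.leaf 177 1413 (.cons 222 (.leaf 202 1585 (.leaf 221 1577 .nil)) .nil)) .nil)) .nil)) .nil)) .nil)) .nil)) .nil)) (.cons 199 (.leaf 175 1404 (.cons 296 (.leaf 224 1599 (.leaf 271 1596 .nil)) .nil)) (.cons 199 (.leaf 175 1404 (.cons 200 (.cons 224 (.leaf 297 1604 (.cons 152 (.leaf 176 1214 (.cons 271 (.leaf 295 1597 (.cons 198 (.leaf 174 1399 (.cons 225 (.leaf 226 1778 (.leaf 197 1576 .nil)) .nil)) .nil)) .nil)) .nil)) (.cons 271 (.leaf 176 1405 (.cons 198 (.leaf 174 1399 (.cons 222 (.leaf 295 1591 (.cons 221 (.leaf 220 1760 (.leaf 201 1578 .nil)) .nil)) .nil)) .nil)) (.cons 224 (.leaf 297 1604 (.cons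 152 (.leaf 176 1214 (.cons 225 (.leaf 226 1778 (.cons 197 (.leaf 198 1576 (.cons 201 (.leaf 177 1413 (.cons 222 (.leaf 202 1585 (.leaf 221 1577 .nil)) .nil)) .nil)) .nil)) .nil)) .nil)) (.cons 224 (.leaf 297 1604 (.cons 271 (.leaf 295 1597 (.cons 201 (.leaf 177 1413 (.cons 202 (.leaf 222 1586 (.leaf 203 1594 .nil)) .nil)) .nil)) .nil)) .nil)))) .nil)) .nil)))))
noncomputable def t112 : T := .cons 245 (.leaf 273 1960 (.cons 220 (.leaf 221 1763 (.cons 244 (.leaf 271 1952 (.leaf 219 1755 .nil)) .nil)) .nil)) (.cons 249 (.cons 225 (.leaf 226 1777 (.cons 201 (.leaf 177 1414 (.cons 296 (.leaf 224 1605 (.leaf 273 1606 .nil)) .nil)) .nil)) (.cons 222 (.leaf 221 1771 (.cons 223 (.leaf 250 1779 (.cons 199 (.leaf 175 1404 (.cons 296 (.leaf 224 1599 (.leaf 271 1596 .nil)) .nil)) .nil)) .nil)) (.cons 221 (.leaf 222 1771 (.cons 226 (.leaf 225 1777 (.cons 250 (.leaf 227 1785 (.cons 271 (.leaf 251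 1978 (.leaf 270 1970 .nil)) .nil)) .nil)) .nil)) .nil))) (.cons 245 (.cons 220 (.leaf 221 1763 (.cons 244 (.leaf 271 1952 (.leaf 219 1755 .nil)) .nil)) (.cons 220 (.leaf 221 1763 (.cons 225 (.leaf 224 1769 (.cons 249 (.leaf 226 1777 (.cons 269 (.leaf 268 1954 (.leaf 270 1962 .nil)) .nil)) .nil)) .nil)) (.cons 224 (.leaf 225 1769 (.cons 223 (.leaf 244 1761 (.cons 175 (.leaf 199 1404 (.cons 269 (.leaf 268 1954 (.cons 249 (.leaf 270 1962 (.cons 250 (.leaf 222 1779 (.leaf 251 1787 .nil)) .nil)) .nil)) .nil)) .nil)) .nil)) .nil))) (.cons 245 (.leaf 273 1960 (.cons 220 (.leaf 221 1763 (.cons 224 (.leaf 225 1769 (.cons 244 (.leaf 219 1755 (.leaf 223 1761 .nil)) .nil)) .nil)) .nil)) (.cons 245 (.leaf 273 1960 (.cons 224 (.leaf 225 1769 (.cons 223 (.leaf 244 1761 (.cons 175 (.leaf 199 1404 (.cons 269 (.leaf 268 1954 (.cons 249 (.leaf 270 1962 (.cons 250 (.leaf 222 1779 (.leaf 251 1787 .nil))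 .nil)) .nil)) .nil)) .nil)) .nil)) .nil)) .nil))))
noncomputable def t113 : T := .cons 273 (.leaf 274 1979 (.cons 246 (.leaf 245 1960 (.cons 249 (.cons 270 (.leaf 269 1962 (.cons 222 (.leaf 221 1771 (.cons 198 (.cons 173 (.leaf 197 1391 (.cons 174 (.leaf 271 1396 (.leaf 149 1199 .nil)) .nil)) (.cons 173 (.leaf 197 1391 (.cons 174 (.leaf 149 1199 (.cons 175 (.leaf 151 1205 (.leaf 199 1397 .nil)) .nil)) .nil)) (.cons 173 (.leaf 197 1391 (.cons 199 (.leaf 175 1397 (.cons 271 (.leaf 250 1969 (.leaf 295 1588 .nil)) .nil)) .nil)) (.cons 271 (.leaf 250 1969 (.leaf 174 1396 .nil)) .nil)))) .nil)) .nil)) (.cons 222 (.leaf 221 1771 (.cons 223 (.leaf 250 1779 (.cons 199 (.leaf 175 1404 (.cons 224 (.leaf 296 1599 (.cons 200 (.leaf 297 1604 (.leaf 176 1412 .nil)) .nil)) .nil)) .nil)) .nil)) (.cons 225 (.leaf 226 1777 (.cons 201 (.leaf 177 1414 (.leaf 296 1606 .nil)) .nil)) .nil))) .nil)) .nil))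 (.cons 249 (.cons 250 (.leaf 274 1976 (.cons 271 (.leaf 251 1978 (.leaf 270 1970 .nil)) .nil)) (.cons 246 (.cons 221 (.leaf 222 1771 (.cons 225 (.leaf 226 1777 (.cons 177 (.leaf 201 1414 (.cons 245 (.leaf 220 1763 (.leaf 224 1769 .nil)) .nil)) .nil)) .nil)) (.cons 269 (.leaf 270 1962 (.cons 221 (.leaf 222 1771 (.cons 245 (.leaf 220 1763 (.leaf 268 1954 .nil)) .nil)) .nil)) (.cons 225 (.leaf 226 1777 (.cons 177 (.leaf 201 1414 (.cons 245 (.leaf 224 1769 (.cons 269 (.leaf 268 1954 (.leaf 270 1962 .nil)) .nil)) .nil)) .nil)) (.cons 222 (.leaf 221 1771 (.cons 225 (.leaf 226 1777 (.cons 201 (.leaf 177 1414 (.cons 224 (.leaf 296 1605 (.cons 223 (.leaf 202 1585 (.cons 198 (.leaf 197 1579 (.cons 174 (.leaf 150 1204 (.leaf 271 1396 .nil)) .nil)) .nil)) .nil)) .nil)) .nil)) .nil)) .nil)))) (.cons 250 (.leaf 274 1976 (.cons 222 (.leaf 223 1779 (.cons 226 (.leaf 227 1785 (.cons 246 (.leaf 221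 1771 (.leaf 225 1777 .nil)) .nil)) .nil)) .nil)) .nil))) (.cons 246 t112 (.cons 273 (.leaf 274 1979 (.cons 246 (.leaf 245 1960 (.cons 223 t111 .nil)) .nil)) (.cons 274 (.leaf 273 1979 (.cons 250 (.leaf 249 1976 (.cons 299 t110 .nil)) .nil)) (.cons 273 (.leaf 274 1979 (.cons 246 (.leaf 245 1960 (.cons 249 (.cons 221 (.leaf 222 1771 (.cons 225 (.leaf 226 1777 (.cons 201 (.leaf 177 1414 (.leaf 296 1606 .nil)) .nil)) .nil)) (.cons 270 (.leaf 269 1962 (.cons 271 (.leaf 250 1969 (.cons 222 (.leaf 221 1771 (.cons 198 (.leaf 174 1396 (.leaf 295 1588 .nil)) .nil)) .nil)) .nil)) (.cons 225 (.leaf 226 1777 (.cons 201 (.leaf 177 1414 (.leaf 296 1606 .nil)) .nil)) .nil))) .nil)) .nil)) (.cons 274 (.leaf 273 1979 (.cons 250 (.leaf 249 1976 (.cons 299 t109 .nil)) .nil)) (.cons 273 (.leaf 274 1979 (.cons 246 (.leaf 245 1960 (.cons 249 t108 .nil)) .nil)) (.cons 274 (.leaf 273 1979 (.cons 250 (.leaf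 249 1976 (.cons 299 t107 .nil)) .nil)) .nil))))))))
noncomputable def t114 : T := .cons 323 (.leaf 347 2007 (.cons 251 (.leaf 226 1815 (.cons 322 (.leaf 346 2006 (.cons 227 (.leaf 298 1813 (.cons 324 (.leaf 300 1820 (.leaf 348 2012 .nil)) .nil)) .nil)) .nil)) .nil)) (.cons 226 (.leaf 202 1620 (.cons 298 (.cons 203 (.leaf 227 1621 (.cons 321 (.leaf 297 1806 (.cons 322 (.leaf 345 1998 (.cons 346 (.leaf 251 2005 (.leaf 370 2197 .nil)) .nil)) .nil)) .nil)) (.cons 321 (.leaf 297 1806 (.cons 322 (.leaf 345 1998 (.cons 346 (.leaf 251 2005 (.leaf 370 2197 .nil)) .nil)) .nil)) (.cons 227 (.leaf 203 1621 (.cons 251 (.leaf 322 1813 (.cons 228 (.leaf 204 1629 (.cons 229 (.leaf 230 1810 (.cons 253 (.leaf 254 1808 (.cons 300 (.leaf 324 1820 (.cons 301 (.leaf 302 2195 (.cons 277 (.leaf 278 2193 (.cons 325 (.leaf 326 2384 (.leaf 252 1831 .nil)) .nil)) .nil)) .nil)) .nil)) .nil)) .nil)) .nil)) .nil))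 (.cons 203 (.leaf 227 1621 (.cons 297 (.leaf 321 1806 (.cons 296 (.leaf 295 2169 (.cons 320 (.leaf 223 1791 (.leaf 319 2362 .nil)) .nil)) .nil)) .nil)) .nil)))) .nil)) (.cons 323 (.leaf 347 2007 (.cons 251 (.cons 322 (.leaf 346 2006 (.cons 227 (.leaf 298 1813 (.cons 324 (.leaf 300 1820 (.leaf 348 2012 .nil)) .nil)) .nil)) (.cons 228 (.leaf 252 1821 (.cons 227 (.leaf 204 1629 (.cons 203 (.leaf 298 1622 (.leaf 179 1430 .nil)) .nil)) .nil)) (.cons 252 (.leaf 228 1821 (.cons 253 (.leaf 254 2002 (.cons 229 (.leaf 230 1809 (.cons 277 (.leaf 278 2000 (.cons 324 (.leaf 348 2012 (.cons 301 (.leaf 300 1830 (.cons 302 (.leaf 326 1836 (.cons 322 (.leaf 346 2006 (.leaf 325 2385 .nil)) .nil)) .nil)) .nil)) .nil)) .nil)) .nil)) .nil)) .nil))) .nil)) (.cons 226 (.leaf 202 1620 (.cons 323 (.leaf 347 2007 (.leaf 298 1812 .nil)) .nil)) (.cons 323 (.leaf 347 2007 (.cons 226 (.leaf 202 1620 (.leaf 251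 1815 .nil)) .nil)) .nil))))
noncomputable def t115 : T := .cons 296 (.cons 201 (.leaf 225 1605 (.cons 319 (.leaf 295 1790 (.cons 320 (.leaf 223 1791 (.leaf 343 1982 .nil)) .nil)) .nil)) (.cons 201 (.leaf 225 1605 (.cons 319 (.leaf 295 1790 (.cons 320 (.leaf 343 1982 (.cons 321 (.leaf 297 1796 (.leaf 345 1988 .nil)) .nil)) .nil)) .nil)) (.cons 297 (.leaf 200 1604 (.leaf 321 1796 .nil)) .nil))) (.cons 296 (.cons 201 (.leaf 225 1605 (.cons 319 (.leaf 295 1790 (.cons 320 (.leaf 223 1791 (.leaf 343 1982 .nil)) .nil)) .nil)) (.cons 201 (.leaf 225 1605 (.cons 319 (.leaf 295 1790 (.cons 320 (.leaf 343 1982 (.cons 321 (.leaf 297 1796 (.leaf 345 1988 .nil)) .nil)) .nil)) .nil)) (.cons 223 (.leaf 199 1599 (.cons 225 (.leaf 201 1605 (.leaf 226 1778 .nil)) .nil)) (.cons 223 (.leaf 199 1599 (.leaf 320 1791 .nil)) .nil)))) (.cons 225 (.cons 226 (.leaf 227 1786 (.leaf 223 1778 .nil)) (.cons 201 (.leaf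 296 1605 (.cons 177 (.leaf 200 1413 (.leaf 153 1222 .nil)) .nil)) .nil)) (.cons 200 (.leaf 297 1604 (.cons 175 (.leaf 199 1407 (.cons 176 (.leaf 151 1215 (.cons 177 (.leaf 201 1413 (.leaf 153 1221 .nil)) .nil)) .nil)) .nil)) (.cons 297 (.leaf 200 1604 (.cons 321 (.leaf 296 1796 (.leaf 345 1991 .nil)) .nil)) .nil))))
noncomputable def t116 : T := .cons 224 (.cons 295 (.leaf 319 1790 (.cons 297 (.leaf 321 1796 (.cons 200 (.leaf 273 1604 (.cons 175 (.leaf 199 1407 (.cons 176 (.leaf 151 1215 (.cons 177 (.leaf 201 1413 (.leaf 153 1221 .nil)) .nil)) .nil)) .nil)) .nil)) .nil)) (.cons 297 (.leaf 321 1796 (.cons 273 (.leaf 200 1604 (.cons 245 (.leaf 246 1960 (.cons 319 (.leaf 295 1790 (.cons 320 (.leaf 223 1791 (.leaf 343 1982 .nil)) .nil)) .nil)) .nil)) .nil)) (.cons 223 (.leaf 199 1599 (.leaf 320 1791 .nil)) .nil))) (.cons 224 (.cons 199 (.leaf 223 1599 (.cons 225 (.leaf 201 1605 (.cons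 226 (.leaf 227 1786 (.cons 246 (.leaf 245 1769 (.leaf 249 1777 .nil)) .nil)) .nil)) .nil)) (.cons 199 (.leaf 223 1599 (.cons 200 (.leaf 175 1407 (.cons 297 (.leaf 273 1604 (.leaf 321 1796 .nil)) .nil)) .nil)) (.cons 201 (.leaf 225 1605 (.cons 200 (.leaf 177 1413 (.cons 297 (.leaf 273 1604 (.leaf 321 1796 .nil)) .nil)) .nil)) .nil))) (.cons 224 (.cons 225 (.leaf 201 1605 (.cons 226 (.leaf 227 1786 (.cons 246 (.leaf 245 1769 (.leaf 249 1777 .nil)) .nil)) .nil)) (.cons 295 (.leaf 319 1790 (.cons 297 (.leaf 321 1796 (.cons 200 (.leaf 273 1604 (.cons 175 (.leaf 199 1407 (.cons 176 (.leaf 151 1215 (.cons 177 (.leaf 201 1413 (.leaf 153 1221 .nil)) .nil)) .nil)) .nil)) .nil)) .nil)) (.cons 297 (.leaf 321 1796 (.cons 273 (.leaf 200 1604 (.cons 245 (.leaf 246 1960 (.cons 319 (.leaf 295 1790 (.cons 320 (.leaf 343 1982 (.cons 249 (.leaf 225 1797 (.leaf 344 1989 .nil)) .nil)) .nil)) .nil)) .nil))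 .nil)) .nil))) (.cons 320 (.leaf 223 1791 (.cons 225 (.leaf 249 1797 (.cons 343 (.leaf 319 1982 (.cons 344 (.leaf 367 2174 (.cons 345 (.leaf 321 1988 (.leaf 369 2180 .nil)) .nil)) .nil)) .nil)) .nil)) (.cons 320 (.leaf 223 1791 (.cons 225 (.leaf 249 1797 (.cons 224 (.leaf 201 1605 (.cons 319 (.leaf 295 1790 (.leaf 343 1982 .nil)) .nil)) .nil)) .nil)) .nil))))
noncomputable def t117 : T := .cons 250 (.leaf 274 1976 (.cons 223 (.leaf 222 1779 (.cons 224 (.leaf 251 1787 (.cons 226 (.leaf 227 1785 (.cons 225 (.leaf 246 1777 (.cons 296 (.leaf 199 1599 (.leaf 201 1605 .nil)) .nil)) .nil)) .nil)) .nil)) .nil)) (.cons 225 (.cons 226 (.leaf 246 1777 (.cons 227 (.leaf 224 1786 (.leaf 228 1794 .nil)) .nil)) (.cons 201 (.leaf 177 1414 (.cons 296 (.leaf 224 1605 (.leaf 320 1797 .nil)) .nil)) (.cons 177 (.leaf 201 1414 (.cons 246 (.leaf 226 1777 (.cons 296 (.leaf 320 1797 (.cons 221 (.leaf 222 1771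 (.cons 245 (.leaf 220 1763 (.cons 269 (.leaf 268 1954 (.leaf 270 1962 .nil)) .nil)) .nil)) .nil)) .nil)) .nil)) .nil))) (.cons 250 (.leaf 274 1976 (.cons 223 (.leaf 222 1779 (.cons 175 (.leaf 199 1404 (.cons 227 (.leaf 226 1785 (.cons 251 (.leaf 224 1787 (.leaf 228 1793 .nil)) .nil)) .nil)) .nil)) .nil)) (.cons 250 (.leaf 274 1976 (.cons 223 (.leaf 222 1779 (.cons 175 (.leaf 199 1404 (.cons 224 (.leaf 251 1787 (.cons 296 (.leaf 320 1791 (.cons 201 (.leaf 225 1605 (.cons 200 (.leaf 177 1413 (.cons 176 (.leaf 151 1215 (.leaf 152 1214 .nil)) .nil)) .nil)) .nil)) .nil)) .nil)) .nil)) .nil)) (.cons 250 (.leaf 274 1976 (.cons 222 (.leaf 223 1779 (.cons 226 (.leaf 227 1785 (.cons 246 (.leaf 221 1771 (.leaf 225 1777 .nil)) .nil)) .nil)) .nil)) (.cons 250 (.leaf 274 1976 (.cons 226 (.leaf 227 1785 (.cons 225 (.leaf 246 1777 (.cons 201 (.leaf 177 1414 (.cons 296 (.leaf 224 1605 (.leaf 320 1797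 .nil)) .nil)) .nil)) .nil)) .nil)) .nil)))))
noncomputable def t118 : T := .cons 274 (.leaf 273 1979 (.cons 249 (.leaf 250 1976 (.cons 296 (.cons 320 (.leaf 223 1791 (.leaf 225 1797 .nil)) (.cons 224 (.cons 199 (.leaf 223 1599 (.cons 200 (.leaf 175 1407 (.cons 201 (.leaf 177 1413 (.leaf 225 1605 .nil)) .nil)) .nil)) (.cons 295 (.leaf 319 1790 (.cons 297 (.leaf 298 2169 (.leaf 321 1796 .nil)) .nil)) .nil)) (.cons 223 (.leaf 320 1791 (.cons 199 (.leaf 175 1404 (.leaf 224 1599 .nil)) .nil)) (.cons 320 (.leaf 225 1797 (.cons 319 (.leaf 343 1982 (.cons 224 (.leaf 295 1790 (.cons 321 (.leaf 297 1796 (.leaf 345 1988 .nil)) .nil)) .nil)) .nil)) .nil)))) .nil)) .nil)) (.cons 249 t117 (.cons 296 t116 (.cons 273 (.leaf 274 1979 (.cons 246 (.leaf 245 1960 (.cons 224 t115 .nil)) .nil)) (.cons 274 (.leaf 273 1979 (.cons 249 (.leaf 250 1976 (.cons 225 (.cons 296 (.leaf 320 1797 (.cons 201 (.leaf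 177 1414 (.leaf 224 1605 .nil)) .nil)) (.cons 226 (.leaf 246 1777 (.cons 227 (.leaf 224 1786 (.leaf 228 1794 .nil)) .nil)) (.cons 177 (.leaf 201 1414 (.cons 246 (.leaf 226 1777 (.cons 269 (.leaf 270 1962 (.cons 221 (.leaf 222 1771 (.cons 245 (.leaf 220 1763 (.leaf 268 1954 .nil)) .nil)) .nil)) .nil)) .nil)) .nil))) .nil)) .nil)) (.cons 273 (.leaf 274 1979 (.cons 246 (.leaf 245 1960 (.cons 249 (.cons 225 (.leaf 226 1777 (.cons 201 (.leaf 177 1414 (.cons 178 (.leaf 202 1421 (.cons 200 (.leaf 176 1415 (.cons 297 (.leaf 224 1604 (.cons 269 (.leaf 270 1962 (.cons 321 (.leaf 345 1991 (.cons 322 (.leaf 298 1804 (.leaf 346 1996 .nil)) .nil)) .nil)) .nil)) .nil)) .nil)) .nil)) .nil)) (.cons 222 (.leaf 221 1771 (.cons 250 (.leaf 223 1779 (.cons 227 (.leaf 226 1785 (.cons 251 (.leaf 252 1986 (.leaf 228 1793 .nil)) .nil)) .nil)) .nil)) (.cons 222 (.leaf 221 1771 (.cons 223 (.leaf 250 1779 (.cons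 199 (.leaf 175 1404 (.cons 270 (.leaf 269 1962 (.cons 200 (.cons 224 (.leaf 297 1604 (.leaf 176 1412 .nil)) (.cons 201 (.leaf 202 1586 (.cons 225 (.leaf 177 1414 (.leaf 176 1415 .nil)) .nil)) (.cons 201 (.leaf 202 1586 (.cons 177 (.leaf 224 1413 (.leaf 225 1414 .nil)) .nil)) .nil))) .nil)) .nil)) .nil)) .nil)) .nil))) .nil)) .nil)) (.cons 273 (.leaf 274 1979 (.cons 246 (.leaf 245 1960 (.cons 249 (.cons 225 (.leaf 226 1777 (.cons 201 (.leaf 177 1414 (.leaf 296 1606 .nil)) .nil)) (.cons 222 (.leaf 221 1771 (.cons 250 (.leaf 223 1779 (.cons 227 (.leaf 226 1785 (.cons 251 (.leaf 252 1986 (.leaf 228 1793 .nil)) .nil)) .nil)) .nil)) (.cons 222 (.leaf 221 1771 (.cons 223 (.leaf 250 1779 (.cons 296 (.leaf 320 1791 (.cons 270 (.leaf 269 1962 (.cons 201 (.leaf 225 1606 (.cons 198 (.cons 175 (.leaf 199 1404 (.cons 174 (.leaf 150 1204 (.leaf 151 1205 .nil)) .nil)) (.cons 173 (.leaf 197 1391 (.cons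 174 (.leaf 150 1204 (.leaf 149 1199 .nil)) .nil)) (.cons 199 (.leaf 175 1404 (.cons 197 (.leaf 173 1391 (.cons 196 (.leaf 195 1560 (.cons 200 (.leaf 202 1586 (.cons 177 (.leaf 178 1393 (.leaf 176 1385 .nil)) .nil)) .nil)) .nil)) .nil)) .nil))) .nil)) .nil)) .nil)) .nil)) .nil)) .nil))) .nil)) .nil)) (.cons 274 (.leaf 273 1979 (.cons 250 (.leaf 249 1976 (.cons 299 t114 .nil)) .nil)) .nil)))))))
noncomputable def t119 : T := .cons 201 (.leaf 225 1605 (.cons 223 (.leaf 199 1599 (.cons 319 (.leaf 295 1790 (.cons 320 (.leaf 247 1791 (.leaf 343 1982 .nil)) .nil)) .nil)) .nil)) (.cons 223 (.leaf 199 1599 (.cons 201 (.leaf 225 1605 (.cons 177 (.leaf 200 1413 (.cons 320 (.leaf 247 1791 (.cons 343 (.leaf 319 1982 (.cons 344 (.leaf 367 2174 (.cons 345 (.leaf 321 1988 (.leaf 369 2180 .nil)) .nil)) .nil)) .nil)) .nil)) .nil)) .nil)) (.cons 295 (.leaf 319 1790 (.cons 200 (.leaf 271 1598 (.cons 175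 (.leaf 199 1407 (.cons 176 (.leaf 151 1215 (.cons 177 (.leaf 201 1413 (.leaf 153 1221 .nil)) .nil)) .nil)) .nil)) .nil)) (.cons 295 (.leaf 319 1790 (.cons 200 (.leaf 271 1598 (.cons 201 (.leaf 177 1413 (.leaf 225 1605 .nil)) .nil)) .nil)) (.cons 223 (.leaf 199 1599 (.cons 201 (.leaf 225 1605 (.cons 200 (.leaf 177 1413 (.cons 202 (.leaf 203 1594 (.cons 221 (.leaf 222 1577 (.cons 247 (.leaf 320 1791 (.cons 271 (.leaf 295 1597 (.leaf 176 1406 .nil)) .nil)) .nil)) .nil)) .nil)) .nil)) .nil)) (.cons 295 (.leaf 319 1790 (.cons 199 (.leaf 223 1599 (.cons 200 (.leaf 175 1407 (.leaf 271 1598 .nil)) .nil)) .nil)) .nil)))))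
noncomputable def t120 : T := .cons 247 (.leaf 223 1791 (.cons 273 (.leaf 274 1979 (.cons 321 (.leaf 345 1988 (.cons 319 (.leaf 343 1982 (.cons 246 (.leaf 245 1960 (.cons 298 (.cons 297 (.leaf 299 2362 (.leaf 318 2353 .nil)) (.cons 322 (.leaf 299 2361 (.cons 323 (.leaf 295 2363 (.cons 347 (.leaf 346 2552 (.leaf 348 2560 .nil)) .nil)) .nil)) (.cons 297 (.leaf 318 2353 (.cons 271 (.leaf 344 1983 (.leaf 270 2160 .nil)) .nil)) .nil))) .nil)) .nil)) .nil)) .nil)) .nil)) (.cons 343 (.leaf 319 1982 (.cons 344 (.leaf 367 2174 (.cons 345 (.leaf 321 1988 (.leaf 369 2180 .nil)) .nil)) .nil)) (.cons 247 (.leaf 223 1791 (.cons 273 (.leaf 274 1979 (.cons 245 (.leaf 246 1960 (.cons 319 (.leaf 343 1982 (.cons 344 (.leaf 271 1983 (.cons 297 (.leaf 368 2181 (.cons 298 (.leaf 299 2362 (.cons 318 (.leaf 295 2354 (.leaf 317 2345 .nil)) .nil)) .nil)) .nil)) .nil)) .nil)) .nil)) .nil)) (.cons 247 (.leaf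 223 1791 (.cons 273 (.leaf 274 1979 (.cons 245 (.leaf 246 1960 (.cons 321 (.leaf 345 1988 (.cons 344 (.leaf 271 1983 (.cons 368 (.leaf 297 2181 (.cons 391 (.leaf 367 2366 (.cons 392 (.leaf 415 2558 (.cons 393 (.leaf 369 2372 (.leaf 417 2564 .nil)) .nil)) .nil)) .nil)) .nil)) .nil)) .nil)) .nil)) .nil)) (.cons 247 (.leaf 223 1791 (.cons 273 (.leaf 274 1979 (.cons 321 (.leaf 345 1988 (.cons 319 (.leaf 343 1982 (.cons 246 (.leaf 245 1960 (.cons 298 (.cons 297 (.leaf 299 2362 (.leaf 318 2353 .nil)) (.cons 322 (.leaf 299 2361 (.cons 323 (.leaf 295 2363 (.cons 347 (.leaf 346 2552 (.leaf 348 2560 .nil)) .nil)) .nil)) (.cons 297 (.leaf 318 2353 (.cons 271 (.leaf 270 2160 (.cons 295 (.leaf 222 1783 (.cons 322 (.leaf 323 2360 (.cons 346 (.leaf 347 2552 (.leaf 370 2191 .nil)) .nil)) .nil)) .nil)) .nil)) .nil))) .nil)) .nil)) .nil)) .nil)) .nil)) .nil))))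
noncomputable def t121 : T := .cons 224 (.cons 201 (.leaf 225 1605 (.cons 200 (.leaf 177 1413 (.cons 271 (.leaf 295 1598 (.cons 247 (.leaf 176 1406 (.cons 320 (.leaf 223 1791 (.leaf 344 1983 .nil)) .nil)) .nil)) .nil)) .nil)) (.cons 201 (.leaf 225 1605 (.cons 200 (.leaf 177 1413 (.cons 297 (.leaf 273 1604 (.leaf 321 1796 .nil)) .nil)) .nil)) (.cons 295 (.leaf 319 1790 (.cons 199 (.leaf 223 1599 (.cons 274 (.leaf 273 2170 (.cons 297 (.leaf 298 2169 (.leaf 321 1796 .nil)) .nil)) .nil)) .nil)) .nil))) (.cons 320 t120 (.cons 224 (.cons 201 (.leaf 225 1605 (.cons 200 (.leaf 177 1413 (.cons 297 (.leaf 273 1604 (.leaf 321 1796 .nil)) .nil)) .nil)) (.cons 295 (.leaf 319 1790 (.cons 200 (.leaf 271 1598 (.cons 175 (.leaf 199 1407 (.cons 176 (.leaf 151 1215 (.cons 177 (.leaf 201 1413 (.leaf 153 1221 .nil)) .nil)) .nil)) .nil)) .nil)) (.cons 295 (.leaf 319 1790 (.cons 199 (.leaf 223 1599 (.cons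 274 (.leaf 273 2170 (.cons 297 (.leaf 298 2169 (.leaf 321 1796 .nil)) .nil)) .nil)) .nil)) .nil))) (.cons 224 (.cons 295 (.leaf 319 1790 (.cons 200 (.leaf 271 1598 (.cons 175 (.leaf 199 1407 (.cons 176 (.leaf 151 1215 (.cons 177 (.leaf 201 1413 (.leaf 153 1221 .nil)) .nil)) .nil)) .nil)) .nil)) (.cons 223 (.leaf 199 1599 (.cons 201 (.leaf 225 1605 (.cons 320 (.leaf 247 1791 (.cons 321 (.leaf 297 1796 (.leaf 345 1988 .nil)) .nil)) .nil)) .nil)) (.cons 295 (.leaf 319 1790 (.cons 200 (.leaf 271 1598 (.cons 201 (.leaf 177 1413 (.leaf 225 1605 .nil)) .nil)) .nil)) (.cons 295 (.leaf 319 1790 (.cons 199 (.leaf 223 1599 (.cons 200 (.leaf 175 1407 (.leaf 271 1598 .nil)) .nil)) .nil)) .nil)))) (.cons 224 (.cons 201 (.leaf 225 1605 (.cons 200 (.leaf 177 1413 (.cons 297 (.leaf 273 1604 (.leaf 321 1796 .nil)) .nil)) .nil)) (.cons 199 (.leaf 223 1599 (.cons 200 (.leaf 175 1407 (.cons 201 (.leaf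 177 1413 (.leaf 225 1605 .nil)) .nil)) .nil)) (.cons 199 (.leaf 223 1599 (.cons 200 (.leaf 175 1407 (.cons 297 (.leaf 273 1604 (.leaf 321 1796 .nil)) .nil)) .nil)) (.cons 223 (.leaf 199 1599 (.cons 201 (.leaf 225 1605 (.cons 320 (.leaf 247 1791 (.cons 321 (.leaf 297 1796 (.leaf 345 1988 .nil)) .nil)) .nil)) .nil)) .nil)))) (.cons 224 t119 (.cons 224 (.cons 295 (.leaf 319 1790 (.cons 200 (.leaf 271 1598 (.cons 297 (.leaf 273 1604 (.leaf 321 1796 .nil)) .nil)) .nil)) (.cons 201 (.leaf 225 1605 (.cons 200 (.leaf 177 1413 (.cons 297 (.leaf 273 1604 (.leaf 321 1796 .nil)) .nil)) .nil)) (.cons 295 (.leaf 319 1790 (.cons 200 (.leaf 271 1598 (.cons 175 (.leaf 199 1407 (.cons 176 (.leaf 151 1215 (.cons 177 (.leaf 201 1413 (.leaf 153 1221 .nil)) .nil)) .nil)) .nil)) .nil)) (.cons 201 (.leaf 225 1605 (.cons 295 (.leaf 319 1790 (.cons 274 (.leaf 273 2170 (.cons 297 (.leaf 298 2169 (.leaf 321 1796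 .nil)) .nil)) .nil)) .nil)) .nil)))) (.cons 224 (.cons 295 (.leaf 319 1790 (.cons 200 (.leaf 271 1598 (.cons 175 (.leaf 199 1407 (.cons 176 (.leaf 151 1215 (.cons 177 (.leaf 201 1413 (.leaf 153 1221 .nil)) .nil)) .nil)) .nil)) .nil)) (.cons 223 (.leaf 199 1599 (.cons 201 (.leaf 225 1605 (.cons 200 (.leaf 177 1413 (.cons 202 (.leaf 203 1594 (.cons 221 (.leaf 222 1577 (.cons 247 (.leaf 320 1791 (.cons 176 (.leaf 271 1406 (.leaf 152 1214 .nil)) .nil)) .nil)) .nil)) .nil)) .nil)) .nil)) (.cons 295 (.leaf 319 1790 (.cons 200 (.leaf 271 1598 (.cons 201 (.leaf 177 1413 (.leaf 225 1605 .nil)) .nil)) .nil)) (.cons 295 (.leaf 319 1790 (.cons 199 (.leaf 223 1599 (.cons 200 (.leaf 175 1407 (.leaf 271 1598 .nil)) .nil)) .nil)) (.cons 295 (.leaf 319 1790 (.cons 223 (.leaf 199 1599 (.cons 225 (.leaf 201 1605 (.cons 247 (.leaf 320 1791 (.cons 226 (.leaf 227 1786 (.leaf 246 1778 .nil)) .nil)) .nil))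 .nil)) .nil)) .nil))))) .nil)))))))
noncomputable def t122 : T := .cons 175 (.leaf 199 1407 (.cons 201 (.leaf 177 1413 (.cons 176 (.leaf 151 1215 (.cons 271 (.leaf 295 1598 (.leaf 247 1406 .nil)) .nil)) .nil)) .nil)) (.cons 201 (.leaf 177 1413 (.cons 225 (.leaf 296 1605 (.cons 271 (.leaf 295 1598 (.cons 176 (.leaf 247 1406 (.cons 151 (.leaf 175 1215 (.cons 152 (.leaf 127 1023 (.leaf 249 1220 .nil)) .nil)) .nil)) .nil)) .nil)) .nil)) (.cons 199 (.leaf 175 1407 (.cons 223 (.leaf 296 1599 (.cons 271 (.leaf 295 1598 (.cons 176 (.leaf 247 1405 (.cons 249 (.leaf 273 1412 (.cons 152 (.leaf 225 1220 (.leaf 128 1022 .nil)) .nil)) .nil)) .nil)) .nil)) .nil)) (.cons 201 (.leaf 177 1413 (.cons 175 (.leaf 199 1407 (.cons 176 (.leaf 151 1215 (.cons 173 (.leaf 174 1384 (.cons 202 (.leaf 203 1403 (.cons 225 (.leaf 296 1605 (.cons 249 (.leaf 273 1412 (.leaf 152 1220 .nil)) .nil)) .nil)) .nil)) .nil))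 .nil)) .nil)) (.cons 201 (.leaf 177 1413 (.cons 225 (.leaf 296 1605 (.cons 271 (.leaf 295 1598 (.cons 176 (.leaf 247 1406 (.cons 249 (.leaf 273 1412 (.leaf 152 1220 .nil)) .nil)) .nil)) .nil)) .nil)) (.cons 199 (.leaf 175 1407 (.cons 177 (.leaf 201 1413 (.cons 295 (.leaf 271 1598 (.cons 296 (.leaf 223 1599 (.leaf 319 1790 .nil)) .nil)) .nil)) .nil)) .nil)))))
noncomputable def t123 : T := .cons 200 (.cons 273 (.leaf 297 1604 (.cons 177 (.leaf 201 1413 (.cons 199 (.leaf 175 1407 (.cons 296 (.leaf 223 1599 (.cons 176 (.leaf 153 1221 (.leaf 249 1412 .nil)) .nil)) .nil)) .nil)) .nil)) (.cons 273 (.leaf 297 1604 (.cons 176 (.leaf 249 1412 (.cons 177 (.leaf 201 1413 (.leaf 153 1221 .nil)) .nil)) .nil)) (.cons 271 (.leaf 295 1598 (.cons 176 (.leaf 247 1406 (.cons 177 (.leaf 201 1413 (.leaf 153 1221 .nil)) .nil)) .nil)) (.cons 271 (.leaf 295 1598 (.cons 176 (.leaf 247 1406 (.cons 273 (.leaf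 297 1604 (.leaf 249 1412 .nil)) .nil)) .nil)) (.cons 175 (.leaf 199 1407 (.cons 177 (.leaf 201 1413 (.cons 295 (.leaf 271 1598 (.cons 296 (.leaf 319 1790 (.cons 297 (.leaf 273 1604 (.leaf 321 1796 .nil)) .nil)) .nil)) .nil)) .nil)) .nil))))) (.cons 200 (.cons 271 (.leaf 295 1598 (.cons 176 (.leaf 247 1406 (.cons 177 (.leaf 201 1413 (.leaf 153 1221 .nil)) .nil)) .nil)) (.cons 271 (.leaf 295 1598 (.cons 176 (.leaf 247 1406 (.cons 273 (.leaf 297 1604 (.leaf 249 1412 .nil)) .nil)) .nil)) (.cons 177 (.leaf 201 1413 (.cons 176 (.leaf 153 1221 (.cons 273 (.leaf 297 1604 (.leaf 249 1412 .nil)) .nil)) .nil)) (.cons 177 (.leaf 201 1413 (.cons 295 (.leaf 271 1598 (.cons 296 (.leaf 319 1790 (.cons 297 (.leaf 273 1604 (.leaf 321 1796 .nil)) .nil)) .nil)) .nil)) .nil)))) (.cons 200 (.cons 175 (.leaf 199 1407 (.cons 295 (.leaf 271 1598 (.cons 296 (.leaf 319 1790 (.cons 297 (.leaf 273 1604 (.leaf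 321 1796 .nil)) .nil)) .nil)) .nil)) (.cons 175 (.leaf 199 1407 (.cons 176 (.leaf 151 1215 (.cons 273 (.leaf 297 1604 (.leaf 249 1412 .nil)) .nil)) .nil)) (.cons 271 (.leaf 295 1598 (.cons 176 (.leaf 247 1406 (.cons 273 (.leaf 297 1604 (.leaf 249 1412 .nil)) .nil)) .nil)) (.cons 175 (.leaf 199 1407 (.cons 176 (.leaf 151 1215 (.cons 271 (.leaf 295 1598 (.leaf 247 1406 .nil)) .nil)) .nil)) .nil)))) (.cons 200 t122 (.cons 200 (.cons 175 (.leaf 199 1407 (.cons 201 (.leaf 177 1413 (.cons 295 (.leaf 271 1598 (.cons 296 (.leaf 225 1605 (.leaf 319 1790 .nil)) .nil)) .nil)) .nil)) (.cons 177 (.leaf 201 1413 (.cons 176 (.leaf 153 1221 (.cons 151 (.leaf 175 1215 (.cons 271 (.leaf 295 1598 (.leaf 247 1406 .nil)) .nil)) .nil)) .nil)) (.cons 175 (.leaf 199 1407 (.cons 151 (.leaf 176 1215 (.cons 295 (.leaf 271 1598 (.cons 296 (.leaf 319 1790 (.cons 297 (.leaf 273 1604 (.leaf 321 1796 .nil)) .nil))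 .nil)) .nil)) .nil)) (.cons 175 (.leaf 199 1407 (.cons 176 (.leaf 151 1215 (.cons 177 (.leaf 201 1413 (.leaf 153 1221 .nil)) .nil)) .nil)) (.cons 177 (.leaf 201 1413 (.cons 295 (.leaf 271 1598 (.cons 296 (.leaf 319 1790 (.cons 297 (.leaf 273 1604 (.leaf 321 1796 .nil)) .nil)) .nil)) .nil)) .nil))))) (.cons 200 (.cons 175 (.leaf 199 1407 (.cons 201 (.leaf 177 1413 (.cons 176 (.leaf 151 1215 (.cons 173 (.leaf 174 1384 (.cons 202 (.leaf 203 1403 (.cons 225 (.leaf 296 1605 (.cons 249 (.leaf 273 1412 (.leaf 152 1220 .nil)) .nil)) .nil)) .nil)) .nil)) .nil)) .nil)) (.cons 175 (.leaf 199 1407 (.cons 151 (.leaf 176 1215 (.cons 295 (.leaf 271 1598 (.cons 296 (.leaf 319 1790 (.cons 297 (.leaf 273 1604 (.leaf 321 1796 .nil)) .nil)) .nil)) .nil)) .nil)) (.cons 177 (.leaf 201 1413 (.cons 295 (.leaf 271 1598 (.cons 296 (.leaf 319 1790 (.cons 297 (.leaf 273 1604 (.leaf 321 1796 .nil)) .nil)) .nil))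 .nil)) (.cons 175 (.leaf 199 1407 (.cons 201 (.leaf 177 1413 (.cons 295 (.leaf 271 1598 (.cons 296 (.leaf 225 1605 (.leaf 319 1790 .nil)) .nil)) .nil)) .nil)) (.cons 175 (.leaf 199 1407 (.cons 176 (.leaf 151 1215 (.cons 177 (.leaf 201 1413 (.leaf 153 1221 .nil)) .nil)) .nil)) .nil))))) (.cons 200 (.cons 175 (.leaf 199 1407 (.cons 201 (.leaf 177 1413 (.cons 176 (.leaf 151 1215 (.cons 173 (.leaf 174 1384 (.cons 202 (.leaf 203 1403 (.cons 225 (.leaf 296 1605 (.cons 249 (.leaf 273 1412 (.leaf 152 1220 .nil)) .nil)) .nil)) .nil)) .nil)) .nil)) .nil)) (.cons 177 (.leaf 201 1413 (.cons 176 (.leaf 153 1221 (.cons 273 (.leaf 297 1604 (.leaf 249 1412 .nil)) .nil)) .nil)) (.cons 175 (.leaf 199 1407 (.cons 176 (.leaf 151 1215 (.cons 273 (.leaf 297 1604 (.leaf 249 1412 .nil)) .nil)) .nil)) (.cons 199 (.leaf 175 1407 (.cons 177 (.leaf 201 1413 (.cons 176 (.leaf 153 1221 (.cons 178 (.leaf 179 1402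 (.cons 223 (.leaf 296 1599 (.cons 247 (.leaf 271 1405 (.leaf 152 1214 .nil)) .nil)) .nil)) .nil)) .nil)) .nil)) (.cons 175 (.leaf 199 1407 (.cons 201 (.leaf 177 1413 (.cons 296 (.leaf 225 1605 (.cons 297 (.leaf 273 1604 (.leaf 321 1796 .nil)) .nil)) .nil)) .nil)) .nil))))) .nil))))))
noncomputable def t124 : T := .cons 223 (.leaf 199 1599 (.cons 201 (.leaf 225 1605 (.cons 319 (.leaf 295 1790 (.cons 320 (.leaf 247 1791 (.leaf 343 1982 .nil)) .nil)) .nil)) .nil)) (.cons 225 (.leaf 201 1605 (.cons 295 (.leaf 319 1790 (.cons 320 (.leaf 249 1797 (.cons 321 (.leaf 297 1796 (.leaf 345 1988 .nil)) .nil)) .nil)) .nil)) (.cons 223 (.leaf 199 1599 (.cons 295 (.leaf 319 1790 (.cons 320 (.leaf 247 1791 (.cons 321 (.leaf 297 1796 (.leaf 345 1988 .nil)) .nil)) .nil)) .nil)) (.cons 223 (.leaf 199 1599 (.cons 201 (.leaf 225 1605 (.cons 320 (.leaf 247 1791 (.cons 321 (.leaf 297 1796 (.leaf 345 1988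 .nil)) .nil)) .nil)) .nil)) (.cons 223 (.leaf 199 1599 (.cons 225 (.leaf 201 1605 (.cons 297 (.leaf 321 1796 (.cons 295 (.leaf 319 1790 (.cons 222 (.cons 249 (.leaf 221 1768 (.leaf 250 1776 .nil)) (.cons 197 (.leaf 198 1579 (.cons 221 (.leaf 196 1571 (.cons 245 (.leaf 244 1762 (.leaf 246 1770 .nil)) .nil)) .nil)) (.cons 197 (.leaf 198 1579 (.cons 246 (.leaf 245 1770 (.cons 226 (.leaf 247 1778 (.cons 250 (.leaf 249 1776 (.leaf 251 1784 .nil)) .nil)) .nil)) .nil)) .nil))) .nil)) .nil)) .nil)) .nil)) .nil))))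
noncomputable def t125 : T := .cons 200 (.cons 175 (.leaf 199 1407 (.cons 201 (.leaf 177 1413 (.cons 176 (.leaf 151 1215 (.cons 271 (.leaf 295 1598 (.leaf 247 1406 .nil)) .nil)) .nil)) .nil)) (.cons 177 (.leaf 201 1413 (.cons 176 (.leaf 153 1221 (.cons 273 (.leaf 297 1604 (.leaf 249 1412 .nil)) .nil)) .nil)) (.cons 175 (.leaf 199 1407 (.cons 176 (.leaf 151 1215 (.cons 271 (.leaf 295 1598 (.leaf 247 1406 .nil)) .nil)) .nil)) (.cons 175 (.leaf 199 1407 (.cons 201 (.leaf 177 1413 (.cons 295 (.leaf 271 1598 (.cons 296 (.leaf 225 1605 (.leaf 319 1790 .nil)) .nil)) .nil)) .nil)) .nil)))) (.cons 296 t124 (.cons 200 (.cons 199 (.leaf 175 1407 (.cons 201 (.leaf 177 1413 (.cons 271 (.leaf 295 1598 (.cons 202 (.cons 223 (.leaf 203 1594 (.leaf 222 1586 .nil)) (.cons 178 (.leaf 179 1401 (.cons 227 (.leaf 226 1592 (.cons 203 (.leaf 251 1431 (.leaf 228 1600 .nil)) .nil)) .nil)) (.cons 178 (.leaf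 179 1401 (.cons 222 (.leaf 223 1586 (.cons 198 (.leaf 221 1578 (.cons 225 (.leaf 197 1576 (.leaf 226 1584 .nil)) .nil)) .nil)) .nil)) .nil))) .nil)) .nil)) .nil)) (.cons 273 (.leaf 297 1604 (.cons 176 (.leaf 249 1412 (.cons 177 (.leaf 201 1413 (.leaf 153 1221 .nil)) .nil)) .nil)) (.cons 271 (.leaf 295 1598 (.cons 176 (.leaf 247 1406 (.cons 273 (.leaf 297 1604 (.leaf 249 1412 .nil)) .nil)) .nil)) .nil))) t123))
noncomputable def t126 : T := .cons 299 (.leaf 300 2176 (.cons 298 (.leaf 271 2168 (.cons 296 (.leaf 295 2170 (.cons 249 (.cons 225 (.leaf 201 1612 (.leaf 320 1797 .nil)) (.cons 320 (.leaf 344 1989 (.cons 319 (.leaf 343 1982 (.leaf 297 2362 .nil)) .nil)) (.cons 225 (.leaf 201 1612 (.cons 322 (.leaf 250 1807 (.leaf 346 1999 .nil)) .nil)) .nil))) .nil)) .nil)) .nil)) (.cons 251 (.leaf 252 1985 (.cons 250 (.leaf 271 1977 (.cons 296 (.leaf 295 2170 (.cons 227 (.cons 203 (.leaf 298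 1622 (.leaf 179 1430 .nil)) (.cons 249 (.leaf 228 1793 (.cons 225 (.leaf 201 1606 (.leaf 320 1797 .nil)) .nil)) .nil)) .nil)) .nil)) .nil)) (.cons 299 (.leaf 300 2176 (.cons 251 (.leaf 252 1985 (.cons 298 (.leaf 271 2168 (.cons 227 (.leaf 203 1622 (.leaf 322 1814 .nil)) .nil)) .nil)) .nil)) (.cons 251 (.leaf 252 1985 (.cons 250 (.leaf 271 1977 (.cons 299 (.leaf 300 2176 (.cons 226 (.leaf 202 1620 (.leaf 323 1815 .nil)) .nil)) .nil)) .nil)) (.cons 251 (.leaf 252 1985 (.cons 299 (.leaf 300 2176 (.cons 296 (.leaf 295 2170 (.cons 227 (.cons 298 (.leaf 203 1622 (.leaf 322 1814 .nil)) (.cons 204 (.leaf 228 1629 (.cons 203 (.leaf 180 1437 (.cons 178 (.leaf 202 1431 (.cons 179 (.leaf 250 1430 (.leaf 154 1239 .nil)) .nil)) .nil)) .nil)) (.cons 204 (.leaf 228 1629 (.cons 322 (.leaf 298 1814 (.cons 323 (.leaf 346 2006 (.cons 347 (.leaf 250 2007 (.cons 348 (.leaf 324 2012 (.leaf 372 2204 .nil))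 .nil)) .nil)) .nil)) .nil)) .nil))) .nil)) .nil)) .nil)) .nil))))
noncomputable def t127 : T := .cons 323 (.leaf 347 2007 (.cons 251 (.leaf 226 1815 (.cons 322 (.leaf 346 2006 (.cons 227 (.leaf 298 1813 (.cons 324 (.leaf 300 1820 (.leaf 348 2012 .nil)) .nil)) .nil)) .nil)) .nil)) (.cons 226 (.leaf 202 1620 (.cons 298 (.cons 227 (.leaf 203 1621 (.cons 251 (.leaf 322 1813 (.cons 228 (.leaf 204 1629 (.cons 229 (.leaf 230 1810 (.cons 253 (.leaf 254 1808 (.cons 225 (.leaf 201 1615 (.leaf 252 1800 .nil)) .nil)) .nil)) .nil)) .nil)) .nil)) (.cons 297 (.leaf 321 1806 (.cons 296 (.leaf 295 2169 (.leaf 271 2171 .nil)) .nil)) .nil)) .nil)) (.cons 323 (.leaf 347 2007 (.cons 251 (.cons 322 (.leaf 346 2006 (.cons 227 (.leaf 298 1813 (.cons 324 (.leaf 300 1820 (.leaf 348 2012 .nil)) .nil)) .nil)) (.cons 324 (.leaf 348 2012 (.cons 227 (.leaf 300 1820 (.cons 203 (.leaf 298 1622 (.leaf 179 1430 .nil))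 .nil)) .nil)) (.cons 252 (.leaf 228 1821 (.cons 253 (.leaf 254 2002 (.cons 229 (.leaf 230 1809 (.cons 277 (.leaf 278 2000 (.cons 324 (.leaf 348 2012 (.cons 301 (.leaf 300 1830 (.cons 302 (.leaf 326 1836 (.cons 322 (.leaf 346 2006 (.leaf 325 2385 .nil)) .nil)) .nil)) .nil)) .nil)) .nil)) .nil)) .nil)) (.cons 322 (.leaf 346 2006 (.cons 227 (.leaf 298 1813 (.cons 228 (.leaf 204 1629 (.leaf 252 1821 .nil)) .nil)) .nil)) .nil)))) .nil)) (.cons 323 (.leaf 347 2007 (.cons 226 (.leaf 202 1620 (.leaf 251 1815 .nil)) .nil)) (.cons 226 (.leaf 202 1620 (.cons 323 (.leaf 347 2007 (.leaf 298 1812 .nil)) .nil)) .nil))))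
noncomputable def t128 : T := .cons 299 (.cons 323 (.leaf 347 2007 (.cons 251 (.leaf 226 1815 (.cons 322 (.leaf 346 2006 (.cons 227 (.leaf 298 1813 (.cons 324 (.leaf 300 1820 (.leaf 348 2012 .nil)) .nil)) .nil)) .nil)) .nil)) (.cons 323 (.leaf 347 2007 (.cons 251 (.cons 322 (.leaf 346 2006 (.cons 227 (.leaf 298 1813 (.cons 324 (.leaf 300 1820 (.leaf 348 2012 .nil)) .nil)) .nil)) (.cons 249 (.leaf 247 1976 (.leaf 271 1978 .nil)) .nil)) .nil)) (.cons 249 (.leaf 247 1976 (.cons 202 (.leaf 226 1620 (.cons 251 (.leaf 271 1978 (.cons 227 (.leaf 228 1793 (.cons 203 (.leaf 178 1431 (.leaf 298 1622 .nil)) .nil)) .nil)) .nil)) .nil)) (.cons 226 (.leaf 202 1620 (.cons 323 (.leaf 347 2007 (.leaf 298 1812 .nil)) .nil)) (.cons 249 (.leaf 247 1976 (.cons 202 (.leaf 226 1620 (.cons 251 (.leaf 271 1978 (.cons 227 (.leaf 228 1793 (.cons 203 (.leaf 178 1431 (.leaf 179 1430 .nil)) .nil)) .nil)) .nil))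 .nil)) .nil))))) (.cons 299 t127 (.cons 249 (.leaf 247 1976 (.cons 251 (.leaf 271 1978 (.cons 227 (.leaf 228 1793 (.cons 203 (.leaf 298 1622 (.leaf 179 1430 .nil)) .nil)) .nil)) .nil)) (.cons 249 (.leaf 247 1976 (.cons 226 (.cons 202 (.leaf 299 1620 (.cons 177 (.leaf 201 1423 (.cons 153 (.leaf 178 1231 (.cons 203 (.leaf 179 1429 (.cons 227 (.leaf 298 1621 (.cons 228 (.leaf 225 1794 (.leaf 229 1802 .nil)) .nil)) .nil)) .nil)) .nil)) .nil)) (.cons 298 (.cons 225 (.leaf 201 1615 (.leaf 322 1807 .nil)) (.cons 203 (.leaf 227 1621 (.cons 321 (.leaf 297 1806 (.cons 322 (.leaf 345 1998 (.cons 323 (.leaf 299 1812 (.leaf 347 2004 .nil)) .nil)) .nil)) .nil)) (.cons 225 (.leaf 201 1615 (.cons 227 (.leaf 228 1794 (.leaf 203 1621 .nil)) .nil)) .nil))) (.cons 202 (.leaf 299 1620 (.cons 177 (.leaf 201 1423 (.cons 178 (.leaf 153 1231 (.cons 179 (.leaf 203 1429 (.leaf 155 1237 .nil)) .nil)) .nil)) .nil))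 (.cons 227 (.cons 203 (.leaf 298 1621 (.cons 179 (.leaf 202 1429 (.leaf 155 1238 .nil)) .nil)) (.cons 228 (.leaf 225 1794 (.leaf 229 1802 .nil)) .nil)) (.cons 299 (.leaf 202 1620 (.cons 323 (.leaf 347 2007 (.leaf 298 1812 .nil)) .nil)) .nil))))) .nil)) (.cons 249 (.leaf 247 1976 (.cons 251 (.leaf 271 1978 (.cons 227 (.leaf 228 1793 (.cons 203 (.leaf 179 1430 (.cons 202 (.leaf 178 1431 (.cons 226 (.leaf 299 1620 (.cons 177 (.leaf 201 1423 (.cons 204 (.leaf 180 1437 (.cons 205 (.leaf 206 1618 (.leaf 225 1610 .nil)) .nil)) .nil)) .nil)) .nil)) .nil)) .nil)) .nil)) .nil)) (.cons 249 (.leaf 247 1976 (.cons 271 (.leaf 251 1978 (.cons 270 (.leaf 269 1961 (.cons 298 (.cons 225 (.leaf 322 1807 (.cons 201 (.leaf 177 1420 (.leaf 226 1615 .nil)) .nil)) (.cons 297 (.cons 296 (.leaf 295 2169 (.leaf 299 2171 .nil)) (.cons 226 (.leaf 321 1806 (.cons 299 (.leaf 202 1620 (.leaf 323 1812 .nil)) .nil))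 (.cons 295 (.leaf 296 2169 (.cons 319 (.leaf 343 1981 (.cons 321 (.leaf 226 1806 (.cons 345 (.leaf 322 1998 (.leaf 369 2189 .nil)) .nil)) .nil)) .nil)) .nil))) (.cons 225 (.cons 201 (.leaf 177 1420 (.leaf 226 1615 .nil)) (.cons 296 (.leaf 320 1797 (.cons 297 (.leaf 295 2169 (.leaf 299 2171 .nil)) .nil)) .nil)) (.cons 225 (.leaf 322 1807 (.cons 296 (.leaf 320 1797 (.cons 297 (.leaf 295 2169 (.leaf 299 2171 .nil)) .nil)) .nil)) .nil)))) .nil)) .nil)) .nil)) .nil)))))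
noncomputable def t129 : T := .cons 273 (.leaf 247 1979 (.cons 299 (.leaf 300 2176 (.cons 298 (.leaf 271 2168 (.cons 296 (.leaf 295 2170 (.cons 249 (.cons 225 (.leaf 201 1612 (.leaf 320 1797 .nil)) (.cons 320 (.leaf 344 1989 (.cons 319 (.leaf 343 1982 (.leaf 297 2362 .nil)) .nil)) (.cons 225 (.leaf 201 1612 (.cons 322 (.leaf 250 1807 (.leaf 346 1999 .nil)) .nil)) .nil))) .nil)) .nil)) .nil)) .nil)) (.cons 250 t128 (.cons 273 t126 (.cons 273 (.leaf 247 1979 (.cons 251 (.leaf 252 1985 (.cons 295 (.leaf 296 2170 (.cons 299 (.leaf 300 2176 (.cons 298 (.leaf 271 2168 (.cons 227 (.leaf 203 1622 (.leaf 322 1814 .nil)) .nil)) .nil)) .nil)) .nil)) .nil)) (.cons 273 (.leaf 247 1979 (.cons 251 (.leaf 252 1985 (.cons 250 (.leaf 271 1977 (.cons 296 (.leaf 295 2170 (.cons 227 (.cons 203 (.leaf 298 1622 (.leaf 179 1430 .nil)) (.cons 249 (.leaf 228 1793 (.cons 225 (.leaf 201 1606 (.leaf 320 1797 .nil))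 .nil)) .nil)) .nil)) .nil)) .nil)) .nil)) (.cons 273 (.leaf 247 1979 (.cons 251 (.leaf 252 1985 (.cons 299 (.leaf 300 2176 (.cons 298 (.leaf 271 2168 (.cons 227 (.leaf 203 1622 (.leaf 322 1814 .nil)) .nil)) .nil)) .nil)) .nil)) (.cons 273 (.leaf 247 1979 (.cons 251 (.leaf 252 1985 (.cons 250 (.leaf 271 1977 (.cons 299 (.leaf 300 2176 (.cons 226 (.leaf 202 1620 (.leaf 323 1815 .nil)) .nil)) .nil)) .nil)) .nil)) (.cons 273 (.leaf 247 1979 (.cons 251 (.leaf 252 1985 (.cons 299 (.leaf 300 2176 (.cons 296 (.leaf 295 2170 (.cons 227 (.cons 298 (.leaf 203 1622 (.leaf 322 1814 .nil)) (.cons 204 (.leaf 228 1629 (.cons 203 (.leaf 180 1437 (.cons 178 (.leaf 202 1431 (.cons 179 (.leaf 250 1430 (.leaf 154 1239 .nil)) .nil)) .nil)) .nil)) (.cons 204 (.leaf 228 1629 (.cons 322 (.leaf 298 1814 (.cons 323 (.leaf 346 2006 (.cons 347 (.leaf 250 2007 (.cons 348 (.leaf 324 2012 (.leaf 372 2204 .nil)) .nil))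 .nil)) .nil)) .nil)) .nil))) .nil)) .nil)) .nil)) .nil)) .nil)))))))
noncomputable def t130 : T := .cons 251 (.leaf 252 1985 (.cons 250 (.leaf 271 1977 (.cons 227 (.cons 203 (.leaf 298 1622 (.leaf 179 1430 .nil)) (.cons 249 (.leaf 228 1793 (.cons 299 (.leaf 300 2176 (.cons 226 (.leaf 202 1620 (.leaf 323 1815 .nil)) .nil)) .nil)) .nil)) .nil)) .nil)) (.cons 299 (.leaf 300 2176 (.cons 298 (.leaf 271 2168 (.cons 250 (.cons 226 (.leaf 202 1620 (.leaf 323 1812 .nil)) (.cons 323 (.leaf 347 2007 (.cons 322 (.cons 249 (.leaf 225 1807 (.leaf 346 1999 .nil)) (.cons 249 (.leaf 225 1807 (.cons 321 (.leaf 345 1998 (.cons 297 (.leaf 224 1799 (.cons 320 (.leaf 344 1990 (.leaf 319 2361 .nil)) .nil)) .nil)) .nil)) (.cons 345 (.leaf 321 1998 (.cons 346 (.leaf 370 2197 (.leaf 369 2190 .nil)) .nil)) .nil))) .nil)) (.cons 226 (.leaf 202 1620 (.cons 297 (.leaf 321 1806 (.cons 200 (.leaf 224 1604 (.cons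 225 (.leaf 201 1615 (.cons 249 (.leaf 322 1804 (.cons 227 (.leaf 228 1794 (.leaf 203 1621 .nil)) .nil)) .nil)) .nil)) .nil)) .nil)) .nil))) .nil)) .nil)) (.cons 251 (.leaf 252 1985 (.cons 250 (.leaf 271 1977 (.cons 227 (.cons 203 (.leaf 298 1622 (.leaf 179 1430 .nil)) (.cons 249 (.leaf 228 1793 (.cons 298 (.leaf 322 1813 (.cons 201 (.leaf 225 1612 (.cons 224 (.leaf 223 1787 (.cons 200 (.leaf 177 1413 (.leaf 297 1604 .nil)) .nil)) .nil)) .nil)) .nil)) (.cons 249 (.leaf 228 1793 (.cons 224 (.leaf 223 1787 (.cons 200 (.leaf 297 1604 (.leaf 176 1412 .nil)) .nil)) .nil)) .nil))) .nil)) .nil)) (.cons 299 (.leaf 300 2176 (.cons 251 (.leaf 252 1985 (.cons 298 (.leaf 271 2168 (.cons 227 (.leaf 203 1622 (.leaf 322 1814 .nil)) .nil)) .nil)) .nil)) (.cons 251 (.leaf 252 1985 (.cons 299 (.leaf 300 2176 (.cons 323 (.cons 250 (.leaf 226 1815 (.leaf 347 2007 .nil)) (.cons 322 (.leaf 346 2006 (.cons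 348 (.leaf 324 2012 (.cons 347 (.leaf 372 2204 (.cons 298 (.leaf 227 1814 (.leaf 371 2199 .nil)) .nil)) .nil)) .nil)) (.cons 226 (.leaf 250 1815 (.cons 227 (.leaf 202 1623 (.cons 298 (.leaf 203 1622 (.leaf 322 1814 .nil)) .nil)) .nil)) .nil))) .nil)) .nil)) (.cons 251 (.leaf 252 1985 (.cons 250 (.leaf 271 1977 (.cons 299 (.leaf 300 2176 (.cons 226 (.leaf 202 1620 (.leaf 323 1815 .nil)) .nil)) .nil)) .nil)) .nil)))))
noncomputable def t131 : T := .leaf 247 1976 (.cons 226 (.cons 298 (.cons 225 (.leaf 201 1615 (.leaf 322 1807 .nil)) (.cons 203 (.leaf 227 1621 (.cons 321 (.leaf 297 1806 (.cons 322 (.leaf 345 1998 (.cons 299 (.leaf 202 1620 (.leaf 323 1812 .nil)) .nil)) .nil)) .nil)) (.cons 225 (.leaf 201 1615 (.cons 227 (.leaf 228 1794 (.leaf 203 1621 .nil)) .nil)) .nil))) (.cons 298 (.cons 225 (.leaf 201 1615 (.leaf 322 1807 .nil)) (.cons 203 (.leaf 227 1621 (.cons 321 (.leaf 297 1806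 (.cons 322 (.leaf 345 1998 (.cons 323 (.leaf 299 1812 (.leaf 347 2004 .nil)) .nil)) .nil)) .nil)) (.cons 225 (.leaf 201 1615 (.cons 227 (.leaf 228 1794 (.leaf 203 1621 .nil)) .nil)) .nil))) (.cons 227 (.cons 203 (.leaf 298 1621 (.cons 179 (.leaf 202 1429 (.leaf 155 1238 .nil)) .nil)) (.cons 228 (.leaf 225 1794 (.leaf 229 1802 .nil)) .nil)) (.cons 202 (.leaf 299 1620 (.cons 177 (.leaf 201 1423 (.cons 178 (.leaf 153 1231 (.cons 179 (.leaf 203 1429 (.leaf 155 1237 .nil)) .nil)) .nil)) .nil)) (.cons 299 (.leaf 202 1620 (.cons 323 (.leaf 347 2007 (.leaf 298 1812 .nil)) .nil)) .nil))))) .nil)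
noncomputable def t132 : T := .cons 226 (.leaf 202 1620 (.cons 298 (.leaf 323 1812 (.cons 201 (.leaf 225 1615 (.cons 321 (.leaf 297 1806 (.cons 322 (.leaf 345 1998 (.cons 346 (.leaf 251 2005 (.leaf 370 2197 .nil)) .nil)) .nil)) .nil)) .nil)) .nil)) (.cons 323 (.leaf 347 2007 (.cons 251 (.cons 322 (.leaf 346 2006 (.cons 227 (.leaf 298 1813 (.cons 324 (.leaf 300 1820 (.leaf 348 2012 .nil)) .nil)) .nil)) (.cons 249 (.leaf 271 1978 (.cons 228 (.leaf 252 1821 (.leaf 227 1793 .nil)) .nil)) (.cons 322 (.leaf 346 2006 (.cons 228 (.leaf 252 1821 (.cons 249 (.leaf 271 1978 (.cons 223 (.leaf 224 1787 (.cons 298 (.leaf 225 1807 (.cons 321 (.leaf 345 1998 (.cons 300 (.leaf 301 2378 (.leaf 320 2369 .nil)) .nil)) .nil)) .nil)) .nil)) .nil)) .nil)) .nil))) .nil)) (.cons 226 (.leaf 202 1620 (.cons 298 (.cons 201 (.leaf 225 1615 (.cons 321 (.leaf 297 1806 (.cons 322 (.leaf 345 1998 (.cons 346 (.leaf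 251 2005 (.leaf 370 2197 .nil)) .nil)) .nil)) .nil)) (.cons 225 (.leaf 201 1615 (.cons 203 (.leaf 227 1621 (.cons 321 (.leaf 297 1806 (.cons 322 (.leaf 249 1807 (.leaf 345 1998 .nil)) .nil)) .nil)) .nil)) (.cons 227 (.leaf 203 1621 (.cons 251 (.leaf 322 1813 (.cons 228 (.leaf 204 1629 (.leaf 249 1793 .nil)) .nil)) .nil)) (.cons 227 (.leaf 203 1621 (.cons 225 (.leaf 201 1615 (.cons 228 (.leaf 249 1794 (.cons 204 (.leaf 251 1629 (.leaf 205 1609 .nil)) .nil)) .nil)) .nil)) .nil)))) .nil)) (.cons 226 (.leaf 202 1620 (.cons 323 (.leaf 347 2007 (.leaf 298 1812 .nil)) .nil)) (.cons 323 (.leaf 347 2007 (.cons 226 (.leaf 202 1620 (.leaf 251 1815 .nil)) .nil)) .nil))))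
noncomputable def t133 : T := .cons 203 (.leaf 227 1621 (.cons 321 (.leaf 297 1806 (.cons 322 (.leaf 345 1998 (.cons 346 (.leaf 251 2005 (.cons 347 (.leaf 323 2004 (.leaf 371 2196 .nil)) .nil)) .nil)) .nil)) .nil)) (.cons 227 (.leaf 203 1621 (.cons 201 (.leaf 225 1615 (.cons 321 (.leaf 297 1806 (.cons 322 (.leaf 251 1813 (.leaf 345 1998 .nil)) .nil)) .nil)) .nil)) (.cons 201 (.leaf 225 1615 (.cons 299 (.leaf 323 1812 (.cons 321 (.leaf 297 1806 (.cons 322 (.leaf 345 1998 (.cons 346 (.leaf 251 2005 (.leaf 370 2197 .nil)) .nil)) .nil)) .nil)) .nil)) (.cons 201 (.leaf 225 1615 (.cons 203 (.leaf 227 1621 (.cons 321 (.leaf 297 1806 (.cons 322 (.leaf 345 1998 (.cons 323 (.leaf 299 1812 (.leaf 347 2004 .nil)) .nil)) .nil)) .nil)) .nil)) (.cons 323 (.leaf 299 1812 (.cons 201 (.leaf 225 1615 (.cons 227 (.leaf 203 1621 (.cons 322 (.leaf 251 1813 (.leaf 347 2004 .nil)) .nil)) .nil)) .nil)) (.cons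 299 (.leaf 323 1812 (.cons 225 (.leaf 201 1615 (.cons 227 (.leaf 203 1621 (.cons 228 (.cons 253 (.leaf 252 1800 (.cons 204 (.leaf 251 1629 (.leaf 205 1609 .nil)) .nil)) (.cons 224 (.leaf 247 1786 (.cons 199 (.leaf 200 1595 (.cons 198 (.leaf 223 1587 (.cons 205 (.leaf 204 1609 (.cons 229 (.leaf 206 1617 (.cons 253 (.leaf 252 1800 (.leaf 254 1808 .nil)) .nil)) .nil)) .nil)) .nil)) .nil)) (.cons 253 (.leaf 252 1800 (.cons 224 (.leaf 247 1786 (.cons 199 (.leaf 200 1595 (.cons 223 (.leaf 251 1784 (.leaf 198 1587 .nil)) .nil)) .nil)) .nil)) (.cons 204 (.leaf 251 1629 (.leaf 205 1609 .nil)) .nil)))) .nil)) .nil)) .nil)) .nil)))))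
noncomputable def t134 : T := .cons 249 (.leaf 247 1976 (.cons 251 (.leaf 271 1978 (.cons 224 (.leaf 223 1787 (.cons 225 (.leaf 252 1795 (.cons 201 (.leaf 177 1420 (.cons 298 (.leaf 226 1615 (.leaf 322 1807 .nil)) .nil)) .nil)) .nil)) .nil)) .nil)) (.cons 226 (.cons 202 (.leaf 299 1620 (.cons 177 (.leaf 201 1423 (.cons 178 (.leaf 251 1428 (.leaf 153 1231 .nil)) .nil)) .nil)) (.cons 298 t133 (.cons 298 (.cons 201 (.leaf 225 1615 (.cons 177 (.leaf 202 1423 (.cons 200 (.leaf 224 1413 (.cons 321 (.leaf 297 1806 (.cons 322 (.leaf 345 1998 (.cons 346 (.leaf 251 2005 (.cons 347 (.leaf 323 2004 (.leaf 371 2196 .nil)) .nil)) .nil)) .nil)) .nil)) .nil)) .nil)) (.cons 203 (.leaf 227 1621 (.cons 321 (.leaf 297 1806 (.cons 322 (.leaf 345 1998 (.cons 346 (.leaf 251 2005 (.cons 347 (.leaf 323 2004 (.leaf 371 2196 .nil)) .nil)) .nil)) .nil)) .nil)) (.cons 201 (.leaf 225 1615 (.cons 202 (.leaf 177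 1423 (.cons 203 (.leaf 179 1429 (.leaf 227 1621 .nil)) .nil)) .nil)) .nil))) (.cons 299 (.leaf 202 1620 (.cons 323 (.leaf 347 2007 (.leaf 298 1812 .nil)) .nil)) .nil)))) (.cons 299 t132 (.cons 249 t131 (.cons 249 (.leaf 247 1976 (.cons 251 (.leaf 271 1978 (.cons 223 (.leaf 224 1787 (.cons 227 (.leaf 228 1793 (.cons 203 (.leaf 298 1622 (.leaf 179 1430 .nil)) .nil)) .nil)) .nil)) .nil)) (.cons 249 (.leaf 247 1976 (.cons 251 (.leaf 271 1978 (.cons 227 (.leaf 228 1793 (.cons 203 (.leaf 179 1430 (.cons 202 (.leaf 178 1431 (.cons 226 (.leaf 299 1620 (.cons 177 (.leaf 201 1423 (.cons 204 (.leaf 180 1437 (.cons 205 (.leaf 206 1618 (.leaf 225 1610 .nil)) .nil)) .nil)) .nil)) .nil)) .nil)) .nil)) .nil)) .nil)) .nil)))))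
noncomputable def t135 : T := .cons 273 (.leaf 247 1979 (.cons 299 (.leaf 300 2176 (.cons 298 (.leaf 271 2168 (.cons 250 (.cons 226 (.leaf 202 1620 (.leaf 323 1812 .nil)) (.cons 323 (.leaf 347 2007 (.cons 251 (.leaf 252 1985 (.cons 322 (.leaf 227 1813 (.leaf 346 2005 .nil)) .nil)) .nil)) (.cons 226 (.leaf 202 1620 (.cons 251 (.leaf 252 1985 (.cons 227 (.leaf 203 1621 (.leaf 322 1813 .nil)) .nil)) .nil)) .nil))) .nil)) .nil)) .nil)) (.cons 250 t134 (.cons 273 t130 (.cons 273 (.leaf 247 1979 (.cons 299 (.leaf 300 2176 (.cons 251 (.leaf 252 1985 (.cons 298 (.leaf 271 2168 (.cons 227 (.leaf 203 1622 (.leaf 322 1814 .nil)) .nil)) .nil)) .nil)) .nil)) (.cons 273 (.leaf 247 1979 (.cons 299 (.leaf 300 2176 (.cons 298 (.leaf 271 2168 (.cons 250 (.cons 226 (.leaf 202 1620 (.leaf 323 1812 .nil)) (.cons 323 (.leaf 347 2007 (.cons 322 (.cons 249 (.leaf 225 1807 (.leaf 346 1999 .nil)) (.cons 249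 (.leaf 225 1807 (.cons 321 (.leaf 345 1998 (.cons 297 (.leaf 224 1799 (.cons 320 (.leaf 344 1990 (.leaf 319 2361 .nil)) .nil)) .nil)) .nil)) (.cons 345 (.leaf 321 1998 (.cons 346 (.leaf 370 2197 (.leaf 369 2190 .nil)) .nil)) .nil))) .nil)) (.cons 226 (.leaf 202 1620 (.cons 297 (.leaf 321 1806 (.cons 200 (.leaf 224 1604 (.cons 225 (.leaf 201 1615 (.cons 249 (.leaf 322 1804 (.cons 227 (.leaf 228 1794 (.leaf 203 1621 .nil)) .nil)) .nil)) .nil)) .nil)) .nil)) .nil))) .nil)) .nil)) .nil)) (.cons 273 (.leaf 247 1979 (.cons 251 (.leaf 252 1985 (.cons 250 (.leaf 271 1977 (.cons 227 (.cons 203 (.leaf 298 1622 (.leaf 179 1430 .nil)) (.cons 249 (.leaf 228 1793 (.cons 298 (.leaf 322 1813 (.cons 201 (.leaf 225 1612 (.cons 224 (.leaf 223 1787 (.cons 200 (.leaf 177 1413 (.leaf 297 1604 .nil)) .nil)) .nil)) .nil)) .nil)) (.cons 249 (.leaf 228 1793 (.cons 224 (.leaf 223 1787 (.cons 200 (.leaf 297 1604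 (.leaf 176 1412 .nil)) .nil)) .nil)) .nil))) .nil)) .nil)) .nil)) (.cons 273 (.leaf 247 1979 (.cons 251 (.leaf 252 1985 (.cons 299 (.leaf 300 2176 (.cons 323 (.cons 250 (.leaf 226 1815 (.leaf 347 2007 .nil)) (.cons 322 (.leaf 346 2006 (.cons 348 (.leaf 324 2012 (.cons 347 (.leaf 372 2204 (.cons 298 (.leaf 227 1814 (.leaf 371 2199 .nil)) .nil)) .nil)) .nil)) (.cons 226 (.leaf 250 1815 (.cons 227 (.leaf 202 1623 (.cons 298 (.leaf 203 1622 (.leaf 322 1814 .nil)) .nil)) .nil)) .nil))) .nil)) .nil)) .nil)) (.cons 273 (.leaf 247 1979 (.cons 251 (.leaf 252 1985 (.cons 250 (.leaf 271 1977 (.cons 299 (.leaf 300 2176 (.cons 226 (.leaf 202 1620 (.leaf 323 1815 .nil)) .nil)) .nil)) .nil)) .nil)) .nil)))))))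
noncomputable def t136 : T := .cons 224 (.cons 199 (.leaf 223 1599 (.cons 200 (.leaf 175 1407 (.cons 201 (.leaf 177 1413 (.leaf 225 1605 .nil)) .nil)) .nil)) (.cons 297 (.leaf 321 1796 (.cons 200 (.leaf 273 1604 (.cons 175 (.leaf 199 1407 (.cons 176 (.leaf 151 1215 (.cons 177 (.leaf 201 1413 (.leaf 153 1221 .nil)) .nil)) .nil)) .nil)) .nil)) (.cons 297 (.leaf 321 1796 (.cons 199 (.leaf 223 1599 (.cons 200 (.leaf 175 1407 (.leaf 273 1604 .nil)) .nil)) .nil)) (.cons 297 (.leaf 321 1796 (.cons 200 (.leaf 273 1604 (.cons 201 (.leaf 177 1413 (.leaf 225 1605 .nil)) .nil)) .nil)) (.cons 225 (.leaf 201 1605 (.cons 199 (.leaf 223 1599 (.cons 297 (.leaf 321 1796 (.cons 320 (.leaf 249 1797 (.cons 343 (.leaf 319 1982 (.cons 344 (.leaf 367 2174 (.cons 368 (.leaf 273 2181 (.cons 369 (.leaf 345 2180 (.leaf 393 2372 .nil)) .nil)) .nil)) .nil)) .nil)) .nil)) .nil)) .nil)) .nil))))) (.cons 224 (.cons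 225 (.leaf 201 1605 (.cons 199 (.leaf 223 1599 (.cons 175 (.leaf 200 1407 (.cons 320 (.leaf 249 1797 (.cons 321 (.leaf 297 1796 (.leaf 345 1988 .nil)) .nil)) .nil)) .nil)) .nil)) (.cons 295 (.leaf 319 1790 (.cons 199 (.leaf 223 1599 (.cons 200 (.leaf 175 1407 (.leaf 271 1598 .nil)) .nil)) .nil)) (.cons 295 (.leaf 319 1790 (.cons 200 (.leaf 271 1598 (.cons 201 (.leaf 177 1413 (.leaf 225 1605 .nil)) .nil)) .nil)) (.cons 225 (.leaf 201 1605 (.cons 199 (.leaf 223 1599 (.cons 249 (.leaf 320 1797 (.cons 295 (.leaf 319 1790 (.cons 297 (.leaf 321 1796 (.cons 298 (.leaf 274 2169 (.cons 271 (.leaf 299 2171 (.leaf 270 2163 .nil)) .nil)) .nil)) .nil)) .nil)) .nil)) .nil)) .nil)))) (.cons 224 (.cons 295 (.leaf 319 1790 (.cons 200 (.leaf 271 1598 (.cons 175 (.leaf 199 1407 (.cons 176 (.leaf 151 1215 (.cons 177 (.leaf 201 1413 (.leaf 153 1221 .nil)) .nil)) .nil)) .nil)) .nil)) (.cons 225 (.leaf 201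 1605 (.cons 199 (.leaf 223 1599 (.cons 200 (.leaf 175 1407 (.cons 197 (.leaf 198 1576 (.cons 249 (.leaf 320 1797 (.cons 273 (.leaf 297 1604 (.leaf 176 1412 .nil)) .nil)) .nil)) .nil)) .nil)) .nil)) (.cons 295 (.leaf 319 1790 (.cons 199 (.leaf 223 1599 (.cons 200 (.leaf 175 1407 (.leaf 271 1598 .nil)) .nil)) .nil)) (.cons 295 (.leaf 319 1790 (.cons 200 (.leaf 271 1598 (.cons 201 (.leaf 177 1413 (.leaf 225 1605 .nil)) .nil)) .nil)) (.cons 225 (.leaf 201 1605 (.cons 199 (.leaf 223 1599 (.cons 249 (.leaf 320 1797 (.cons 295 (.leaf 319 1790 (.cons 274 (.leaf 273 2170 (.cons 298 (.leaf 297 2169 (.cons 250 (.leaf 322 1807 (.cons 251 (.leaf 271 1978 (.leaf 252 1795 .nil)) .nil)) .nil)) .nil)) .nil)) .nil)) .nil)) .nil)) .nil))))) (.cons 224 (.cons 295 (.leaf 319 1790 (.cons 199 (.leaf 223 1599 (.cons 273 (.leaf 274 2170 (.cons 321 (.leaf 297 1796 (.cons 320 (.leaf 345 1988 (.cons 322 (.leaf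 323 2363 (.cons 344 (.leaf 249 1989 (.cons 367 (.leaf 343 2174 (.cons 368 (.leaf 271 2175 (.leaf 391 2366 .nil)) .nil)) .nil)) .nil)) .nil)) .nil)) .nil)) .nil)) .nil)) (.cons 295 (.leaf 319 1790 (.cons 199 (.leaf 223 1599 (.cons 200 (.leaf 175 1407 (.leaf 271 1598 .nil)) .nil)) .nil)) (.cons 297 (.leaf 321 1796 (.cons 200 (.leaf 273 1604 (.cons 175 (.leaf 199 1407 (.cons 176 (.leaf 151 1215 (.cons 177 (.leaf 201 1413 (.leaf 153 1221 .nil)) .nil)) .nil)) .nil)) .nil)) (.cons 295 (.leaf 319 1790 (.cons 200 (.leaf 271 1598 (.cons 297 (.leaf 273 1604 (.leaf 321 1796 .nil)) .nil)) .nil)) .nil)))) (.cons 224 (.cons 199 (.leaf 223 1599 (.cons 225 (.leaf 201 1605 (.cons 320 (.leaf 249 1797 (.cons 321 (.leaf 297 1796 (.leaf 345 1988 .nil)) .nil)) .nil)) .nil)) (.cons 225 (.leaf 201 1605 (.cons 199 (.leaf 223 1599 (.cons 200 (.leaf 175 1407 (.cons 197 (.leaf 198 1576 (.cons 249 (.leaf 320 1797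 (.cons 176 (.leaf 273 1412 (.leaf 152 1220 .nil)) .nil)) .nil)) .nil)) .nil)) .nil)) (.cons 297 (.leaf 321 1796 (.cons 200 (.leaf 273 1604 (.cons 175 (.leaf 199 1407 (.cons 176 (.leaf 151 1215 (.cons 177 (.leaf 201 1413 (.leaf 153 1221 .nil)) .nil)) .nil)) .nil)) .nil)) (.cons 297 (.leaf 321 1796 (.cons 199 (.leaf 223 1599 (.cons 200 (.leaf 175 1407 (.leaf 273 1604 .nil)) .nil)) .nil)) (.cons 297 (.leaf 321 1796 (.cons 200 (.leaf 273 1604 (.cons 201 (.leaf 177 1413 (.leaf 225 1605 .nil)) .nil)) .nil)) .nil))))) .nil))))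
noncomputable def t137 : T := .cons 343 (.leaf 319 1982 (.cons 225 (.leaf 249 1797 (.cons 344 (.leaf 367 2174 (.cons 345 (.leaf 321 1988 (.leaf 369 2180 .nil)) .nil)) .nil)) .nil)) (.cons 343 (.leaf 319 1982 (.cons 344 (.leaf 367 2174 (.cons 345 (.leaf 321 1988 (.leaf 369 2180 .nil)) .nil)) .nil)) (.cons 249 (.leaf 225 1797 (.cons 343 (.leaf 319 1982 (.cons 344 (.leaf 273 1989 (.leaf 367 2174 .nil)) .nil)) .nil)) (.cons 249 (.leaf 225 1797 (.cons 273 (.leaf 344 1989 (.cons 274 (.leaf 295 2170 (.cons 251 (.leaf 252 1985 (.cons 250 (.leaf 271 1977 (.cons 299 (.leaf 300 2176 (.cons 226 (.leaf 202 1620 (.leaf 323 1815 .nil)) .nil)) .nil)) .nil)) .nil)) .nil)) .nil)) (.cons 319 (.leaf 343 1982 (.cons 321 (.leaf 345 1988 (.cons 249 (.leaf 225 1797 (.cons 298 (.cons 297 (.leaf 299 2362 (.leaf 318 2353 .nil)) (.cons 322 (.leaf 299 2361 (.cons 346 (.leaf 347 2552 (.cons 274 (.leaf 251 2005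 (.leaf 273 1999 .nil)) .nil)) .nil)) (.cons 297 (.leaf 318 2353 (.cons 274 (.leaf 295 2169 (.cons 250 (.leaf 226 1806 (.cons 251 (.leaf 271 1978 (.cons 227 (.leaf 203 1622 (.leaf 228 1793 .nil)) .nil)) .nil)) .nil)) .nil)) .nil))) .nil)) .nil)) .nil)) .nil))))
noncomputable def t138 : T := .cons 224 (.cons 199 (.leaf 223 1599 (.cons 225 (.leaf 201 1605 (.cons 319 (.leaf 295 1790 (.cons 320 (.leaf 249 1797 (.leaf 343 1982 .nil)) .nil)) .nil)) .nil)) (.cons 199 (.leaf 223 1599 (.cons 225 (.leaf 201 1605 (.cons 297 (.leaf 321 1796 (.cons 320 (.leaf 249 1797 (.cons 343 (.leaf 319 1982 (.cons 200 (.leaf 175 1407 (.leaf 273 1604 .nil)) .nil)) .nil)) .nil)) .nil)) .nil)) (.cons 295 (.leaf 319 1790 (.cons 199 (.leaf 223 1599 (.cons 273 (.leaf 274 2170 (.cons 321 (.leaf 297 1796 (.cons 320 (.leaf 345 1988 (.cons 322 (.leaf 323 2363 (.cons 344 (.leaf 249 1989 (.cons 367 (.leaf 343 2174 (.cons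 368 (.leaf 271 2175 (.leaf 391 2366 .nil)) .nil)) .nil)) .nil)) .nil)) .nil)) .nil)) .nil)) .nil)) (.cons 201 (.leaf 225 1605 (.cons 200 (.leaf 177 1413 (.cons 297 (.leaf 273 1604 (.leaf 321 1796 .nil)) .nil)) .nil)) .nil)))) (.cons 320 t137 (.cons 224 (.cons 295 (.leaf 319 1790 (.cons 200 (.leaf 271 1598 (.cons 297 (.leaf 273 1604 (.leaf 321 1796 .nil)) .nil)) .nil)) (.cons 295 (.leaf 319 1790 (.cons 200 (.leaf 271 1598 (.cons 175 (.leaf 199 1407 (.cons 176 (.leaf 151 1215 (.cons 177 (.leaf 201 1413 (.leaf 153 1221 .nil)) .nil)) .nil)) .nil)) .nil)) (.cons 297 (.leaf 321 1796 (.cons 200 (.leaf 273 1604 (.cons 175 (.leaf 199 1407 (.cons 176 (.leaf 151 1215 (.cons 177 (.leaf 201 1413 (.leaf 153 1221 .nil)) .nil)) .nil)) .nil)) .nil)) (.cons 199 (.leaf 223 1599 (.cons 201 (.leaf 225 1605 (.cons 295 (.leaf 319 1790 (.cons 297 (.leaf 321 1796 (.cons 298 (.leaf 274 2169 (.cons 271 (.leaf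 299 2171 (.leaf 270 2163 .nil)) .nil)) .nil)) .nil)) .nil)) .nil)) .nil)))) (.cons 224 (.cons 199 (.leaf 223 1599 (.cons 225 (.leaf 201 1605 (.cons 319 (.leaf 295 1790 (.cons 320 (.leaf 249 1797 (.leaf 343 1982 .nil)) .nil)) .nil)) .nil)) (.cons 295 (.leaf 319 1790 (.cons 199 (.leaf 223 1599 (.cons 200 (.leaf 175 1407 (.leaf 271 1598 .nil)) .nil)) .nil)) (.cons 225 (.leaf 201 1605 (.cons 199 (.leaf 223 1599 (.cons 175 (.leaf 200 1407 (.cons 320 (.leaf 249 1797 (.cons 343 (.leaf 319 1982 (.cons 344 (.leaf 367 2174 (.cons 345 (.leaf 321 1988 (.leaf 369 2180 .nil)) .nil)) .nil)) .nil)) .nil)) .nil)) .nil)) (.cons 295 (.leaf 319 1790 (.cons 200 (.leaf 271 1598 (.cons 201 (.leaf 177 1413 (.leaf 225 1605 .nil)) .nil)) .nil)) (.cons 225 (.leaf 201 1605 (.cons 199 (.leaf 223 1599 (.cons 200 (.leaf 175 1407 (.cons 197 (.leaf 198 1576 (.cons 249 (.leaf 320 1797 (.cons 176 (.leaf 273 1412 (.leaf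 152 1220 .nil)) .nil)) .nil)) .nil)) .nil)) .nil)) .nil))))) t136)))
noncomputable def t139 : T := .cons 224 (.cons 199 (.leaf 223 1599 (.cons 200 (.leaf 175 1407 (.cons 201 (.leaf 177 1413 (.leaf 225 1605 .nil)) .nil)) .nil)) (.cons 225 (.leaf 201 1605 (.cons 320 (.leaf 249 1797 (.cons 319 (.leaf 295 1790 (.leaf 343 1982 .nil)) .nil)) .nil)) (.cons 223 (.leaf 199 1599 (.cons 320 (.leaf 247 1791 (.cons 321 (.leaf 297 1796 (.leaf 345 1988 .nil)) .nil)) .nil)) .nil))) (.cons 320 (.cons 247 (.leaf 223 1791 (.cons 344 (.leaf 271 1983 (.cons 343 (.leaf 319 1982 (.leaf 367 2174 .nil)) .nil)) .nil)) (.cons 225 (.leaf 249 1797 (.cons 343 (.leaf 319 1982 (.cons 344 (.leaf 367 2174 (.cons 345 (.leaf 321 1988 (.leaf 369 2180 .nil)) .nil)) .nil)) .nil)) (.cons 247 (.leaf 223 1791 (.cons 249 (.leaf 225 1797 (.cons 250 (.leaf 274 1976 (.cons 271 (.leaf 344 1983 (.leaf 251 1978 .nil)) .nil)) .nil))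 .nil)) (.cons 247 (.leaf 223 1791 (.cons 249 (.leaf 225 1797 (.cons 250 (.leaf 274 1976 (.cons 271 (.leaf 251 1978 (.leaf 270 1970 .nil)) .nil)) .nil)) .nil)) .nil)))) (.cons 224 (.cons 199 (.leaf 223 1599 (.cons 200 (.leaf 175 1407 (.cons 201 (.leaf 177 1413 (.leaf 225 1605 .nil)) .nil)) .nil)) (.cons 295 (.leaf 319 1790 (.cons 200 (.leaf 271 1598 (.cons 175 (.leaf 199 1407 (.cons 176 (.leaf 151 1215 (.cons 177 (.leaf 201 1413 (.leaf 153 1221 .nil)) .nil)) .nil)) .nil)) .nil)) (.cons 295 (.leaf 319 1790 (.cons 200 (.leaf 271 1598 (.cons 201 (.leaf 177 1413 (.leaf 225 1605 .nil)) .nil)) .nil)) (.cons 295 (.leaf 319 1790 (.cons 199 (.leaf 223 1599 (.cons 200 (.leaf 175 1407 (.leaf 271 1598 .nil)) .nil)) .nil)) (.cons 223 (.leaf 199 1599 (.cons 201 (.leaf 225 1605 (.cons 295 (.leaf 319 1790 (.cons 297 (.leaf 321 1796 (.cons 298 (.leaf 274 2169 (.cons 271 (.leaf 299 2171 (.leaf 270 2163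 .nil)) .nil)) .nil)) .nil)) .nil)) .nil)) .nil))))) (.cons 320 (.cons 319 (.leaf 343 1982 (.cons 224 (.leaf 295 1790 (.cons 321 (.leaf 297 1796 (.leaf 345 1988 .nil)) .nil)) .nil)) (.cons 225 (.leaf 249 1797 (.cons 224 (.leaf 201 1605 (.cons 321 (.leaf 297 1796 (.leaf 345 1988 .nil)) .nil)) .nil)) (.cons 225 (.leaf 249 1797 (.cons 224 (.leaf 201 1605 (.cons 319 (.leaf 295 1790 (.leaf 343 1982 .nil)) .nil)) .nil)) (.cons 343 (.leaf 319 1982 (.cons 225 (.leaf 249 1797 (.cons 344 (.leaf 367 2174 (.cons 345 (.leaf 321 1988 (.leaf 369 2180 .nil)) .nil)) .nil)) .nil)) .nil)))) (.cons 224 (.cons 199 (.leaf 223 1599 (.cons 200 (.leaf 175 1407 (.cons 201 (.leaf 177 1413 (.leaf 225 1605 .nil)) .nil)) .nil)) (.cons 225 (.leaf 201 1605 (.cons 320 (.leaf 249 1797 (.cons 321 (.leaf 297 1796 (.leaf 345 1988 .nil)) .nil)) .nil)) (.cons 223 (.leaf 199 1599 (.cons 320 (.leaf 247 1791 (.cons 321 (.leaf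 297 1796 (.leaf 345 1988 .nil)) .nil)) .nil)) .nil))) (.cons 320 (.cons 223 (.leaf 247 1791 (.cons 224 (.leaf 199 1599 (.cons 321 (.leaf 297 1796 (.leaf 345 1988 .nil)) .nil)) .nil)) (.cons 319 (.leaf 343 1982 (.cons 224 (.leaf 295 1790 (.cons 321 (.leaf 297 1796 (.leaf 345 1988 .nil)) .nil)) .nil)) (.cons 223 (.leaf 247 1791 (.cons 224 (.leaf 199 1599 (.cons 319 (.leaf 295 1790 (.leaf 343 1982 .nil)) .nil)) .nil)) (.cons 223 (.leaf 247 1791 (.cons 343 (.leaf 319 1982 (.cons 344 (.leaf 367 2174 (.cons 345 (.leaf 321 1988 (.leaf 369 2180 .nil)) .nil)) .nil)) .nil)) .nil)))) (.cons 224 (.cons 199 (.leaf 223 1599 (.cons 200 (.leaf 175 1407 (.cons 201 (.leaf 177 1413 (.leaf 225 1605 .nil)) .nil)) .nil)) (.cons 225 (.leaf 201 1605 (.cons 249 (.leaf 320 1797 (.cons 295 (.leaf 319 1790 (.cons 271 (.leaf 200 1598 (.cons 250 (.leaf 251 1978 (.cons 247 (.leaf 274 1976 (.leaf 270 1970 .nil))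 .nil)) .nil)) .nil)) .nil)) .nil)) (.cons 223 (.leaf 199 1599 (.cons 247 (.leaf 320 1791 (.cons 295 (.leaf 319 1790 (.cons 271 (.leaf 200 1597 (.cons 222 (.leaf 198 1591 (.cons 221 (.leaf 220 1760 (.leaf 249 1768 .nil)) .nil)) .nil)) .nil)) .nil)) .nil)) (.cons 199 (.leaf 223 1599 (.cons 225 (.leaf 201 1605 (.cons 319 (.leaf 295 1790 (.cons 320 (.leaf 249 1797 (.leaf 343 1982 .nil)) .nil)) .nil)) .nil)) .nil)))) .nil))))))
noncomputable def t140 : T := .cons 222 (.leaf 221 1771 (.cons 223 (.leaf 250 1779 (.cons 199 (.leaf 175 1404 (.cons 224 (.leaf 296 1599 (.cons 200 (.leaf 297 1604 (.leaf 176 1412 .nil)) .nil)) .nil)) .nil)) .nil)) (.cons 270 (.leaf 269 1962 (.cons 222 (.leaf 221 1771 (.cons 198 (.cons 173 (.leaf 197 1391 (.cons 174 (.leaf 271 1396 (.leaf 149 1199 .nil)) .nil)) (.cons 173 (.leaf 197 1391 (.cons 174 (.leaf 149 1199 (.cons 175 (.leaf 151 1205 (.leaf 199 1397 .nil))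 .nil)) .nil)) (.cons 173 (.leaf 197 1391 (.cons 199 (.leaf 175 1397 (.cons 271 (.leaf 295 1588 (.cons 223 (.leaf 296 1596 (.cons 200 (.leaf 176 1405 (.cons 297 (.leaf 224 1604 (.leaf 298 2160 .nil)) .nil)) .nil)) .nil)) .nil)) .nil)) (.cons 271 (.leaf 174 1396 (.leaf 295 1588 .nil)) .nil)))) .nil)) .nil)) (.cons 270 (.leaf 269 1962 (.cons 250 (.leaf 271 1969 (.cons 251 (.leaf 252 1986 (.cons 224 (.leaf 223 1787 (.cons 200 (.leaf 297 1604 (.leaf 176 1412 .nil)) .nil)) .nil)) .nil)) .nil)) (.cons 270 (.leaf 269 1962 (.cons 271 (.leaf 250 1969 (.cons 222 (.leaf 221 1771 (.cons 198 (.leaf 174 1396 (.leaf 295 1588 .nil)) .nil)) .nil)) .nil)) .nil)))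
noncomputable def t141 : T := .cons 199 (.leaf 175 1404 (.cons 200 (.cons 271 (.leaf 296 1596 (.leaf 176 1405 .nil)) (.cons 224 (.leaf 296 1599 (.leaf 297 1604 .nil)) (.cons 271 (.leaf 176 1405 (.cons 224 (.leaf 295 1597 (.leaf 297 1604 .nil)) .nil)) .nil))) .nil)) (.cons 296 (.leaf 320 1791 (.cons 224 (.cons 200 (.leaf 297 1604 (.cons 271 (.leaf 295 1597 (.leaf 176 1406 .nil)) .nil)) (.cons 225 (.leaf 201 1605 (.leaf 226 1778 .nil)) .nil)) .nil)) (.cons 199 (.leaf 175 1404 (.cons 200 (.cons 271 (.leaf 176 1405 (.cons 224 (.leaf 295 1597 (.leaf 297 1604 .nil)) .nil)) (.cons 271 (.leaf 176 1405 (.cons 198 (.leaf 174 1399 (.cons 222 (.leaf 295 1591 (.cons 221 (.leaf 220 1760 (.leaf 201 1578 .nil)) .nil)) .nil)) .nil)) (.cons 224 (.leaf 297 1604 (.cons 152 (.leaf 176 1214 (.cons 225 (.leaf 226 1778 (.cons 197 (.leaf 198 1576 (.cons 201 (.leaf 177 1413 (.cons 222 (.leaf 202 1585 (.leaf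 221 1577 .nil)) .nil)) .nil)) .nil)) .nil)) .nil)) (.cons 224 (.leaf 297 1604 (.cons 271 (.leaf 295 1597 (.cons 201 (.leaf 177 1413 (.cons 202 (.leaf 222 1586 (.leaf 203 1594 .nil)) .nil)) .nil)) .nil)) .nil)))) .nil)) (.cons 199 (.leaf 175 1404 (.cons 296 (.leaf 271 1596 (.leaf 320 1791 .nil)) .nil)) (.cons 199 (.leaf 175 1404 (.cons 296 (.leaf 224 1599 (.leaf 320 1791 .nil)) .nil)) .nil))))
noncomputable def t142 : T := .cons 224 (.cons 199 (.leaf 223 1599 (.cons 225 (.leaf 201 1605 (.cons 226 (.leaf 227 1786 (.cons 246 (.leaf 245 1769 (.leaf 249 1777 .nil)) .nil)) .nil)) .nil)) (.cons 201 (.leaf 225 1605 (.cons 200 (.leaf 177 1413 (.cons 297 (.leaf 273 1604 (.leaf 321 1796 .nil)) .nil)) .nil)) (.cons 199 (.leaf 223 1599 (.cons 200 (.leaf 175 1407 (.cons 176 (.leaf 271 1406 (.cons 177 (.leaf 201 1413 (.leaf 153 1221 .nil)) .nil)) .nil)) .nil)) (.cons 199 (.leaf 223 1599 (.cons 200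 (.leaf 175 1407 (.cons 297 (.leaf 273 1604 (.leaf 321 1796 .nil)) .nil)) .nil)) .nil)))) (.cons 320 (.cons 225 (.leaf 249 1797 (.cons 343 (.leaf 319 1982 (.cons 344 (.leaf 271 1983 (.leaf 367 2174 .nil)) .nil)) .nil)) (.cons 225 (.leaf 249 1797 (.cons 224 (.leaf 201 1605 (.cons 321 (.leaf 297 1796 (.leaf 345 1988 .nil)) .nil)) .nil)) (.cons 344 (.leaf 271 1983 (.cons 343 (.leaf 319 1982 (.leaf 367 2174 .nil)) .nil)) .nil))) (.cons 320 (.leaf 223 1791 (.cons 344 (.leaf 271 1983 (.cons 343 (.leaf 319 1982 (.leaf 367 2174 .nil)) .nil)) .nil)) (.cons 320 (.leaf 223 1791 (.cons 225 (.leaf 249 1797 (.cons 343 (.leaf 319 1982 (.cons 344 (.leaf 367 2174 (.cons 345 (.leaf 321 1988 (.leaf 369 2180 .nil)) .nil)) .nil)) .nil)) .nil)) .nil)))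
noncomputable def t143 : T := .cons 274 (.leaf 273 1979 (.cons 249 (.leaf 250 1976 (.cons 296 (.cons 320 (.leaf 223 1791 (.leaf 225 1797 .nil)) (.cons 224 (.cons 199 (.leaf 223 1599 (.cons 200 (.leaf 175 1407 (.cons 176 (.leaf 271 1406 (.cons 177 (.leaf 201 1413 (.leaf 153 1221 .nil)) .nil)) .nil)) .nil)) (.cons 295 (.leaf 319 1790 (.cons 297 (.leaf 298 2169 (.leaf 321 1796 .nil)) .nil)) .nil)) (.cons 320 (.leaf 225 1797 (.cons 319 (.leaf 343 1982 (.cons 224 (.leaf 295 1790 (.cons 321 (.leaf 297 1796 (.leaf 345 1988 .nil)) .nil)) .nil)) .nil)) .nil))) .nil)) .nil)) (.cons 249 (.cons 250 (.leaf 274 1976 (.cons 226 (.leaf 227 1785 (.cons 222 (.leaf 223 1779 (.cons 246 (.leaf 221 1771 (.leaf 225 1777 .nil)) .nil)) .nil)) .nil)) (.cons 246 (.cons 225 (.leaf 226 1777 (.cons 177 (.leaf 201 1414 (.cons 221 (.leaf 222 1771 (.cons 245 (.leaf 220 1763 (.leaf 224 1769 .nil)) .nil)) .nil)) .nil))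 (.cons 269 (.leaf 270 1962 (.cons 221 (.leaf 222 1771 (.cons 245 (.leaf 220 1763 (.leaf 268 1954 .nil)) .nil)) .nil)) (.cons 225 (.leaf 226 1777 (.cons 177 (.leaf 201 1414 (.cons 245 (.leaf 224 1769 (.cons 269 (.leaf 268 1954 (.leaf 270 1962 .nil)) .nil)) .nil)) .nil)) (.cons 225 (.leaf 226 1777 (.cons 201 (.leaf 177 1414 (.cons 296 (.leaf 224 1605 (.leaf 320 1797 .nil)) .nil)) .nil)) .nil)))) (.cons 250 (.leaf 274 1976 (.cons 271 (.leaf 251 1978 (.leaf 270 1970 .nil)) .nil)) .nil))) (.cons 296 t142 (.cons 273 (.leaf 274 1979 (.cons 246 (.leaf 245 1960 (.cons 223 t141 .nil)) .nil)) (.cons 273 (.leaf 274 1979 (.cons 246 (.leaf 245 1960 (.cons 249 (.cons 221 (.leaf 222 1771 (.cons 225 (.leaf 226 1777 (.cons 201 (.leaf 177 1414 (.cons 200 (.leaf 176 1415 (.cons 270 (.leaf 269 1962 (.cons 271 (.leaf 250 1969 (.cons 224 (.leaf 295 1598 (.leaf 297 1604 .nil)) .nil)) .nil)) .nil)) .nil))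 .nil)) .nil)) (.cons 221 (.leaf 222 1771 (.cons 225 (.leaf 226 1777 (.cons 201 (.leaf 177 1414 (.cons 200 (.leaf 176 1415 (.cons 224 (.leaf 297 1604 (.cons 175 (.leaf 199 1407 (.cons 202 (.leaf 178 1421 (.cons 203 (.leaf 204 1602 (.leaf 223 1594 .nil)) .nil)) .nil)) .nil)) .nil)) .nil)) .nil)) .nil)) (.cons 270 (.leaf 269 1962 (.cons 250 (.leaf 271 1969 (.cons 221 (.leaf 222 1771 (.cons 227 (.leaf 226 1785 (.cons 251 (.leaf 252 1986 (.leaf 228 1793 .nil)) .nil)) .nil)) .nil)) .nil)) (.cons 270 (.leaf 269 1962 (.cons 250 (.leaf 271 1969 (.cons 251 (.leaf 252 1986 (.cons 224 (.leaf 223 1787 (.cons 200 (.leaf 297 1604 (.leaf 176 1412 .nil)) .nil)) .nil)) .nil)) .nil)) .nil)))) .nil)) .nil)) (.cons 273 (.leaf 274 1979 (.cons 246 (.leaf 245 1960 (.cons 249 (.cons 225 (.leaf 226 1777 (.cons 201 (.leaf 177 1414 (.leaf 296 1606 .nil)) .nil)) (.cons 270 (.leaf 269 1962 (.cons 271 (.leaf 250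 1969 (.cons 222 (.leaf 221 1771 (.cons 198 (.leaf 174 1396 (.leaf 295 1588 .nil)) .nil)) .nil)) .nil)) .nil)) .nil)) .nil)) (.cons 273 (.leaf 274 1979 (.cons 246 (.leaf 245 1960 (.cons 249 (.cons 222 (.leaf 221 1771 (.cons 223 (.leaf 250 1779 (.cons 199 (.leaf 175 1404 (.cons 224 (.leaf 296 1599 (.cons 200 (.leaf 297 1604 (.leaf 176 1412 .nil)) .nil)) .nil)) .nil)) .nil)) (.cons 225 (.leaf 226 1777 (.cons 201 (.leaf 177 1414 (.leaf 296 1606 .nil)) .nil)) (.cons 225 (.leaf 226 1777 (.cons 201 (.leaf 177 1414 (.cons 178 (.leaf 202 1421 (.cons 200 (.leaf 176 1415 (.cons 297 (.leaf 224 1604 (.cons 269 (.leaf 270 1962 (.cons 321 (.leaf 345 1991 (.cons 322 (.leaf 298 1804 (.leaf 346 1996 .nil)) .nil)) .nil)) .nil)) .nil)) .nil)) .nil)) .nil)) .nil))) .nil)) .nil)) (.cons 273 (.leaf 274 1979 (.cons 246 (.leaf 245 1960 (.cons 249 t140 .nil)) .nil)) .nil)))))))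
noncomputable def t144 : T := .cons 226 (.leaf 202 1623 (.cons 204 (.leaf 228 1629 (.cons 323 (.leaf 250 1815 (.cons 324 (.leaf 300 1820 (.leaf 348 2012 .nil)) .nil)) .nil)) .nil)) (.cons 228 (.leaf 204 1629 (.cons 298 (.leaf 322 1814 (.cons 300 (.leaf 324 1820 (.cons 252 (.leaf 323 1821 (.cons 253 (.leaf 254 2002 (.cons 301 (.leaf 302 2195 (.cons 277 (.leaf 278 2193 (.leaf 325 1831 .nil)) .nil)) .nil)) .nil)) .nil)) .nil)) .nil)) (.cons 226 (.leaf 202 1623 (.cons 250 (.leaf 323 1815 (.cons 298 (.leaf 322 1813 (.cons 225 (.leaf 201 1615 (.cons 224 (.leaf 223 1784 (.leaf 252 1792 .nil)) .nil)) .nil)) .nil)) .nil)) (.cons 226 (.leaf 202 1623 (.cons 228 (.leaf 204 1629 (.cons 300 (.leaf 324 1820 (.cons 301 (.leaf 302 2195 (.cons 225 (.cons 248 (.leaf 249 1794 (.cons 224 (.leaf 252 1792 (.leaf 247 1786 .nil)) .nil)) (.cons 200 (.leaf 201 1603 (.cons 298 (.leaf 322 1814 (.cons 199 (.leaf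 224 1595 (.cons 249 (.leaf 248 1794 (.cons 250 (.leaf 229 1802 (.cons 297 (.leaf 321 1806 (.cons 296 (.leaf 295 2169 (.leaf 271 2171 .nil)) .nil)) .nil)) .nil)) .nil)) .nil)) .nil)) (.cons 248 (.leaf 249 1794 (.cons 298 (.leaf 322 1814 (.cons 201 (.leaf 250 1615 (.leaf 200 1603 .nil)) .nil)) .nil)) (.cons 252 (.leaf 224 1792 (.leaf 253 1800 .nil)) .nil)))) .nil)) .nil)) .nil)) .nil)) .nil)))
noncomputable def t145 : T := .cons 203 (.leaf 298 1622 (.cons 179 (.leaf 250 1430 (.cons 180 (.leaf 204 1437 (.leaf 156 1245 .nil)) .nil)) .nil)) (.cons 299 t144 (.cons 299 (.cons 202 (.leaf 226 1623 (.cons 203 (.leaf 178 1431 (.cons 204 (.leaf 180 1437 (.leaf 228 1629 .nil)) .nil)) .nil)) (.cons 228 (.leaf 204 1629 (.cons 252 (.leaf 323 1821 (.cons 253 (.leaf 254 2002 (.cons 300 (.leaf 324 1820 (.cons 301 (.leaf 302 2195 (.cons 277 (.leaf 325 1831 (.cons 250 (.leaf 278 2000 (.cons 229 (.leaf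 230 1809 (.leaf 249 1801 .nil)) .nil)) .nil)) .nil)) .nil)) .nil)) .nil)) .nil)) (.cons 202 (.leaf 226 1623 (.cons 203 (.leaf 178 1431 (.cons 250 (.leaf 179 1430 (.cons 323 (.leaf 347 2007 (.cons 324 (.leaf 300 1820 (.leaf 348 2012 .nil)) .nil)) .nil)) .nil)) .nil)) .nil))) (.cons 203 (.leaf 298 1622 (.cons 178 (.leaf 202 1431 (.cons 179 (.leaf 154 1239 (.cons 180 (.leaf 204 1437 (.leaf 156 1245 .nil)) .nil)) .nil)) .nil)) (.cons 203 (.leaf 298 1622 (.cons 178 (.leaf 202 1431 (.cons 179 (.leaf 154 1239 (.leaf 250 1430 .nil)) .nil)) .nil)) .nil))))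
noncomputable def t146 : T := .cons 273 (.leaf 252 1985 (.cons 299 (.leaf 300 2176 (.cons 247 (.leaf 248 1979 (.cons 271 (.leaf 246 1971 (.leaf 250 1977 .nil)) .nil)) .nil)) .nil)) (.cons 227 t145 (.cons 273 (.cons 299 (.leaf 300 2176 (.cons 247 (.leaf 248 1979 (.cons 271 (.leaf 246 1971 (.leaf 250 1977 .nil)) .nil)) .nil)) (.cons 299 (.leaf 300 2176 (.cons 248 (.leaf 247 1979 (.cons 296 (.leaf 295 2170 (.cons 224 (.cons 297 (.leaf 200 1604 (.leaf 321 1796 .nil)) (.cons 225 (.leaf 201 1605 (.cons 199 (.leaf 223 1599 (.cons 200 (.leaf 175 1407 (.cons 249 (.leaf 320 1797 (.leaf 176 1412 .nil)) .nil)) .nil)) .nil)) (.cons 321 (.leaf 297 1796 (.cons 199 (.leaf 223 1599 (.cons 225 (.leaf 201 1605 (.cons 320 (.leaf 249 1797 (.leaf 345 1988 .nil)) .nil)) .nil)) .nil)) .nil))) .nil)) .nil)) .nil)) (.cons 271 (.leaf 250 1977 (.cons 295 (.leaf 296 2170 (.leaf 294 2162 .nil)) .nil)) .nil))) (.cons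 273 (.leaf 252 1985 (.cons 299 (.leaf 300 2176 (.cons 247 (.leaf 248 1979 (.cons 271 (.leaf 246 1971 (.leaf 298 2168 .nil)) .nil)) .nil)) .nil)) (.cons 273 (.leaf 252 1985 (.cons 271 (.leaf 250 1977 (.cons 295 (.leaf 296 2170 (.leaf 294 2162 .nil)) .nil)) .nil)) (.cons 273 (.leaf 252 1985 (.cons 299 (.leaf 300 2176 (.cons 248 (.leaf 247 1979 (.cons 296 (.leaf 295 2170 (.cons 224 (.cons 297 (.leaf 200 1604 (.leaf 321 1796 .nil)) (.cons 225 (.leaf 201 1605 (.cons 199 (.leaf 223 1599 (.cons 200 (.leaf 175 1407 (.cons 249 (.leaf 320 1797 (.leaf 176 1412 .nil)) .nil)) .nil)) .nil)) (.cons 321 (.leaf 297 1796 (.cons 199 (.leaf 223 1599 (.cons 225 (.leaf 201 1605 (.cons 320 (.leaf 249 1797 (.leaf 345 1988 .nil)) .nil)) .nil)) .nil)) .nil))) .nil)) .nil)) .nil)) .nil)) .nil)))))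
noncomputable def t147 : T := .cons 203 (.leaf 298 1622 (.cons 202 (.leaf 178 1431 (.cons 204 (.leaf 180 1437 (.cons 228 (.leaf 299 1629 (.cons 201 (.leaf 200 1600 (.leaf 229 1608 .nil)) .nil)) .nil)) .nil)) .nil)) (.cons 299 (.cons 324 (.leaf 300 1820 (.cons 323 (.leaf 228 1821 (.leaf 348 2012 .nil)) .nil)) (.cons 324 (.leaf 300 1820 (.cons 323 (.leaf 348 2012 (.cons 347 (.leaf 250 2007 (.cons 371 (.leaf 298 2199 (.cons 370 (.leaf 346 2198 (.leaf 394 2390 .nil)) .nil)) .nil)) .nil)) .nil)) (.cons 228 (.leaf 204 1629 (.cons 300 (.leaf 324 1820 (.cons 301 (.leaf 302 2195 (.cons 277 (.leaf 325 1831 (.cons 250 (.leaf 278 2000 (.cons 229 (.leaf 230 1809 (.leaf 249 1801 .nil)) .nil)) .nil)) .nil)) .nil)) .nil)) (.cons 228 (.leaf 204 1629 (.leaf 323 1821 .nil)) .nil)))) (.cons 203 (.leaf 298 1622 (.cons 178 (.leaf 202 1431 (.cons 179 (.leaf 154 1239 (.leaf 250 1430 .nil)) .nil)) .nil)) (.cons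 203 (.cons 202 (.leaf 178 1431 (.cons 204 (.leaf 180 1437 (.cons 228 (.leaf 299 1629 (.cons 201 (.leaf 200 1600 (.leaf 229 1608 .nil)) .nil)) .nil)) .nil)) (.cons 178 (.leaf 202 1431 (.cons 179 (.leaf 154 1239 (.leaf 250 1430 .nil)) .nil)) (.cons 250 (.leaf 179 1430 (.cons 180 (.leaf 204 1437 (.cons 229 (.leaf 230 1809 (.cons 228 (.leaf 249 1801 (.cons 277 (.leaf 278 2000 (.cons 299 (.leaf 323 1821 (.cons 300 (.leaf 324 1820 (.cons 301 (.leaf 302 2195 (.leaf 325 1831 .nil)) .nil)) .nil)) .nil)) .nil)) .nil)) .nil)) .nil)) .nil))) .nil)))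
noncomputable def t148 : T := .cons 201 (.leaf 296 1606 (.cons 177 (.leaf 248 1414 (.cons 178 (.leaf 202 1421 (.leaf 154 1229 .nil)) .nil)) .nil)) (.cons 226 (.cons 227 (.leaf 224 1792 (.cons 228 (.leaf 248 1794 (.cons 204 (.leaf 180 1438 (.leaf 299 1629 .nil)) .nil)) .nil)) (.cons 297 (.leaf 202 1613 (.cons 224 (.leaf 200 1607 (.cons 248 (.leaf 321 1799 (.cons 296 (.leaf 320 1797 (.cons 223 (.leaf 199 1599 (.cons 246 (.leaf 247 1777 (.cons 222 (.leaf 221 1768 (.leaf 245 1770 .nil)) .nil)) .nil)) .nil)) .nil)) .nil)) .nil)) (.cons 202 (.leaf 297 1613 (.cons 154 (.leaf 178 1230 (.cons 227 (.leaf 299 1623 (.cons 228 (.leaf 248 1794 (.cons 204 (.leaf 180 1438 (.leaf 205 1609 .nil)) .nil)) .nil)) .nil)) .nil)) (.cons 202 (.leaf 297 1613 (.cons 227 (.leaf 299 1623 (.leaf 224 1792 .nil)) .nil)) .nil)))) (.cons 201 (.cons 176 (.leaf 200 1415 (.cons 177 (.leaf 248 1414 (.leaf 152 1223 .nil))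 .nil)) (.cons 177 (.leaf 248 1414 (.cons 178 (.leaf 202 1421 (.leaf 154 1229 .nil)) .nil)) (.cons 176 (.leaf 200 1415 (.cons 202 (.leaf 178 1421 (.cons 226 (.leaf 297 1613 (.cons 227 (.leaf 299 1623 (.leaf 224 1792 .nil)) .nil)) .nil)) .nil)) .nil))) (.cons 201 (.leaf 296 1606 (.cons 176 (.leaf 200 1415 (.cons 177 (.leaf 152 1223 (.cons 178 (.leaf 202 1421 (.leaf 154 1229 .nil)) .nil)) .nil)) .nil)) (.cons 296 (.leaf 201 1606 (.cons 320 (.leaf 248 1797 (.leaf 344 1989 .nil)) .nil)) .nil))))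
noncomputable def t149 : T := .cons 226 (.cons 225 (.leaf 224 1792 (.cons 253 (.leaf 254 1811 (.leaf 228 1800 .nil)) .nil)) (.cons 202 (.leaf 299 1623 (.cons 178 (.leaf 203 1431 (.leaf 154 1236 .nil)) .nil)) .nil)) (.cons 274 (.leaf 273 1985 (.cons 203 (.leaf 298 1622 (.cons 202 (.leaf 178 1431 (.cons 204 (.leaf 180 1437 (.cons 226 (.leaf 299 1623 (.cons 225 (.leaf 224 1792 (.leaf 205 1610 .nil)) .nil)) .nil)) .nil)) .nil)) .nil)) (.cons 274 (.leaf 273 1985 (.cons 203 (.leaf 298 1622 (.cons 178 (.leaf 202 1431 (.cons 179 (.leaf 154 1239 (.cons 155 (.leaf 228 1244 (.cons 156 (.leaf 180 1245 (.leaf 132 1053 .nil)) .nil)) .nil)) .nil)) .nil)) .nil)) (.cons 273 (.leaf 274 1985 (.cons 299 (.cons 226 (.leaf 202 1623 (.cons 225 (.leaf 224 1792 (.cons 228 (.leaf 204 1629 (.leaf 323 1821 .nil)) .nil)) .nil)) (.cons 226 (.leaf 202 1623 (.cons 224 (.leaf 225 1792 (.cons 253 (.leaf 254 1811 (.cons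 300 (.leaf 324 1820 (.cons 297 (.leaf 298 2179 (.cons 248 (.leaf 200 1604 (.cons 321 (.leaf 296 1796 (.leaf 345 1991 .nil)) .nil)) .nil)) .nil)) .nil)) .nil)) .nil)) (.cons 228 (.leaf 204 1629 (.leaf 323 1821 .nil)) .nil))) .nil)) (.cons 274 (.leaf 273 1985 (.cons 203 (.leaf 298 1622 (.cons 180 (.leaf 204 1437 (.cons 179 (.leaf 156 1245 (.cons 154 (.leaf 178 1239 (.cons 155 (.leaf 228 1244 (.leaf 130 1047 .nil)) .nil)) .nil)) .nil)) .nil)) .nil)) .nil))))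
noncomputable def t150 : T := .cons 254 (.leaf 274 2002 (.cons 227 (.leaf 226 1811 (.cons 231 (.leaf 230 1817 (.cons 255 (.leaf 228 1819 (.leaf 232 1825 .nil)) .nil)) .nil)) .nil)) (.cons 250 (.cons 226 (.leaf 225 1803 (.cons 202 (.leaf 178 1428 (.cons 227 (.leaf 299 1623 (.cons 229 (.leaf 230 1809 (.cons 228 (.leaf 249 1801 (.leaf 201 1611 .nil)) .nil)) .nil)) .nil)) .nil)) (.cons 229 (.leaf 230 1809 (.cons 228 (.leaf 249 1801 (.cons 180 (.leaf 204 1438 (.cons 277 (.leaf 278 2000 (.cons 299 (.leaf 323 1821 (.cons 301 (.leaf 325 1831 (.cons 300 (.leaf 324 1830 (.cons 302 (.leaf 274 2195 (.leaf 326 1836 .nil)) .nil)) .nil)) .nil)) .nil)) .nil)) .nil)) .nil)) (.cons 226 (.leaf 225 1803 (.cons 202 (.leaf 178 1428 (.cons 299 (.leaf 227 1623 (.leaf 274 1620 .nil)) .nil)) .nil)) (.cons 229 (.leaf 230 1809 (.cons 228 (.leaf 249 1801 (.cons 204 (.leaf 180 1438 (.cons 277 (.leaf 278 2000 (.leaf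 301 1639 .nil)) .nil)) .nil)) .nil)) .nil)))) (.cons 250 (.cons 226 (.leaf 225 1803 (.cons 178 (.leaf 202 1428 (.cons 299 (.leaf 323 1815 (.cons 230 (.leaf 229 1809 (.cons 254 (.leaf 227 1811 (.leaf 231 1817 .nil)) .nil)) .nil)) .nil)) .nil)) (.cons 229 (.leaf 230 1809 (.cons 228 (.leaf 249 1801 (.cons 204 (.leaf 180 1438 (.cons 277 (.leaf 278 2000 (.leaf 301 1639 .nil)) .nil)) .nil)) .nil)) (.cons 226 (.leaf 225 1803 (.cons 178 (.leaf 202 1428 (.cons 254 (.leaf 227 1811 (.cons 278 (.leaf 277 2000 (.leaf 279 2008 .nil)) .nil)) .nil)) .nil)) .nil))) (.cons 254 (.leaf 274 2002 (.cons 231 (.leaf 230 1817 (.cons 255 (.leaf 232 1825 (.cons 279 (.leaf 278 2008 (.leaf 280 2016 .nil)) .nil)) .nil)) .nil)) (.cons 254 (.leaf 274 2002 (.cons 227 (.leaf 226 1811 (.cons 255 (.leaf 228 1819 (.cons 279 (.leaf 278 2008 (.leaf 280 2016 .nil)) .nil)) .nil)) .nil)) .nil))))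
noncomputable def t151 : T := .cons 274 (.leaf 273 1985 (.cons 253 (.leaf 254 2002 (.cons 227 (.cons 203 (.leaf 298 1622 (.cons 179 (.leaf 250 1430 (.cons 180 (.leaf 204 1437 (.leaf 156 1245 .nil)) .nil)) .nil)) (.cons 226 (.cons 202 (.leaf 299 1623 (.cons 178 (.leaf 250 1428 (.leaf 154 1236 .nil)) .nil)) (.cons 225 (.leaf 224 1792 (.leaf 228 1800 .nil)) .nil)) (.cons 203 (.leaf 298 1622 (.cons 178 (.leaf 202 1431 (.cons 179 (.leaf 154 1239 (.cons 180 (.leaf 204 1437 (.leaf 156 1245 .nil)) .nil)) .nil)) .nil)) .nil))) .nil)) .nil)) (.cons 253 t150 (.cons 250 (.cons 249 (.leaf 273 1986 (.cons 224 (.leaf 225 1795 (.cons 228 (.leaf 229 1801 (.cons 248 (.leaf 271 1978 (.leaf 223 1787 .nil)) .nil)) .nil)) .nil)) (.cons 226 (.cons 202 (.leaf 178 1428 (.cons 299 (.leaf 227 1623 (.leaf 323 1815 .nil)) .nil)) (.cons 178 (.leaf 202 1428 (.cons 225 (.leaf 253 1803 (.cons 224 (.leaf 223 1784 (.leaf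 227 1792 .nil)) .nil)) .nil)) (.cons 253 (.leaf 225 1803 (.cons 254 (.leaf 227 1811 (.cons 230 (.leaf 229 1809 (.leaf 231 1817 .nil)) .nil)) .nil)) (.cons 178 (.leaf 202 1428 (.cons 253 (.leaf 225 1803 (.cons 299 (.leaf 323 1815 (.cons 230 (.leaf 229 1809 (.cons 254 (.leaf 231 1817 (.cons 278 (.leaf 277 2000 (.leaf 279 2008 .nil)) .nil)) .nil)) .nil)) .nil)) .nil)) .nil)))) (.cons 249 (.leaf 273 1986 (.cons 228 (.leaf 229 1801 (.cons 248 (.leaf 271 1978 (.leaf 227 1793 .nil)) .nil)) .nil)) (.cons 249 (.leaf 273 1986 (.cons 224 (.leaf 225 1795 (.cons 248 (.leaf 271 1978 (.leaf 223 1787 .nil)) .nil)) .nil)) .nil)))) (.cons 227 t149 (.cons 273 (.leaf 274 1985 (.cons 250 (.leaf 249 1986 (.cons 226 (.cons 225 (.leaf 253 1803 (.cons 224 (.leaf 223 1784 (.leaf 227 1792 .nil)) .nil)) (.cons 202 (.leaf 178 1428 (.cons 299 (.leaf 227 1623 (.leaf 323 1815 .nil)) .nil)) (.cons 253 (.leaf 225 1803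 (.cons 178 (.leaf 202 1428 (.cons 230 (.leaf 229 1809 (.cons 254 (.leaf 231 1817 (.cons 278 (.leaf 277 2000 (.leaf 279 2008 .nil)) .nil)) .nil)) .nil)) .nil)) .nil))) .nil)) .nil)) (.cons 273 (.leaf 274 1985 (.cons 249 (.leaf 250 1986 (.cons 225 t148 .nil)) .nil)) (.cons 274 (.leaf 273 1985 (.cons 253 (.leaf 254 2002 (.cons 250 (.cons 229 (.leaf 230 1809 (.cons 225 (.leaf 226 1803 (.cons 249 (.leaf 224 1795 (.leaf 228 1801 .nil)) .nil)) .nil)) (.cons 229 (.leaf 230 1809 (.cons 228 (.leaf 249 1801 (.cons 204 (.leaf 180 1438 (.cons 277 (.leaf 278 2000 (.leaf 301 1639 .nil)) .nil)) .nil)) .nil)) (.cons 225 (.leaf 226 1803 (.cons 249 (.leaf 224 1795 (.cons 248 (.leaf 247 1976 (.leaf 271 1978 .nil)) .nil)) .nil)) (.cons 226 (.leaf 225 1803 (.cons 202 (.leaf 178 1428 (.cons 203 (.leaf 179 1429 (.cons 227 (.leaf 298 1621 (.cons 204 (.leaf 180 1437 (.cons 229 (.leaf 230 1809 (.cons 201 (.leaf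 177 1423 (.leaf 228 1608 .nil)) .nil)) .nil)) .nil)) .nil)) .nil)) .nil)) .nil)))) .nil)) .nil)) (.cons 274 (.leaf 273 1985 (.cons 253 (.leaf 254 2002 (.cons 250 (.cons 229 (.leaf 230 1809 (.cons 225 (.leaf 226 1803 (.cons 249 (.leaf 224 1795 (.leaf 228 1801 .nil)) .nil)) .nil)) (.cons 229 (.leaf 230 1809 (.cons 228 (.leaf 249 1801 (.cons 277 (.leaf 278 2000 (.cons 301 (.leaf 325 1831 (.leaf 204 1639 .nil)) .nil)) .nil)) .nil)) (.cons 226 (.leaf 225 1803 (.cons 202 (.leaf 178 1428 (.leaf 299 1620 .nil)) .nil)) .nil))) .nil)) .nil)) (.cons 274 (.leaf 273 1985 (.cons 253 (.leaf 254 2002 (.cons 227 t147 .nil)) .nil)) (.cons 274 (.leaf 273 1985 (.cons 253 (.leaf 254 2002 (.cons 250 (.cons 225 (.leaf 226 1803 (.cons 229 (.leaf 230 1809 (.cons 249 (.leaf 224 1795 (.leaf 228 1801 .nil)) .nil)) .nil)) (.cons 229 (.leaf 230 1809 (.cons 228 (.leaf 249 1801 (.cons 277 (.leaf 278 2000 (.cons 301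 (.leaf 325 1831 (.leaf 204 1639 .nil)) .nil)) .nil)) .nil)) (.cons 225 (.leaf 226 1803 (.cons 249 (.leaf 224 1795 (.cons 248 (.leaf 247 1976 (.leaf 271 1978 .nil)) .nil)) .nil)) (.cons 226 (.leaf 225 1803 (.cons 299 (.leaf 323 1815 (.cons 229 (.leaf 230 1809 (.cons 277 (.leaf 278 2000 (.cons 227 (.cons 203 (.leaf 298 1621 (.leaf 179 1430 .nil)) (.cons 228 (.leaf 204 1629 (.cons 301 (.leaf 325 1831 (.cons 300 (.leaf 324 1820 (.leaf 302 2195 .nil)) .nil)) .nil)) .nil)) .nil)) .nil)) .nil)) .nil)) .nil)))) .nil)) .nil)) .nil)))))))))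
noncomputable def t152 : T := .cons 322 (.leaf 346 2005 (.cons 227 (.leaf 203 1622 (.leaf 299 1814 .nil)) .nil)) (.cons 227 (.leaf 203 1622 (.cons 299 (.cons 228 (.leaf 204 1629 (.cons 300 (.leaf 324 1820 (.cons 252 (.leaf 323 1821 (.cons 253 (.leaf 254 2002 (.cons 301 (.leaf 302 2195 (.cons 277 (.leaf 278 2193 (.leaf 325 1831 .nil)) .nil)) .nil)) .nil)) .nil)) .nil)) (.cons 228 (.leaf 204 1629 (.cons 300 (.leaf 324 1820 (.cons 301 (.leaf 302 2195 (.cons 277 (.leaf 278 2193 (.cons 325 (.leaf 326 2384 (.cons 253 (.leaf 252 1831 (.cons 230 (.leaf 254 1837 (.cons 229 (.leaf 250 1810 (.leaf 206 1645 .nil)) .nil)) .nil)) .nil)) .nil)) .nil)) .nil)) .nil)) (.cons 324 (.leaf 300 1820 (.cons 323 (.leaf 348 2012 (.cons 347 (.leaf 250 2007 (.leaf 371 2199 .nil)) .nil)) .nil)) (.cons 228 (.leaf 204 1629 (.cons 323 (.leaf 252 1821 (.cons 250 (.leaf 226 1812 (.leaf 347 2007 .nil)) .nil)) .nil))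 .nil)))) .nil)) (.cons 322 (.leaf 346 2005 (.cons 250 (.cons 249 (.leaf 225 1807 (.cons 248 (.leaf 247 1976 (.leaf 271 1978 .nil)) .nil)) (.cons 323 (.leaf 347 2004 (.cons 321 (.leaf 345 1998 (.cons 226 (.leaf 299 1812 (.leaf 297 1806 .nil)) .nil)) .nil)) .nil)) .nil)) (.cons 322 (.leaf 346 2005 (.cons 250 (.leaf 227 1813 (.cons 249 (.leaf 225 1807 (.cons 248 (.leaf 247 1976 (.leaf 271 1978 .nil)) .nil)) .nil)) .nil)) .nil)))
noncomputable def t153 : T := .cons 273 (.leaf 252 1985 (.cons 271 (.leaf 250 1977 (.cons 295 (.leaf 296 2170 (.leaf 294 2162 .nil)) .nil)) .nil)) (.cons 298 t152 (.cons 273 (.cons 299 (.leaf 300 2176 (.cons 247 (.leaf 248 1979 (.cons 271 (.leaf 246 1971 (.leaf 250 1977 .nil)) .nil)) .nil)) (.cons 299 (.leaf 300 2176 (.cons 248 (.leaf 247 1979 (.cons 296 (.leaf 295 2170 (.cons 224 (.cons 297 (.leaf 200 1604 (.leaf 321 1796 .nil)) (.cons 225 (.leaf 201 1605 (.cons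 199 (.leaf 223 1599 (.cons 200 (.leaf 175 1407 (.cons 249 (.leaf 320 1797 (.leaf 176 1412 .nil)) .nil)) .nil)) .nil)) (.cons 321 (.leaf 297 1796 (.cons 199 (.leaf 223 1599 (.cons 225 (.leaf 201 1605 (.cons 320 (.leaf 249 1797 (.leaf 345 1988 .nil)) .nil)) .nil)) .nil)) .nil))) .nil)) .nil)) .nil)) (.cons 271 (.leaf 250 1977 (.cons 295 (.leaf 296 2170 (.leaf 294 2162 .nil)) .nil)) .nil))) (.cons 273 (.leaf 252 1985 (.cons 299 (.leaf 300 2176 (.cons 247 (.leaf 248 1979 (.cons 271 (.leaf 246 1971 (.leaf 298 2168 .nil)) .nil)) .nil)) .nil)) (.cons 273 (.leaf 252 1985 (.cons 299 (.leaf 300 2176 (.cons 248 (.leaf 247 1979 (.cons 296 (.leaf 295 2170 (.cons 224 (.cons 297 (.leaf 200 1604 (.leaf 321 1796 .nil)) (.cons 225 (.leaf 201 1605 (.cons 199 (.leaf 223 1599 (.cons 200 (.leaf 175 1407 (.cons 249 (.leaf 320 1797 (.leaf 176 1412 .nil)) .nil)) .nil)) .nil)) (.cons 321 (.leaf 297 1796 (.cons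 199 (.leaf 223 1599 (.cons 225 (.leaf 201 1605 (.cons 320 (.leaf 249 1797 (.leaf 345 1988 .nil)) .nil)) .nil)) .nil)) .nil))) .nil)) .nil)) .nil)) .nil)) .nil))))
noncomputable def t154 : T := .cons 202 (.leaf 226 1623 (.cons 204 (.leaf 228 1629 (.cons 322 (.leaf 298 1814 (.cons 323 (.leaf 346 2006 (.cons 324 (.leaf 300 1820 (.leaf 348 2012 .nil)) .nil)) .nil)) .nil)) .nil)) (.cons 322 (.leaf 298 1814 (.cons 323 (.leaf 346 2006 (.cons 324 (.leaf 300 1820 (.leaf 348 2012 .nil)) .nil)) .nil)) (.cons 226 (.leaf 202 1623 (.cons 204 (.leaf 228 1629 (.cons 323 (.leaf 250 1815 (.cons 324 (.leaf 300 1820 (.leaf 348 2012 .nil)) .nil)) .nil)) .nil)) (.cons 298 (.leaf 322 1814 (.cons 228 (.leaf 204 1629 (.cons 300 (.leaf 324 1820 (.cons 301 (.leaf 302 2195 (.cons 226 (.leaf 202 1623 (.cons 277 (.leaf 278 2193 (.cons 325 (.leaf 326 2384 (.cons 253 (.leaf 252 1831 (.cons 254 (.leaf 229 1808 (.leaf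 230 1837 .nil)) .nil)) .nil)) .nil)) .nil)) .nil)) .nil)) .nil)) .nil)) (.cons 322 (.leaf 298 1814 (.cons 204 (.leaf 228 1629 (.cons 323 (.leaf 346 2006 (.cons 347 (.leaf 250 2007 (.cons 348 (.leaf 324 2012 (.leaf 372 2204 .nil)) .nil)) .nil)) .nil)) .nil)) (.cons 322 (.leaf 298 1814 (.cons 228 (.leaf 204 1629 (.cons 323 (.leaf 252 1821 (.leaf 346 2006 .nil)) .nil)) .nil)) .nil)))))
noncomputable def t155 : T := .cons 203 (.leaf 298 1622 (.cons 204 (.leaf 180 1437 (.cons 299 (.leaf 228 1629 (.cons 324 (.leaf 300 1820 (.cons 178 (.leaf 202 1431 (.cons 179 (.leaf 154 1239 (.leaf 250 1430 .nil)) .nil)) .nil)) .nil)) .nil)) .nil)) (.cons 299 t154 (.cons 299 (.cons 204 (.leaf 228 1629 (.cons 324 (.leaf 300 1820 (.cons 323 (.leaf 348 2012 (.cons 346 (.leaf 322 2006 (.cons 347 (.leaf 250 2007 (.leaf 370 2198 .nil)) .nil)) .nil)) .nil)) .nil)) (.cons 202 (.leaf 226 1623 (.cons 178 (.leaf 203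 1431 (.cons 324 (.leaf 300 1820 (.cons 323 (.leaf 348 2012 (.cons 346 (.leaf 322 2006 (.cons 347 (.leaf 250 2007 (.leaf 370 2198 .nil)) .nil)) .nil)) .nil)) .nil)) .nil)) (.cons 202 (.leaf 226 1623 (.cons 203 (.leaf 178 1431 (.cons 204 (.leaf 180 1437 (.leaf 228 1629 .nil)) .nil)) .nil)) .nil))) (.cons 203 (.leaf 298 1622 (.cons 179 (.leaf 250 1430 (.cons 180 (.leaf 204 1437 (.leaf 156 1245 .nil)) .nil)) .nil)) (.cons 203 (.leaf 298 1622 (.cons 204 (.leaf 180 1437 (.cons 178 (.leaf 202 1431 (.cons 179 (.leaf 154 1239 (.cons 176 (.leaf 177 1408 (.cons 228 (.leaf 299 1629 (.cons 155 (.leaf 252 1244 (.leaf 131 1052 .nil)) .nil)) .nil)) .nil)) .nil)) .nil)) .nil)) (.cons 298 (.leaf 203 1622 (.cons 322 (.leaf 299 1814 (.leaf 346 2005 .nil)) .nil)) .nil)))))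
noncomputable def t156 : T := .cons 273 (.leaf 252 1985 (.cons 299 (.leaf 300 2176 (.cons 271 (.leaf 250 1977 (.leaf 298 2168 .nil)) .nil)) .nil)) (.cons 227 t155 (.cons 273 (.cons 299 (.leaf 300 2176 (.cons 271 (.leaf 250 1977 (.leaf 298 2168 .nil)) .nil)) (.cons 299 (.leaf 300 2176 (.cons 248 (.leaf 247 1979 (.cons 227 (.cons 298 (.leaf 203 1622 (.leaf 322 1814 .nil)) (.cons 202 (.leaf 226 1623 (.cons 203 (.leaf 178 1431 (.cons 204 (.leaf 180 1437 (.leaf 228 1629 .nil)) .nil)) .nil)) (.cons 202 (.leaf 226 1623 (.cons 204 (.leaf 228 1629 (.cons 322 (.leaf 298 1814 (.cons 323 (.leaf 346 2006 (.cons 348 (.leaf 324 2012 (.cons 347 (.leaf 250 2007 (.leaf 372 2204 .nil)) .nil)) .nil)) .nil)) .nil)) .nil)) .nil))) .nil)) .nil)) (.cons 271 (.leaf 250 1977 (.cons 247 (.leaf 248 1979 (.leaf 246 1971 .nil)) .nil)) (.cons 247 (.leaf 248 1979 (.cons 271 (.leaf 246 1971 (.cons 299 (.leaf 300 2176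 (.leaf 298 2168 .nil)) .nil)) .nil)) .nil)))) (.cons 273 (.leaf 252 1985 (.cons 247 (.leaf 248 1979 (.cons 271 (.leaf 246 1971 (.cons 299 (.leaf 300 2176 (.leaf 298 2168 .nil)) .nil)) .nil)) .nil)) (.cons 273 (.leaf 252 1985 (.cons 271 (.leaf 250 1977 (.cons 247 (.leaf 248 1979 (.leaf 246 1971 .nil)) .nil)) .nil)) .nil))))
noncomputable def t157 : T := .cons 253 (.cons 254 (.leaf 274 2002 (.cons 230 (.leaf 229 1809 (.leaf 231 1817 .nil)) .nil)) (.cons 226 (.leaf 225 1803 (.cons 178 (.leaf 202 1428 (.cons 299 (.leaf 323 1815 (.cons 230 (.leaf 229 1809 (.cons 254 (.leaf 227 1811 (.leaf 231 1817 .nil)) .nil)) .nil)) .nil)) .nil)) (.cons 226 (.leaf 225 1803 (.cons 202 (.leaf 178 1428 (.cons 227 (.leaf 299 1623 (.cons 229 (.leaf 230 1809 (.cons 228 (.leaf 249 1801 (.leaf 201 1611 .nil)) .nil)) .nil)) .nil)) .nil)) (.cons 226 (.leaf 225 1803 (.cons 202 (.leaf 178 1428 (.cons 299 (.leaf 227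 1623 (.leaf 274 1620 .nil)) .nil)) .nil)) .nil)))) (.cons 253 (.cons 226 (.leaf 225 1803 (.cons 178 (.leaf 202 1428 (.cons 299 (.leaf 323 1815 (.cons 230 (.leaf 229 1809 (.cons 254 (.leaf 227 1811 (.leaf 231 1817 .nil)) .nil)) .nil)) .nil)) .nil)) (.cons 249 (.leaf 273 1986 (.cons 229 (.leaf 228 1801 (.leaf 230 1809 .nil)) .nil)) (.cons 226 (.leaf 225 1803 (.cons 178 (.leaf 202 1428 (.cons 254 (.leaf 227 1811 (.cons 278 (.leaf 277 2000 (.leaf 279 2008 .nil)) .nil)) .nil)) .nil)) .nil))) (.cons 253 (.cons 254 (.leaf 274 2002 (.cons 230 (.leaf 229 1809 (.leaf 231 1817 .nil)) .nil)) (.cons 226 (.leaf 225 1803 (.cons 178 (.leaf 202 1428 (.cons 299 (.leaf 323 1815 (.cons 230 (.leaf 229 1809 (.cons 254 (.leaf 227 1811 (.leaf 231 1817 .nil)) .nil)) .nil)) .nil)) .nil)) (.cons 274 (.leaf 273 1985 (.cons 226 (.leaf 225 1803 (.cons 202 (.leaf 178 1428 (.leaf 299 1620 .nil)) .nil)) .nil)) .nil)))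 (.cons 273 (.leaf 274 1985 (.leaf 249 1986 .nil)) .nil)))
noncomputable def t158 : T := .cons 227 (.cons 202 (.leaf 226 1623 (.cons 203 (.leaf 178 1431 (.cons 179 (.leaf 274 1430 (.cons 180 (.leaf 204 1437 (.leaf 156 1245 .nil)) .nil)) .nil)) .nil)) (.cons 204 (.leaf 228 1629 (.cons 203 (.leaf 180 1437 (.cons 274 (.leaf 179 1430 (.cons 273 (.leaf 252 1985 (.leaf 300 2176 .nil)) .nil)) .nil)) .nil)) (.cons 202 (.leaf 226 1623 (.cons 203 (.leaf 178 1431 (.cons 204 (.leaf 180 1437 (.leaf 228 1629 .nil)) .nil)) .nil)) (.cons 226 (.leaf 202 1623 (.leaf 323 1815 .nil)) .nil)))) (.cons 227 (.cons 202 (.leaf 226 1623 (.cons 203 (.leaf 178 1431 (.cons 179 (.leaf 274 1430 (.cons 180 (.leaf 204 1437 (.leaf 156 1245 .nil)) .nil)) .nil)) .nil)) (.cons 300 (.leaf 324 1820 (.cons 204 (.leaf 228 1629 (.cons 203 (.leaf 180 1437 (.cons 274 (.leaf 273 2176 (.leaf 179 1430 .nil)) .nil)) .nil)) .nil))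 (.cons 202 (.leaf 226 1623 (.cons 203 (.leaf 178 1431 (.cons 204 (.leaf 180 1437 (.leaf 228 1629 .nil)) .nil)) .nil)) (.cons 202 (.leaf 226 1623 (.cons 203 (.leaf 178 1431 (.cons 274 (.leaf 179 1430 (.cons 273 (.leaf 252 1985 (.leaf 300 2176 .nil)) .nil)) .nil)) .nil)) (.cons 226 (.leaf 202 1623 (.cons 228 (.leaf 204 1629 (.cons 229 (.leaf 230 1810 (.cons 205 (.leaf 206 1617 (.cons 253 (.leaf 254 1808 (.cons 225 (.leaf 252 1800 (.cons 200 (.leaf 201 1603 (.cons 224 (.leaf 223 1784 (.leaf 199 1595 .nil)) .nil)) .nil)) .nil)) .nil)) .nil)) .nil)) .nil)) .nil))))) (.cons 274 (.cons 273 (.leaf 252 1985 (.leaf 300 2176 .nil)) (.cons 323 (.leaf 347 2007 (.cons 322 (.leaf 346 2006 (.cons 252 (.leaf 228 1821 (.cons 324 (.leaf 348 2012 (.cons 300 (.leaf 227 1820 (.cons 301 (.leaf 302 2386 (.leaf 321 2377 .nil)) .nil)) .nil)) .nil)) .nil)) .nil)) (.cons 273 (.leaf 300 2176 (.leaf 271 1977 .nil))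 (.cons 273 (.leaf 252 1985 (.leaf 271 1977 .nil)) .nil)))) (.cons 323 (.leaf 226 1815 (.cons 322 (.leaf 346 2006 (.cons 324 (.leaf 348 2012 (.cons 300 (.leaf 227 1820 (.cons 301 (.leaf 302 2386 (.leaf 321 2377 .nil)) .nil)) .nil)) .nil)) .nil)) (.cons 323 (.leaf 226 1815 (.cons 274 (.leaf 347 2007 (.cons 273 (.leaf 252 1985 (.leaf 300 2176 .nil)) .nil)) .nil)) (.cons 323 (.leaf 226 1815 (.cons 228 (.leaf 252 1821 (.cons 346 (.leaf 322 2006 (.cons 347 (.leaf 274 2007 (.leaf 370 2198 .nil)) .nil)) .nil)) .nil)) .nil)))))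
noncomputable def t159 : T := .cons 323 (.leaf 226 1815 (.cons 274 (.leaf 347 2007 (.cons 322 (.leaf 346 2006 (.cons 273 (.leaf 300 2176 (.leaf 271 1977 .nil)) .nil)) .nil)) .nil)) (.cons 274 (.cons 273 (.leaf 300 2176 (.leaf 271 1977 .nil)) (.cons 323 (.leaf 347 2007 (.cons 322 (.leaf 346 2006 (.cons 324 (.leaf 348 2012 (.cons 300 (.leaf 227 1820 (.cons 301 (.leaf 302 2386 (.leaf 321 2377 .nil)) .nil)) .nil)) .nil)) .nil)) (.cons 273 (.leaf 271 1977 (.cons 247 (.leaf 248 1979 (.cons 296 (.leaf 295 2170 (.cons 323 (.leaf 347 2007 (.cons 322 (.leaf 346 2006 (.cons 324 (.leaf 348 2012 (.cons 321 (.leaf 297 2371 (.cons 344 (.leaf 345 2562 (.cons 320 (.leaf 249 1989 (.leaf 343 2554 .nil)) .nil)) .nil)) .nil)) .nil)) .nil)) .nil)) .nil)) .nil)) .nil))) (.cons 227 (.cons 204 (.leaf 228 1629 (.cons 203 (.leaf 180 1437 (.cons 274 (.leaf 179 1430 (.cons 273 (.leaf 300 2176 (.leaf 271 1977 .nil))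 .nil)) .nil)) .nil)) (.cons 202 (.leaf 226 1623 (.cons 203 (.leaf 178 1431 (.cons 179 (.leaf 274 1430 (.cons 180 (.leaf 204 1437 (.leaf 156 1245 .nil)) .nil)) .nil)) .nil)) (.cons 202 (.leaf 226 1623 (.cons 203 (.leaf 178 1431 (.cons 274 (.leaf 179 1430 (.cons 273 (.leaf 300 2176 (.leaf 271 1977 .nil)) .nil)) .nil)) .nil)) (.cons 226 (.leaf 202 1623 (.cons 228 (.leaf 204 1629 (.cons 229 (.leaf 230 1810 (.leaf 249 1802 .nil)) .nil)) .nil)) .nil)))) (.cons 323 (.leaf 226 1815 (.cons 322 (.leaf 346 2006 (.cons 324 (.leaf 348 2012 (.cons 300 (.leaf 227 1820 (.cons 301 (.leaf 302 2386 (.leaf 321 2377 .nil)) .nil)) .nil)) .nil)) .nil)) (.cons 226 (.leaf 323 1815 (.cons 202 (.leaf 178 1428 (.leaf 227 1623 .nil)) .nil)) .nil))))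
noncomputable def t160 : T := .cons 249 (.leaf 273 1986 (.cons 225 (.leaf 224 1795 (.cons 253 (.leaf 226 1803 (.cons 229 (.leaf 228 1801 (.leaf 230 1809 .nil)) .nil)) .nil)) .nil)) (.cons 253 (.cons 226 (.leaf 225 1803 (.cons 202 (.leaf 178 1428 (.cons 227 (.leaf 299 1623 (.leaf 254 1811 .nil)) .nil)) .nil)) (.cons 254 (.leaf 274 2002 (.cons 230 (.leaf 229 1809 (.leaf 231 1817 .nil)) .nil)) (.cons 226 (.leaf 225 1803 (.cons 202 (.leaf 178 1428 (.cons 227 (.leaf 299 1623 (.cons 229 (.leaf 230 1809 (.cons 228 (.leaf 249 1801 (.leaf 201 1611 .nil)) .nil)) .nil)) .nil)) .nil)) .nil))) (.cons 253 (.cons 254 (.leaf 274 2002 (.cons 230 (.leaf 229 1809 (.leaf 231 1817 .nil)) .nil)) (.cons 226 (.leaf 225 1803 (.cons 178 (.leaf 202 1428 (.cons 299 (.leaf 323 1815 (.cons 230 (.leaf 229 1809 (.cons 254 (.leaf 227 1811 (.leaf 231 1817 .nil)) .nil)) .nil)) .nil)) .nil)) (.cons 226 (.leaf 225 1803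 (.cons 202 (.leaf 178 1428 (.cons 227 (.leaf 299 1623 (.cons 229 (.leaf 230 1809 (.cons 228 (.leaf 201 1611 (.cons 180 (.leaf 204 1438 (.cons 205 (.leaf 206 1617 (.cons 181 (.leaf 157 1254 (.leaf 156 1255 .nil)) .nil)) .nil)) .nil)) .nil)) .nil)) .nil)) .nil)) (.cons 226 (.leaf 225 1803 (.cons 202 (.leaf 178 1428 (.cons 299 (.leaf 227 1623 (.leaf 274 1620 .nil)) .nil)) .nil)) .nil)))) (.cons 249 (.leaf 273 1986 (.cons 228 (.leaf 229 1801 (.cons 248 (.leaf 271 1978 (.leaf 227 1793 .nil)) .nil)) .nil)) (.cons 273 (.leaf 274 1985 (.leaf 249 1986 .nil)) .nil))))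
noncomputable def t161 : T := .cons 252 t160 (.cons 249 (.cons 248 (.leaf 271 1978 (.cons 227 (.leaf 228 1793 (.cons 247 (.leaf 274 1976 (.leaf 226 1785 .nil)) .nil)) .nil)) (.cons 252 (.cons 225 (.leaf 224 1795 (.cons 253 (.leaf 226 1803 (.cons 229 (.leaf 228 1801 (.leaf 230 1809 .nil)) .nil)) .nil)) (.cons 225 (.leaf 224 1795 (.cons 253 (.leaf 226 1803 (.cons 229 (.leaf 230 1809 (.cons 254 (.leaf 274 2002 (.cons 278 (.leaf 277 2000 (.leaf 279 2008 .nil)) .nil)) .nil)) .nil)) .nil)) (.cons 228 (.leaf 229 1801 (.cons 204 (.leaf 180 1438 (.cons 299 (.leaf 227 1629 (.leaf 323 1821 .nil)) .nil)) .nil)) (.cons 225 (.leaf 224 1795 (.cons 253 (.leaf 226 1803 (.cons 254 (.leaf 274 2002 (.cons 278 (.leaf 277 2000 (.leaf 279 2008 .nil)) .nil)) .nil)) .nil)) .nil)))) (.cons 248 (.leaf 271 1978 (.cons 223 (.leaf 224 1787 (.cons 247 (.leaf 274 1976 (.leaf 222 1779 .nil)) .nil)) .nil)) (.cons 248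 (.leaf 271 1978 (.cons 223 (.leaf 224 1787 (.cons 227 (.leaf 228 1793 (.cons 247 (.leaf 222 1779 (.leaf 226 1785 .nil)) .nil)) .nil)) .nil)) .nil)))) (.cons 249 (.cons 248 (.leaf 271 1978 (.cons 223 (.leaf 224 1787 (.cons 227 (.leaf 228 1793 (.cons 247 (.leaf 222 1779 (.leaf 226 1785 .nil)) .nil)) .nil)) .nil)) (.cons 252 (.leaf 273 1986 (.cons 228 (.leaf 229 1801 (.cons 204 (.leaf 180 1438 (.cons 299 (.leaf 227 1629 (.leaf 323 1821 .nil)) .nil)) .nil)) .nil)) (.cons 248 (.leaf 271 1978 (.cons 223 (.leaf 224 1787 (.cons 247 (.leaf 222 1779 (.cons 175 (.leaf 199 1404 (.cons 273 (.leaf 252 1986 (.cons 246 (.leaf 245 1960 (.cons 225 (.leaf 226 1777 (.cons 296 (.leaf 201 1606 (.leaf 320 1797 .nil)) .nil)) .nil)) .nil)) .nil)) .nil)) .nil)) .nil)) .nil))) (.cons 299 t159 (.cons 299 t158 (.cons 273 (.cons 271 (.leaf 274 1977 (.cons 249 (.leaf 248 1978 (.leaf 252 1986 .nil)) .nil)) (.cons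 249 (.leaf 252 1986 (.cons 271 (.leaf 248 1978 (.leaf 270 1969 .nil)) .nil)) (.cons 271 (.leaf 274 1977 (.cons 249 (.leaf 248 1978 (.leaf 270 1969 .nil)) .nil)) (.cons 274 (.leaf 252 1985 (.leaf 271 1977 .nil)) (.cons 252 (.leaf 274 1985 (.leaf 249 1986 .nil)) .nil))))) (.cons 252 t157 .nil))))))
noncomputable def t162 : T := .cons 203 (.leaf 298 1622 (.cons 178 (.leaf 202 1431 (.cons 179 (.leaf 154 1239 (.leaf 250 1430 .nil)) .nil)) .nil)) (.cons 299 (.cons 228 (.leaf 204 1629 (.cons 323 (.leaf 252 1821 (.cons 324 (.leaf 300 1820 (.leaf 348 2012 .nil)) .nil)) .nil)) (.cons 322 (.leaf 298 1814 (.cons 323 (.leaf 346 2006 (.cons 324 (.leaf 300 1820 (.leaf 348 2012 .nil)) .nil)) .nil)) (.cons 322 (.leaf 298 1814 (.cons 204 (.leaf 228 1629 (.cons 323 (.leaf 346 2006 (.cons 347 (.leaf 250 2007 (.cons 348 (.leaf 324 2012 (.leaf 372 2204 .nil)) .nil)) .nil)) .nil)) .nil)) (.cons 322 (.leaf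 298 1814 (.cons 228 (.leaf 204 1629 (.cons 323 (.leaf 252 1821 (.leaf 346 2006 .nil)) .nil)) .nil)) (.cons 298 (.leaf 322 1814 (.cons 228 (.leaf 204 1629 (.cons 300 (.leaf 324 1820 (.cons 301 (.leaf 302 2195 (.cons 277 (.leaf 278 2193 (.cons 325 (.leaf 326 2384 (.cons 253 (.leaf 252 1831 (.cons 230 (.leaf 254 1837 (.cons 229 (.leaf 250 1810 (.leaf 206 1645 .nil)) .nil)) .nil)) .nil)) .nil)) .nil)) .nil)) .nil)) .nil)) .nil))))) (.cons 203 (.cons 178 (.leaf 202 1431 (.cons 179 (.leaf 154 1239 (.leaf 250 1430 .nil)) .nil)) (.cons 178 (.leaf 202 1431 (.cons 204 (.leaf 180 1437 (.cons 299 (.leaf 228 1629 (.cons 324 (.leaf 300 1820 (.cons 323 (.leaf 348 2012 (.cons 347 (.leaf 250 2007 (.cons 346 (.leaf 322 2006 (.leaf 370 2198 .nil)) .nil)) .nil)) .nil)) .nil)) .nil)) .nil)) (.cons 179 (.leaf 250 1430 (.cons 180 (.leaf 204 1437 (.leaf 156 1245 .nil)) .nil)) (.cons 204 (.leaf 180 1437 (.cons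 178 (.leaf 202 1431 (.cons 179 (.leaf 154 1239 (.cons 176 (.leaf 177 1408 (.cons 228 (.leaf 299 1629 (.cons 155 (.leaf 252 1244 (.leaf 131 1052 .nil)) .nil)) .nil)) .nil)) .nil)) .nil)) .nil)))) (.cons 298 (.leaf 203 1622 (.cons 322 (.leaf 299 1814 (.leaf 346 2005 .nil)) .nil)) .nil)))
noncomputable def t163 : T := .cons 203 (.leaf 298 1622 (.cons 204 (.leaf 180 1437 (.cons 178 (.leaf 202 1431 (.cons 179 (.leaf 154 1239 (.leaf 250 1430 .nil)) .nil)) .nil)) .nil)) (.cons 203 (.cons 204 (.leaf 180 1437 (.cons 178 (.leaf 202 1431 (.cons 179 (.leaf 154 1239 (.leaf 250 1430 .nil)) .nil)) .nil)) (.cons 178 (.leaf 202 1431 (.cons 204 (.leaf 180 1437 (.cons 299 (.leaf 228 1629 (.cons 324 (.leaf 300 1820 (.cons 323 (.leaf 348 2012 (.cons 347 (.leaf 250 2007 (.cons 346 (.leaf 322 2006 (.leaf 370 2198 .nil)) .nil)) .nil)) .nil)) .nil)) .nil)) .nil)) (.cons 204 (.leaf 180 1437 (.cons 178 (.leaf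 202 1431 (.cons 179 (.leaf 154 1239 (.cons 176 (.leaf 177 1408 (.cons 228 (.leaf 299 1629 (.cons 155 (.leaf 252 1244 (.leaf 131 1052 .nil)) .nil)) .nil)) .nil)) .nil)) .nil)) (.cons 273 (.leaf 252 1985 (.cons 250 (.leaf 271 1977 (.leaf 179 1430 .nil)) .nil)) .nil)))) (.cons 299 (.cons 228 (.leaf 204 1629 (.cons 323 (.leaf 252 1821 (.cons 324 (.leaf 300 1820 (.leaf 348 2012 .nil)) .nil)) .nil)) (.cons 228 (.leaf 204 1629 (.cons 323 (.leaf 252 1821 (.cons 346 (.leaf 322 2006 (.cons 347 (.leaf 250 2007 (.leaf 370 2198 .nil)) .nil)) .nil)) .nil)) (.cons 204 (.leaf 228 1629 (.cons 324 (.leaf 300 1820 (.cons 323 (.leaf 348 2012 (.cons 347 (.leaf 250 2007 (.cons 346 (.leaf 322 2006 (.leaf 370 2198 .nil)) .nil)) .nil)) .nil)) .nil)) (.cons 273 (.leaf 252 1985 (.leaf 300 2176 .nil)) .nil)))) (.cons 298 (.leaf 203 1622 (.cons 322 (.leaf 299 1814 (.leaf 346 2005 .nil)) .nil)) .nil)))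
noncomputable def t164 : T := .cons 204 (.leaf 180 1447 (.cons 182 (.leaf 206 1453 (.cons 301 (.leaf 228 1639 (.cons 324 (.leaf 300 1830 (.cons 325 (.leaf 348 2022 (.cons 326 (.leaf 302 1836 (.leaf 350 2028 .nil)) .nil)) .nil)) .nil)) .nil)) .nil)) (.cons 226 (.leaf 225 1803 (.cons 182 (.leaf 206 1453 (.cons 181 (.leaf 158 1261 (.cons 156 (.leaf 180 1255 (.cons 157 (.leaf 228 1254 (.leaf 132 1063 .nil)) .nil)) .nil)) .nil)) .nil)) (.cons 226 (.leaf 225 1803 (.cons 182 (.leaf 206 1453 (.cons 181 (.leaf 158 1261 (.cons 228 (.leaf 157 1254 (.cons 227 (.leaf 254 1808 (.cons 204 (.leaf 299 1629 (.leaf 301 1639 .nil)) .nil)) .nil)) .nil)) .nil)) .nil)) (.cons 180 (.leaf 204 1447 (.cons 181 (.leaf 156 1255 (.cons 182 (.leaf 158 1261 (.leaf 206 1453 .nil)) .nil)) .nil)) (.cons 204 (.leaf 180 1447 (.cons 228 (.leaf 301 1639 (.cons 157 (.leaf 181 1254 (.cons 227 (.leaf 299 1629 (.cons 206 (.leaf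 226 1617 (.leaf 207 1626 .nil)) .nil)) .nil)) .nil)) .nil)) (.cons 204 (.leaf 180 1447 (.cons 225 (.leaf 226 1803 (.cons 301 (.leaf 228 1639 (.cons 324 (.leaf 300 1830 (.cons 325 (.leaf 348 2022 (.cons 326 (.leaf 302 1836 (.leaf 350 2028 .nil)) .nil)) .nil)) .nil)) .nil)) .nil)) .nil)))))
noncomputable def t165 : T := .cons 229 (.leaf 230 1809 (.cons 277 (.leaf 278 2000 (.cons 205 t164 .nil)) .nil)) (.cons 226 (.leaf 225 1803 (.cons 254 (.leaf 227 1811 (.cons 278 (.leaf 277 2000 (.leaf 279 2008 .nil)) .nil)) .nil)) (.cons 230 (.leaf 229 1809 (.cons 254 (.leaf 231 1817 (.cons 278 (.leaf 277 2000 (.leaf 279 2008 .nil)) .nil)) .nil)) (.cons 230 (.leaf 229 1809 (.cons 254 (.leaf 231 1817 (.cons 227 (.leaf 226 1811 (.cons 228 (.leaf 255 1819 (.cons 204 (.leaf 180 1438 (.leaf 299 1629 .nil)) .nil)) .nil)) .nil)) .nil)) (.cons 229 (.leaf 230 1809 (.cons 277 (.leaf 278 2000 (.cons 205 (.cons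 180 (.leaf 204 1447 (.cons 181 (.leaf 156 1255 (.cons 182 (.leaf 158 1261 (.leaf 206 1453 .nil)) .nil)) .nil)) (.cons 182 (.leaf 206 1453 (.cons 181 (.leaf 158 1261 (.cons 156 (.leaf 180 1255 (.cons 157 (.leaf 228 1254 (.leaf 132 1063 .nil)) .nil)) .nil)) .nil)) (.cons 182 (.leaf 206 1453 (.cons 181 (.leaf 158 1261 (.cons 228 (.leaf 157 1254 (.cons 301 (.leaf 325 1831 (.leaf 204 1639 .nil)) .nil)) .nil)) .nil)) (.cons 204 (.leaf 180 1447 (.cons 225 (.leaf 226 1803 (.cons 301 (.leaf 228 1639 (.cons 324 (.leaf 300 1830 (.cons 325 (.leaf 348 2022 (.cons 326 (.leaf 302 1836 (.leaf 350 2028 .nil)) .nil)) .nil)) .nil)) .nil)) .nil)) .nil)))) .nil)) .nil)) .nil))))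
noncomputable def t166 : T := .cons 180 (.leaf 204 1447 (.cons 181 (.leaf 156 1255 (.cons 182 (.leaf 158 1261 (.leaf 206 1453 .nil)) .nil)) .nil)) (.cons 182 (.leaf 206 1453 (.cons 181 (.leaf 158 1261 (.cons 156 (.leaf 180 1255 (.cons 157 (.leaf 228 1254 (.leaf 132 1063 .nil)) .nil)) .nil)) .nil)) (.cons 182 (.leaf 206 1453 (.cons 181 (.leaf 158 1261 (.cons 228 (.leaf 157 1254 (.cons 301 (.leaf 325 1831 (.leaf 204 1639 .nil)) .nil)) .nil)) .nil)) (.cons 204 (.leaf 180 1447 (.cons 228 (.leaf 301 1639 (.cons 157 (.leaf 181 1254 (.cons 227 (.leaf 299 1629 (.cons 206 (.leaf 226 1617 (.leaf 207 1626 .nil)) .nil)) .nil)) .nil)) .nil)) (.cons 204 (.leaf 180 1447 (.cons 228 (.leaf 301 1639 (.cons 181 (.leaf 157 1254 (.cons 182 (.leaf 158 1261 (.cons 183 (.leaf 184 1442 (.cons 202 (.leaf 203 1425 (.cons 226 (.leaf 178 1428 (.cons 227 (.leaf 299 1629 (.leaf 201 1611 .nil)) .nil)) .nil)) .nil))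 .nil)) .nil)) .nil)) .nil)) (.cons 204 (.leaf 180 1447 (.cons 182 (.leaf 206 1453 (.cons 301 (.leaf 228 1639 (.cons 324 (.leaf 300 1830 (.cons 325 (.leaf 348 2022 (.cons 326 (.leaf 302 1836 (.leaf 350 2028 .nil)) .nil)) .nil)) .nil)) .nil)) .nil)) .nil)))))
noncomputable def t167 : T := .cons 177 (.leaf 248 1414 (.cons 178 (.leaf 202 1421 (.leaf 154 1229 .nil)) .nil)) (.cons 178 (.leaf 202 1421 (.cons 200 (.leaf 176 1415 (.cons 297 (.leaf 224 1607 (.cons 322 (.leaf 298 1804 (.cons 321 (.leaf 346 1996 (.cons 344 (.leaf 320 1990 (.cons 345 (.leaf 248 1991 (.leaf 368 2182 .nil)) .nil)) .nil)) .nil)) .nil)) .nil)) .nil)) (.cons 176 (.leaf 200 1415 (.cons 177 (.leaf 152 1223 (.cons 178 (.leaf 202 1421 (.leaf 154 1229 .nil)) .nil)) .nil)) (.cons 200 (.leaf 176 1415 (.cons 224 (.leaf 297 1607 (.cons 248 (.leaf 177 1413 (.cons 199 (.leaf 175 1407 (.cons 198 (.leaf 197 1576 (.cons 174 (.leaf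 173 1387 (.cons 222 (.leaf 221 1578 (.cons 223 (.leaf 202 1585 (.cons 150 (.leaf 126 1012 (.leaf 247 1204 .nil)) .nil)) .nil)) .nil)) .nil)) .nil)) .nil)) .nil)) .nil)) (.cons 200 (.leaf 176 1415 (.cons 224 (.leaf 297 1607 (.cons 248 (.leaf 177 1413 (.cons 199 (.leaf 175 1407 (.cons 198 (.leaf 197 1576 (.cons 174 (.leaf 173 1387 (.cons 271 (.leaf 295 1598 (.cons 222 (.leaf 221 1578 (.cons 246 (.leaf 247 1396 (.cons 245 (.leaf 270 1963 (.leaf 223 1770 .nil)) .nil)) .nil)) .nil)) .nil)) .nil)) .nil)) .nil)) .nil)) .nil)) .nil))))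
noncomputable def t168 : T := .cons 296 (.leaf 201 1606 (.cons 320 (.leaf 248 1797 (.leaf 344 1989 .nil)) .nil)) (.cons 297 (.cons 200 (.leaf 224 1607 (.cons 322 (.leaf 298 1804 (.cons 321 (.leaf 346 1996 (.cons 344 (.leaf 320 1990 (.cons 345 (.leaf 248 1991 (.leaf 368 2182 .nil)) .nil)) .nil)) .nil)) .nil)) (.cons 200 (.leaf 224 1607 (.cons 298 (.leaf 322 1804 (.cons 271 (.leaf 270 2160 (.cons 299 (.leaf 296 2171 (.leaf 300 2179 .nil)) .nil)) .nil)) .nil)) (.cons 320 (.leaf 296 1798 (.cons 321 (.leaf 344 1990 (.cons 322 (.leaf 298 1804 (.leaf 346 1996 .nil)) .nil)) .nil)) (.cons 320 (.leaf 296 1798 (.cons 200 (.leaf 224 1607 (.cons 321 (.leaf 344 1990 (.cons 345 (.leaf 248 1991 (.cons 346 (.leaf 322 1996 (.leaf 370 2188 .nil)) .nil)) .nil)) .nil)) .nil)) (.cons 320 (.leaf 296 1798 (.cons 224 (.leaf 200 1607 (.cons 321 (.leaf 248 1799 (.leaf 344 1990 .nil)) .nil)) .nil)) .nil)))))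 (.cons 201 t167 (.cons 201 (.leaf 296 1606 (.cons 176 (.leaf 200 1415 (.cons 177 (.leaf 152 1223 (.cons 178 (.leaf 202 1421 (.leaf 154 1229 .nil)) .nil)) .nil)) .nil)) .nil)))
noncomputable def t169 : T := .cons 296 (.leaf 201 1606 (.cons 320 (.leaf 248 1797 (.leaf 344 1989 .nil)) .nil)) (.cons 297 (.cons 200 (.leaf 224 1607 (.cons 202 (.leaf 226 1613 (.cons 322 (.leaf 298 1804 (.cons 321 (.leaf 346 1996 (.cons 344 (.leaf 320 1990 (.cons 345 (.leaf 248 1991 (.leaf 368 2182 .nil)) .nil)) .nil)) .nil)) .nil)) .nil)) (.cons 320 (.leaf 296 1798 (.cons 321 (.leaf 344 1990 (.cons 322 (.leaf 298 1804 (.leaf 346 1996 .nil)) .nil)) .nil)) (.cons 200 (.leaf 224 1607 (.cons 202 (.leaf 226 1613 (.cons 298 (.leaf 322 1804 (.cons 271 (.leaf 270 2160 (.cons 299 (.leaf 296 2171 (.leaf 300 2179 .nil)) .nil)) .nil)) .nil)) .nil)) (.cons 224 (.leaf 200 1607 (.cons 320 (.leaf 296 1798 (.cons 321 (.leaf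 248 1799 (.leaf 344 1990 .nil)) .nil)) .nil)) .nil)))) (.cons 201 (.cons 176 (.leaf 200 1415 (.cons 177 (.leaf 248 1414 (.leaf 152 1223 .nil)) .nil)) (.cons 176 (.leaf 200 1415 (.cons 202 (.leaf 178 1421 (.cons 226 (.leaf 297 1613 (.cons 227 (.leaf 299 1623 (.leaf 224 1792 .nil)) .nil)) .nil)) .nil)) (.cons 177 (.leaf 248 1414 (.cons 178 (.leaf 202 1421 (.leaf 154 1229 .nil)) .nil)) .nil))) (.cons 296 (.leaf 201 1606 (.cons 320 (.leaf 344 1989 (.leaf 297 1798 .nil)) .nil)) .nil)))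
noncomputable def t170 : T := .cons 274 (.leaf 273 1985 (.cons 203 (.leaf 298 1622 (.cons 202 (.leaf 178 1431 (.cons 204 (.leaf 180 1437 (.cons 228 (.leaf 299 1629 (.cons 201 (.leaf 200 1600 (.leaf 229 1608 .nil)) .nil)) .nil)) .nil)) .nil)) .nil)) (.cons 226 (.cons 225 (.leaf 224 1792 (.cons 253 (.leaf 254 1811 (.leaf 228 1800 .nil)) .nil)) (.cons 202 (.leaf 299 1623 (.cons 178 (.leaf 203 1431 (.leaf 154 1236 .nil)) .nil)) .nil)) (.cons 274 (.leaf 273 1985 (.cons 203 (.leaf 298 1622 (.cons 178 (.leaf 202 1431 (.cons 179 (.leaf 154 1239 (.cons 155 (.leaf 228 1244 (.cons 156 (.leaf 180 1245 (.leaf 132 1053 .nil)) .nil)) .nil)) .nil)) .nil)) .nil)) (.cons 273 (.leaf 274 1985 (.cons 299 (.cons 226 (.leaf 202 1623 (.cons 225 (.leaf 224 1792 (.cons 228 (.leaf 204 1629 (.leaf 253 1800 .nil)) .nil)) .nil)) (.cons 228 (.leaf 204 1629 (.cons 298 (.leaf 322 1814 (.cons 297 (.leaf 300 2179 (.cons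 271 (.leaf 270 2160 (.leaf 296 2171 .nil)) .nil)) .nil)) .nil)) (.cons 226 (.leaf 202 1623 (.cons 224 (.leaf 225 1792 (.cons 253 (.leaf 254 1811 (.cons 298 (.leaf 322 1814 (.cons 297 (.leaf 300 2179 (.cons 271 (.leaf 270 2160 (.leaf 296 2171 .nil)) .nil)) .nil)) .nil)) .nil)) .nil)) .nil))) .nil)) (.cons 274 (.leaf 273 1985 (.cons 203 (.leaf 298 1622 (.cons 202 (.leaf 178 1431 (.cons 204 (.leaf 180 1437 (.cons 226 (.leaf 299 1623 (.cons 225 (.leaf 224 1792 (.leaf 205 1610 .nil)) .nil)) .nil)) .nil)) .nil)) .nil)) (.cons 274 (.leaf 273 1985 (.cons 203 (.leaf 298 1622 (.cons 180 (.leaf 204 1437 (.cons 179 (.leaf 156 1245 (.cons 154 (.leaf 178 1239 (.cons 155 (.leaf 228 1244 (.leaf 130 1047 .nil)) .nil)) .nil)) .nil)) .nil)) .nil)) .nil)))))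
noncomputable def t171 : T := .cons 254 (.leaf 274 2002 (.cons 227 (.leaf 226 1811 (.cons 231 (.leaf 230 1817 (.cons 255 (.leaf 228 1819 (.leaf 232 1825 .nil)) .nil)) .nil)) .nil)) (.cons 250 (.cons 226 (.leaf 225 1803 (.cons 202 (.leaf 178 1428 (.cons 227 (.leaf 299 1623 (.cons 229 (.leaf 230 1809 (.cons 228 (.leaf 249 1801 (.leaf 201 1611 .nil)) .nil)) .nil)) .nil)) .nil)) (.cons 229 (.leaf 230 1809 (.cons 228 (.leaf 249 1801 (.cons 204 (.leaf 180 1438 (.cons 277 (.leaf 278 2000 (.leaf 301 1639 .nil)) .nil)) .nil)) .nil)) (.cons 226 (.leaf 225 1803 (.cons 202 (.leaf 178 1428 (.cons 299 (.leaf 227 1623 (.leaf 274 1620 .nil)) .nil)) .nil)) .nil))) (.cons 250 (.cons 229 (.leaf 230 1809 (.cons 228 (.leaf 249 1801 (.cons 204 (.leaf 180 1438 (.cons 277 (.leaf 278 2000 (.leaf 301 1639 .nil)) .nil)) .nil)) .nil)) (.cons 226 (.leaf 225 1803 (.cons 178 (.leaf 202 1428 (.cons 254 (.leaf 227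 1811 (.cons 278 (.leaf 277 2000 (.leaf 279 2008 .nil)) .nil)) .nil)) .nil)) (.cons 226 (.leaf 225 1803 (.cons 202 (.leaf 178 1428 (.cons 227 (.leaf 299 1623 (.leaf 254 1811 .nil)) .nil)) .nil)) .nil))) (.cons 254 (.leaf 274 2002 (.cons 231 (.leaf 230 1817 (.cons 255 (.leaf 232 1825 (.cons 279 (.leaf 278 2008 (.leaf 280 2016 .nil)) .nil)) .nil)) .nil)) (.cons 254 (.leaf 274 2002 (.cons 227 (.leaf 226 1811 (.cons 255 (.leaf 228 1819 (.cons 279 (.leaf 278 2008 (.leaf 280 2016 .nil)) .nil)) .nil)) .nil)) .nil))))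
noncomputable def t172 : T := .cons 250 (.cons 249 (.leaf 273 1986 (.cons 228 (.leaf 229 1801 (.cons 248 (.leaf 271 1978 (.leaf 227 1793 .nil)) .nil)) .nil)) (.cons 253 (.cons 226 (.leaf 225 1803 (.cons 254 (.leaf 227 1811 (.cons 230 (.leaf 229 1809 (.leaf 231 1817 .nil)) .nil)) .nil)) (.cons 230 (.leaf 229 1809 (.cons 254 (.leaf 231 1817 (.cons 278 (.leaf 277 2000 (.leaf 279 2008 .nil)) .nil)) .nil)) (.cons 226 (.leaf 225 1803 (.cons 178 (.leaf 202 1428 (.cons 254 (.leaf 227 1811 (.cons 278 (.leaf 277 2000 (.leaf 279 2008 .nil)) .nil)) .nil)) .nil)) (.cons 226 (.leaf 225 1803 (.cons 202 (.leaf 178 1428 (.cons 227 (.leaf 299 1623 (.cons 229 (.leaf 230 1809 (.cons 228 (.leaf 201 1611 (.cons 180 (.leaf 204 1438 (.cons 205 (.leaf 206 1617 (.cons 181 (.leaf 157 1254 (.leaf 156 1255 .nil)) .nil)) .nil)) .nil)) .nil)) .nil)) .nil)) .nil)) .nil)))) (.cons 249 (.leaf 273 1986 (.cons 224 (.leaf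 225 1795 (.cons 248 (.leaf 271 1978 (.leaf 223 1787 .nil)) .nil)) .nil)) .nil))) (.cons 253 t171 (.cons 227 t170 (.cons 273 (.leaf 274 1985 (.cons 249 (.leaf 250 1986 (.cons 225 (.cons 296 (.leaf 201 1606 (.cons 320 (.leaf 248 1797 (.leaf 344 1989 .nil)) .nil)) (.cons 226 (.cons 227 (.leaf 224 1792 (.cons 228 (.leaf 248 1794 (.cons 204 (.leaf 180 1438 (.leaf 299 1629 .nil)) .nil)) .nil)) (.cons 297 (.leaf 202 1613 (.cons 296 (.leaf 320 1798 (.cons 298 (.leaf 322 1804 (.cons 271 (.leaf 270 2160 (.leaf 299 2171 .nil)) .nil)) .nil)) .nil)) (.cons 227 (.leaf 224 1792 (.cons 228 (.leaf 248 1794 (.cons 204 (.leaf 180 1438 (.leaf 205 1609 .nil)) .nil)) .nil)) .nil))) (.cons 201 (.cons 176 (.leaf 200 1415 (.cons 177 (.leaf 248 1414 (.leaf 152 1223 .nil)) .nil)) (.cons 177 (.leaf 248 1414 (.cons 178 (.leaf 202 1421 (.leaf 154 1229 .nil)) .nil)) (.cons 176 (.leaf 200 1415 (.cons 202 (.leaf 178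 1421 (.cons 226 (.leaf 297 1613 (.cons 227 (.leaf 299 1623 (.leaf 224 1792 .nil)) .nil)) .nil)) .nil)) .nil))) (.cons 296 (.leaf 201 1606 (.cons 320 (.leaf 344 1989 (.leaf 297 1798 .nil)) .nil)) .nil)))) .nil)) .nil)) (.cons 274 (.leaf 273 1985 (.cons 253 (.leaf 254 2002 (.cons 250 (.cons 226 (.leaf 225 1803 (.cons 202 (.leaf 178 1428 (.leaf 299 1620 .nil)) .nil)) (.cons 229 (.leaf 230 1809 (.cons 228 (.leaf 249 1801 (.cons 277 (.leaf 278 2000 (.cons 301 (.leaf 325 1831 (.leaf 204 1639 .nil)) .nil)) .nil)) .nil)) .nil)) .nil)) .nil)) (.cons 273 (.leaf 274 1985 (.cons 249 (.leaf 250 1986 (.cons 225 t169 .nil)) .nil)) (.cons 273 (.leaf 274 1985 (.cons 249 (.leaf 250 1986 (.cons 225 t168 .nil)) .nil)) (.cons 274 (.leaf 273 1985 (.cons 253 (.leaf 254 2002 (.cons 250 (.cons 229 (.leaf 230 1809 (.cons 225 (.leaf 226 1803 (.cons 249 (.leaf 224 1795 (.leaf 228 1801 .nil)) .nil)) .nil)) (.cons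 229 (.leaf 230 1809 (.cons 228 (.leaf 249 1801 (.cons 204 (.leaf 180 1438 (.cons 277 (.leaf 278 2000 (.leaf 301 1639 .nil)) .nil)) .nil)) .nil)) (.cons 226 (.leaf 225 1803 (.cons 202 (.leaf 178 1428 (.cons 177 (.leaf 201 1423 (.cons 203 (.leaf 179 1429 (.cons 298 (.leaf 227 1621 (.cons 277 (.leaf 278 2000 (.cons 321 (.leaf 297 1806 (.cons 322 (.leaf 346 2005 (.leaf 345 1998 .nil)) .nil)) .nil)) .nil)) .nil)) .nil)) .nil)) .nil)) .nil))) .nil)) .nil)) (.cons 273 (.leaf 274 1985 (.cons 250 (.leaf 249 1986 (.cons 253 (.cons 230 (.leaf 229 1809 (.cons 254 (.leaf 231 1817 (.cons 227 (.leaf 226 1811 (.cons 278 (.leaf 277 2000 (.leaf 279 2008 .nil)) .nil)) .nil)) .nil)) (.cons 278 (.leaf 277 2000 (.cons 254 (.leaf 279 2008 (.cons 227 (.leaf 226 1811 (.cons 228 (.leaf 255 1819 (.cons 204 (.leaf 180 1438 (.leaf 299 1629 .nil)) .nil)) .nil)) .nil)) .nil)) (.cons 230 (.leaf 229 1809 (.cons 254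 (.leaf 231 1817 (.cons 227 (.leaf 226 1811 (.cons 228 (.leaf 255 1819 (.cons 204 (.leaf 180 1438 (.leaf 299 1629 .nil)) .nil)) .nil)) .nil)) .nil)) (.cons 229 (.leaf 230 1809 (.cons 277 (.leaf 278 2000 (.cons 205 t166 .nil)) .nil)) (.cons 230 (.leaf 229 1809 (.cons 254 (.leaf 231 1817 (.cons 278 (.leaf 277 2000 (.leaf 279 2008 .nil)) .nil)) .nil)) .nil))))) .nil)) .nil)) (.cons 273 (.leaf 274 1985 (.cons 250 (.leaf 249 1986 (.cons 253 t165 .nil)) .nil)) .nil)))))))))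
noncomputable def t173 : T := .cons 226 (.leaf 202 1623 (.cons 228 (.leaf 204 1629 (.cons 298 (.leaf 322 1814 (.cons 300 (.leaf 324 1820 (.cons 301 (.leaf 302 2195 (.cons 277 (.leaf 278 2193 (.cons 325 (.leaf 326 2384 (.cons 253 (.leaf 252 1831 (.cons 250 (.leaf 323 1812 (.cons 229 (.leaf 230 1810 (.leaf 249 1802 .nil)) .nil)) .nil)) .nil)) .nil)) .nil)) .nil)) .nil)) .nil)) .nil)) (.cons 226 (.leaf 202 1623 (.cons 204 (.leaf 228 1629 (.cons 323 (.leaf 250 1815 (.cons 324 (.leaf 300 1820 (.leaf 348 2012 .nil)) .nil)) .nil)) .nil)) (.cons 322 (.leaf 298 1814 (.cons 323 (.leaf 346 2006 (.cons 324 (.leaf 300 1820 (.leaf 348 2012 .nil)) .nil)) .nil)) (.cons 298 (.leaf 322 1814 (.cons 226 (.leaf 202 1623 (.cons 228 (.leaf 204 1629 (.cons 300 (.leaf 324 1820 (.cons 301 (.leaf 302 2195 (.cons 277 (.leaf 278 2193 (.cons 325 (.leaf 326 2384 (.cons 253 (.leaf 252 1831 (.cons 254 (.leaf 229 1808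 (.leaf 230 1837 .nil)) .nil)) .nil)) .nil)) .nil)) .nil)) .nil)) .nil)) .nil)) (.cons 322 (.leaf 298 1814 (.cons 204 (.leaf 228 1629 (.cons 323 (.leaf 346 2006 (.cons 347 (.leaf 250 2007 (.cons 348 (.leaf 324 2012 (.leaf 372 2204 .nil)) .nil)) .nil)) .nil)) .nil)) (.cons 322 (.leaf 298 1814 (.cons 228 (.leaf 204 1629 (.cons 323 (.leaf 252 1821 (.leaf 346 2006 .nil)) .nil)) .nil)) .nil)))))
noncomputable def t174 : T := .cons 203 (.leaf 298 1622 (.cons 178 (.leaf 202 1431 (.cons 179 (.leaf 154 1239 (.leaf 250 1430 .nil)) .nil)) .nil)) (.cons 299 t173 (.cons 203 (.cons 178 (.leaf 202 1431 (.cons 179 (.leaf 154 1239 (.leaf 250 1430 .nil)) .nil)) (.cons 178 (.leaf 202 1431 (.cons 204 (.leaf 180 1437 (.cons 299 (.leaf 228 1629 (.cons 324 (.leaf 300 1820 (.cons 323 (.leaf 348 2012 (.cons 347 (.leaf 250 2007 (.cons 346 (.leaf 322 2006 (.leaf 370 2198 .nil)) .nil)) .nil)) .nil)) .nil)) .nil))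 .nil)) (.cons 179 (.leaf 250 1430 (.cons 180 (.leaf 204 1437 (.leaf 156 1245 .nil)) .nil)) (.cons 204 (.leaf 180 1437 (.cons 178 (.leaf 202 1431 (.cons 179 (.leaf 154 1239 (.cons 176 (.leaf 177 1408 (.cons 228 (.leaf 299 1629 (.cons 155 (.leaf 252 1244 (.leaf 131 1052 .nil)) .nil)) .nil)) .nil)) .nil)) .nil)) .nil)))) (.cons 203 (.leaf 298 1622 (.cons 204 (.leaf 180 1437 (.cons 178 (.leaf 202 1431 (.cons 179 (.leaf 154 1239 (.cons 176 (.leaf 177 1408 (.cons 228 (.leaf 299 1629 (.cons 155 (.leaf 252 1244 (.leaf 131 1052 .nil)) .nil)) .nil)) .nil)) .nil)) .nil)) .nil)) (.cons 203 (.leaf 298 1622 (.cons 179 (.leaf 250 1430 (.cons 180 (.leaf 204 1437 (.leaf 156 1245 .nil)) .nil)) .nil)) .nil))))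
noncomputable def t175 : T := .cons 273 (.leaf 252 1985 (.cons 299 (.leaf 300 2176 (.cons 271 (.leaf 250 1977 (.leaf 298 2168 .nil)) .nil)) .nil)) (.cons 227 t174 (.cons 273 (.cons 299 (.leaf 300 2176 (.cons 271 (.leaf 250 1977 (.leaf 298 2168 .nil)) .nil)) (.cons 299 (.leaf 300 2176 (.cons 296 (.leaf 295 2170 (.cons 227 (.cons 204 (.leaf 228 1629 (.cons 203 (.leaf 180 1437 (.leaf 298 1622 .nil)) .nil)) (.cons 204 (.leaf 228 1629 (.cons 203 (.leaf 180 1437 (.cons 178 (.leaf 202 1431 (.cons 179 (.leaf 154 1239 (.leaf 250 1430 .nil)) .nil)) .nil)) .nil)) (.cons 204 (.leaf 228 1629 (.cons 322 (.leaf 298 1814 (.cons 323 (.leaf 346 2006 (.cons 324 (.leaf 348 2012 (.cons 321 (.leaf 297 2371 (.cons 344 (.leaf 345 2562 (.cons 320 (.leaf 249 1989 (.leaf 343 2554 .nil)) .nil)) .nil)) .nil)) .nil)) .nil)) .nil)) (.cons 298 (.leaf 203 1622 (.leaf 322 1814 .nil)) .nil)))) .nil)) .nil)) (.cons 271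 (.leaf 250 1977 (.cons 295 (.leaf 296 2170 (.leaf 294 2162 .nil)) .nil)) (.cons 299 (.leaf 300 2176 (.cons 271 (.leaf 298 2168 (.cons 295 (.leaf 296 2170 (.leaf 294 2162 .nil)) .nil)) .nil)) .nil)))) (.cons 273 (.leaf 252 1985 (.cons 271 (.leaf 250 1977 (.cons 295 (.leaf 296 2170 (.leaf 294 2162 .nil)) .nil)) .nil)) (.cons 273 (.leaf 252 1985 (.cons 299 (.leaf 300 2176 (.cons 271 (.leaf 298 2168 (.cons 295 (.leaf 296 2170 (.leaf 294 2162 .nil)) .nil)) .nil)) .nil)) .nil))))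
noncomputable def t176 : T := .cons 203 (.leaf 178 1431 (.cons 204 (.leaf 180 1437 (.cons 201 (.cons 228 (.leaf 299 1629 (.leaf 200 1600 .nil)) (.cons 226 (.leaf 299 1623 (.cons 225 (.leaf 224 1601 (.leaf 205 1610 .nil)) .nil)) (.cons 228 (.leaf 200 1600 (.leaf 229 1608 .nil)) .nil))) .nil)) .nil)) (.cons 299 (.leaf 226 1623 (.cons 228 (.leaf 204 1629 (.cons 323 (.leaf 252 1821 (.cons 324 (.leaf 300 1820 (.leaf 348 2012 .nil)) .nil)) .nil)) .nil)) (.cons 203 (.leaf 178 1431 (.cons 204 (.leaf 180 1437 (.cons 201 (.cons 228 (.leaf 200 1600 (.leaf 229 1608 .nil)) (.cons 225 (.leaf 224 1602 (.cons 176 (.leaf 177 1411 (.cons 200 (.leaf 175 1403 (.cons 226 (.leaf 199 1592 (.leaf 205 1610 .nil)) .nil)) .nil)) .nil)) (.cons 225 (.leaf 224 1602 (.cons 176 (.leaf 177 1411 (.cons 205 (.leaf 226 1610 (.cons 229 (.leaf 228 1608 (.leaf 230 1616 .nil)) .nil)) .nil)) .nil)) .nil))) .nil)) .nil)) (.cons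 203 (.leaf 178 1431 (.cons 204 (.leaf 180 1437 (.cons 228 (.leaf 299 1629 (.cons 229 (.leaf 230 1619 (.leaf 201 1608 .nil)) .nil)) .nil)) .nil)) (.cons 226 (.leaf 299 1623 (.cons 178 (.leaf 203 1431 (.leaf 154 1236 .nil)) .nil)) .nil))))
noncomputable def t177 : T := .cons 299 (.cons 202 (.leaf 226 1623 (.cons 203 (.leaf 178 1431 (.cons 204 (.leaf 180 1437 (.leaf 228 1629 .nil)) .nil)) .nil)) (.cons 202 (.leaf 226 1623 (.cons 178 (.leaf 203 1431 (.cons 322 (.leaf 298 1814 (.cons 323 (.leaf 346 2006 (.cons 324 (.leaf 300 1820 (.leaf 348 2012 .nil)) .nil)) .nil)) .nil)) .nil)) (.cons 298 (.leaf 322 1814 (.cons 274 (.leaf 203 1622 (.cons 273 (.leaf 252 1985 (.leaf 300 2176 .nil)) .nil)) .nil)) (.cons 202 (.leaf 226 1623 (.cons 204 (.leaf 228 1629 (.cons 298 (.leaf 322 1814 (.cons 300 (.leaf 324 1820 (.cons 273 (.leaf 274 2176 (.leaf 297 2179 .nil)) .nil)) .nil)) .nil)) .nil)) .nil))))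 (.cons 203 (.cons 178 (.leaf 202 1431 (.cons 179 (.leaf 154 1239 (.cons 180 (.leaf 204 1437 (.leaf 156 1245 .nil)) .nil)) .nil)) (.cons 274 (.leaf 298 1622 (.cons 178 (.leaf 202 1431 (.cons 154 (.leaf 179 1239 (.cons 273 (.leaf 252 1985 (.cons 247 (.leaf 248 1979 (.cons 271 (.leaf 246 1971 (.cons 295 (.leaf 296 2170 (.leaf 294 2162 .nil)) .nil)) .nil)) .nil)) .nil)) .nil)) .nil)) (.cons 180 (.leaf 204 1437 (.cons 156 (.leaf 179 1245 (.cons 274 (.leaf 298 1622 (.cons 273 (.leaf 252 1985 (.cons 247 (.leaf 248 1979 (.cons 271 (.leaf 246 1971 (.cons 295 (.leaf 296 2170 (.leaf 294 2162 .nil)) .nil)) .nil)) .nil)) .nil)) .nil)) .nil)) (.cons 274 (.leaf 298 1622 (.cons 178 (.leaf 202 1431 (.cons 180 (.leaf 204 1437 (.cons 273 (.leaf 252 1985 (.cons 247 (.leaf 248 1979 (.cons 271 (.leaf 246 1971 (.cons 295 (.leaf 296 2170 (.leaf 294 2162 .nil)) .nil)) .nil)) .nil)) .nil)) .nil)) .nil)) .nil))))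 (.cons 299 (.cons 202 (.leaf 226 1623 (.cons 228 (.leaf 204 1629 (.cons 323 (.leaf 252 1821 (.cons 324 (.leaf 300 1820 (.leaf 348 2012 .nil)) .nil)) .nil)) .nil)) (.cons 228 (.leaf 204 1629 (.cons 322 (.leaf 298 1814 (.cons 323 (.leaf 252 1821 (.leaf 346 2006 .nil)) .nil)) .nil)) (.cons 300 (.leaf 324 1820 (.cons 202 (.leaf 226 1623 (.cons 273 (.leaf 274 2176 (.cons 298 (.leaf 322 1814 (.leaf 297 2179 .nil)) .nil)) .nil)) .nil)) .nil))) (.cons 299 (.cons 202 (.leaf 226 1623 (.cons 178 (.leaf 203 1431 (.cons 322 (.leaf 298 1814 (.cons 323 (.leaf 346 2006 (.cons 324 (.leaf 300 1820 (.leaf 348 2012 .nil)) .nil)) .nil)) .nil)) .nil)) (.cons 228 (.leaf 204 1629 (.cons 322 (.leaf 298 1814 (.cons 323 (.leaf 252 1821 (.leaf 346 2006 .nil)) .nil)) .nil)) (.cons 202 (.leaf 226 1623 (.cons 203 (.leaf 178 1431 (.cons 204 (.leaf 180 1437 (.leaf 228 1629 .nil)) .nil)) .nil)) .nil))) (.cons 274 (.cons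 273 (.leaf 252 1985 (.cons 247 (.leaf 248 1979 (.cons 299 (.leaf 300 2176 (.cons 298 (.leaf 203 1622 (.leaf 322 1814 .nil)) .nil)) .nil)) .nil)) (.cons 298 (.leaf 203 1622 (.cons 322 (.leaf 299 1814 (.leaf 346 2005 .nil)) .nil)) (.cons 273 (.leaf 252 1985 (.cons 247 (.leaf 248 1979 (.cons 299 (.leaf 300 2176 (.cons 202 (.leaf 226 1623 (.cons 178 (.leaf 203 1431 (.cons 271 (.leaf 246 1971 (.cons 295 (.leaf 296 2170 (.leaf 294 2162 .nil)) .nil)) .nil)) .nil)) .nil)) .nil)) .nil)) (.cons 273 (.leaf 252 1985 (.cons 247 (.leaf 248 1979 (.cons 271 (.leaf 246 1971 (.cons 295 (.leaf 296 2170 (.leaf 294 2162 .nil)) .nil)) .nil)) .nil)) .nil)))) (.cons 274 (.cons 273 (.leaf 252 1985 (.cons 247 (.leaf 248 1979 (.cons 299 (.leaf 300 2176 (.cons 298 (.leaf 203 1622 (.leaf 322 1814 .nil)) .nil)) .nil)) .nil)) (.cons 298 (.leaf 203 1622 (.cons 322 (.leaf 299 1814 (.leaf 346 2005 .nil)) .nil)) (.cons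 273 (.leaf 252 1985 (.cons 247 (.leaf 248 1979 (.cons 271 (.leaf 246 1971 (.cons 295 (.leaf 296 2170 (.leaf 294 2162 .nil)) .nil)) .nil)) .nil)) .nil))) (.cons 202 t176 (.cons 299 (.cons 202 (.leaf 226 1623 (.cons 204 (.leaf 228 1629 (.cons 298 (.leaf 322 1814 (.cons 203 (.leaf 178 1431 (.leaf 180 1437 .nil)) .nil)) .nil)) .nil)) (.cons 300 (.leaf 324 1820 (.cons 202 (.leaf 226 1623 (.cons 203 (.leaf 178 1431 (.cons 204 (.leaf 180 1437 (.leaf 228 1629 .nil)) .nil)) .nil)) .nil)) (.cons 298 (.leaf 322 1814 (.cons 203 (.leaf 274 1622 (.cons 204 (.leaf 180 1437 (.leaf 228 1629 .nil)) .nil)) .nil)) (.cons 298 (.leaf 322 1814 (.cons 202 (.leaf 226 1623 (.cons 300 (.leaf 324 1820 (.cons 273 (.leaf 274 2176 (.leaf 297 2179 .nil)) .nil)) .nil)) .nil)) .nil)))) .nil)))))))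
noncomputable def t178 : T := .cons 297 (.cons 226 (.leaf 202 1613 (.leaf 321 1805 .nil)) (.cons 200 (.leaf 224 1607 (.cons 296 (.leaf 201 1606 (.leaf 320 1798 .nil)) .nil)) .nil)) (.cons 297 (.cons 226 (.leaf 202 1613 (.leaf 321 1805 .nil)) (.cons 200 (.leaf 224 1607 (.cons 296 (.leaf 320 1798 (.cons 322 (.leaf 298 1804 (.cons 321 (.leaf 346 1996 (.cons 345 (.leaf 248 1991 (.leaf 369 2183 .nil)) .nil)) .nil)) .nil)) .nil)) (.cons 200 (.leaf 224 1607 (.cons 226 (.leaf 202 1613 (.cons 296 (.leaf 320 1798 (.cons 298 (.leaf 322 1804 (.cons 299 (.leaf 323 1815 (.leaf 300 2179 .nil)) .nil)) .nil)) .nil)) .nil)) .nil))) (.cons 202 (.cons 297 (.leaf 226 1613 (.cons 200 (.leaf 224 1607 (.cons 176 (.leaf 201 1415 (.cons 322 (.leaf 298 1804 (.cons 321 (.leaf 346 1996 (.cons 344 (.leaf 320 1990 (.cons 345 (.leaf 248 1991 (.leaf 368 2182 .nil)) .nil)) .nil)) .nil)) .nil)) .nil)) .nil)) (.cons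 201 (.leaf 178 1421 (.cons 176 (.leaf 200 1415 (.cons 177 (.leaf 248 1414 (.leaf 152 1223 .nil)) .nil)) .nil)) (.cons 226 (.leaf 178 1428 (.leaf 297 1613 .nil)) .nil))) (.cons 296 (.leaf 201 1606 (.cons 320 (.leaf 248 1797 (.leaf 344 1989 .nil)) .nil)) (.cons 201 (.leaf 296 1606 (.cons 177 (.leaf 248 1414 (.cons 178 (.leaf 202 1421 (.leaf 154 1229 .nil)) .nil)) .nil)) .nil))))
noncomputable def t179 : T := .cons 200 (.leaf 224 1607 (.cons 202 (.leaf 226 1613 (.cons 296 (.leaf 320 1798 (.cons 322 (.leaf 298 1804 (.cons 321 (.leaf 346 1996 (.cons 345 (.leaf 248 1991 (.leaf 369 2183 .nil)) .nil)) .nil)) .nil)) .nil)) .nil)) (.cons 224 (.leaf 200 1607 (.cons 321 (.leaf 248 1799 (.cons 344 (.leaf 320 1990 (.cons 345 (.leaf 368 2182 (.cons 322 (.leaf 298 1804 (.leaf 346 1996 .nil)) .nil)) .nil)) .nil)) .nil)) (.cons 224 (.leaf 200 1607 (.cons 202 (.leaf 226 1613 (.cons 248 (.leaf 321 1799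 (.cons 298 (.leaf 322 1804 (.cons 271 (.leaf 270 2160 (.cons 299 (.leaf 296 2171 (.leaf 300 2179 .nil)) .nil)) .nil)) .nil)) .nil)) .nil)) (.cons 320 (.leaf 296 1798 (.cons 202 (.leaf 226 1613 (.cons 321 (.leaf 344 1990 (.cons 322 (.leaf 298 1804 (.leaf 346 1996 .nil)) .nil)) .nil)) .nil)) (.cons 224 (.leaf 200 1607 (.cons 321 (.leaf 248 1799 (.cons 344 (.leaf 320 1990 (.cons 345 (.leaf 368 2182 (.cons 346 (.leaf 322 1996 (.leaf 370 2188 .nil)) .nil)) .nil)) .nil)) .nil)) (.cons 320 (.leaf 296 1798 (.cons 202 (.leaf 226 1613 (.cons 224 (.leaf 200 1607 (.cons 321 (.leaf 248 1799 (.leaf 344 1990 .nil)) .nil)) .nil)) .nil)) (.cons 296 (.leaf 320 1798 (.cons 200 (.leaf 224 1607 (.cons 202 (.leaf 226 1613 (.cons 298 (.leaf 322 1804 (.cons 271 (.leaf 270 2160 (.leaf 299 2171 .nil)) .nil)) .nil)) .nil)) .nil)) .nil))))))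
noncomputable def t180 : T := .cons 250 (.leaf 252 1986 (.cons 271 (.leaf 248 1978 (.leaf 270 1969 .nil)) .nil)) (.cons 225 (.cons 201 (.leaf 296 1606 (.cons 177 (.leaf 248 1414 (.cons 178 (.leaf 202 1421 (.leaf 154 1229 .nil)) .nil)) .nil)) (.cons 297 t179 (.cons 297 (.cons 202 (.leaf 226 1613 (.cons 178 (.leaf 201 1421 (.cons 322 (.leaf 298 1804 (.cons 321 (.leaf 346 1996 (.cons 344 (.leaf 320 1990 (.cons 345 (.leaf 248 1991 (.leaf 368 2182 .nil)) .nil)) .nil)) .nil)) .nil)) .nil)) (.cons 200 (.leaf 224 1607 (.cons 201 (.leaf 176 1415 (.cons 202 (.leaf 178 1421 (.leaf 226 1613 .nil)) .nil)) .nil)) (.cons 224 (.leaf 200 1607 (.cons 321 (.leaf 248 1799 (.cons 344 (.leaf 320 1990 (.cons 345 (.leaf 368 2182 (.cons 322 (.leaf 298 1804 (.leaf 346 1996 .nil)) .nil)) .nil)) .nil)) .nil)) .nil))) (.cons 201 (.leaf 296 1606 (.cons 176 (.leaf 200 1415 (.cons 177 (.leaf 152 1223 (.cons 178 (.leaf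 202 1421 (.leaf 154 1229 .nil)) .nil)) .nil)) .nil)) (.cons 296 (.leaf 201 1606 (.cons 320 (.leaf 248 1797 (.leaf 344 1989 .nil)) .nil)) .nil))))) (.cons 250 (.leaf 252 1986 (.cons 271 (.leaf 270 1969 (.cons 225 (.cons 201 (.leaf 296 1606 (.cons 176 (.leaf 200 1415 (.cons 177 (.leaf 152 1223 (.cons 178 (.leaf 202 1421 (.leaf 154 1229 .nil)) .nil)) .nil)) .nil)) (.cons 224 (.cons 223 (.leaf 226 1784 (.leaf 222 1776 .nil)) (.cons 200 (.leaf 297 1607 (.cons 176 (.leaf 201 1415 (.leaf 152 1220 .nil)) .nil)) .nil)) (.cons 297 (.cons 226 (.leaf 202 1613 (.leaf 321 1805 .nil)) (.cons 320 (.leaf 296 1798 (.cons 200 (.leaf 224 1607 (.cons 321 (.leaf 344 1990 (.cons 322 (.leaf 298 1804 (.leaf 346 1996 .nil)) .nil)) .nil)) .nil)) (.cons 226 (.leaf 202 1613 (.cons 224 (.leaf 223 1784 (.leaf 200 1607 .nil)) .nil)) .nil))) (.cons 296 (.leaf 201 1606 (.cons 320 (.leaf 344 1989 (.leaf 297 1798 .nil))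 .nil)) .nil)))) .nil)) .nil)) (.cons 250 (.leaf 252 1986 (.cons 225 t178 .nil)) .nil)))
noncomputable def t181 : T := .cons 274 (.leaf 252 1985 (.cons 299 (.leaf 300 2176 (.cons 248 (.leaf 247 1979 (.cons 296 (.leaf 295 2170 (.cons 224 (.cons 199 (.leaf 223 1599 (.cons 200 (.leaf 175 1407 (.leaf 297 1604 .nil)) .nil)) (.cons 199 (.leaf 223 1599 (.cons 200 (.leaf 175 1407 (.cons 201 (.leaf 177 1413 (.leaf 225 1605 .nil)) .nil)) .nil)) (.cons 271 (.leaf 250 1977 (.leaf 298 2168 .nil)) .nil))) .nil)) .nil)) .nil)) .nil)) (.cons 249 t180 (.cons 274 (.cons 271 (.leaf 250 1977 (.cons 295 (.leaf 296 2170 (.leaf 294 2162 .nil)) .nil)) (.cons 299 (.leaf 300 2176 (.cons 248 (.leaf 247 1979 (.cons 296 (.leaf 295 2170 (.cons 224 (.cons 199 (.leaf 223 1599 (.cons 200 (.leaf 175 1407 (.leaf 297 1604 .nil)) .nil)) (.cons 199 (.leaf 223 1599 (.cons 200 (.leaf 175 1407 (.cons 201 (.leaf 177 1413 (.leaf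 225 1605 .nil)) .nil)) .nil)) (.cons 321 (.leaf 297 1796 (.cons 199 (.leaf 223 1599 (.cons 225 (.leaf 201 1605 (.cons 320 (.leaf 249 1797 (.leaf 345 1988 .nil)) .nil)) .nil)) .nil)) (.cons 297 (.leaf 200 1604 (.leaf 321 1796 .nil)) .nil)))) .nil)) .nil)) .nil)) (.cons 271 (.leaf 250 1977 (.cons 247 (.leaf 248 1979 (.leaf 246 1971 .nil)) .nil)) .nil))) (.cons 274 (.leaf 252 1985 (.cons 247 (.leaf 248 1979 (.cons 271 (.leaf 246 1971 (.cons 295 (.leaf 296 2170 (.leaf 294 2162 .nil)) .nil)) .nil)) .nil)) (.cons 274 (.leaf 252 1985 (.cons 299 (.leaf 300 2176 (.cons 248 (.leaf 247 1979 (.cons 296 (.leaf 295 2170 (.cons 224 (.cons 297 (.leaf 200 1604 (.leaf 321 1796 .nil)) (.cons 225 (.leaf 201 1605 (.cons 199 (.leaf 223 1599 (.cons 200 (.leaf 175 1407 (.cons 249 (.leaf 320 1797 (.leaf 176 1412 .nil)) .nil)) .nil)) .nil)) (.cons 321 (.leaf 297 1796 (.cons 199 (.leaf 223 1599 (.cons 225 (.leaf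 201 1605 (.cons 320 (.leaf 249 1797 (.leaf 345 1988 .nil)) .nil)) .nil)) .nil)) .nil))) .nil)) .nil)) .nil)) .nil)) (.cons 274 (.leaf 252 1985 (.cons 250 (.leaf 271 1977 (.cons 295 (.leaf 296 2170 (.cons 299 (.leaf 300 2176 (.cons 226 (.leaf 202 1620 (.leaf 323 1815 .nil)) .nil)) .nil)) .nil)) .nil)) (.cons 274 (.leaf 252 1985 (.cons 271 (.leaf 250 1977 (.cons 247 (.leaf 248 1979 (.leaf 246 1971 .nil)) .nil)) .nil)) .nil))))))
noncomputable def t182 : T := .cons 204 (.leaf 228 1629 (.cons 203 (.leaf 180 1437 (.cons 274 (.leaf 298 1622 (.cons 324 (.leaf 300 1820 (.cons 178 (.leaf 202 1431 (.cons 179 (.leaf 154 1239 (.leaf 250 1430 .nil)) .nil)) .nil)) .nil)) .nil)) .nil)) (.cons 204 (.leaf 228 1629 (.cons 180 (.leaf 203 1437 (.cons 324 (.leaf 300 1820 (.cons 323 (.leaf 348 2012 (.cons 250 (.leaf 226 1815 (.cons 274 (.leaf 347 2007 (.cons 273 (.leaf 271 1977 (.cons 296 (.leaf 295 2170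 (.cons 297 (.leaf 298 2368 (.cons 248 (.leaf 247 1979 (.cons 321 (.leaf 224 1796 (.leaf 345 1997 .nil)) .nil)) .nil)) .nil)) .nil)) .nil)) .nil)) .nil)) .nil)) .nil)) .nil)) (.cons 226 (.leaf 202 1623 (.cons 204 (.leaf 228 1629 (.cons 203 (.leaf 180 1437 (.cons 205 (.leaf 206 1618 (.cons 250 (.leaf 323 1815 (.cons 274 (.leaf 298 1621 (.leaf 179 1430 .nil)) .nil)) .nil)) .nil)) .nil)) .nil)) (.cons 202 (.leaf 226 1623 (.cons 203 (.leaf 178 1431 (.cons 274 (.leaf 298 1622 (.cons 250 (.leaf 179 1430 (.cons 323 (.leaf 347 2007 (.cons 324 (.leaf 300 1820 (.leaf 348 2012 .nil)) .nil)) .nil)) .nil)) .nil)) .nil)) (.cons 204 (.leaf 228 1629 (.cons 226 (.leaf 202 1623 (.cons 250 (.leaf 323 1815 (.cons 300 (.leaf 324 1820 (.cons 273 (.leaf 274 2176 (.cons 297 (.leaf 298 2179 (.cons 249 (.leaf 321 1805 (.cons 248 (.leaf 271 1978 (.leaf 247 1785 .nil)) .nil)) .nil)) .nil)) .nil)) .nil)) .nil))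 .nil)) (.cons 226 (.leaf 202 1623 (.cons 204 (.leaf 228 1629 (.cons 180 (.leaf 203 1437 (.cons 323 (.leaf 250 1815 (.cons 324 (.leaf 300 1820 (.leaf 348 2012 .nil)) .nil)) .nil)) .nil)) .nil)) (.cons 300 (.leaf 324 1820 (.cons 202 (.leaf 226 1623 (.cons 203 (.leaf 178 1431 (.cons 204 (.leaf 180 1437 (.leaf 228 1629 .nil)) .nil)) .nil)) .nil)) .nil))))))
noncomputable def t183 : T := .cons 227 (.cons 204 (.leaf 228 1629 (.cons 203 (.leaf 180 1437 (.cons 274 (.leaf 298 1622 (.cons 324 (.leaf 300 1820 (.cons 178 (.leaf 202 1431 (.cons 179 (.leaf 154 1239 (.leaf 250 1430 .nil)) .nil)) .nil)) .nil)) .nil)) .nil)) (.cons 226 (.leaf 202 1623 (.cons 323 (.leaf 250 1815 (.cons 324 (.leaf 300 1820 (.leaf 348 2012 .nil)) .nil)) .nil)) (.cons 204 (.leaf 228 1629 (.cons 203 (.leaf 180 1437 (.cons 274 (.leaf 298 1622 (.cons 324 (.leaf 300 1820 (.cons 250 (.leaf 179 1430 (.cons 323 (.leaf 226 1815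 (.leaf 347 2007 .nil)) .nil)) .nil)) .nil)) .nil)) .nil)) (.cons 298 (.leaf 322 1814 (.cons 202 (.leaf 226 1623 (.cons 203 (.leaf 178 1431 (.leaf 274 1622 .nil)) .nil)) .nil)) .nil)))) (.cons 323 (.cons 346 (.leaf 322 2006 (.cons 347 (.leaf 370 2198 (.cons 348 (.leaf 324 2012 (.leaf 372 2204 .nil)) .nil)) .nil)) (.cons 250 (.leaf 226 1815 (.cons 274 (.leaf 347 2007 (.cons 273 (.leaf 300 2176 (.leaf 271 1977 .nil)) .nil)) .nil)) (.cons 322 (.leaf 346 2006 (.cons 324 (.leaf 348 2012 (.cons 250 (.leaf 226 1815 (.cons 321 (.cons 300 (.leaf 320 2369 (.leaf 301 2377 .nil)) (.cons 296 (.leaf 297 2371 (.cons 295 (.leaf 320 2363 (.cons 274 (.leaf 273 2170 (.cons 345 (.leaf 344 2562 (.leaf 298 1998 .nil)) .nil)) .nil)) .nil)) (.cons 296 (.leaf 297 2371 (.cons 300 (.leaf 301 2377 (.cons 274 (.leaf 273 2176 (.cons 345 (.leaf 344 2562 (.leaf 298 1998 .nil)) .nil)) .nil)) .nil)) .nil))) .nil)) .nil))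 .nil)) .nil))) (.cons 227 (.cons 202 (.leaf 226 1623 (.cons 203 (.leaf 178 1431 (.cons 204 (.leaf 180 1437 (.leaf 228 1629 .nil)) .nil)) .nil)) (.cons 298 (.leaf 322 1814 (.cons 203 (.leaf 274 1622 (.cons 204 (.leaf 180 1437 (.leaf 228 1629 .nil)) .nil)) .nil)) (.cons 298 (.leaf 322 1814 (.cons 202 (.leaf 226 1623 (.cons 300 (.leaf 324 1820 (.cons 273 (.leaf 274 2176 (.leaf 297 2179 .nil)) .nil)) .nil)) .nil)) .nil))) (.cons 227 (.cons 202 (.leaf 226 1623 (.cons 178 (.leaf 203 1431 (.cons 322 (.leaf 298 1814 (.cons 323 (.leaf 346 2006 (.cons 324 (.leaf 300 1820 (.leaf 348 2012 .nil)) .nil)) .nil)) .nil)) .nil)) (.cons 204 (.leaf 228 1629 (.cons 180 (.leaf 203 1437 (.cons 322 (.leaf 298 1814 (.cons 323 (.leaf 346 2006 (.cons 324 (.leaf 300 1820 (.leaf 348 2012 .nil)) .nil)) .nil)) .nil)) .nil)) (.cons 226 (.leaf 202 1623 (.cons 204 (.leaf 228 1629 (.cons 322 (.leaf 298 1814 (.cons 323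 (.leaf 250 1815 (.leaf 346 2006 .nil)) .nil)) .nil)) .nil)) (.cons 226 (.leaf 202 1623 (.cons 204 (.leaf 228 1629 (.cons 180 (.leaf 203 1437 (.cons 323 (.leaf 250 1815 (.cons 324 (.leaf 300 1820 (.leaf 348 2012 .nil)) .nil)) .nil)) .nil)) .nil)) (.cons 202 (.leaf 226 1623 (.cons 203 (.leaf 178 1431 (.cons 204 (.leaf 180 1437 (.leaf 228 1629 .nil)) .nil)) .nil)) .nil))))) (.cons 323 (.cons 346 (.leaf 322 2006 (.cons 347 (.leaf 370 2198 (.cons 348 (.leaf 324 2012 (.leaf 372 2204 .nil)) .nil)) .nil)) (.cons 250 (.leaf 226 1815 (.cons 274 (.leaf 347 2007 (.cons 273 (.leaf 300 2176 (.leaf 271 1977 .nil)) .nil)) .nil)) (.cons 226 (.leaf 250 1815 (.cons 227 (.leaf 202 1623 (.cons 324 (.leaf 300 1820 (.leaf 348 2012 .nil)) .nil)) .nil)) .nil))) (.cons 227 (.cons 202 (.leaf 226 1623 (.cons 203 (.leaf 178 1431 (.cons 204 (.leaf 180 1437 (.leaf 228 1629 .nil)) .nil)) .nil)) (.cons 204 (.leaf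 228 1629 (.cons 203 (.leaf 180 1437 (.cons 298 (.leaf 274 1622 (.leaf 322 1814 .nil)) .nil)) .nil)) (.cons 202 (.leaf 226 1623 (.cons 203 (.leaf 178 1431 (.cons 298 (.leaf 274 1622 (.leaf 322 1814 .nil)) .nil)) .nil)) (.cons 204 (.leaf 228 1629 (.cons 226 (.leaf 202 1623 (.cons 322 (.leaf 298 1814 (.cons 323 (.leaf 250 1815 (.leaf 346 2006 .nil)) .nil)) .nil)) .nil)) .nil)))) (.cons 227 t182 (.cons 227 (.cons 298 (.leaf 322 1814 (.cons 274 (.leaf 203 1622 (.cons 324 (.leaf 300 1820 (.cons 323 (.leaf 348 2012 (.cons 347 (.leaf 250 2007 (.leaf 371 2199 .nil)) .nil)) .nil)) .nil)) .nil)) (.cons 300 (.leaf 324 1820 (.cons 204 (.leaf 228 1629 (.cons 203 (.leaf 180 1437 (.cons 178 (.leaf 202 1431 (.cons 179 (.leaf 154 1239 (.cons 274 (.leaf 273 2176 (.leaf 250 1430 .nil)) .nil)) .nil)) .nil)) .nil)) .nil)) (.cons 298 (.leaf 322 1814 (.cons 203 (.leaf 274 1622 (.cons 178 (.leaf 202 1431 (.cons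 179 (.leaf 154 1239 (.cons 180 (.leaf 204 1437 (.leaf 156 1245 .nil)) .nil)) .nil)) .nil)) .nil)) (.cons 324 (.leaf 300 1820 (.cons 204 (.leaf 228 1629 (.cons 180 (.leaf 203 1437 (.cons 322 (.leaf 298 1814 (.cons 323 (.leaf 346 2006 (.leaf 348 2012 .nil)) .nil)) .nil)) .nil)) .nil)) (.cons 300 (.leaf 324 1820 (.cons 204 (.leaf 228 1629 (.cons 273 (.leaf 274 2176 (.cons 298 (.leaf 322 1814 (.leaf 297 2179 .nil)) .nil)) .nil)) .nil)) .nil))))) .nil)))))))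
noncomputable def t184 : T := .cons 225 (.leaf 201 1606 (.cons 320 (.leaf 248 1797 (.leaf 344 1989 .nil)) .nil)) (.cons 320 (.leaf 344 1989 (.cons 248 (.cons 223 (.leaf 247 1791 (.cons 250 (.leaf 271 1978 (.leaf 224 1787 .nil)) .nil)) (.cons 223 (.leaf 247 1791 (.cons 224 (.leaf 199 1599 (.leaf 250 1787 .nil)) .nil)) (.cons 223 (.leaf 247 1791 (.cons 224 (.leaf 199 1599 (.cons 297 (.leaf 200 1604 (.leaf 321 1796 .nil)) .nil)) .nil)) (.cons 321 (.leaf 345 1988 (.cons 297 (.leaf 224 1796 (.cons 322 (.leaf 346 1996 (.cons 295 (.leaf 294 2352 (.leaf 323 2363 .nil)) .nil)) .nil)) .nil)) (.cons 271 (.leaf 250 1978 (.cons 223 (.leaf 247 1791 (.cons 270 (.leaf 269 1961 (.cons 245 (.leaf 246 1963 (.cons 294 (.leaf 293 2154 (.cons 297 (.leaf 298 2160 (.cons 321 (.leaf 345 1988 (.cons 322 (.leaf 346 1996 (.leaf 295 2352 .nil)) .nil)) .nil)) .nil)) .nil)) .nil)) .nil)) .nil)) .nil))))) .nil))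 (.cons 225 (.leaf 201 1606 (.cons 297 (.cons 202 (.leaf 226 1613 (.cons 322 (.leaf 298 1804 (.cons 321 (.leaf 346 1996 (.cons 345 (.leaf 248 1991 (.leaf 369 2183 .nil)) .nil)) .nil)) .nil)) (.cons 226 (.leaf 202 1613 (.cons 200 (.leaf 224 1607 (.cons 321 (.leaf 250 1805 (.cons 322 (.leaf 298 1804 (.leaf 346 1996 .nil)) .nil)) .nil)) .nil)) (.cons 224 (.leaf 200 1607 (.cons 226 (.leaf 202 1613 (.cons 223 (.leaf 250 1784 (.cons 199 (.leaf 248 1599 (.leaf 198 1587 .nil)) .nil)) .nil)) .nil)) (.cons 224 (.leaf 200 1607 (.cons 248 (.leaf 321 1796 (.cons 223 (.leaf 199 1599 (.leaf 250 1787 .nil)) .nil)) .nil)) .nil)))) .nil)) (.cons 320 (.leaf 344 1989 (.cons 225 (.leaf 201 1606 (.leaf 297 1798 .nil)) .nil)) .nil)))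
noncomputable def t185 : T := .cons 296 (.leaf 201 1606 (.cons 320 (.leaf 248 1797 (.leaf 344 1989 .nil)) .nil)) (.cons 297 (.cons 202 (.leaf 226 1613 (.cons 296 (.leaf 320 1798 (.cons 322 (.leaf 298 1804 (.cons 321 (.leaf 346 1996 (.cons 345 (.leaf 248 1991 (.leaf 369 2183 .nil)) .nil)) .nil)) .nil)) .nil)) (.cons 224 (.leaf 200 1607 (.cons 226 (.leaf 202 1613 (.cons 227 (.leaf 252 1792 (.cons 248 (.leaf 321 1799 (.leaf 228 1794 .nil)) .nil)) .nil)) .nil)) (.cons 320 (.leaf 296 1798 (.cons 200 (.leaf 224 1607 (.cons 202 (.leaf 226 1613 (.cons 321 (.leaf 344 1990 (.cons 322 (.leaf 298 1804 (.leaf 346 1996 .nil)) .nil)) .nil)) .nil)) .nil)) (.cons 200 (.leaf 224 1607 (.cons 296 (.leaf 320 1798 (.cons 322 (.leaf 298 1804 (.cons 321 (.leaf 346 1996 (.cons 345 (.leaf 248 1991 (.leaf 369 2183 .nil)) .nil)) .nil)) .nil)) .nil)) (.cons 224 (.leaf 200 1607 (.cons 226 (.leaf 202 1613 (.cons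 227 (.leaf 252 1792 (.cons 248 (.leaf 228 1794 (.leaf 247 1786 .nil)) .nil)) .nil)) .nil)) .nil))))) (.cons 297 (.cons 200 (.leaf 224 1607 (.cons 176 (.leaf 201 1415 (.cons 322 (.leaf 298 1804 (.cons 321 (.leaf 346 1996 (.cons 344 (.leaf 320 1990 (.cons 345 (.leaf 248 1991 (.leaf 368 2182 .nil)) .nil)) .nil)) .nil)) .nil)) .nil)) (.cons 202 (.leaf 226 1613 (.cons 178 (.leaf 201 1421 (.cons 322 (.leaf 298 1804 (.cons 321 (.leaf 346 1996 (.cons 344 (.leaf 320 1990 (.cons 345 (.leaf 248 1991 (.leaf 368 2182 .nil)) .nil)) .nil)) .nil)) .nil)) .nil)) (.cons 200 (.leaf 224 1607 (.cons 201 (.leaf 176 1415 (.cons 202 (.leaf 178 1421 (.leaf 226 1613 .nil)) .nil)) .nil)) (.cons 224 (.leaf 200 1607 (.cons 226 (.leaf 202 1613 (.cons 227 (.leaf 252 1792 (.cons 248 (.leaf 321 1799 (.leaf 228 1794 .nil)) .nil)) .nil)) .nil)) .nil)))) (.cons 296 (.leaf 201 1606 (.cons 320 (.leaf 344 1989 (.leaf 297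 1798 .nil)) .nil)) (.cons 201 (.leaf 296 1606 (.cons 177 (.leaf 248 1414 (.cons 178 (.leaf 202 1421 (.leaf 154 1229 .nil)) .nil)) .nil)) .nil))))
noncomputable def t186 : T := .cons 274 (.leaf 252 1985 (.cons 295 (.leaf 296 2170 (.cons 271 (.leaf 250 1977 (.leaf 294 2162 .nil)) .nil)) .nil)) (.cons 249 (.cons 250 (.leaf 252 1986 (.cons 271 (.leaf 248 1978 (.leaf 270 1969 .nil)) .nil)) (.cons 225 t185 (.cons 296 t184 (.cons 250 (.leaf 252 1986 (.cons 271 (.leaf 270 1969 (.cons 225 (.cons 201 (.leaf 296 1606 (.cons 176 (.leaf 200 1415 (.cons 177 (.leaf 152 1223 (.cons 178 (.leaf 202 1421 (.leaf 154 1229 .nil)) .nil)) .nil)) .nil)) (.cons 297 (.cons 226 (.leaf 202 1613 (.leaf 321 1805 .nil)) (.cons 320 (.leaf 296 1798 (.cons 200 (.leaf 224 1607 (.cons 321 (.leaf 344 1990 (.cons 322 (.leaf 298 1804 (.leaf 346 1996 .nil)) .nil)) .nil)) .nil)) (.cons 226 (.leaf 202 1613 (.cons 224 (.leaf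 223 1784 (.leaf 200 1607 .nil)) .nil)) .nil))) (.cons 224 (.cons 223 (.leaf 226 1784 (.leaf 222 1776 .nil)) (.cons 200 (.leaf 297 1607 (.cons 176 (.leaf 201 1415 (.leaf 152 1220 .nil)) .nil)) .nil)) (.cons 296 (.leaf 201 1606 (.cons 320 (.leaf 344 1989 (.leaf 297 1798 .nil)) .nil)) .nil)))) .nil)) .nil)) .nil)))) (.cons 274 (.cons 295 (.leaf 296 2170 (.cons 271 (.leaf 250 1977 (.leaf 294 2162 .nil)) .nil)) (.cons 248 (.leaf 247 1979 (.cons 296 (.leaf 295 2170 (.cons 224 (.cons 199 (.leaf 223 1599 (.cons 201 (.leaf 225 1605 (.cons 321 (.leaf 297 1796 (.cons 320 (.leaf 345 1988 (.cons 344 (.leaf 249 1989 (.cons 343 (.leaf 367 2174 (.cons 322 (.leaf 323 2554 (.cons 298 (.leaf 346 2005 (.cons 227 (.leaf 203 1622 (.leaf 250 1813 .nil)) .nil)) .nil)) .nil)) .nil)) .nil)) .nil)) .nil)) .nil)) (.cons 199 (.leaf 223 1599 (.cons 200 (.leaf 175 1407 (.cons 201 (.leaf 177 1413 (.leaf 225 1605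 .nil)) .nil)) .nil)) (.cons 199 (.leaf 223 1599 (.cons 297 (.leaf 200 1604 (.leaf 321 1796 .nil)) .nil)) (.cons 297 (.leaf 200 1604 (.leaf 321 1796 .nil)) .nil)))) .nil)) .nil)) (.cons 295 (.leaf 296 2170 (.cons 247 (.leaf 248 1979 (.cons 271 (.leaf 246 1971 (.leaf 294 2162 .nil)) .nil)) .nil)) (.cons 271 (.leaf 250 1977 (.cons 247 (.leaf 248 1979 (.leaf 246 1971 .nil)) .nil)) .nil)))) (.cons 274 (.leaf 252 1985 (.cons 295 (.leaf 296 2170 (.cons 247 (.leaf 248 1979 (.cons 271 (.leaf 246 1971 (.leaf 294 2162 .nil)) .nil)) .nil)) .nil)) (.cons 274 (.leaf 252 1985 (.cons 248 (.leaf 247 1979 (.cons 296 (.leaf 295 2170 (.cons 224 (.cons 199 (.leaf 223 1599 (.cons 201 (.leaf 225 1605 (.cons 321 (.leaf 297 1796 (.cons 320 (.leaf 345 1988 (.cons 344 (.leaf 249 1989 (.cons 343 (.leaf 367 2174 (.cons 322 (.leaf 323 2554 (.cons 298 (.leaf 346 2005 (.cons 227 (.leaf 203 1622 (.leaf 250 1813 .nil))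 .nil)) .nil)) .nil)) .nil)) .nil)) .nil)) .nil)) .nil)) (.cons 225 (.leaf 201 1605 (.cons 199 (.leaf 223 1599 (.cons 200 (.leaf 175 1407 (.cons 249 (.leaf 320 1797 (.leaf 176 1412 .nil)) .nil)) .nil)) .nil)) (.cons 297 (.leaf 200 1604 (.leaf 321 1796 .nil)) .nil))) .nil)) .nil)) .nil)) (.cons 274 (.leaf 252 1985 (.cons 271 (.leaf 250 1977 (.cons 247 (.leaf 248 1979 (.leaf 246 1971 .nil)) .nil)) .nil)) .nil)))))
noncomputable def t187 : T := .cons 204 (.leaf 228 1629 (.cons 203 (.leaf 180 1437 (.cons 274 (.leaf 298 1622 (.cons 324 (.leaf 300 1820 (.cons 178 (.leaf 202 1431 (.cons 179 (.leaf 154 1239 (.leaf 250 1430 .nil)) .nil)) .nil)) .nil)) .nil)) .nil)) (.cons 202 (.leaf 226 1623 (.cons 203 (.leaf 178 1431 (.cons 274 (.leaf 298 1622 (.cons 250 (.leaf 179 1430 (.cons 323 (.leaf 347 2007 (.cons 324 (.leaf 300 1820 (.leaf 348 2012 .nil)) .nil)) .nil)) .nil)) .nil)) .nil)) (.cons 204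 (.leaf 228 1629 (.cons 203 (.leaf 180 1437 (.cons 274 (.leaf 298 1622 (.cons 324 (.leaf 300 1820 (.cons 250 (.leaf 179 1430 (.cons 323 (.leaf 226 1815 (.leaf 347 2007 .nil)) .nil)) .nil)) .nil)) .nil)) .nil)) (.cons 226 (.leaf 202 1623 (.cons 204 (.leaf 228 1629 (.cons 203 (.leaf 180 1437 (.cons 205 (.leaf 206 1618 (.cons 250 (.leaf 323 1815 (.cons 274 (.leaf 298 1621 (.leaf 179 1430 .nil)) .nil)) .nil)) .nil)) .nil)) .nil)) (.cons 202 (.leaf 226 1623 (.cons 228 (.leaf 204 1629 (.cons 323 (.leaf 252 1821 (.cons 324 (.leaf 300 1820 (.leaf 348 2012 .nil)) .nil)) .nil)) .nil)) .nil))))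
noncomputable def t188 : T := .cons 298 (.leaf 322 1814 (.cons 202 (.leaf 226 1623 (.cons 203 (.leaf 178 1431 (.leaf 274 1622 .nil)) .nil)) .nil)) (.cons 298 (.leaf 322 1814 (.cons 203 (.leaf 274 1622 (.cons 178 (.leaf 202 1431 (.cons 179 (.leaf 154 1239 (.cons 180 (.leaf 204 1437 (.leaf 156 1245 .nil)) .nil)) .nil)) .nil)) .nil)) (.cons 202 (.leaf 226 1623 (.cons 203 (.leaf 178 1431 (.cons 204 (.leaf 180 1437 (.leaf 228 1629 .nil)) .nil)) .nil)) (.cons 298 (.leaf 322 1814 (.cons 203 (.leaf 274 1622 (.cons 204 (.leaf 180 1437 (.leaf 228 1629 .nil)) .nil)) .nil)) (.cons 226 (.leaf 202 1623 (.cons 228 (.leaf 204 1629 (.cons 298 (.leaf 322 1814 (.cons 300 (.leaf 324 1820 (.cons 229 (.cons 250 (.leaf 230 1810 (.leaf 249 1802 .nil)) (.cons 253 (.leaf 254 1808 (.cons 205 (.leaf 206 1617 (.cons 225 (.leaf 252 1800 (.cons 200 (.leaf 201 1603 (.cons 224 (.leaf 199 1595 (.cons 248 (.leaf 247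 1786 (.leaf 249 1794 .nil)) .nil)) .nil)) .nil)) .nil)) .nil)) (.cons 230 (.leaf 250 1810 (.cons 206 (.leaf 205 1617 (.leaf 207 1625 .nil)) .nil)) .nil))) .nil)) .nil)) .nil)) .nil)) .nil))))
noncomputable def t189 : T := .cons 227 (.cons 202 (.leaf 226 1623 (.cons 228 (.leaf 204 1629 (.cons 322 (.leaf 298 1814 (.cons 323 (.leaf 252 1821 (.leaf 346 2006 .nil)) .nil)) .nil)) .nil)) (.cons 204 (.leaf 228 1629 (.cons 203 (.leaf 180 1437 (.cons 298 (.leaf 274 1622 (.leaf 322 1814 .nil)) .nil)) .nil)) (.cons 226 (.leaf 202 1623 (.cons 322 (.leaf 298 1814 (.cons 323 (.leaf 250 1815 (.leaf 346 2006 .nil)) .nil)) .nil)) (.cons 202 (.leaf 226 1623 (.cons 203 (.leaf 178 1431 (.cons 204 (.leaf 180 1437 (.leaf 228 1629 .nil)) .nil)) .nil)) .nil)))) (.cons 323 (.cons 250 (.leaf 226 1815 (.cons 228 (.leaf 252 1821 (.cons 346 (.leaf 322 2006 (.cons 347 (.leaf 274 2007 (.leaf 370 2198 .nil)) .nil))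 .nil)) .nil)) (.cons 346 (.leaf 322 2006 (.cons 347 (.leaf 370 2198 (.cons 348 (.leaf 324 2012 (.leaf 372 2204 .nil)) .nil)) .nil)) (.cons 250 (.leaf 226 1815 (.cons 228 (.leaf 252 1821 (.cons 347 (.leaf 274 2007 (.cons 348 (.leaf 324 2012 (.leaf 372 2204 .nil)) .nil)) .nil)) .nil)) (.cons 322 (.leaf 346 2006 (.cons 324 (.leaf 348 2012 (.cons 250 (.leaf 226 1815 (.cons 252 (.leaf 228 1821 (.cons 321 (.cons 300 (.leaf 320 2369 (.leaf 301 2377 .nil)) (.cons 296 (.leaf 297 2371 (.cons 320 (.leaf 295 2363 (.cons 344 (.leaf 343 2554 (.leaf 345 2562 .nil)) .nil)) .nil)) (.cons 296 (.leaf 297 2371 (.cons 301 (.leaf 300 2377 (.cons 325 (.leaf 302 2385 (.cons 326 (.leaf 298 2387 (.cons 350 (.leaf 349 2576 (.leaf 351 2584 .nil)) .nil)) .nil)) .nil)) .nil)) .nil))) .nil)) .nil)) .nil)) .nil)) .nil)))) (.cons 227 t188 (.cons 323 (.cons 322 (.leaf 346 2006 (.cons 227 (.leaf 298 1814 (.cons 324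 (.leaf 300 1820 (.leaf 348 2012 .nil)) .nil)) .nil)) (.cons 324 (.leaf 348 2012 (.cons 227 (.leaf 300 1820 (.cons 228 (.leaf 204 1629 (.leaf 252 1821 .nil)) .nil)) .nil)) (.cons 322 (.leaf 346 2006 (.cons 227 (.leaf 298 1814 (.cons 228 (.leaf 204 1629 (.leaf 252 1821 .nil)) .nil)) .nil)) (.cons 228 (.leaf 252 1821 (.cons 324 (.leaf 348 2012 (.cons 346 (.leaf 322 2006 (.cons 347 (.leaf 370 2198 (.cons 274 (.leaf 250 2007 (.cons 298 (.leaf 371 2199 (.cons 325 (.leaf 326 2578 (.cons 297 (.leaf 296 2368 (.leaf 300 2376 .nil)) .nil)) .nil)) .nil)) .nil)) .nil)) .nil)) .nil)) .nil)))) (.cons 227 t187 (.cons 227 (.cons 202 (.leaf 226 1623 (.cons 228 (.leaf 204 1629 (.cons 323 (.leaf 252 1821 (.cons 324 (.leaf 300 1820 (.leaf 348 2012 .nil)) .nil)) .nil)) .nil)) (.cons 202 (.leaf 226 1623 (.cons 178 (.leaf 203 1431 (.cons 322 (.leaf 298 1814 (.cons 323 (.leaf 346 2006 (.cons 324 (.leaf 300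 1820 (.leaf 348 2012 .nil)) .nil)) .nil)) .nil)) .nil)) (.cons 202 (.leaf 226 1623 (.cons 178 (.leaf 203 1431 (.cons 228 (.leaf 204 1629 (.cons 322 (.leaf 298 1814 (.cons 323 (.leaf 252 1821 (.leaf 346 2006 .nil)) .nil)) .nil)) .nil)) .nil)) (.cons 204 (.leaf 228 1629 (.cons 203 (.leaf 180 1437 (.cons 298 (.leaf 274 1622 (.leaf 322 1814 .nil)) .nil)) .nil)) .nil)))) (.cons 323 (.cons 226 (.leaf 250 1815 (.cons 346 (.leaf 322 2006 (.cons 347 (.leaf 370 2198 (.cons 348 (.leaf 324 2012 (.leaf 372 2204 .nil)) .nil)) .nil)) .nil)) (.cons 226 (.leaf 250 1815 (.cons 227 (.leaf 202 1623 (.cons 324 (.leaf 300 1820 (.leaf 348 2012 .nil)) .nil)) .nil)) (.cons 226 (.leaf 250 1815 (.cons 227 (.leaf 202 1623 (.cons 322 (.leaf 298 1814 (.leaf 346 2006 .nil)) .nil)) .nil)) (.cons 322 (.leaf 346 2006 (.cons 227 (.leaf 298 1814 (.cons 324 (.leaf 300 1820 (.leaf 348 2012 .nil)) .nil)) .nil)) .nil))))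 (.cons 323 (.cons 228 (.leaf 252 1821 (.cons 204 (.leaf 227 1629 (.cons 346 (.leaf 322 2006 (.cons 347 (.leaf 370 2198 (.cons 348 (.leaf 324 2012 (.leaf 372 2204 .nil)) .nil)) .nil)) .nil)) .nil)) (.cons 226 (.leaf 250 1815 (.cons 227 (.leaf 202 1623 (.cons 228 (.leaf 204 1629 (.leaf 252 1821 .nil)) .nil)) .nil)) (.cons 250 (.leaf 226 1815 (.cons 274 (.leaf 347 2007 (.cons 322 (.leaf 346 2006 (.cons 324 (.leaf 348 2012 (.cons 300 (.leaf 227 1820 (.cons 301 (.leaf 302 2386 (.leaf 321 2377 .nil)) .nil)) .nil)) .nil)) .nil)) .nil)) (.cons 226 (.leaf 250 1815 (.cons 228 (.leaf 252 1821 (.cons 346 (.leaf 322 2006 (.cons 347 (.leaf 370 2198 (.cons 348 (.leaf 324 2012 (.leaf 372 2204 .nil)) .nil)) .nil)) .nil)) .nil)) .nil)))) .nil)))))))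
noncomputable def t190 : T := .cons 254 (.leaf 253 1811 (.cons 249 (.leaf 250 1986 (.cons 278 (.leaf 277 2193 (.cons 302 (.leaf 279 2201 (.cons 325 (.leaf 326 2384 (.leaf 230 1838 .nil)) .nil)) .nil)) .nil)) .nil)) (.cons 254 (.leaf 253 1811 (.cons 278 (.leaf 277 2193 (.cons 302 (.leaf 279 2201 (.cons 230 (.leaf 325 1838 (.cons 205 (.leaf 229 1647 (.cons 206 (.leaf 181 1455 (.cons 207 (.leaf 183 1461 (.leaf 231 1653 .nil)) .nil)) .nil)) .nil)) .nil)) .nil)) .nil)) (.cons 250 (.leaf 249 1986 (.cons 253 (.leaf 254 1811 (.cons 326 (.leaf 325 2384 (.cons 229 (.leaf 230 1809 (.cons 302 (.leaf 327 2392 (.leaf 277 1836 .nil)) .nil)) .nil)) .nil)) .nil)) (.cons 250 (.leaf 249 1986 (.cons 278 (.leaf 277 2193 (.cons 302 (.leaf 279 2201 (.cons 326 (.leaf 325 2384 (.leaf 327 2392 .nil)) .nil)) .nil)) .nil)) (.cons 326 (.leaf 325 2384 (.cons 254 (.leaf 253 1811 (.cons 302 (.leaf 327 2392 (.cons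 278 (.leaf 279 2201 (.cons 231 (.leaf 255 1845 (.cons 230 (.leaf 207 1653 (.cons 229 (.leaf 228 1818 (.leaf 205 1647 .nil)) .nil)) .nil)) .nil)) .nil)) .nil)) .nil)) (.cons 250 (.leaf 249 1986 (.cons 278 (.leaf 277 2193 (.cons 302 (.leaf 279 2201 (.cons 327 (.leaf 326 2392 (.cons 254 (.leaf 253 1811 (.cons 303 (.leaf 328 2400 (.leaf 230 1844 .nil)) .nil)) .nil)) .nil)) .nil)) .nil)) (.cons 250 (.leaf 249 1986 (.cons 253 (.leaf 254 1811 (.cons 277 (.leaf 278 2000 (.cons 325 (.leaf 326 2384 (.leaf 228 1831 .nil)) .nil)) .nil)) .nil)) .nil))))))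
noncomputable def t191 : T := .cons 204 (.leaf 228 1629 (.cons 203 (.leaf 180 1437 (.cons 202 (.leaf 178 1431 (.leaf 226 1623 .nil)) .nil)) .nil)) (.cons 228 (.leaf 204 1629 (.cons 298 (.leaf 322 1814 (.cons 300 (.leaf 324 1820 (.cons 297 (.leaf 273 2179 (.cons 296 (.leaf 271 2171 (.cons 248 (.cons 321 (.leaf 224 1796 (.leaf 320 2370 .nil)) (.cons 249 (.leaf 250 1793 (.cons 225 (.leaf 320 1797 (.leaf 226 1794 .nil)) .nil)) (.cons 224 (.leaf 321 1796 (.cons 199 (.leaf 223 1599 (.cons 175 (.leaf 200 1407 (.cons 225 (.leaf 201 1605 (.cons 226 (.leaf 252 1792 (.leaf 247 1786 .nil)) .nil)) .nil)) .nil)) .nil)) .nil))) .nil)) .nil)) .nil)) .nil)) .nil)) (.cons 226 (.leaf 202 1623 (.cons 298 (.leaf 322 1814 (.cons 300 (.leaf 324 1820 (.cons 273 (.leaf 297 2179 (.cons 252 (.cons 249 (.leaf 250 1986 (.cons 225 (.leaf 224 1792 (.cons 201 (.leaf 296 1606 (.cons 200 (.leaf 228 1603 (.leaf 176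 1415 .nil)) .nil)) .nil)) .nil)) (.cons 301 t190 (.cons 225 (.leaf 224 1792 (.cons 253 (.leaf 254 1811 (.leaf 228 1800 .nil)) .nil)) (.cons 250 (.leaf 249 1986 (.cons 225 (.leaf 224 1792 (.leaf 253 1803 .nil)) .nil)) .nil)))) .nil)) .nil)) .nil)) .nil)) (.cons 204 (.leaf 228 1629 (.cons 203 (.leaf 180 1437 (.cons 202 (.leaf 178 1431 (.cons 298 (.leaf 322 1814 (.cons 300 (.leaf 324 1820 (.cons 297 (.leaf 273 2179 (.cons 296 (.leaf 271 2171 (.cons 321 (.leaf 320 2370 (.cons 224 (.leaf 248 1796 (.cons 201 (.leaf 225 1602 (.cons 200 (.leaf 223 1594 (.cons 176 (.leaf 177 1411 (.leaf 175 1403 .nil)) .nil)) .nil)) .nil)) .nil)) .nil)) .nil)) .nil)) .nil)) .nil)) .nil)) .nil)) (.cons 226 (.leaf 202 1623 (.cons 298 (.leaf 322 1814 (.cons 300 (.leaf 324 1820 (.cons 297 (.leaf 273 2179 (.cons 296 (.leaf 271 2171 (.cons 321 (.leaf 320 2370 (.cons 224 (.leaf 248 1796 (.cons 225 (.leaf 252 1792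 (.cons 199 (.leaf 200 1595 (.cons 223 (.leaf 250 1784 (.leaf 198 1587 .nil)) .nil)) .nil)) .nil)) .nil)) .nil)) .nil)) .nil)) .nil)) .nil)) .nil))))
noncomputable def t192 : T := .cons 227 (.cons 202 (.leaf 226 1623 (.cons 203 (.leaf 178 1431 (.cons 204 (.leaf 180 1437 (.leaf 228 1629 .nil)) .nil)) .nil)) (.cons 228 (.leaf 204 1629 (.cons 322 (.leaf 298 1814 (.cons 323 (.leaf 252 1821 (.leaf 346 2006 .nil)) .nil)) .nil)) (.cons 226 (.leaf 202 1623 (.cons 322 (.leaf 298 1814 (.cons 323 (.leaf 250 1815 (.leaf 346 2006 .nil)) .nil)) .nil)) .nil))) (.cons 323 (.cons 226 (.leaf 250 1815 (.cons 346 (.leaf 322 2006 (.cons 347 (.leaf 370 2198 (.cons 348 (.leaf 324 2012 (.leaf 372 2204 .nil)) .nil)) .nil)) .nil)) (.cons 250 (.leaf 226 1815 (.cons 252 (.leaf 228 1821 (.cons 249 (.leaf 273 1986 (.cons 224 (.leaf 225 1795 (.cons 248 (.leaf 271 1978 (.leaf 223 1787 .nil)) .nil)) .nil)) .nil)) .nil))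 (.cons 228 (.leaf 252 1821 (.cons 346 (.leaf 322 2006 (.cons 347 (.leaf 370 2198 (.cons 348 (.leaf 324 2012 (.leaf 372 2204 .nil)) .nil)) .nil)) .nil)) .nil))) (.cons 227 t191 (.cons 323 (.cons 228 (.leaf 252 1821 (.cons 227 (.leaf 204 1629 (.cons 324 (.leaf 300 1820 (.leaf 348 2012 .nil)) .nil)) .nil)) (.cons 228 (.leaf 252 1821 (.cons 227 (.leaf 204 1629 (.cons 322 (.leaf 298 1814 (.leaf 346 2006 .nil)) .nil)) .nil)) (.cons 322 (.leaf 346 2006 (.cons 227 (.leaf 298 1814 (.cons 324 (.leaf 300 1820 (.leaf 348 2012 .nil)) .nil)) .nil)) (.cons 346 (.leaf 322 2006 (.cons 347 (.leaf 370 2198 (.cons 348 (.leaf 324 2012 (.leaf 372 2204 .nil)) .nil)) .nil)) .nil)))) (.cons 323 (.cons 226 (.leaf 250 1815 (.cons 346 (.leaf 322 2006 (.cons 347 (.leaf 370 2198 (.cons 348 (.leaf 324 2012 (.leaf 372 2204 .nil)) .nil)) .nil)) .nil)) (.cons 226 (.leaf 250 1815 (.cons 227 (.leaf 202 1623 (.cons 322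 (.leaf 298 1814 (.leaf 346 2006 .nil)) .nil)) .nil)) (.cons 226 (.leaf 250 1815 (.cons 227 (.leaf 202 1623 (.cons 324 (.leaf 300 1820 (.leaf 348 2012 .nil)) .nil)) .nil)) (.cons 346 (.leaf 322 2006 (.cons 347 (.leaf 370 2198 (.cons 348 (.leaf 324 2012 (.leaf 372 2204 .nil)) .nil)) .nil)) .nil)))) (.cons 227 (.cons 228 (.leaf 204 1629 (.cons 323 (.leaf 252 1821 (.cons 324 (.leaf 300 1820 (.leaf 348 2012 .nil)) .nil)) .nil)) (.cons 226 (.leaf 202 1623 (.cons 323 (.leaf 250 1815 (.cons 324 (.leaf 300 1820 (.leaf 348 2012 .nil)) .nil)) .nil)) (.cons 202 (.leaf 226 1623 (.cons 203 (.leaf 178 1431 (.cons 204 (.leaf 180 1437 (.leaf 228 1629 .nil)) .nil)) .nil)) .nil))) .nil)))))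
noncomputable def t193 : T := .cons 227 (.cons 202 (.leaf 226 1623 (.cons 228 (.leaf 204 1629 (.leaf 323 1821 .nil)) .nil)) (.cons 202 (.leaf 226 1623 (.cons 203 (.leaf 178 1431 (.leaf 298 1622 .nil)) .nil)) (.cons 228 (.leaf 204 1629 (.leaf 323 1821 .nil)) .nil))) (.cons 227 (.cons 298 (.leaf 203 1622 (.leaf 322 1814 .nil)) (.cons 202 (.leaf 226 1623 (.cons 203 (.leaf 178 1431 (.cons 204 (.leaf 180 1437 (.leaf 228 1629 .nil)) .nil)) .nil)) (.cons 202 (.leaf 226 1623 (.cons 228 (.leaf 204 1629 (.cons 298 (.leaf 322 1814 (.cons 300 (.leaf 324 1820 (.cons 301 (.leaf 302 2195 (.cons 277 (.leaf 325 1831 (.leaf 278 2193 .nil)) .nil)) .nil)) .nil)) .nil)) .nil)) .nil))) (.cons 323 (.cons 250 (.leaf 226 1815 (.leaf 347 2007 .nil)) (.cons 347 (.cons 346 (.leaf 322 2006 (.leaf 370 2198 .nil)) (.cons 298 (.leaf 371 2199 (.cons 324 (.leaf 348 2012 (.cons 297 (.leaf 296 2368 (.cons 325 (.leaf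 300 2376 (.leaf 326 2387 .nil)) .nil)) .nil)) .nil)) .nil)) (.cons 250 (.leaf 226 1815 (.cons 229 (.leaf 230 1809 (.cons 277 (.leaf 278 2000 (.cons 324 (.leaf 348 2012 (.cons 301 (.leaf 300 1830 (.cons 322 (.leaf 346 2006 (.cons 227 (.leaf 298 1813 (.cons 302 (.leaf 326 1836 (.leaf 325 2385 .nil)) .nil)) .nil)) .nil)) .nil)) .nil)) .nil)) .nil)) .nil))) (.cons 323 (.leaf 228 1821 (.cons 250 (.leaf 226 1815 (.leaf 347 2007 .nil)) .nil)) (.cons 323 (.leaf 228 1821 (.cons 348 (.leaf 324 2012 (.cons 347 (.leaf 250 2007 (.leaf 372 2204 .nil)) .nil)) .nil)) .nil))))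
noncomputable def t194 : T := .cons 229 (.leaf 230 1809 (.cons 277 (.leaf 278 2000 (.cons 321 (.leaf 345 1998 (.cons 323 (.leaf 347 2004 (.cons 228 (.leaf 299 1821 (.leaf 249 1801 .nil)) .nil)) .nil)) .nil)) .nil)) (.cons 323 (.leaf 347 2004 (.cons 228 (.leaf 299 1821 (.cons 180 (.leaf 204 1438 (.cons 229 (.leaf 230 1809 (.cons 277 (.leaf 278 2000 (.cons 325 (.leaf 301 1831 (.cons 324 (.leaf 297 2379 (.cons 321 (.leaf 345 1998 (.cons 349 (.leaf 348 2568 (.leaf 350 2576 .nil)) .nil)) .nil)) .nil)) .nil)) .nil)) .nil)) .nil)) .nil)) (.cons 229 (.leaf 230 1809 (.cons 249 (.leaf 228 1801 (.leaf 225 1807 .nil)) .nil)) (.cons 225 (.leaf 249 1807 (.cons 277 (.leaf 278 2000 (.cons 323 (.leaf 347 2004 (.cons 228 (.leaf 299 1821 (.cons 180 (.leaf 204 1444 (.cons 325 (.leaf 301 1831 (.cons 324 (.leaf 297 2379 (.cons 321 (.leaf 345 1998 (.cons 349 (.leaf 348 2568 (.leaf 350 2576 .nil)) .nil))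 .nil)) .nil)) .nil)) .nil)) .nil)) .nil)) .nil)) (.cons 229 (.leaf 230 1809 (.cons 249 (.leaf 225 1807 (.cons 248 (.leaf 247 1976 (.leaf 271 1978 .nil)) .nil)) .nil)) .nil))))
noncomputable def t195 : T := .cons 274 (.leaf 273 1985 (.cons 253 (.leaf 254 2002 (.cons 227 (.cons 203 (.leaf 298 1622 (.cons 178 (.leaf 202 1431 (.cons 179 (.leaf 154 1239 (.cons 180 (.leaf 204 1437 (.leaf 156 1245 .nil)) .nil)) .nil)) .nil)) (.cons 299 (.cons 202 (.leaf 226 1623 (.cons 228 (.leaf 204 1629 (.leaf 323 1821 .nil)) .nil)) (.cons 202 (.leaf 226 1623 (.cons 322 (.leaf 298 1814 (.cons 323 (.leaf 346 2006 (.cons 324 (.leaf 300 1820 (.leaf 348 2012 .nil)) .nil)) .nil)) .nil)) (.cons 202 (.leaf 226 1623 (.cons 228 (.leaf 204 1629 (.cons 298 (.leaf 322 1814 (.cons 300 (.leaf 324 1820 (.cons 301 (.leaf 302 2195 (.cons 277 (.leaf 325 1831 (.leaf 278 2193 .nil)) .nil)) .nil)) .nil)) .nil)) .nil)) (.cons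 228 (.leaf 204 1629 (.leaf 323 1821 .nil)) .nil)))) (.cons 226 (.cons 202 (.leaf 299 1623 (.cons 178 (.leaf 203 1431 (.leaf 154 1236 .nil)) .nil)) (.cons 225 (.leaf 224 1792 (.leaf 228 1800 .nil)) .nil)) (.cons 298 (.leaf 203 1622 (.cons 322 (.leaf 299 1814 (.leaf 346 2005 .nil)) .nil)) .nil)))) .nil)) .nil)) (.cons 274 (.leaf 273 1985 (.cons 253 (.leaf 254 2002 (.cons 250 (.cons 226 (.leaf 225 1803 (.cons 202 (.leaf 178 1428 (.cons 203 (.leaf 179 1429 (.cons 227 (.leaf 298 1621 (.cons 204 (.leaf 180 1437 (.cons 229 (.leaf 230 1809 (.cons 228 (.leaf 249 1801 (.leaf 201 1608 .nil)) .nil)) .nil)) .nil)) .nil)) .nil)) .nil)) (.cons 229 (.leaf 230 1809 (.cons 228 (.leaf 249 1801 (.cons 204 (.leaf 180 1438 (.cons 277 (.leaf 278 2000 (.leaf 301 1639 .nil)) .nil)) .nil)) .nil)) (.cons 226 (.leaf 225 1803 (.cons 202 (.leaf 178 1428 (.cons 177 (.leaf 201 1423 (.cons 203 (.leaf 179 1429 (.cons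 298 (.leaf 227 1621 (.cons 277 (.leaf 278 2000 (.cons 321 (.leaf 297 1806 (.cons 322 (.leaf 346 2005 (.leaf 345 1998 .nil)) .nil)) .nil)) .nil)) .nil)) .nil)) .nil)) .nil)) .nil))) .nil)) .nil)) (.cons 273 (.leaf 274 1985 (.cons 250 (.leaf 249 1986 (.cons 226 (.cons 225 (.leaf 253 1803 (.cons 224 (.leaf 223 1784 (.leaf 227 1792 .nil)) .nil)) (.cons 202 (.leaf 178 1428 (.cons 299 (.leaf 227 1623 (.leaf 323 1815 .nil)) .nil)) (.cons 178 (.leaf 202 1428 (.cons 253 (.leaf 225 1803 (.cons 230 (.leaf 229 1809 (.cons 254 (.leaf 231 1817 (.cons 278 (.leaf 277 2000 (.leaf 279 2008 .nil)) .nil)) .nil)) .nil)) .nil)) .nil))) .nil)) .nil)) (.cons 273 (.leaf 274 1985 (.cons 249 (.leaf 250 1986 (.cons 225 (.cons 296 (.leaf 201 1606 (.cons 320 (.leaf 248 1797 (.leaf 344 1989 .nil)) .nil)) (.cons 226 (.cons 227 (.leaf 224 1792 (.cons 228 (.leaf 248 1794 (.cons 204 (.leaf 180 1438 (.leaf 299 1629 .nil))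 .nil)) .nil)) (.cons 297 (.leaf 202 1613 (.cons 296 (.leaf 320 1798 (.cons 298 (.leaf 322 1804 (.cons 271 (.leaf 270 2160 (.leaf 299 2171 .nil)) .nil)) .nil)) .nil)) (.cons 227 (.leaf 224 1792 (.cons 228 (.leaf 248 1794 (.cons 204 (.leaf 180 1438 (.leaf 205 1609 .nil)) .nil)) .nil)) .nil))) (.cons 201 (.cons 176 (.leaf 200 1415 (.cons 177 (.leaf 248 1414 (.leaf 152 1223 .nil)) .nil)) (.cons 177 (.leaf 248 1414 (.cons 178 (.leaf 202 1421 (.leaf 154 1229 .nil)) .nil)) (.cons 176 (.leaf 200 1415 (.cons 202 (.leaf 178 1421 (.cons 226 (.leaf 297 1613 (.cons 227 (.leaf 299 1623 (.leaf 224 1792 .nil)) .nil)) .nil)) .nil)) .nil))) (.cons 296 (.leaf 201 1606 (.cons 320 (.leaf 344 1989 (.leaf 297 1798 .nil)) .nil)) .nil)))) .nil)) .nil)) (.cons 274 (.leaf 273 1985 (.cons 253 (.leaf 254 2002 (.cons 250 (.cons 226 (.leaf 225 1803 (.cons 202 (.leaf 178 1428 (.leaf 299 1620 .nil)) .nil)) (.cons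 229 (.leaf 230 1809 (.cons 228 (.leaf 249 1801 (.cons 277 (.leaf 278 2000 (.cons 301 (.leaf 325 1831 (.leaf 204 1639 .nil)) .nil)) .nil)) .nil)) .nil)) .nil)) .nil)) (.cons 274 (.leaf 273 1985 (.cons 253 (.leaf 254 2002 (.cons 298 (.cons 322 (.leaf 346 2005 (.cons 250 (.leaf 227 1813 (.cons 229 (.leaf 230 1809 (.cons 277 (.leaf 278 2000 (.cons 321 (.leaf 345 1998 (.cons 323 (.leaf 347 2004 (.cons 228 (.leaf 299 1821 (.leaf 249 1801 .nil)) .nil)) .nil)) .nil)) .nil)) .nil)) .nil)) (.cons 227 (.leaf 203 1622 (.cons 299 (.cons 228 (.leaf 204 1629 (.leaf 323 1821 .nil)) (.cons 324 (.leaf 300 1820 (.cons 323 (.leaf 348 2012 (.cons 347 (.leaf 250 2007 (.leaf 371 2199 .nil)) .nil)) .nil)) (.cons 228 (.leaf 204 1629 (.cons 300 (.leaf 324 1820 (.cons 301 (.leaf 302 2195 (.cons 277 (.leaf 325 1831 (.leaf 278 2193 .nil)) .nil)) .nil)) .nil)) .nil))) .nil)) (.cons 322 (.leaf 346 2005 (.cons 250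 t194 .nil)) (.cons 322 (.leaf 346 2005 (.cons 227 (.leaf 203 1622 (.leaf 299 1814 .nil)) .nil)) (.cons 322 (.leaf 346 2005 (.cons 227 (.leaf 203 1622 (.leaf 250 1813 .nil)) .nil)) .nil))))) .nil)) .nil)) (.cons 274 (.leaf 273 1985 (.cons 253 (.leaf 254 2002 (.cons 299 t193 .nil)) .nil)) .nil))))))
noncomputable def t196 : T := .cons 202 (.leaf 226 1623 (.cons 203 (.leaf 178 1431 (.cons 204 (.leaf 180 1437 (.leaf 228 1629 .nil)) .nil)) .nil)) (.cons 228 (.leaf 204 1629 (.cons 298 (.leaf 322 1814 (.cons 203 (.leaf 274 1622 (.cons 178 (.leaf 202 1431 (.cons 179 (.leaf 154 1239 (.leaf 155 1244 .nil)) .nil)) .nil)) .nil)) .nil)) (.cons 226 (.leaf 202 1623 (.cons 224 (.leaf 225 1792 (.cons 253 (.leaf 254 1811 (.cons 298 (.leaf 322 1814 (.cons 203 (.leaf 274 1622 (.cons 180 (.leaf 204 1437 (.cons 179 (.leaf 156 1245 (.cons 155 (.leaf 250 1238 (.cons 154 (.leaf 178 1239 (.leaf 130 1047 .nil))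 .nil)) .nil)) .nil)) .nil)) .nil)) .nil)) .nil)) .nil)) (.cons 226 (.leaf 202 1623 (.cons 224 (.leaf 225 1792 (.cons 253 (.leaf 254 1811 (.cons 298 (.leaf 322 1814 (.cons 274 (.leaf 203 1622 (.cons 300 (.leaf 324 1820 (.cons 301 (.leaf 302 2195 (.cons 277 (.leaf 278 2193 (.cons 325 (.leaf 228 1831 (.leaf 326 2384 .nil)) .nil)) .nil)) .nil)) .nil)) .nil)) .nil)) .nil)) .nil)) (.cons 228 (.leaf 204 1629 (.cons 298 (.leaf 322 1814 (.cons 274 (.leaf 203 1622 (.cons 253 (.leaf 254 2002 (.cons 300 (.leaf 324 1820 (.cons 301 (.leaf 302 2195 (.cons 277 (.leaf 325 1831 (.leaf 278 2193 .nil)) .nil)) .nil)) .nil)) .nil)) .nil)) .nil)) (.cons 226 (.leaf 202 1623 (.cons 204 (.leaf 228 1629 (.cons 225 (.leaf 224 1792 (.cons 253 (.leaf 250 1803 (.leaf 254 1811 .nil)) .nil)) .nil)) .nil)) .nil)))))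
noncomputable def t197 : T := .cons 227 (.cons 298 (.leaf 322 1814 (.cons 274 (.leaf 203 1622 (.cons 226 (.leaf 202 1623 (.cons 253 (.leaf 254 2002 (.cons 225 (.leaf 224 1792 (.leaf 250 1803 .nil)) .nil)) .nil)) .nil)) .nil)) (.cons 298 (.leaf 322 1814 (.cons 274 (.leaf 203 1622 (.cons 324 (.leaf 300 1820 (.cons 323 (.leaf 228 1821 (.leaf 348 2012 .nil)) .nil)) .nil)) .nil)) (.cons 226 (.leaf 202 1623 (.cons 224 (.leaf 225 1792 (.cons 253 (.leaf 254 1811 (.cons 323 (.leaf 250 1815 (.leaf 228 1821 .nil)) .nil)) .nil)) .nil)) .nil))) (.cons 227 t196 (.cons 227 (.cons 226 (.leaf 202 1623 (.cons 224 (.leaf 225 1792 (.cons 253 (.leaf 254 1811 (.cons 298 (.leaf 322 1814 (.cons 203 (.leaf 274 1622 (.cons 180 (.leaf 204 1437 (.cons 179 (.leaf 156 1245 (.cons 155 (.leaf 250 1238 (.cons 154 (.leaf 178 1239 (.leaf 130 1047 .nil)) .nil)) .nil)) .nil)) .nil)) .nil)) .nil)) .nil)) .nil)) (.cons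 298 (.leaf 322 1814 (.cons 274 (.leaf 203 1622 (.cons 324 (.leaf 300 1820 (.cons 323 (.leaf 348 2012 (.cons 347 (.leaf 250 2007 (.leaf 371 2199 .nil)) .nil)) .nil)) .nil)) .nil)) (.cons 226 (.leaf 202 1623 (.cons 224 (.leaf 225 1792 (.cons 253 (.leaf 254 1811 (.cons 323 (.leaf 250 1815 (.cons 324 (.leaf 300 1820 (.leaf 348 2012 .nil)) .nil)) .nil)) .nil)) .nil)) (.cons 226 (.leaf 202 1623 (.cons 224 (.leaf 225 1792 (.cons 253 (.leaf 254 1811 (.cons 322 (.leaf 298 1814 (.cons 323 (.leaf 346 2006 (.cons 324 (.leaf 300 1820 (.leaf 348 2012 .nil)) .nil)) .nil)) .nil)) .nil)) .nil)) .nil)))) (.cons 323 (.leaf 228 1821 (.cons 226 (.leaf 250 1815 (.cons 346 (.leaf 322 2006 (.cons 347 (.leaf 370 2198 (.cons 348 (.leaf 324 2012 (.leaf 372 2204 .nil)) .nil)) .nil)) .nil)) .nil)) (.cons 323 (.leaf 228 1821 (.cons 322 (.leaf 346 2006 (.cons 227 (.leaf 298 1814 (.cons 324 (.leaf 300 1820 (.leaf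 348 2012 .nil)) .nil)) .nil)) .nil)) (.cons 323 (.leaf 228 1821 (.cons 226 (.leaf 250 1815 (.cons 227 (.leaf 202 1623 (.cons 324 (.leaf 300 1820 (.leaf 348 2012 .nil)) .nil)) .nil)) .nil)) (.cons 323 (.leaf 228 1821 (.cons 226 (.leaf 250 1815 (.cons 227 (.leaf 202 1623 (.cons 322 (.leaf 298 1814 (.leaf 346 2006 .nil)) .nil)) .nil)) .nil)) .nil))))))
noncomputable def t198 : T := .cons 274 (.leaf 273 1985 (.cons 253 (.leaf 254 2002 (.cons 250 (.cons 226 (.leaf 225 1803 (.cons 202 (.leaf 178 1428 (.leaf 299 1620 .nil)) .nil)) (.cons 229 (.leaf 230 1809 (.cons 277 (.leaf 278 2000 (.cons 204 (.cons 180 (.leaf 228 1444 (.leaf 205 1447 .nil)) (.cons 205 (.leaf 180 1447 (.cons 182 (.leaf 206 1453 (.cons 181 (.leaf 158 1261 (.cons 203 (.leaf 202 1425 (.cons 227 (.leaf 298 1622 (.leaf 179 1430 .nil)) .nil)) .nil)) .nil)) .nil)) (.cons 301 (.leaf 228 1639 (.cons 302 (.leaf 326 1836 (.cons 324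 (.leaf 300 1830 (.cons 325 (.leaf 348 2022 (.cons 322 (.leaf 323 2385 (.cons 298 (.leaf 346 2005 (.leaf 227 1813 .nil)) .nil)) .nil)) .nil)) .nil)) .nil)) .nil))) .nil)) .nil)) (.cons 226 (.leaf 225 1803 (.cons 299 (.leaf 323 1815 (.cons 298 (.cons 227 (.leaf 203 1621 (.leaf 322 1813 .nil)) (.cons 297 (.leaf 321 1806 (.cons 296 (.leaf 295 2169 (.leaf 271 2171 .nil)) .nil)) .nil)) .nil)) .nil)) .nil))) .nil)) .nil)) (.cons 250 (.cons 249 (.leaf 273 1986 (.cons 228 (.leaf 229 1801 (.cons 248 (.leaf 271 1978 (.leaf 227 1793 .nil)) .nil)) .nil)) (.cons 226 (.cons 202 (.leaf 178 1428 (.cons 299 (.leaf 227 1623 (.leaf 323 1815 .nil)) .nil)) (.cons 178 (.leaf 202 1428 (.cons 225 (.leaf 253 1803 (.cons 224 (.leaf 223 1784 (.leaf 227 1792 .nil)) .nil)) .nil)) (.cons 253 (.leaf 225 1803 (.cons 254 (.leaf 227 1811 (.cons 230 (.leaf 229 1809 (.leaf 231 1817 .nil)) .nil)) .nil)) (.cons 178 (.leaf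 202 1428 (.cons 253 (.leaf 225 1803 (.cons 299 (.leaf 323 1815 (.cons 230 (.leaf 229 1809 (.cons 254 (.leaf 231 1817 (.cons 278 (.leaf 277 2000 (.leaf 279 2008 .nil)) .nil)) .nil)) .nil)) .nil)) .nil)) .nil)))) (.cons 249 (.leaf 273 1986 (.cons 224 (.leaf 225 1795 (.cons 248 (.leaf 271 1978 (.leaf 223 1787 .nil)) .nil)) .nil)) .nil))) (.cons 299 t197 t195))
noncomputable def top0 : T := .cons 295 t86 (.cons 248 (.cons 224 (.cons 295 (.leaf 319 1790 (.cons 200 (.leaf 271 1598 (.cons 175 (.leaf 199 1407 (.cons 176 (.leaf 151 1215 (.cons 177 (.leaf 201 1413 (.leaf 153 1221 .nil)) .nil)) .nil)) .nil)) .nil)) (.cons 223 (.leaf 199 1599 (.cons 225 (.leaf 201 1605 (.cons 320 (.leaf 247 1791 (.leaf 249 1797 .nil)) .nil)) .nil)) (.cons 295 (.leaf 319 1790 (.cons 271 (.leaf 200 1598 (.cons 321 (.leaf 297 1796 (.cons 320 (.leaf 345 1988 (.cons 247 (.leaf 223 1788 (.leaf 344 1983 .nil)) .nil))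 .nil)) .nil)) .nil)) .nil))) t82) (.cons 248 t80 (.cons 274 t78 (.cons 274 t72 (.cons 320 t66 (.cons 248 (.cons 320 (.cons 223 (.leaf 247 1791 (.cons 224 (.leaf 199 1599 (.cons 225 (.leaf 201 1605 (.leaf 249 1797 .nil)) .nil)) .nil)) (.cons 249 (.leaf 225 1797 (.cons 273 (.leaf 344 1989 (.cons 274 (.leaf 295 2170 (.cons 251 (.leaf 252 1985 (.cons 250 (.leaf 271 1977 (.cons 299 (.leaf 300 2176 (.cons 226 (.leaf 202 1620 (.leaf 323 1815 .nil)) .nil)) .nil)) .nil)) .nil)) .nil)) .nil)) (.cons 247 (.leaf 223 1791 (.cons 273 (.leaf 274 1979 (.cons 344 (.leaf 271 1983 (.cons 343 (.leaf 319 1982 (.leaf 367 2174 .nil)) .nil)) .nil)) .nil)) .nil))) (.cons 224 t62 t61)) (.cons 295 (t59) (.cons 295 t53 (.cons 295 t49 (.cons 295 t41 (.cons 248 t34 (.cons 295 t31 (.cons 248 t23 (.cons 295 t20 (.cons 295 t11 (.cons 295 t6 .nil))))))))))))))))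
noncomputable def top1 : T := .cons 247 t143 (.cons 296 t139 (.cons 296 t138 (.cons 274 t135 (.cons 274 t129 (.cons 224 t125 (.cons 296 t121 (.cons 247 t118 (.cons 247 t113 (.cons 296 (.cons 224 (.cons 295 (.leaf 319 1790 (.cons 273 (.leaf 274 2170 (.cons 321 (.leaf 297 1796 (.cons 320 (.leaf 345 1988 (.cons 223 (.leaf 199 1599 (.leaf 247 1791 .nil)) .nil)) .nil)) .nil)) .nil)) (.cons 297 (.leaf 321 1796 (.cons 200 (.leaf 273 1604 (.cons 175 (.leaf 199 1407 (.cons 176 (.leaf 151 1215 (.cons 177 (.leaf 201 1413 (.leaf 153 1221 .nil)) .nil)) .nil)) .nil)) .nil)) (.cons 295 (.leaf 319 1790 (.cons 200 (.leaf 271 1598 (.cons 175 (.leaf 199 1407 (.cons 176 (.leaf 151 1215 (.cons 177 (.leaf 201 1413 (.leaf 153 1221 .nil)) .nil)) .nil)) .nil)) .nil)) (.cons 295 (.leaf 319 1790 (.cons 273 (.leaf 274 2170 (.cons 321 (.leaf 297 1796 (.cons 320 (.leaf 345 1988 (.cons 322 (.leaf 323 2363 (.cons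 344 (.leaf 249 1989 (.cons 271 (.leaf 200 1598 (.leaf 247 1983 .nil)) .nil)) .nil)) .nil)) .nil)) .nil)) .nil)) .nil)))) t106) (.cons 247 t103 (.cons 296 (t96) (.cons 247 t93 .nil))))))))))))
noncomputable def top2 : T := .cons 252 t198 (.cons 299 t192 (.cons 299 (t189) (.cons 273 t186 (.cons 299 (t183) (.cons 273 t181 (.cons 227 (t177) (.cons 274 t175 (.cons 252 (.cons 273 (.leaf 274 1985 (.cons 249 (.leaf 250 1986 (.cons 225 (.cons 296 (.leaf 201 1606 (.cons 320 (.leaf 248 1797 (.leaf 344 1989 .nil)) .nil)) (.cons 226 (.cons 227 (.leaf 224 1792 (.cons 228 (.leaf 253 1800 (.leaf 248 1794 .nil)) .nil)) (.cons 297 (.leaf 202 1613 (.cons 296 (.leaf 320 1798 (.cons 298 (.leaf 322 1804 (.cons 271 (.leaf 270 2160 (.leaf 299 2171 .nil)) .nil)) .nil)) .nil)) .nil)) (.cons 201 (.cons 176 (.leaf 200 1415 (.cons 177 (.leaf 248 1414 (.leaf 152 1223 .nil)) .nil)) (.cons 177 (.leaf 248 1414 (.cons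 178 (.leaf 202 1421 (.leaf 154 1229 .nil)) .nil)) (.cons 176 (.leaf 200 1415 (.cons 202 (.leaf 178 1421 (.cons 226 (.leaf 297 1613 (.cons 227 (.leaf 299 1623 (.leaf 224 1792 .nil)) .nil)) .nil)) .nil)) .nil))) (.cons 296 (.leaf 201 1606 (.cons 320 (.leaf 344 1989 (.leaf 297 1798 .nil)) .nil)) .nil)))) .nil)) .nil)) t172) (.cons 274 (.cons 227 t163 (.cons 227 t162 (.cons 273 (.cons 299 (.leaf 300 2176 (.cons 271 (.leaf 250 1977 (.leaf 298 2168 .nil)) .nil)) (.cons 299 (.leaf 300 2176 (.cons 296 (.leaf 295 2170 (.cons 248 (.leaf 247 1979 (.cons 224 (.cons 297 (.leaf 200 1604 (.leaf 321 1796 .nil)) (.cons 225 (.leaf 201 1605 (.cons 199 (.leaf 223 1599 (.cons 200 (.leaf 175 1407 (.cons 249 (.leaf 320 1797 (.leaf 176 1412 .nil)) .nil)) .nil)) .nil)) (.cons 321 (.leaf 297 1796 (.cons 199 (.leaf 223 1599 (.cons 225 (.leaf 201 1605 (.cons 320 (.leaf 249 1797 (.leaf 345 1988 .nil)) .nil)) .nil))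 .nil)) .nil))) .nil)) .nil)) .nil)) (.cons 271 (.leaf 250 1977 (.cons 295 (.leaf 296 2170 (.leaf 294 2162 .nil)) .nil)) .nil))) (.cons 273 (.leaf 252 1985 (.cons 271 (.leaf 250 1977 (.cons 295 (.leaf 296 2170 (.leaf 294 2162 .nil)) .nil)) .nil)) (.cons 273 (.leaf 252 1985 (.cons 299 (.leaf 300 2176 (.cons 271 (.leaf 298 2168 (.cons 295 (.leaf 296 2170 (.leaf 294 2162 .nil)) .nil)) .nil)) .nil)) .nil))))) (.cons 250 t161 (.cons 274 t156 (.cons 274 t153 (.cons 252 (t151) (.cons 274 t146 .nil))))))))))))))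

end Vale.Agent.P062.PB.N5D12
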