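import Vale.Agent.P062.Checker

namespace Vale.Agent.P062.PB.N5D15

open Vale.Agent.P062

noncomputable def t0 : T := .cons 199 (.leaf 223 1599 (.cons 321 (.leaf 297 1796 (.cons 201 (.leaf 225 1605 (.cons 320 (.leaf 345 1988 (.cons 319 (.leaf 343 1982 (.cons 322 (.leaf 298 2361 (.cons 200 (.leaf 175 1407 (.leaf 177 1413 .nil)) .nil)) .nil)) .nil)) .nil)) .nil)) .nil)) (.cons 225 (.leaf 201 1605 (.cons 320 (.leaf 249 1797 (.cons 321 (.leaf 345 1988 (.cons 319 (.leaf 343 1982 (.cons 199 (.leaf 223 1599 (.cons 200 (.leaf 175 1407 (.cons 322 (.leaf 298 2361 (.cons 347 (.leaf 346 2552 (.cons 323 (.leaf 250 2007 (.leaf 348 2560 .nil)) .nil)) .nil)) .nil)) .nil)) .nil)) .nil)) .nil)) .nil)) (.cons 199 (.leaf 223 1599 (.cons 321 (.leaf 297 1796 (.cons 201 (.leaf 225 1605 (.cons 320 (.leaf 345 1988 (.cons 319 (.leaf 343 1982 (.cons 322 (.leaf 298 2361 (.cons 347 (.leaf 346 2552 (.cons 323 (.leaf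 250 2007 (.leaf 348 2560 .nil)) .nil)) .nil)) .nil)) .nil)) .nil)) .nil)) .nil)) (.cons 225 (.leaf 201 1605 (.cons 199 (.leaf 223 1599 (.cons 200 (.leaf 175 1407 (.leaf 297 1604 .nil)) .nil)) .nil)) (.cons 297 (.leaf 200 1604 (.leaf 321 1796 .nil)) .nil))))
noncomputable def t1 : T := .cons 199 (.leaf 223 1599 (.cons 201 (.leaf 225 1605 (.cons 319 (.leaf 295 1790 (.cons 320 (.leaf 343 1982 (.cons 344 (.leaf 249 1989 (.cons 345 (.leaf 321 1988 (.leaf 369 2180 .nil)) .nil)) .nil)) .nil)) .nil)) .nil)) (.cons 225 (.leaf 201 1605 (.cons 199 (.leaf 223 1599 (.cons 320 (.leaf 249 1797 (.cons 343 (.leaf 319 1982 (.cons 344 (.leaf 367 2174 (.cons 368 (.leaf 297 2181 (.cons 369 (.leaf 345 2180 (.leaf 393 2372 .nil)) .nil)) .nil)) .nil)) .nil)) .nil)) .nil)) (.cons 321 (.leaf 297 1796 (.cons 199 (.leaf 223 1599 (.cons 320 (.leaf 345 1988 (.cons 344 (.leaf 249 1989 (.cons 343 (.leaf 319 1982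 (.leaf 367 2174 .nil)) .nil)) .nil)) .nil)) .nil)) (.cons 297 (.leaf 321 1796 (.cons 295 (.leaf 319 1790 (.cons 201 (.leaf 225 1605 (.cons 294 (.leaf 293 2153 (.cons 270 (.leaf 269 2155 (.cons 271 (.leaf 298 2160 (.cons 246 (.leaf 245 1963 (.cons 198 (.leaf 222 1588 (.cons 318 (.leaf 317 2346 (.cons 342 (.leaf 366 2165 (.leaf 247 1973 .nil)) .nil)) .nil)) .nil)) .nil)) .nil)) .nil)) .nil)) .nil)) .nil)) (.cons 297 (.leaf 321 1796 (.cons 223 (.leaf 199 1599 (.cons 320 (.leaf 247 1791 (.cons 344 (.leaf 249 1989 (.leaf 368 2181 .nil)) .nil)) .nil)) .nil)) .nil))))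
noncomputable def t2 : T := .cons 274 (.leaf 247 1979 (.cons 296 (.leaf 295 2170 (.cons 299 (.leaf 300 2176 (.cons 224 (.cons 199 (.leaf 223 1599 (.cons 297 (.leaf 200 1604 (.leaf 321 1796 .nil)) .nil)) (.cons 225 (.leaf 201 1605 (.cons 320 (.leaf 249 1797 (.cons 321 (.leaf 345 1988 (.cons 319 (.leaf 343 1982 (.cons 298 (.leaf 271 2168 (.leaf 322 2361 .nil)) .nil)) .nil)) .nil)) .nil)) (.cons 225 (.leaf 201 1605 (.cons 199 (.leaf 223 1599 (.cons 200 (.leaf 175 1407 (.leaf 297 1604 .nil)) .nil)) .nil)) .nil))) .nil)) .nil)) .nil)) (.cons 224 (.cons 200 (.leaf 297 1604 (.cons 177 (.leaf 201 1413 (.cons 176 (.leaf 153 1221 (.leaf 249 1412 .nil)) .nil)) .nil)) (.cons 296 t1 (.cons 200 (.cons 177 (.leaf 201 1413 (.cons 176 (.leaf 153 1221 (.leaf 249 1412 .nil)) .nil)) (.cons 177 (.leaf 201 1413 (.cons 199 (.leaf 175 1407 (.cons 296 (.leaf 223 1599 (.cons 295 (.leaf 271 1598 (.leaf 319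 1790 .nil)) .nil)) .nil)) .nil)) (.cons 175 (.leaf 199 1407 (.cons 176 (.leaf 151 1215 (.leaf 249 1412 .nil)) .nil)) .nil))) (.cons 200 (.leaf 297 1604 (.cons 177 (.leaf 201 1413 (.cons 176 (.leaf 153 1221 (.cons 247 (.leaf 271 1406 (.cons 223 (.leaf 152 1214 (.cons 199 (.leaf 175 1404 (.leaf 296 1599 .nil)) .nil)) .nil)) .nil)) .nil)) .nil)) (.cons 200 (.leaf 297 1604 (.cons 175 (.leaf 199 1407 (.cons 176 (.leaf 151 1215 (.leaf 249 1412 .nil)) .nil)) .nil)) .nil))))) (.cons 274 (.cons 296 (.leaf 295 2170 (.cons 299 (.leaf 300 2176 (.cons 224 (.cons 199 (.leaf 223 1599 (.cons 297 (.leaf 200 1604 (.leaf 321 1796 .nil)) .nil)) (.cons 225 (.leaf 201 1605 (.cons 320 (.leaf 249 1797 (.cons 321 (.leaf 345 1988 (.cons 319 (.leaf 343 1982 (.cons 298 (.leaf 271 2168 (.leaf 322 2361 .nil)) .nil)) .nil)) .nil)) .nil)) (.cons 225 (.leaf 201 1605 (.cons 199 (.leaf 223 1599 (.cons 200 (.leaf 175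 1407 (.leaf 297 1604 .nil)) .nil)) .nil)) .nil))) .nil)) .nil)) (.cons 251 (.leaf 252 1985 (.cons 250 (.leaf 271 1977 (.cons 299 (.leaf 300 2176 (.cons 323 (.leaf 347 2007 (.cons 322 (.leaf 346 2006 (.cons 227 (.leaf 298 1813 (.cons 228 (.leaf 204 1629 (.leaf 249 1793 .nil)) .nil)) .nil)) .nil)) .nil)) .nil)) .nil)) (.cons 251 (.leaf 252 1985 (.cons 271 (.leaf 250 1977 (.cons 295 (.leaf 296 2170 (.leaf 294 2162 .nil)) .nil)) .nil)) (.cons 296 (.leaf 295 2170 (.cons 299 (.leaf 300 2176 (.cons 224 t0 .nil)) .nil)) .nil)))) (.cons 274 (.leaf 247 1979 (.cons 251 (.leaf 252 1985 (.cons 250 (.leaf 271 1977 (.cons 299 (.leaf 300 2176 (.cons 323 (.leaf 347 2007 (.cons 322 (.leaf 346 2006 (.cons 227 (.leaf 298 1813 (.cons 228 (.leaf 204 1629 (.leaf 249 1793 .nil)) .nil)) .nil)) .nil)) .nil)) .nil)) .nil)) .nil)) (.cons 274 (.leaf 247 1979 (.cons 296 (.leaf 295 2170 (.cons 299 (.leaf 300 2176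 (.cons 224 t0 .nil)) .nil)) .nil)) (.cons 274 (.leaf 247 1979 (.cons 251 (.leaf 252 1985 (.cons 271 (.leaf 250 1977 (.cons 295 (.leaf 296 2170 (.leaf 294 2162 .nil)) .nil)) .nil)) .nil)) .nil)))))
noncomputable def t3 : T := .cons 321 (.leaf 345 1991 (.cons 249 (.leaf 224 1799 (.cons 320 (.leaf 344 1990 (.cons 322 (.leaf 346 1996 (.cons 298 (.leaf 225 1804 (.cons 299 (.leaf 300 2370 (.leaf 319 2361 .nil)) .nil)) .nil)) .nil)) .nil)) .nil)) (.cons 224 (.leaf 200 1604 (.cons 296 (.cons 223 (.leaf 199 1599 (.cons 320 (.leaf 247 1791 (.cons 344 (.leaf 249 1989 (.leaf 368 2181 .nil)) .nil)) .nil)) (.cons 295 (.leaf 319 1790 (.cons 294 (.leaf 293 2153 (.cons 270 (.leaf 269 2155 (.cons 271 (.leaf 298 2160 (.cons 223 (.leaf 199 1599 (.cons 318 (.leaf 317 2346 (.leaf 247 1782 .nil)) .nil)) .nil)) .nil)) .nil)) .nil)) (.cons 295 (.leaf 319 1790 (.cons 294 (.leaf 293 2153 (.cons 270 (.leaf 269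 2155 (.cons 271 (.leaf 298 2160 (.cons 245 (.leaf 246 1963 (.cons 249 (.leaf 250 1969 (.cons 318 (.leaf 317 2346 (.cons 342 (.leaf 366 2165 (.leaf 247 1973 .nil)) .nil)) .nil)) .nil)) .nil)) .nil)) .nil)) .nil)) (.cons 199 (.leaf 223 1599 (.cons 295 (.leaf 319 1790 (.cons 294 (.leaf 293 2153 (.cons 270 (.leaf 269 2155 (.cons 298 (.leaf 271 2160 (.cons 299 (.leaf 300 2179 (.cons 323 (.leaf 322 2360 (.leaf 324 2368 .nil)) .nil)) .nil)) .nil)) .nil)) .nil)) .nil)) .nil)))) .nil)) (.cons 321 (.leaf 345 1991 (.cons 249 (.cons 320 (.leaf 344 1990 (.cons 322 (.leaf 346 1996 (.cons 298 (.leaf 225 1804 (.cons 299 (.leaf 300 2370 (.leaf 319 2361 .nil)) .nil)) .nil)) .nil)) (.cons 250 (.leaf 226 1805 (.cons 251 (.leaf 271 1978 (.leaf 252 1986 .nil)) .nil)) .nil)) .nil)) (.cons 321 (.leaf 345 1991 (.cons 224 (.leaf 200 1604 (.leaf 296 1796 .nil)) .nil)) .nil)))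
noncomputable def t4 : T := .cons 274 (.leaf 247 1979 (.cons 295 (.leaf 296 2170 (.cons 271 (.leaf 294 2162 (.cons 299 (.leaf 300 2176 (.leaf 298 2168 .nil)) .nil)) .nil)) .nil)) (.cons 297 t3 (.cons 274 (.cons 295 (.leaf 296 2170 (.cons 271 (.leaf 294 2162 (.cons 299 (.leaf 300 2176 (.leaf 298 2168 .nil)) .nil)) .nil)) (.cons 251 (.leaf 252 1985 (.cons 271 (.leaf 250 1977 (.cons 295 (.leaf 296 2170 (.leaf 294 2162 .nil)) .nil)) .nil)) (.cons 251 (.leaf 252 1985 (.cons 250 (.leaf 271 1977 (.cons 299 (.leaf 300 2176 (.cons 226 (.leaf 202 1620 (.leaf 323 1815 .nil)) .nil)) .nil)) .nil)) (.cons 296 (.leaf 295 2170 (.cons 299 (.leaf 300 2176 (.cons 251 (.leaf 252 1985 (.cons 323 (.cons 250 (.leaf 226 1815 (.leaf 347 2007 .nil)) (.cons 322 (.leaf 346 2006 (.cons 324 (.leaf 348 2012 (.cons 297 (.leaf 298 2368 (.leaf 321 2371 .nil)) .nil)) .nil)) .nil)) .nil)) .nil)) .nil)) .nil)))) (.cons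 274 (.leaf 247 1979 (.cons 251 (.leaf 252 1985 (.cons 250 (.leaf 271 1977 (.cons 299 (.leaf 300 2176 (.cons 226 (.leaf 202 1620 (.leaf 323 1815 .nil)) .nil)) .nil)) .nil)) .nil)) (.cons 274 (.leaf 247 1979 (.cons 296 (.leaf 295 2170 (.cons 299 (.leaf 300 2176 (.cons 251 (.leaf 252 1985 (.cons 323 (.cons 250 (.leaf 226 1815 (.leaf 347 2007 .nil)) (.cons 322 (.leaf 346 2006 (.cons 324 (.leaf 348 2012 (.cons 297 (.leaf 298 2368 (.leaf 321 2371 .nil)) .nil)) .nil)) .nil)) .nil)) .nil)) .nil)) .nil)) (.cons 274 (.leaf 247 1979 (.cons 251 (.leaf 252 1985 (.cons 271 (.leaf 250 1977 (.cons 295 (.leaf 296 2170 (.leaf 294 2162 .nil)) .nil)) .nil)) .nil)) .nil)))))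
noncomputable def t5 : T := .cons 226 (.leaf 202 1620 (.cons 323 (.leaf 251 1815 (.leaf 347 2007 .nil)) .nil)) (.cons 226 (.leaf 202 1620 (.cons 298 (.cons 227 (.leaf 203 1621 (.cons 251 (.leaf 322 1813 (.cons 228 (.leaf 204 1629 (.cons 229 (.leaf 230 1810 (.cons 253 (.leaf 254 1808 (.cons 300 (.leaf 324 1820 (.cons 301 (.leaf 302 2195 (.cons 277 (.leaf 278 2193 (.cons 325 (.leaf 326 2384 (.leaf 252 1831 .nil)) .nil)) .nil)) .nil)) .nil)) .nil)) .nil)) .nil)) .nil)) (.cons 321 (.leaf 297 1806 (.cons 322 (.leaf 345 1998 (.cons 346 (.leaf 251 2005 (.leaf 370 2197 .nil)) .nil)) .nil)) (.cons 227 (.leaf 203 1621 (.cons 225 (.leaf 224 1786 (.leaf 201 1615 .nil)) .nil)) .nil))) .nil)) (.cons 323 (.leaf 347 2007 (.cons 251 (.cons 322 (.leaf 346 2006 (.cons 227 (.leaf 298 1813 (.cons 324 (.leaf 300 1820 (.leaf 348 2012 .nil)) .nil)) .nil)) (.cons 228 (.leaf 252 1821 (.cons 227 (.leaf 204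 1629 (.cons 203 (.leaf 298 1622 (.leaf 179 1430 .nil)) .nil)) .nil)) (.cons 252 (.leaf 228 1821 (.cons 253 (.leaf 254 2002 (.cons 229 (.leaf 230 1809 (.cons 277 (.leaf 278 2000 (.cons 324 (.leaf 348 2012 (.cons 301 (.leaf 300 1830 (.cons 302 (.leaf 326 1836 (.cons 322 (.leaf 346 2006 (.leaf 325 2385 .nil)) .nil)) .nil)) .nil)) .nil)) .nil)) .nil)) .nil)) .nil))) .nil)) (.cons 226 (.leaf 202 1620 (.cons 323 (.leaf 347 2007 (.leaf 298 1812 .nil)) .nil)) .nil)))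
noncomputable def t6 : T := .cons 246 (.cons 222 (.leaf 221 1771 (.cons 223 (.leaf 250 1779 (.cons 175 (.leaf 199 1404 (.cons 225 (.leaf 226 1777 (.cons 201 (.leaf 177 1414 (.cons 224 (.leaf 296 1605 (.leaf 245 1769 .nil)) .nil)) .nil)) .nil)) .nil)) .nil)) (.cons 225 (.leaf 226 1777 (.cons 177 (.leaf 201 1414 (.cons 221 (.leaf 222 1771 (.cons 245 (.leaf 220 1763 (.leaf 224 1769 .nil)) .nil)) .nil)) .nil)) (.cons 222 (.leaf 221 1771 (.cons 223 (.leaf 250 1779 (.cons 270 (.leaf 269 1962 (.cons 199 (.leaf 175 1404 (.leaf 294 1589 .nil)) .nil)) .nil)) .nil)) (.cons 225 (.leaf 226 1777 (.cons 177 (.leaf 201 1414 (.cons 245 (.leaf 224 1769 (.cons 250 (.leaf 274 1976 (.cons 271 (.leaf 244 1952 (.leaf 251 1978 .nil)) .nil)) .nil)) .nil)) .nil)) .nil)))) (.cons 246 (.cons 225 (.leaf 226 1777 (.cons 177 (.leaf 201 1414 (.cons 221 (.leaf 222 1771 (.cons 245 (.leaf 220 1763 (.leaf 224 1769 .nil))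 .nil)) .nil)) .nil)) (.cons 269 (.leaf 270 1962 (.cons 221 (.leaf 222 1771 (.cons 245 (.leaf 220 1763 (.leaf 268 1954 .nil)) .nil)) .nil)) (.cons 225 (.leaf 226 1777 (.cons 177 (.leaf 201 1414 (.cons 245 (.leaf 224 1769 (.cons 269 (.leaf 268 1954 (.leaf 270 1962 .nil)) .nil)) .nil)) .nil)) (.cons 225 (.leaf 226 1777 (.cons 201 (.leaf 177 1414 (.cons 296 (.leaf 224 1605 (.leaf 320 1797 .nil)) .nil)) .nil)) .nil)))) (.cons 250 (.leaf 274 1976 (.cons 223 (.leaf 222 1779 (.cons 175 (.leaf 199 1404 (.cons 227 (.leaf 226 1785 (.cons 251 (.leaf 271 1978 (.leaf 224 1787 .nil)) .nil)) .nil)) .nil)) .nil)) (.cons 250 (.leaf 274 1976 (.cons 271 (.leaf 251 1978 (.leaf 270 1970 .nil)) .nil)) .nil)))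
noncomputable def t7 : T := .cons 273 (.leaf 274 1979 (.cons 246 (.leaf 245 1960 (.cons 249 (.cons 270 (.leaf 269 1962 (.cons 271 (.leaf 250 1969 (.cons 293 (.leaf 294 2154 (.cons 297 (.leaf 298 2160 (.cons 321 (.leaf 345 1991 (.leaf 224 1799 .nil)) .nil)) .nil)) .nil)) .nil)) (.cons 222 (.leaf 221 1771 (.cons 223 (.leaf 250 1779 (.cons 199 (.leaf 175 1404 (.cons 296 (.leaf 224 1599 (.leaf 271 1596 .nil)) .nil)) .nil)) .nil)) (.cons 225 (.leaf 226 1777 (.cons 201 (.leaf 177 1414 (.leaf 296 1606 .nil)) .nil)) .nil))) .nil)) .nil)) (.cons 249 t6 (.cons 223 (.cons 199 (.leaf 175 1404 (.cons 296 (.leaf 224 1599 (.leaf 271 1596 .nil)) .nil)) (.cons 296 (.leaf 320 1791 (.cons 224 (.cons 297 (.leaf 321 1796 (.cons 200 (.leaf 273 1604 (.cons 176 (.leaf 271 1406 (.leaf 152 1214 .nil)) .nil)) .nil)) (.cons 225 (.leaf 201 1605 (.cons 226 (.leaf 227 1786 (.leaf 246 1778 .nil)) .nil)) .nil)) .nil))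 (.cons 199 (.leaf 175 1404 (.cons 271 (.cons 270 (.leaf 294 1590 (.cons 269 (.leaf 249 1961 (.leaf 268 1953 .nil)) .nil)) (.cons 174 (.leaf 198 1399 (.cons 200 (.leaf 176 1405 (.cons 224 (.leaf 295 1597 (.cons 201 (.leaf 177 1413 (.cons 222 (.leaf 202 1586 (.leaf 221 1577 .nil)) .nil)) .nil)) .nil)) .nil)) .nil)) .nil)) (.cons 199 (.leaf 175 1404 (.cons 296 (.leaf 271 1596 (.leaf 320 1791 .nil)) .nil)) (.cons 199 (.leaf 175 1404 (.cons 296 (.leaf 224 1599 (.leaf 320 1791 .nil)) .nil)) .nil))))) (.cons 273 (.leaf 274 1979 (.cons 246 (.leaf 245 1960 (.cons 223 (.cons 199 (.leaf 175 1404 (.cons 271 (.leaf 296 1596 (.cons 174 (.leaf 198 1399 (.cons 200 (.leaf 176 1405 (.cons 224 (.leaf 295 1597 (.leaf 297 1604 .nil)) .nil)) .nil)) .nil)) .nil)) (.cons 296 (.leaf 320 1791 (.cons 224 (.cons 225 (.leaf 201 1605 (.leaf 226 1778 .nil)) (.cons 297 (.leaf 200 1604 (.leaf 321 1796 .nil)) .nil))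 .nil)) (.cons 199 (.leaf 175 1404 (.cons 271 (.cons 174 (.leaf 198 1399 (.cons 200 (.leaf 176 1405 (.cons 224 (.leaf 295 1597 (.leaf 297 1604 .nil)) .nil)) .nil)) (.cons 198 (.leaf 174 1399 (.cons 270 (.leaf 294 1590 (.cons 269 (.leaf 268 1953 (.cons 293 (.leaf 292 2146 (.leaf 222 1582 .nil)) .nil)) .nil)) .nil)) (.cons 200 (.leaf 176 1405 (.cons 224 (.leaf 295 1597 (.leaf 297 1604 .nil)) .nil)) .nil))) .nil)) (.cons 199 (.leaf 175 1404 (.cons 296 (.leaf 271 1596 (.leaf 320 1791 .nil)) .nil)) .nil)))) .nil)) .nil)) (.cons 273 (.leaf 274 1979 (.cons 246 (.leaf 245 1960 (.cons 249 (.cons 270 (.leaf 269 1962 (.cons 271 (.leaf 250 1969 (.cons 293 (.leaf 294 2154 (.cons 297 (.leaf 298 2160 (.cons 321 (.leaf 345 1991 (.leaf 224 1799 .nil)) .nil)) .nil)) .nil)) .nil)) (.cons 225 (.leaf 226 1777 (.cons 201 (.leaf 177 1414 (.leaf 296 1606 .nil)) .nil)) .nil)) .nil)) .nil)) (.cons 274 (.leaf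 273 1979 (.cons 250 (.leaf 249 1976 (.cons 299 t5 .nil)) .nil)) (.cons 273 (.leaf 274 1979 (.cons 246 (.leaf 245 1960 (.cons 249 (.cons 221 (.leaf 222 1771 (.cons 270 (.leaf 269 1962 (.cons 271 (.leaf 250 1969 (.cons 293 (.leaf 294 2154 (.cons 297 (.leaf 298 2160 (.cons 321 (.leaf 345 1991 (.cons 320 (.leaf 344 1990 (.cons 296 (.leaf 223 1791 (.leaf 225 1797 .nil)) .nil)) .nil)) .nil)) .nil)) .nil)) .nil)) .nil)) (.cons 225 (.leaf 226 1777 (.cons 201 (.leaf 177 1414 (.leaf 296 1606 .nil)) .nil)) (.cons 221 (.leaf 222 1771 (.cons 270 (.leaf 269 1962 (.cons 250 (.leaf 271 1969 (.cons 227 (.leaf 226 1785 (.cons 251 (.leaf 252 1986 (.leaf 228 1793 .nil)) .nil)) .nil)) .nil)) .nil)) .nil))) .nil)) .nil)) (.cons 273 (.leaf 274 1979 (.cons 246 (.leaf 245 1960 (.cons 249 (.cons 270 (.leaf 269 1962 (.cons 271 (.leaf 250 1969 (.cons 293 (.leaf 294 2154 (.cons 297 (.leaf 298 2160 (.cons 321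 (.leaf 345 1991 (.leaf 224 1799 .nil)) .nil)) .nil)) .nil)) .nil)) (.cons 222 (.leaf 221 1771 (.cons 223 (.leaf 250 1779 (.cons 199 (.leaf 175 1404 (.cons 296 (.leaf 224 1599 (.leaf 271 1596 .nil)) .nil)) .nil)) .nil)) (.cons 270 (.leaf 269 1962 (.cons 222 (.leaf 221 1771 (.cons 223 (.cons 294 (.leaf 318 1781 (.leaf 199 1589 .nil)) (.cons 294 (.leaf 318 1781 (.cons 293 (.leaf 271 2154 (.leaf 317 1774 .nil)) .nil)) (.cons 199 (.leaf 175 1404 (.cons 296 (.leaf 224 1599 (.leaf 271 1596 .nil)) .nil)) .nil))) .nil)) .nil)) (.cons 222 (.leaf 221 1771 (.cons 223 (.leaf 250 1779 (.cons 199 (.leaf 175 1404 (.cons 270 (.leaf 269 1962 (.leaf 294 1589 .nil)) .nil)) .nil)) .nil)) .nil)))) .nil)) .nil)) .nil)))))))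
noncomputable def t8 : T := .cons 295 (.leaf 296 2170 (.cons 271 (.leaf 294 2162 (.cons 299 (.leaf 300 2176 (.leaf 298 2168 .nil)) .nil)) .nil)) (.cons 299 (.leaf 300 2176 (.cons 251 (.leaf 252 1985 (.cons 298 (.leaf 271 2168 (.cons 227 (.leaf 203 1622 (.leaf 322 1814 .nil)) .nil)) .nil)) .nil)) (.cons 296 (.leaf 295 2170 (.cons 251 (.leaf 252 1985 (.cons 224 (.cons 199 (.leaf 223 1599 (.cons 200 (.leaf 175 1407 (.leaf 297 1604 .nil)) .nil)) (.cons 199 (.leaf 223 1599 (.cons 200 (.leaf 175 1407 (.cons 201 (.leaf 177 1413 (.leaf 225 1605 .nil)) .nil)) .nil)) (.cons 199 (.leaf 223 1599 (.cons 225 (.leaf 201 1605 (.cons 249 (.leaf 320 1797 (.cons 297 (.leaf 321 1796 (.cons 226 (.leaf 202 1613 (.cons 227 (.leaf 228 1794 (.cons 203 (.leaf 298 1622 (.leaf 204 1601 .nil)) .nil)) .nil)) .nil)) .nil)) .nil)) .nil)) (.cons 297 (.leaf 200 1604 (.leaf 321 1796 .nil)) .nil)))) .nil)) .nil)) (.cons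 296 (.leaf 295 2170 (.cons 299 (.leaf 300 2176 (.cons 224 (.cons 199 (.leaf 223 1599 (.cons 321 (.leaf 297 1796 (.cons 201 (.leaf 225 1605 (.cons 320 (.leaf 345 1988 (.cons 343 (.leaf 319 1982 (.cons 344 (.leaf 249 1989 (.leaf 367 2174 .nil)) .nil)) .nil)) .nil)) .nil)) .nil)) (.cons 225 (.leaf 201 1605 (.cons 199 (.leaf 223 1599 (.cons 200 (.leaf 175 1407 (.cons 249 (.leaf 320 1797 (.leaf 176 1412 .nil)) .nil)) .nil)) .nil)) (.cons 297 (.leaf 200 1604 (.leaf 321 1796 .nil)) .nil))) .nil)) .nil)) .nil)))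
noncomputable def t9 : T := .cons 199 (.leaf 223 1599 (.cons 295 (.leaf 319 1790 (.cons 293 (.leaf 294 2153 (.cons 321 (.leaf 297 1796 (.cons 320 (.leaf 345 1988 (.cons 322 (.leaf 323 2363 (.cons 344 (.leaf 249 1989 (.cons 367 (.leaf 343 2174 (.cons 368 (.leaf 271 2175 (.leaf 391 2366 .nil)) .nil)) .nil)) .nil)) .nil)) .nil)) .nil)) .nil)) .nil)) (.cons 225 (.leaf 201 1605 (.cons 199 (.leaf 223 1599 (.cons 320 (.leaf 249 1797 (.cons 345 (.leaf 321 1988 (.cons 319 (.leaf 295 1790 (.leaf 343 1982 .nil)) .nil)) .nil)) .nil)) .nil)) (.cons 225 (.leaf 201 1605 (.cons 199 (.leaf 223 1599 (.cons 320 (.leaf 249 1797 (.cons 343 (.leaf 319 1982 (.cons 344 (.leaf 367 2174 (.cons 247 (.leaf 271 1983 (.cons 246 (.leaf 245 1960 (.cons 226 (.leaf 227 1786 (.cons 368 (.leaf 297 2181 (.cons 369 (.leaf 345 2180 (.leaf 393 2372 .nil)) .nil)) .nil)) .nil)) .nil)) .nil)) .nil)) .nil)) .nil)) .nil)) (.cons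 297 (.leaf 321 1796 (.cons 199 (.leaf 223 1599 (.cons 295 (.leaf 319 1790 (.cons 294 (.leaf 293 2153 (.cons 270 (.leaf 269 2155 (.cons 298 (.leaf 271 2160 (.cons 225 (.leaf 201 1605 (.cons 322 (.leaf 249 1804 (.leaf 323 2360 .nil)) .nil)) .nil)) .nil)) .nil)) .nil)) .nil)) .nil)) (.cons 297 (.leaf 321 1796 (.cons 201 (.leaf 225 1605 (.cons 295 (.leaf 319 1790 (.cons 294 (.leaf 293 2153 (.cons 270 (.leaf 269 2155 (.cons 271 (.leaf 298 2160 (.cons 246 (.leaf 245 1963 (.cons 198 (.leaf 222 1588 (.cons 318 (.leaf 317 2346 (.cons 342 (.leaf 366 2165 (.leaf 247 1973 .nil)) .nil)) .nil)) .nil)) .nil)) .nil)) .nil)) .nil)) .nil)) .nil)) (.cons 297 (.leaf 321 1796 (.cons 225 (.leaf 201 1605 (.cons 249 (.leaf 320 1797 (.cons 226 (.leaf 202 1613 (.cons 227 (.leaf 247 1786 (.leaf 228 1794 .nil)) .nil)) .nil)) .nil)) .nil)) .nil)))))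
noncomputable def t10 : T := .cons 274 (.leaf 247 1979 (.cons 296 (.leaf 295 2170 (.cons 251 (.leaf 252 1985 (.cons 224 (.cons 199 (.leaf 223 1599 (.cons 200 (.leaf 175 1407 (.leaf 297 1604 .nil)) .nil)) (.cons 199 (.leaf 223 1599 (.cons 200 (.leaf 175 1407 (.cons 201 (.leaf 177 1413 (.leaf 225 1605 .nil)) .nil)) .nil)) (.cons 199 (.leaf 223 1599 (.cons 225 (.leaf 201 1605 (.cons 249 (.leaf 320 1797 (.cons 297 (.leaf 321 1796 (.cons 226 (.leaf 202 1613 (.cons 227 (.leaf 228 1794 (.cons 203 (.leaf 298 1622 (.leaf 204 1601 .nil)) .nil)) .nil)) .nil)) .nil)) .nil)) .nil)) (.cons 297 (.leaf 200 1604 (.leaf 321 1796 .nil)) .nil)))) .nil)) .nil)) .nil)) (.cons 224 (.cons 200 (.leaf 297 1604 (.cons 177 (.leaf 201 1413 (.cons 176 (.leaf 153 1221 (.leaf 249 1412 .nil)) .nil)) .nil)) (.cons 296 t9 (.cons 200 (.cons 177 (.leaf 201 1413 (.cons 176 (.leaf 153 1221 (.leaf 249 1412 .nil)) .nil))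 (.cons 177 (.leaf 201 1413 (.cons 199 (.leaf 175 1407 (.cons 296 (.leaf 223 1599 (.cons 295 (.leaf 271 1598 (.leaf 319 1790 .nil)) .nil)) .nil)) .nil)) (.cons 175 (.leaf 199 1407 (.cons 176 (.leaf 151 1215 (.leaf 249 1412 .nil)) .nil)) .nil))) (.cons 200 (.leaf 297 1604 (.cons 177 (.leaf 201 1413 (.cons 176 (.leaf 153 1221 (.cons 247 (.leaf 271 1406 (.cons 223 (.leaf 152 1214 (.cons 199 (.leaf 175 1404 (.leaf 296 1599 .nil)) .nil)) .nil)) .nil)) .nil)) .nil)) (.cons 200 (.leaf 297 1604 (.cons 175 (.leaf 199 1407 (.cons 176 (.leaf 151 1215 (.leaf 249 1412 .nil)) .nil)) .nil)) .nil))))) (.cons 274 t8 (.cons 274 (.leaf 247 1979 (.cons 251 (.leaf 252 1985 (.cons 299 (.leaf 300 2176 (.cons 298 (.leaf 271 2168 (.cons 227 (.leaf 203 1622 (.leaf 322 1814 .nil)) .nil)) .nil)) .nil)) .nil)) (.cons 274 (.leaf 247 1979 (.cons 296 (.leaf 295 2170 (.cons 299 (.leaf 300 2176 (.cons 224 (.cons 199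 (.leaf 223 1599 (.cons 321 (.leaf 297 1796 (.cons 201 (.leaf 225 1605 (.cons 320 (.leaf 345 1988 (.cons 343 (.leaf 319 1982 (.cons 344 (.leaf 249 1989 (.leaf 367 2174 .nil)) .nil)) .nil)) .nil)) .nil)) .nil)) (.cons 225 (.leaf 201 1605 (.cons 199 (.leaf 223 1599 (.cons 200 (.leaf 175 1407 (.cons 249 (.leaf 320 1797 (.leaf 176 1412 .nil)) .nil)) .nil)) .nil)) (.cons 297 (.leaf 200 1604 (.leaf 321 1796 .nil)) .nil))) .nil)) .nil)) .nil)) .nil))))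
noncomputable def t11 : T := .cons 199 (.leaf 223 1599 (.cons 319 (.leaf 295 1790 (.cons 320 (.leaf 343 1982 (.cons 321 (.leaf 297 1796 (.leaf 345 1988 .nil)) .nil)) .nil)) .nil)) (.cons 223 (.leaf 199 1599 (.cons 247 (.leaf 320 1791 (.cons 295 (.leaf 319 1790 (.cons 245 (.leaf 246 1960 (.cons 294 (.leaf 293 2153 (.cons 271 (.leaf 318 1782 (.cons 222 (.leaf 198 1591 (.cons 221 (.leaf 220 1760 (.leaf 249 1768 .nil)) .nil)) .nil)) .nil)) .nil)) .nil)) .nil)) .nil)) (.cons 321 (.leaf 297 1796 (.cons 199 (.leaf 223 1599 (.cons 320 (.leaf 345 1988 (.cons 343 (.leaf 319 1982 (.cons 344 (.leaf 249 1989 (.leaf 367 2174 .nil)) .nil)) .nil)) .nil)) .nil)) (.cons 321 (.leaf 297 1796 (.cons 295 (.leaf 319 1790 (.cons 293 (.leaf 294 2153 (.cons 320 (.leaf 345 1988 (.cons 322 (.leaf 323 2363 (.cons 344 (.leaf 249 1989 (.cons 271 (.leaf 247 1983 (.leaf 368 2175 .nil)) .nil)) .nil)) .nil)) .nil))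 .nil)) .nil)) (.cons 321 (.leaf 297 1796 (.cons 199 (.leaf 223 1599 (.cons 320 (.leaf 345 1988 (.cons 344 (.leaf 249 1989 (.cons 271 (.leaf 247 1983 (.cons 368 (.leaf 295 2175 (.cons 367 (.leaf 343 2174 (.leaf 391 2366 .nil)) .nil)) .nil)) .nil)) .nil)) .nil)) .nil)) (.cons 297 (.leaf 321 1796 (.cons 199 (.leaf 223 1599 (.cons 295 (.leaf 319 1790 (.cons 294 (.leaf 293 2153 (.cons 270 (.leaf 269 2155 (.cons 298 (.leaf 271 2160 (.cons 299 (.leaf 300 2179 (.cons 323 (.leaf 322 2360 (.leaf 324 2368 .nil)) .nil)) .nil)) .nil)) .nil)) .nil)) .nil)) .nil)) .nil)))))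
noncomputable def t12 : T := .cons 224 (.cons 200 (.leaf 297 1604 (.cons 177 (.leaf 201 1413 (.cons 176 (.leaf 153 1221 (.leaf 249 1412 .nil)) .nil)) .nil)) (.cons 274 (.leaf 247 1979 (.cons 251 (.leaf 252 1985 (.cons 250 (.leaf 271 1977 (.cons 223 (.leaf 249 1787 (.cons 296 (.leaf 295 2170 (.leaf 199 1599 .nil)) .nil)) .nil)) .nil)) .nil)) (.cons 274 (.leaf 247 1979 (.cons 200 (.leaf 297 1604 (.cons 175 (.leaf 199 1407 (.cons 295 (.leaf 296 2170 (.leaf 271 1598 .nil)) .nil)) .nil)) .nil)) .nil))) (.cons 224 (.cons 200 (.leaf 297 1604 (.cons 177 (.leaf 201 1413 (.cons 176 (.leaf 153 1221 (.leaf 249 1412 .nil)) .nil)) .nil)) (.cons 296 t11 (.cons 200 (.cons 177 (.leaf 201 1413 (.cons 176 (.leaf 153 1221 (.leaf 249 1412 .nil)) .nil)) (.cons 177 (.leaf 201 1413 (.cons 199 (.leaf 175 1407 (.cons 295 (.leaf 271 1598 (.cons 296 (.leaf 223 1599 (.leaf 319 1790 .nil)) .nil)) .nil)) .nil))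 (.cons 175 (.leaf 199 1407 (.cons 176 (.leaf 151 1215 (.leaf 249 1412 .nil)) .nil)) .nil))) (.cons 200 (.leaf 297 1604 (.cons 177 (.leaf 201 1413 (.cons 176 (.leaf 153 1221 (.cons 247 (.leaf 271 1406 (.cons 223 (.leaf 152 1214 (.cons 199 (.leaf 175 1404 (.leaf 296 1599 .nil)) .nil)) .nil)) .nil)) .nil)) .nil)) .nil)))) (.cons 274 (.cons 251 (.leaf 252 1985 (.cons 250 (.leaf 271 1977 (.cons 299 (.leaf 300 2176 (.cons 226 (.leaf 202 1620 (.leaf 323 1815 .nil)) .nil)) .nil)) .nil)) (.cons 295 (.leaf 296 2170 (.cons 271 (.leaf 294 2162 (.cons 299 (.leaf 300 2176 (.leaf 298 2168 .nil)) .nil)) .nil)) (.cons 251 (.leaf 252 1985 (.cons 271 (.leaf 250 1977 (.cons 295 (.leaf 296 2170 (.leaf 294 2162 .nil)) .nil)) .nil)) (.cons 296 (.leaf 295 2170 (.cons 299 (.leaf 300 2176 (.cons 251 (.leaf 252 1985 (.cons 323 (.cons 250 (.leaf 226 1815 (.leaf 347 2007 .nil)) (.cons 322 (.leaf 346 2006 (.cons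 324 (.leaf 348 2012 (.cons 297 (.leaf 298 2368 (.leaf 321 2371 .nil)) .nil)) .nil)) .nil)) .nil)) .nil)) .nil)) .nil)))) (.cons 274 (.leaf 247 1979 (.cons 251 (.leaf 252 1985 (.cons 250 (.leaf 271 1977 (.cons 299 (.leaf 300 2176 (.cons 226 (.leaf 202 1620 (.leaf 323 1815 .nil)) .nil)) .nil)) .nil)) .nil)) (.cons 274 (.leaf 247 1979 (.cons 296 (.leaf 295 2170 (.cons 299 (.leaf 300 2176 (.cons 251 (.leaf 252 1985 (.cons 323 (.cons 250 (.leaf 226 1815 (.leaf 347 2007 .nil)) (.cons 322 (.leaf 346 2006 (.cons 324 (.leaf 348 2012 (.cons 297 (.leaf 298 2368 (.leaf 321 2371 .nil)) .nil)) .nil)) .nil)) .nil)) .nil)) .nil)) .nil)) .nil))))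
noncomputable def t13 : T := .cons 222 (.leaf 221 1771 (.cons 223 (.leaf 250 1779 (.cons 199 (.leaf 175 1404 (.cons 296 (.leaf 224 1599 (.leaf 271 1596 .nil)) .nil)) .nil)) .nil)) (.cons 222 (.leaf 221 1771 (.cons 223 (.leaf 250 1779 (.cons 199 (.leaf 175 1404 (.cons 270 (.leaf 269 1962 (.leaf 294 1589 .nil)) .nil)) .nil)) .nil)) (.cons 270 (.leaf 269 1962 (.cons 250 (.leaf 271 1969 (.cons 251 (.leaf 252 1986 (.cons 224 (.leaf 223 1787 (.cons 200 (.leaf 176 1412 (.cons 175 (.leaf 199 1407 (.cons 201 (.leaf 177 1413 (.cons 296 (.leaf 225 1605 (.cons 227 (.leaf 228 1793 (.cons 319 (.leaf 295 1790 (.cons 320 (.leaf 343 1982 (.leaf 344 1989 .nil)) .nil)) .nil)) .nil)) .nil)) .nil)) .nil)) .nil)) .nil)) .nil)) .nil)) (.cons 270 (.leaf 269 1962 (.cons 271 (.leaf 250 1969 (.cons 221 (.leaf 222 1771 (.cons 294 (.leaf 293 2154 (.cons 318 (.leaf 342 1973 (.cons 319 (.leaf 343 1972 (.cons 295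 (.leaf 224 1789 (.cons 317 (.leaf 341 1966 (.cons 316 (.leaf 315 2329 (.leaf 296 2337 .nil)) .nil)) .nil)) .nil)) .nil)) .nil)) .nil)) .nil)) .nil)) (.cons 270 (.leaf 269 1962 (.cons 222 (.leaf 221 1771 (.cons 223 (.cons 294 (.leaf 318 1781 (.leaf 199 1589 .nil)) (.cons 294 (.leaf 318 1781 (.cons 293 (.leaf 271 2154 (.leaf 317 1774 .nil)) .nil)) (.cons 199 (.leaf 175 1404 (.cons 296 (.leaf 224 1599 (.leaf 271 1596 .nil)) .nil)) .nil))) .nil)) .nil)) .nil))))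
noncomputable def t14 : T := .cons 274 (.leaf 273 1979 (.cons 249 (.leaf 250 1976 (.cons 246 (.cons 221 (.leaf 222 1771 (.cons 225 (.leaf 226 1777 (.cons 245 (.leaf 220 1763 (.leaf 224 1769 .nil)) .nil)) .nil)) (.cons 221 (.leaf 222 1771 (.cons 245 (.leaf 220 1763 (.cons 269 (.leaf 268 1954 (.leaf 270 1962 .nil)) .nil)) .nil)) (.cons 225 (.leaf 226 1777 (.cons 177 (.leaf 201 1414 (.cons 245 (.leaf 224 1769 (.cons 269 (.leaf 268 1954 (.leaf 270 1962 .nil)) .nil)) .nil)) .nil)) (.cons 270 (.leaf 269 1962 (.cons 222 (.leaf 221 1771 (.cons 294 (.cons 317 (.leaf 293 1774 (.cons 318 (.leaf 223 1781 (.leaf 341 1966 .nil)) .nil)) (.cons 317 (.leaf 293 1774 (.cons 318 (.leaf 341 1966 (.cons 319 (.leaf 295 1780 (.leaf 343 1972 .nil)) .nil)) .nil)) (.cons 295 (.leaf 319 1780 (.cons 198 (.leaf 271 1588 (.cons 173 (.leaf 197 1391 (.cons 174 (.leaf 149 1199 (.cons 175 (.leaf 151 1205 (.leaf 199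 1397 .nil)) .nil)) .nil)) .nil)) .nil)) .nil))) .nil)) .nil)) .nil)))) .nil)) .nil)) (.cons 273 (.leaf 274 1979 (.cons 246 (.leaf 245 1960 (.cons 249 (.cons 221 (.leaf 222 1771 (.cons 270 (.leaf 269 1962 (.cons 271 (.leaf 250 1969 (.cons 294 (.leaf 293 2154 (.cons 223 (.leaf 199 1590 (.leaf 318 1781 .nil)) .nil)) .nil)) .nil)) .nil)) (.cons 225 (.leaf 226 1777 (.cons 201 (.leaf 177 1414 (.leaf 296 1606 .nil)) .nil)) .nil)) .nil)) .nil)) (.cons 273 (.leaf 274 1979 (.cons 246 (.leaf 245 1960 (.cons 249 (.cons 222 (.leaf 221 1771 (.cons 223 (.leaf 250 1779 (.cons 199 (.leaf 175 1404 (.cons 296 (.leaf 224 1599 (.leaf 271 1596 .nil)) .nil)) .nil)) .nil)) (.cons 222 (.leaf 221 1771 (.cons 223 (.leaf 250 1779 (.cons 199 (.leaf 175 1404 (.cons 270 (.leaf 269 1962 (.leaf 294 1589 .nil)) .nil)) .nil)) .nil)) (.cons 270 (.leaf 269 1962 (.cons 250 (.leaf 271 1969 (.cons 227 (.leaf 226 1785 (.cons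 251 (.leaf 252 1986 (.leaf 228 1793 .nil)) .nil)) .nil)) .nil)) (.cons 270 (.leaf 269 1962 (.cons 222 (.leaf 221 1771 (.cons 223 (.cons 294 (.leaf 318 1781 (.leaf 199 1589 .nil)) (.cons 294 (.leaf 318 1781 (.cons 293 (.leaf 271 2154 (.leaf 317 1774 .nil)) .nil)) (.cons 199 (.leaf 175 1404 (.cons 296 (.leaf 224 1599 (.leaf 271 1596 .nil)) .nil)) .nil))) .nil)) .nil)) .nil)))) .nil)) .nil)) (.cons 274 (.leaf 273 1979 (.cons 249 (.leaf 250 1976 (.cons 225 (.cons 246 (.leaf 226 1777 (.cons 177 (.leaf 201 1414 (.cons 221 (.leaf 222 1771 (.cons 245 (.leaf 220 1763 (.leaf 224 1769 .nil)) .nil)) .nil)) .nil)) (.cons 296 (.leaf 320 1797 (.cons 201 (.leaf 177 1414 (.leaf 224 1605 .nil)) .nil)) (.cons 177 (.leaf 201 1414 (.cons 246 (.leaf 226 1777 (.cons 221 (.leaf 222 1771 (.cons 245 (.leaf 220 1763 (.cons 244 (.leaf 271 1952 (.cons 268 (.leaf 269 1954 (.leaf 267 1946 .nil)) .nil)) .nil)) .nil))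 .nil)) .nil)) (.cons 246 (.leaf 226 1777 (.cons 221 (.leaf 222 1771 (.cons 245 (.leaf 220 1763 (.leaf 224 1769 .nil)) .nil)) .nil)) .nil)))) .nil)) .nil)) (.cons 273 (.leaf 274 1979 (.cons 246 (.leaf 245 1960 (.cons 249 (.cons 221 (.leaf 222 1771 (.cons 226 (.leaf 225 1777 (.cons 250 (.leaf 227 1785 (.cons 251 (.leaf 271 1978 (.leaf 252 1986 .nil)) .nil)) .nil)) .nil)) (.cons 222 (.leaf 221 1771 (.cons 223 (.leaf 250 1779 (.cons 199 (.leaf 175 1404 (.cons 296 (.leaf 224 1599 (.leaf 271 1596 .nil)) .nil)) .nil)) .nil)) (.cons 225 (.leaf 226 1777 (.cons 201 (.leaf 177 1414 (.leaf 296 1606 .nil)) .nil)) .nil))) .nil)) .nil)) (.cons 273 (.leaf 274 1979 (.cons 246 (.leaf 245 1960 (.cons 249 (.cons 270 (.leaf 269 1962 (.cons 250 (.leaf 271 1969 (.cons 227 (.leaf 226 1785 (.cons 251 (.leaf 252 1986 (.leaf 228 1793 .nil)) .nil)) .nil)) .nil)) (.cons 225 (.leaf 226 1777 (.cons 201 (.leaf 177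 1414 (.leaf 296 1606 .nil)) .nil)) (.cons 270 (.leaf 269 1962 (.cons 250 (.leaf 271 1969 (.cons 251 (.leaf 252 1986 (.cons 224 (.leaf 223 1787 (.cons 200 (.leaf 176 1412 (.cons 175 (.leaf 199 1407 (.cons 201 (.leaf 177 1413 (.cons 296 (.leaf 225 1605 (.cons 227 (.leaf 228 1793 (.cons 319 (.leaf 295 1790 (.cons 320 (.leaf 343 1982 (.leaf 344 1989 .nil)) .nil)) .nil)) .nil)) .nil)) .nil)) .nil)) .nil)) .nil)) .nil)) .nil)) .nil))) .nil)) .nil)) (.cons 273 (.leaf 274 1979 (.cons 246 (.leaf 245 1960 (.cons 249 t13 .nil)) .nil)) .nil))))))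
noncomputable def t15 : T := .cons 199 (.leaf 223 1599 (.cons 200 (.leaf 175 1407 (.cons 176 (.leaf 271 1406 (.cons 177 (.leaf 201 1413 (.leaf 153 1221 .nil)) .nil)) .nil)) .nil)) (.cons 225 (.leaf 201 1605 (.cons 226 (.leaf 227 1786 (.cons 295 (.leaf 319 1790 (.cons 200 (.leaf 271 1598 (.cons 175 (.leaf 199 1407 (.cons 176 (.leaf 151 1215 (.leaf 152 1220 .nil)) .nil)) .nil)) .nil)) .nil)) .nil)) (.cons 295 (.leaf 319 1790 (.cons 200 (.leaf 271 1598 (.cons 201 (.leaf 177 1413 (.leaf 225 1605 .nil)) .nil)) .nil)) (.cons 223 (.leaf 199 1599 (.cons 222 (.leaf 221 1768 (.cons 295 (.leaf 319 1790 (.cons 271 (.leaf 200 1597 (.leaf 198 1591 .nil)) .nil)) .nil)) .nil)) (.cons 199 (.leaf 223 1599 (.cons 200 (.leaf 175 1407 (.cons 201 (.leaf 177 1413 (.leaf 225 1605 .nil)) .nil)) .nil)) (.cons 223 (.leaf 199 1599 (.cons 222 (.leaf 221 1768 (.cons 295 (.leaf 319 1790 (.cons 271 (.leaf 198 1591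 (.cons 269 (.leaf 270 1961 (.cons 294 (.leaf 318 1782 (.cons 293 (.leaf 292 2145 (.leaf 268 2147 .nil)) .nil)) .nil)) .nil)) .nil)) .nil)) .nil)) .nil)))))
noncomputable def t16 : T := .cons 296 (.leaf 320 1791 (.cons 199 (.leaf 175 1404 (.leaf 224 1599 .nil)) .nil)) (.cons 296 (.leaf 320 1791 (.cons 224 (.cons 295 (.leaf 319 1790 (.cons 294 (.leaf 293 2153 (.cons 225 (.leaf 201 1605 (.leaf 226 1778 .nil)) .nil)) .nil)) (.cons 295 (.leaf 319 1790 (.cons 294 (.leaf 293 2153 (.cons 318 (.leaf 270 1781 (.leaf 271 1782 .nil)) .nil)) .nil)) (.cons 225 (.leaf 201 1605 (.leaf 226 1778 .nil)) .nil))) .nil)) (.cons 199 (.leaf 175 1404 (.cons 271 (.cons 198 (.leaf 174 1399 (.cons 270 (.leaf 294 1590 (.cons 269 (.leaf 268 1953 (.cons 293 (.leaf 292 2146 (.leaf 222 1582 .nil)) .nil)) .nil)) .nil)) (.cons 198 (.leaf 174 1399 (.cons 295 (.leaf 222 1591 (.cons 176 (.leaf 200 1405 (.cons 318 (.leaf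 294 1782 (.cons 319 (.leaf 343 1981 (.leaf 224 1789 .nil)) .nil)) .nil)) .nil)) .nil)) (.cons 198 (.leaf 174 1399 (.cons 295 (.leaf 222 1591 (.cons 319 (.leaf 343 1981 (.leaf 224 1789 .nil)) .nil)) .nil)) (.cons 270 (.leaf 294 1590 (.cons 200 (.leaf 176 1405 (.cons 224 (.leaf 295 1597 (.cons 201 (.leaf 177 1413 (.cons 202 (.leaf 222 1586 (.leaf 203 1594 .nil)) .nil)) .nil)) .nil)) .nil)) (.cons 270 (.leaf 294 1590 (.cons 174 (.leaf 198 1399 (.cons 200 (.leaf 176 1405 (.cons 224 (.leaf 295 1597 (.cons 201 (.leaf 177 1413 (.cons 202 (.leaf 203 1594 (.cons 226 (.leaf 225 1778 (.leaf 227 1592 .nil)) .nil)) .nil)) .nil)) .nil)) .nil)) .nil)) .nil))))) .nil)) (.cons 199 (.leaf 175 1404 (.cons 296 (.leaf 271 1596 (.leaf 320 1791 .nil)) .nil)) .nil)))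
noncomputable def t17 : T := .cons 296 (.leaf 320 1791 (.cons 199 (.leaf 175 1404 (.leaf 224 1599 .nil)) .nil)) (.cons 296 (.leaf 320 1791 (.cons 224 (.cons 295 (.leaf 319 1790 (.cons 294 (.leaf 293 2153 (.cons 225 (.leaf 201 1605 (.leaf 226 1778 .nil)) .nil)) .nil)) (.cons 295 (.leaf 319 1790 (.cons 294 (.leaf 293 2153 (.cons 318 (.leaf 270 1781 (.leaf 271 1782 .nil)) .nil)) .nil)) (.cons 225 (.leaf 201 1605 (.leaf 226 1778 .nil)) .nil))) .nil)) (.cons 199 (.leaf 175 1404 (.cons 271 (.cons 198 (.leaf 174 1399 (.cons 270 (.leaf 294 1590 (.cons 269 (.leaf 249 1961 (.leaf 268 1953 .nil)) .nil)) .nil)) (.cons 198 (.leaf 174 1399 (.cons 295 (.leaf 222 1591 (.cons 176 (.leaf 200 1405 (.cons 318 (.leaf 294 1782 (.cons 319 (.leaf 343 1981 (.leaf 224 1789 .nil)) .nil)) .nil)) .nil)) .nil)) (.cons 198 (.leaf 174 1399 (.cons 295 (.leaf 222 1591 (.cons 319 (.leaf 343 1981 (.leaf 224 1789 .nil))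 .nil)) .nil)) (.cons 270 (.leaf 294 1590 (.cons 200 (.leaf 176 1405 (.cons 224 (.leaf 295 1597 (.cons 201 (.leaf 177 1413 (.cons 202 (.leaf 222 1586 (.leaf 203 1594 .nil)) .nil)) .nil)) .nil)) .nil)) .nil)))) .nil)) (.cons 199 (.leaf 175 1404 (.cons 296 (.leaf 271 1596 (.leaf 320 1791 .nil)) .nil)) .nil)))
noncomputable def t18 : T := .cons 273 (.leaf 274 1979 (.cons 246 (.leaf 245 1960 (.cons 223 t17 .nil)) .nil)) (.cons 223 (.cons 199 (.leaf 175 1404 (.cons 296 (.leaf 224 1599 (.leaf 271 1596 .nil)) .nil)) (.cons 296 (.leaf 320 1791 (.cons 224 (.cons 295 (.leaf 319 1790 (.cons 271 (.leaf 200 1597 (.cons 222 (.leaf 198 1591 (.cons 221 (.leaf 220 1760 (.leaf 249 1768 .nil)) .nil)) .nil)) .nil)) (.cons 225 (.leaf 201 1605 (.cons 226 (.leaf 227 1786 (.leaf 246 1778 .nil)) .nil)) .nil)) .nil)) (.cons 199 (.leaf 175 1404 (.cons 271 (.cons 270 (.leaf 294 1590 (.cons 269 (.leaf 249 1961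 (.leaf 268 1953 .nil)) .nil)) (.cons 198 (.leaf 174 1399 (.cons 200 (.leaf 176 1405 (.cons 295 (.leaf 224 1597 (.leaf 222 1591 .nil)) .nil)) .nil)) .nil)) .nil)) (.cons 199 (.leaf 175 1404 (.cons 296 (.leaf 271 1596 (.leaf 320 1791 .nil)) .nil)) (.cons 199 (.leaf 175 1404 (.cons 296 (.leaf 224 1599 (.leaf 320 1791 .nil)) .nil)) .nil))))) (.cons 273 (.leaf 274 1979 (.cons 246 (.leaf 245 1960 (.cons 249 (.cons 221 (.leaf 222 1771 (.cons 270 (.leaf 269 1962 (.cons 250 (.leaf 271 1969 (.cons 227 (.leaf 226 1785 (.cons 251 (.leaf 252 1986 (.leaf 228 1793 .nil)) .nil)) .nil)) .nil)) .nil)) (.cons 225 (.leaf 226 1777 (.cons 201 (.leaf 177 1414 (.leaf 296 1606 .nil)) .nil)) (.cons 221 (.leaf 222 1771 (.cons 270 (.leaf 269 1962 (.cons 271 (.leaf 250 1969 (.cons 294 (.leaf 293 2154 (.cons 318 (.leaf 342 1973 (.cons 319 (.leaf 343 1972 (.cons 295 (.leaf 224 1789 (.cons 317 (.leaf 341 1966 (.cons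 316 (.leaf 315 2329 (.leaf 296 2337 .nil)) .nil)) .nil)) .nil)) .nil)) .nil)) .nil)) .nil)) .nil)) .nil))) .nil)) .nil)) (.cons 273 (.leaf 274 1979 (.cons 246 (.leaf 245 1960 (.cons 223 t16 .nil)) .nil)) (.cons 274 (.leaf 273 1979 (.cons 249 (.leaf 250 1976 (.cons 225 (.cons 177 (.leaf 201 1414 (.cons 246 (.leaf 226 1777 (.cons 245 (.leaf 224 1769 (.cons 221 (.leaf 220 1763 (.leaf 222 1771 .nil)) .nil)) .nil)) .nil)) (.cons 201 (.leaf 177 1414 (.cons 296 (.leaf 224 1605 (.leaf 320 1797 .nil)) .nil)) (.cons 246 (.leaf 226 1777 (.cons 221 (.leaf 222 1771 (.cons 245 (.leaf 220 1763 (.leaf 224 1769 .nil)) .nil)) .nil)) (.cons 177 (.leaf 201 1414 (.cons 246 (.leaf 226 1777 (.cons 269 (.leaf 270 1962 (.cons 245 (.leaf 268 1954 (.cons 221 (.leaf 220 1763 (.leaf 222 1771 .nil)) .nil)) .nil)) .nil)) .nil)) .nil)))) .nil)) .nil)) (.cons 274 (.leaf 273 1979 (.cons 249 (.leaf 250 1976 (.cons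 296 (.cons 320 (.leaf 223 1791 (.leaf 225 1797 .nil)) (.cons 224 t15 (.cons 320 (.leaf 225 1797 (.cons 343 (.leaf 319 1982 (.cons 344 (.leaf 271 1983 (.leaf 367 2174 .nil)) .nil)) .nil)) (.cons 223 (.leaf 320 1791 (.cons 199 (.leaf 175 1404 (.leaf 224 1599 .nil)) .nil)) .nil)))) .nil)) .nil)) t14)))))
noncomputable def t19 : T := .cons 224 (.leaf 200 1604 (.cons 321 (.leaf 296 1796 (.leaf 345 1991 .nil)) .nil)) (.cons 224 (.leaf 200 1604 (.cons 296 (.cons 201 (.leaf 225 1605 (.cons 295 (.leaf 319 1790 (.cons 294 (.leaf 293 2153 (.cons 270 (.leaf 269 2155 (.cons 271 (.leaf 298 2160 (.cons 246 (.leaf 245 1963 (.cons 198 (.leaf 222 1588 (.cons 318 (.leaf 317 2346 (.cons 342 (.leaf 366 2165 (.leaf 247 1973 .nil)) .nil)) .nil)) .nil)) .nil)) .nil)) .nil)) .nil)) .nil)) (.cons 295 (.leaf 319 1790 (.cons 294 (.leaf 293 2153 (.cons 270 (.leaf 269 2155 (.cons 271 (.leaf 298 2160 (.cons 245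 (.leaf 246 1963 (.cons 249 (.leaf 250 1969 (.cons 318 (.leaf 317 2346 (.cons 342 (.leaf 366 2165 (.leaf 247 1973 .nil)) .nil)) .nil)) .nil)) .nil)) .nil)) .nil)) .nil)) (.cons 225 (.leaf 201 1605 (.cons 249 (.leaf 320 1797 (.cons 226 (.leaf 202 1613 (.cons 227 (.leaf 247 1786 (.leaf 228 1794 .nil)) .nil)) .nil)) .nil)) (.cons 201 (.leaf 225 1605 (.cons 319 (.leaf 295 1790 (.cons 320 (.leaf 343 1982 (.cons 344 (.leaf 249 1989 (.leaf 368 2181 .nil)) .nil)) .nil)) .nil)) .nil)))) .nil)) (.cons 321 (.leaf 345 1991 (.cons 249 (.cons 226 (.leaf 250 1805 (.cons 225 (.leaf 202 1613 (.cons 201 (.leaf 177 1414 (.leaf 296 1606 .nil)) .nil)) .nil)) (.cons 320 (.leaf 344 1990 (.cons 322 (.leaf 346 1996 (.cons 298 (.leaf 225 1804 (.cons 299 (.leaf 300 2370 (.leaf 319 2361 .nil)) .nil)) .nil)) .nil)) (.cons 250 (.leaf 226 1805 (.cons 251 (.leaf 271 1978 (.leaf 252 1986 .nil)) .nil)) .nil))) .nil))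 (.cons 224 (.leaf 200 1604 (.cons 321 (.leaf 345 1991 (.leaf 249 1799 .nil)) .nil)) .nil)))
noncomputable def t20 : T := .cons 274 (.leaf 247 1979 (.cons 296 (.leaf 295 2170 (.cons 299 (.leaf 300 2176 (.cons 251 (.leaf 252 1985 (.cons 298 (.leaf 271 2168 (.cons 227 (.leaf 203 1622 (.leaf 322 1814 .nil)) .nil)) .nil)) .nil)) .nil)) .nil)) (.cons 297 t19 (.cons 274 (.cons 295 (.leaf 296 2170 (.cons 271 (.leaf 294 2162 (.cons 299 (.leaf 300 2176 (.leaf 298 2168 .nil)) .nil)) .nil)) (.cons 251 (.leaf 252 1985 (.cons 250 (.leaf 271 1977 (.cons 299 (.leaf 300 2176 (.cons 226 (.leaf 202 1620 (.leaf 323 1815 .nil)) .nil)) .nil)) .nil)) (.cons 251 (.leaf 252 1985 (.cons 271 (.leaf 250 1977 (.cons 295 (.leaf 296 2170 (.leaf 294 2162 .nil)) .nil)) .nil)) (.cons 296 (.leaf 295 2170 (.cons 299 (.leaf 300 2176 (.cons 251 (.leaf 252 1985 (.cons 323 (.cons 250 (.leaf 226 1815 (.leaf 347 2007 .nil))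 (.cons 322 (.leaf 346 2006 (.cons 324 (.leaf 348 2012 (.cons 297 (.leaf 298 2368 (.leaf 321 2371 .nil)) .nil)) .nil)) .nil)) .nil)) .nil)) .nil)) .nil)))) (.cons 274 (.leaf 247 1979 (.cons 251 (.leaf 252 1985 (.cons 250 (.leaf 271 1977 (.cons 299 (.leaf 300 2176 (.cons 226 (.leaf 202 1620 (.leaf 323 1815 .nil)) .nil)) .nil)) .nil)) .nil)) (.cons 274 (.leaf 247 1979 (.cons 296 (.leaf 295 2170 (.cons 299 (.leaf 300 2176 (.cons 251 (.leaf 252 1985 (.cons 323 (.cons 250 (.leaf 226 1815 (.leaf 347 2007 .nil)) (.cons 322 (.leaf 346 2006 (.cons 324 (.leaf 348 2012 (.cons 297 (.leaf 298 2368 (.leaf 321 2371 .nil)) .nil)) .nil)) .nil)) .nil)) .nil)) .nil)) .nil)) (.cons 274 (.leaf 247 1979 (.cons 295 (.leaf 296 2170 (.cons 271 (.leaf 294 2162 (.cons 299 (.leaf 300 2176 (.leaf 298 2168 .nil)) .nil)) .nil)) .nil)) (.cons 274 (.leaf 247 1979 (.cons 251 (.leaf 252 1985 (.cons 271 (.leaf 250 1977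 (.cons 295 (.leaf 296 2170 (.leaf 294 2162 .nil)) .nil)) .nil)) .nil)) .nil))))))
noncomputable def t21 : T := .cons 199 (.leaf 175 1404 (.cons 271 (.leaf 296 1596 (.cons 294 (.leaf 270 1590 (.cons 295 (.leaf 318 1782 (.cons 319 (.leaf 343 1981 (.leaf 224 1789 .nil)) .nil)) .nil)) .nil)) .nil)) (.cons 296 (.leaf 320 1791 (.cons 224 (.cons 295 (.leaf 319 1790 (.cons 294 (.leaf 293 2153 (.cons 225 (.leaf 201 1605 (.leaf 226 1778 .nil)) .nil)) .nil)) (.cons 295 (.leaf 319 1790 (.cons 294 (.leaf 293 2153 (.cons 318 (.leaf 270 1781 (.leaf 271 1782 .nil)) .nil)) .nil)) (.cons 225 (.leaf 201 1605 (.leaf 226 1778 .nil)) .nil))) .nil)) (.cons 199 (.leaf 175 1404 (.cons 271 (.cons 294 (.leaf 270 1590 (.cons 295 (.leaf 318 1782 (.cons 319 (.leaf 343 1981 (.leaf 224 1789 .nil)) .nil)) .nil)) (.cons 198 (.leaf 174 1399 (.cons 295 (.leaf 222 1591 (.cons 319 (.leaf 343 1981 (.leaf 224 1789 .nil))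 .nil)) .nil)) (.cons 270 (.leaf 294 1590 (.cons 198 (.leaf 174 1399 (.cons 269 (.leaf 268 1953 (.cons 293 (.leaf 292 2146 (.leaf 222 1582 .nil)) .nil)) .nil)) .nil)) .nil))) .nil)) (.cons 199 (.leaf 175 1404 (.cons 296 (.leaf 224 1599 (.leaf 320 1791 .nil)) .nil)) (.cons 199 (.leaf 175 1404 (.cons 296 (.leaf 271 1596 (.leaf 320 1791 .nil)) .nil)) .nil))))
noncomputable def t22 : T := .cons 270 (.leaf 269 1962 (.cons 222 (.leaf 221 1771 (.cons 225 (.leaf 226 1777 (.cons 271 (.leaf 250 1969 (.cons 198 (.leaf 174 1396 (.leaf 295 1588 .nil)) .nil)) .nil)) .nil)) .nil)) (.cons 222 (.leaf 221 1771 (.cons 250 (.leaf 223 1779 (.cons 251 (.leaf 271 1978 (.leaf 252 1986 .nil)) .nil)) .nil)) (.cons 270 (.leaf 269 1962 (.cons 250 (.leaf 271 1969 (.cons 227 (.leaf 226 1785 (.cons 251 (.leaf 252 1986 (.leaf 228 1793 .nil)) .nil)) .nil)) .nil)) (.cons 270 (.leaf 269 1962 (.cons 222 (.leaf 221 1771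 (.cons 225 (.leaf 226 1777 (.cons 271 (.cons 198 (.leaf 174 1396 (.leaf 295 1588 .nil)) (.cons 174 (.leaf 198 1396 (.cons 177 (.leaf 201 1414 (.cons 294 (.leaf 293 2154 (.cons 223 (.leaf 199 1589 (.leaf 318 1781 .nil)) .nil)) .nil)) .nil)) (.cons 177 (.leaf 201 1414 (.cons 293 (.leaf 294 2154 (.cons 297 (.leaf 298 2160 (.cons 321 (.leaf 345 1991 (.leaf 224 1799 .nil)) .nil)) .nil)) .nil)) .nil))) .nil)) .nil)) .nil)) (.cons 225 (.leaf 226 1777 (.cons 177 (.leaf 201 1414 (.cons 222 (.leaf 221 1771 (.cons 223 (.leaf 250 1779 (.cons 270 (.leaf 269 1962 (.cons 199 (.leaf 175 1404 (.leaf 294 1589 .nil)) .nil)) .nil)) .nil)) .nil)) .nil)) .nil))))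
noncomputable def t23 : T := .cons 245 (.leaf 273 1960 (.cons 244 (.leaf 271 1952 (.cons 268 (.leaf 269 1954 (.leaf 267 1946 .nil)) .nil)) .nil)) (.cons 249 (.cons 222 (.leaf 221 1771 (.cons 223 (.leaf 250 1779 (.cons 175 (.leaf 199 1404 (.cons 270 (.leaf 269 1962 (.cons 225 (.leaf 226 1777 (.cons 296 (.leaf 320 1797 (.cons 201 (.leaf 177 1414 (.leaf 224 1605 .nil)) .nil)) .nil)) .nil)) .nil)) .nil)) .nil)) (.cons 225 (.leaf 226 1777 (.cons 201 (.leaf 177 1414 (.cons 296 (.leaf 224 1605 (.leaf 273 1606 .nil)) .nil)) .nil)) (.cons 222 (.leaf 221 1771 (.cons 223 (.leaf 250 1779 (.cons 270 (.leaf 269 1962 (.cons 199 (.leaf 175 1404 (.leaf 294 1589 .nil)) .nil)) .nil)) .nil)) .nil))) (.cons 245 (.cons 244 (.leaf 271 1952 (.cons 268 (.leaf 269 1954 (.leaf 267 1946 .nil)) .nil)) (.cons 220 (.leaf 221 1763 (.cons 225 (.leaf 224 1769 (.cons 249 (.leaf 226 1777 (.cons 269 (.leaf 268 1954 (.leaf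 270 1962 .nil)) .nil)) .nil)) .nil)) (.cons 220 (.leaf 221 1763 (.cons 244 (.leaf 271 1952 (.leaf 219 1755 .nil)) .nil)) .nil))) (.cons 245 (.leaf 273 1960 (.cons 220 (.leaf 221 1763 (.cons 244 (.leaf 271 1952 (.leaf 219 1755 .nil)) .nil)) .nil)) .nil)))
noncomputable def t24 : T := .cons 199 (.leaf 175 1404 (.cons 271 (.leaf 296 1596 (.cons 294 (.leaf 270 1590 (.cons 295 (.leaf 318 1782 (.cons 319 (.leaf 343 1981 (.leaf 224 1789 .nil)) .nil)) .nil)) .nil)) .nil)) (.cons 199 (.leaf 175 1404 (.cons 271 (.cons 294 (.leaf 270 1590 (.cons 295 (.leaf 318 1782 (.cons 319 (.leaf 343 1981 (.leaf 224 1789 .nil)) .nil)) .nil)) (.cons 198 (.leaf 174 1399 (.cons 295 (.leaf 222 1591 (.cons 319 (.leaf 343 1981 (.leaf 224 1789 .nil)) .nil)) .nil)) (.cons 270 (.leaf 294 1590 (.cons 198 (.leaf 174 1399 (.cons 269 (.leaf 249 1961 (.leaf 268 1953 .nil)) .nil)) .nil)) .nil))) .nil)) (.cons 296 (.leaf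 320 1791 (.cons 224 (.cons 295 (.leaf 319 1790 (.cons 294 (.leaf 293 2153 (.cons 225 (.leaf 201 1605 (.leaf 226 1778 .nil)) .nil)) .nil)) (.cons 295 (.leaf 319 1790 (.cons 294 (.leaf 293 2153 (.cons 297 (.leaf 321 1796 (.cons 270 (.leaf 318 1781 (.leaf 269 2155 .nil)) .nil)) .nil)) .nil)) (.cons 225 (.leaf 201 1605 (.leaf 226 1778 .nil)) .nil))) .nil)) (.cons 199 (.leaf 175 1404 (.cons 296 (.leaf 224 1599 (.leaf 271 1596 .nil)) .nil)) (.cons 199 (.leaf 175 1404 (.cons 296 (.leaf 271 1596 (.leaf 320 1791 .nil)) .nil)) .nil))))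
noncomputable def t25 : T := .cons 273 (.leaf 274 1979 (.cons 246 (.leaf 245 1960 (.cons 223 t24 .nil)) .nil)) (.cons 223 (.cons 296 (.leaf 320 1791 (.cons 199 (.leaf 175 1404 (.leaf 224 1599 .nil)) .nil)) (.cons 199 (.leaf 175 1404 (.cons 271 (.cons 270 (.leaf 294 1590 (.cons 269 (.leaf 249 1961 (.leaf 268 1953 .nil)) .nil)) (.cons 198 (.leaf 174 1399 (.cons 295 (.leaf 222 1591 (.cons 319 (.leaf 343 1981 (.leaf 224 1789 .nil)) .nil)) .nil)) .nil)) .nil)) (.cons 296 (.leaf 320 1791 (.cons 224 (.cons 225 (.leaf 201 1605 (.cons 226 (.leaf 227 1786 (.leaf 246 1778 .nil)) .nil)) (.cons 295 (.leaf 319 1790 (.cons 297 (.leaf 321 1796 (.cons 298 (.leaf 274 2169 (.cons 271 (.leaf 299 2171 (.leaf 270 2163 .nil)) .nil)) .nil)) .nil)) .nil)) .nil)) (.cons 296 (.leaf 320 1791 (.cons 199 (.leaf 175 1404 (.leaf 271 1596 .nil)) .nil)) .nil)))) (.cons 246 t23 (.cons 273 (.leaf 274 1979 (.cons 246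 (.leaf 245 1960 (.cons 249 t22 .nil)) .nil)) (.cons 273 (.leaf 274 1979 (.cons 246 (.leaf 245 1960 (.cons 223 t21 .nil)) .nil)) (.cons 274 (.leaf 273 1979 (.cons 250 (.leaf 249 1976 (.cons 299 t5 .nil)) .nil)) (.cons 273 (.leaf 274 1979 (.cons 246 (.leaf 245 1960 (.cons 249 (.cons 225 (.leaf 226 1777 (.cons 177 (.leaf 201 1414 (.cons 222 (.leaf 221 1771 (.cons 270 (.leaf 269 1962 (.cons 250 (.leaf 271 1969 (.leaf 223 1779 .nil)) .nil)) .nil)) .nil)) .nil)) (.cons 225 (.leaf 226 1777 (.cons 201 (.leaf 177 1414 (.leaf 296 1606 .nil)) .nil)) (.cons 270 (.leaf 269 1962 (.cons 250 (.leaf 271 1969 (.cons 227 (.leaf 226 1785 (.cons 251 (.leaf 252 1986 (.leaf 228 1793 .nil)) .nil)) .nil)) .nil)) (.cons 270 (.leaf 269 1962 (.cons 271 (.leaf 250 1969 (.cons 221 (.leaf 222 1771 (.cons 294 (.leaf 293 2154 (.cons 223 (.leaf 199 1590 (.leaf 318 1781 .nil)) .nil)) .nil)) .nil)) .nil)) .nil)))) .nil))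 .nil)) (.cons 273 (.leaf 274 1979 (.cons 246 (.leaf 245 1960 (.cons 249 (.cons 270 (.leaf 269 1962 (.cons 250 (.leaf 271 1969 (.cons 227 (.leaf 226 1785 (.cons 251 (.leaf 252 1986 (.leaf 228 1793 .nil)) .nil)) .nil)) .nil)) (.cons 222 (.leaf 221 1771 (.cons 223 (.leaf 250 1779 (.cons 199 (.leaf 175 1404 (.cons 296 (.leaf 224 1599 (.leaf 271 1596 .nil)) .nil)) .nil)) .nil)) (.cons 222 (.leaf 221 1771 (.cons 223 (.leaf 250 1779 (.cons 199 (.leaf 175 1404 (.cons 270 (.leaf 269 1962 (.leaf 294 1589 .nil)) .nil)) .nil)) .nil)) (.cons 270 (.leaf 269 1962 (.cons 222 (.leaf 221 1771 (.cons 223 (.cons 294 (.leaf 318 1781 (.leaf 199 1589 .nil)) (.cons 294 (.leaf 318 1781 (.cons 293 (.leaf 271 2154 (.leaf 317 1774 .nil)) .nil)) (.cons 199 (.leaf 175 1404 (.cons 296 (.leaf 224 1599 (.leaf 271 1596 .nil)) .nil)) .nil))) .nil)) .nil)) .nil)))) .nil)) .nil)) (.cons 273 (.leaf 274 1979 (.cons 246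 (.leaf 245 1960 (.cons 249 (.cons 270 (.leaf 269 1962 (.cons 271 (.leaf 250 1969 (.cons 293 (.leaf 294 2154 (.cons 297 (.leaf 298 2160 (.cons 321 (.leaf 345 1991 (.leaf 224 1799 .nil)) .nil)) .nil)) .nil)) .nil)) (.cons 222 (.leaf 221 1771 (.cons 223 (.leaf 250 1779 (.cons 199 (.leaf 175 1404 (.cons 296 (.leaf 224 1599 (.leaf 271 1596 .nil)) .nil)) .nil)) .nil)) (.cons 222 (.leaf 221 1771 (.cons 223 (.leaf 250 1779 (.cons 199 (.leaf 175 1404 (.cons 270 (.leaf 269 1962 (.leaf 294 1589 .nil)) .nil)) .nil)) .nil)) (.cons 270 (.leaf 269 1962 (.cons 222 (.leaf 221 1771 (.cons 223 (.cons 294 (.leaf 318 1781 (.leaf 199 1589 .nil)) (.cons 294 (.leaf 318 1781 (.cons 293 (.leaf 271 2154 (.leaf 317 1774 .nil)) .nil)) (.cons 199 (.leaf 175 1404 (.cons 296 (.leaf 224 1599 (.leaf 271 1596 .nil)) .nil)) .nil))) .nil)) .nil)) .nil)))) .nil)) .nil)) .nil))))))))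
noncomputable def t26 : T := .cons 295 (.leaf 274 2170 (.cons 294 (.leaf 293 2153 (.cons 224 (.leaf 319 1790 (.cons 199 (.leaf 223 1599 (.cons 201 (.leaf 225 1605 (.cons 200 (.leaf 175 1407 (.leaf 177 1413 .nil)) .nil)) .nil)) .nil)) .nil)) .nil)) (.cons 320 (.cons 319 (.leaf 343 1982 (.cons 321 (.leaf 345 1988 (.cons 224 (.leaf 297 1796 (.cons 199 (.leaf 223 1599 (.cons 200 (.leaf 175 1407 (.cons 249 (.leaf 225 1797 (.leaf 344 1989 .nil)) .nil)) .nil)) .nil)) .nil)) .nil)) (.cons 319 (.leaf 343 1982 (.cons 321 (.leaf 345 1988 (.cons 224 (.leaf 297 1796 (.cons 199 (.leaf 223 1599 (.cons 200 (.leaf 175 1407 (.cons 201 (.leaf 177 1413 (.leaf 225 1605 .nil)) .nil)) .nil)) .nil)) .nil)) .nil)) (.cons 249 (.leaf 225 1797 (.leaf 344 1989 .nil)) (.cons 249 (.leaf 344 1989 (.cons 319 (.leaf 343 1982 (.cons 321 (.leaf 345 1988 (.cons 224 (.leaf 297 1796 (.cons 199 (.leaf 223 1599 (.cons 200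 (.leaf 175 1407 (.leaf 176 1412 .nil)) .nil)) .nil)) .nil)) .nil)) .nil)) .nil)))) (.cons 295 (.leaf 274 2170 (.cons 294 (.leaf 293 2153 (.cons 297 (.cons 270 (.leaf 269 2155 (.cons 271 (.leaf 298 2160 (.cons 249 (.leaf 250 1969 (.cons 320 (.leaf 225 1797 (.leaf 344 1989 .nil)) .nil)) .nil)) .nil)) (.cons 321 (.leaf 345 1991 (.leaf 322 2352 .nil)) .nil)) .nil)) .nil)) (.cons 295 (.leaf 274 2170 (.cons 224 (.leaf 319 1790 (.cons 200 (.leaf 271 1598 (.leaf 297 1604 .nil)) .nil)) .nil)) .nil)))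
noncomputable def t27 : T := .cons 199 (.leaf 223 1599 (.cons 295 (.leaf 319 1790 (.cons 293 (.leaf 294 2153 (.cons 321 (.leaf 297 1796 (.cons 320 (.leaf 345 1988 (.cons 322 (.leaf 323 2363 (.cons 344 (.leaf 249 1989 (.cons 367 (.leaf 343 2174 (.cons 368 (.leaf 271 2175 (.leaf 391 2366 .nil)) .nil)) .nil)) .nil)) .nil)) .nil)) .nil)) .nil)) .nil)) (.cons 225 (.leaf 201 1605 (.cons 199 (.leaf 223 1599 (.cons 320 (.leaf 249 1797 (.cons 345 (.leaf 321 1988 (.cons 319 (.leaf 295 1790 (.leaf 343 1982 .nil)) .nil)) .nil)) .nil)) .nil)) (.cons 225 (.leaf 201 1605 (.cons 199 (.leaf 223 1599 (.cons 320 (.leaf 249 1797 (.cons 343 (.leaf 319 1982 (.cons 344 (.leaf 367 2174 (.cons 247 (.leaf 271 1983 (.cons 246 (.leaf 245 1960 (.cons 226 (.leaf 227 1786 (.cons 368 (.leaf 297 2181 (.cons 369 (.leaf 345 2180 (.leaf 393 2372 .nil)) .nil)) .nil)) .nil)) .nil)) .nil)) .nil)) .nil)) .nil)) .nil)) (.cons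 297 (.leaf 321 1796 (.cons 223 (.leaf 199 1599 (.cons 225 (.leaf 201 1605 (.cons 295 (.leaf 319 1790 (.cons 294 (.leaf 293 2153 (.cons 270 (.leaf 269 2155 (.cons 318 (.leaf 317 2346 (.cons 246 (.leaf 247 1781 (.cons 245 (.leaf 271 1963 (.leaf 222 1770 .nil)) .nil)) .nil)) .nil)) .nil)) .nil)) .nil)) .nil)) .nil)) (.cons 297 (.leaf 321 1796 (.cons 201 (.leaf 225 1605 (.cons 295 (.leaf 319 1790 (.cons 294 (.leaf 293 2153 (.cons 270 (.leaf 269 2155 (.cons 271 (.leaf 298 2160 (.cons 246 (.leaf 245 1963 (.cons 198 (.leaf 222 1588 (.cons 318 (.leaf 317 2346 (.cons 342 (.leaf 366 2165 (.leaf 247 1973 .nil)) .nil)) .nil)) .nil)) .nil)) .nil)) .nil)) .nil)) .nil)) .nil)) (.cons 297 (.leaf 321 1796 (.cons 225 (.leaf 201 1605 (.cons 249 (.leaf 320 1797 (.cons 223 (.leaf 199 1599 (.cons 222 (.leaf 221 1768 (.leaf 250 1776 .nil)) .nil)) .nil)) .nil)) .nil)) .nil)))))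
noncomputable def t28 : T := .cons 274 (.leaf 247 1979 (.cons 299 (.leaf 300 2176 (.cons 271 (.leaf 298 2168 (.cons 294 (.leaf 295 2162 (.cons 270 (.leaf 293 2154 (.cons 249 (.leaf 269 1961 (.leaf 250 1969 .nil)) .nil)) .nil)) .nil)) .nil)) .nil)) (.cons 224 (.cons 200 (.leaf 297 1604 (.cons 199 (.leaf 175 1407 (.cons 201 (.leaf 177 1413 (.cons 296 (.leaf 223 1599 (.leaf 225 1605 .nil)) .nil)) .nil)) .nil)) (.cons 296 t27 (.cons 200 (.cons 199 (.leaf 175 1407 (.cons 201 (.leaf 177 1413 (.cons 296 (.leaf 223 1599 (.leaf 225 1605 .nil)) .nil)) .nil)) (.cons 175 (.leaf 199 1407 (.cons 176 (.leaf 151 1215 (.leaf 249 1412 .nil)) .nil)) (.cons 176 (.leaf 249 1412 (.cons 177 (.leaf 201 1413 (.leaf 153 1221 .nil)) .nil)) .nil))) (.cons 200 (.leaf 297 1604 (.cons 175 (.leaf 199 1407 (.cons 176 (.leaf 151 1215 (.leaf 249 1412 .nil)) .nil)) .nil)) (.cons 200 (.leaf 297 1604 (.cons 176 (.leaf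 249 1412 (.cons 177 (.leaf 201 1413 (.leaf 153 1221 .nil)) .nil)) .nil)) .nil))))) (.cons 296 t26 (.cons 274 (.leaf 247 1979 (.cons 295 (.leaf 296 2170 (.cons 271 (.leaf 294 2162 (.cons 299 (.leaf 300 2176 (.leaf 298 2168 .nil)) .nil)) .nil)) .nil)) (.cons 274 (.leaf 247 1979 (.cons 296 (.leaf 295 2170 (.cons 299 (.leaf 300 2176 (.cons 224 t0 .nil)) .nil)) .nil)) (.cons 247 (.leaf 274 1979 (.cons 246 (.leaf 245 1960 (.cons 249 (.cons 225 (.leaf 226 1777 (.cons 177 (.leaf 201 1414 (.cons 270 (.leaf 269 1962 (.cons 271 (.leaf 250 1969 (.cons 294 (.leaf 293 2154 (.cons 223 (.leaf 199 1590 (.leaf 318 1781 .nil)) .nil)) .nil)) .nil)) .nil)) .nil)) (.cons 270 (.leaf 269 1962 (.cons 271 (.leaf 250 1969 (.cons 221 (.leaf 222 1771 (.cons 293 (.leaf 294 2154 (.cons 297 (.leaf 298 2160 (.cons 224 (.leaf 200 1604 (.leaf 321 1799 .nil)) .nil)) .nil)) .nil)) .nil)) .nil)) (.cons 225 (.leaf 226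 1777 (.cons 201 (.leaf 177 1414 (.leaf 296 1606 .nil)) .nil)) .nil))) .nil)) .nil)) (.cons 247 (.leaf 274 1979 (.cons 246 (.leaf 245 1960 (.cons 249 (.cons 225 (.leaf 226 1777 (.cons 177 (.leaf 201 1414 (.cons 270 (.leaf 269 1962 (.cons 271 (.leaf 250 1969 (.cons 294 (.leaf 293 2154 (.cons 223 (.leaf 199 1590 (.leaf 318 1781 .nil)) .nil)) .nil)) .nil)) .nil)) .nil)) (.cons 270 (.leaf 269 1962 (.cons 222 (.leaf 221 1771 (.cons 223 (.leaf 250 1779 (.cons 294 (.leaf 318 1781 (.leaf 199 1589 .nil)) .nil)) .nil)) .nil)) (.cons 225 (.leaf 226 1777 (.cons 201 (.leaf 177 1414 (.leaf 296 1606 .nil)) .nil)) .nil))) .nil)) .nil)) .nil))))))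
noncomputable def t29 : T := .cons 270 (.leaf 269 1962 (.cons 271 (.leaf 250 1969 (.cons 221 (.leaf 222 1771 (.cons 293 (.leaf 294 2154 (.cons 297 (.leaf 298 2160 (.cons 224 (.leaf 200 1604 (.leaf 321 1799 .nil)) .nil)) .nil)) .nil)) .nil)) .nil)) (.cons 222 (.leaf 221 1771 (.cons 223 (.leaf 250 1779 (.cons 199 (.leaf 175 1404 (.cons 296 (.leaf 224 1599 (.leaf 271 1596 .nil)) .nil)) .nil)) .nil)) (.cons 222 (.leaf 221 1771 (.cons 223 (.leaf 250 1779 (.cons 199 (.leaf 175 1404 (.cons 270 (.leaf 269 1962 (.leaf 294 1589 .nil)) .nil)) .nil)) .nil)) (.cons 270 (.leaf 269 1962 (.cons 250 (.leaf 271 1969 (.cons 251 (.leaf 252 1986 (.cons 224 (.leaf 223 1787 (.cons 200 (.leaf 297 1604 (.leaf 176 1412 .nil)) .nil)) .nil)) .nil)) .nil)) (.cons 270 (.leaf 269 1962 (.cons 222 (.leaf 221 1771 (.cons 223 (.cons 294 (.leaf 318 1781 (.leaf 199 1589 .nil)) (.cons 294 (.leaf 318 1781 (.cons 293 (.leaf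 271 2154 (.leaf 317 1774 .nil)) .nil)) (.cons 199 (.leaf 175 1404 (.cons 296 (.leaf 224 1599 (.leaf 271 1596 .nil)) .nil)) .nil))) .nil)) .nil)) .nil))))
noncomputable def t30 : T := .cons 200 (.leaf 297 1604 (.cons 201 (.leaf 177 1413 (.cons 225 (.leaf 296 1605 (.cons 226 (.leaf 227 1786 (.leaf 223 1778 .nil)) .nil)) .nil)) .nil)) (.cons 296 (.cons 201 (.leaf 225 1605 (.cons 295 (.leaf 319 1790 (.cons 294 (.leaf 293 2153 (.cons 223 (.leaf 199 1599 (.cons 318 (.leaf 270 1781 (.leaf 271 1782 .nil)) .nil)) .nil)) .nil)) .nil)) (.cons 201 (.leaf 225 1605 (.cons 295 (.leaf 319 1790 (.cons 294 (.leaf 293 2153 (.cons 297 (.leaf 321 1796 (.cons 270 (.leaf 269 2155 (.cons 271 (.leaf 298 2160 (.cons 318 (.leaf 342 1973 (.leaf 317 2346 .nil)) .nil)) .nil)) .nil)) .nil)) .nil)) .nil)) (.cons 223 (.leaf 199 1599 (.cons 225 (.leaf 201 1605 (.leaf 226 1778 .nil)) .nil)) (.cons 199 (.leaf 223 1599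 (.cons 295 (.leaf 319 1790 (.cons 294 (.leaf 293 2153 (.cons 297 (.leaf 321 1796 (.cons 270 (.leaf 269 2155 (.cons 271 (.leaf 298 2160 (.cons 318 (.leaf 342 1973 (.leaf 317 2346 .nil)) .nil)) .nil)) .nil)) .nil)) .nil)) .nil)) .nil)))) (.cons 200 (.cons 201 (.leaf 177 1413 (.cons 225 (.leaf 296 1605 (.cons 226 (.leaf 227 1786 (.leaf 223 1778 .nil)) .nil)) .nil)) (.cons 271 (.leaf 295 1598 (.leaf 176 1406 .nil)) .nil)) (.cons 200 (.leaf 297 1604 (.cons 271 (.leaf 295 1598 (.leaf 176 1406 .nil)) .nil)) .nil)))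
noncomputable def t31 : T := .cons 226 (.leaf 202 1620 (.cons 323 (.leaf 251 1815 (.leaf 347 2007 .nil)) .nil)) (.cons 226 (.leaf 202 1620 (.cons 298 (.cons 297 (.leaf 321 1806 (.cons 296 (.leaf 295 2169 (.leaf 271 2171 .nil)) .nil)) (.cons 227 (.leaf 203 1621 (.cons 251 (.leaf 322 1813 (.cons 228 (.leaf 204 1629 (.cons 229 (.leaf 230 1810 (.cons 253 (.leaf 254 1808 (.cons 300 (.leaf 324 1820 (.cons 301 (.leaf 302 2195 (.cons 277 (.leaf 278 2193 (.cons 325 (.leaf 326 2384 (.leaf 252 1831 .nil)) .nil)) .nil)) .nil)) .nil)) .nil)) .nil)) .nil)) .nil)) .nil)) .nil)) (.cons 323 (.leaf 347 2007 (.cons 251 (.cons 322 (.leaf 346 2006 (.cons 227 (.leaf 298 1813 (.cons 324 (.leaf 300 1820 (.leaf 348 2012 .nil)) .nil)) .nil)) (.cons 228 (.leaf 252 1821 (.cons 227 (.leaf 204 1629 (.cons 203 (.leaf 298 1622 (.leaf 179 1430 .nil)) .nil)) .nil)) (.cons 252 (.leaf 228 1821 (.cons 253 (.leaf 254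 2002 (.cons 229 (.leaf 230 1809 (.cons 277 (.leaf 278 2000 (.cons 324 (.leaf 348 2012 (.cons 301 (.leaf 300 1830 (.cons 302 (.leaf 326 1836 (.cons 322 (.leaf 346 2006 (.leaf 325 2385 .nil)) .nil)) .nil)) .nil)) .nil)) .nil)) .nil)) .nil)) .nil))) .nil)) (.cons 226 (.leaf 202 1620 (.cons 323 (.leaf 347 2007 (.leaf 298 1812 .nil)) .nil)) .nil)))
noncomputable def t32 : T := .cons 245 (.leaf 273 1960 (.cons 244 (.leaf 271 1952 (.cons 268 (.leaf 269 1954 (.leaf 267 1946 .nil)) .nil)) .nil)) (.cons 249 (.cons 222 (.leaf 221 1771 (.cons 223 (.leaf 250 1779 (.cons 175 (.leaf 199 1404 (.cons 270 (.leaf 269 1962 (.cons 294 (.leaf 318 1781 (.cons 225 (.leaf 226 1777 (.cons 177 (.leaf 201 1414 (.cons 293 (.leaf 317 1774 (.cons 271 (.leaf 273 2154 (.cons 295 (.leaf 292 2145 (.leaf 198 1588 .nil)) .nil)) .nil)) .nil)) .nil)) .nil)) .nil)) .nil)) .nil)) .nil)) (.cons 225 (.leaf 226 1777 (.cons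 201 (.leaf 177 1414 (.cons 296 (.leaf 224 1605 (.leaf 273 1606 .nil)) .nil)) .nil)) (.cons 222 (.leaf 221 1771 (.cons 223 (.leaf 250 1779 (.cons 270 (.leaf 269 1962 (.cons 199 (.leaf 175 1404 (.leaf 294 1589 .nil)) .nil)) .nil)) .nil)) .nil))) (.cons 245 (.cons 244 (.leaf 271 1952 (.cons 268 (.leaf 269 1954 (.leaf 267 1946 .nil)) .nil)) (.cons 220 (.leaf 221 1763 (.cons 225 (.leaf 224 1769 (.cons 249 (.leaf 226 1777 (.cons 269 (.leaf 268 1954 (.leaf 270 1962 .nil)) .nil)) .nil)) .nil)) (.cons 220 (.leaf 221 1763 (.cons 244 (.leaf 271 1952 (.leaf 219 1755 .nil)) .nil)) .nil))) (.cons 245 (.leaf 273 1960 (.cons 220 (.leaf 221 1763 (.cons 244 (.leaf 219 1755 (.cons 268 (.leaf 269 1954 (.leaf 267 1946 .nil)) .nil)) .nil)) .nil)) (.cons 245 (.leaf 273 1960 (.cons 220 (.leaf 221 1763 (.cons 244 (.leaf 271 1952 (.leaf 219 1755 .nil)) .nil)) .nil)) .nil))))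
noncomputable def t33 : T := .cons 246 (.cons 222 (.leaf 221 1771 (.cons 223 (.leaf 250 1779 (.cons 175 (.leaf 199 1404 (.cons 225 (.leaf 226 1777 (.cons 201 (.leaf 177 1414 (.cons 224 (.leaf 296 1605 (.leaf 245 1769 .nil)) .nil)) .nil)) .nil)) .nil)) .nil)) (.cons 225 (.leaf 226 1777 (.cons 177 (.leaf 201 1414 (.cons 221 (.leaf 222 1771 (.cons 245 (.leaf 220 1763 (.leaf 224 1769 .nil)) .nil)) .nil)) .nil)) (.cons 222 (.leaf 221 1771 (.cons 223 (.leaf 250 1779 (.cons 270 (.leaf 269 1962 (.cons 199 (.leaf 175 1404 (.leaf 294 1589 .nil)) .nil)) .nil)) .nil)) (.cons 250 (.leaf 274 1976 (.cons 270 (.leaf 269 1962 (.leaf 271 1970 .nil)) .nil)) .nil)))) (.cons 246 (.cons 225 (.leaf 226 1777 (.cons 177 (.leaf 201 1414 (.cons 221 (.leaf 222 1771 (.cons 245 (.leaf 220 1763 (.leaf 224 1769 .nil)) .nil)) .nil)) .nil)) (.cons 269 (.leaf 270 1962 (.cons 221 (.leaf 222 1771 (.cons 245 (.leaf 220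 1763 (.leaf 268 1954 .nil)) .nil)) .nil)) (.cons 225 (.leaf 226 1777 (.cons 177 (.leaf 201 1414 (.cons 245 (.leaf 224 1769 (.cons 269 (.leaf 268 1954 (.leaf 270 1962 .nil)) .nil)) .nil)) .nil)) (.cons 270 (.leaf 269 1962 (.cons 222 (.leaf 221 1771 (.cons 225 (.leaf 226 1777 (.cons 201 (.leaf 177 1414 (.cons 198 (.cons 173 (.leaf 197 1391 (.cons 174 (.leaf 271 1396 (.leaf 149 1199 .nil)) .nil)) (.cons 173 (.leaf 197 1391 (.cons 174 (.leaf 149 1199 (.cons 199 (.leaf 175 1397 (.leaf 200 1387 .nil)) .nil)) .nil)) (.cons 197 (.leaf 173 1391 (.cons 199 (.leaf 175 1397 (.cons 224 (.leaf 296 1605 (.leaf 223 1579 .nil)) .nil)) .nil)) (.cons 271 (.leaf 174 1396 (.leaf 295 1588 .nil)) .nil)))) .nil)) .nil)) .nil)) .nil)) .nil)))) (.cons 250 (.leaf 274 1976 (.cons 222 (.leaf 223 1779 (.cons 226 (.leaf 227 1785 (.cons 246 (.leaf 221 1771 (.leaf 225 1777 .nil)) .nil)) .nil)) .nil)) (.cons 250 (.leaf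 274 1976 (.cons 271 (.leaf 251 1978 (.leaf 270 1970 .nil)) .nil)) .nil)))
noncomputable def t34 : T := .cons 273 (.leaf 274 1979 (.cons 246 (.leaf 245 1960 (.cons 249 (.cons 222 (.leaf 221 1771 (.cons 223 (.leaf 250 1779 (.cons 199 (.leaf 175 1404 (.cons 296 (.leaf 224 1599 (.leaf 271 1596 .nil)) .nil)) .nil)) .nil)) (.cons 222 (.leaf 221 1771 (.cons 223 (.leaf 250 1779 (.cons 199 (.leaf 175 1404 (.cons 270 (.leaf 269 1962 (.leaf 294 1589 .nil)) .nil)) .nil)) .nil)) (.cons 270 (.leaf 269 1962 (.cons 250 (.leaf 271 1969 (.cons 227 (.leaf 226 1785 (.cons 251 (.leaf 252 1986 (.leaf 228 1793 .nil)) .nil)) .nil)) .nil)) (.cons 225 (.leaf 226 1777 (.cons 201 (.leaf 177 1414 (.leaf 296 1606 .nil)) .nil)) .nil)))) .nil)) .nil)) (.cons 249 t33 (.cons 246 t32 (.cons 274 (.leaf 273 1979 (.cons 250 (.leaf 249 1976 (.cons 299 t31 .nil)) .nil)) (.cons 273 (.leaf 274 1979 (.cons 246 (.leaf 245 1960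 (.cons 224 t30 .nil)) .nil)) (.cons 274 (.leaf 273 1979 (.cons 250 (.leaf 249 1976 (.cons 299 t5 .nil)) .nil)) (.cons 273 (.leaf 274 1979 (.cons 246 (.leaf 245 1960 (.cons 249 t29 .nil)) .nil)) .nil))))))
noncomputable def t35 : T := .cons 270 (.leaf 269 1962 (.cons 271 (.leaf 250 1969 (.cons 221 (.leaf 222 1771 (.cons 293 (.leaf 294 2154 (.cons 297 (.leaf 298 2160 (.cons 224 (.leaf 200 1604 (.leaf 321 1799 .nil)) .nil)) .nil)) .nil)) .nil)) .nil)) (.cons 222 (.leaf 221 1771 (.cons 223 (.leaf 250 1779 (.cons 199 (.leaf 175 1404 (.cons 296 (.leaf 224 1599 (.leaf 271 1596 .nil)) .nil)) .nil)) .nil)) (.cons 270 (.leaf 269 1962 (.cons 250 (.leaf 271 1969 (.cons 251 (.leaf 252 1986 (.cons 224 (.leaf 223 1787 (.cons 200 (.leaf 297 1604 (.leaf 176 1412 .nil)) .nil)) .nil)) .nil)) .nil)) (.cons 222 (.leaf 221 1771 (.cons 223 (.leaf 250 1779 (.cons 199 (.leaf 175 1404 (.cons 270 (.leaf 269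 1962 (.leaf 294 1589 .nil)) .nil)) .nil)) .nil)) (.cons 270 (.leaf 269 1962 (.cons 222 (.leaf 221 1771 (.cons 223 (.cons 294 (.leaf 318 1781 (.leaf 199 1589 .nil)) (.cons 294 (.leaf 318 1781 (.cons 293 (.leaf 271 2154 (.leaf 317 1774 .nil)) .nil)) (.cons 199 (.leaf 175 1404 (.cons 296 (.leaf 224 1599 (.leaf 271 1596 .nil)) .nil)) .nil))) .nil)) .nil)) .nil))))
noncomputable def t36 : T := .leaf 245 1960 (.cons 249 (.cons 221 (.leaf 222 1771 (.cons 270 (.leaf 269 1962 (.cons 271 (.leaf 250 1969 (.cons 293 (.leaf 294 2154 (.cons 297 (.leaf 298 2160 (.cons 224 (.leaf 200 1604 (.leaf 321 1799 .nil)) .nil)) .nil)) .nil)) .nil)) .nil)) (.cons 222 (.leaf 221 1771 (.cons 223 (.leaf 250 1779 (.cons 199 (.leaf 175 1404 (.cons 296 (.leaf 224 1599 (.leaf 271 1596 .nil)) .nil)) .nil)) .nil)) (.cons 270 (.leaf 269 1962 (.cons 222 (.leaf 221 1771 (.cons 223 (.cons 294 (.leaf 318 1781 (.leaf 199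 1589 .nil)) (.cons 294 (.leaf 318 1781 (.cons 293 (.leaf 271 2154 (.leaf 317 1774 .nil)) .nil)) (.cons 199 (.leaf 175 1404 (.cons 296 (.leaf 224 1599 (.leaf 271 1596 .nil)) .nil)) .nil))) .nil)) .nil)) (.cons 270 (.leaf 269 1962 (.cons 250 (.leaf 271 1969 (.cons 227 (.leaf 226 1785 (.cons 251 (.leaf 252 1986 (.leaf 228 1793 .nil)) .nil)) .nil)) .nil)) (.cons 222 (.leaf 221 1771 (.cons 223 (.leaf 250 1779 (.cons 199 (.leaf 175 1404 (.cons 270 (.leaf 269 1962 (.leaf 294 1589 .nil)) .nil)) .nil)) .nil)) .nil))))) .nil)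
noncomputable def t37 : T := .cons 320 (.leaf 223 1791 (.cons 271 (.leaf 344 1983 (.cons 319 (.leaf 343 1982 (.cons 321 (.leaf 345 1988 (.cons 224 (.leaf 297 1796 (.cons 200 (.leaf 176 1406 (.cons 201 (.leaf 177 1413 (.leaf 225 1605 .nil)) .nil)) .nil)) .nil)) .nil)) .nil)) .nil)) (.cons 224 (.cons 199 (.leaf 223 1599 (.cons 200 (.leaf 175 1407 (.cons 176 (.leaf 271 1406 (.cons 177 (.leaf 201 1413 (.leaf 153 1221 .nil)) .nil)) .nil)) .nil)) (.cons 225 (.leaf 201 1605 (.cons 226 (.leaf 227 1786 (.cons 246 (.leaf 245 1769 (.leaf 249 1777 .nil)) .nil)) .nil)) (.cons 199 (.leaf 223 1599 (.cons 200 (.leaf 175 1407 (.cons 297 (.leaf 273 1604 (.leaf 321 1796 .nil)) .nil)) .nil)) .nil))) (.cons 320 (.cons 271 (.leaf 344 1983 (.cons 319 (.leaf 343 1982 (.cons 321 (.leaf 345 1988 (.cons 224 (.leaf 297 1796 (.cons 200 (.leaf 176 1406 (.cons 201 (.leaf 177 1413 (.leaf 225 1605 .nil)) .nil)) .nil))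 .nil)) .nil)) .nil)) (.cons 225 (.leaf 249 1797 (.cons 224 (.leaf 201 1605 (.cons 321 (.leaf 297 1796 (.leaf 345 1988 .nil)) .nil)) .nil)) (.cons 225 (.leaf 249 1797 (.cons 343 (.leaf 319 1982 (.cons 344 (.leaf 271 1983 (.leaf 367 2174 .nil)) .nil)) .nil)) (.cons 271 (.leaf 344 1983 (.cons 319 (.leaf 343 1982 (.cons 321 (.leaf 345 1988 (.cons 297 (.leaf 224 1796 (.cons 298 (.leaf 299 2362 (.leaf 318 2353 .nil)) .nil)) .nil)) .nil)) .nil)) .nil)))) (.cons 320 (.leaf 223 1791 (.cons 225 (.leaf 249 1797 (.cons 344 (.leaf 271 1983 (.cons 343 (.leaf 319 1982 (.leaf 367 2174 .nil)) .nil)) .nil)) .nil)) (.cons 224 (.cons 199 (.leaf 223 1599 (.cons 200 (.leaf 175 1407 (.cons 297 (.leaf 273 1604 (.leaf 321 1796 .nil)) .nil)) .nil)) (.cons 225 (.leaf 201 1605 (.cons 226 (.leaf 227 1786 (.cons 246 (.leaf 245 1769 (.leaf 249 1777 .nil)) .nil)) .nil)) .nil)) (.cons 320 (.leaf 223 1791 (.cons 271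 (.leaf 344 1983 (.cons 319 (.leaf 343 1982 (.cons 321 (.leaf 345 1988 (.cons 297 (.leaf 224 1796 (.cons 298 (.leaf 299 2362 (.leaf 318 2353 .nil)) .nil)) .nil)) .nil)) .nil)) .nil)) .nil)))))
noncomputable def t38 : T := .cons 226 (.leaf 202 1620 (.cons 323 (.leaf 251 1815 (.leaf 347 2007 .nil)) .nil)) (.cons 226 (.leaf 202 1620 (.cons 298 (.cons 201 (.leaf 225 1615 (.cons 321 (.leaf 297 1806 (.cons 322 (.leaf 345 1998 (.cons 346 (.leaf 251 2005 (.leaf 370 2197 .nil)) .nil)) .nil)) .nil)) (.cons 227 (.leaf 203 1621 (.cons 251 (.leaf 322 1813 (.cons 228 (.leaf 204 1629 (.cons 229 (.leaf 230 1810 (.cons 253 (.leaf 254 1808 (.cons 300 (.leaf 324 1820 (.cons 301 (.leaf 302 2195 (.cons 277 (.leaf 278 2193 (.cons 325 (.leaf 326 2384 (.leaf 252 1831 .nil)) .nil)) .nil)) .nil)) .nil)) .nil)) .nil)) .nil)) .nil)) (.cons 225 (.leaf 201 1615 (.cons 227 (.leaf 224 1786 (.leaf 203 1621 .nil))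 .nil)) .nil))) .nil)) (.cons 323 (.leaf 347 2007 (.cons 251 (.cons 322 (.leaf 346 2006 (.cons 227 (.leaf 298 1813 (.cons 324 (.leaf 300 1820 (.leaf 348 2012 .nil)) .nil)) .nil)) (.cons 228 (.leaf 252 1821 (.cons 227 (.leaf 204 1629 (.cons 203 (.leaf 298 1622 (.leaf 179 1430 .nil)) .nil)) .nil)) (.cons 252 (.leaf 228 1821 (.cons 253 (.leaf 254 2002 (.cons 229 (.leaf 230 1809 (.cons 277 (.leaf 278 2000 (.cons 324 (.leaf 348 2012 (.cons 301 (.leaf 300 1830 (.cons 302 (.leaf 326 1836 (.cons 322 (.leaf 346 2006 (.leaf 325 2385 .nil)) .nil)) .nil)) .nil)) .nil)) .nil)) .nil)) .nil)) .nil))) .nil)) (.cons 226 (.leaf 202 1620 (.cons 323 (.leaf 347 2007 (.leaf 298 1812 .nil)) .nil)) .nil)))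
noncomputable def t39 : T := .cons 274 (.leaf 273 1979 (.cons 250 (.leaf 249 1976 (.cons 299 t38 .nil)) .nil)) (.cons 249 (.cons 225 (.cons 201 (.leaf 177 1414 (.cons 296 (.leaf 224 1605 (.leaf 320 1797 .nil)) .nil)) (.cons 226 (.leaf 246 1777 (.cons 227 (.leaf 224 1786 (.leaf 228 1794 .nil)) .nil)) (.cons 177 (.leaf 201 1414 (.cons 246 (.leaf 226 1777 (.cons 221 (.leaf 222 1771 (.cons 245 (.leaf 220 1763 (.cons 269 (.leaf 268 1954 (.leaf 270 1962 .nil)) .nil)) .nil)) .nil)) .nil)) .nil))) (.cons 250 (.leaf 274 1976 (.cons 223 (.leaf 222 1779 (.cons 175 (.leaf 199 1404 (.cons 227 (.leaf 226 1785 (.cons 251 (.leaf 271 1978 (.leaf 224 1787 .nil)) .nil)) .nil)) .nil)) .nil)) (.cons 250 (.leaf 274 1976 (.cons 271 (.leaf 251 1978 (.leaf 270 1970 .nil)) .nil)) .nil))) (.cons 296 t37 (.cons 273 (.leaf 274 1979 (.cons 246 (.leaf 245 1960 (.cons 223 (.cons 296 (.leaf 320 1791 (.cons 199 (.leaf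 175 1404 (.leaf 224 1599 .nil)) .nil)) (.cons 296 (.leaf 320 1791 (.cons 224 (.cons 225 (.leaf 201 1605 (.leaf 226 1778 .nil)) (.cons 297 (.leaf 200 1604 (.leaf 321 1796 .nil)) .nil)) .nil)) (.cons 199 (.leaf 175 1404 (.cons 271 (.cons 198 (.leaf 174 1399 (.cons 270 (.leaf 294 1590 (.cons 269 (.leaf 268 1953 (.cons 293 (.leaf 292 2146 (.leaf 222 1582 .nil)) .nil)) .nil)) .nil)) (.cons 200 (.leaf 176 1405 (.cons 224 (.leaf 297 1604 (.cons 201 (.leaf 177 1413 (.cons 202 (.leaf 222 1586 (.leaf 203 1594 .nil)) .nil)) .nil)) .nil)) (.cons 174 (.leaf 198 1399 (.cons 200 (.leaf 176 1405 (.cons 224 (.leaf 297 1604 (.cons 201 (.leaf 177 1413 (.cons 202 (.leaf 203 1594 (.cons 226 (.leaf 225 1778 (.leaf 227 1592 .nil)) .nil)) .nil)) .nil)) .nil)) .nil)) .nil))) .nil)) (.cons 199 (.leaf 175 1404 (.cons 296 (.leaf 271 1596 (.leaf 320 1791 .nil)) .nil)) .nil)))) .nil)) .nil)) (.cons 273 (.leaf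 274 1979 (.cons 246 (.leaf 245 1960 (.cons 249 (.cons 221 (.leaf 222 1771 (.cons 270 (.leaf 269 1962 (.cons 271 (.leaf 250 1969 (.cons 293 (.leaf 294 2154 (.cons 297 (.leaf 298 2160 (.cons 321 (.leaf 345 1991 (.cons 320 (.leaf 344 1990 (.cons 296 (.leaf 223 1791 (.leaf 225 1797 .nil)) .nil)) .nil)) .nil)) .nil)) .nil)) .nil)) .nil)) (.cons 225 (.leaf 226 1777 (.cons 201 (.leaf 177 1414 (.leaf 296 1606 .nil)) .nil)) (.cons 221 (.leaf 222 1771 (.cons 270 (.leaf 269 1962 (.cons 271 (.leaf 250 1969 (.cons 294 (.leaf 293 2154 (.cons 223 (.leaf 199 1590 (.leaf 318 1781 .nil)) .nil)) .nil)) .nil)) .nil)) .nil))) .nil)) .nil)) (.cons 273 (.leaf 274 1979 (.cons 246 t36 .nil)) (.cons 273 (.leaf 274 1979 (.cons 246 (.leaf 245 1960 (.cons 249 t35 .nil)) .nil)) .nil))))))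
noncomputable def t40 : T := .cons 201 (.leaf 225 1605 (.cons 223 (.leaf 199 1599 (.cons 320 (.leaf 247 1791 (.cons 321 (.leaf 297 1796 (.leaf 345 1988 .nil)) .nil)) .nil)) .nil)) (.cons 201 (.leaf 225 1605 (.cons 223 (.leaf 199 1599 (.cons 247 (.leaf 320 1791 (.cons 245 (.leaf 246 1960 (.cons 295 (.leaf 319 1790 (.cons 294 (.leaf 293 2153 (.cons 271 (.leaf 318 1782 (.cons 222 (.leaf 198 1591 (.cons 221 (.leaf 220 1760 (.leaf 244 1762 .nil)) .nil)) .nil)) .nil)) .nil)) .nil)) .nil)) .nil)) .nil)) (.cons 201 (.leaf 225 1605 (.cons 295 (.leaf 319 1790 (.cons 294 (.leaf 293 2153 (.cons 297 (.leaf 321 1796 (.cons 270 (.leaf 269 2155 (.cons 271 (.leaf 298 2160 (.cons 246 (.leaf 245 1963 (.cons 198 (.leaf 222 1588 (.cons 318 (.leaf 317 2346 (.cons 342 (.leaf 366 2165 (.leaf 247 1973 .nil)) .nil)) .nil)) .nil)) .nil)) .nil)) .nil)) .nil)) .nil)) .nil)) (.cons 199 (.leaf 223 1599 (.cons 295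 (.leaf 319 1790 (.cons 294 (.leaf 293 2153 (.cons 297 (.leaf 321 1796 (.cons 270 (.leaf 269 2155 (.cons 298 (.leaf 271 2160 (.cons 299 (.leaf 300 2179 (.cons 323 (.leaf 322 2360 (.leaf 324 2368 .nil)) .nil)) .nil)) .nil)) .nil)) .nil)) .nil)) .nil)) .nil)))
noncomputable def t41 : T := .cons 296 (.cons 201 (.leaf 225 1605 (.cons 223 (.leaf 199 1599 (.cons 320 (.leaf 247 1791 (.cons 321 (.leaf 297 1796 (.leaf 345 1988 .nil)) .nil)) .nil)) .nil)) (.cons 201 (.leaf 225 1605 (.cons 223 (.leaf 199 1599 (.cons 247 (.leaf 320 1791 (.cons 245 (.leaf 246 1960 (.cons 295 (.leaf 319 1790 (.cons 294 (.leaf 293 2153 (.cons 271 (.leaf 200 1597 (.leaf 318 1782 .nil)) .nil)) .nil)) .nil)) .nil)) .nil)) .nil)) (.cons 201 (.leaf 225 1605 (.cons 295 (.leaf 319 1790 (.cons 294 (.leaf 293 2153 (.cons 297 (.leaf 200 1604 (.leaf 321 1796 .nil)) .nil)) .nil)) .nil)) (.cons 199 (.leaf 223 1599 (.cons 295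 (.leaf 319 1790 (.cons 294 (.leaf 293 2153 (.cons 297 (.leaf 200 1604 (.leaf 321 1796 .nil)) .nil)) .nil)) .nil)) .nil)))) (.cons 296 t40 (.cons 200 (.cons 175 (.leaf 199 1407 (.cons 176 (.leaf 151 1215 (.cons 177 (.leaf 201 1413 (.leaf 153 1221 .nil)) .nil)) .nil)) (.cons 271 (.leaf 295 1598 (.cons 176 (.leaf 247 1406 (.cons 177 (.leaf 201 1413 (.leaf 153 1221 .nil)) .nil)) .nil)) (.cons 175 (.leaf 199 1407 (.cons 176 (.leaf 151 1215 (.cons 271 (.leaf 295 1598 (.leaf 247 1406 .nil)) .nil)) .nil)) (.cons 199 (.leaf 175 1407 (.cons 201 (.leaf 177 1413 (.cons 296 (.leaf 223 1599 (.leaf 225 1605 .nil)) .nil)) .nil)) .nil)))) (.cons 200 (.leaf 297 1604 (.cons 271 (.leaf 295 1598 (.cons 176 (.leaf 247 1406 (.cons 177 (.leaf 201 1413 (.leaf 153 1221 .nil)) .nil)) .nil)) .nil)) (.cons 200 (.leaf 297 1604 (.cons 199 (.leaf 175 1407 (.cons 201 (.leaf 177 1413 (.cons 296 (.leaf 223 1599 (.leaf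 225 1605 .nil)) .nil)) .nil)) .nil)) (.cons 200 (.leaf 297 1604 (.cons 271 (.leaf 295 1598 (.cons 176 (.leaf 247 1406 (.cons 151 (.leaf 175 1215 (.cons 152 (.leaf 127 1023 (.cons 153 (.leaf 177 1221 (.leaf 129 1029 .nil)) .nil)) .nil)) .nil)) .nil)) .nil)) .nil)))))
noncomputable def t42 : T := .cons 274 (.leaf 247 1979 (.cons 295 (.leaf 296 2170 (.cons 271 (.leaf 294 2162 (.cons 299 (.leaf 300 2176 (.leaf 298 2168 .nil)) .nil)) .nil)) .nil)) (.cons 224 t41 (.cons 274 (.cons 295 (.leaf 296 2170 (.cons 271 (.leaf 294 2162 (.cons 299 (.leaf 300 2176 (.leaf 298 2168 .nil)) .nil)) .nil)) (.cons 295 (.leaf 296 2170 (.cons 251 (.leaf 252 1985 (.cons 271 (.leaf 250 1977 (.leaf 294 2162 .nil)) .nil)) .nil)) (.cons 299 (.leaf 300 2176 (.cons 251 (.leaf 252 1985 (.cons 271 (.leaf 250 1977 (.leaf 298 2168 .nil)) .nil)) .nil)) (.cons 296 (.leaf 295 2170 (.cons 299 (.leaf 300 2176 (.cons 251 (.leaf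 252 1985 (.cons 323 (.cons 250 (.leaf 226 1815 (.leaf 347 2007 .nil)) (.cons 322 (.leaf 346 2006 (.cons 324 (.leaf 348 2012 (.cons 297 (.leaf 298 2368 (.leaf 321 2371 .nil)) .nil)) .nil)) .nil)) .nil)) .nil)) .nil)) .nil)))) (.cons 274 (.leaf 247 1979 (.cons 299 (.leaf 300 2176 (.cons 251 (.leaf 252 1985 (.cons 271 (.leaf 250 1977 (.leaf 298 2168 .nil)) .nil)) .nil)) .nil)) (.cons 274 (.leaf 247 1979 (.cons 296 (.leaf 295 2170 (.cons 299 (.leaf 300 2176 (.cons 251 (.leaf 252 1985 (.cons 323 (.cons 250 (.leaf 226 1815 (.leaf 347 2007 .nil)) (.cons 322 (.leaf 346 2006 (.cons 324 (.leaf 348 2012 (.cons 297 (.leaf 298 2368 (.leaf 321 2371 .nil)) .nil)) .nil)) .nil)) .nil)) .nil)) .nil)) .nil)) (.cons 274 (.leaf 247 1979 (.cons 251 (.leaf 252 1985 (.cons 271 (.leaf 250 1977 (.cons 295 (.leaf 296 2170 (.leaf 294 2162 .nil)) .nil)) .nil)) .nil)) .nil)))))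
noncomputable def t43 : T := .cons 274 (.leaf 295 2170 (.cons 299 (.leaf 300 2176 (.cons 224 (.cons 199 (.leaf 223 1599 (.cons 321 (.leaf 297 1796 (.cons 201 (.leaf 225 1605 (.cons 320 (.leaf 345 1988 (.cons 319 (.leaf 343 1982 (.cons 322 (.leaf 298 2361 (.cons 200 (.leaf 175 1407 (.leaf 177 1413 .nil)) .nil)) .nil)) .nil)) .nil)) .nil)) .nil)) (.cons 225 (.leaf 201 1605 (.cons 320 (.leaf 249 1797 (.cons 321 (.leaf 345 1988 (.cons 251 (.leaf 252 1985 (.cons 223 (.leaf 199 1599 (.cons 226 (.leaf 250 1784 (.cons 202 (.leaf 227 1623 (.leaf 203 1593 .nil)) .nil)) .nil)) .nil)) .nil)) .nil)) .nil)) (.cons 297 (.leaf 200 1604 (.leaf 321 1796 .nil)) (.cons 225 (.leaf 201 1605 (.cons 199 (.leaf 223 1599 (.cons 200 (.leaf 175 1407 (.leaf 297 1604 .nil)) .nil)) .nil)) .nil)))) .nil)) .nil)) (.cons 224 (.cons 199 (.leaf 223 1599 (.cons 175 (.leaf 200 1407 (.cons 225 (.leaf 201 1605 (.cons 320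 (.leaf 249 1797 (.cons 343 (.leaf 319 1982 (.cons 344 (.leaf 367 2174 (.cons 321 (.leaf 297 1796 (.leaf 345 1988 .nil)) .nil)) .nil)) .nil)) .nil)) .nil)) .nil)) (.cons 199 (.leaf 223 1599 (.cons 175 (.leaf 200 1407 (.cons 225 (.leaf 201 1605 (.cons 320 (.leaf 249 1797 (.cons 343 (.leaf 319 1982 (.cons 344 (.leaf 367 2174 (.cons 345 (.leaf 321 1988 (.leaf 369 2180 .nil)) .nil)) .nil)) .nil)) .nil)) .nil)) .nil)) (.cons 321 (.leaf 297 1796 (.cons 199 (.leaf 223 1599 (.cons 320 (.leaf 345 1988 (.cons 343 (.leaf 319 1982 (.cons 344 (.leaf 249 1989 (.leaf 367 2174 .nil)) .nil)) .nil)) .nil)) .nil)) (.cons 200 (.leaf 297 1604 (.cons 176 (.leaf 249 1412 (.cons 151 (.leaf 175 1215 (.cons 177 (.leaf 201 1413 (.leaf 153 1221 .nil)) .nil)) .nil)) .nil)) (.cons 297 (.leaf 200 1604 (.leaf 321 1796 .nil)) .nil))))) (.cons 274 (.leaf 295 2170 (.cons 299 (.leaf 300 2176 (.cons 251 (.leaf 252 1985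 (.cons 227 (.cons 202 (.leaf 226 1623 (.cons 228 (.leaf 204 1629 (.cons 249 (.leaf 250 1793 (.cons 225 (.leaf 201 1606 (.leaf 320 1797 .nil)) .nil)) .nil)) .nil)) (.cons 298 (.leaf 203 1622 (.leaf 322 1814 .nil)) .nil)) .nil)) .nil)) .nil)) (.cons 295 (.leaf 274 2170 (.cons 224 (.leaf 319 1790 (.cons 199 (.leaf 223 1599 (.cons 200 (.leaf 175 1407 (.leaf 297 1604 .nil)) .nil)) .nil)) .nil)) .nil)))
noncomputable def t44 : T := .cons 321 (.leaf 345 1991 (.cons 249 (.leaf 224 1799 (.cons 226 (.leaf 250 1805 (.cons 225 (.leaf 202 1613 (.cons 201 (.leaf 177 1414 (.leaf 296 1606 .nil)) .nil)) .nil)) .nil)) .nil)) (.cons 321 (.leaf 345 1991 (.cons 249 (.cons 226 (.leaf 250 1805 (.cons 225 (.leaf 202 1613 (.cons 201 (.leaf 177 1414 (.leaf 296 1606 .nil)) .nil)) .nil)) (.cons 250 (.leaf 226 1805 (.cons 251 (.leaf 252 1986 (.cons 227 (.leaf 228 1793 (.cons 320 (.leaf 344 1990 (.cons 322 (.leaf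 346 1996 (.cons 298 (.leaf 299 1814 (.cons 319 (.leaf 318 2353 (.cons 343 (.leaf 296 1982 (.leaf 342 2546 .nil)) .nil)) .nil)) .nil)) .nil)) .nil)) .nil)) .nil)) (.cons 226 (.leaf 250 1805 (.cons 225 (.leaf 202 1613 (.cons 322 (.leaf 298 1804 (.leaf 346 1996 .nil)) .nil)) .nil)) (.cons 320 (.leaf 344 1990 (.cons 322 (.leaf 346 1996 (.cons 298 (.leaf 225 1804 (.cons 299 (.leaf 300 2370 (.leaf 319 2361 .nil)) .nil)) .nil)) .nil)) .nil)))) .nil)) (.cons 224 (.leaf 200 1604 (.cons 296 (.cons 201 (.leaf 225 1605 (.cons 319 (.leaf 295 1790 (.cons 320 (.leaf 343 1982 (.cons 344 (.leaf 249 1989 (.leaf 368 2181 .nil)) .nil)) .nil)) .nil)) (.cons 199 (.leaf 223 1599 (.cons 319 (.leaf 295 1790 (.cons 320 (.leaf 343 1982 (.cons 344 (.leaf 249 1989 (.leaf 368 2181 .nil)) .nil)) .nil)) .nil)) (.cons 223 (.leaf 199 1599 (.cons 225 (.leaf 201 1605 (.cons 295 (.leaf 319 1790 (.cons 294 (.leaf 293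 2153 (.cons 270 (.leaf 269 2155 (.cons 318 (.leaf 317 2346 (.cons 246 (.leaf 247 1781 (.cons 245 (.leaf 222 1770 (.leaf 221 1775 .nil)) .nil)) .nil)) .nil)) .nil)) .nil)) .nil)) .nil)) (.cons 225 (.leaf 201 1605 (.cons 249 (.leaf 320 1797 (.cons 223 (.leaf 199 1599 (.cons 222 (.leaf 221 1768 (.leaf 250 1776 .nil)) .nil)) .nil)) .nil)) .nil)))) .nil)) (.cons 321 (.leaf 345 1991 (.cons 224 (.leaf 200 1604 (.leaf 249 1799 .nil)) .nil)) (.cons 224 (.leaf 200 1604 (.cons 321 (.leaf 296 1796 (.leaf 345 1991 .nil)) .nil)) .nil))))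
noncomputable def t45 : T := .cons 274 (.leaf 247 1979 (.cons 296 (.leaf 295 2170 (.cons 299 (.leaf 300 2176 (.cons 224 (.cons 199 (.leaf 223 1599 (.cons 321 (.leaf 297 1796 (.cons 201 (.leaf 225 1605 (.cons 320 (.leaf 345 1988 (.cons 319 (.leaf 343 1982 (.cons 322 (.leaf 298 2361 (.cons 200 (.leaf 175 1407 (.leaf 177 1413 .nil)) .nil)) .nil)) .nil)) .nil)) .nil)) .nil)) (.cons 225 (.leaf 201 1605 (.cons 320 (.leaf 249 1797 (.cons 321 (.leaf 345 1988 (.cons 251 (.leaf 252 1985 (.cons 223 (.leaf 199 1599 (.cons 226 (.leaf 250 1784 (.cons 202 (.leaf 227 1623 (.leaf 203 1593 .nil)) .nil)) .nil)) .nil)) .nil)) .nil)) .nil)) (.cons 297 (.leaf 200 1604 (.leaf 321 1796 .nil)) (.cons 225 (.leaf 201 1605 (.cons 199 (.leaf 223 1599 (.cons 200 (.leaf 175 1407 (.leaf 297 1604 .nil)) .nil)) .nil)) .nil)))) .nil)) .nil)) .nil)) (.cons 297 t44 (.cons 296 t43 (.cons 274 (.leaf 247 1979 (.cons 251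 (.leaf 252 1985 (.cons 299 (.leaf 300 2176 (.cons 226 (.cons 250 (.leaf 202 1620 (.leaf 323 1815 .nil)) (.cons 227 (.leaf 202 1623 (.cons 228 (.leaf 204 1629 (.cons 203 (.leaf 298 1622 (.cons 225 (.leaf 249 1794 (.cons 200 (.leaf 201 1603 (.cons 224 (.leaf 297 1604 (.leaf 199 1595 .nil)) .nil)) .nil)) .nil)) .nil)) .nil)) (.cons 323 (.leaf 250 1815 (.cons 322 (.leaf 346 2006 (.cons 227 (.leaf 298 1814 (.cons 228 (.leaf 204 1629 (.cons 225 (.leaf 249 1794 (.cons 200 (.leaf 201 1603 (.cons 224 (.leaf 297 1604 (.leaf 199 1595 .nil)) .nil)) .nil)) .nil)) .nil)) .nil)) .nil)) .nil))) .nil)) .nil)) .nil)) (.cons 274 (.leaf 247 1979 (.cons 296 (.leaf 295 2170 (.cons 251 (.leaf 252 1985 (.cons 299 (.leaf 300 2176 (.cons 227 (.cons 298 (.leaf 203 1622 (.leaf 322 1814 .nil)) (.cons 202 (.leaf 226 1623 (.cons 228 (.leaf 204 1629 (.cons 249 (.leaf 250 1793 (.cons 225 (.leaf 201 1606 (.leaf 320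 1797 .nil)) .nil)) .nil)) .nil)) .nil)) .nil)) .nil)) .nil)) .nil)) (.cons 274 (.leaf 247 1979 (.cons 296 (.leaf 295 2170 (.cons 299 (.leaf 300 2176 (.cons 251 (.leaf 252 1985 (.cons 224 (.cons 297 (.leaf 200 1604 (.leaf 321 1796 .nil)) (.cons 201 (.leaf 225 1605 (.cons 199 (.leaf 223 1599 (.cons 200 (.leaf 175 1407 (.leaf 177 1413 .nil)) .nil)) .nil)) (.cons 199 (.leaf 223 1599 (.cons 321 (.leaf 297 1796 (.cons 320 (.leaf 345 1988 (.cons 343 (.leaf 319 1982 (.cons 344 (.leaf 367 2174 (.cons 323 (.leaf 322 2554 (.cons 250 (.leaf 226 1815 (.leaf 347 2007 .nil)) .nil)) .nil)) .nil)) .nil)) .nil)) .nil)) .nil))) .nil)) .nil)) .nil)) .nil)) (.cons 274 (.leaf 247 1979 (.cons 296 (.leaf 295 2170 (.cons 251 (.leaf 252 1985 (.cons 224 (.cons 199 (.leaf 223 1599 (.cons 200 (.leaf 175 1407 (.leaf 297 1604 .nil)) .nil)) (.cons 199 (.leaf 223 1599 (.cons 200 (.leaf 175 1407 (.cons 201 (.leaf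 177 1413 (.leaf 225 1605 .nil)) .nil)) .nil)) (.cons 199 (.leaf 223 1599 (.cons 225 (.leaf 201 1605 (.cons 249 (.leaf 320 1797 (.cons 297 (.leaf 321 1796 (.cons 226 (.leaf 202 1613 (.cons 227 (.leaf 228 1794 (.cons 203 (.leaf 298 1622 (.leaf 204 1601 .nil)) .nil)) .nil)) .nil)) .nil)) .nil)) .nil)) (.cons 297 (.leaf 200 1604 (.leaf 321 1796 .nil)) .nil)))) .nil)) .nil)) .nil)) (.cons 274 (.leaf 247 1979 (.cons 296 (.leaf 295 2170 (.cons 299 (.leaf 300 2176 (.cons 224 t0 .nil)) .nil)) .nil)) (.cons 274 (.leaf 247 1979 (.cons 296 (.leaf 295 2170 (.cons 299 (.leaf 300 2176 (.cons 251 (.leaf 252 1985 (.cons 323 (.cons 250 (.leaf 226 1815 (.leaf 347 2007 .nil)) (.cons 322 (.leaf 346 2006 (.cons 324 (.leaf 348 2012 (.cons 297 (.leaf 298 2368 (.leaf 321 2371 .nil)) .nil)) .nil)) .nil)) .nil)) .nil)) .nil)) .nil)) .nil))))))))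
noncomputable def t46 : T := .cons 175 (.leaf 199 1407 (.cons 201 (.leaf 177 1413 (.cons 295 (.leaf 271 1598 (.cons 296 (.leaf 225 1605 (.leaf 319 1790 .nil)) .nil)) .nil)) .nil)) (.cons 201 (.leaf 177 1413 (.cons 225 (.leaf 296 1605 (.cons 271 (.leaf 295 1598 (.cons 176 (.leaf 247 1406 (.cons 151 (.leaf 175 1215 (.cons 152 (.leaf 127 1023 (.leaf 128 1028 .nil)) .nil)) .nil)) .nil)) .nil)) .nil)) (.cons 199 (.leaf 175 1407 (.cons 223 (.leaf 296 1599 (.cons 271 (.leaf 295 1598 (.cons 176 (.leaf 247 1405 (.cons 152 (.leaf 128 1022 (.cons 153 (.leaf 177 1221 (.leaf 129 1029 .nil)) .nil)) .nil)) .nil)) .nil)) .nil)) (.cons 199 (.leaf 175 1407 (.cons 177 (.leaf 201 1413 (.cons 153 (.leaf 176 1221 (.cons 296 (.leaf 223 1599 (.cons 297 (.leaf 273 1604 (.leaf 321 1796 .nil)) .nil)) .nil)) .nil)) .nil)) (.cons 201 (.leaf 177 1413 (.cons 225 (.leaf 296 1605 (.cons 271 (.leaf 295 1598 (.cons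 247 (.leaf 176 1406 (.cons 226 (.leaf 227 1786 (.cons 246 (.leaf 245 1769 (.leaf 223 1778 .nil)) .nil)) .nil)) .nil)) .nil)) .nil)) (.cons 199 (.leaf 175 1407 (.cons 223 (.leaf 296 1599 (.cons 271 (.leaf 295 1598 (.cons 247 (.leaf 176 1405 (.cons 198 (.leaf 174 1399 (.cons 197 (.leaf 196 1568 (.leaf 225 1576 .nil)) .nil)) .nil)) .nil)) .nil)) .nil)) (.cons 271 (.leaf 295 1598 (.cons 175 (.leaf 199 1407 (.cons 176 (.leaf 151 1215 (.leaf 247 1406 .nil)) .nil)) .nil)) .nil))))))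
noncomputable def t47 : T := .cons 199 (.leaf 223 1599 (.cons 175 (.leaf 200 1407 (.cons 321 (.leaf 297 1796 (.cons 320 (.leaf 345 1988 (.cons 249 (.leaf 225 1797 (.cons 343 (.leaf 319 1982 (.cons 344 (.leaf 273 1989 (.leaf 367 2174 .nil)) .nil)) .nil)) .nil)) .nil)) .nil)) .nil)) (.cons 297 (.leaf 321 1796 (.cons 200 (.leaf 273 1604 (.cons 271 (.leaf 295 1598 (.cons 176 (.leaf 247 1406 (.cons 175 (.leaf 199 1407 (.leaf 151 1215 .nil)) .nil)) .nil)) .nil)) .nil)) (.cons 223 (.leaf 199 1599 (.cons 247 (.leaf 320 1791 (.cons 295 (.leaf 319 1790 (.cons 271 (.leaf 200 1597 (.cons 222 (.leaf 198 1591 (.cons 221 (.leaf 220 1760 (.leaf 249 1768 .nil)) .nil)) .nil)) .nil)) .nil)) .nil)) (.cons 297 (.leaf 321 1796 (.cons 200 (.leaf 273 1604 (.cons 271 (.leaf 295 1598 (.cons 176 (.leaf 247 1406 (.cons 270 (.leaf 269 2152 (.cons 151 (.leaf 175 1215 (.cons 152 (.leaf 127 1023 (.cons 153 (.leaf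 177 1221 (.leaf 129 1029 .nil)) .nil)) .nil)) .nil)) .nil)) .nil)) .nil)) .nil)) (.cons 199 (.leaf 223 1599 (.cons 295 (.leaf 319 1790 (.cons 321 (.leaf 297 1796 (.cons 320 (.leaf 345 1988 (.cons 294 (.leaf 293 2344 (.cons 249 (.leaf 225 1797 (.cons 344 (.leaf 273 1989 (.cons 271 (.leaf 247 1983 (.leaf 368 2175 .nil)) .nil)) .nil)) .nil)) .nil)) .nil)) .nil)) .nil)) .nil))))
noncomputable def t48 : T := .cons 199 (.leaf 175 1407 (.cons 201 (.leaf 177 1413 (.cons 271 (.leaf 295 1598 (.cons 273 (.leaf 297 1604 (.cons 198 (.cons 197 (.leaf 225 1576 (.cons 173 (.leaf 172 1379 (.leaf 174 1387 .nil)) .nil)) (.cons 176 (.leaf 247 1406 (.leaf 249 1412 .nil)) .nil)) .nil)) .nil)) .nil)) .nil)) (.cons 273 (.leaf 297 1604 (.cons 176 (.leaf 249 1412 (.cons 177 (.leaf 201 1413 (.leaf 153 1221 .nil)) .nil)) .nil)) (.cons 271 (.leaf 295 1598 (.cons 175 (.leaf 199 1407 (.cons 176 (.leaf 151 1215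 (.leaf 247 1406 .nil)) .nil)) .nil)) (.cons 199 (.leaf 175 1407 (.cons 201 (.leaf 177 1413 (.cons 271 (.leaf 295 1598 (.cons 273 (.leaf 297 1604 (.cons 198 (.cons 225 (.leaf 197 1576 (.leaf 226 1584 .nil)) (.cons 222 (.leaf 221 1578 (.cons 173 (.leaf 174 1387 (.cons 197 (.leaf 172 1379 (.cons 223 (.leaf 196 1568 (.leaf 202 1586 .nil)) .nil)) .nil)) .nil)) (.cons 226 (.leaf 225 1584 (.cons 173 (.leaf 174 1387 (.cons 202 (.leaf 227 1592 (.cons 222 (.leaf 221 1578 (.leaf 223 1586 .nil)) .nil)) .nil)) .nil)) .nil))) .nil)) .nil)) .nil)) .nil)) .nil)))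
noncomputable def t49 : T := .cons 225 (.leaf 201 1605 (.cons 297 (.leaf 321 1796 (.cons 320 (.leaf 249 1797 (.cons 247 (.leaf 223 1791 (.cons 319 (.leaf 295 1790 (.leaf 343 1982 .nil)) .nil)) .nil)) .nil)) .nil)) (.cons 225 (.leaf 201 1605 (.cons 320 (.leaf 249 1797 (.cons 321 (.leaf 297 1796 (.leaf 345 1988 .nil)) .nil)) .nil)) (.cons 223 (.leaf 199 1599 (.cons 320 (.leaf 247 1791 (.cons 321 (.leaf 297 1796 (.leaf 345 1988 .nil)) .nil)) .nil)) (.cons 223 (.leaf 199 1599 (.cons 225 (.leaf 201 1605 (.cons 295 (.leaf 319 1790 (.cons 222 (.cons 197 (.leaf 198 1579 (.cons 196 (.leaf 221 1571 (.cons 246 (.leaf 245 1770 (.cons 226 (.leaf 247 1778 (.cons 249 (.leaf 320 1797 (.leaf 250 1776 .nil)) .nil)) .nil)) .nil)) .nil)) (.cons 247 (.leaf 320 1791 (.cons 246 (.leaf 245 1769 (.leaf 226 1778 .nil)) .nil)) (.cons 197 (.leaf 198 1579 (.cons 221 (.leaf 249 1768 (.leaf 196 1571 .nil)) .nil))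 .nil))) .nil)) .nil)) .nil)) (.cons 223 (.leaf 199 1599 (.cons 225 (.leaf 201 1605 (.cons 295 (.leaf 319 1790 (.cons 222 (.cons 197 (.leaf 198 1579 (.cons 196 (.leaf 221 1571 (.cons 246 (.leaf 245 1770 (.cons 226 (.leaf 247 1778 (.cons 250 (.leaf 249 1776 (.leaf 251 1784 .nil)) .nil)) .nil)) .nil)) .nil)) (.cons 246 (.leaf 245 1770 (.cons 197 (.leaf 198 1579 (.cons 196 (.leaf 221 1571 (.cons 226 (.leaf 247 1778 (.cons 251 (.leaf 250 1784 (.cons 202 (.leaf 203 1593 (.cons 227 (.leaf 299 1623 (.leaf 252 1792 .nil)) .nil)) .nil)) .nil)) .nil)) .nil)) .nil)) (.cons 250 (.leaf 249 1776 (.cons 197 (.leaf 198 1579 (.cons 226 (.leaf 251 1784 (.cons 246 (.leaf 245 1770 (.leaf 247 1778 .nil)) .nil)) .nil)) .nil)) (.cons 249 (.leaf 221 1768 (.leaf 250 1776 .nil)) (.cons 221 (.leaf 249 1768 (.cons 197 (.leaf 196 1571 (.leaf 198 1579 .nil)) .nil)) .nil))))) .nil)) .nil)) .nil)) .nil))))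
noncomputable def t50 : T := .cons 200 (.cons 175 (.leaf 199 1407 (.cons 176 (.leaf 151 1215 (.cons 273 (.leaf 297 1604 (.leaf 249 1412 .nil)) .nil)) .nil)) (.cons 177 (.leaf 201 1413 (.cons 176 (.leaf 153 1221 (.cons 271 (.leaf 295 1598 (.leaf 247 1406 .nil)) .nil)) .nil)) (.cons 175 (.leaf 199 1407 (.cons 201 (.leaf 177 1413 (.cons 295 (.leaf 271 1598 (.cons 296 (.leaf 225 1605 (.leaf 319 1790 .nil)) .nil)) .nil)) .nil)) .nil))) (.cons 296 t49 (.cons 200 t48 (.cons 200 (.cons 175 (.leaf 199 1407 (.cons 177 (.leaf 201 1413 (.cons 176 (.leaf 151 1215 (.leaf 153 1221 .nil)) .nil)) .nil)) (.cons 271 (.leaf 295 1598 (.cons 176 (.leaf 247 1406 (.cons 273 (.leaf 297 1604 (.leaf 249 1412 .nil)) .nil)) .nil)) (.cons 175 (.leaf 199 1407 (.cons 177 (.leaf 201 1413 (.cons 295 (.leaf 271 1598 (.cons 296 (.leaf 319 1790 (.cons 297 (.leaf 273 1604 (.leaf 321 1796 .nil)) .nil)) .nil)) .nil)) .nil))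 .nil))) (.cons 296 (.cons 295 (.leaf 319 1790 (.cons 200 (.leaf 271 1598 (.cons 201 (.leaf 177 1413 (.leaf 225 1605 .nil)) .nil)) .nil)) (.cons 295 (.leaf 319 1790 (.cons 200 (.leaf 271 1598 (.cons 297 (.leaf 273 1604 (.leaf 321 1796 .nil)) .nil)) .nil)) (.cons 225 (.leaf 201 1605 (.cons 297 (.leaf 321 1796 (.cons 320 (.leaf 249 1797 (.cons 247 (.leaf 223 1791 (.cons 344 (.leaf 271 1983 (.cons 343 (.leaf 319 1982 (.leaf 367 2174 .nil)) .nil)) .nil)) .nil)) .nil)) .nil)) (.cons 225 (.leaf 201 1605 (.cons 320 (.leaf 249 1797 (.cons 247 (.leaf 223 1791 (.cons 245 (.leaf 246 1769 (.cons 271 (.leaf 344 1983 (.cons 200 (.leaf 295 1598 (.leaf 176 1406 .nil)) .nil)) .nil)) .nil)) .nil)) .nil)) (.cons 225 (.leaf 201 1605 (.cons 320 (.leaf 249 1797 (.cons 321 (.leaf 297 1796 (.leaf 345 1988 .nil)) .nil)) .nil)) .nil))))) (.cons 200 (.cons 175 (.leaf 199 1407 (.cons 176 (.leaf 151 1215 (.cons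 273 (.leaf 297 1604 (.leaf 249 1412 .nil)) .nil)) .nil)) (.cons 201 (.leaf 177 1413 (.cons 225 (.leaf 296 1605 (.cons 273 (.leaf 297 1604 (.cons 176 (.leaf 249 1412 (.cons 128 (.leaf 152 1028 (.cons 151 (.leaf 175 1215 (.cons 247 (.leaf 271 1406 (.cons 246 (.leaf 245 1960 (.cons 226 (.leaf 227 1786 (.leaf 223 1778 .nil)) .nil)) .nil)) .nil)) .nil)) .nil)) .nil)) .nil)) .nil)) (.cons 175 (.leaf 199 1407 (.cons 176 (.leaf 151 1215 (.cons 177 (.leaf 201 1413 (.leaf 153 1221 .nil)) .nil)) .nil)) (.cons 201 (.leaf 177 1413 (.cons 225 (.leaf 296 1605 (.cons 273 (.leaf 297 1604 (.cons 176 (.leaf 249 1412 (.cons 128 (.leaf 152 1028 (.cons 247 (.leaf 271 1406 (.cons 246 (.leaf 245 1960 (.cons 226 (.leaf 227 1786 (.leaf 223 1778 .nil)) .nil)) .nil)) .nil)) .nil)) .nil)) .nil)) .nil)) (.cons 175 (.leaf 199 1407 (.cons 201 (.leaf 177 1413 (.cons 296 (.leaf 225 1605 (.cons 297 (.leaf 273 1604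 (.leaf 321 1796 .nil)) .nil)) .nil)) .nil)) .nil))))) (.cons 200 (.cons 175 (.leaf 199 1407 (.cons 201 (.leaf 177 1413 (.cons 295 (.leaf 271 1598 (.cons 296 (.leaf 225 1605 (.leaf 319 1790 .nil)) .nil)) .nil)) .nil)) (.cons 177 (.leaf 201 1413 (.cons 176 (.leaf 153 1221 (.cons 271 (.leaf 295 1598 (.leaf 247 1406 .nil)) .nil)) .nil)) (.cons 175 (.leaf 199 1407 (.cons 176 (.leaf 151 1215 (.cons 271 (.leaf 295 1598 (.leaf 247 1406 .nil)) .nil)) .nil)) (.cons 201 (.leaf 177 1413 (.cons 175 (.leaf 199 1407 (.cons 176 (.leaf 151 1215 (.cons 173 (.leaf 174 1384 (.cons 202 (.leaf 203 1403 (.cons 225 (.leaf 296 1605 (.cons 249 (.leaf 273 1412 (.leaf 152 1220 .nil)) .nil)) .nil)) .nil)) .nil)) .nil)) .nil)) .nil)))) (.cons 296 t47 (.cons 200 t46 (.cons 200 (.cons 177 (.leaf 201 1413 (.cons 176 (.leaf 153 1221 (.cons 273 (.leaf 297 1604 (.leaf 249 1412 .nil)) .nil)) .nil)) (.cons 175 (.leaf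 199 1407 (.cons 151 (.leaf 176 1215 (.cons 295 (.leaf 271 1598 (.cons 296 (.leaf 319 1790 (.cons 297 (.leaf 273 1604 (.leaf 321 1796 .nil)) .nil)) .nil)) .nil)) .nil)) (.cons 175 (.leaf 199 1407 (.cons 201 (.leaf 177 1413 (.cons 295 (.leaf 271 1598 (.cons 296 (.leaf 225 1605 (.leaf 319 1790 .nil)) .nil)) .nil)) .nil)) .nil))) .nil)))))))))
noncomputable def t51 : T := .cons 270 (.leaf 269 1962 (.cons 222 (.leaf 221 1771 (.cons 225 (.leaf 226 1777 (.cons 201 (.leaf 177 1414 (.cons 271 (.leaf 250 1969 (.cons 198 (.leaf 174 1396 (.leaf 295 1588 .nil)) .nil)) .nil)) .nil)) .nil)) .nil)) (.cons 222 (.leaf 221 1771 (.cons 250 (.leaf 223 1779 (.cons 251 (.leaf 271 1978 (.leaf 252 1986 .nil)) .nil)) .nil)) (.cons 270 (.leaf 269 1962 (.cons 250 (.leaf 271 1969 (.cons 227 (.leaf 226 1785 (.cons 251 (.leaf 252 1986 (.leaf 228 1793 .nil)) .nil)) .nil)) .nil)) (.cons 270 (.leaf 269 1962 (.cons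 222 (.leaf 221 1771 (.cons 225 (.leaf 226 1777 (.cons 201 (.leaf 177 1414 (.cons 271 (.cons 198 (.leaf 174 1396 (.leaf 295 1588 .nil)) (.cons 174 (.leaf 198 1396 (.cons 176 (.leaf 200 1415 (.cons 294 (.leaf 293 2154 (.cons 223 (.leaf 199 1589 (.leaf 318 1781 .nil)) .nil)) .nil)) .nil)) (.cons 176 (.leaf 200 1415 (.cons 294 (.leaf 293 2154 (.cons 223 (.leaf 199 1589 (.leaf 318 1781 .nil)) .nil)) .nil)) .nil))) .nil)) .nil)) .nil)) .nil)) (.cons 225 (.leaf 226 1777 (.cons 177 (.leaf 201 1414 (.cons 222 (.leaf 221 1771 (.cons 223 (.leaf 250 1779 (.cons 270 (.leaf 269 1962 (.cons 199 (.leaf 175 1404 (.leaf 294 1589 .nil)) .nil)) .nil)) .nil)) .nil)) .nil)) .nil))))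
noncomputable def t52 : T := .cons 323 (.leaf 347 2007 (.cons 251 (.leaf 226 1815 (.cons 322 (.leaf 346 2006 (.cons 227 (.leaf 298 1813 (.cons 324 (.leaf 300 1820 (.leaf 348 2012 .nil)) .nil)) .nil)) .nil)) .nil)) (.cons 226 (.leaf 202 1620 (.cons 298 (.cons 227 (.leaf 203 1621 (.cons 251 (.leaf 322 1813 (.cons 228 (.leaf 204 1629 (.cons 229 (.leaf 230 1810 (.cons 253 (.leaf 254 1808 (.cons 300 (.leaf 324 1820 (.cons 301 (.leaf 302 2195 (.cons 277 (.leaf 278 2193 (.cons 325 (.leaf 326 2384 (.leaf 252 1831 .nil)) .nil)) .nil)) .nil)) .nil)) .nil)) .nil)) .nil)) .nil)) (.cons 201 (.leaf 225 1615 (.cons 321 (.leaf 297 1806 (.cons 322 (.leaf 345 1998 (.cons 346 (.leaf 251 2005 (.leaf 370 2197 .nil)) .nil)) .nil)) .nil)) (.cons 297 (.leaf 321 1806 (.cons 296 (.leaf 295 2169 (.leaf 271 2171 .nil)) .nil)) .nil))) .nil)) (.cons 323 (.leaf 347 2007 (.cons 251 (.cons 322 (.leaf 346 2006 (.cons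 227 (.leaf 298 1813 (.cons 324 (.leaf 300 1820 (.leaf 348 2012 .nil)) .nil)) .nil)) (.cons 228 (.leaf 252 1821 (.cons 227 (.leaf 204 1629 (.cons 203 (.leaf 298 1622 (.leaf 179 1430 .nil)) .nil)) .nil)) (.cons 252 (.leaf 228 1821 (.cons 253 (.leaf 254 2002 (.cons 229 (.leaf 230 1809 (.cons 277 (.leaf 278 2000 (.cons 324 (.leaf 348 2012 (.cons 301 (.leaf 300 1830 (.cons 302 (.leaf 326 1836 (.cons 322 (.leaf 346 2006 (.leaf 325 2385 .nil)) .nil)) .nil)) .nil)) .nil)) .nil)) .nil)) .nil)) .nil))) .nil)) (.cons 323 (.leaf 347 2007 (.cons 226 (.leaf 202 1620 (.leaf 251 1815 .nil)) .nil)) (.cons 226 (.leaf 202 1620 (.cons 323 (.leaf 347 2007 (.leaf 298 1812 .nil)) .nil)) .nil))))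
noncomputable def t53 : T := .cons 344 (.leaf 271 1983 (.cons 368 (.leaf 297 2181 (.cons 343 (.leaf 319 1982 (.leaf 367 2174 .nil)) .nil)) .nil)) (.cons 321 (.leaf 345 1988 (.cons 319 (.leaf 343 1982 (.cons 298 (.cons 297 (.leaf 299 2362 (.leaf 318 2353 .nil)) (.cons 322 (.leaf 299 2361 (.cons 323 (.leaf 295 2363 (.cons 347 (.leaf 346 2552 (.leaf 348 2560 .nil)) .nil)) .nil)) (.cons 297 (.leaf 318 2353 (.cons 271 (.leaf 270 2160 (.cons 295 (.leaf 222 1783 (.cons 322 (.leaf 294 2352 (.leaf 323 2360 .nil)) .nil)) .nil)) .nil)) .nil))) .nil)) .nil)) (.cons 344 (.leaf 271 1983 (.cons 368 (.leaf 297 2181 (.cons 391 (.leaf 367 2366 (.cons 392 (.leaf 415 2558 (.cons 393 (.leaf 369 2372 (.leaf 417 2564 .nil)) .nil)) .nil)) .nil)) .nil)) (.cons 345 (.leaf 321 1988 (.cons 319 (.leaf 343 1982 (.cons 344 (.leaf 369 2180 (.cons 368 (.leaf 297 2181 (.cons 392 (.leaf 295 2367 (.cons 391 (.leaf 367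 2366 (.leaf 415 2558 .nil)) .nil)) .nil)) .nil)) .nil)) .nil)) (.cons 321 (.leaf 345 1988 (.cons 319 (.leaf 343 1982 (.cons 271 (.leaf 344 1983 (.cons 295 (.leaf 222 1783 (.cons 294 (.leaf 293 2344 (.leaf 322 2355 .nil)) .nil)) .nil)) .nil)) .nil)) .nil))))
noncomputable def t54 : T := .cons 293 (.leaf 295 2153 (.cons 270 (.leaf 271 2154 (.cons 222 (.leaf 317 1774 (.cons 198 (.leaf 269 1582 (.cons 197 (.leaf 173 1391 (.leaf 221 1583 .nil)) .nil)) .nil)) .nil)) .nil)) (.cons 270 (.cons 223 (.leaf 318 1781 (.cons 199 (.leaf 175 1404 (.leaf 271 1596 .nil)) .nil)) (.cons 223 (.leaf 318 1781 (.cons 199 (.leaf 175 1404 (.leaf 222 1589 .nil)) .nil)) (.cons 271 (.leaf 293 2154 (.cons 269 (.leaf 297 2152 (.leaf 268 1953 .nil)) .nil)) .nil))) (.cons 223 (.cons 199 (.leaf 175 1404 (.leaf 271 1596 .nil)) (.cons 318 (.leaf 270 1781 (.cons 295 (.leaf 271 1782 (.cons 317 (.leaf 297 2346 (.cons 316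 (.leaf 319 2337 (.leaf 315 2329 .nil)) .nil)) .nil)) .nil)) (.cons 199 (.leaf 175 1404 (.cons 270 (.leaf 318 1781 (.leaf 222 1589 .nil)) .nil)) .nil))) (.cons 295 (.leaf 293 2153 (.cons 271 (.cons 319 (.leaf 343 1981 (.leaf 222 1783 .nil)) (.cons 223 (.leaf 199 1596 (.leaf 318 1782 .nil)) .nil)) .nil)) (.cons 295 (.leaf 293 2153 (.cons 270 (.cons 318 (.leaf 223 1781 (.cons 297 (.leaf 269 2155 (.leaf 317 2346 .nil)) .nil)) (.cons 222 (.leaf 319 1780 (.cons 197 (.leaf 221 1583 (.cons 198 (.leaf 173 1391 (.cons 199 (.leaf 175 1397 (.leaf 223 1589 .nil)) .nil)) .nil)) .nil)) (.cons 319 (.leaf 222 1780 (.cons 343 (.leaf 367 2173 (.leaf 318 1972 .nil)) .nil)) .nil))) .nil)) (.cons 293 (.leaf 295 2153 (.cons 270 (.leaf 271 2154 (.cons 318 (.leaf 223 1781 (.cons 317 (.leaf 341 1966 (.cons 343 (.leaf 319 1972 (.cons 342 (.leaf 367 2164 (.cons 366 (.leaf 269 2159 (.leaf 390 2351 .nil)) .nil))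 .nil)) .nil)) .nil)) .nil)) .nil)) .nil)))))
noncomputable def t55 : T := .cons 225 (.leaf 226 1777 (.cons 177 (.leaf 201 1414 (.cons 269 (.leaf 270 1962 (.cons 245 (.leaf 268 1954 (.cons 220 (.leaf 221 1763 (.cons 244 (.leaf 271 1952 (.leaf 219 1755 .nil)) .nil)) .nil)) .nil)) .nil)) .nil)) (.cons 225 (.leaf 226 1777 (.cons 177 (.leaf 201 1414 (.cons 221 (.leaf 222 1771 (.cons 245 (.leaf 220 1763 (.cons 244 (.leaf 271 1952 (.cons 268 (.leaf 269 1954 (.leaf 267 1946 .nil)) .nil)) .nil)) .nil)) .nil)) .nil)) (.cons 225 (.leaf 226 1777 (.cons 177 (.leaf 201 1414 (.cons 221 (.leaf 222 1771 (.cons 245 (.leaf 220 1763 (.cons 271 (.leaf 244 1952 (.cons 250 (.leaf 251 1978 (.leaf 270 1970 .nil)) .nil)) .nil)) .nil)) .nil)) .nil)) (.cons 225 (.leaf 226 1777 (.cons 177 (.leaf 201 1414 (.cons 221 (.leaf 222 1771 (.cons 245 (.leaf 220 1763 (.cons 269 (.leaf 268 1954 (.leaf 270 1962 .nil)) .nil))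 .nil)) .nil)) .nil)) (.cons 270 (.leaf 269 1962 (.cons 221 (.leaf 222 1771 (.cons 245 (.leaf 220 1763 (.cons 271 (.leaf 244 1952 (.leaf 250 1970 .nil)) .nil)) .nil)) .nil)) (.cons 270 (.leaf 269 1962 (.cons 226 (.leaf 225 1777 (.cons 250 (.leaf 227 1785 (.leaf 271 1970 .nil)) .nil)) .nil)) .nil)))))
noncomputable def t56 : T := .cons 245 (.leaf 273 1960 (.cons 244 (.leaf 271 1952 (.cons 268 (.leaf 269 1954 (.leaf 267 1946 .nil)) .nil)) .nil)) (.cons 249 (.cons 221 (.leaf 222 1771 (.cons 225 (.leaf 226 1777 (.cons 201 (.leaf 177 1414 (.cons 296 (.leaf 273 1606 (.leaf 320 1797 .nil)) .nil)) .nil)) .nil)) (.cons 225 (.leaf 226 1777 (.cons 177 (.leaf 201 1414 (.cons 270 (.leaf 269 1962 (.cons 271 (.leaf 250 1970 (.cons 296 (.leaf 320 1797 (.cons 223 (.leaf 199 1596 (.cons 294 (.leaf 318 1781 (.cons 293 (.leaf 273 2154 (.cons 292 (.leaf 295 2145 (.leaf 291 2137 .nil)) .nil)) .nil)) .nil))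 .nil)) .nil)) .nil)) .nil)) .nil)) (.cons 222 (.leaf 221 1771 (.cons 223 (.leaf 250 1779 (.cons 270 (.leaf 269 1962 (.cons 199 (.leaf 175 1404 (.leaf 294 1589 .nil)) .nil)) .nil)) .nil)) .nil))) (.cons 249 t55 (.cons 245 (.leaf 273 1960 (.cons 220 (.leaf 221 1763 (.cons 244 (.leaf 219 1755 (.cons 268 (.leaf 269 1954 (.leaf 267 1946 .nil)) .nil)) .nil)) .nil)) (.cons 245 (.leaf 273 1960 (.cons 220 (.leaf 221 1763 (.cons 244 (.leaf 271 1952 (.leaf 219 1755 .nil)) .nil)) .nil)) .nil))))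
noncomputable def t57 : T := .cons 269 (.leaf 270 1962 (.cons 225 (.leaf 226 1777 (.cons 245 (.leaf 268 1954 (.cons 296 (.leaf 320 1797 (.cons 271 (.leaf 244 1952 (.cons 223 (.leaf 199 1596 (.cons 201 (.leaf 177 1414 (.cons 295 (.cons 222 (.leaf 221 1771 (.leaf 198 1591 .nil)) (.cons 319 (.leaf 343 1981 (.cons 318 (.leaf 294 1782 (.leaf 342 1974 .nil)) .nil)) .nil)) .nil)) .nil)) .nil)) .nil)) .nil)) .nil)) .nil)) (.cons 225 (.leaf 226 1777 (.cons 296 (.leaf 320 1797 (.cons 201 (.leaf 177 1414 (.cons 245 (.cons 221 (.leaf 220 1763 (.leaf 222 1771 .nil)) (.cons 244 (.leaf 271 1952 (.cons 219 (.leaf 220 1755 (.cons 243 (.leaf 218 1747 (.cons 267 (.leaf 268 1946 (.leaf 266 1938 .nil)) .nil)) .nil)) .nil)) (.cons 271 (.leaf 244 1952 (.cons 199 (.leaf 223 1596 (.cons 222 (.leaf 221 1771 (.cons 198 (.leaf 174 1396 (.cons 270 (.leaf 175 1397 (.leaf 295 1588 .nil)) .nil)) .nil)) .nil)) .nil))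 .nil))) .nil)) .nil)) .nil)) (.cons 225 (.leaf 226 1777 (.cons 296 (.leaf 320 1797 (.cons 201 (.leaf 177 1414 (.cons 245 (.cons 221 (.leaf 220 1763 (.leaf 222 1771 .nil)) (.cons 244 (.leaf 271 1952 (.cons 219 (.leaf 220 1755 (.cons 243 (.leaf 218 1747 (.cons 267 (.leaf 268 1946 (.leaf 266 1938 .nil)) .nil)) .nil)) .nil)) (.cons 271 (.leaf 244 1952 (.cons 222 (.leaf 221 1771 (.cons 174 (.leaf 198 1396 (.cons 223 (.leaf 199 1596 (.cons 269 (.leaf 268 1954 (.cons 295 (.leaf 319 1783 (.cons 293 (.leaf 317 1773 (.cons 294 (.leaf 292 2145 (.leaf 318 1782 .nil)) .nil)) .nil)) .nil)) .nil)) .nil)) .nil)) .nil)) .nil))) .nil)) .nil)) .nil)) (.cons 269 (.leaf 270 1962 (.cons 221 (.leaf 222 1771 (.cons 245 (.leaf 220 1763 (.leaf 268 1954 .nil)) .nil)) .nil)) (.cons 269 (.leaf 270 1962 (.cons 225 (.leaf 226 1777 (.cons 245 (.leaf 268 1954 (.cons 296 (.leaf 320 1797 (.cons 271 (.leaf 244 1952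 (.cons 223 (.leaf 199 1596 (.cons 201 (.leaf 177 1414 (.cons 295 (.cons 222 (.leaf 198 1591 (.leaf 319 1783 .nil)) (.cons 319 (.leaf 343 1981 (.cons 318 (.leaf 294 1782 (.leaf 342 1974 .nil)) .nil)) (.cons 222 (.leaf 198 1591 (.cons 293 (.leaf 317 1773 (.cons 294 (.leaf 292 2145 (.leaf 318 1782 .nil)) .nil)) .nil)) .nil))) .nil)) .nil)) .nil)) .nil)) .nil)) .nil)) .nil)) (.cons 269 (.leaf 270 1962 (.cons 225 (.leaf 226 1777 (.cons 177 (.leaf 201 1414 (.cons 245 (.leaf 268 1954 (.cons 220 (.leaf 221 1763 (.cons 244 (.leaf 271 1952 (.leaf 219 1755 .nil)) .nil)) .nil)) .nil)) .nil)) .nil)) (.cons 225 (.leaf 226 1777 (.cons 270 (.leaf 269 1962 (.cons 222 (.leaf 221 1771 (.cons 296 (.leaf 320 1797 (.cons 201 (.leaf 177 1414 (.cons 198 (.cons 173 (.leaf 197 1391 (.cons 174 (.leaf 271 1396 (.leaf 149 1199 .nil)) .nil)) (.cons 173 (.leaf 197 1391 (.cons 174 (.leaf 149 1199 (.cons 199 (.leaf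 175 1397 (.leaf 200 1387 .nil)) .nil)) .nil)) (.cons 173 (.leaf 197 1391 (.cons 295 (.leaf 271 1588 (.cons 294 (.leaf 319 1780 (.cons 199 (.leaf 175 1397 (.leaf 223 1589 .nil)) .nil)) .nil)) .nil)) (.cons 271 (.leaf 174 1396 (.leaf 295 1588 .nil)) .nil)))) .nil)) .nil)) .nil)) .nil)) .nil)) .nil))))))
noncomputable def t58 : T := .cons 273 (.leaf 274 1979 (.cons 246 (.leaf 245 1960 (.cons 249 (.cons 221 (.leaf 222 1771 (.cons 270 (.leaf 269 1962 (.cons 271 (.leaf 250 1969 (.cons 293 (.leaf 294 2154 (.cons 297 (.leaf 298 2160 (.cons 321 (.leaf 345 1991 (.cons 320 (.leaf 344 1990 (.cons 296 (.leaf 223 1791 (.leaf 225 1797 .nil)) .nil)) .nil)) .nil)) .nil)) .nil)) .nil)) .nil)) (.cons 225 (.leaf 226 1777 (.cons 201 (.leaf 177 1414 (.leaf 296 1606 .nil)) .nil)) (.cons 221 (.leaf 222 1771 (.cons 270 (.leaf 269 1962 (.cons 250 (.leaf 271 1969 (.cons 227 (.leaf 226 1785 (.cons 251 (.leaf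 252 1986 (.leaf 228 1793 .nil)) .nil)) .nil)) .nil)) .nil)) .nil))) .nil)) .nil)) (.cons 249 (.cons 250 (.leaf 274 1976 (.cons 271 (.leaf 251 1978 (.leaf 270 1970 .nil)) .nil)) (.cons 246 t57 (.cons 250 (.leaf 274 1976 (.cons 222 (.leaf 223 1779 (.cons 226 (.leaf 227 1785 (.cons 246 (.leaf 221 1771 (.leaf 225 1777 .nil)) .nil)) .nil)) .nil)) .nil))) (.cons 246 t56 (.cons 273 (.leaf 274 1979 (.cons 246 (.leaf 245 1960 (.cons 296 (.cons 320 (.leaf 223 1791 (.cons 344 (.leaf 271 1983 (.cons 368 (.leaf 297 2181 (.cons 343 (.leaf 319 1982 (.leaf 367 2174 .nil)) .nil)) .nil)) .nil)) (.cons 294 t54 (.cons 320 t53 (.cons 320 (.leaf 223 1791 (.cons 345 (.leaf 321 1988 (.cons 319 (.leaf 343 1982 (.cons 344 (.leaf 369 2180 (.cons 368 (.leaf 297 2181 (.cons 392 (.leaf 295 2367 (.cons 391 (.leaf 367 2366 (.leaf 415 2558 .nil)) .nil)) .nil)) .nil)) .nil)) .nil)) .nil)) (.cons 320 (.leaf 223 1791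 (.cons 271 (.leaf 344 1983 (.cons 319 (.leaf 343 1982 (.cons 295 (.leaf 222 1783 (.cons 293 (.leaf 294 2153 (.cons 318 (.leaf 342 1974 (.cons 317 (.leaf 316 2337 (.leaf 292 2339 .nil)) .nil)) .nil)) .nil)) .nil)) .nil)) .nil)) (.cons 223 (.leaf 320 1791 (.cons 199 (.leaf 175 1404 (.leaf 271 1596 .nil)) .nil)) .nil)))))) .nil)) .nil)) (.cons 274 (.leaf 273 1979 (.cons 250 (.leaf 249 1976 (.cons 299 t52 .nil)) .nil)) (.cons 273 (.leaf 274 1979 (.cons 246 (.leaf 245 1960 (.cons 249 (.cons 225 (.leaf 226 1777 (.cons 177 (.leaf 201 1414 (.cons 222 (.leaf 221 1771 (.cons 223 (.leaf 250 1779 (.cons 270 (.leaf 269 1962 (.cons 199 (.leaf 175 1404 (.leaf 294 1589 .nil)) .nil)) .nil)) .nil)) .nil)) .nil)) (.cons 222 (.leaf 221 1771 (.cons 223 (.leaf 250 1779 (.cons 199 (.leaf 175 1404 (.cons 270 (.leaf 269 1962 (.leaf 294 1589 .nil)) .nil)) .nil)) .nil)) (.cons 225 (.leaf 226 1777 (.cons 201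 (.leaf 177 1414 (.leaf 296 1606 .nil)) .nil)) .nil))) .nil)) .nil)) (.cons 273 (.leaf 274 1979 (.cons 246 (.leaf 245 1960 (.cons 249 t51 .nil)) .nil)) .nil))))))
noncomputable def t59 : T := .cons 245 (.leaf 246 1960 (.cons 295 (.cons 319 (.leaf 343 1981 (.leaf 224 1789 .nil)) (.cons 319 (.leaf 343 1981 (.cons 318 (.leaf 342 1974 (.cons 294 (.leaf 223 1782 (.cons 292 (.leaf 293 2145 (.cons 320 (.leaf 344 1980 (.cons 321 (.leaf 322 2355 (.cons 297 (.leaf 345 1991 (.leaf 298 2353 .nil)) .nil)) .nil)) .nil)) .nil)) .nil)) .nil)) (.cons 223 (.cons 198 (.leaf 222 1591 (.cons 199 (.leaf 175 1404 (.leaf 174 1399 .nil)) .nil)) (.cons 224 (.leaf 200 1597 (.cons 222 (.leaf 198 1591 (.cons 221 (.leaf 220 1760 (.leaf 249 1768 .nil)) .nil)) .nil)) (.cons 200 (.leaf 224 1597 (.cons 199 (.leaf 175 1404 (.leaf 176 1405 .nil)) .nil)) .nil))) .nil))) .nil)) (.cons 270 (.cons 249 (.leaf 269 1961 (.leaf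 250 1969 .nil)) (.cons 269 (.leaf 268 1953 (.cons 293 (.leaf 292 2146 (.leaf 294 2154 .nil)) .nil)) (.cons 249 (.leaf 250 1969 (.cons 294 (.leaf 293 2154 (.cons 223 (.leaf 199 1590 (.cons 318 (.leaf 295 1782 (.leaf 342 1973 .nil)) .nil)) .nil)) .nil)) .nil))) (.cons 245 (.leaf 246 1960 (.cons 295 (.cons 319 (.leaf 343 1981 (.leaf 224 1789 .nil)) (.cons 319 (.leaf 343 1981 (.cons 318 (.leaf 342 1974 (.cons 294 (.leaf 223 1782 (.cons 292 (.leaf 293 2145 (.cons 320 (.leaf 344 1980 (.cons 321 (.leaf 322 2355 (.cons 297 (.leaf 345 1991 (.leaf 298 2353 .nil)) .nil)) .nil)) .nil)) .nil)) .nil)) .nil)) (.cons 223 (.cons 198 (.leaf 222 1591 (.cons 199 (.leaf 175 1404 (.leaf 174 1399 .nil)) .nil)) (.cons 224 (.leaf 200 1597 (.cons 222 (.leaf 198 1591 (.cons 221 (.leaf 220 1760 (.leaf 244 1762 .nil)) .nil)) .nil)) (.cons 200 (.leaf 224 1597 (.cons 199 (.leaf 175 1404 (.leaf 176 1405 .nil)) .nil))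 .nil))) .nil))) .nil)) (.cons 246 (.leaf 245 1960 (.cons 270 (.cons 294 (.leaf 293 2154 (.cons 223 (.leaf 199 1590 (.leaf 318 1781 .nil)) .nil)) (.cons 249 (.leaf 269 1961 (.leaf 250 1969 .nil)) .nil)) .nil)) (.cons 246 (.leaf 245 1960 (.cons 270 (.cons 294 (.leaf 293 2154 (.cons 318 (.leaf 342 1973 (.cons 268 (.leaf 269 1953 (.cons 319 (.leaf 343 1972 (.cons 295 (.leaf 224 1789 (.leaf 222 1780 .nil)) .nil)) .nil)) .nil)) .nil)) (.cons 294 (.leaf 293 2154 (.cons 318 (.leaf 342 1973 (.cons 297 (.leaf 298 2160 (.cons 317 (.leaf 341 1966 (.cons 319 (.leaf 343 1972 (.cons 295 (.leaf 224 1789 (.leaf 222 1780 .nil)) .nil)) .nil)) .nil)) .nil)) .nil)) (.cons 249 (.leaf 269 1961 (.leaf 250 1969 .nil)) .nil))) .nil)) (.cons 246 (.leaf 245 1960 (.cons 249 (.cons 222 (.leaf 221 1771 (.cons 270 (.leaf 269 1961 (.leaf 250 1969 .nil)) .nil)) (.cons 222 (.leaf 221 1771 (.cons 250 (.leaf 251 1978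 (.leaf 223 1779 .nil)) .nil)) (.cons 222 (.leaf 221 1771 (.cons 270 (.leaf 269 1961 (.cons 198 (.leaf 174 1396 (.leaf 295 1588 .nil)) .nil)) .nil)) (.cons 270 (.leaf 269 1961 (.leaf 250 1969 .nil)) .nil)))) .nil)) .nil)))))
noncomputable def t60 : T := .leaf 274 1979 (.cons 246 (.leaf 245 1960 (.cons 249 (.cons 270 (.leaf 269 1962 (.cons 250 (.leaf 271 1969 (.cons 227 (.leaf 226 1785 (.cons 251 (.leaf 252 1986 (.leaf 228 1793 .nil)) .nil)) .nil)) .nil)) (.cons 222 (.leaf 221 1771 (.cons 250 (.leaf 223 1779 (.cons 251 (.leaf 271 1978 (.leaf 252 1986 .nil)) .nil)) .nil)) (.cons 270 (.leaf 269 1962 (.cons 222 (.leaf 221 1771 (.cons 225 (.leaf 226 1777 (.cons 201 (.leaf 177 1414 (.cons 271 (.cons 198 (.leaf 174 1396 (.leaf 295 1588 .nil)) (.cons 174 (.leaf 198 1396 (.cons 176 (.leaf 200 1415 (.cons 294 (.leaf 293 2154 (.cons 223 (.leaf 199 1589 (.leaf 318 1781 .nil)) .nil)) .nil)) .nil))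 (.cons 176 (.leaf 200 1415 (.cons 294 (.leaf 293 2154 (.cons 223 (.leaf 199 1589 (.leaf 318 1781 .nil)) .nil)) .nil)) .nil))) .nil)) .nil)) .nil)) .nil)) (.cons 225 (.leaf 226 1777 (.cons 177 (.leaf 201 1414 (.cons 222 (.leaf 221 1771 (.cons 223 (.leaf 250 1779 (.cons 270 (.leaf 269 1962 (.cons 199 (.leaf 175 1404 (.leaf 294 1589 .nil)) .nil)) .nil)) .nil)) .nil)) .nil)) .nil)))) .nil)) .nil)
noncomputable def t61 : T := .cons 199 (.leaf 175 1404 (.cons 198 (.leaf 174 1399 (.cons 222 (.leaf 295 1591 (.cons 221 (.leaf 220 1760 (.cons 224 (.leaf 244 1762 (.cons 197 (.leaf 196 1568 (.leaf 225 1579 .nil)) .nil)) .nil)) .nil)) .nil)) .nil)) (.cons 224 (.cons 200 (.leaf 295 1597 (.leaf 297 1604 .nil)) (.cons 295 (.leaf 319 1789 (.cons 222 (.leaf 198 1591 (.cons 221 (.leaf 220 1760 (.leaf 244 1762 .nil)) .nil)) .nil)) (.cons 200 (.leaf 297 1604 (.leaf 176 1406 .nil)) .nil))) (.cons 199 (.leaf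 175 1404 (.cons 176 (.leaf 200 1405 (.cons 198 (.leaf 174 1399 (.cons 222 (.leaf 295 1591 (.cons 221 (.leaf 220 1760 (.cons 269 (.leaf 293 1581 (.cons 270 (.leaf 244 1955 (.leaf 268 1953 .nil)) .nil)) .nil)) .nil)) .nil)) .nil)) .nil)) (.cons 199 (.leaf 175 1404 (.cons 174 (.leaf 198 1399 (.cons 200 (.leaf 176 1405 (.cons 224 (.leaf 297 1604 (.cons 201 (.leaf 177 1413 (.cons 202 (.leaf 222 1586 (.leaf 203 1594 .nil)) .nil)) .nil)) .nil)) .nil)) .nil)) (.cons 199 (.leaf 175 1404 (.cons 174 (.leaf 198 1399 (.cons 200 (.leaf 176 1405 (.cons 224 (.leaf 295 1597 (.leaf 297 1604 .nil)) .nil)) .nil)) .nil)) (.cons 199 (.leaf 175 1404 (.cons 200 (.leaf 176 1405 (.cons 224 (.leaf 295 1597 (.leaf 297 1604 .nil)) .nil)) .nil)) .nil)))))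
noncomputable def t62 : T := .cons 270 (.cons 246 (.leaf 245 1960 (.cons 294 (.leaf 293 2154 (.cons 223 (.leaf 199 1590 (.leaf 318 1781 .nil)) .nil)) .nil)) (.cons 294 (.leaf 293 2154 (.cons 223 (.leaf 199 1590 (.cons 318 (.leaf 295 1782 (.leaf 342 1973 .nil)) .nil)) .nil)) (.cons 245 (.leaf 246 1960 (.cons 269 (.leaf 244 1955 (.leaf 268 1953 .nil)) .nil)) .nil))) (.cons 224 (.cons 200 (.leaf 295 1598 (.leaf 297 1604 .nil)) (.cons 295 (.leaf 319 1789 (.cons 223 (.cons 199 (.leaf 175 1404 (.cons 198 (.leaf 174 1399 (.leaf 222 1591 .nil)) .nil)) (.cons 294 (.leaf 318 1782 (.cons 293 (.leaf 270 2154 (.leaf 292 2145 .nil)) .nil)) .nil)) .nil)) (.cons 200 (.leaf 297 1604 (.leaf 176 1406 .nil)) .nil))) (.cons 245 (.leaf 246 1960 (.cons 295 (.cons 319 (.leaf 343 1981 (.leaf 224 1789 .nil)) (.cons 319 (.leaf 343 1981 (.cons 318 (.leaf 342 1974 (.cons 294 (.leaf 223 1782 (.cons 292 (.leaf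 293 2145 (.cons 320 (.leaf 344 1980 (.cons 321 (.leaf 322 2355 (.cons 297 (.leaf 345 1991 (.leaf 298 2353 .nil)) .nil)) .nil)) .nil)) .nil)) .nil)) .nil)) (.cons 223 (.cons 198 (.leaf 222 1591 (.cons 199 (.leaf 175 1404 (.leaf 174 1399 .nil)) .nil)) (.cons 224 (.leaf 200 1597 (.cons 222 (.leaf 198 1591 (.cons 221 (.leaf 220 1760 (.leaf 244 1762 .nil)) .nil)) .nil)) (.cons 200 (.leaf 224 1597 (.cons 199 (.leaf 175 1404 (.leaf 176 1405 .nil)) .nil)) .nil))) .nil))) .nil)) (.cons 270 (.cons 269 (.leaf 268 1953 (.cons 293 (.leaf 292 2146 (.leaf 294 2154 .nil)) .nil)) (.cons 246 (.leaf 245 1960 (.cons 294 (.leaf 293 2154 (.cons 223 (.leaf 199 1590 (.leaf 318 1781 .nil)) .nil)) .nil)) (.cons 245 (.leaf 246 1960 (.cons 269 (.leaf 244 1955 (.leaf 268 1953 .nil)) .nil)) .nil))) (.cons 270 (.cons 245 (.leaf 246 1960 (.cons 269 (.leaf 244 1955 (.leaf 268 1953 .nil)) .nil)) (.cons 269 (.leaf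 268 1953 (.cons 293 (.leaf 292 2146 (.leaf 294 2154 .nil)) .nil)) (.cons 246 (.leaf 245 1960 (.cons 294 (.leaf 293 2154 (.cons 318 (.leaf 342 1973 (.cons 297 (.leaf 298 2160 (.cons 200 (.leaf 224 1604 (.cons 317 (.leaf 341 1966 (.cons 319 (.leaf 343 1972 (.cons 222 (.leaf 295 1780 (.cons 197 (.leaf 221 1583 (.cons 198 (.leaf 174 1396 (.leaf 173 1391 .nil)) .nil)) .nil)) .nil)) .nil)) .nil)) .nil)) .nil)) .nil)) .nil)) .nil))) (.cons 245 (.leaf 246 1960 (.cons 223 t61 .nil)) (.cons 246 (.leaf 245 1960 (.cons 295 (.cons 224 (.leaf 200 1598 (.leaf 319 1789 .nil)) (.cons 224 (.leaf 200 1598 (.cons 223 (.cons 198 (.leaf 222 1591 (.cons 199 (.leaf 175 1404 (.leaf 174 1399 .nil)) .nil)) (.cons 222 (.leaf 198 1591 (.cons 221 (.leaf 220 1760 (.cons 225 (.leaf 226 1778 (.cons 197 (.leaf 196 1571 (.cons 294 (.leaf 318 1782 (.leaf 270 1583 .nil)) .nil)) .nil)) .nil)) .nil)) (.cons 199 (.leaf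 175 1404 (.cons 294 (.leaf 270 1590 (.leaf 318 1782 .nil)) .nil)) .nil))) .nil)) (.cons 319 (.leaf 343 1981 (.leaf 222 1783 .nil)) .nil))) .nil)) .nil))))))
noncomputable def t63 : T := .cons 226 (.leaf 202 1620 (.cons 323 (.leaf 251 1815 (.leaf 347 2007 .nil)) .nil)) (.cons 226 (.leaf 202 1620 (.cons 298 (.cons 227 (.leaf 203 1621 (.cons 251 (.leaf 322 1813 (.cons 228 (.leaf 204 1629 (.cons 229 (.leaf 230 1810 (.cons 253 (.leaf 254 1808 (.cons 300 (.leaf 324 1820 (.cons 301 (.leaf 302 2195 (.cons 277 (.leaf 278 2193 (.cons 325 (.leaf 326 2384 (.leaf 252 1831 .nil)) .nil)) .nil)) .nil)) .nil)) .nil)) .nil)) .nil)) .nil)) (.cons 201 (.leaf 225 1615 (.cons 321 (.leaf 297 1806 (.cons 322 (.leaf 345 1998 (.cons 346 (.leaf 251 2005 (.leaf 370 2197 .nil)) .nil)) .nil)) .nil)) (.cons 225 (.leaf 201 1615 (.cons 227 (.leaf 224 1786 (.leaf 203 1621 .nil)) .nil)) .nil))) .nil)) (.cons 323 (.leaf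 347 2007 (.cons 251 (.cons 322 (.leaf 346 2006 (.cons 227 (.leaf 298 1813 (.cons 324 (.leaf 300 1820 (.leaf 348 2012 .nil)) .nil)) .nil)) (.cons 228 (.leaf 252 1821 (.cons 227 (.leaf 204 1629 (.cons 203 (.leaf 298 1622 (.leaf 179 1430 .nil)) .nil)) .nil)) (.cons 252 (.leaf 228 1821 (.cons 253 (.leaf 254 2002 (.cons 229 (.leaf 230 1809 (.cons 277 (.leaf 278 2000 (.cons 324 (.leaf 348 2012 (.cons 301 (.leaf 300 1830 (.cons 302 (.leaf 326 1836 (.cons 322 (.leaf 346 2006 (.leaf 325 2385 .nil)) .nil)) .nil)) .nil)) .nil)) .nil)) .nil)) .nil)) .nil))) .nil)) (.cons 226 (.leaf 202 1620 (.cons 323 (.leaf 347 2007 (.leaf 298 1812 .nil)) .nil)) .nil)))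
noncomputable def t64 : T := .cons 270 (.leaf 269 1962 (.cons 222 (.leaf 221 1771 (.cons 198 (.cons 173 (.leaf 197 1391 (.cons 199 (.leaf 175 1397 (.cons 149 (.leaf 174 1199 (.cons 225 (.leaf 226 1777 (.cons 294 (.leaf 223 1589 (.cons 177 (.leaf 201 1414 (.cons 317 (.leaf 293 1774 (.cons 318 (.leaf 341 1966 (.cons 319 (.leaf 295 1780 (.leaf 343 1972 .nil)) .nil)) .nil)) .nil)) .nil)) .nil)) .nil)) .nil)) .nil)) (.cons 271 (.leaf 250 1970 (.leaf 174 1396 .nil)) (.cons 173 (.leaf 197 1391 (.cons 199 (.leaf 175 1397 (.cons 223 (.leaf 250 1779 (.leaf 294 1589 .nil)) .nil)) .nil)) .nil))) .nil)) .nil)) (.cons 222 (.leaf 221 1771 (.cons 223 (.leaf 250 1779 (.cons 175 (.leaf 199 1404 (.cons 225 (.leaf 226 1777 (.cons 201 (.leaf 177 1414 (.cons 224 (.leaf 202 1585 (.cons 198 (.leaf 197 1579 (.cons 174 (.leaf 150 1204 (.leaf 271 1396 .nil)) .nil)) .nil)) .nil)) .nil)) .nil)) .nil)) .nil))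 (.cons 270 (.leaf 269 1962 (.cons 226 (.leaf 225 1777 (.cons 250 (.leaf 227 1785 (.leaf 271 1970 .nil)) .nil)) .nil)) (.cons 270 (.leaf 269 1962 (.cons 222 (.leaf 221 1771 (.cons 198 (.cons 173 (.leaf 197 1391 (.cons 223 (.leaf 250 1779 (.cons 199 (.leaf 175 1404 (.leaf 294 1589 .nil)) .nil)) .nil)) (.cons 173 (.leaf 197 1391 (.cons 271 (.leaf 174 1396 (.leaf 295 1588 .nil)) .nil)) (.cons 271 (.leaf 250 1970 (.leaf 174 1396 .nil)) .nil))) .nil)) .nil)) (.cons 222 (.leaf 221 1771 (.cons 223 (.leaf 250 1779 (.cons 175 (.leaf 199 1404 (.cons 225 (.leaf 226 1777 (.cons 201 (.leaf 177 1414 (.cons 224 (.leaf 202 1585 (.cons 198 (.leaf 197 1579 (.cons 174 (.leaf 150 1204 (.leaf 151 1205 .nil)) .nil)) .nil)) .nil)) .nil)) .nil)) .nil)) .nil)) (.cons 270 (.leaf 269 1962 (.cons 222 (.leaf 221 1771 (.cons 198 (.cons 173 (.leaf 197 1391 (.cons 199 (.leaf 175 1397 (.cons 149 (.leaf 174 1199 (.cons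 225 (.leaf 226 1777 (.cons 294 (.leaf 223 1589 (.cons 177 (.leaf 201 1414 (.cons 317 (.leaf 293 1774 (.cons 318 (.leaf 341 1966 (.cons 319 (.leaf 295 1780 (.leaf 343 1972 .nil)) .nil)) .nil)) .nil)) .nil)) .nil)) .nil)) .nil)) .nil)) (.cons 271 (.leaf 174 1396 (.leaf 295 1588 .nil)) (.cons 173 (.leaf 197 1391 (.cons 199 (.leaf 175 1397 (.cons 223 (.leaf 294 1589 (.cons 271 (.leaf 295 1588 (.cons 200 (.leaf 176 1405 (.cons 201 (.leaf 202 1586 (.cons 225 (.leaf 177 1414 (.leaf 226 1584 .nil)) .nil)) .nil)) .nil)) .nil)) .nil)) .nil)) (.cons 173 (.leaf 197 1391 (.cons 174 (.leaf 271 1396 (.leaf 149 1199 .nil)) .nil)) .nil)))) .nil)) .nil)) .nil)))))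
noncomputable def t65 : T := .cons 225 (.leaf 226 1777 (.cons 177 (.leaf 201 1414 (.cons 221 (.leaf 222 1771 (.cons 245 (.leaf 220 1763 (.leaf 224 1769 .nil)) .nil)) .nil)) .nil)) (.cons 269 (.leaf 270 1962 (.cons 221 (.leaf 222 1771 (.cons 245 (.leaf 220 1763 (.leaf 268 1954 .nil)) .nil)) .nil)) (.cons 225 (.leaf 226 1777 (.cons 177 (.leaf 201 1414 (.cons 245 (.leaf 224 1769 (.cons 269 (.leaf 268 1954 (.leaf 270 1962 .nil)) .nil)) .nil)) .nil)) (.cons 270 (.leaf 269 1962 (.cons 222 (.leaf 221 1771 (.cons 198 (.cons 173 (.leaf 197 1391 (.cons 174 (.leaf 271 1396 (.leaf 149 1199 .nil)) .nil)) (.cons 173 (.leaf 197 1391 (.cons 199 (.leaf 175 1397 (.cons 149 (.leaf 174 1199 (.cons 225 (.leaf 226 1777 (.cons 294 (.leaf 223 1589 (.cons 177 (.leaf 201 1414 (.cons 317 (.leaf 293 1774 (.cons 318 (.leaf 341 1966 (.cons 319 (.leaf 295 1780 (.leaf 343 1972 .nil)) .nil)) .nil)) .nil)) .nil))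 .nil)) .nil)) .nil)) .nil)) (.cons 173 (.leaf 197 1391 (.cons 199 (.leaf 175 1397 (.cons 223 (.leaf 294 1589 (.cons 271 (.leaf 295 1588 (.cons 200 (.leaf 176 1405 (.cons 201 (.leaf 202 1586 (.cons 225 (.leaf 177 1414 (.leaf 226 1584 .nil)) .nil)) .nil)) .nil)) .nil)) .nil)) .nil)) (.cons 271 (.leaf 174 1396 (.leaf 295 1588 .nil)) .nil)))) .nil)) .nil)) .nil)))
noncomputable def t66 : T := .leaf 245 1960 (.cons 249 (.cons 270 (.leaf 269 1962 (.cons 222 (.leaf 221 1771 (.cons 225 (.leaf 226 1777 (.cons 201 (.leaf 177 1414 (.cons 271 (.leaf 250 1969 (.cons 198 (.leaf 174 1396 (.leaf 295 1588 .nil)) .nil)) .nil)) .nil)) .nil)) .nil)) (.cons 222 (.leaf 221 1771 (.cons 250 (.leaf 223 1779 (.cons 251 (.leaf 271 1978 (.leaf 252 1986 .nil)) .nil)) .nil)) (.cons 270 (.leaf 269 1962 (.cons 250 (.leaf 271 1969 (.cons 227 (.leaf 226 1785 (.cons 251 (.leaf 252 1986 (.leaf 228 1793 .nil)) .nil))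 .nil)) .nil)) (.cons 270 (.leaf 269 1962 (.cons 221 (.leaf 222 1771 (.cons 225 (.leaf 226 1777 (.cons 201 (.leaf 177 1414 (.cons 200 (.leaf 176 1415 (.cons 224 (.leaf 297 1604 (.cons 199 (.leaf 175 1407 (.cons 198 (.leaf 197 1576 (.cons 174 (.leaf 173 1387 (.cons 271 (.leaf 295 1598 (.leaf 223 1399 .nil)) .nil)) .nil)) .nil)) .nil)) .nil)) .nil)) .nil)) .nil)) .nil)) (.cons 222 (.leaf 221 1771 (.cons 223 (.leaf 250 1779 (.cons 199 (.leaf 175 1404 (.cons 270 (.leaf 269 1962 (.leaf 294 1589 .nil)) .nil)) .nil)) .nil)) .nil))))) .nil)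
noncomputable def t67 : T := .cons 273 (.leaf 274 1979 (.cons 246 t66 .nil)) (.cons 249 (.cons 250 (.leaf 274 1976 (.cons 271 (.leaf 251 1978 (.leaf 270 1970 .nil)) .nil)) (.cons 246 t65 (.cons 250 (.leaf 274 1976 (.cons 222 (.leaf 223 1779 (.cons 226 (.leaf 227 1785 (.cons 246 (.leaf 221 1771 (.leaf 225 1777 .nil)) .nil)) .nil)) .nil)) .nil))) (.cons 246 (.cons 245 (.leaf 273 1960 (.cons 224 (.leaf 225 1769 (.cons 220 (.leaf 221 1763 (.cons 244 (.leaf 271 1952 (.leaf 219 1755 .nil)) .nil)) .nil)) .nil)) (.cons 249 t64 (.cons 245 (.leaf 273 1960 (.cons 220 (.leaf 221 1763 (.cons 225 (.leaf 224 1769 (.cons 249 (.leaf 226 1777 (.cons 269 (.leaf 268 1954 (.leaf 270 1962 .nil)) .nil)) .nil)) .nil)) .nil)) (.cons 245 (.leaf 273 1960 (.cons 220 (.leaf 221 1763 (.cons 244 (.leaf 271 1952 (.leaf 219 1755 .nil)) .nil)) .nil)) (.cons 245 (.leaf 273 1960 (.cons 224 (.leaf 225 1769 (.cons 244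 (.leaf 271 1952 (.leaf 223 1761 .nil)) .nil)) .nil)) .nil))))) (.cons 274 (.leaf 273 1979 (.cons 250 (.leaf 249 1976 (.cons 299 t63 .nil)) .nil)) (.cons 273 (.leaf 274 1979 (.cons 271 t62 .nil)) (.cons 273 t60 (.cons 273 (.leaf 274 1979 (.cons 246 (.leaf 245 1960 (.cons 249 (.cons 222 (.leaf 221 1771 (.cons 250 (.leaf 223 1779 (.cons 251 (.leaf 271 1978 (.leaf 252 1986 .nil)) .nil)) .nil)) (.cons 270 (.leaf 269 1962 (.cons 250 (.leaf 271 1969 (.cons 227 (.leaf 226 1785 (.cons 251 (.leaf 252 1986 (.leaf 228 1793 .nil)) .nil)) .nil)) .nil)) (.cons 222 (.leaf 221 1771 (.cons 223 (.leaf 250 1779 (.cons 199 (.leaf 175 1404 (.cons 270 (.leaf 269 1962 (.leaf 294 1589 .nil)) .nil)) .nil)) .nil)) (.cons 270 (.leaf 269 1962 (.cons 222 (.leaf 221 1771 (.cons 271 (.cons 198 (.leaf 174 1396 (.leaf 295 1588 .nil)) (.cons 297 (.leaf 298 2160 (.cons 224 (.leaf 200 1604 (.leaf 321 1799 .nil)) .nil))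 .nil)) .nil)) .nil)) .nil)))) .nil)) .nil)) (.cons 273 (.leaf 274 1979 (.cons 271 t59 .nil)) .nil)))))))
noncomputable def t68 : T := .cons 320 (.cons 249 (.leaf 225 1797 (.cons 273 (.leaf 344 1989 (.cons 274 (.leaf 295 2170 (.cons 251 (.leaf 252 1985 (.cons 250 (.leaf 271 1977 (.cons 299 (.leaf 300 2176 (.cons 226 (.leaf 202 1620 (.leaf 323 1815 .nil)) .nil)) .nil)) .nil)) .nil)) .nil)) .nil)) (.cons 343 (.leaf 319 1982 (.cons 344 (.leaf 367 2174 (.cons 345 (.leaf 321 1988 (.leaf 369 2180 .nil)) .nil)) .nil)) (.cons 319 (.leaf 343 1982 (.cons 321 (.leaf 345 1988 (.cons 249 (.leaf 225 1797 (.cons 298 (.cons 297 (.leaf 299 2362 (.leaf 318 2353 .nil)) (.cons 322 (.leaf 299 2361 (.cons 346 (.leaf 347 2552 (.cons 274 (.leaf 251 2005 (.leaf 273 1999 .nil)) .nil)) .nil)) (.cons 297 (.leaf 318 2353 (.cons 274 (.leaf 295 2169 (.cons 250 (.leaf 226 1806 (.cons 251 (.leaf 271 1978 (.cons 227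 (.leaf 203 1622 (.leaf 228 1793 .nil)) .nil)) .nil)) .nil)) .nil)) .nil))) .nil)) .nil)) .nil)) .nil))) (.cons 224 (.cons 199 (.leaf 223 1599 (.cons 225 (.leaf 201 1605 (.cons 320 (.leaf 249 1797 (.cons 321 (.leaf 297 1796 (.leaf 345 1988 .nil)) .nil)) .nil)) .nil)) (.cons 199 (.leaf 223 1599 (.cons 175 (.leaf 200 1407 (.cons 225 (.leaf 201 1605 (.cons 320 (.leaf 249 1797 (.cons 343 (.leaf 319 1982 (.cons 344 (.leaf 367 2174 (.cons 345 (.leaf 321 1988 (.leaf 369 2180 .nil)) .nil)) .nil)) .nil)) .nil)) .nil)) .nil)) (.cons 297 (.leaf 321 1796 (.cons 200 (.leaf 273 1604 (.cons 175 (.leaf 199 1407 (.cons 176 (.leaf 151 1215 (.cons 177 (.leaf 201 1413 (.leaf 153 1221 .nil)) .nil)) .nil)) .nil)) .nil)) (.cons 297 (.leaf 321 1796 (.cons 199 (.leaf 223 1599 (.cons 200 (.leaf 175 1407 (.leaf 273 1604 .nil)) .nil)) .nil)) (.cons 225 (.leaf 201 1605 (.cons 223 (.leaf 199 1599 (.cons 249 (.leaf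 320 1797 (.cons 222 (.leaf 221 1768 (.leaf 250 1776 .nil)) .nil)) .nil)) .nil)) (.cons 297 (.leaf 321 1796 (.cons 200 (.leaf 273 1604 (.cons 201 (.leaf 177 1413 (.leaf 225 1605 .nil)) .nil)) .nil)) .nil)))))) (.cons 224 (.cons 199 (.leaf 223 1599 (.cons 225 (.leaf 201 1605 (.cons 320 (.leaf 249 1797 (.cons 321 (.leaf 297 1796 (.leaf 345 1988 .nil)) .nil)) .nil)) .nil)) (.cons 199 (.leaf 223 1599 (.cons 175 (.leaf 200 1407 (.cons 319 (.leaf 295 1790 (.cons 320 (.leaf 343 1982 (.cons 321 (.leaf 297 1796 (.leaf 345 1988 .nil)) .nil)) .nil)) .nil)) .nil)) (.cons 201 (.leaf 225 1605 (.cons 200 (.leaf 177 1413 (.cons 295 (.leaf 271 1598 (.leaf 319 1790 .nil)) .nil)) .nil)) .nil))) (.cons 224 (.cons 199 (.leaf 223 1599 (.cons 225 (.leaf 201 1605 (.cons 200 (.leaf 175 1407 (.cons 197 (.leaf 198 1576 (.cons 319 (.leaf 295 1790 (.cons 320 (.leaf 249 1797 (.leaf 343 1982 .nil)) .nil)) .nil))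 .nil)) .nil)) .nil)) (.cons 199 (.leaf 223 1599 (.cons 200 (.leaf 175 1407 (.cons 201 (.leaf 177 1413 (.leaf 225 1605 .nil)) .nil)) .nil)) (.cons 199 (.leaf 223 1599 (.cons 200 (.leaf 175 1407 (.cons 295 (.leaf 271 1598 (.leaf 319 1790 .nil)) .nil)) .nil)) (.cons 295 (.leaf 319 1790 (.cons 200 (.leaf 271 1598 (.cons 201 (.leaf 177 1413 (.leaf 225 1605 .nil)) .nil)) .nil)) (.cons 199 (.leaf 223 1599 (.cons 225 (.leaf 201 1605 (.cons 319 (.leaf 295 1790 (.cons 320 (.leaf 249 1797 (.leaf 343 1982 .nil)) .nil)) .nil)) .nil)) .nil))))) (.cons 224 (.cons 201 (.leaf 225 1605 (.cons 200 (.leaf 177 1413 (.cons 297 (.leaf 273 1604 (.leaf 321 1796 .nil)) .nil)) .nil)) (.cons 225 (.leaf 201 1605 (.cons 223 (.leaf 199 1599 (.cons 249 (.leaf 320 1797 (.cons 222 (.leaf 221 1768 (.leaf 250 1776 .nil)) .nil)) .nil)) .nil)) (.cons 297 (.leaf 321 1796 (.cons 200 (.leaf 273 1604 (.cons 175 (.leaf 199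 1407 (.cons 176 (.leaf 151 1215 (.cons 177 (.leaf 201 1413 (.leaf 153 1221 .nil)) .nil)) .nil)) .nil)) .nil)) (.cons 297 (.leaf 321 1796 (.cons 199 (.leaf 223 1599 (.cons 200 (.leaf 175 1407 (.leaf 273 1604 .nil)) .nil)) .nil)) .nil)))) (.cons 224 (.cons 295 (.leaf 319 1790 (.cons 200 (.leaf 271 1598 (.cons 297 (.leaf 273 1604 (.leaf 321 1796 .nil)) .nil)) .nil)) (.cons 297 (.leaf 321 1796 (.cons 200 (.leaf 273 1604 (.cons 175 (.leaf 199 1407 (.cons 176 (.leaf 151 1215 (.cons 177 (.leaf 201 1413 (.leaf 153 1221 .nil)) .nil)) .nil)) .nil)) .nil)) (.cons 295 (.leaf 319 1790 (.cons 199 (.leaf 223 1599 (.cons 200 (.leaf 175 1407 (.leaf 271 1598 .nil)) .nil)) .nil)) (.cons 199 (.leaf 223 1599 (.cons 295 (.leaf 319 1790 (.cons 297 (.leaf 321 1796 (.cons 274 (.leaf 273 2170 (.leaf 298 2169 .nil)) .nil)) .nil)) .nil)) .nil)))) .nil)))))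
noncomputable def t69 : T := .cons 320 (.cons 223 (.leaf 247 1791 (.cons 343 (.leaf 319 1982 (.cons 344 (.leaf 367 2174 (.cons 345 (.leaf 321 1988 (.leaf 369 2180 .nil)) .nil)) .nil)) .nil)) (.cons 225 (.leaf 249 1797 (.cons 343 (.leaf 319 1982 (.cons 344 (.leaf 367 2174 (.cons 345 (.leaf 321 1988 (.leaf 369 2180 .nil)) .nil)) .nil)) .nil)) (.cons 247 (.leaf 223 1791 (.cons 249 (.leaf 225 1797 (.cons 250 (.leaf 274 1976 (.cons 271 (.leaf 344 1983 (.leaf 251 1978 .nil)) .nil)) .nil)) .nil)) (.cons 247 (.leaf 223 1791 (.cons 249 (.leaf 225 1797 (.cons 250 (.leaf 274 1976 (.cons 271 (.leaf 251 1978 (.leaf 270 1970 .nil)) .nil)) .nil)) .nil)) .nil)))) (.cons 224 (.cons 199 (.leaf 223 1599 (.cons 175 (.leaf 200 1407 (.cons 295 (.leaf 319 1790 (.cons 297 (.leaf 321 1796 (.cons 298 (.leaf 274 2169 (.cons 271 (.leaf 299 2171 (.leaf 270 2163 .nil)) .nil)) .nil)) .nil)) .nil)) .nil)) (.cons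 199 (.leaf 223 1599 (.cons 200 (.leaf 175 1407 (.cons 201 (.leaf 177 1413 (.leaf 225 1605 .nil)) .nil)) .nil)) (.cons 295 (.leaf 319 1790 (.cons 200 (.leaf 271 1598 (.cons 201 (.leaf 177 1413 (.leaf 225 1605 .nil)) .nil)) .nil)) (.cons 199 (.leaf 223 1599 (.cons 201 (.leaf 225 1605 (.cons 295 (.leaf 319 1790 (.cons 297 (.leaf 321 1796 (.cons 298 (.leaf 274 2169 (.cons 271 (.leaf 299 2171 (.leaf 270 2163 .nil)) .nil)) .nil)) .nil)) .nil)) .nil)) .nil)))) (.cons 320 (.cons 225 (.leaf 249 1797 (.cons 201 (.leaf 224 1605 (.cons 343 (.leaf 319 1982 (.cons 344 (.leaf 367 2174 (.cons 345 (.leaf 321 1988 (.leaf 369 2180 .nil)) .nil)) .nil)) .nil)) .nil)) (.cons 225 (.leaf 249 1797 (.cons 224 (.leaf 201 1605 (.cons 321 (.leaf 297 1796 (.leaf 345 1988 .nil)) .nil)) .nil)) (.cons 225 (.leaf 249 1797 (.cons 201 (.leaf 224 1605 (.cons 343 (.leaf 319 1982 (.cons 344 (.leaf 367 2174 (.cons 271 (.leaf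 247 1983 (.cons 368 (.leaf 295 2175 (.cons 369 (.leaf 345 2180 (.leaf 393 2372 .nil)) .nil)) .nil)) .nil)) .nil)) .nil)) .nil)) (.cons 225 (.leaf 249 1797 (.cons 224 (.leaf 201 1605 (.cons 319 (.leaf 295 1790 (.leaf 343 1982 .nil)) .nil)) .nil)) (.cons 319 (.leaf 343 1982 (.cons 224 (.leaf 295 1790 (.cons 321 (.leaf 297 1796 (.leaf 345 1988 .nil)) .nil)) .nil)) (.cons 343 (.leaf 319 1982 (.cons 344 (.leaf 367 2174 (.cons 345 (.leaf 321 1988 (.leaf 369 2180 .nil)) .nil)) .nil)) .nil)))))) (.cons 224 (.cons 201 (.leaf 225 1605 (.cons 200 (.leaf 177 1413 (.cons 271 (.leaf 295 1598 (.cons 247 (.leaf 176 1406 (.cons 320 (.leaf 223 1791 (.leaf 344 1983 .nil)) .nil)) .nil)) .nil)) .nil)) (.cons 225 (.leaf 201 1605 (.cons 320 (.leaf 249 1797 (.cons 321 (.leaf 297 1796 (.leaf 345 1988 .nil)) .nil)) .nil)) (.cons 199 (.leaf 223 1599 (.cons 200 (.leaf 175 1407 (.cons 177 (.leaf 201 1413 (.cons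 176 (.leaf 153 1221 (.cons 271 (.leaf 295 1598 (.leaf 247 1406 .nil)) .nil)) .nil)) .nil)) .nil)) (.cons 199 (.leaf 223 1599 (.cons 200 (.leaf 175 1407 (.cons 271 (.leaf 295 1598 (.cons 247 (.leaf 176 1406 (.cons 320 (.leaf 344 1983 (.cons 321 (.leaf 297 1796 (.leaf 345 1988 .nil)) .nil)) .nil)) .nil)) .nil)) .nil)) .nil)))) (.cons 224 (.cons 199 (.leaf 223 1599 (.cons 175 (.leaf 200 1407 (.cons 319 (.leaf 295 1790 (.cons 320 (.leaf 343 1982 (.cons 321 (.leaf 297 1796 (.leaf 345 1988 .nil)) .nil)) .nil)) .nil)) .nil)) (.cons 225 (.leaf 201 1605 (.cons 320 (.leaf 249 1797 (.cons 321 (.leaf 297 1796 (.leaf 345 1988 .nil)) .nil)) .nil)) (.cons 199 (.leaf 223 1599 (.cons 175 (.leaf 200 1407 (.cons 225 (.leaf 201 1605 (.cons 319 (.leaf 295 1790 (.cons 320 (.leaf 249 1797 (.leaf 343 1982 .nil)) .nil)) .nil)) .nil)) .nil)) (.cons 199 (.leaf 223 1599 (.cons 200 (.leaf 175 1407 (.cons 201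 (.leaf 177 1413 (.leaf 225 1605 .nil)) .nil)) .nil)) .nil)))) (.cons 224 (.cons 199 (.leaf 223 1599 (.cons 200 (.leaf 175 1407 (.cons 295 (.leaf 271 1598 (.leaf 319 1790 .nil)) .nil)) .nil)) (.cons 295 (.leaf 319 1790 (.cons 200 (.leaf 271 1598 (.cons 201 (.leaf 177 1413 (.leaf 225 1605 .nil)) .nil)) .nil)) (.cons 223 (.leaf 199 1599 (.cons 225 (.leaf 201 1605 (.cons 247 (.leaf 320 1791 (.cons 226 (.leaf 227 1786 (.leaf 246 1778 .nil)) .nil)) .nil)) .nil)) .nil))) (.cons 320 (.cons 343 (.leaf 319 1982 (.cons 344 (.leaf 367 2174 (.cons 345 (.leaf 321 1988 (.leaf 369 2180 .nil)) .nil)) .nil)) (.cons 223 (.leaf 247 1791 (.cons 224 (.leaf 199 1599 (.cons 321 (.leaf 297 1796 (.leaf 345 1988 .nil)) .nil)) .nil)) (.cons 223 (.leaf 247 1791 (.cons 224 (.leaf 199 1599 (.cons 319 (.leaf 295 1790 (.leaf 343 1982 .nil)) .nil)) .nil)) .nil))) .nil))))))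
noncomputable def t70 : T := .cons 296 (.leaf 295 2170 (.cons 299 (.leaf 300 2176 (.cons 224 (.cons 199 (.leaf 223 1599 (.cons 297 (.leaf 200 1604 (.leaf 321 1796 .nil)) .nil)) (.cons 225 (.leaf 201 1605 (.cons 320 (.leaf 249 1797 (.cons 321 (.leaf 345 1988 (.cons 251 (.leaf 252 1985 (.cons 223 (.leaf 199 1599 (.cons 226 (.leaf 250 1784 (.cons 202 (.leaf 227 1623 (.leaf 203 1593 .nil)) .nil)) .nil)) .nil)) .nil)) .nil)) .nil)) (.cons 225 (.leaf 201 1605 (.cons 199 (.leaf 223 1599 (.cons 200 (.leaf 175 1407 (.leaf 297 1604 .nil)) .nil)) .nil)) (.cons 297 (.leaf 200 1604 (.leaf 321 1796 .nil)) .nil)))) .nil)) .nil)) (.cons 251 (.leaf 252 1985 (.cons 250 (.leaf 271 1977 (.cons 299 (.leaf 300 2176 (.cons 226 (.leaf 202 1620 (.leaf 323 1815 .nil)) .nil)) .nil)) .nil)) (.cons 296 (.leaf 295 2170 (.cons 299 (.leaf 300 2176 (.cons 224 (.cons 199 (.leaf 223 1599 (.cons 297 (.leaf 200 1604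 (.leaf 321 1796 .nil)) .nil)) (.cons 225 (.leaf 201 1605 (.cons 320 (.leaf 249 1797 (.cons 321 (.leaf 345 1988 (.cons 319 (.leaf 343 1982 (.cons 298 (.leaf 271 2168 (.leaf 322 2361 .nil)) .nil)) .nil)) .nil)) .nil)) (.cons 225 (.leaf 201 1605 (.cons 199 (.leaf 223 1599 (.cons 200 (.leaf 175 1407 (.leaf 297 1604 .nil)) .nil)) .nil)) .nil))) .nil)) .nil)) (.cons 251 (.leaf 252 1985 (.cons 271 (.leaf 250 1977 (.cons 295 (.leaf 296 2170 (.leaf 294 2162 .nil)) .nil)) .nil)) .nil)))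
noncomputable def t71 : T := .cons 224 (.leaf 200 1604 (.cons 321 (.leaf 296 1796 (.leaf 345 1991 .nil)) .nil)) (.cons 321 (.leaf 345 1991 (.cons 249 (.cons 226 (.leaf 250 1805 (.cons 322 (.leaf 346 1996 (.cons 225 (.leaf 202 1613 (.leaf 298 1804 .nil)) .nil)) .nil)) (.cons 320 (.leaf 344 1990 (.cons 322 (.leaf 346 1996 (.cons 298 (.leaf 225 1804 (.cons 299 (.leaf 300 2370 (.leaf 319 2361 .nil)) .nil)) .nil)) .nil)) (.cons 226 (.leaf 250 1805 (.cons 225 (.leaf 202 1613 (.cons 201 (.leaf 177 1414 (.leaf 296 1606 .nil)) .nil)) .nil)) (.cons 250 (.leaf 226 1805 (.cons 251 (.leaf 271 1978 (.leaf 252 1986 .nil)) .nil)) .nil)))) .nil)) (.cons 224 (.leaf 200 1604 (.cons 296 (.cons 223 (.leaf 199 1599 (.cons 225 (.leaf 201 1605 (.cons 295 (.leaf 319 1790 (.cons 294 (.leaf 293 2153 (.cons 270 (.leaf 269 2155 (.cons 318 (.leaf 317 2346 (.cons 246 (.leaf 247 1781 (.cons 245 (.leaf 271 1963 (.leaf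 222 1770 .nil)) .nil)) .nil)) .nil)) .nil)) .nil)) .nil)) .nil)) (.cons 199 (.leaf 223 1599 (.cons 295 (.leaf 319 1790 (.cons 294 (.leaf 293 2153 (.cons 270 (.leaf 269 2155 (.cons 298 (.leaf 271 2160 (.cons 299 (.leaf 300 2179 (.cons 323 (.leaf 322 2360 (.leaf 324 2368 .nil)) .nil)) .nil)) .nil)) .nil)) .nil)) .nil)) (.cons 223 (.leaf 199 1599 (.cons 225 (.leaf 201 1605 (.cons 247 (.leaf 320 1791 (.cons 246 (.leaf 245 1960 (.leaf 226 1778 .nil)) .nil)) .nil)) .nil)) (.cons 225 (.leaf 201 1605 (.cons 249 (.leaf 320 1797 (.cons 295 (.leaf 319 1790 (.cons 294 (.leaf 293 2153 (.cons 270 (.leaf 269 2155 (.cons 271 (.leaf 250 1969 (.leaf 298 2160 .nil)) .nil)) .nil)) .nil)) .nil)) .nil)) .nil)))) .nil)) (.cons 224 (.leaf 200 1604 (.cons 321 (.leaf 345 1991 (.leaf 249 1799 .nil)) .nil)) .nil)))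
noncomputable def t72 : T := .cons 274 (.leaf 247 1979 (.cons 251 (.leaf 252 1985 (.cons 250 (.leaf 271 1977 (.cons 299 (.leaf 300 2176 (.cons 226 (.leaf 202 1620 (.leaf 323 1815 .nil)) .nil)) .nil)) .nil)) .nil)) (.cons 297 t71 (.cons 274 t70 (.cons 274 (.leaf 247 1979 (.cons 296 (.leaf 295 2170 (.cons 299 (.leaf 300 2176 (.cons 224 (.cons 199 (.leaf 223 1599 (.cons 321 (.leaf 297 1796 (.cons 201 (.leaf 225 1605 (.cons 320 (.leaf 345 1988 (.cons 319 (.leaf 343 1982 (.cons 322 (.leaf 298 2361 (.cons 200 (.leaf 175 1407 (.leaf 177 1413 .nil)) .nil)) .nil)) .nil)) .nil)) .nil)) .nil)) (.cons 225 (.leaf 201 1605 (.cons 320 (.leaf 249 1797 (.cons 321 (.leaf 345 1988 (.cons 251 (.leaf 252 1985 (.cons 223 (.leaf 199 1599 (.cons 226 (.leaf 250 1784 (.cons 202 (.leaf 227 1623 (.leaf 203 1593 .nil)) .nil)) .nil)) .nil)) .nil)) .nil)) .nil)) (.cons 297 (.leaf 200 1604 (.leaf 321 1796 .nil))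 (.cons 225 (.leaf 201 1605 (.cons 199 (.leaf 223 1599 (.cons 200 (.leaf 175 1407 (.leaf 297 1604 .nil)) .nil)) .nil)) .nil)))) .nil)) .nil)) .nil)) (.cons 274 (.leaf 247 1979 (.cons 296 (.leaf 295 2170 (.cons 299 (.leaf 300 2176 (.cons 224 (.cons 199 (.leaf 223 1599 (.cons 297 (.leaf 200 1604 (.leaf 321 1796 .nil)) .nil)) (.cons 225 (.leaf 201 1605 (.cons 320 (.leaf 249 1797 (.cons 321 (.leaf 345 1988 (.cons 319 (.leaf 343 1982 (.cons 298 (.leaf 271 2168 (.leaf 322 2361 .nil)) .nil)) .nil)) .nil)) .nil)) (.cons 225 (.leaf 201 1605 (.cons 199 (.leaf 223 1599 (.cons 200 (.leaf 175 1407 (.leaf 297 1604 .nil)) .nil)) .nil)) .nil))) .nil)) .nil)) .nil)) (.cons 274 (.leaf 247 1979 (.cons 251 (.leaf 252 1985 (.cons 271 (.leaf 250 1977 (.cons 295 (.leaf 296 2170 (.leaf 294 2162 .nil)) .nil)) .nil)) .nil)) .nil)))))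
noncomputable def t73 : T := .cons 321 (.leaf 345 1991 (.cons 249 (.leaf 224 1799 (.cons 320 (.leaf 344 1990 (.cons 322 (.leaf 346 1996 (.cons 225 (.leaf 296 1797 (.leaf 298 1804 .nil)) .nil)) .nil)) .nil)) .nil)) (.cons 224 (.leaf 200 1604 (.cons 296 (.cons 295 (.leaf 319 1790 (.cons 294 (.leaf 293 2153 (.cons 270 (.leaf 269 2155 (.cons 271 (.leaf 298 2160 (.cons 223 (.leaf 199 1599 (.cons 318 (.leaf 317 2346 (.leaf 247 1782 .nil)) .nil)) .nil)) .nil)) .nil)) .nil)) (.cons 223 (.leaf 199 1599 (.cons 320 (.leaf 247 1791 (.cons 344 (.leaf 249 1989 (.leaf 368 2181 .nil)) .nil)) .nil)) (.cons 295 (.leaf 319 1790 (.cons 294 (.leaf 293 2153 (.cons 270 (.leaf 269 2155 (.cons 271 (.leaf 298 2160 (.cons 245 (.leaf 246 1963 (.cons 249 (.leaf 250 1969 (.cons 318 (.leaf 317 2346 (.cons 342 (.leaf 366 2165 (.leaf 247 1973 .nil)) .nil)) .nil)) .nil)) .nil)) .nil)) .nil)) .nil)) (.cons 295 (.leaf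 319 1790 (.cons 199 (.leaf 223 1599 (.cons 294 (.leaf 293 2153 (.cons 270 (.leaf 269 2155 (.cons 298 (.leaf 271 2160 (.cons 299 (.leaf 300 2179 (.cons 323 (.leaf 322 2360 (.leaf 324 2368 .nil)) .nil)) .nil)) .nil)) .nil)) .nil)) .nil)) .nil)))) .nil)) (.cons 321 (.leaf 345 1991 (.cons 249 (.cons 320 (.leaf 344 1990 (.cons 322 (.leaf 346 1996 (.cons 225 (.leaf 296 1797 (.leaf 298 1804 .nil)) .nil)) .nil)) (.cons 226 (.leaf 250 1805 (.cons 225 (.leaf 202 1613 (.cons 322 (.leaf 298 1804 (.leaf 346 1996 .nil)) .nil)) .nil)) (.cons 226 (.leaf 250 1805 (.cons 225 (.leaf 202 1613 (.cons 320 (.leaf 296 1797 (.leaf 344 1990 .nil)) .nil)) .nil)) (.cons 250 (.leaf 226 1805 (.cons 251 (.leaf 271 1978 (.leaf 252 1986 .nil)) .nil)) .nil)))) .nil)) (.cons 321 (.leaf 345 1991 (.cons 224 (.leaf 200 1604 (.leaf 249 1799 .nil)) .nil)) (.cons 321 (.leaf 345 1991 (.cons 224 (.leaf 200 1604 (.leaf 296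 1796 .nil)) .nil)) .nil))))
noncomputable def t74 : T := .cons 274 (.leaf 247 1979 (.cons 295 (.leaf 296 2170 (.cons 271 (.leaf 294 2162 (.cons 299 (.leaf 300 2176 (.leaf 298 2168 .nil)) .nil)) .nil)) .nil)) (.cons 297 t73 (.cons 274 (.cons 295 (.leaf 296 2170 (.cons 271 (.leaf 294 2162 (.cons 299 (.leaf 300 2176 (.leaf 298 2168 .nil)) .nil)) .nil)) (.cons 295 (.leaf 296 2170 (.cons 251 (.leaf 252 1985 (.cons 271 (.leaf 250 1977 (.leaf 294 2162 .nil)) .nil)) .nil)) (.cons 299 (.leaf 300 2176 (.cons 251 (.leaf 252 1985 (.cons 271 (.leaf 250 1977 (.leaf 298 2168 .nil)) .nil)) .nil)) (.cons 296 (.leaf 295 2170 (.cons 299 (.leaf 300 2176 (.cons 251 (.leaf 252 1985 (.cons 320 (.cons 225 (.leaf 249 1797 (.cons 319 (.leaf 343 1982 (.cons 298 (.leaf 297 2362 (.cons 321 (.leaf 345 1988 (.leaf 322 2361 .nil)) .nil)) .nil)) .nil)) (.cons 319 (.leaf 343 1982 (.cons 345 (.leaf 321 1988 (.cons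 344 (.leaf 369 2180 (.cons 297 (.leaf 368 2181 (.leaf 298 2362 .nil)) .nil)) .nil)) .nil)) (.cons 249 (.leaf 225 1797 (.leaf 344 1989 .nil)) .nil))) .nil)) .nil)) .nil)) .nil)))) (.cons 274 (.leaf 247 1979 (.cons 299 (.leaf 300 2176 (.cons 251 (.leaf 252 1985 (.cons 271 (.leaf 250 1977 (.leaf 298 2168 .nil)) .nil)) .nil)) .nil)) (.cons 274 (.leaf 247 1979 (.cons 296 (.leaf 295 2170 (.cons 299 (.leaf 300 2176 (.cons 251 (.leaf 252 1985 (.cons 320 (.cons 225 (.leaf 249 1797 (.cons 319 (.leaf 343 1982 (.cons 298 (.leaf 297 2362 (.cons 321 (.leaf 345 1988 (.leaf 322 2361 .nil)) .nil)) .nil)) .nil)) (.cons 319 (.leaf 343 1982 (.cons 345 (.leaf 321 1988 (.cons 344 (.leaf 369 2180 (.cons 297 (.leaf 368 2181 (.leaf 298 2362 .nil)) .nil)) .nil)) .nil)) (.cons 249 (.leaf 225 1797 (.leaf 344 1989 .nil)) .nil))) .nil)) .nil)) .nil)) .nil)) (.cons 274 (.leaf 247 1979 (.cons 251 (.leaf 252 1985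 (.cons 271 (.leaf 250 1977 (.cons 295 (.leaf 296 2170 (.leaf 294 2162 .nil)) .nil)) .nil)) .nil)) .nil)))))
noncomputable def t75 : T := .cons 199 (.leaf 223 1599 (.cons 321 (.leaf 297 1796 (.cons 201 (.leaf 225 1605 (.cons 320 (.leaf 345 1988 (.cons 319 (.leaf 343 1982 (.cons 322 (.leaf 298 2361 (.cons 200 (.leaf 175 1407 (.leaf 177 1413 .nil)) .nil)) .nil)) .nil)) .nil)) .nil)) .nil)) (.cons 225 (.leaf 201 1605 (.cons 320 (.leaf 249 1797 (.cons 321 (.leaf 345 1988 (.cons 319 (.leaf 343 1982 (.cons 199 (.leaf 223 1599 (.cons 200 (.leaf 175 1407 (.cons 322 (.leaf 298 2361 (.cons 347 (.leaf 346 2552 (.cons 323 (.leaf 250 2007 (.leaf 348 2560 .nil)) .nil)) .nil)) .nil)) .nil)) .nil)) .nil)) .nil)) .nil)) (.cons 199 (.leaf 223 1599 (.cons 321 (.leaf 297 1796 (.cons 201 (.leaf 225 1605 (.cons 320 (.leaf 345 1988 (.cons 319 (.leaf 343 1982 (.cons 322 (.leaf 298 2361 (.cons 347 (.leaf 346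 2552 (.cons 323 (.leaf 250 2007 (.leaf 348 2560 .nil)) .nil)) .nil)) .nil)) .nil)) .nil)) .nil)) .nil)) (.cons 297 (.leaf 200 1604 (.leaf 321 1796 .nil)) (.cons 225 (.leaf 201 1605 (.cons 199 (.leaf 223 1599 (.cons 200 (.leaf 175 1407 (.leaf 297 1604 .nil)) .nil)) .nil)) .nil))))
noncomputable def t76 : T := .cons 299 (.leaf 300 2176 (.cons 251 (.leaf 252 1985 (.cons 323 (.cons 250 (.leaf 226 1815 (.leaf 347 2007 .nil)) (.cons 322 (.leaf 346 2006 (.cons 348 (.leaf 324 2012 (.cons 347 (.leaf 372 2204 (.cons 298 (.leaf 227 1814 (.leaf 271 2168 .nil)) .nil)) .nil)) .nil)) (.cons 226 (.leaf 250 1815 (.cons 227 (.leaf 202 1623 (.cons 322 (.leaf 298 1814 (.leaf 346 2006 .nil)) .nil)) .nil)) .nil))) .nil)) .nil)) (.cons 251 (.leaf 252 1985 (.cons 271 (.leaf 250 1977 (.cons 295 (.leaf 296 2170 (.leaf 294 2162 .nil)) .nil)) .nil)) (.cons 296 (.leaf 295 2170 (.cons 299 (.leaf 300 2176 (.cons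 224 t0 .nil)) .nil)) (.cons 296 (.leaf 295 2170 (.cons 299 (.leaf 300 2176 (.cons 224 (.cons 199 (.leaf 223 1599 (.cons 321 (.leaf 297 1796 (.cons 201 (.leaf 225 1605 (.cons 320 (.leaf 345 1988 (.cons 343 (.leaf 319 1982 (.cons 344 (.leaf 249 1989 (.leaf 367 2174 .nil)) .nil)) .nil)) .nil)) .nil)) .nil)) (.cons 225 (.leaf 201 1605 (.cons 199 (.leaf 223 1599 (.cons 200 (.leaf 175 1407 (.cons 249 (.leaf 320 1797 (.leaf 176 1412 .nil)) .nil)) .nil)) .nil)) (.cons 297 (.leaf 200 1604 (.leaf 321 1796 .nil)) .nil))) .nil)) .nil)) .nil)))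
noncomputable def t77 : T := .cons 199 (.leaf 223 1599 (.cons 201 (.leaf 225 1605 (.cons 319 (.leaf 295 1790 (.cons 320 (.leaf 343 1982 (.cons 344 (.leaf 249 1989 (.cons 345 (.leaf 321 1988 (.leaf 369 2180 .nil)) .nil)) .nil)) .nil)) .nil)) .nil)) (.cons 225 (.leaf 201 1605 (.cons 199 (.leaf 223 1599 (.cons 320 (.leaf 249 1797 (.cons 343 (.leaf 319 1982 (.cons 344 (.leaf 367 2174 (.cons 247 (.leaf 271 1983 (.cons 246 (.leaf 245 1960 (.cons 226 (.leaf 227 1786 (.cons 368 (.leaf 297 2181 (.cons 369 (.leaf 345 2180 (.leaf 393 2372 .nil)) .nil)) .nil)) .nil)) .nil)) .nil)) .nil)) .nil)) .nil)) .nil)) (.cons 321 (.leaf 297 1796 (.cons 295 (.leaf 319 1790 (.cons 293 (.leaf 294 2153 (.cons 320 (.leaf 345 1988 (.cons 322 (.leaf 323 2363 (.cons 344 (.leaf 249 1989 (.cons 271 (.leaf 247 1983 (.leaf 368 2175 .nil)) .nil)) .nil)) .nil)) .nil)) .nil)) .nil)) (.cons 297 (.leaf 321 1796 (.cons 223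 (.leaf 199 1599 (.cons 225 (.leaf 201 1605 (.cons 295 (.leaf 319 1790 (.cons 294 (.leaf 293 2153 (.cons 318 (.leaf 317 2346 (.cons 247 (.leaf 271 1782 (.cons 246 (.leaf 245 1960 (.leaf 226 1778 .nil)) .nil)) .nil)) .nil)) .nil)) .nil)) .nil)) .nil)) (.cons 321 (.leaf 297 1796 (.cons 199 (.leaf 223 1599 (.cons 320 (.leaf 345 1988 (.cons 344 (.leaf 249 1989 (.cons 271 (.leaf 247 1983 (.cons 368 (.leaf 295 2175 (.cons 367 (.leaf 343 2174 (.leaf 391 2366 .nil)) .nil)) .nil)) .nil)) .nil)) .nil)) .nil)) .nil))))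
noncomputable def t78 : T := .cons 296 (.cons 199 (.leaf 223 1599 (.cons 201 (.leaf 225 1605 (.cons 319 (.leaf 295 1790 (.cons 320 (.leaf 343 1982 (.cons 344 (.leaf 249 1989 (.cons 200 (.leaf 175 1407 (.leaf 177 1413 .nil)) .nil)) .nil)) .nil)) .nil)) .nil)) (.cons 199 (.leaf 223 1599 (.cons 201 (.leaf 225 1605 (.cons 319 (.leaf 295 1790 (.cons 320 (.leaf 343 1982 (.cons 344 (.leaf 249 1989 (.cons 345 (.leaf 321 1988 (.leaf 369 2180 .nil)) .nil)) .nil)) .nil)) .nil)) .nil)) (.cons 199 (.leaf 223 1599 (.cons 295 (.leaf 319 1790 (.cons 293 (.leaf 294 2153 (.cons 200 (.leaf 175 1407 (.leaf 271 1598 .nil)) .nil)) .nil)) .nil)) (.cons 297 (.leaf 200 1604 (.leaf 321 1796 .nil)) .nil)))) (.cons 296 t77 (.cons 200 (.cons 176 (.leaf 249 1412 (.cons 177 (.leaf 201 1413 (.leaf 153 1221 .nil)) .nil)) (.cons 177 (.leaf 201 1413 (.cons 199 (.leaf 175 1407 (.cons 296 (.leaf 223 1599 (.cons 295 (.leaf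 271 1598 (.leaf 319 1790 .nil)) .nil)) .nil)) .nil)) (.cons 175 (.leaf 199 1407 (.cons 176 (.leaf 151 1215 (.leaf 249 1412 .nil)) .nil)) .nil))) (.cons 200 (.leaf 297 1604 (.cons 176 (.leaf 249 1412 (.cons 177 (.leaf 201 1413 (.leaf 153 1221 .nil)) .nil)) .nil)) (.cons 200 (.leaf 297 1604 (.cons 175 (.leaf 199 1407 (.cons 176 (.leaf 151 1215 (.cons 177 (.leaf 201 1413 (.leaf 153 1221 .nil)) .nil)) .nil)) .nil)) (.cons 200 (.leaf 297 1604 (.cons 175 (.leaf 199 1407 (.cons 176 (.leaf 151 1215 (.leaf 249 1412 .nil)) .nil)) .nil)) .nil)))))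
noncomputable def t79 : T := .cons 202 (.leaf 299 1620 (.cons 178 (.leaf 251 1428 (.cons 177 (.leaf 201 1423 (.leaf 153 1231 .nil)) .nil)) .nil)) (.cons 298 (.cons 201 (.leaf 225 1615 (.cons 177 (.leaf 202 1423 (.cons 297 (.leaf 321 1806 (.cons 296 (.leaf 295 2169 (.cons 223 (.leaf 320 1791 (.cons 199 (.leaf 175 1404 (.leaf 271 1596 .nil)) .nil)) .nil)) .nil)) .nil)) .nil)) (.cons 201 (.leaf 225 1615 (.cons 202 (.leaf 177 1423 (.cons 178 (.leaf 251 1428 (.cons 179 (.leaf 155 1237 (.cons 180 (.leaf 181 1418 (.cons 199 (.leaf 200 1401 (.cons 223 (.leaf 175 1404 (.cons 296 (.leaf 271 1596 (.leaf 320 1791 .nil)) .nil)) .nil)) .nil)) .nil)) .nil)) .nil)) .nil)) (.cons 297 (.leaf 321 1806 (.cons 296 (.leaf 295 2169 (.cons 223 (.leaf 320 1791 (.cons 199 (.leaf 175 1404 (.leaf 271 1596 .nil)) .nil)) .nil)) .nil)) (.cons 201 (.leaf 225 1615 (.cons 177 (.leaf 202 1423 (.cons 321 (.leaf 297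 1806 (.cons 322 (.leaf 345 1998 (.cons 251 (.leaf 346 2005 (.leaf 227 1813 .nil)) .nil)) .nil)) .nil)) .nil)) .nil)))) (.cons 298 (.cons 201 (.leaf 225 1615 (.cons 323 (.leaf 299 1812 (.cons 322 (.leaf 347 2004 (.cons 321 (.leaf 297 1806 (.leaf 345 1998 .nil)) .nil)) .nil)) .nil)) (.cons 297 (.leaf 321 1806 (.cons 201 (.leaf 225 1615 (.cons 296 (.leaf 295 2169 (.cons 223 (.leaf 320 1791 (.cons 199 (.leaf 175 1404 (.leaf 271 1596 .nil)) .nil)) .nil)) .nil)) .nil)) (.cons 201 (.leaf 225 1615 (.cons 323 (.leaf 299 1812 (.cons 322 (.leaf 347 2004 (.cons 345 (.leaf 321 1998 (.cons 346 (.leaf 251 2005 (.leaf 369 2190 .nil)) .nil)) .nil)) .nil)) .nil)) (.cons 201 (.leaf 225 1615 (.cons 323 (.leaf 299 1812 (.cons 322 (.leaf 347 2004 (.cons 251 (.leaf 346 2005 (.leaf 227 1813 .nil)) .nil)) .nil)) .nil)) (.cons 297 (.leaf 321 1806 (.cons 296 (.leaf 295 2169 (.cons 223 (.leaf 320 1791 (.cons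 299 (.leaf 271 2171 (.leaf 323 1812 .nil)) .nil)) .nil)) .nil)) .nil))))) (.cons 299 (.leaf 202 1620 (.cons 323 (.leaf 347 2007 (.leaf 298 1812 .nil)) .nil)) .nil)))
noncomputable def t80 : T := .cons 221 (.leaf 222 1771 (.cons 225 (.leaf 226 1777 (.cons 201 (.leaf 177 1414 (.cons 200 (.leaf 176 1415 (.cons 224 (.leaf 297 1604 (.cons 199 (.leaf 175 1407 (.cons 198 (.leaf 197 1576 (.cons 271 (.leaf 295 1598 (.cons 270 (.leaf 269 1961 (.leaf 250 1969 .nil)) .nil)) .nil)) .nil)) .nil)) .nil)) .nil)) .nil)) .nil)) (.cons 221 (.leaf 222 1771 (.cons 225 (.leaf 226 1777 (.cons 201 (.leaf 177 1414 (.cons 200 (.leaf 176 1415 (.cons 224 (.leaf 297 1604 (.cons 199 (.leaf 175 1407 (.cons 198 (.leaf 197 1576 (.cons 271 (.leaf 295 1598 (.cons 174 (.leaf 223 1399 (.leaf 173 1387 .nil)) .nil)) .nil)) .nil)) .nil)) .nil)) .nil)) .nil)) .nil)) (.cons 270 (.leaf 269 1962 (.cons 250 (.leaf 271 1969 (.cons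 251 (.leaf 252 1986 (.cons 224 (.leaf 223 1787 (.cons 297 (.leaf 200 1604 (.leaf 321 1799 .nil)) .nil)) .nil)) .nil)) .nil)) (.cons 225 (.leaf 226 1777 (.cons 177 (.leaf 201 1414 (.cons 222 (.leaf 221 1771 (.cons 223 (.leaf 250 1779 (.cons 270 (.leaf 269 1962 (.cons 199 (.leaf 175 1404 (.leaf 294 1589 .nil)) .nil)) .nil)) .nil)) .nil)) .nil)) .nil)))
noncomputable def t81 : T := .cons 226 (.leaf 202 1620 (.cons 323 (.leaf 251 1815 (.leaf 347 2007 .nil)) .nil)) (.cons 226 (.leaf 202 1620 (.cons 225 (.cons 224 (.leaf 227 1786 (.cons 201 (.leaf 296 1605 (.leaf 298 1615 .nil)) .nil)) (.cons 298 (.leaf 201 1615 (.cons 321 (.leaf 297 1806 (.cons 322 (.leaf 345 1998 (.cons 251 (.leaf 227 1813 (.leaf 346 2005 .nil)) .nil)) .nil)) .nil)) (.cons 224 (.leaf 227 1786 (.cons 223 (.leaf 251 1784 (.cons 199 (.leaf 175 1404 (.leaf 296 1599 .nil)) .nil)) .nil)) (.cons 298 (.leaf 201 1615 (.cons 321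 (.leaf 297 1806 (.cons 322 (.leaf 345 1998 (.cons 346 (.leaf 251 2005 (.leaf 370 2197 .nil)) .nil)) .nil)) .nil)) .nil)))) .nil)) (.cons 323 (.leaf 347 2007 (.cons 251 (.cons 322 (.leaf 346 2006 (.cons 227 (.leaf 298 1813 (.cons 324 (.leaf 300 1820 (.leaf 348 2012 .nil)) .nil)) .nil)) (.cons 324 (.leaf 348 2012 (.cons 227 (.leaf 300 1820 (.cons 228 (.leaf 204 1629 (.leaf 252 1821 .nil)) .nil)) .nil)) (.cons 322 (.leaf 346 2006 (.cons 227 (.leaf 298 1813 (.cons 228 (.leaf 204 1629 (.leaf 252 1821 .nil)) .nil)) .nil)) (.cons 252 (.leaf 228 1821 (.cons 253 (.leaf 254 2002 (.cons 229 (.leaf 230 1809 (.cons 277 (.leaf 278 2000 (.cons 324 (.leaf 348 2012 (.cons 301 (.leaf 300 1830 (.cons 302 (.leaf 326 1836 (.cons 322 (.leaf 346 2006 (.leaf 325 2385 .nil)) .nil)) .nil)) .nil)) .nil)) .nil)) .nil)) .nil)) .nil)))) .nil)) (.cons 323 (.leaf 347 2007 (.cons 226 (.leaf 202 1620 (.leaf 298 1812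 .nil)) .nil)) .nil)))
noncomputable def t82 : T := .cons 273 (.leaf 274 1979 (.cons 246 (.leaf 245 1960 (.cons 249 (.cons 222 (.leaf 221 1771 (.cons 223 (.leaf 250 1779 (.cons 199 (.leaf 175 1404 (.cons 296 (.leaf 224 1599 (.leaf 271 1596 .nil)) .nil)) .nil)) .nil)) (.cons 225 (.leaf 226 1777 (.cons 201 (.leaf 177 1414 (.leaf 296 1606 .nil)) .nil)) (.cons 222 (.leaf 221 1771 (.cons 225 (.leaf 226 1777 (.cons 201 (.leaf 177 1414 (.cons 176 (.leaf 200 1415 (.cons 202 (.leaf 178 1421 (.cons 223 (.leaf 250 1779 (.leaf 224 1585 .nil)) .nil)) .nil)) .nil)) .nil)) .nil)) .nil))) .nil)) .nil)) (.cons 249 t6 (.cons 223 (.cons 199 (.leaf 175 1404 (.cons 271 (.leaf 296 1596 (.cons 270 (.leaf 294 1590 (.cons 269 (.leaf 249 1961 (.leaf 268 1953 .nil)) .nil)) .nil)) .nil)) (.cons 296 (.leaf 320 1791 (.cons 224 (.cons 297 (.leaf 321 1796 (.cons 200 (.leaf 273 1604 (.cons 176 (.leaf 271 1406 (.leaf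 152 1214 .nil)) .nil)) .nil)) (.cons 225 (.leaf 201 1605 (.cons 226 (.leaf 227 1786 (.leaf 246 1778 .nil)) .nil)) .nil)) .nil)) (.cons 199 (.leaf 175 1404 (.cons 271 (.cons 270 (.leaf 294 1590 (.cons 269 (.leaf 249 1961 (.leaf 268 1953 .nil)) .nil)) (.cons 174 (.leaf 198 1399 (.cons 200 (.leaf 176 1405 (.cons 224 (.leaf 295 1597 (.cons 201 (.leaf 177 1413 (.cons 222 (.leaf 202 1586 (.leaf 221 1577 .nil)) .nil)) .nil)) .nil)) .nil)) .nil)) .nil)) (.cons 199 (.leaf 175 1404 (.cons 296 (.leaf 224 1599 (.leaf 320 1791 .nil)) .nil)) .nil)))) (.cons 273 (.leaf 274 1979 (.cons 246 (.leaf 245 1960 (.cons 223 (.cons 199 (.leaf 175 1404 (.cons 296 (.leaf 224 1599 (.leaf 271 1596 .nil)) .nil)) (.cons 296 (.leaf 320 1791 (.cons 224 (.cons 225 (.leaf 201 1605 (.leaf 226 1778 .nil)) (.cons 297 (.leaf 200 1604 (.leaf 321 1796 .nil)) .nil)) .nil)) (.cons 199 (.leaf 175 1404 (.cons 271 (.cons 200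 (.leaf 176 1405 (.cons 198 (.leaf 174 1399 (.cons 222 (.leaf 295 1591 (.cons 201 (.leaf 202 1586 (.leaf 221 1578 .nil)) .nil)) .nil)) .nil)) (.cons 270 (.leaf 294 1590 (.cons 198 (.leaf 174 1399 (.cons 269 (.leaf 268 1953 (.cons 293 (.leaf 292 2146 (.leaf 222 1582 .nil)) .nil)) .nil)) .nil)) (.cons 200 (.leaf 176 1405 (.cons 270 (.leaf 294 1590 (.cons 297 (.leaf 224 1604 (.leaf 298 2160 .nil)) .nil)) .nil)) .nil))) .nil)) (.cons 199 (.leaf 175 1404 (.cons 296 (.leaf 271 1596 (.leaf 320 1791 .nil)) .nil)) .nil)))) .nil)) .nil)) (.cons 273 (.leaf 274 1979 (.cons 246 (.leaf 245 1960 (.cons 249 (.cons 270 (.leaf 269 1962 (.cons 271 (.leaf 250 1969 (.cons 293 (.leaf 294 2154 (.cons 297 (.leaf 298 2160 (.cons 321 (.leaf 345 1991 (.leaf 224 1799 .nil)) .nil)) .nil)) .nil)) .nil)) (.cons 225 (.leaf 226 1777 (.cons 201 (.leaf 177 1414 (.leaf 296 1606 .nil)) .nil)) .nil)) .nil)) .nil)) (.cons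 274 (.leaf 273 1979 (.cons 250 (.leaf 249 1976 (.cons 299 t81 .nil)) .nil)) (.cons 273 (.leaf 274 1979 (.cons 246 (.leaf 245 1960 (.cons 249 t80 .nil)) .nil)) (.cons 274 (.leaf 273 1979 (.cons 250 (.leaf 249 1976 (.cons 226 t79 .nil)) .nil)) (.cons 273 (.leaf 274 1979 (.cons 246 (.leaf 245 1960 (.cons 249 (.cons 222 (.leaf 221 1771 (.cons 223 (.leaf 250 1779 (.cons 199 (.leaf 175 1404 (.cons 296 (.leaf 224 1599 (.leaf 271 1596 .nil)) .nil)) .nil)) .nil)) (.cons 270 (.leaf 269 1962 (.cons 222 (.leaf 221 1771 (.cons 271 (.cons 198 (.leaf 174 1396 (.leaf 295 1588 .nil)) (.cons 297 (.leaf 298 2160 (.cons 224 (.leaf 200 1604 (.leaf 321 1799 .nil)) .nil)) .nil)) .nil)) .nil)) (.cons 270 (.leaf 269 1962 (.cons 250 (.leaf 271 1969 (.cons 251 (.leaf 252 1986 (.cons 224 (.leaf 223 1787 (.cons 297 (.leaf 200 1604 (.leaf 321 1799 .nil)) .nil)) .nil)) .nil)) .nil)) (.cons 222 (.leaf 221 1771 (.cons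 223 (.leaf 250 1779 (.cons 199 (.leaf 175 1404 (.cons 270 (.leaf 269 1962 (.leaf 294 1589 .nil)) .nil)) .nil)) .nil)) .nil)))) .nil)) .nil)) .nil))))))))
noncomputable def t83 : T := .cons 296 (.leaf 295 2170 (.cons 299 (.leaf 300 2176 (.cons 224 (.cons 199 (.leaf 223 1599 (.cons 321 (.leaf 297 1796 (.cons 201 (.leaf 225 1605 (.cons 320 (.leaf 345 1988 (.cons 343 (.leaf 319 1982 (.cons 344 (.leaf 249 1989 (.leaf 367 2174 .nil)) .nil)) .nil)) .nil)) .nil)) .nil)) (.cons 225 (.leaf 201 1605 (.cons 199 (.leaf 223 1599 (.cons 200 (.leaf 175 1407 (.cons 249 (.leaf 320 1797 (.leaf 176 1412 .nil)) .nil)) .nil)) .nil)) (.cons 297 (.leaf 200 1604 (.leaf 321 1796 .nil)) .nil))) .nil)) .nil)) (.cons 251 (.leaf 252 1985 (.cons 299 (.leaf 300 2176 (.cons 271 (.leaf 298 2168 (.cons 294 (.leaf 295 2162 (.cons 270 (.leaf 293 2154 (.cons 245 (.leaf 246 1963 (.cons 269 (.leaf 244 1955 (.leaf 249 1961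 .nil)) .nil)) .nil)) .nil)) .nil)) .nil)) .nil)) (.cons 251 (.leaf 252 1985 (.cons 299 (.leaf 300 2176 (.cons 298 (.leaf 271 2168 (.cons 322 (.leaf 227 1814 (.leaf 346 2005 .nil)) .nil)) .nil)) .nil)) (.cons 296 (.leaf 295 2170 (.cons 251 (.leaf 252 1985 (.cons 224 (.cons 199 (.leaf 223 1599 (.cons 200 (.leaf 175 1407 (.leaf 297 1604 .nil)) .nil)) (.cons 199 (.leaf 223 1599 (.cons 200 (.leaf 175 1407 (.cons 201 (.leaf 177 1413 (.leaf 225 1605 .nil)) .nil)) .nil)) (.cons 199 (.leaf 223 1599 (.cons 201 (.leaf 225 1605 (.cons 321 (.leaf 297 1796 (.cons 320 (.leaf 345 1988 (.cons 343 (.leaf 319 1982 (.cons 344 (.leaf 249 1989 (.leaf 367 2174 .nil)) .nil)) .nil)) .nil)) .nil)) .nil)) (.cons 297 (.leaf 200 1604 (.leaf 321 1796 .nil)) .nil)))) .nil)) .nil)) .nil)))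
noncomputable def t84 : T := .cons 199 (.leaf 223 1599 (.cons 201 (.leaf 225 1605 (.cons 321 (.leaf 297 1796 (.cons 320 (.leaf 345 1988 (.cons 343 (.leaf 319 1982 (.cons 344 (.leaf 249 1989 (.leaf 367 2174 .nil)) .nil)) .nil)) .nil)) .nil)) .nil)) (.cons 225 (.leaf 201 1605 (.cons 199 (.leaf 223 1599 (.cons 320 (.leaf 249 1797 (.cons 345 (.leaf 321 1988 (.cons 319 (.leaf 295 1790 (.leaf 343 1982 .nil)) .nil)) .nil)) .nil)) .nil)) (.cons 225 (.leaf 201 1605 (.cons 199 (.leaf 223 1599 (.cons 320 (.leaf 249 1797 (.cons 343 (.leaf 319 1982 (.cons 344 (.leaf 367 2174 (.cons 247 (.leaf 271 1983 (.cons 246 (.leaf 245 1960 (.cons 226 (.leaf 227 1786 (.cons 368 (.leaf 297 2181 (.cons 369 (.leaf 345 2180 (.leaf 393 2372 .nil)) .nil)) .nil)) .nil)) .nil)) .nil)) .nil)) .nil)) .nil)) .nil)) (.cons 321 (.leaf 297 1796 (.cons 295 (.leaf 319 1790 (.cons 293 (.leaf 294 2153 (.cons 320 (.leaf 345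 1988 (.cons 322 (.leaf 323 2363 (.cons 344 (.leaf 249 1989 (.cons 271 (.leaf 247 1983 (.leaf 368 2175 .nil)) .nil)) .nil)) .nil)) .nil)) .nil)) .nil)) (.cons 297 (.leaf 321 1796 (.cons 199 (.leaf 223 1599 (.cons 295 (.leaf 319 1790 (.cons 294 (.leaf 293 2153 (.cons 270 (.leaf 269 2155 (.cons 298 (.leaf 271 2160 (.cons 225 (.leaf 201 1605 (.cons 322 (.leaf 249 1804 (.leaf 323 2360 .nil)) .nil)) .nil)) .nil)) .nil)) .nil)) .nil)) .nil)) (.cons 297 (.leaf 321 1796 (.cons 225 (.leaf 201 1605 (.cons 249 (.leaf 320 1797 (.cons 226 (.leaf 202 1613 (.cons 227 (.leaf 247 1786 (.leaf 228 1794 .nil)) .nil)) .nil)) .nil)) .nil)) (.cons 297 (.leaf 321 1796 (.cons 199 (.leaf 223 1599 (.cons 295 (.leaf 319 1790 (.cons 294 (.leaf 293 2153 (.cons 270 (.leaf 269 2155 (.cons 298 (.leaf 271 2160 (.cons 299 (.leaf 300 2179 (.cons 323 (.leaf 322 2360 (.leaf 324 2368 .nil)) .nil)) .nil)) .nil)) .nil)) .nil))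 .nil)) .nil)) .nil))))))
noncomputable def t85 : T := .cons 224 (.cons 200 (.leaf 297 1604 (.cons 176 (.leaf 249 1412 (.cons 177 (.leaf 201 1413 (.leaf 153 1221 .nil)) .nil)) .nil)) (.cons 274 (.leaf 247 1979 (.cons 251 (.leaf 252 1985 (.cons 295 (.leaf 296 2170 (.cons 271 (.leaf 294 2162 (.cons 299 (.leaf 300 2176 (.leaf 298 2168 .nil)) .nil)) .nil)) .nil)) .nil)) .nil)) (.cons 224 (.cons 200 (.leaf 297 1604 (.cons 176 (.leaf 249 1412 (.cons 177 (.leaf 201 1413 (.leaf 153 1221 .nil)) .nil)) .nil)) (.cons 296 t84 (.cons 200 (.cons 176 (.leaf 249 1412 (.cons 177 (.leaf 201 1413 (.leaf 153 1221 .nil)) .nil)) (.cons 177 (.leaf 201 1413 (.cons 199 (.leaf 175 1407 (.cons 296 (.leaf 223 1599 (.cons 295 (.leaf 271 1598 (.leaf 319 1790 .nil)) .nil)) .nil)) .nil)) (.cons 175 (.leaf 199 1407 (.cons 176 (.leaf 151 1215 (.leaf 249 1412 .nil)) .nil)) .nil))) (.cons 200 (.leaf 297 1604 (.cons 175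 (.leaf 199 1407 (.cons 176 (.leaf 151 1215 (.cons 177 (.leaf 201 1413 (.leaf 153 1221 .nil)) .nil)) .nil)) .nil)) (.cons 200 (.leaf 297 1604 (.cons 175 (.leaf 199 1407 (.cons 176 (.leaf 151 1215 (.leaf 249 1412 .nil)) .nil)) .nil)) .nil))))) (.cons 274 t83 (.cons 274 (.leaf 247 1979 (.cons 251 (.leaf 252 1985 (.cons 299 (.leaf 300 2176 (.cons 271 (.leaf 298 2168 (.cons 294 (.leaf 295 2162 (.cons 270 (.leaf 293 2154 (.cons 245 (.leaf 246 1963 (.cons 269 (.leaf 244 1955 (.leaf 249 1961 .nil)) .nil)) .nil)) .nil)) .nil)) .nil)) .nil)) .nil)) (.cons 274 (.leaf 247 1979 (.cons 296 (.leaf 295 2170 (.cons 299 (.leaf 300 2176 (.cons 224 (.cons 199 (.leaf 223 1599 (.cons 321 (.leaf 297 1796 (.cons 201 (.leaf 225 1605 (.cons 320 (.leaf 345 1988 (.cons 343 (.leaf 319 1982 (.cons 344 (.leaf 249 1989 (.leaf 367 2174 .nil)) .nil)) .nil)) .nil)) .nil)) .nil)) (.cons 225 (.leaf 201 1605 (.cons 199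 (.leaf 223 1599 (.cons 200 (.leaf 175 1407 (.cons 249 (.leaf 320 1797 (.leaf 176 1412 .nil)) .nil)) .nil)) .nil)) (.cons 297 (.leaf 200 1604 (.leaf 321 1796 .nil)) .nil))) .nil)) .nil)) .nil)) (.cons 274 (.leaf 247 1979 (.cons 251 (.leaf 252 1985 (.cons 299 (.leaf 300 2176 (.cons 298 (.leaf 271 2168 (.cons 322 (.leaf 227 1814 (.leaf 346 2005 .nil)) .nil)) .nil)) .nil)) .nil)) (.cons 274 (.leaf 247 1979 (.cons 296 (.leaf 295 2170 (.cons 251 (.leaf 252 1985 (.cons 224 (.cons 199 (.leaf 223 1599 (.cons 200 (.leaf 175 1407 (.leaf 297 1604 .nil)) .nil)) (.cons 199 (.leaf 223 1599 (.cons 200 (.leaf 175 1407 (.cons 201 (.leaf 177 1413 (.leaf 225 1605 .nil)) .nil)) .nil)) (.cons 199 (.leaf 223 1599 (.cons 201 (.leaf 225 1605 (.cons 321 (.leaf 297 1796 (.cons 320 (.leaf 345 1988 (.cons 343 (.leaf 319 1982 (.cons 344 (.leaf 249 1989 (.leaf 367 2174 .nil)) .nil)) .nil)) .nil)) .nil)) .nil))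 (.cons 297 (.leaf 200 1604 (.leaf 321 1796 .nil)) .nil)))) .nil)) .nil)) .nil)) .nil))))))
noncomputable def t86 : T := .cons 199 (.leaf 223 1599 (.cons 295 (.leaf 319 1790 (.cons 293 (.leaf 294 2153 (.cons 321 (.leaf 297 1796 (.cons 320 (.leaf 345 1988 (.cons 322 (.leaf 323 2363 (.cons 344 (.leaf 249 1989 (.cons 367 (.leaf 343 2174 (.cons 368 (.leaf 271 2175 (.leaf 391 2366 .nil)) .nil)) .nil)) .nil)) .nil)) .nil)) .nil)) .nil)) .nil)) (.cons 223 (.leaf 199 1599 (.cons 247 (.leaf 320 1791 (.cons 295 (.leaf 319 1790 (.cons 245 (.leaf 246 1960 (.cons 294 (.leaf 293 2153 (.cons 271 (.leaf 318 1782 (.cons 222 (.leaf 198 1591 (.cons 221 (.leaf 220 1760 (.leaf 249 1768 .nil)) .nil)) .nil)) .nil)) .nil)) .nil)) .nil)) .nil)) (.cons 321 (.leaf 297 1796 (.cons 199 (.leaf 223 1599 (.cons 320 (.leaf 345 1988 (.cons 343 (.leaf 319 1982 (.cons 344 (.leaf 249 1989 (.leaf 367 2174 .nil)) .nil))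 .nil)) .nil)) .nil)) (.cons 321 (.leaf 297 1796 (.cons 295 (.leaf 319 1790 (.cons 293 (.leaf 294 2153 (.cons 320 (.leaf 345 1988 (.cons 322 (.leaf 323 2363 (.cons 344 (.leaf 249 1989 (.cons 271 (.leaf 247 1983 (.leaf 368 2175 .nil)) .nil)) .nil)) .nil)) .nil)) .nil)) .nil)) (.cons 321 (.leaf 297 1796 (.cons 199 (.leaf 223 1599 (.cons 320 (.leaf 345 1988 (.cons 344 (.leaf 249 1989 (.cons 271 (.leaf 247 1983 (.cons 368 (.leaf 295 2175 (.cons 367 (.leaf 343 2174 (.leaf 391 2366 .nil)) .nil)) .nil)) .nil)) .nil)) .nil)) .nil)) (.cons 297 (.leaf 321 1796 (.cons 199 (.leaf 223 1599 (.cons 295 (.leaf 319 1790 (.cons 294 (.leaf 293 2153 (.cons 270 (.leaf 269 2155 (.cons 298 (.leaf 271 2160 (.cons 299 (.leaf 300 2179 (.cons 323 (.leaf 322 2360 (.leaf 324 2368 .nil)) .nil)) .nil)) .nil)) .nil)) .nil)) .nil)) .nil)) .nil)))))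
noncomputable def t87 : T := .cons 224 (.cons 200 (.leaf 297 1604 (.cons 176 (.leaf 249 1412 (.cons 177 (.leaf 201 1413 (.leaf 153 1221 .nil)) .nil)) .nil)) (.cons 274 (.leaf 247 1979 (.cons 251 (.leaf 252 1985 (.cons 250 (.leaf 271 1977 (.cons 295 (.leaf 296 2170 (.cons 299 (.leaf 300 2176 (.cons 226 (.leaf 202 1620 (.leaf 323 1815 .nil)) .nil)) .nil)) .nil)) .nil)) .nil)) .nil)) (.cons 224 (.cons 200 (.leaf 297 1604 (.cons 176 (.leaf 249 1412 (.cons 177 (.leaf 201 1413 (.leaf 153 1221 .nil)) .nil)) .nil)) (.cons 296 t86 (.cons 200 (.cons 176 (.leaf 249 1412 (.cons 177 (.leaf 201 1413 (.leaf 153 1221 .nil)) .nil)) (.cons 177 (.leaf 201 1413 (.cons 199 (.leaf 175 1407 (.cons 295 (.leaf 271 1598 (.cons 296 (.leaf 223 1599 (.leaf 319 1790 .nil)) .nil)) .nil)) .nil)) (.cons 175 (.leaf 199 1407 (.cons 176 (.leaf 151 1215 (.leaf 249 1412 .nil)) .nil)) .nil))) (.cons 200 (.leaf 297 1604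 (.cons 175 (.leaf 199 1407 (.cons 176 (.leaf 151 1215 (.cons 177 (.leaf 201 1413 (.leaf 153 1221 .nil)) .nil)) .nil)) .nil)) .nil)))) (.cons 274 (.cons 295 (.leaf 296 2170 (.cons 271 (.leaf 294 2162 (.cons 299 (.leaf 300 2176 (.leaf 298 2168 .nil)) .nil)) .nil)) (.cons 295 (.leaf 296 2170 (.cons 251 (.leaf 252 1985 (.cons 271 (.leaf 250 1977 (.leaf 294 2162 .nil)) .nil)) .nil)) (.cons 299 (.leaf 300 2176 (.cons 251 (.leaf 252 1985 (.cons 323 (.cons 250 (.leaf 226 1815 (.leaf 347 2007 .nil)) (.cons 322 (.leaf 346 2006 (.cons 348 (.leaf 324 2012 (.cons 347 (.leaf 372 2204 (.cons 298 (.leaf 227 1814 (.leaf 271 2168 .nil)) .nil)) .nil)) .nil)) (.cons 226 (.leaf 250 1815 (.cons 227 (.leaf 202 1623 (.cons 322 (.leaf 298 1814 (.leaf 346 2006 .nil)) .nil)) .nil)) .nil))) .nil)) .nil)) (.cons 296 (.leaf 295 2170 (.cons 299 (.leaf 300 2176 (.cons 251 (.leaf 252 1985 (.cons 323 (.cons 250 (.leaf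 226 1815 (.leaf 347 2007 .nil)) (.cons 322 (.leaf 346 2006 (.cons 324 (.leaf 348 2012 (.cons 297 (.leaf 298 2368 (.leaf 321 2371 .nil)) .nil)) .nil)) .nil)) .nil)) .nil)) .nil)) .nil)))) (.cons 274 (.leaf 247 1979 (.cons 295 (.leaf 296 2170 (.cons 271 (.leaf 294 2162 (.cons 299 (.leaf 300 2176 (.leaf 298 2168 .nil)) .nil)) .nil)) .nil)) (.cons 274 (.leaf 247 1979 (.cons 296 (.leaf 295 2170 (.cons 299 (.leaf 300 2176 (.cons 251 (.leaf 252 1985 (.cons 323 (.cons 250 (.leaf 226 1815 (.leaf 347 2007 .nil)) (.cons 322 (.leaf 346 2006 (.cons 324 (.leaf 348 2012 (.cons 297 (.leaf 298 2368 (.leaf 321 2371 .nil)) .nil)) .nil)) .nil)) .nil)) .nil)) .nil)) .nil)) (.cons 274 (.leaf 247 1979 (.cons 299 (.leaf 300 2176 (.cons 251 (.leaf 252 1985 (.cons 323 (.cons 250 (.leaf 226 1815 (.leaf 347 2007 .nil)) (.cons 322 (.leaf 346 2006 (.cons 348 (.leaf 324 2012 (.cons 347 (.leaf 372 2204 (.cons 298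 (.leaf 227 1814 (.leaf 271 2168 .nil)) .nil)) .nil)) .nil)) (.cons 226 (.leaf 250 1815 (.cons 227 (.leaf 202 1623 (.cons 322 (.leaf 298 1814 (.leaf 346 2006 .nil)) .nil)) .nil)) .nil))) .nil)) .nil)) .nil)) (.cons 274 (.leaf 247 1979 (.cons 295 (.leaf 296 2170 (.cons 251 (.leaf 252 1985 (.cons 271 (.leaf 250 1977 (.leaf 294 2162 .nil)) .nil)) .nil)) .nil)) .nil))))))
noncomputable def t88 : T := .cons 299 (.leaf 300 2176 (.cons 251 (.leaf 252 1985 (.cons 323 (.cons 250 (.leaf 226 1815 (.leaf 347 2007 .nil)) (.cons 322 (.leaf 346 2006 (.cons 348 (.leaf 324 2012 (.cons 347 (.leaf 372 2204 (.cons 298 (.leaf 227 1814 (.leaf 271 2168 .nil)) .nil)) .nil)) .nil)) (.cons 226 (.leaf 250 1815 (.cons 227 (.leaf 202 1623 (.cons 322 (.leaf 298 1814 (.leaf 346 2006 .nil)) .nil)) .nil)) .nil))) .nil)) .nil)) (.cons 251 (.leaf 252 1985 (.cons 271 (.leaf 250 1977 (.cons 295 (.leaf 296 2170 (.leaf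 294 2162 .nil)) .nil)) .nil)) (.cons 295 (.leaf 296 2170 (.cons 271 (.leaf 294 2162 (.cons 299 (.leaf 300 2176 (.leaf 298 2168 .nil)) .nil)) .nil)) (.cons 296 (.leaf 295 2170 (.cons 299 (.leaf 300 2176 (.cons 251 (.leaf 252 1985 (.cons 320 (.cons 225 (.leaf 249 1797 (.cons 319 (.leaf 343 1982 (.cons 298 (.leaf 297 2362 (.cons 321 (.leaf 345 1988 (.leaf 322 2361 .nil)) .nil)) .nil)) .nil)) (.cons 319 (.leaf 343 1982 (.cons 345 (.leaf 321 1988 (.cons 344 (.leaf 369 2180 (.cons 297 (.leaf 368 2181 (.leaf 298 2362 .nil)) .nil)) .nil)) .nil)) (.cons 249 (.leaf 225 1797 (.leaf 344 1989 .nil)) .nil))) .nil)) .nil)) .nil)) .nil)))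
noncomputable def t89 : T := .cons 224 (.leaf 200 1604 (.cons 296 (.leaf 321 1796 (.cons 201 (.leaf 225 1605 (.cons 295 (.leaf 319 1790 (.cons 294 (.leaf 293 2153 (.cons 270 (.leaf 269 2155 (.cons 271 (.leaf 298 2160 (.cons 246 (.leaf 245 1963 (.cons 198 (.leaf 222 1588 (.cons 318 (.leaf 317 2346 (.cons 342 (.leaf 366 2165 (.leaf 247 1973 .nil)) .nil)) .nil)) .nil)) .nil)) .nil)) .nil)) .nil)) .nil)) .nil)) .nil)) (.cons 224 (.leaf 200 1604 (.cons 296 (.cons 201 (.leaf 225 1605 (.cons 295 (.leaf 319 1790 (.cons 294 (.leaf 293 2153 (.cons 270 (.leaf 269 2155 (.cons 271 (.leaf 298 2160 (.cons 246 (.leaf 245 1963 (.cons 198 (.leaf 222 1588 (.cons 318 (.leaf 317 2346 (.cons 342 (.leaf 366 2165 (.leaf 247 1973 .nil)) .nil)) .nil)) .nil)) .nil)) .nil)) .nil)) .nil)) .nil)) (.cons 295 (.leaf 319 1790 (.cons 294 (.leaf 293 2153 (.cons 270 (.leaf 269 2155 (.cons 271 (.leaf 298 2160 (.cons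 245 (.leaf 246 1963 (.cons 249 (.leaf 250 1969 (.cons 318 (.leaf 317 2346 (.cons 342 (.leaf 366 2165 (.leaf 247 1973 .nil)) .nil)) .nil)) .nil)) .nil)) .nil)) .nil)) .nil)) (.cons 225 (.leaf 201 1605 (.cons 249 (.leaf 320 1797 (.cons 226 (.leaf 202 1613 (.cons 227 (.leaf 247 1786 (.leaf 228 1794 .nil)) .nil)) .nil)) .nil)) (.cons 201 (.leaf 225 1605 (.cons 319 (.leaf 295 1790 (.cons 320 (.leaf 343 1982 (.cons 344 (.leaf 249 1989 (.leaf 368 2181 .nil)) .nil)) .nil)) .nil)) .nil)))) .nil)) (.cons 321 (.leaf 345 1991 (.cons 249 (.cons 250 (.leaf 226 1805 (.cons 251 (.leaf 271 1978 (.leaf 252 1986 .nil)) .nil)) (.cons 320 (.leaf 344 1990 (.cons 322 (.leaf 346 1996 (.cons 225 (.leaf 296 1797 (.leaf 298 1804 .nil)) .nil)) .nil)) .nil)) .nil)) (.cons 224 (.leaf 200 1604 (.cons 321 (.leaf 345 1991 (.leaf 249 1799 .nil)) .nil)) .nil)))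
noncomputable def t90 : T := .cons 274 (.leaf 247 1979 (.cons 295 (.leaf 296 2170 (.cons 271 (.leaf 294 2162 (.cons 299 (.leaf 300 2176 (.leaf 298 2168 .nil)) .nil)) .nil)) .nil)) (.cons 297 t89 (.cons 274 t88 (.cons 274 (.leaf 247 1979 (.cons 299 (.leaf 300 2176 (.cons 251 (.leaf 252 1985 (.cons 323 (.cons 250 (.leaf 226 1815 (.leaf 347 2007 .nil)) (.cons 322 (.leaf 346 2006 (.cons 348 (.leaf 324 2012 (.cons 347 (.leaf 372 2204 (.cons 298 (.leaf 227 1814 (.leaf 271 2168 .nil)) .nil)) .nil)) .nil)) (.cons 226 (.leaf 250 1815 (.cons 227 (.leaf 202 1623 (.cons 322 (.leaf 298 1814 (.leaf 346 2006 .nil)) .nil)) .nil)) .nil))) .nil)) .nil)) .nil)) (.cons 274 (.leaf 247 1979 (.cons 296 (.leaf 295 2170 (.cons 299 (.leaf 300 2176 (.cons 251 (.leaf 252 1985 (.cons 320 (.cons 225 (.leaf 249 1797 (.cons 319 (.leaf 343 1982 (.cons 298 (.leaf 297 2362 (.cons 321 (.leaf 345 1988 (.leaf 322 2361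 .nil)) .nil)) .nil)) .nil)) (.cons 319 (.leaf 343 1982 (.cons 345 (.leaf 321 1988 (.cons 344 (.leaf 369 2180 (.cons 297 (.leaf 368 2181 (.leaf 298 2362 .nil)) .nil)) .nil)) .nil)) (.cons 249 (.leaf 225 1797 (.leaf 344 1989 .nil)) .nil))) .nil)) .nil)) .nil)) .nil)) (.cons 274 (.leaf 247 1979 (.cons 296 (.leaf 295 2170 (.cons 299 (.leaf 300 2176 (.cons 251 (.leaf 252 1985 (.cons 323 (.cons 250 (.leaf 226 1815 (.leaf 347 2007 .nil)) (.cons 322 (.leaf 346 2006 (.cons 324 (.leaf 348 2012 (.cons 321 (.leaf 297 2371 (.cons 345 (.leaf 320 1988 (.leaf 344 2562 .nil)) .nil)) .nil)) .nil)) .nil)) .nil)) .nil)) .nil)) .nil)) .nil)))))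
noncomputable def t91 : T := .cons 320 (.leaf 223 1791 (.leaf 225 1797 .nil)) (.cons 224 (.cons 199 (.leaf 223 1599 (.cons 200 (.leaf 175 1407 (.cons 176 (.leaf 271 1406 (.cons 177 (.leaf 201 1413 (.leaf 153 1221 .nil)) .nil)) .nil)) .nil)) (.cons 225 (.leaf 201 1605 (.cons 226 (.leaf 227 1786 (.cons 295 (.leaf 319 1790 (.cons 200 (.leaf 271 1598 (.cons 175 (.leaf 199 1407 (.cons 176 (.leaf 151 1215 (.leaf 152 1220 .nil)) .nil)) .nil)) .nil)) .nil)) .nil)) (.cons 295 (.leaf 319 1790 (.cons 200 (.leaf 271 1598 (.cons 201 (.leaf 177 1413 (.leaf 225 1605 .nil)) .nil)) .nil)) (.cons 223 (.leaf 199 1599 (.cons 222 (.leaf 221 1768 (.cons 295 (.leaf 319 1790 (.cons 271 (.leaf 200 1597 (.leaf 198 1591 .nil)) .nil)) .nil)) .nil)) (.cons 199 (.leaf 223 1599 (.cons 200 (.leaf 175 1407 (.cons 201 (.leaf 177 1413 (.leaf 225 1605 .nil)) .nil)) .nil)) (.cons 223 (.leaf 199 1599 (.cons 222 (.leaf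 221 1768 (.cons 295 (.leaf 319 1790 (.cons 225 (.leaf 201 1605 (.cons 198 (.leaf 271 1591 (.leaf 197 1579 .nil)) .nil)) .nil)) .nil)) .nil)) .nil)))))) (.cons 320 (.leaf 225 1797 (.cons 343 (.leaf 319 1982 (.cons 344 (.leaf 271 1983 (.leaf 367 2174 .nil)) .nil)) .nil)) (.cons 223 (.leaf 320 1791 (.cons 199 (.leaf 175 1404 (.leaf 224 1599 .nil)) .nil)) .nil)))
noncomputable def t92 : T := .cons 199 (.leaf 175 1404 (.cons 296 (.leaf 224 1599 (.leaf 271 1596 .nil)) .nil)) (.cons 296 (.leaf 320 1791 (.cons 224 (.cons 295 (.leaf 319 1790 (.cons 294 (.leaf 293 2153 (.cons 225 (.leaf 201 1605 (.leaf 226 1778 .nil)) .nil)) .nil)) (.cons 295 (.leaf 319 1790 (.cons 294 (.leaf 293 2153 (.cons 318 (.leaf 270 1781 (.leaf 271 1782 .nil)) .nil)) .nil)) (.cons 225 (.leaf 201 1605 (.leaf 226 1778 .nil)) .nil))) .nil)) (.cons 199 (.leaf 175 1404 (.cons 271 (.cons 294 (.leaf 270 1590 (.cons 174 (.leaf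 198 1399 (.cons 295 (.leaf 318 1782 (.cons 319 (.leaf 343 1981 (.leaf 224 1789 .nil)) .nil)) .nil)) .nil)) (.cons 200 (.leaf 176 1405 (.cons 198 (.leaf 174 1399 (.cons 222 (.leaf 295 1591 (.cons 201 (.leaf 202 1586 (.leaf 221 1578 .nil)) .nil)) .nil)) .nil)) (.cons 270 (.leaf 294 1590 (.cons 198 (.leaf 174 1399 (.cons 269 (.leaf 268 1953 (.cons 293 (.leaf 292 2146 (.leaf 222 1582 .nil)) .nil)) .nil)) .nil)) (.cons 270 (.leaf 294 1590 (.cons 200 (.leaf 176 1405 (.cons 295 (.leaf 224 1597 (.cons 319 (.leaf 343 1981 (.leaf 222 1783 .nil)) .nil)) .nil)) .nil)) .nil)))) .nil)) (.cons 199 (.leaf 175 1404 (.cons 296 (.leaf 224 1599 (.leaf 320 1791 .nil)) .nil)) (.cons 199 (.leaf 175 1404 (.cons 296 (.leaf 271 1596 (.leaf 320 1791 .nil)) .nil)) .nil))))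
noncomputable def t93 : T := .cons 223 (.cons 199 (.leaf 175 1404 (.cons 271 (.leaf 296 1596 (.cons 270 (.leaf 294 1590 (.cons 269 (.leaf 249 1961 (.leaf 268 1953 .nil)) .nil)) .nil)) .nil)) (.cons 296 (.leaf 320 1791 (.cons 224 (.cons 225 (.leaf 201 1605 (.cons 226 (.leaf 227 1786 (.leaf 246 1778 .nil)) .nil)) (.cons 295 (.leaf 319 1790 (.cons 271 (.leaf 200 1597 (.cons 222 (.leaf 198 1591 (.cons 221 (.leaf 220 1760 (.leaf 249 1768 .nil)) .nil)) .nil)) .nil)) .nil)) .nil)) (.cons 199 (.leaf 175 1404 (.cons 271 (.cons 270 (.leaf 294 1590 (.cons 269 (.leaf 249 1961 (.leaf 268 1953 .nil)) .nil)) (.cons 198 (.leaf 174 1399 (.cons 200 (.leaf 176 1405 (.cons 295 (.leaf 224 1597 (.leaf 222 1591 .nil)) .nil)) .nil)) .nil)) .nil)) (.cons 199 (.leaf 175 1404 (.cons 296 (.leaf 224 1599 (.leaf 320 1791 .nil)) .nil)) .nil)))) (.cons 273 (.leaf 274 1979 (.cons 246 (.leaf 245 1960 (.cons 223 t92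 .nil)) .nil)) (.cons 273 (.leaf 274 1979 (.cons 246 (.leaf 245 1960 (.cons 249 (.cons 225 (.leaf 226 1777 (.cons 201 (.leaf 177 1414 (.leaf 296 1606 .nil)) .nil)) (.cons 222 (.leaf 221 1771 (.cons 223 (.leaf 250 1779 (.cons 199 (.leaf 175 1404 (.cons 270 (.leaf 269 1962 (.leaf 294 1589 .nil)) .nil)) .nil)) .nil)) .nil)) .nil)) .nil)) (.cons 273 (.leaf 274 1979 (.cons 246 (.leaf 245 1960 (.cons 249 (.cons 221 (.leaf 222 1771 (.cons 270 (.leaf 269 1962 (.cons 271 (.leaf 250 1969 (.cons 294 (.leaf 293 2154 (.cons 318 (.leaf 342 1973 (.cons 319 (.leaf 343 1972 (.cons 295 (.leaf 224 1789 (.cons 317 (.leaf 341 1966 (.cons 316 (.leaf 315 2329 (.leaf 296 2337 .nil)) .nil)) .nil)) .nil)) .nil)) .nil)) .nil)) .nil)) .nil)) (.cons 225 (.leaf 226 1777 (.cons 201 (.leaf 177 1414 (.leaf 296 1606 .nil)) .nil)) (.cons 270 (.leaf 269 1962 (.cons 250 (.leaf 271 1969 (.cons 227 (.leaf 226 1785 (.cons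 251 (.leaf 252 1986 (.leaf 228 1793 .nil)) .nil)) .nil)) .nil)) .nil))) .nil)) .nil)) (.cons 274 (.leaf 273 1979 (.cons 249 (.leaf 250 1976 (.cons 296 t91 .nil)) .nil)) (.cons 273 (.leaf 274 1979 (.cons 246 (.leaf 245 1960 (.cons 249 (.cons 222 (.leaf 221 1771 (.cons 225 (.leaf 226 1777 (.cons 201 (.leaf 177 1414 (.cons 176 (.leaf 200 1415 (.cons 202 (.leaf 178 1421 (.cons 223 (.leaf 250 1779 (.leaf 224 1585 .nil)) .nil)) .nil)) .nil)) .nil)) .nil)) (.cons 270 (.leaf 269 1962 (.cons 250 (.leaf 271 1969 (.cons 227 (.leaf 226 1785 (.cons 251 (.leaf 252 1986 (.leaf 228 1793 .nil)) .nil)) .nil)) .nil)) (.cons 222 (.leaf 221 1771 (.cons 225 (.leaf 226 1777 (.cons 201 (.leaf 177 1414 (.cons 200 (.leaf 176 1415 (.cons 202 (.leaf 178 1421 (.cons 223 (.leaf 199 1586 (.leaf 224 1585 .nil)) .nil)) .nil)) .nil)) .nil)) .nil)) (.cons 221 (.leaf 222 1771 (.cons 270 (.leaf 269 1962 (.cons 271 (.leaf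 250 1969 (.cons 294 (.leaf 293 2154 (.cons 223 (.leaf 199 1590 (.leaf 318 1781 .nil)) .nil)) .nil)) .nil)) .nil)) .nil)))) .nil)) .nil)) (.cons 273 (.leaf 274 1979 (.cons 246 (.leaf 245 1960 (.cons 249 (.cons 270 (.leaf 269 1962 (.cons 222 (.leaf 221 1771 (.cons 223 (.leaf 250 1779 (.cons 294 (.leaf 318 1781 (.leaf 199 1589 .nil)) .nil)) .nil)) .nil)) (.cons 222 (.leaf 221 1771 (.cons 223 (.leaf 250 1779 (.cons 199 (.leaf 175 1404 (.cons 296 (.leaf 224 1599 (.leaf 271 1596 .nil)) .nil)) .nil)) .nil)) (.cons 270 (.leaf 269 1962 (.cons 250 (.leaf 271 1969 (.cons 227 (.leaf 226 1785 (.cons 251 (.leaf 252 1986 (.leaf 228 1793 .nil)) .nil)) .nil)) .nil)) (.cons 270 (.leaf 269 1962 (.cons 222 (.leaf 221 1771 (.cons 223 (.cons 294 (.leaf 318 1781 (.leaf 199 1589 .nil)) (.cons 294 (.leaf 318 1781 (.cons 293 (.leaf 271 2154 (.leaf 317 1774 .nil)) .nil)) (.cons 199 (.leaf 175 1404 (.cons 296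 (.leaf 224 1599 (.leaf 271 1596 .nil)) .nil)) .nil))) .nil)) .nil)) .nil)))) .nil)) .nil)) (.cons 273 (.leaf 274 1979 (.cons 246 (.leaf 245 1960 (.cons 249 (.cons 270 (.leaf 269 1962 (.cons 250 (.leaf 271 1969 (.cons 227 (.leaf 226 1785 (.cons 251 (.leaf 252 1986 (.leaf 228 1793 .nil)) .nil)) .nil)) .nil)) (.cons 225 (.leaf 226 1777 (.cons 201 (.leaf 177 1414 (.leaf 296 1606 .nil)) .nil)) (.cons 270 (.leaf 269 1962 (.cons 250 (.leaf 271 1969 (.cons 251 (.leaf 252 1986 (.cons 224 (.leaf 223 1787 (.cons 200 (.leaf 176 1412 (.cons 175 (.leaf 199 1407 (.cons 201 (.leaf 177 1413 (.cons 296 (.leaf 225 1605 (.cons 227 (.leaf 228 1793 (.cons 319 (.leaf 295 1790 (.cons 320 (.leaf 343 1982 (.leaf 344 1989 .nil)) .nil)) .nil)) .nil)) .nil)) .nil)) .nil)) .nil)) .nil)) .nil)) .nil)) .nil))) .nil)) .nil)) (.cons 273 (.leaf 274 1979 (.cons 246 (.leaf 245 1960 (.cons 249 t13 .nil)) .nil)) .nil))))))))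
noncomputable def t94 : T := .leaf 245 1960 (.cons 249 (.cons 225 (.leaf 226 1777 (.cons 177 (.leaf 201 1414 (.cons 222 (.leaf 221 1771 (.cons 270 (.leaf 269 1962 (.cons 250 (.leaf 271 1969 (.leaf 223 1779 .nil)) .nil)) .nil)) .nil)) .nil)) (.cons 225 (.leaf 226 1777 (.cons 177 (.leaf 201 1414 (.cons 222 (.leaf 221 1771 (.cons 250 (.leaf 223 1779 (.cons 251 (.leaf 271 1978 (.leaf 252 1986 .nil)) .nil)) .nil)) .nil)) .nil)) (.cons 270 (.leaf 269 1962 (.cons 250 (.leaf 271 1969 (.cons 227 (.leaf 226 1785 (.cons 251 (.leaf 252 1986 (.leaf 228 1793 .nil)) .nil)) .nil)) .nil)) (.cons 225 (.leaf 226 1777 (.cons 201 (.leaf 177 1414 (.leaf 296 1606 .nil)) .nil)) (.cons 270 (.leaf 269 1962 (.cons 250 (.leaf 271 1969 (.cons 251 (.leaf 252 1986 (.cons 224 (.leaf 223 1787 (.cons 200 (.leaf 176 1412 (.cons 175 (.leaf 199 1407 (.cons 201 (.leaf 177 1413 (.cons 296 (.leaf 225 1605 (.cons 227 (.leaf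 228 1793 (.cons 319 (.leaf 295 1790 (.cons 320 (.leaf 343 1982 (.leaf 344 1989 .nil)) .nil)) .nil)) .nil)) .nil)) .nil)) .nil)) .nil)) .nil)) .nil)) .nil)) .nil))))) .nil)
noncomputable def t95 : T := .cons 295 (.leaf 274 2170 (.cons 294 (.leaf 293 2153 (.cons 224 (.leaf 319 1790 (.cons 199 (.leaf 223 1599 (.cons 201 (.leaf 225 1605 (.cons 200 (.leaf 175 1407 (.leaf 177 1413 .nil)) .nil)) .nil)) .nil)) .nil)) .nil)) (.cons 320 (.cons 249 (.leaf 225 1797 (.leaf 344 1989 .nil)) (.cons 319 (.leaf 343 1982 (.cons 321 (.leaf 345 1988 (.cons 224 (.leaf 297 1796 (.cons 199 (.leaf 223 1599 (.cons 200 (.leaf 175 1407 (.cons 201 (.leaf 177 1413 (.leaf 225 1605 .nil)) .nil)) .nil)) .nil)) .nil)) .nil)) (.cons 249 (.leaf 344 1989 (.cons 319 (.leaf 343 1982 (.cons 321 (.leaf 345 1988 (.cons 224 (.leaf 297 1796 (.cons 199 (.leaf 223 1599 (.cons 200 (.leaf 175 1407 (.leaf 176 1412 .nil)) .nil))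 .nil)) .nil)) .nil)) .nil)) .nil))) (.cons 295 (.leaf 274 2170 (.cons 294 (.leaf 293 2153 (.cons 297 (.cons 270 (.leaf 269 2155 (.cons 271 (.leaf 298 2160 (.cons 249 (.leaf 250 1969 (.cons 320 (.leaf 225 1797 (.leaf 344 1989 .nil)) .nil)) .nil)) .nil)) (.cons 321 (.leaf 345 1991 (.leaf 322 2352 .nil)) .nil)) .nil)) .nil)) (.cons 295 (.leaf 274 2170 (.cons 224 (.leaf 319 1790 (.cons 200 (.leaf 271 1598 (.leaf 297 1604 .nil)) .nil)) .nil)) .nil)))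
noncomputable def t96 : T := .cons 199 (.leaf 223 1599 (.cons 295 (.leaf 319 1790 (.cons 293 (.leaf 294 2153 (.cons 297 (.leaf 321 1796 (.cons 225 (.leaf 201 1605 (.cons 249 (.leaf 320 1797 (.cons 298 (.leaf 322 1804 (.cons 271 (.leaf 270 2160 (.leaf 299 2171 .nil)) .nil)) .nil)) .nil)) .nil)) .nil)) .nil)) .nil)) (.cons 225 (.leaf 201 1605 (.cons 199 (.leaf 223 1599 (.cons 320 (.leaf 249 1797 (.cons 345 (.leaf 321 1988 (.cons 319 (.leaf 295 1790 (.leaf 343 1982 .nil)) .nil)) .nil)) .nil)) .nil)) (.cons 225 (.leaf 201 1605 (.cons 199 (.leaf 223 1599 (.cons 320 (.leaf 249 1797 (.cons 343 (.leaf 319 1982 (.cons 344 (.leaf 367 2174 (.cons 247 (.leaf 271 1983 (.cons 246 (.leaf 245 1960 (.cons 226 (.leaf 227 1786 (.cons 368 (.leaf 297 2181 (.cons 369 (.leaf 345 2180 (.leaf 393 2372 .nil)) .nil)) .nil)) .nil)) .nil)) .nil)) .nil)) .nil)) .nil)) .nil)) (.cons 321 (.leaf 297 1796 (.cons 199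 (.leaf 223 1599 (.cons 319 (.leaf 295 1790 (.cons 320 (.leaf 343 1982 (.leaf 345 1988 .nil)) .nil)) .nil)) .nil)) (.cons 297 (.leaf 321 1796 (.cons 223 (.leaf 199 1599 (.cons 225 (.leaf 201 1605 (.cons 295 (.leaf 319 1790 (.cons 294 (.leaf 293 2153 (.cons 270 (.leaf 269 2155 (.cons 318 (.leaf 317 2346 (.cons 246 (.leaf 247 1781 (.cons 245 (.leaf 271 1963 (.leaf 222 1770 .nil)) .nil)) .nil)) .nil)) .nil)) .nil)) .nil)) .nil)) .nil)) (.cons 297 (.leaf 321 1796 (.cons 225 (.leaf 201 1605 (.cons 249 (.leaf 320 1797 (.cons 295 (.leaf 319 1790 (.cons 294 (.leaf 293 2153 (.cons 270 (.leaf 269 2155 (.cons 271 (.leaf 250 1969 (.leaf 298 2160 .nil)) .nil)) .nil)) .nil)) .nil)) .nil)) .nil)) (.cons 297 (.leaf 321 1796 (.cons 225 (.leaf 201 1605 (.cons 249 (.leaf 320 1797 (.cons 223 (.leaf 199 1599 (.cons 222 (.leaf 221 1768 (.leaf 250 1776 .nil)) .nil)) .nil)) .nil)) .nil)) .nil))))))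
noncomputable def t97 : T := .cons 296 (.cons 199 (.leaf 223 1599 (.cons 295 (.leaf 319 1790 (.cons 200 (.leaf 175 1407 (.leaf 271 1598 .nil)) .nil)) .nil)) (.cons 199 (.leaf 223 1599 (.cons 295 (.leaf 319 1790 (.cons 293 (.leaf 294 2153 (.cons 297 (.leaf 321 1796 (.cons 225 (.leaf 201 1605 (.cons 249 (.leaf 320 1797 (.cons 298 (.leaf 322 1804 (.cons 271 (.leaf 270 2160 (.leaf 299 2171 .nil)) .nil)) .nil)) .nil)) .nil)) .nil)) .nil)) .nil)) (.cons 199 (.leaf 223 1599 (.cons 201 (.leaf 225 1605 (.cons 321 (.leaf 297 1796 (.cons 320 (.leaf 345 1988 (.cons 343 (.leaf 319 1982 (.cons 344 (.leaf 249 1989 (.leaf 367 2174 .nil)) .nil)) .nil)) .nil)) .nil)) .nil)) (.cons 297 (.leaf 200 1604 (.leaf 321 1796 .nil)) .nil)))) (.cons 296 t96 (.cons 200 (.cons 176 (.leaf 249 1412 (.cons 177 (.leaf 201 1413 (.leaf 153 1221 .nil)) .nil)) (.cons 175 (.leaf 199 1407 (.cons 201 (.leaf 177 1413 (.cons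 295 (.leaf 271 1598 (.cons 296 (.leaf 225 1605 (.leaf 319 1790 .nil)) .nil)) .nil)) .nil)) (.cons 175 (.leaf 199 1407 (.cons 176 (.leaf 151 1215 (.leaf 249 1412 .nil)) .nil)) .nil))) (.cons 200 (.leaf 297 1604 (.cons 176 (.leaf 249 1412 (.cons 177 (.leaf 201 1413 (.leaf 153 1221 .nil)) .nil)) .nil)) (.cons 200 (.leaf 297 1604 (.cons 175 (.leaf 199 1407 (.cons 176 (.leaf 151 1215 (.cons 177 (.leaf 201 1413 (.leaf 153 1221 .nil)) .nil)) .nil)) .nil)) (.cons 200 (.leaf 297 1604 (.cons 175 (.leaf 199 1407 (.cons 176 (.leaf 151 1215 (.leaf 249 1412 .nil)) .nil)) .nil)) .nil)))))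
noncomputable def t98 : T := .cons 274 (.leaf 247 1979 (.cons 296 (.leaf 295 2170 (.cons 299 (.leaf 300 2176 (.cons 224 (.cons 199 (.leaf 223 1599 (.cons 297 (.leaf 200 1604 (.leaf 321 1796 .nil)) .nil)) (.cons 225 (.leaf 201 1605 (.cons 320 (.leaf 249 1797 (.cons 321 (.leaf 345 1988 (.cons 319 (.leaf 343 1982 (.cons 199 (.leaf 223 1599 (.cons 200 (.leaf 175 1407 (.cons 322 (.leaf 298 2361 (.cons 347 (.leaf 346 2552 (.cons 323 (.leaf 250 2007 (.leaf 348 2560 .nil)) .nil)) .nil)) .nil)) .nil)) .nil)) .nil)) .nil)) .nil)) (.cons 199 (.leaf 223 1599 (.cons 297 (.leaf 321 1796 (.cons 271 (.leaf 298 2168 (.cons 225 (.leaf 201 1605 (.cons 249 (.leaf 320 1797 (.cons 270 (.leaf 269 2152 (.leaf 250 1969 .nil)) .nil)) .nil)) .nil)) .nil)) .nil)) (.cons 225 (.leaf 201 1605 (.cons 199 (.leaf 223 1599 (.cons 200 (.leaf 175 1407 (.leaf 297 1604 .nil)) .nil)) .nil)) (.cons 297 (.leaf 200 1604 (.leaf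 321 1796 .nil)) .nil))))) .nil)) .nil)) .nil)) (.cons 224 t97 (.cons 296 t95 (.cons 274 (.leaf 247 1979 (.cons 299 (.leaf 300 2176 (.cons 271 (.leaf 298 2168 (.cons 294 (.leaf 295 2162 (.cons 270 (.leaf 293 2154 (.cons 249 (.leaf 269 1961 (.leaf 250 1969 .nil)) .nil)) .nil)) .nil)) .nil)) .nil)) (.cons 274 (.leaf 247 1979 (.cons 295 (.leaf 296 2170 (.cons 271 (.leaf 294 2162 (.cons 299 (.leaf 300 2176 (.leaf 298 2168 .nil)) .nil)) .nil)) .nil)) (.cons 274 (.leaf 247 1979 (.cons 296 (.leaf 295 2170 (.cons 299 (.leaf 300 2176 (.cons 224 t0 .nil)) .nil)) .nil)) (.cons 247 (.leaf 274 1979 (.cons 246 (.leaf 245 1960 (.cons 249 (.cons 221 (.leaf 222 1771 (.cons 225 (.leaf 226 1777 (.cons 201 (.leaf 177 1414 (.leaf 296 1606 .nil)) .nil)) .nil)) (.cons 270 (.leaf 269 1962 (.cons 222 (.leaf 221 1771 (.cons 223 (.leaf 250 1779 (.cons 294 (.leaf 318 1781 (.leaf 199 1589 .nil)) .nil)) .nil))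 .nil)) (.cons 270 (.leaf 269 1962 (.cons 271 (.leaf 250 1969 (.cons 293 (.leaf 294 2154 (.cons 297 (.leaf 298 2160 (.cons 321 (.leaf 345 1991 (.leaf 224 1799 .nil)) .nil)) .nil)) .nil)) .nil)) .nil))) .nil)) .nil)) (.cons 274 (.leaf 247 1979 (.cons 296 (.leaf 295 2170 (.cons 299 (.leaf 300 2176 (.cons 224 (.cons 199 (.leaf 223 1599 (.cons 321 (.leaf 297 1796 (.cons 201 (.leaf 225 1605 (.cons 320 (.leaf 345 1988 (.cons 343 (.leaf 319 1982 (.cons 344 (.leaf 249 1989 (.leaf 367 2174 .nil)) .nil)) .nil)) .nil)) .nil)) .nil)) (.cons 225 (.leaf 201 1605 (.cons 320 (.leaf 249 1797 (.cons 321 (.leaf 345 1988 (.cons 199 (.leaf 223 1599 (.cons 200 (.leaf 175 1407 (.cons 226 (.leaf 227 1595 (.cons 250 (.leaf 202 1620 (.cons 323 (.leaf 347 2007 (.cons 343 (.leaf 319 1982 (.cons 344 (.leaf 367 2174 (.leaf 322 2554 .nil)) .nil)) .nil)) .nil)) .nil)) .nil)) .nil)) .nil)) .nil)) .nil)) (.cons 225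 (.leaf 201 1605 (.cons 199 (.leaf 223 1599 (.cons 200 (.leaf 175 1407 (.leaf 297 1604 .nil)) .nil)) .nil)) (.cons 297 (.leaf 200 1604 (.leaf 321 1796 .nil)) .nil)))) .nil)) .nil)) .nil)) .nil)))))))
noncomputable def t99 : T := .cons 199 (.leaf 175 1404 (.cons 296 (.leaf 224 1599 (.leaf 271 1596 .nil)) .nil)) (.cons 199 (.leaf 175 1404 (.cons 271 (.cons 198 (.leaf 174 1399 (.cons 270 (.leaf 294 1590 (.cons 269 (.leaf 268 1953 (.cons 245 (.leaf 244 1955 (.cons 222 (.leaf 295 1591 (.cons 221 (.leaf 220 1760 (.leaf 293 1581 .nil)) .nil)) .nil)) .nil)) .nil)) .nil)) (.cons 294 (.leaf 270 1590 (.cons 295 (.leaf 318 1782 (.cons 319 (.leaf 343 1981 (.leaf 224 1789 .nil)) .nil)) .nil)) (.cons 198 (.leaf 174 1399 (.cons 295 (.leaf 222 1591 (.cons 319 (.leaf 343 1981 (.leaf 224 1789 .nil)) .nil)) .nil)) (.cons 198 (.leaf 174 1399 (.cons 270 (.leaf 294 1590 (.cons 269 (.leaf 268 1953 (.cons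 245 (.leaf 244 1955 (.cons 293 (.leaf 292 2146 (.cons 221 (.leaf 222 1581 (.cons 196 (.leaf 220 1575 (.cons 197 (.leaf 224 1568 (.leaf 172 1383 .nil)) .nil)) .nil)) .nil)) .nil)) .nil)) .nil)) .nil)) .nil)))) .nil)) (.cons 296 (.leaf 320 1791 (.cons 224 (.cons 225 (.leaf 201 1605 (.cons 226 (.leaf 227 1786 (.leaf 251 1784 .nil)) .nil)) (.cons 295 (.leaf 319 1790 (.cons 297 (.leaf 298 2169 (.leaf 321 1796 .nil)) .nil)) .nil)) .nil)) (.cons 296 (.leaf 320 1791 (.cons 199 (.leaf 175 1404 (.leaf 271 1596 .nil)) .nil)) .nil)))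
noncomputable def t100 : T := .cons 273 (.leaf 274 1979 (.cons 246 (.leaf 245 1960 (.cons 249 (.cons 222 (.leaf 221 1771 (.cons 225 (.leaf 226 1777 (.cons 201 (.leaf 177 1414 (.cons 202 (.leaf 178 1421 (.cons 223 (.leaf 250 1779 (.leaf 224 1585 .nil)) .nil)) .nil)) .nil)) .nil)) (.cons 222 (.leaf 221 1771 (.cons 225 (.leaf 226 1777 (.cons 201 (.leaf 177 1414 (.cons 202 (.leaf 178 1421 (.cons 223 (.leaf 224 1585 (.cons 270 (.leaf 269 1962 (.cons 199 (.leaf 175 1404 (.leaf 294 1589 .nil)) .nil)) .nil)) .nil)) .nil)) .nil)) .nil)) (.cons 270 (.leaf 269 1962 (.cons 250 (.leaf 271 1969 (.cons 227 (.leaf 226 1785 (.cons 251 (.leaf 252 1986 (.leaf 228 1793 .nil)) .nil)) .nil)) .nil)) (.cons 270 (.leaf 269 1962 (.cons 271 (.leaf 250 1969 (.cons 293 (.leaf 294 2154 (.cons 297 (.leaf 298 2160 (.cons 321 (.leaf 345 1991 (.leaf 224 1799 .nil)) .nil)) .nil)) .nil)) .nil)) .nil)))) .nil)) .nil))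 (.cons 274 (.leaf 273 1979 (.cons 250 (.leaf 249 1976 (.cons 223 t99 .nil)) .nil)) (.cons 273 (.leaf 274 1979 (.cons 246 (.leaf 245 1960 (.cons 249 (.cons 221 (.leaf 222 1771 (.cons 225 (.leaf 226 1777 (.cons 201 (.leaf 177 1414 (.leaf 296 1606 .nil)) .nil)) .nil)) (.cons 270 (.leaf 269 1962 (.cons 250 (.leaf 271 1969 (.cons 227 (.leaf 226 1785 (.cons 251 (.leaf 252 1986 (.leaf 228 1793 .nil)) .nil)) .nil)) .nil)) (.cons 270 (.leaf 269 1962 (.cons 271 (.leaf 250 1969 (.cons 293 (.leaf 294 2154 (.cons 297 (.leaf 298 2160 (.cons 321 (.leaf 345 1991 (.leaf 224 1799 .nil)) .nil)) .nil)) .nil)) .nil)) .nil))) .nil)) .nil)) (.cons 273 (.leaf 274 1979 (.cons 246 (.leaf 245 1960 (.cons 249 (.cons 222 (.leaf 221 1771 (.cons 225 (.leaf 226 1777 (.cons 201 (.leaf 177 1414 (.leaf 296 1606 .nil)) .nil)) .nil)) (.cons 222 (.leaf 221 1771 (.cons 223 (.leaf 250 1779 (.cons 199 (.leaf 175 1404 (.cons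 270 (.leaf 269 1962 (.leaf 294 1589 .nil)) .nil)) .nil)) .nil)) (.cons 225 (.leaf 226 1777 (.cons 201 (.leaf 177 1414 (.leaf 296 1606 .nil)) .nil)) .nil))) .nil)) .nil)) (.cons 273 (.leaf 274 1979 (.cons 246 (.leaf 245 1960 (.cons 249 (.cons 222 (.leaf 221 1771 (.cons 223 (.leaf 250 1779 (.cons 199 (.leaf 175 1404 (.cons 296 (.leaf 224 1599 (.leaf 271 1596 .nil)) .nil)) .nil)) .nil)) (.cons 221 (.leaf 222 1771 (.cons 226 (.leaf 225 1777 (.cons 250 (.leaf 227 1785 (.cons 251 (.leaf 271 1978 (.leaf 252 1986 .nil)) .nil)) .nil)) .nil)) (.cons 225 (.leaf 226 1777 (.cons 201 (.leaf 177 1414 (.leaf 296 1606 .nil)) .nil)) .nil))) .nil)) .nil)) (.cons 273 (.leaf 274 1979 (.cons 246 (.leaf 245 1960 (.cons 249 (.cons 270 (.leaf 269 1962 (.cons 222 (.leaf 221 1771 (.cons 223 (.leaf 250 1779 (.cons 294 (.leaf 318 1781 (.leaf 199 1589 .nil)) .nil)) .nil)) .nil)) (.cons 222 (.leaf 221 1771 (.cons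 223 (.leaf 250 1779 (.cons 199 (.leaf 175 1404 (.cons 296 (.leaf 224 1599 (.leaf 271 1596 .nil)) .nil)) .nil)) .nil)) (.cons 270 (.leaf 269 1962 (.cons 222 (.leaf 221 1771 (.cons 223 (.cons 294 (.leaf 318 1781 (.leaf 199 1589 .nil)) (.cons 294 (.leaf 318 1781 (.cons 293 (.leaf 271 2154 (.leaf 317 1774 .nil)) .nil)) (.cons 199 (.leaf 175 1404 (.cons 296 (.leaf 224 1599 (.leaf 271 1596 .nil)) .nil)) .nil))) .nil)) .nil)) (.cons 270 (.leaf 269 1962 (.cons 250 (.leaf 271 1969 (.cons 227 (.leaf 226 1785 (.cons 251 (.leaf 252 1986 (.leaf 228 1793 .nil)) .nil)) .nil)) .nil)) .nil)))) .nil)) .nil)) (.cons 273 (.leaf 274 1979 (.cons 246 (.leaf 245 1960 (.cons 249 (.cons 270 (.leaf 269 1962 (.cons 250 (.leaf 271 1969 (.cons 227 (.leaf 226 1785 (.cons 251 (.leaf 252 1986 (.leaf 228 1793 .nil)) .nil)) .nil)) .nil)) (.cons 225 (.leaf 226 1777 (.cons 201 (.leaf 177 1414 (.leaf 296 1606 .nil)) .nil))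 (.cons 270 (.leaf 269 1962 (.cons 271 (.leaf 250 1969 (.cons 293 (.leaf 294 2154 (.cons 297 (.leaf 298 2160 (.cons 321 (.leaf 345 1991 (.leaf 224 1799 .nil)) .nil)) .nil)) .nil)) .nil)) .nil))) .nil)) .nil)) (.cons 273 (.leaf 274 1979 (.cons 246 (.leaf 245 1960 (.cons 249 (.cons 222 (.leaf 221 1771 (.cons 223 (.leaf 250 1779 (.cons 199 (.leaf 175 1404 (.cons 296 (.leaf 224 1599 (.leaf 271 1596 .nil)) .nil)) .nil)) .nil)) (.cons 270 (.leaf 269 1962 (.cons 271 (.leaf 250 1969 (.cons 293 (.leaf 294 2154 (.cons 297 (.leaf 298 2160 (.cons 321 (.leaf 345 1991 (.leaf 224 1799 .nil)) .nil)) .nil)) .nil)) .nil)) (.cons 222 (.leaf 221 1771 (.cons 223 (.leaf 250 1779 (.cons 199 (.leaf 175 1404 (.cons 270 (.leaf 269 1962 (.leaf 294 1589 .nil)) .nil)) .nil)) .nil)) (.cons 270 (.leaf 269 1962 (.cons 222 (.leaf 221 1771 (.cons 223 (.cons 294 (.leaf 318 1781 (.leaf 199 1589 .nil)) (.cons 294 (.leaf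 318 1781 (.cons 293 (.leaf 271 2154 (.leaf 317 1774 .nil)) .nil)) (.cons 199 (.leaf 175 1404 (.cons 296 (.leaf 224 1599 (.leaf 271 1596 .nil)) .nil)) .nil))) .nil)) .nil)) .nil)))) .nil)) .nil)) .nil)))))))
noncomputable def t101 : T := .cons 296 (.leaf 320 1791 (.cons 224 (.leaf 199 1599 (.cons 295 (.leaf 319 1790 (.cons 294 (.leaf 293 2153 (.cons 225 (.leaf 201 1605 (.leaf 226 1778 .nil)) .nil)) .nil)) .nil)) .nil)) (.cons 296 (.leaf 320 1791 (.cons 224 (.cons 295 (.leaf 319 1790 (.cons 294 (.leaf 293 2153 (.cons 225 (.leaf 201 1605 (.leaf 226 1778 .nil)) .nil)) .nil)) (.cons 295 (.leaf 319 1790 (.cons 294 (.leaf 293 2153 (.cons 318 (.leaf 270 1781 (.leaf 271 1782 .nil)) .nil)) .nil)) (.cons 225 (.leaf 201 1605 (.leaf 226 1778 .nil)) .nil))) .nil)) (.cons 199 (.leaf 175 1404 (.cons 271 (.cons 294 (.leaf 270 1590 (.cons 295 (.leaf 318 1782 (.cons 319 (.leaf 343 1981 (.leaf 224 1789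 .nil)) .nil)) .nil)) (.cons 198 (.leaf 174 1399 (.cons 295 (.leaf 222 1591 (.cons 319 (.leaf 343 1981 (.leaf 224 1789 .nil)) .nil)) .nil)) (.cons 270 (.leaf 294 1590 (.cons 198 (.leaf 174 1399 (.cons 269 (.leaf 268 1953 (.cons 293 (.leaf 292 2146 (.leaf 222 1582 .nil)) .nil)) .nil)) .nil)) .nil))) .nil)) (.cons 199 (.leaf 175 1404 (.cons 296 (.leaf 271 1596 (.leaf 320 1791 .nil)) .nil)) .nil)))
noncomputable def t102 : T := .cons 273 (.leaf 274 1979 (.cons 246 (.leaf 245 1960 (.cons 249 (.cons 270 (.leaf 269 1962 (.cons 222 (.leaf 221 1771 (.cons 223 (.leaf 250 1779 (.cons 294 (.leaf 318 1781 (.leaf 199 1589 .nil)) .nil)) .nil)) .nil)) (.cons 225 (.leaf 226 1777 (.cons 177 (.leaf 201 1414 (.cons 222 (.leaf 221 1771 (.cons 250 (.leaf 223 1779 (.cons 251 (.leaf 271 1978 (.leaf 252 1986 .nil)) .nil)) .nil)) .nil)) .nil)) (.cons 270 (.leaf 269 1962 (.cons 222 (.leaf 221 1771 (.cons 223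 (.cons 294 (.leaf 318 1781 (.leaf 199 1589 .nil)) (.cons 294 (.leaf 318 1781 (.cons 293 (.leaf 271 2154 (.leaf 317 1774 .nil)) .nil)) (.cons 199 (.leaf 175 1404 (.cons 296 (.leaf 224 1599 (.leaf 271 1596 .nil)) .nil)) .nil))) .nil)) .nil)) (.cons 270 (.leaf 269 1962 (.cons 250 (.leaf 271 1969 (.cons 227 (.leaf 226 1785 (.cons 251 (.leaf 252 1986 (.leaf 228 1793 .nil)) .nil)) .nil)) .nil)) .nil)))) .nil)) .nil)) (.cons 223 (.cons 296 (.leaf 320 1791 (.cons 199 (.leaf 175 1404 (.leaf 224 1599 .nil)) .nil)) (.cons 199 (.leaf 175 1404 (.cons 271 (.cons 270 (.leaf 294 1590 (.cons 269 (.leaf 249 1961 (.leaf 268 1953 .nil)) .nil)) (.cons 198 (.leaf 174 1399 (.cons 295 (.leaf 222 1591 (.cons 319 (.leaf 343 1981 (.leaf 224 1789 .nil)) .nil)) .nil)) .nil)) .nil)) (.cons 296 (.leaf 320 1791 (.cons 224 (.cons 225 (.leaf 201 1605 (.cons 226 (.leaf 227 1786 (.leaf 246 1778 .nil)) .nil)) (.cons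 295 (.leaf 319 1790 (.cons 297 (.leaf 321 1796 (.cons 298 (.leaf 274 2169 (.cons 271 (.leaf 299 2171 (.leaf 270 2163 .nil)) .nil)) .nil)) .nil)) .nil)) .nil)) (.cons 296 (.leaf 320 1791 (.cons 199 (.leaf 175 1404 (.leaf 271 1596 .nil)) .nil)) .nil)))) (.cons 246 t23 (.cons 273 (.leaf 274 1979 (.cons 246 (.leaf 245 1960 (.cons 223 t101 .nil)) .nil)) t100)))
noncomputable def t103 : T := .cons 226 (.leaf 202 1620 (.cons 323 (.leaf 251 1815 (.leaf 347 2007 .nil)) .nil)) (.cons 226 (.leaf 202 1620 (.cons 225 (.cons 224 (.leaf 227 1786 (.cons 223 (.leaf 246 1778 (.leaf 251 1784 .nil)) .nil)) (.cons 298 (.leaf 201 1615 (.cons 321 (.leaf 297 1806 (.cons 322 (.leaf 345 1998 (.cons 251 (.leaf 227 1813 (.leaf 346 2005 .nil)) .nil)) .nil)) .nil)) (.cons 298 (.leaf 201 1615 (.cons 321 (.leaf 297 1806 (.cons 322 (.leaf 345 1998 (.cons 346 (.leaf 251 2005 (.leaf 370 2197 .nil)) .nil)) .nil)) .nil))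 (.cons 201 (.leaf 298 1615 (.cons 153 (.leaf 177 1228 (.cons 227 (.leaf 224 1786 (.cons 228 (.leaf 200 1603 (.cons 205 (.leaf 204 1609 (.cons 229 (.leaf 206 1617 (.cons 253 (.leaf 252 1800 (.leaf 254 1808 .nil)) .nil)) .nil)) .nil)) .nil)) .nil)) .nil)) .nil)))) .nil)) (.cons 323 (.leaf 347 2007 (.cons 251 (.cons 322 (.leaf 346 2006 (.cons 227 (.leaf 298 1813 (.cons 324 (.leaf 300 1820 (.leaf 348 2012 .nil)) .nil)) .nil)) (.cons 324 (.leaf 348 2012 (.cons 227 (.leaf 300 1820 (.cons 228 (.leaf 204 1629 (.leaf 252 1821 .nil)) .nil)) .nil)) (.cons 322 (.leaf 346 2006 (.cons 227 (.leaf 298 1813 (.cons 228 (.leaf 204 1629 (.leaf 252 1821 .nil)) .nil)) .nil)) (.cons 252 (.leaf 228 1821 (.cons 253 (.leaf 254 2002 (.cons 229 (.leaf 230 1809 (.cons 277 (.leaf 278 2000 (.cons 324 (.leaf 348 2012 (.cons 301 (.leaf 300 1830 (.cons 302 (.leaf 326 1836 (.cons 322 (.leaf 346 2006 (.leaf 325 2385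 .nil)) .nil)) .nil)) .nil)) .nil)) .nil)) .nil)) .nil)) .nil)))) .nil)) (.cons 323 (.leaf 347 2007 (.cons 226 (.leaf 202 1620 (.leaf 298 1812 .nil)) .nil)) .nil)))
noncomputable def t104 : T := .cons 245 (.leaf 273 1960 (.cons 244 (.leaf 271 1952 (.cons 268 (.leaf 269 1954 (.leaf 267 1946 .nil)) .nil)) .nil)) (.cons 249 (.cons 222 (.leaf 221 1771 (.cons 223 (.leaf 250 1779 (.cons 175 (.leaf 199 1404 (.cons 270 (.leaf 269 1962 (.cons 294 (.leaf 318 1781 (.cons 225 (.leaf 226 1777 (.cons 295 (.leaf 319 1780 (.cons 198 (.leaf 271 1588 (.cons 174 (.leaf 150 1204 (.leaf 151 1205 .nil)) .nil)) .nil)) .nil)) .nil)) .nil)) .nil)) .nil)) .nil)) (.cons 225 (.leaf 226 1777 (.cons 201 (.leaf 177 1414 (.cons 296 (.leaf 224 1605 (.leaf 273 1606 .nil)) .nil)) .nil)) (.cons 222 (.leaf 221 1771 (.cons 223 (.leaf 250 1779 (.cons 270 (.leaf 269 1962 (.cons 199 (.leaf 175 1404 (.leaf 294 1589 .nil))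 .nil)) .nil)) .nil)) .nil))) (.cons 245 (.cons 244 (.leaf 271 1952 (.cons 268 (.leaf 269 1954 (.leaf 267 1946 .nil)) .nil)) (.cons 220 (.leaf 221 1763 (.cons 225 (.leaf 224 1769 (.cons 249 (.leaf 226 1777 (.cons 269 (.leaf 268 1954 (.leaf 270 1962 .nil)) .nil)) .nil)) .nil)) (.cons 220 (.leaf 221 1763 (.cons 244 (.leaf 271 1952 (.leaf 219 1755 .nil)) .nil)) .nil))) (.cons 245 (.leaf 273 1960 (.cons 220 (.leaf 221 1763 (.cons 225 (.leaf 224 1769 (.cons 249 (.leaf 226 1777 (.cons 269 (.leaf 268 1954 (.leaf 270 1962 .nil)) .nil)) .nil)) .nil)) .nil)) (.cons 245 (.leaf 273 1960 (.cons 220 (.leaf 221 1763 (.cons 244 (.leaf 271 1952 (.leaf 219 1755 .nil)) .nil)) .nil)) .nil))))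
noncomputable def t105 : T := .cons 246 (.cons 222 (.leaf 221 1771 (.cons 223 (.leaf 250 1779 (.cons 175 (.leaf 199 1404 (.cons 225 (.leaf 226 1777 (.cons 201 (.leaf 177 1414 (.cons 224 (.leaf 296 1605 (.leaf 245 1769 .nil)) .nil)) .nil)) .nil)) .nil)) .nil)) (.cons 225 (.leaf 226 1777 (.cons 177 (.leaf 201 1414 (.cons 221 (.leaf 222 1771 (.cons 245 (.leaf 220 1763 (.leaf 224 1769 .nil)) .nil)) .nil)) .nil)) (.cons 222 (.leaf 221 1771 (.cons 223 (.leaf 250 1779 (.cons 270 (.leaf 269 1962 (.cons 199 (.leaf 175 1404 (.leaf 294 1589 .nil)) .nil)) .nil)) .nil)) (.cons 225 (.leaf 226 1777 (.cons 177 (.leaf 201 1414 (.cons 245 (.leaf 224 1769 (.cons 250 (.leaf 274 1976 (.cons 271 (.leaf 244 1952 (.leaf 251 1978 .nil)) .nil)) .nil)) .nil)) .nil)) .nil)))) (.cons 246 (.cons 225 (.leaf 226 1777 (.cons 177 (.leaf 201 1414 (.cons 221 (.leaf 222 1771 (.cons 245 (.leaf 220 1763 (.leaf 224 1769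 .nil)) .nil)) .nil)) .nil)) (.cons 269 (.leaf 270 1962 (.cons 221 (.leaf 222 1771 (.cons 245 (.leaf 220 1763 (.leaf 268 1954 .nil)) .nil)) .nil)) (.cons 225 (.leaf 226 1777 (.cons 177 (.leaf 201 1414 (.cons 245 (.leaf 224 1769 (.cons 269 (.leaf 268 1954 (.leaf 270 1962 .nil)) .nil)) .nil)) .nil)) (.cons 270 (.leaf 269 1962 (.cons 222 (.leaf 221 1771 (.cons 225 (.leaf 226 1777 (.cons 201 (.leaf 177 1414 (.cons 198 (.cons 173 (.leaf 197 1391 (.cons 174 (.leaf 271 1396 (.leaf 149 1199 .nil)) .nil)) (.cons 173 (.leaf 197 1391 (.cons 174 (.leaf 149 1199 (.cons 199 (.leaf 175 1397 (.leaf 200 1387 .nil)) .nil)) .nil)) (.cons 197 (.leaf 173 1391 (.cons 199 (.leaf 175 1397 (.cons 224 (.leaf 296 1605 (.leaf 223 1579 .nil)) .nil)) .nil)) (.cons 271 (.leaf 174 1396 (.leaf 295 1588 .nil)) .nil)))) .nil)) .nil)) .nil)) .nil)) .nil)))) (.cons 250 (.leaf 274 1976 (.cons 222 (.leaf 223 1779 (.cons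 226 (.leaf 227 1785 (.cons 246 (.leaf 221 1771 (.leaf 225 1777 .nil)) .nil)) .nil)) .nil)) (.cons 250 (.leaf 274 1976 (.cons 271 (.leaf 251 1978 (.leaf 270 1970 .nil)) .nil)) .nil)))
noncomputable def t106 : T := .leaf 274 1979 (.cons 246 (.leaf 245 1960 (.cons 224 (.cons 200 (.leaf 297 1604 (.cons 201 (.leaf 177 1413 (.cons 225 (.leaf 296 1605 (.cons 226 (.leaf 227 1786 (.leaf 249 1777 .nil)) .nil)) .nil)) .nil)) (.cons 249 (.cons 225 (.leaf 226 1777 (.cons 201 (.leaf 177 1414 (.leaf 296 1605 .nil)) .nil)) (.cons 221 (.leaf 222 1771 (.cons 270 (.leaf 269 1962 (.cons 297 (.leaf 321 1799 (.cons 271 (.leaf 250 1969 (.leaf 298 2160 .nil)) .nil)) .nil)) .nil)) .nil)) (.cons 200 (.leaf 297 1604 (.cons 201 (.leaf 177 1413 (.cons 225 (.leaf 296 1605 (.cons 226 (.leaf 227 1786 (.leaf 223 1778 .nil)) .nil)) .nil)) .nil)) (.cons 200 (.cons 201 (.leaf 177 1413 (.cons 225 (.leaf 296 1605 (.cons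 226 (.leaf 227 1786 (.leaf 249 1777 .nil)) .nil)) .nil)) (.cons 201 (.leaf 177 1413 (.cons 225 (.leaf 296 1605 (.cons 226 (.leaf 227 1786 (.leaf 223 1778 .nil)) .nil)) .nil)) (.cons 271 (.leaf 295 1598 (.leaf 176 1406 .nil)) .nil))) (.cons 200 (.leaf 297 1604 (.cons 271 (.leaf 295 1598 (.leaf 176 1406 .nil)) .nil)) .nil))))) .nil)) .nil)
noncomputable def t107 : T := .cons 273 t106 (.cons 249 t105 (.cons 246 t104 (.cons 273 (.leaf 274 1979 (.cons 246 (.leaf 245 1960 (.cons 224 t30 .nil)) .nil)) (.cons 274 (.leaf 273 1979 (.cons 250 (.leaf 249 1976 (.cons 299 t81 .nil)) .nil)) (.cons 273 (.leaf 274 1979 (.cons 246 (.leaf 245 1960 (.cons 249 (.cons 270 (.leaf 269 1962 (.cons 250 (.leaf 271 1969 (.cons 222 (.leaf 221 1771 (.leaf 223 1779 .nil)) .nil)) .nil)) (.cons 225 (.leaf 226 1777 (.cons 177 (.leaf 201 1414 (.cons 222 (.leaf 221 1771 (.cons 250 (.leaf 223 1779 (.cons 251 (.leaf 271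 1978 (.leaf 252 1986 .nil)) .nil)) .nil)) .nil)) .nil)) (.cons 225 (.leaf 226 1777 (.cons 201 (.leaf 177 1414 (.leaf 296 1606 .nil)) .nil)) .nil))) .nil)) .nil)) (.cons 273 (.leaf 274 1979 (.cons 246 (.leaf 245 1960 (.cons 249 (.cons 221 (.leaf 222 1771 (.cons 270 (.leaf 269 1962 (.cons 271 (.leaf 250 1969 (.cons 293 (.leaf 294 2154 (.cons 297 (.leaf 298 2160 (.cons 224 (.leaf 200 1604 (.leaf 321 1799 .nil)) .nil)) .nil)) .nil)) .nil)) .nil)) (.cons 225 (.leaf 226 1777 (.cons 201 (.leaf 177 1414 (.leaf 296 1606 .nil)) .nil)) .nil)) .nil)) .nil)) (.cons 274 (.leaf 273 1979 (.cons 250 (.leaf 249 1976 (.cons 299 t103 .nil)) .nil)) (.cons 273 (.leaf 274 1979 (.cons 246 (.leaf 245 1960 (.cons 249 (.cons 221 (.leaf 222 1771 (.cons 270 (.leaf 269 1962 (.cons 271 (.leaf 250 1969 (.cons 294 (.leaf 293 2154 (.cons 223 (.leaf 199 1590 (.leaf 318 1781 .nil)) .nil)) .nil)) .nil)) .nil)) (.cons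 222 (.leaf 221 1771 (.cons 223 (.leaf 250 1779 (.cons 199 (.leaf 175 1404 (.cons 296 (.leaf 224 1599 (.leaf 271 1596 .nil)) .nil)) .nil)) .nil)) (.cons 222 (.leaf 221 1771 (.cons 223 (.leaf 250 1779 (.cons 199 (.leaf 175 1404 (.cons 270 (.leaf 269 1962 (.leaf 294 1589 .nil)) .nil)) .nil)) .nil)) (.cons 270 (.leaf 269 1962 (.cons 271 (.leaf 250 1969 (.cons 293 (.leaf 294 2154 (.cons 297 (.leaf 298 2160 (.cons 321 (.leaf 345 1991 (.leaf 224 1799 .nil)) .nil)) .nil)) .nil)) .nil)) (.cons 270 (.leaf 269 1962 (.cons 222 (.leaf 221 1771 (.cons 271 (.cons 198 (.leaf 174 1396 (.leaf 295 1588 .nil)) (.cons 297 (.leaf 298 2160 (.cons 224 (.leaf 200 1604 (.leaf 321 1799 .nil)) .nil)) .nil)) .nil)) .nil)) .nil))))) .nil)) .nil)) .nil))))))))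
noncomputable def t108 : T := .cons 323 (.leaf 347 2007 (.cons 251 (.leaf 226 1815 (.cons 252 (.leaf 228 1821 (.cons 253 (.leaf 254 2002 (.cons 229 (.leaf 230 1809 (.cons 277 (.leaf 278 2000 (.cons 324 (.leaf 348 2012 (.cons 301 (.leaf 300 1830 (.cons 302 (.leaf 326 1836 (.cons 322 (.leaf 346 2006 (.leaf 325 2385 .nil)) .nil)) .nil)) .nil)) .nil)) .nil)) .nil)) .nil)) .nil)) .nil)) (.cons 226 (.leaf 202 1620 (.cons 225 (.cons 224 (.leaf 227 1786 (.cons 201 (.leaf 296 1605 (.leaf 298 1615 .nil)) .nil)) (.cons 298 (.leaf 201 1615 (.cons 321 (.leaf 297 1806 (.cons 322 (.leaf 345 1998 (.cons 251 (.leaf 227 1813 (.leaf 346 2005 .nil)) .nil)) .nil)) .nil)) (.cons 224 (.leaf 227 1786 (.cons 223 (.leaf 251 1784 (.cons 199 (.leaf 175 1404 (.leaf 296 1599 .nil)) .nil)) .nil)) (.cons 298 (.leaf 201 1615 (.cons 321 (.leaf 297 1806 (.cons 322 (.leaf 345 1998 (.cons 346 (.leaf 251 2005 (.leaf 370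 2197 .nil)) .nil)) .nil)) .nil)) .nil)))) .nil)) (.cons 323 (.leaf 347 2007 (.cons 251 (.cons 252 (.leaf 228 1821 (.cons 253 (.leaf 254 2002 (.cons 229 (.leaf 230 1809 (.cons 277 (.leaf 278 2000 (.cons 324 (.leaf 348 2012 (.cons 301 (.leaf 300 1830 (.cons 302 (.leaf 326 1836 (.cons 322 (.leaf 346 2006 (.leaf 325 2385 .nil)) .nil)) .nil)) .nil)) .nil)) .nil)) .nil)) .nil)) (.cons 324 (.leaf 348 2012 (.cons 227 (.leaf 300 1820 (.cons 228 (.leaf 204 1629 (.leaf 252 1821 .nil)) .nil)) .nil)) (.cons 322 (.leaf 346 2006 (.cons 227 (.leaf 298 1813 (.cons 228 (.leaf 204 1629 (.leaf 252 1821 .nil)) .nil)) .nil)) (.cons 322 (.leaf 346 2006 (.cons 227 (.leaf 298 1813 (.cons 324 (.leaf 300 1820 (.leaf 348 2012 .nil)) .nil)) .nil)) .nil)))) .nil)) (.cons 323 (.leaf 347 2007 (.cons 226 (.leaf 202 1620 (.leaf 298 1812 .nil)) .nil)) .nil)))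
noncomputable def t109 : T := .cons 320 (.leaf 223 1791 (.cons 225 (.leaf 249 1797 (.cons 224 (.leaf 201 1605 (.cons 226 (.leaf 227 1786 (.cons 245 (.leaf 246 1769 (.cons 343 (.leaf 319 1982 (.cons 344 (.leaf 271 1983 (.leaf 367 2174 .nil)) .nil)) .nil)) .nil)) .nil)) .nil)) .nil)) (.cons 224 (.cons 199 (.leaf 223 1599 (.cons 200 (.leaf 175 1407 (.cons 176 (.leaf 271 1406 (.cons 177 (.leaf 201 1413 (.leaf 153 1221 .nil)) .nil)) .nil)) .nil)) (.cons 225 (.leaf 201 1605 (.cons 226 (.leaf 227 1786 (.cons 246 (.leaf 245 1769 (.leaf 249 1777 .nil)) .nil)) .nil)) (.cons 199 (.leaf 223 1599 (.cons 200 (.leaf 175 1407 (.cons 297 (.leaf 273 1604 (.leaf 321 1796 .nil)) .nil)) .nil)) .nil))) (.cons 320 (.cons 225 (.leaf 249 1797 (.cons 224 (.leaf 201 1605 (.cons 226 (.leaf 227 1786 (.cons 245 (.leaf 246 1769 (.cons 343 (.leaf 319 1982 (.cons 344 (.leaf 271 1983 (.leaf 367 2174 .nil)) .nil))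 .nil)) .nil)) .nil)) .nil)) (.cons 225 (.leaf 249 1797 (.cons 224 (.leaf 201 1605 (.cons 321 (.leaf 297 1796 (.leaf 345 1988 .nil)) .nil)) .nil)) (.cons 271 (.leaf 344 1983 (.cons 319 (.leaf 343 1982 (.cons 321 (.leaf 345 1988 (.cons 297 (.leaf 224 1796 (.cons 298 (.leaf 299 2362 (.leaf 318 2353 .nil)) .nil)) .nil)) .nil)) .nil)) (.cons 225 (.leaf 249 1797 (.cons 344 (.leaf 271 1983 (.cons 343 (.leaf 319 1982 (.leaf 367 2174 .nil)) .nil)) .nil)) .nil)))) (.cons 320 (.leaf 223 1791 (.cons 225 (.leaf 249 1797 (.cons 344 (.leaf 271 1983 (.cons 343 (.leaf 319 1982 (.leaf 367 2174 .nil)) .nil)) .nil)) .nil)) (.cons 224 (.cons 199 (.leaf 223 1599 (.cons 200 (.leaf 175 1407 (.cons 297 (.leaf 273 1604 (.leaf 321 1796 .nil)) .nil)) .nil)) (.cons 225 (.leaf 201 1605 (.cons 226 (.leaf 227 1786 (.cons 246 (.leaf 245 1769 (.leaf 249 1777 .nil)) .nil)) .nil)) .nil)) (.cons 320 (.leaf 223 1791 (.cons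 271 (.leaf 344 1983 (.cons 319 (.leaf 343 1982 (.cons 321 (.leaf 345 1988 (.cons 297 (.leaf 224 1796 (.cons 298 (.leaf 299 2362 (.leaf 318 2353 .nil)) .nil)) .nil)) .nil)) .nil)) .nil)) .nil)))))
noncomputable def t110 : T := .cons 273 (.leaf 274 1979 (.cons 246 (.leaf 245 1960 (.cons 249 (.cons 270 (.leaf 269 1962 (.cons 271 (.leaf 250 1969 (.cons 293 (.leaf 294 2154 (.cons 297 (.leaf 298 2160 (.cons 321 (.leaf 345 1991 (.leaf 224 1799 .nil)) .nil)) .nil)) .nil)) .nil)) (.cons 225 (.leaf 226 1777 (.cons 177 (.leaf 201 1414 (.cons 222 (.leaf 221 1771 (.cons 250 (.leaf 223 1779 (.cons 251 (.leaf 271 1978 (.leaf 252 1986 .nil)) .nil)) .nil)) .nil)) .nil)) (.cons 225 (.leaf 226 1777 (.cons 201 (.leaf 177 1414 (.leaf 296 1606 .nil)) .nil)) .nil))) .nil)) .nil)) (.cons 249 (.cons 225 (.cons 201 (.leaf 177 1414 (.cons 296 (.leaf 224 1605 (.leaf 320 1797 .nil)) .nil)) (.cons 226 (.leaf 246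 1777 (.cons 227 (.leaf 224 1786 (.leaf 228 1794 .nil)) .nil)) (.cons 177 (.leaf 201 1414 (.cons 246 (.leaf 226 1777 (.cons 221 (.leaf 222 1771 (.cons 245 (.leaf 220 1763 (.cons 269 (.leaf 268 1954 (.leaf 270 1962 .nil)) .nil)) .nil)) .nil)) .nil)) .nil))) (.cons 250 (.leaf 274 1976 (.cons 223 (.leaf 222 1779 (.cons 175 (.leaf 199 1404 (.cons 227 (.leaf 226 1785 (.cons 251 (.leaf 271 1978 (.leaf 224 1787 .nil)) .nil)) .nil)) .nil)) .nil)) (.cons 250 (.leaf 274 1976 (.cons 271 (.leaf 251 1978 (.leaf 270 1970 .nil)) .nil)) .nil))) (.cons 296 t109 (.cons 273 (.leaf 274 1979 (.cons 246 (.leaf 245 1960 (.cons 223 (.cons 296 (.leaf 320 1791 (.cons 199 (.leaf 175 1404 (.leaf 224 1599 .nil)) .nil)) (.cons 296 (.leaf 320 1791 (.cons 224 (.cons 225 (.leaf 201 1605 (.leaf 226 1778 .nil)) (.cons 297 (.leaf 200 1604 (.leaf 321 1796 .nil)) .nil)) .nil)) (.cons 199 (.leaf 175 1404 (.cons 271 (.cons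 200 (.leaf 176 1405 (.cons 270 (.leaf 294 1590 (.cons 297 (.leaf 224 1604 (.leaf 298 2160 .nil)) .nil)) .nil)) (.cons 174 (.leaf 198 1399 (.cons 200 (.leaf 176 1405 (.cons 224 (.leaf 297 1604 (.cons 201 (.leaf 177 1413 (.cons 222 (.leaf 202 1586 (.leaf 221 1577 .nil)) .nil)) .nil)) .nil)) .nil)) (.cons 198 (.leaf 174 1399 (.cons 270 (.leaf 294 1590 (.cons 269 (.leaf 268 1953 (.cons 293 (.leaf 292 2146 (.leaf 222 1582 .nil)) .nil)) .nil)) .nil)) .nil))) .nil)) (.cons 199 (.leaf 175 1404 (.cons 296 (.leaf 271 1596 (.leaf 320 1791 .nil)) .nil)) .nil)))) .nil)) .nil)) (.cons 274 (.leaf 273 1979 (.cons 250 (.leaf 249 1976 (.cons 299 t108 .nil)) .nil)) (.cons 273 (.leaf 274 1979 (.cons 246 (.leaf 245 1960 (.cons 249 (.cons 225 (.leaf 226 1777 (.cons 201 (.leaf 177 1414 (.leaf 296 1606 .nil)) .nil)) (.cons 270 (.leaf 269 1962 (.cons 271 (.leaf 250 1969 (.cons 293 (.leaf 294 2154 (.cons 297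 (.leaf 298 2160 (.cons 321 (.leaf 345 1991 (.leaf 224 1799 .nil)) .nil)) .nil)) .nil)) .nil)) .nil)) .nil)) .nil)) (.cons 274 (.leaf 273 1979 (.cons 250 (.leaf 249 1976 (.cons 299 t103 .nil)) .nil)) (.cons 273 (.leaf 274 1979 (.cons 246 (.leaf 245 1960 (.cons 249 (.cons 221 (.leaf 222 1771 (.cons 270 (.leaf 269 1962 (.cons 271 (.leaf 250 1969 (.cons 293 (.leaf 294 2154 (.cons 297 (.leaf 298 2160 (.cons 321 (.leaf 345 1991 (.cons 320 (.leaf 344 1990 (.cons 296 (.leaf 223 1791 (.leaf 225 1797 .nil)) .nil)) .nil)) .nil)) .nil)) .nil)) .nil)) .nil)) (.cons 225 (.leaf 226 1777 (.cons 177 (.leaf 201 1414 (.cons 222 (.leaf 221 1771 (.cons 250 (.leaf 223 1779 (.cons 251 (.leaf 271 1978 (.leaf 252 1986 .nil)) .nil)) .nil)) .nil)) .nil)) (.cons 221 (.leaf 222 1771 (.cons 270 (.leaf 269 1962 (.cons 271 (.leaf 250 1969 (.cons 294 (.leaf 293 2154 (.cons 223 (.leaf 199 1590 (.leaf 318 1781 .nil))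 .nil)) .nil)) .nil)) .nil)) (.cons 225 (.leaf 226 1777 (.cons 201 (.leaf 177 1414 (.leaf 296 1606 .nil)) .nil)) .nil)))) .nil)) .nil)) (.cons 273 (.leaf 274 1979 (.cons 246 (.leaf 245 1960 (.cons 249 (.cons 270 (.leaf 269 1962 (.cons 271 (.leaf 250 1969 (.cons 293 (.leaf 294 2154 (.cons 297 (.leaf 298 2160 (.cons 321 (.leaf 345 1991 (.leaf 224 1799 .nil)) .nil)) .nil)) .nil)) .nil)) (.cons 222 (.leaf 221 1771 (.cons 223 (.leaf 250 1779 (.cons 199 (.leaf 175 1404 (.cons 296 (.leaf 224 1599 (.leaf 271 1596 .nil)) .nil)) .nil)) .nil)) (.cons 270 (.leaf 269 1962 (.cons 222 (.leaf 221 1771 (.cons 223 (.cons 294 (.leaf 318 1781 (.leaf 199 1589 .nil)) (.cons 294 (.leaf 318 1781 (.cons 293 (.leaf 271 2154 (.leaf 317 1774 .nil)) .nil)) (.cons 199 (.leaf 175 1404 (.cons 296 (.leaf 224 1599 (.leaf 271 1596 .nil)) .nil)) .nil))) .nil)) .nil)) (.cons 222 (.leaf 221 1771 (.cons 223 (.leaf 250 1779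 (.cons 199 (.leaf 175 1404 (.cons 270 (.leaf 269 1962 (.leaf 294 1589 .nil)) .nil)) .nil)) .nil)) .nil)))) .nil)) .nil)) .nil))))))))
noncomputable def t111 : T := .cons 224 (.cons 199 (.leaf 223 1599 (.cons 175 (.leaf 200 1407 (.cons 225 (.leaf 201 1605 (.cons 320 (.leaf 249 1797 (.cons 319 (.leaf 295 1790 (.leaf 343 1982 .nil)) .nil)) .nil)) .nil)) .nil)) (.cons 199 (.leaf 223 1599 (.cons 175 (.leaf 200 1407 (.cons 225 (.leaf 201 1605 (.cons 320 (.leaf 249 1797 (.cons 343 (.leaf 319 1982 (.cons 344 (.leaf 367 2174 (.cons 321 (.leaf 297 1796 (.leaf 345 1988 .nil)) .nil)) .nil)) .nil)) .nil)) .nil)) .nil)) (.cons 199 (.leaf 223 1599 (.cons 201 (.leaf 225 1605 (.cons 321 (.leaf 297 1796 (.cons 320 (.leaf 345 1988 (.cons 343 (.leaf 319 1982 (.cons 344 (.leaf 249 1989 (.leaf 367 2174 .nil)) .nil)) .nil)) .nil)) .nil)) .nil)) (.cons 199 (.leaf 223 1599 (.cons 200 (.leaf 175 1407 (.leaf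 297 1604 .nil)) .nil)) (.cons 297 (.leaf 200 1604 (.leaf 321 1796 .nil)) .nil))))) (.cons 224 (.cons 199 (.leaf 223 1599 (.cons 175 (.leaf 200 1407 (.cons 225 (.leaf 201 1605 (.cons 320 (.leaf 249 1797 (.cons 343 (.leaf 319 1982 (.cons 344 (.leaf 367 2174 (.cons 321 (.leaf 297 1796 (.leaf 345 1988 .nil)) .nil)) .nil)) .nil)) .nil)) .nil)) .nil)) (.cons 225 (.leaf 201 1605 (.cons 199 (.leaf 223 1599 (.cons 320 (.leaf 249 1797 (.cons 343 (.leaf 319 1982 (.cons 344 (.leaf 367 2174 (.cons 345 (.leaf 321 1988 (.leaf 369 2180 .nil)) .nil)) .nil)) .nil)) .nil)) .nil)) (.cons 199 (.leaf 223 1599 (.cons 200 (.leaf 175 1407 (.leaf 297 1604 .nil)) .nil)) (.cons 297 (.leaf 200 1604 (.leaf 321 1796 .nil)) .nil)))) (.cons 274 (.leaf 295 2170 (.cons 299 (.leaf 300 2176 (.cons 251 (.leaf 252 1985 (.cons 320 (.cons 225 (.leaf 249 1797 (.cons 319 (.leaf 343 1982 (.cons 298 (.leaf 297 2362 (.cons 321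 (.leaf 345 1988 (.leaf 322 2361 .nil)) .nil)) .nil)) .nil)) (.cons 319 (.leaf 343 1982 (.cons 345 (.leaf 321 1988 (.cons 344 (.leaf 369 2180 (.cons 297 (.leaf 368 2181 (.leaf 298 2362 .nil)) .nil)) .nil)) .nil)) (.cons 249 (.leaf 225 1797 (.leaf 344 1989 .nil)) .nil))) .nil)) .nil)) .nil)) (.cons 295 (.leaf 274 2170 (.cons 224 (.leaf 319 1790 (.cons 199 (.leaf 223 1599 (.cons 200 (.leaf 175 1407 (.cons 201 (.leaf 177 1413 (.leaf 225 1605 .nil)) .nil)) .nil)) .nil)) .nil)) (.cons 274 (.leaf 295 2170 (.cons 299 (.leaf 300 2176 (.cons 251 (.leaf 252 1985 (.cons 323 (.cons 250 (.leaf 226 1815 (.leaf 347 2007 .nil)) (.cons 322 (.leaf 346 2006 (.cons 324 (.leaf 348 2012 (.cons 297 (.leaf 298 2368 (.leaf 321 2371 .nil)) .nil)) .nil)) .nil)) .nil)) .nil)) .nil)) .nil))))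
noncomputable def t112 : T := .cons 321 (.leaf 345 1991 (.cons 224 (.leaf 200 1604 (.leaf 296 1796 .nil)) .nil)) (.cons 224 (.leaf 200 1604 (.cons 296 (.cons 199 (.leaf 223 1599 (.cons 319 (.leaf 295 1790 (.cons 320 (.leaf 343 1982 (.cons 249 (.leaf 225 1797 (.leaf 344 1989 .nil)) .nil)) .nil)) .nil)) (.cons 199 (.leaf 223 1599 (.cons 319 (.leaf 295 1790 (.cons 320 (.leaf 343 1982 (.cons 344 (.leaf 249 1989 (.leaf 368 2181 .nil)) .nil)) .nil)) .nil)) (.cons 223 (.leaf 199 1599 (.cons 225 (.leaf 201 1605 (.cons 295 (.leaf 319 1790 (.cons 294 (.leaf 293 2153 (.cons 270 (.leaf 269 2155 (.cons 318 (.leaf 317 2346 (.cons 246 (.leaf 247 1781 (.cons 245 (.leaf 222 1770 (.leaf 221 1775 .nil)) .nil)) .nil)) .nil)) .nil)) .nil)) .nil)) .nil)) (.cons 225 (.leaf 201 1605 (.cons 249 (.leaf 320 1797 (.cons 226 (.leaf 202 1613 (.cons 227 (.leaf 247 1786 (.leaf 228 1794 .nil)) .nil)) .nil)) .nil))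 .nil)))) .nil)) (.cons 321 (.leaf 345 1991 (.cons 249 (.cons 250 (.leaf 226 1805 (.cons 251 (.leaf 252 1986 (.cons 227 (.leaf 228 1793 (.cons 320 (.leaf 344 1990 (.cons 296 (.leaf 225 1797 (.cons 322 (.leaf 346 1996 (.cons 295 (.leaf 294 2352 (.leaf 323 2363 .nil)) .nil)) .nil)) .nil)) .nil)) .nil)) .nil)) (.cons 226 (.leaf 250 1805 (.cons 225 (.leaf 202 1613 (.cons 201 (.leaf 177 1414 (.leaf 296 1606 .nil)) .nil)) .nil)) (.cons 250 (.leaf 226 1805 (.cons 251 (.leaf 252 1986 (.cons 227 (.leaf 228 1793 (.cons 320 (.leaf 344 1990 (.cons 322 (.leaf 346 1996 (.cons 298 (.leaf 299 1814 (.cons 319 (.leaf 318 2353 (.cons 343 (.leaf 296 1982 (.leaf 342 2546 .nil)) .nil)) .nil)) .nil)) .nil)) .nil)) .nil)) .nil)) (.cons 320 (.leaf 344 1990 (.cons 322 (.leaf 346 1996 (.cons 225 (.leaf 296 1797 (.leaf 298 1804 .nil)) .nil)) .nil)) (.cons 320 (.leaf 344 1990 (.cons 322 (.leaf 346 1996 (.cons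 298 (.leaf 225 1804 (.cons 299 (.leaf 300 2370 (.leaf 319 2361 .nil)) .nil)) .nil)) .nil)) .nil))))) .nil)) (.cons 321 (.leaf 345 1991 (.cons 224 (.leaf 200 1604 (.leaf 249 1799 .nil)) .nil)) .nil)))
noncomputable def t113 : T := .cons 274 (.leaf 247 1979 (.cons 296 (.leaf 295 2170 (.cons 299 (.leaf 300 2176 (.cons 251 (.leaf 252 1985 (.cons 224 (.cons 201 (.leaf 225 1605 (.cons 199 (.leaf 223 1599 (.cons 200 (.leaf 175 1407 (.leaf 177 1413 .nil)) .nil)) .nil)) (.cons 201 (.leaf 225 1605 (.cons 223 (.leaf 199 1599 (.cons 250 (.leaf 249 1787 (.cons 226 (.leaf 202 1620 (.leaf 323 1815 .nil)) .nil)) .nil)) .nil)) (.cons 297 (.leaf 200 1604 (.leaf 321 1796 .nil)) .nil))) .nil)) .nil)) .nil)) .nil)) (.cons 297 t112 (.cons 296 t111 (.cons 274 (.leaf 247 1979 (.cons 299 (.leaf 300 2176 (.cons 251 (.leaf 252 1985 (.cons 323 (.cons 250 (.leaf 226 1815 (.leaf 347 2007 .nil)) (.cons 322 (.leaf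 346 2006 (.cons 348 (.leaf 324 2012 (.cons 347 (.leaf 372 2204 (.cons 298 (.leaf 227 1814 (.leaf 371 2199 .nil)) .nil)) .nil)) .nil)) (.cons 226 (.leaf 250 1815 (.cons 227 (.leaf 202 1623 (.cons 322 (.leaf 298 1814 (.leaf 346 2006 .nil)) .nil)) .nil)) .nil))) .nil)) .nil)) .nil)) (.cons 274 (.leaf 247 1979 (.cons 296 (.leaf 295 2170 (.cons 251 (.leaf 252 1985 (.cons 224 (.cons 199 (.leaf 223 1599 (.cons 200 (.leaf 175 1407 (.leaf 297 1604 .nil)) .nil)) (.cons 199 (.leaf 223 1599 (.cons 200 (.leaf 175 1407 (.cons 201 (.leaf 177 1413 (.leaf 225 1605 .nil)) .nil)) .nil)) (.cons 199 (.leaf 223 1599 (.cons 201 (.leaf 225 1605 (.cons 321 (.leaf 297 1796 (.cons 320 (.leaf 345 1988 (.cons 343 (.leaf 319 1982 (.cons 344 (.leaf 249 1989 (.leaf 367 2174 .nil)) .nil)) .nil)) .nil)) .nil)) .nil)) (.cons 297 (.leaf 200 1604 (.leaf 321 1796 .nil)) .nil)))) .nil)) .nil)) .nil)) (.cons 274 (.leaf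 247 1979 (.cons 296 (.leaf 295 2170 (.cons 299 (.leaf 300 2176 (.cons 224 t0 .nil)) .nil)) .nil)) .nil)))))
noncomputable def t114 : T := .cons 201 (.leaf 225 1605 (.cons 223 (.leaf 199 1599 (.cons 320 (.leaf 247 1791 (.cons 321 (.leaf 297 1796 (.leaf 345 1988 .nil)) .nil)) .nil)) .nil)) (.cons 223 (.leaf 199 1599 (.cons 201 (.leaf 225 1605 (.cons 247 (.leaf 320 1791 (.cons 245 (.leaf 246 1960 (.cons 295 (.leaf 319 1790 (.cons 294 (.leaf 293 2153 (.cons 271 (.leaf 318 1782 (.cons 222 (.leaf 198 1591 (.cons 221 (.leaf 220 1760 (.leaf 244 1762 .nil)) .nil)) .nil)) .nil)) .nil)) .nil)) .nil)) .nil)) .nil)) (.cons 321 (.leaf 297 1796 (.cons 201 (.leaf 225 1605 (.cons 319 (.leaf 295 1790 (.cons 320 (.leaf 343 1982 (.leaf 345 1988 .nil)) .nil)) .nil)) .nil)) (.cons 321 (.leaf 297 1796 (.cons 199 (.leaf 223 1599 (.cons 319 (.leaf 295 1790 (.cons 320 (.leaf 343 1982 (.leaf 345 1988 .nil))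 .nil)) .nil)) .nil)) (.cons 297 (.leaf 321 1796 (.cons 199 (.leaf 223 1599 (.cons 295 (.leaf 319 1790 (.cons 294 (.leaf 293 2153 (.cons 270 (.leaf 269 2155 (.cons 298 (.leaf 271 2160 (.cons 299 (.leaf 300 2179 (.cons 323 (.leaf 322 2360 (.leaf 324 2368 .nil)) .nil)) .nil)) .nil)) .nil)) .nil)) .nil)) .nil)) .nil))))
noncomputable def t115 : T := .cons 296 (.cons 201 (.leaf 225 1605 (.cons 223 (.leaf 199 1599 (.cons 320 (.leaf 247 1791 (.cons 321 (.leaf 297 1796 (.leaf 345 1988 .nil)) .nil)) .nil)) .nil)) (.cons 295 (.leaf 319 1790 (.cons 199 (.leaf 223 1599 (.cons 200 (.leaf 175 1407 (.leaf 271 1598 .nil)) .nil)) .nil)) (.cons 297 (.leaf 200 1604 (.leaf 321 1796 .nil)) .nil))) (.cons 296 t114 (.cons 200 (.cons 175 (.leaf 199 1407 (.cons 176 (.leaf 151 1215 (.cons 177 (.leaf 201 1413 (.leaf 153 1221 .nil)) .nil)) .nil)) (.cons 271 (.leaf 295 1598 (.cons 176 (.leaf 247 1406 (.cons 177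 (.leaf 201 1413 (.leaf 153 1221 .nil)) .nil)) .nil)) (.cons 271 (.leaf 295 1598 (.cons 176 (.leaf 247 1406 (.cons 151 (.leaf 175 1215 (.cons 152 (.leaf 127 1023 (.cons 153 (.leaf 177 1221 (.leaf 129 1029 .nil)) .nil)) .nil)) .nil)) .nil)) (.cons 175 (.leaf 199 1407 (.cons 176 (.leaf 151 1215 (.cons 271 (.leaf 295 1598 (.leaf 247 1406 .nil)) .nil)) .nil)) (.cons 175 (.leaf 199 1407 (.cons 201 (.leaf 177 1413 (.cons 295 (.leaf 271 1598 (.cons 296 (.leaf 225 1605 (.leaf 319 1790 .nil)) .nil)) .nil)) .nil)) .nil))))) (.cons 200 (.leaf 297 1604 (.cons 271 (.leaf 295 1598 (.cons 176 (.leaf 247 1406 (.cons 177 (.leaf 201 1413 (.leaf 153 1221 .nil)) .nil)) .nil)) .nil)) (.cons 200 (.leaf 297 1604 (.cons 175 (.leaf 199 1407 (.cons 176 (.leaf 151 1215 (.cons 177 (.leaf 201 1413 (.leaf 153 1221 .nil)) .nil)) .nil)) .nil)) (.cons 200 (.leaf 297 1604 (.cons 271 (.leaf 295 1598 (.cons 176 (.leaf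 247 1406 (.cons 151 (.leaf 175 1215 (.cons 152 (.leaf 127 1023 (.cons 153 (.leaf 177 1221 (.leaf 129 1029 .nil)) .nil)) .nil)) .nil)) .nil)) .nil)) .nil)))))
noncomputable def t116 : T := .cons 274 (.leaf 247 1979 (.cons 299 (.leaf 300 2176 (.cons 251 (.leaf 252 1985 (.cons 298 (.leaf 271 2168 (.cons 322 (.leaf 227 1814 (.leaf 346 2005 .nil)) .nil)) .nil)) .nil)) .nil)) (.cons 224 t115 (.cons 274 (.cons 299 (.leaf 300 2176 (.cons 251 (.leaf 252 1985 (.cons 298 (.leaf 271 2168 (.cons 322 (.leaf 227 1814 (.leaf 346 2005 .nil)) .nil)) .nil)) .nil)) (.cons 295 (.leaf 296 2170 (.cons 251 (.leaf 252 1985 (.cons 271 (.leaf 250 1977 (.leaf 294 2162 .nil)) .nil)) .nil)) (.cons 295 (.leaf 296 2170 (.cons 271 (.leaf 294 2162 (.cons 299 (.leaf 300 2176 (.leaf 298 2168 .nil)) .nil)) .nil)) (.cons 296 (.leaf 295 2170 (.cons 299 (.leaf 300 2176 (.cons 251 (.leaf 252 1985 (.cons 323 (.cons 250 (.leaf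 226 1815 (.leaf 347 2007 .nil)) (.cons 322 (.leaf 346 2006 (.cons 324 (.leaf 348 2012 (.cons 297 (.leaf 298 2368 (.leaf 321 2371 .nil)) .nil)) .nil)) .nil)) .nil)) .nil)) .nil)) .nil)))) (.cons 274 (.leaf 247 1979 (.cons 296 (.leaf 295 2170 (.cons 299 (.leaf 300 2176 (.cons 251 (.leaf 252 1985 (.cons 323 (.cons 250 (.leaf 226 1815 (.leaf 347 2007 .nil)) (.cons 322 (.leaf 346 2006 (.cons 324 (.leaf 348 2012 (.cons 297 (.leaf 298 2368 (.leaf 321 2371 .nil)) .nil)) .nil)) .nil)) .nil)) .nil)) .nil)) .nil)) (.cons 274 (.leaf 247 1979 (.cons 295 (.leaf 296 2170 (.cons 251 (.leaf 252 1985 (.cons 271 (.leaf 250 1977 (.leaf 294 2162 .nil)) .nil)) .nil)) .nil)) .nil))))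
noncomputable def t117 : T := .cons 199 (.leaf 175 1407 (.cons 177 (.leaf 201 1413 (.cons 153 (.leaf 176 1221 (.cons 296 (.leaf 223 1599 (.cons 297 (.leaf 273 1604 (.leaf 321 1796 .nil)) .nil)) .nil)) .nil)) .nil)) (.cons 271 (.leaf 295 1598 (.cons 176 (.leaf 247 1406 (.cons 177 (.leaf 201 1413 (.leaf 153 1221 .nil)) .nil)) .nil)) (.cons 199 (.leaf 175 1407 (.cons 223 (.leaf 296 1599 (.cons 271 (.leaf 295 1598 (.cons 176 (.leaf 247 1405 (.cons 152 (.leaf 128 1022 (.cons 153 (.leaf 177 1221 (.leaf 129 1029 .nil)) .nil)) .nil)) .nil)) .nil)) .nil)) (.cons 199 (.leaf 175 1407 (.cons 223 (.leaf 296 1599 (.cons 271 (.leaf 295 1598 (.cons 247 (.leaf 176 1405 (.cons 198 (.leaf 174 1399 (.cons 197 (.leaf 196 1568 (.leaf 225 1576 .nil)) .nil)) .nil)) .nil)) .nil)) .nil)) (.cons 199 (.leaf 175 1407 (.cons 177 (.leaf 201 1413 (.cons 271 (.leaf 295 1598 (.cons 296 (.leaf 223 1599 (.cons 321 (.leaf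 297 1796 (.cons 320 (.leaf 345 1988 (.cons 343 (.leaf 319 1982 (.cons 344 (.leaf 247 1983 (.leaf 367 2174 .nil)) .nil)) .nil)) .nil)) .nil)) .nil)) .nil)) .nil)) .nil))))
noncomputable def t118 : T := .cons 200 (.cons 271 (.leaf 295 1598 (.cons 176 (.leaf 247 1406 (.cons 273 (.leaf 297 1604 (.leaf 249 1412 .nil)) .nil)) .nil)) (.cons 273 (.leaf 297 1604 (.cons 175 (.leaf 199 1407 (.cons 176 (.leaf 151 1215 (.leaf 249 1412 .nil)) .nil)) .nil)) (.cons 271 (.leaf 295 1598 (.cons 175 (.leaf 199 1407 (.cons 176 (.leaf 151 1215 (.leaf 247 1406 .nil)) .nil)) .nil)) (.cons 199 (.leaf 175 1407 (.cons 201 (.leaf 177 1413 (.cons 271 (.leaf 295 1598 (.cons 273 (.leaf 297 1604 (.cons 198 (.cons 226 (.leaf 225 1584 (.cons 173 (.leaf 174 1387 (.cons 202 (.leaf 227 1592 (.cons 222 (.leaf 221 1578 (.leaf 223 1586 .nil)) .nil)) .nil)) .nil)) (.cons 222 (.leaf 221 1578 (.cons 173 (.leaf 174 1387 (.cons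 197 (.leaf 172 1379 (.cons 223 (.leaf 196 1568 (.leaf 202 1586 .nil)) .nil)) .nil)) .nil)) (.cons 225 (.leaf 197 1576 (.leaf 226 1584 .nil)) .nil))) .nil)) .nil)) .nil)) .nil)) .nil)))) (.cons 200 (.cons 175 (.leaf 199 1407 (.cons 177 (.leaf 201 1413 (.cons 176 (.leaf 151 1215 (.leaf 153 1221 .nil)) .nil)) .nil)) (.cons 271 (.leaf 295 1598 (.cons 176 (.leaf 247 1406 (.cons 273 (.leaf 297 1604 (.leaf 249 1412 .nil)) .nil)) .nil)) (.cons 175 (.leaf 199 1407 (.cons 177 (.leaf 201 1413 (.cons 295 (.leaf 271 1598 (.cons 296 (.leaf 319 1790 (.cons 297 (.leaf 273 1604 (.leaf 321 1796 .nil)) .nil)) .nil)) .nil)) .nil)) .nil))) (.cons 296 (.cons 201 (.leaf 225 1605 (.cons 200 (.leaf 177 1413 (.cons 297 (.leaf 273 1604 (.leaf 321 1796 .nil)) .nil)) .nil)) (.cons 201 (.leaf 225 1605 (.cons 200 (.leaf 177 1413 (.cons 295 (.leaf 271 1598 (.leaf 319 1790 .nil)) .nil)) .nil)) (.cons 295 (.leaf 319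 1790 (.cons 200 (.leaf 271 1598 (.cons 297 (.leaf 273 1604 (.leaf 321 1796 .nil)) .nil)) .nil)) (.cons 225 (.leaf 201 1605 (.cons 297 (.leaf 321 1796 (.cons 320 (.leaf 249 1797 (.cons 247 (.leaf 223 1791 (.cons 319 (.leaf 295 1790 (.leaf 343 1982 .nil)) .nil)) .nil)) .nil)) .nil)) .nil)))) (.cons 200 (.cons 175 (.leaf 199 1407 (.cons 176 (.leaf 151 1215 (.cons 273 (.leaf 297 1604 (.leaf 249 1412 .nil)) .nil)) .nil)) (.cons 273 (.leaf 297 1604 (.cons 176 (.leaf 249 1412 (.cons 177 (.leaf 201 1413 (.leaf 153 1221 .nil)) .nil)) .nil)) (.cons 175 (.leaf 199 1407 (.cons 176 (.leaf 151 1215 (.cons 177 (.leaf 201 1413 (.leaf 153 1221 .nil)) .nil)) .nil)) (.cons 175 (.leaf 199 1407 (.cons 201 (.leaf 177 1413 (.cons 296 (.leaf 225 1605 (.cons 297 (.leaf 273 1604 (.leaf 321 1796 .nil)) .nil)) .nil)) .nil)) .nil)))) (.cons 200 (.cons 177 (.leaf 201 1413 (.cons 176 (.leaf 153 1221 (.cons 271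 (.leaf 295 1598 (.leaf 247 1406 .nil)) .nil)) .nil)) (.cons 199 (.leaf 175 1407 (.cons 177 (.leaf 201 1413 (.cons 153 (.leaf 176 1221 (.cons 296 (.leaf 223 1599 (.cons 319 (.leaf 295 1790 (.cons 320 (.leaf 343 1982 (.cons 249 (.leaf 225 1797 (.cons 344 (.leaf 273 1989 (.cons 345 (.leaf 321 1988 (.leaf 369 2180 .nil)) .nil)) .nil)) .nil)) .nil)) .nil)) .nil)) .nil)) .nil)) (.cons 175 (.leaf 199 1407 (.cons 176 (.leaf 151 1215 (.cons 271 (.leaf 295 1598 (.leaf 247 1406 .nil)) .nil)) .nil)) (.cons 199 (.leaf 175 1407 (.cons 177 (.leaf 201 1413 (.cons 176 (.leaf 153 1221 (.cons 178 (.leaf 179 1402 (.cons 223 (.leaf 296 1599 (.cons 247 (.leaf 271 1405 (.leaf 152 1214 .nil)) .nil)) .nil)) .nil)) .nil)) .nil)) (.cons 175 (.leaf 199 1407 (.cons 201 (.leaf 177 1413 (.cons 295 (.leaf 271 1598 (.cons 296 (.leaf 225 1605 (.leaf 319 1790 .nil)) .nil)) .nil)) .nil)) .nil))))) (.cons 200 t117 (.cons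 296 (.cons 199 (.leaf 223 1599 (.cons 295 (.leaf 319 1790 (.cons 200 (.leaf 175 1407 (.leaf 271 1598 .nil)) .nil)) .nil)) (.cons 297 (.leaf 321 1796 (.cons 200 (.leaf 273 1604 (.cons 271 (.leaf 295 1598 (.cons 176 (.leaf 247 1406 (.cons 175 (.leaf 199 1407 (.leaf 151 1215 .nil)) .nil)) .nil)) .nil)) .nil)) (.cons 223 (.leaf 199 1599 (.cons 320 (.leaf 247 1791 (.cons 321 (.leaf 297 1796 (.leaf 345 1988 .nil)) .nil)) .nil)) (.cons 297 (.leaf 321 1796 (.cons 200 (.leaf 273 1604 (.cons 271 (.leaf 295 1598 (.cons 176 (.leaf 247 1406 (.cons 270 (.leaf 269 2152 (.cons 151 (.leaf 175 1215 (.cons 152 (.leaf 127 1023 (.cons 153 (.leaf 177 1221 (.leaf 129 1029 .nil)) .nil)) .nil)) .nil)) .nil)) .nil)) .nil)) .nil)) .nil)))) .nil))))))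
noncomputable def t119 : T := .cons 200 (.cons 175 (.leaf 199 1407 (.cons 176 (.leaf 151 1215 (.cons 273 (.leaf 297 1604 (.leaf 249 1412 .nil)) .nil)) .nil)) (.cons 177 (.leaf 201 1413 (.cons 176 (.leaf 153 1221 (.cons 271 (.leaf 295 1598 (.leaf 247 1406 .nil)) .nil)) .nil)) (.cons 175 (.leaf 199 1407 (.cons 201 (.leaf 177 1413 (.cons 295 (.leaf 271 1598 (.cons 296 (.leaf 225 1605 (.leaf 319 1790 .nil)) .nil)) .nil)) .nil)) .nil))) (.cons 296 (.cons 223 (.leaf 199 1599 (.cons 201 (.leaf 225 1605 (.cons 319 (.leaf 295 1790 (.cons 320 (.leaf 247 1791 (.leaf 343 1982 .nil)) .nil)) .nil)) .nil)) (.cons 225 (.leaf 201 1605 (.cons 320 (.leaf 249 1797 (.cons 321 (.leaf 297 1796 (.leaf 345 1988 .nil)) .nil)) .nil)) (.cons 223 (.leaf 199 1599 (.cons 320 (.leaf 247 1791 (.cons 321 (.leaf 297 1796 (.leaf 345 1988 .nil)) .nil)) .nil)) (.cons 223 (.leaf 199 1599 (.cons 225 (.leaf 201 1605 (.cons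 297 (.leaf 321 1796 (.cons 295 (.leaf 319 1790 (.cons 222 (.cons 249 (.leaf 221 1768 (.leaf 250 1776 .nil)) (.cons 197 (.leaf 198 1579 (.cons 221 (.leaf 196 1571 (.cons 245 (.leaf 244 1762 (.leaf 246 1770 .nil)) .nil)) .nil)) (.cons 197 (.leaf 198 1579 (.cons 246 (.leaf 245 1770 (.cons 226 (.leaf 247 1778 (.cons 250 (.leaf 249 1776 (.leaf 251 1784 .nil)) .nil)) .nil)) .nil)) .nil))) .nil)) .nil)) .nil)) .nil)) .nil)))) t118)
noncomputable def t120 : T := .cons 201 (.leaf 225 1615 (.cons 323 (.leaf 299 1812 (.cons 322 (.leaf 347 2004 (.cons 321 (.leaf 297 1806 (.leaf 345 1998 .nil)) .nil)) .nil)) .nil)) (.cons 321 (.leaf 297 1806 (.cons 201 (.leaf 225 1615 (.cons 322 (.leaf 345 1998 (.cons 346 (.leaf 251 2005 (.cons 347 (.leaf 323 2004 (.leaf 371 2196 .nil)) .nil)) .nil)) .nil)) .nil)) (.cons 297 (.leaf 321 1806 (.cons 201 (.leaf 225 1615 (.cons 296 (.leaf 295 2169 (.cons 223 (.leaf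 320 1791 (.cons 199 (.leaf 175 1404 (.leaf 271 1596 .nil)) .nil)) .nil)) .nil)) .nil)) (.cons 323 (.leaf 299 1812 (.cons 201 (.leaf 225 1615 (.cons 322 (.leaf 347 2004 (.cons 345 (.leaf 321 1998 (.cons 346 (.leaf 251 2005 (.leaf 369 2190 .nil)) .nil)) .nil)) .nil)) .nil)) (.cons 323 (.leaf 299 1812 (.cons 201 (.leaf 225 1615 (.cons 322 (.leaf 347 2004 (.cons 251 (.leaf 346 2005 (.leaf 227 1813 .nil)) .nil)) .nil)) .nil)) (.cons 323 (.leaf 299 1812 (.cons 297 (.leaf 321 1806 (.cons 296 (.leaf 295 2169 (.cons 223 (.leaf 320 1791 (.cons 199 (.leaf 175 1404 (.leaf 271 1596 .nil)) .nil)) .nil)) .nil)) .nil)) .nil)))))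
noncomputable def t121 : T := .cons 201 (.cons 202 (.leaf 299 1620 (.leaf 177 1423 .nil)) (.cons 298 (.leaf 225 1615 (.cons 323 (.leaf 299 1812 (.cons 322 (.leaf 347 2004 (.cons 321 (.leaf 297 1806 (.leaf 345 1998 .nil)) .nil)) .nil)) .nil)) (.cons 202 (.leaf 177 1423 (.cons 178 (.leaf 251 1428 (.cons 298 (.leaf 225 1615 (.cons 179 (.leaf 155 1237 (.cons 180 (.leaf 181 1418 (.cons 199 (.leaf 200 1401 (.cons 223 (.leaf 175 1404 (.cons 296 (.leaf 271 1596 (.leaf 320 1791 .nil)) .nil)) .nil)) .nil)) .nil)) .nil)) .nil)) .nil)) .nil))) (.cons 201 (.cons 202 (.leaf 177 1423 (.cons 178 (.leaf 251 1428 (.cons 298 (.leaf 225 1615 (.cons 179 (.leaf 155 1237 (.cons 180 (.leaf 181 1418 (.cons 199 (.leaf 200 1401 (.cons 223 (.leaf 175 1404 (.cons 296 (.leaf 271 1596 (.leaf 320 1791 .nil)) .nil)) .nil)) .nil)) .nil)) .nil)) .nil)) .nil)) (.cons 298 (.leaf 225 1615 (.cons 297 (.leaf 321 1806 (.cons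 296 (.leaf 295 2169 (.cons 223 (.leaf 320 1791 (.cons 199 (.leaf 175 1404 (.leaf 271 1596 .nil)) .nil)) .nil)) .nil)) .nil)) (.cons 202 (.leaf 177 1423 (.cons 178 (.leaf 251 1428 (.cons 155 (.leaf 179 1237 (.cons 154 (.leaf 131 1045 (.cons 129 (.leaf 153 1039 (.cons 130 (.leaf 225 1038 (.leaf 105 847 .nil)) .nil)) .nil)) .nil)) .nil)) .nil)) (.cons 202 (.leaf 177 1423 (.cons 178 (.leaf 251 1428 (.cons 179 (.leaf 155 1237 (.cons 180 (.leaf 181 1418 (.cons 199 (.leaf 200 1401 (.cons 223 (.leaf 175 1404 (.cons 296 (.leaf 271 1596 (.leaf 320 1791 .nil)) .nil)) .nil)) .nil)) .nil)) .nil)) .nil)) .nil)))) (.cons 298 t120 (.cons 202 (.leaf 299 1620 (.cons 178 (.leaf 251 1428 (.cons 177 (.leaf 201 1423 (.leaf 153 1231 .nil)) .nil)) .nil)) (.cons 299 (.leaf 202 1620 (.cons 323 (.leaf 347 2007 (.leaf 298 1812 .nil)) .nil)) .nil))))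
noncomputable def t122 : T := .cons 321 (.leaf 345 1988 (.cons 319 (.leaf 343 1982 (.cons 298 (.cons 297 (.leaf 299 2362 (.leaf 318 2353 .nil)) (.cons 322 (.leaf 299 2361 (.cons 323 (.leaf 295 2363 (.cons 347 (.leaf 346 2552 (.leaf 348 2560 .nil)) .nil)) .nil)) (.cons 297 (.leaf 318 2353 (.cons 271 (.leaf 344 1983 (.leaf 270 2160 .nil)) .nil)) .nil))) .nil)) .nil)) (.cons 321 (.leaf 345 1988 (.cons 319 (.leaf 343 1982 (.cons 298 (.cons 297 (.leaf 299 2362 (.leaf 318 2353 .nil)) (.cons 322 (.leaf 299 2361 (.cons 323 (.leaf 295 2363 (.cons 347 (.leaf 346 2552 (.leaf 348 2560 .nil)) .nil)) .nil)) (.cons 297 (.leaf 318 2353 (.cons 271 (.leaf 270 2160 (.cons 295 (.leaf 222 1783 (.cons 322 (.leaf 294 2352 (.leaf 323 2360 .nil)) .nil)) .nil)) .nil)) .nil))) .nil)) .nil)) (.cons 344 (.leaf 271 1983 (.cons 368 (.leaf 297 2181 (.cons 343 (.leaf 319 1982 (.leaf 367 2174 .nil)) .nil)) .nil))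 (.cons 344 (.leaf 271 1983 (.cons 368 (.leaf 297 2181 (.cons 391 (.leaf 367 2366 (.cons 392 (.leaf 415 2558 (.cons 393 (.leaf 369 2372 (.leaf 417 2564 .nil)) .nil)) .nil)) .nil)) .nil)) (.cons 319 (.leaf 343 1982 (.cons 345 (.leaf 321 1988 (.cons 344 (.leaf 369 2180 (.cons 368 (.leaf 297 2181 (.cons 392 (.leaf 295 2367 (.cons 391 (.leaf 367 2366 (.leaf 415 2558 .nil)) .nil)) .nil)) .nil)) .nil)) .nil)) (.cons 321 (.leaf 345 1988 (.cons 319 (.leaf 343 1982 (.cons 271 (.leaf 344 1983 (.cons 295 (.leaf 222 1783 (.cons 294 (.leaf 293 2344 (.leaf 322 2355 .nil)) .nil)) .nil)) .nil)) .nil)) .nil)))))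
noncomputable def t123 : T := .cons 293 (.leaf 295 2153 (.cons 270 (.leaf 271 2154 (.cons 222 (.leaf 317 1774 (.cons 198 (.leaf 269 1582 (.cons 197 (.leaf 173 1391 (.leaf 221 1583 .nil)) .nil)) .nil)) .nil)) .nil)) (.cons 270 (.cons 223 (.leaf 318 1781 (.cons 271 (.leaf 199 1596 (.leaf 293 2154 .nil)) .nil)) (.cons 223 (.leaf 318 1781 (.cons 199 (.leaf 175 1404 (.leaf 222 1589 .nil)) .nil)) (.cons 271 (.leaf 293 2154 (.cons 269 (.leaf 297 2152 (.leaf 268 1953 .nil)) .nil)) .nil))) (.cons 223 (.cons 199 (.leaf 175 1404 (.leaf 271 1596 .nil)) (.cons 318 (.leaf 270 1781 (.cons 295 (.leaf 271 1782 (.cons 317 (.leaf 297 2346 (.cons 316 (.leaf 319 2337 (.leaf 315 2329 .nil)) .nil)) .nil)) .nil)) (.cons 199 (.leaf 175 1404 (.cons 270 (.leaf 318 1781 (.leaf 222 1589 .nil)) .nil)) .nil))) (.cons 295 (.leaf 293 2153 (.cons 271 (.cons 319 (.leaf 343 1981 (.leaf 222 1783 .nil)) (.cons 223 (.leaf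 199 1596 (.leaf 318 1782 .nil)) .nil)) .nil)) (.cons 295 (.leaf 293 2153 (.cons 270 (.cons 318 (.leaf 223 1781 (.cons 297 (.leaf 269 2155 (.leaf 317 2346 .nil)) .nil)) (.cons 222 (.leaf 319 1780 (.cons 197 (.leaf 221 1583 (.cons 198 (.leaf 173 1391 (.cons 199 (.leaf 175 1397 (.leaf 223 1589 .nil)) .nil)) .nil)) .nil)) (.cons 319 (.leaf 222 1780 (.cons 343 (.leaf 367 2173 (.leaf 318 1972 .nil)) .nil)) .nil))) .nil)) (.cons 293 (.leaf 295 2153 (.cons 270 (.leaf 271 2154 (.cons 318 (.leaf 223 1781 (.cons 317 (.leaf 341 1966 (.cons 343 (.leaf 319 1972 (.cons 342 (.leaf 367 2164 (.cons 366 (.leaf 269 2159 (.leaf 390 2351 .nil)) .nil)) .nil)) .nil)) .nil)) .nil)) .nil)) .nil)))))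
noncomputable def t124 : T := .cons 320 (.leaf 223 1791 (.cons 321 (.leaf 345 1988 (.cons 319 (.leaf 343 1982 (.cons 298 (.cons 297 (.leaf 299 2362 (.leaf 318 2353 .nil)) (.cons 322 (.leaf 299 2361 (.cons 323 (.leaf 295 2363 (.cons 347 (.leaf 346 2552 (.leaf 348 2560 .nil)) .nil)) .nil)) (.cons 297 (.leaf 318 2353 (.cons 271 (.leaf 344 1983 (.leaf 270 2160 .nil)) .nil)) .nil))) .nil)) .nil)) .nil)) (.cons 294 t123 (.cons 320 t122 (.cons 320 (.leaf 223 1791 (.cons 319 (.leaf 343 1982 (.cons 345 (.leaf 321 1988 (.cons 344 (.leaf 369 2180 (.cons 368 (.leaf 297 2181 (.cons 392 (.leaf 295 2367 (.cons 391 (.leaf 367 2366 (.leaf 415 2558 .nil)) .nil)) .nil)) .nil)) .nil)) .nil)) .nil)) (.cons 320 (.leaf 223 1791 (.cons 344 (.leaf 271 1983 (.cons 343 (.leaf 319 1982 (.leaf 367 2174 .nil)) .nil)) .nil)) (.cons 320 (.leaf 223 1791 (.cons 344 (.leaf 271 1983 (.cons 368 (.leaf 297 2181 (.cons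 391 (.leaf 367 2366 (.cons 392 (.leaf 415 2558 (.cons 393 (.leaf 369 2372 (.leaf 417 2564 .nil)) .nil)) .nil)) .nil)) .nil)) .nil)) .nil)))))
noncomputable def t125 : T := .cons 245 (.leaf 273 1960 (.cons 244 (.leaf 271 1952 (.cons 268 (.leaf 269 1954 (.leaf 267 1946 .nil)) .nil)) .nil)) (.cons 249 (.cons 222 (.leaf 221 1771 (.cons 223 (.leaf 250 1779 (.cons 270 (.leaf 269 1962 (.cons 199 (.leaf 175 1404 (.leaf 294 1589 .nil)) .nil)) .nil)) .nil)) (.cons 221 (.leaf 222 1771 (.cons 225 (.leaf 226 1777 (.cons 201 (.leaf 177 1414 (.cons 296 (.leaf 273 1606 (.leaf 320 1797 .nil)) .nil)) .nil)) .nil)) (.cons 225 (.leaf 226 1777 (.cons 177 (.leaf 201 1414 (.cons 270 (.leaf 269 1962 (.cons 271 (.leaf 250 1970 (.cons 296 (.leaf 320 1797 (.cons 223 (.leaf 199 1596 (.cons 294 (.leaf 318 1781 (.cons 293 (.leaf 273 2154 (.cons 292 (.leaf 295 2145 (.leaf 291 2137 .nil)) .nil)) .nil)) .nil)) .nil))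 .nil)) .nil)) .nil)) .nil)) .nil))) (.cons 249 (.cons 221 (.leaf 222 1771 (.cons 225 (.leaf 226 1777 (.cons 177 (.leaf 201 1414 (.cons 245 (.leaf 220 1763 (.cons 269 (.leaf 268 1954 (.leaf 270 1962 .nil)) .nil)) .nil)) .nil)) .nil)) (.cons 225 (.leaf 226 1777 (.cons 177 (.leaf 201 1414 (.cons 221 (.leaf 222 1771 (.cons 245 (.leaf 220 1763 (.cons 244 (.leaf 271 1952 (.cons 268 (.leaf 269 1954 (.leaf 267 1946 .nil)) .nil)) .nil)) .nil)) .nil)) .nil)) (.cons 225 (.leaf 226 1777 (.cons 177 (.leaf 201 1414 (.cons 221 (.leaf 222 1771 (.cons 245 (.leaf 220 1763 (.cons 271 (.leaf 244 1952 (.cons 250 (.leaf 251 1978 (.leaf 270 1970 .nil)) .nil)) .nil)) .nil)) .nil)) .nil)) (.cons 270 (.leaf 269 1962 (.cons 226 (.leaf 225 1777 (.cons 250 (.leaf 227 1785 (.leaf 271 1970 .nil)) .nil)) .nil)) (.cons 270 (.leaf 269 1962 (.cons 221 (.leaf 222 1771 (.cons 245 (.leaf 220 1763 (.cons 271 (.leaf 244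 1952 (.leaf 250 1970 .nil)) .nil)) .nil)) .nil)) .nil))))) (.cons 245 (.leaf 273 1960 (.cons 220 (.leaf 221 1763 (.cons 244 (.leaf 219 1755 (.cons 268 (.leaf 269 1954 (.leaf 267 1946 .nil)) .nil)) .nil)) .nil)) (.cons 245 (.leaf 273 1960 (.cons 220 (.leaf 221 1763 (.cons 244 (.leaf 271 1952 (.leaf 219 1755 .nil)) .nil)) .nil)) .nil))))
noncomputable def t126 : T := .cons 269 (.leaf 270 1962 (.cons 225 (.leaf 226 1777 (.cons 245 (.leaf 268 1954 (.cons 296 (.leaf 320 1797 (.cons 271 (.leaf 244 1952 (.cons 223 (.leaf 199 1596 (.cons 201 (.leaf 177 1414 (.cons 295 (.cons 222 (.leaf 221 1771 (.leaf 198 1591 .nil)) (.cons 319 (.leaf 343 1981 (.cons 318 (.leaf 294 1782 (.leaf 342 1974 .nil)) .nil)) .nil)) .nil)) .nil)) .nil)) .nil)) .nil)) .nil)) .nil)) (.cons 225 (.leaf 226 1777 (.cons 296 (.leaf 320 1797 (.cons 201 (.leaf 177 1414 (.cons 245 (.cons 244 (.leaf 271 1952 (.cons 219 (.leaf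 220 1755 (.cons 243 (.leaf 218 1747 (.cons 267 (.leaf 268 1946 (.leaf 266 1938 .nil)) .nil)) .nil)) .nil)) (.cons 221 (.leaf 220 1763 (.leaf 222 1771 .nil)) (.cons 271 (.leaf 244 1952 (.cons 199 (.leaf 223 1596 (.cons 222 (.leaf 221 1771 (.cons 198 (.leaf 174 1396 (.cons 270 (.leaf 175 1397 (.leaf 295 1588 .nil)) .nil)) .nil)) .nil)) .nil)) .nil))) .nil)) .nil)) .nil)) (.cons 225 (.leaf 226 1777 (.cons 296 (.leaf 320 1797 (.cons 201 (.leaf 177 1414 (.cons 245 (.cons 271 (.leaf 244 1952 (.cons 222 (.leaf 221 1771 (.cons 174 (.leaf 198 1396 (.cons 223 (.leaf 199 1596 (.cons 269 (.leaf 268 1954 (.cons 295 (.leaf 319 1783 (.cons 293 (.leaf 317 1773 (.cons 294 (.leaf 292 2145 (.leaf 318 1782 .nil)) .nil)) .nil)) .nil)) .nil)) .nil)) .nil)) .nil)) (.cons 244 (.leaf 271 1952 (.cons 219 (.leaf 220 1755 (.cons 243 (.leaf 218 1747 (.cons 267 (.leaf 268 1946 (.leaf 266 1938 .nil)) .nil)) .nil))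 .nil)) (.cons 221 (.leaf 220 1763 (.leaf 222 1771 .nil)) .nil))) .nil)) .nil)) .nil)) (.cons 269 (.leaf 270 1962 (.cons 221 (.leaf 222 1771 (.cons 245 (.leaf 220 1763 (.leaf 268 1954 .nil)) .nil)) .nil)) (.cons 269 (.leaf 270 1962 (.cons 225 (.leaf 226 1777 (.cons 245 (.leaf 268 1954 (.cons 296 (.leaf 320 1797 (.cons 271 (.leaf 244 1952 (.cons 223 (.leaf 199 1596 (.cons 201 (.leaf 177 1414 (.cons 295 (.cons 222 (.leaf 198 1591 (.leaf 319 1783 .nil)) (.cons 319 (.leaf 343 1981 (.cons 318 (.leaf 294 1782 (.leaf 342 1974 .nil)) .nil)) (.cons 222 (.leaf 198 1591 (.cons 293 (.leaf 317 1773 (.cons 294 (.leaf 292 2145 (.leaf 318 1782 .nil)) .nil)) .nil)) .nil))) .nil)) .nil)) .nil)) .nil)) .nil)) .nil)) .nil)) (.cons 269 (.leaf 270 1962 (.cons 225 (.leaf 226 1777 (.cons 177 (.leaf 201 1414 (.cons 245 (.leaf 268 1954 (.cons 220 (.leaf 221 1763 (.cons 244 (.leaf 271 1952 (.leaf 219 1755 .nil))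 .nil)) .nil)) .nil)) .nil)) .nil)) (.cons 225 (.leaf 226 1777 (.cons 270 (.leaf 269 1962 (.cons 222 (.leaf 221 1771 (.cons 296 (.leaf 320 1797 (.cons 201 (.leaf 177 1414 (.cons 198 (.cons 173 (.leaf 197 1391 (.cons 174 (.leaf 271 1396 (.leaf 149 1199 .nil)) .nil)) (.cons 173 (.leaf 197 1391 (.cons 174 (.leaf 149 1199 (.cons 199 (.leaf 175 1397 (.leaf 200 1387 .nil)) .nil)) .nil)) (.cons 173 (.leaf 197 1391 (.cons 295 (.leaf 271 1588 (.cons 294 (.leaf 319 1780 (.cons 199 (.leaf 175 1397 (.leaf 223 1589 .nil)) .nil)) .nil)) .nil)) (.cons 271 (.leaf 174 1396 (.leaf 295 1588 .nil)) .nil)))) .nil)) .nil)) .nil)) .nil)) .nil)) .nil))))))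
noncomputable def t127 : T := .cons 273 (.leaf 274 1979 (.cons 246 (.leaf 245 1960 (.cons 249 (.cons 222 (.leaf 221 1771 (.cons 223 (.leaf 250 1779 (.cons 199 (.leaf 175 1404 (.cons 269 (.leaf 270 1962 (.cons 271 (.leaf 296 1596 (.cons 198 (.leaf 174 1396 (.leaf 295 1591 .nil)) .nil)) .nil)) .nil)) .nil)) .nil)) (.cons 222 (.leaf 221 1771 (.cons 225 (.leaf 226 1777 (.cons 201 (.leaf 177 1414 (.leaf 296 1606 .nil)) .nil)) .nil)) (.cons 225 (.leaf 226 1777 (.cons 177 (.leaf 201 1414 (.cons 270 (.leaf 269 1962 (.cons 271 (.leaf 250 1969 (.cons 294 (.leaf 293 2154 (.cons 223 (.leaf 199 1590 (.leaf 318 1781 .nil)) .nil)) .nil)) .nil)) .nil)) .nil)) .nil))) .nil)) .nil)) (.cons 249 (.cons 250 (.leaf 274 1976 (.cons 271 (.leaf 251 1978 (.leaf 270 1970 .nil)) .nil)) (.cons 246 t126 (.cons 250 (.leaf 274 1976 (.cons 222 (.leaf 223 1779 (.cons 226 (.leaf 227 1785 (.cons 246 (.leaf 221 1771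 (.leaf 225 1777 .nil)) .nil)) .nil)) .nil)) .nil))) (.cons 246 t125 (.cons 273 (.leaf 274 1979 (.cons 246 (.leaf 245 1960 (.cons 296 t124 .nil)) .nil)) (.cons 274 (.leaf 273 1979 (.cons 250 (.leaf 249 1976 (.cons 226 t121 .nil)) .nil)) (.cons 273 (.leaf 274 1979 (.cons 246 (.leaf 245 1960 (.cons 249 (.cons 225 (.leaf 226 1777 (.cons 201 (.leaf 177 1414 (.leaf 296 1606 .nil)) .nil)) (.cons 222 (.leaf 221 1771 (.cons 223 (.leaf 250 1779 (.cons 199 (.leaf 175 1404 (.cons 270 (.leaf 269 1962 (.leaf 294 1589 .nil)) .nil)) .nil)) .nil)) .nil)) .nil)) .nil)) (.cons 273 (.leaf 274 1979 (.cons 246 (.leaf 245 1960 (.cons 249 (.cons 221 (.leaf 222 1771 (.cons 226 (.leaf 225 1777 (.cons 250 (.leaf 227 1785 (.cons 270 (.leaf 271 1969 (.leaf 269 1962 .nil)) .nil)) .nil)) .nil)) (.cons 225 (.leaf 226 1777 (.cons 201 (.leaf 177 1414 (.leaf 296 1606 .nil)) .nil)) (.cons 221 (.leaf 222 1771 (.cons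 270 (.leaf 269 1962 (.cons 250 (.leaf 271 1969 (.cons 227 (.leaf 226 1785 (.cons 251 (.leaf 252 1986 (.leaf 228 1793 .nil)) .nil)) .nil)) .nil)) .nil)) (.cons 221 (.leaf 222 1771 (.cons 270 (.leaf 269 1962 (.cons 271 (.leaf 250 1969 (.cons 293 (.leaf 294 2154 (.cons 297 (.leaf 298 2160 (.cons 321 (.leaf 345 1991 (.cons 320 (.leaf 344 1990 (.cons 296 (.leaf 225 1797 (.cons 319 (.leaf 343 1982 (.cons 318 (.leaf 317 2345 (.cons 342 (.leaf 295 1974 (.leaf 341 2538 .nil)) .nil)) .nil)) .nil)) .nil)) .nil)) .nil)) .nil)) .nil)) .nil)) .nil)) .nil)))) .nil)) .nil)) (.cons 273 (.leaf 274 1979 (.cons 246 (.leaf 245 1960 (.cons 249 (.cons 221 (.leaf 222 1771 (.cons 226 (.leaf 225 1777 (.cons 250 (.leaf 227 1785 (.cons 270 (.leaf 271 1969 (.leaf 269 1962 .nil)) .nil)) .nil)) .nil)) (.cons 225 (.leaf 226 1777 (.cons 177 (.leaf 201 1414 (.cons 222 (.leaf 221 1771 (.cons 250 (.leaf 223 1779 (.cons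 251 (.leaf 271 1978 (.leaf 252 1986 .nil)) .nil)) .nil)) .nil)) .nil)) (.cons 270 (.leaf 269 1962 (.cons 222 (.leaf 221 1771 (.cons 225 (.leaf 226 1777 (.cons 201 (.leaf 177 1414 (.cons 202 (.leaf 178 1421 (.cons 200 (.leaf 176 1415 (.cons 199 (.leaf 223 1586 (.cons 175 (.leaf 198 1397 (.leaf 174 1395 .nil)) .nil)) .nil)) .nil)) .nil)) .nil)) .nil)) .nil)) (.cons 270 (.leaf 269 1962 (.cons 250 (.leaf 271 1969 (.cons 227 (.leaf 226 1785 (.cons 251 (.leaf 252 1986 (.leaf 228 1793 .nil)) .nil)) .nil)) .nil)) (.cons 270 (.leaf 269 1962 (.cons 250 (.leaf 271 1969 (.cons 222 (.leaf 221 1771 (.leaf 223 1779 .nil)) .nil)) .nil)) .nil))))) .nil)) .nil)) .nil)))))))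
noncomputable def t128 : T := .cons 270 (.leaf 269 1962 (.cons 250 (.leaf 271 1969 (.cons 227 (.leaf 226 1785 (.cons 251 (.leaf 252 1986 (.leaf 228 1793 .nil)) .nil)) .nil)) .nil)) (.cons 225 (.leaf 226 1777 (.cons 177 (.leaf 201 1414 (.cons 222 (.leaf 221 1771 (.cons 250 (.leaf 223 1779 (.cons 251 (.leaf 271 1978 (.leaf 252 1986 .nil)) .nil)) .nil)) .nil)) .nil)) (.cons 225 (.leaf 226 1777 (.cons 201 (.leaf 177 1414 (.cons 178 (.leaf 202 1421 (.cons 200 (.leaf 176 1415 (.cons 224 (.leaf 297 1604 (.cons 222 (.leaf 221 1771 (.cons 271 (.leaf 295 1598 (.cons 270 (.leaf 269 1961 (.cons 198 (.leaf 174 1396 (.cons 197 (.leaf 173 1391 (.leaf 223 1579 .nil)) .nil)) .nil)) .nil)) .nil)) .nil)) .nil)) .nil)) .nil)) .nil)) (.cons 270 (.leaf 269 1962 (.cons 271 (.leaf 250 1969 (.cons 293 (.leaf 294 2154 (.cons 297 (.leaf 298 2160 (.cons 321 (.leaf 345 1991 (.leaf 224 1799 .nil)) .nil)) .nil))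 .nil)) .nil)) (.cons 225 (.leaf 226 1777 (.cons 201 (.leaf 177 1414 (.cons 178 (.leaf 202 1421 (.cons 200 (.leaf 176 1415 (.cons 297 (.leaf 224 1604 (.cons 269 (.leaf 270 1962 (.cons 321 (.leaf 345 1991 (.cons 322 (.leaf 298 1804 (.leaf 346 1996 .nil)) .nil)) .nil)) .nil)) .nil)) .nil)) .nil)) .nil)) .nil))))
noncomputable def t129 : T := .leaf 274 1979 (.cons 246 (.leaf 245 1960 (.cons 249 (.cons 270 (.leaf 269 1962 (.cons 250 (.leaf 271 1969 (.cons 227 (.leaf 226 1785 (.cons 251 (.leaf 252 1986 (.leaf 228 1793 .nil)) .nil)) .nil)) .nil)) (.cons 225 (.leaf 226 1777 (.cons 201 (.leaf 177 1414 (.cons 178 (.leaf 202 1421 (.cons 200 (.leaf 176 1415 (.cons 224 (.leaf 297 1604 (.cons 199 (.leaf 175 1407 (.cons 198 (.leaf 197 1576 (.cons 222 (.leaf 221 1578 (.cons 271 (.leaf 295 1598 (.leaf 174 1396 .nil)) .nil)) .nil)) .nil)) .nil)) .nil)) .nil)) .nil)) .nil)) (.cons 270 (.leaf 269 1962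 (.cons 271 (.leaf 250 1969 (.cons 293 (.leaf 294 2154 (.cons 297 (.leaf 298 2160 (.cons 321 (.leaf 345 1991 (.leaf 224 1799 .nil)) .nil)) .nil)) .nil)) .nil)) (.cons 225 (.leaf 226 1777 (.cons 201 (.leaf 177 1414 (.cons 178 (.leaf 202 1421 (.cons 200 (.leaf 176 1415 (.cons 297 (.leaf 224 1604 (.cons 269 (.leaf 270 1962 (.cons 321 (.leaf 345 1991 (.cons 322 (.leaf 298 1804 (.leaf 346 1996 .nil)) .nil)) .nil)) .nil)) .nil)) .nil)) .nil)) .nil)) .nil)))) .nil)) .nil)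
noncomputable def t130 : T := .cons 224 (.leaf 200 1604 (.cons 270 (.leaf 298 2160 (.cons 269 (.leaf 244 1955 (.leaf 268 1953 .nil)) .nil)) .nil)) (.cons 270 (.leaf 298 2160 (.cons 269 (.leaf 244 1955 (.leaf 268 1953 .nil)) .nil)) (.cons 321 (.leaf 345 1991 (.cons 223 (.cons 224 (.leaf 200 1604 (.cons 199 (.leaf 175 1404 (.cons 198 (.leaf 174 1399 (.cons 295 (.leaf 319 1789 (.leaf 222 1591 .nil)) .nil)) .nil)) .nil)) (.cons 199 (.leaf 175 1404 (.cons 198 (.leaf 174 1399 (.cons 200 (.leaf 176 1405 (.cons 222 (.leaf 295 1591 (.cons 221 (.leaf 220 1760 (.leaf 201 1578 .nil)) .nil)) .nil)) .nil)) .nil)) (.cons 199 (.leaf 175 1404 (.cons 198 (.leaf 174 1399 (.cons 295 (.leaf 222 1591 (.cons 319 (.leaf 343 1981 (.leaf 224 1789 .nil)) .nil)) .nil)) .nil)) (.cons 224 (.leaf 200 1604 (.cons 295 (.leaf 319 1789 (.cons 222 (.leaf 198 1591 (.cons 221 (.leaf 220 1760 (.leaf 244 1762 .nil)) .nil))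 .nil)) .nil)) (.cons 199 (.leaf 175 1404 (.cons 200 (.leaf 224 1604 (.leaf 176 1405 .nil)) .nil)) .nil))))) .nil)) (.cons 224 (.leaf 200 1604 (.cons 298 (.leaf 270 2160 (.cons 299 (.leaf 300 2179 (.cons 319 (.leaf 295 1789 (.cons 321 (.leaf 345 1991 (.cons 320 (.leaf 318 2353 (.leaf 322 2361 .nil)) .nil)) .nil)) .nil)) .nil)) .nil)) .nil)))
noncomputable def t131 : T := .cons 270 (.cons 246 (.leaf 245 1960 (.cons 294 (.leaf 293 2154 (.cons 223 (.leaf 199 1590 (.leaf 318 1781 .nil)) .nil)) .nil)) (.cons 269 (.leaf 268 1953 (.cons 293 (.leaf 292 2146 (.leaf 294 2154 .nil)) .nil)) (.cons 245 (.leaf 246 1960 (.cons 269 (.leaf 244 1955 (.leaf 268 1953 .nil)) .nil)) .nil))) (.cons 224 (.cons 200 (.leaf 295 1598 (.leaf 297 1604 .nil)) (.cons 295 (.leaf 319 1789 (.cons 223 (.cons 199 (.leaf 175 1404 (.cons 198 (.leaf 174 1399 (.leaf 222 1591 .nil)) .nil)) (.cons 294 (.leaf 318 1782 (.cons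 293 (.leaf 270 2154 (.leaf 292 2145 .nil)) .nil)) .nil)) .nil)) (.cons 200 (.leaf 297 1604 (.leaf 176 1406 .nil)) .nil))) (.cons 245 (.leaf 246 1960 (.cons 295 (.cons 319 (.leaf 343 1981 (.leaf 224 1789 .nil)) (.cons 319 (.leaf 343 1981 (.cons 318 (.leaf 342 1974 (.cons 294 (.leaf 223 1782 (.cons 292 (.leaf 293 2145 (.cons 320 (.leaf 344 1980 (.cons 321 (.leaf 322 2355 (.cons 297 (.leaf 345 1991 (.leaf 298 2353 .nil)) .nil)) .nil)) .nil)) .nil)) .nil)) .nil)) (.cons 223 (.cons 198 (.leaf 222 1591 (.cons 199 (.leaf 175 1404 (.leaf 174 1399 .nil)) .nil)) (.cons 224 (.leaf 200 1597 (.cons 222 (.leaf 198 1591 (.cons 221 (.leaf 220 1760 (.leaf 244 1762 .nil)) .nil)) .nil)) (.cons 200 (.leaf 224 1597 (.cons 199 (.leaf 175 1404 (.leaf 176 1405 .nil)) .nil)) .nil))) .nil))) .nil)) (.cons 270 (.cons 246 (.leaf 245 1960 (.cons 294 (.leaf 293 2154 (.cons 318 (.leaf 342 1973 (.cons 268 (.leaf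 269 1953 (.cons 319 (.leaf 343 1972 (.cons 295 (.leaf 224 1789 (.leaf 222 1780 .nil)) .nil)) .nil)) .nil)) .nil)) .nil)) (.cons 269 (.leaf 268 1953 (.cons 293 (.leaf 292 2146 (.leaf 294 2154 .nil)) .nil)) (.cons 246 (.leaf 245 1960 (.cons 294 (.leaf 293 2154 (.cons 318 (.leaf 342 1973 (.cons 297 (.leaf 298 2160 (.cons 200 (.leaf 224 1604 (.cons 317 (.leaf 341 1966 (.cons 319 (.leaf 343 1972 (.cons 222 (.leaf 295 1780 (.cons 197 (.leaf 221 1583 (.cons 198 (.leaf 174 1396 (.leaf 173 1391 .nil)) .nil)) .nil)) .nil)) .nil)) .nil)) .nil)) .nil)) .nil)) .nil)) (.cons 245 (.leaf 246 1960 (.cons 269 (.leaf 244 1955 (.leaf 268 1953 .nil)) .nil)) .nil)))) (.cons 245 (.leaf 246 1960 (.cons 297 t130 .nil)) (.cons 245 (.leaf 246 1960 (.cons 270 (.cons 269 (.leaf 244 1955 (.leaf 268 1953 .nil)) (.cons 294 (.leaf 293 2154 (.cons 223 (.leaf 199 1590 (.cons 297 (.leaf 298 2160 (.cons 224 (.leaf 200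 1604 (.cons 295 (.leaf 319 1789 (.cons 222 (.leaf 198 1591 (.cons 221 (.leaf 220 1760 (.leaf 244 1762 .nil)) .nil)) .nil)) .nil)) .nil)) .nil)) .nil)) (.cons 269 (.leaf 268 1953 (.cons 293 (.leaf 292 2146 (.leaf 294 2154 .nil)) .nil)) .nil))) .nil)) .nil)))))
noncomputable def t132 : T := .cons 323 (.leaf 347 2007 (.cons 251 (.leaf 226 1815 (.cons 252 (.leaf 228 1821 (.cons 253 (.leaf 254 2002 (.cons 229 (.leaf 230 1809 (.cons 277 (.leaf 278 2000 (.cons 324 (.leaf 348 2012 (.cons 301 (.leaf 300 1830 (.cons 302 (.leaf 326 1836 (.cons 322 (.leaf 346 2006 (.leaf 325 2385 .nil)) .nil)) .nil)) .nil)) .nil)) .nil)) .nil)) .nil)) .nil)) .nil)) (.cons 226 (.leaf 202 1620 (.cons 225 (.cons 224 (.leaf 227 1786 (.cons 201 (.leaf 298 1615 (.cons 177 (.leaf 200 1413 (.leaf 153 1228 .nil)) .nil)) .nil)) (.cons 298 (.leaf 201 1615 (.cons 321 (.leaf 297 1806 (.cons 322 (.leaf 345 1998 (.cons 251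 (.leaf 227 1813 (.leaf 346 2005 .nil)) .nil)) .nil)) .nil)) (.cons 224 (.leaf 227 1786 (.cons 223 (.leaf 251 1784 (.cons 199 (.leaf 175 1404 (.leaf 198 1587 .nil)) .nil)) .nil)) (.cons 298 (.leaf 201 1615 (.cons 321 (.leaf 297 1806 (.cons 322 (.leaf 345 1998 (.cons 346 (.leaf 251 2005 (.leaf 370 2197 .nil)) .nil)) .nil)) .nil)) .nil)))) .nil)) (.cons 323 (.leaf 347 2007 (.cons 251 (.cons 252 (.leaf 228 1821 (.cons 253 (.leaf 254 2002 (.cons 229 (.leaf 230 1809 (.cons 277 (.leaf 278 2000 (.cons 324 (.leaf 348 2012 (.cons 301 (.leaf 300 1830 (.cons 302 (.leaf 326 1836 (.cons 322 (.leaf 346 2006 (.leaf 325 2385 .nil)) .nil)) .nil)) .nil)) .nil)) .nil)) .nil)) .nil)) (.cons 228 (.leaf 252 1821 (.cons 227 (.leaf 204 1629 (.cons 324 (.leaf 300 1820 (.leaf 348 2012 .nil)) .nil)) .nil)) (.cons 228 (.leaf 252 1821 (.cons 227 (.leaf 204 1629 (.cons 322 (.leaf 298 1813 (.leaf 346 2006 .nil))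 .nil)) .nil)) (.cons 322 (.leaf 346 2006 (.cons 227 (.leaf 298 1813 (.cons 324 (.leaf 300 1820 (.leaf 348 2012 .nil)) .nil)) .nil)) .nil)))) .nil)) (.cons 323 (.leaf 347 2007 (.cons 226 (.leaf 202 1620 (.leaf 298 1812 .nil)) .nil)) .nil)))
noncomputable def t133 : T := .cons 270 (.leaf 269 1962 (.cons 226 (.leaf 225 1777 (.cons 250 (.leaf 227 1785 (.leaf 271 1970 .nil)) .nil)) .nil)) (.cons 222 (.leaf 221 1771 (.cons 223 (.leaf 250 1779 (.cons 175 (.leaf 199 1404 (.cons 225 (.leaf 226 1777 (.cons 201 (.leaf 177 1414 (.cons 224 (.leaf 202 1585 (.cons 198 (.leaf 197 1579 (.cons 174 (.leaf 150 1204 (.leaf 271 1396 .nil)) .nil)) .nil)) .nil)) .nil)) .nil)) .nil)) .nil)) (.cons 270 (.leaf 269 1962 (.cons 222 (.leaf 221 1771 (.cons 198 (.cons 173 (.leaf 197 1391 (.cons 174 (.leaf 271 1396 (.leaf 149 1199 .nil)) .nil)) (.cons 173 (.leaf 197 1391 (.cons 223 (.leaf 250 1779 (.cons 199 (.leaf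 175 1404 (.leaf 294 1589 .nil)) .nil)) .nil)) (.cons 271 (.leaf 250 1970 (.leaf 174 1396 .nil)) .nil))) .nil)) .nil)) (.cons 222 (.leaf 221 1771 (.cons 223 (.leaf 250 1779 (.cons 175 (.leaf 199 1404 (.cons 225 (.leaf 226 1777 (.cons 201 (.leaf 177 1414 (.cons 224 (.leaf 202 1585 (.cons 198 (.leaf 197 1579 (.cons 174 (.leaf 150 1204 (.leaf 151 1205 .nil)) .nil)) .nil)) .nil)) .nil)) .nil)) .nil)) .nil)) (.cons 270 (.leaf 269 1962 (.cons 222 (.leaf 221 1771 (.cons 198 (.cons 173 (.leaf 197 1391 (.cons 199 (.leaf 175 1397 (.cons 149 (.leaf 174 1199 (.cons 225 (.leaf 226 1777 (.cons 294 (.leaf 223 1589 (.cons 177 (.leaf 201 1414 (.cons 317 (.leaf 293 1774 (.cons 318 (.leaf 341 1966 (.cons 319 (.leaf 295 1780 (.leaf 343 1972 .nil)) .nil)) .nil)) .nil)) .nil)) .nil)) .nil)) .nil)) .nil)) (.cons 271 (.leaf 174 1396 (.leaf 295 1588 .nil)) (.cons 173 (.leaf 197 1391 (.cons 199 (.leaf 175 1397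 (.cons 223 (.leaf 294 1589 (.cons 271 (.leaf 295 1588 (.cons 200 (.leaf 176 1405 (.cons 201 (.leaf 202 1586 (.cons 177 (.leaf 224 1413 (.leaf 225 1414 .nil)) .nil)) .nil)) .nil)) .nil)) .nil)) .nil)) (.cons 173 (.leaf 197 1391 (.cons 174 (.leaf 271 1396 (.leaf 149 1199 .nil)) .nil)) .nil)))) .nil)) .nil)) .nil))))
noncomputable def t134 : T := .cons 225 (.leaf 226 1777 (.cons 177 (.leaf 201 1414 (.cons 221 (.leaf 222 1771 (.cons 245 (.leaf 220 1763 (.leaf 224 1769 .nil)) .nil)) .nil)) .nil)) (.cons 269 (.leaf 270 1962 (.cons 221 (.leaf 222 1771 (.cons 245 (.leaf 220 1763 (.leaf 268 1954 .nil)) .nil)) .nil)) (.cons 225 (.leaf 226 1777 (.cons 177 (.leaf 201 1414 (.cons 245 (.leaf 224 1769 (.cons 269 (.leaf 268 1954 (.leaf 270 1962 .nil)) .nil)) .nil)) .nil)) (.cons 270 (.leaf 269 1962 (.cons 222 (.leaf 221 1771 (.cons 198 (.cons 173 (.leaf 197 1391 (.cons 174 (.leaf 271 1396 (.leaf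 149 1199 .nil)) .nil)) (.cons 173 (.leaf 197 1391 (.cons 199 (.leaf 175 1397 (.cons 149 (.leaf 174 1199 (.cons 225 (.leaf 226 1777 (.cons 294 (.leaf 223 1589 (.cons 177 (.leaf 201 1414 (.cons 317 (.leaf 293 1774 (.cons 318 (.leaf 341 1966 (.cons 319 (.leaf 295 1780 (.leaf 343 1972 .nil)) .nil)) .nil)) .nil)) .nil)) .nil)) .nil)) .nil)) .nil)) (.cons 173 (.leaf 197 1391 (.cons 199 (.leaf 175 1397 (.cons 223 (.leaf 294 1589 (.cons 271 (.leaf 295 1588 (.cons 200 (.leaf 176 1405 (.cons 201 (.leaf 202 1586 (.cons 177 (.leaf 224 1413 (.leaf 225 1414 .nil)) .nil)) .nil)) .nil)) .nil)) .nil)) .nil)) (.cons 271 (.leaf 174 1396 (.leaf 295 1588 .nil)) .nil)))) .nil)) .nil)) .nil)))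
noncomputable def t135 : T := .cons 273 (.leaf 274 1979 (.cons 246 (.leaf 245 1960 (.cons 249 (.cons 222 (.leaf 221 1771 (.cons 223 (.leaf 250 1779 (.cons 199 (.leaf 175 1404 (.cons 270 (.leaf 269 1962 (.leaf 294 1589 .nil)) .nil)) .nil)) .nil)) (.cons 222 (.leaf 221 1771 (.cons 225 (.leaf 226 1777 (.cons 201 (.leaf 177 1414 (.cons 176 (.leaf 200 1415 (.cons 202 (.leaf 178 1421 (.cons 223 (.leaf 250 1779 (.leaf 224 1585 .nil)) .nil)) .nil)) .nil)) .nil)) .nil)) (.cons 225 (.leaf 226 1777 (.cons 201 (.leaf 177 1414 (.cons 176 (.leaf 200 1415 (.cons 202 (.leaf 178 1421 (.cons 222 (.leaf 221 1771 (.cons 223 (.leaf 224 1585 (.cons 270 (.leaf 269 1962 (.cons 199 (.leaf 175 1404 (.leaf 294 1589 .nil)) .nil)) .nil)) .nil)) .nil)) .nil)) .nil)) .nil)) (.cons 270 (.leaf 269 1962 (.cons 271 (.leaf 250 1969 (.cons 293 (.leaf 294 2154 (.cons 297 (.leaf 298 2160 (.cons 321 (.leaf 345 1991 (.leaf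 224 1799 .nil)) .nil)) .nil)) .nil)) .nil)) .nil)))) .nil)) .nil)) (.cons 249 (.cons 250 (.leaf 274 1976 (.cons 271 (.leaf 251 1978 (.leaf 270 1970 .nil)) .nil)) (.cons 246 t134 (.cons 250 (.leaf 274 1976 (.cons 222 (.leaf 223 1779 (.cons 226 (.leaf 227 1785 (.cons 246 (.leaf 221 1771 (.leaf 225 1777 .nil)) .nil)) .nil)) .nil)) .nil))) (.cons 246 (.cons 245 (.leaf 273 1960 (.cons 224 (.leaf 225 1769 (.cons 220 (.leaf 221 1763 (.cons 244 (.leaf 271 1952 (.leaf 219 1755 .nil)) .nil)) .nil)) .nil)) (.cons 249 t133 (.cons 245 (.leaf 273 1960 (.cons 220 (.leaf 221 1763 (.cons 225 (.leaf 224 1769 (.cons 249 (.leaf 226 1777 (.cons 269 (.leaf 268 1954 (.leaf 270 1962 .nil)) .nil)) .nil)) .nil)) .nil)) (.cons 245 (.leaf 273 1960 (.cons 220 (.leaf 221 1763 (.cons 244 (.leaf 271 1952 (.leaf 219 1755 .nil)) .nil)) .nil)) (.cons 245 (.leaf 273 1960 (.cons 224 (.leaf 225 1769 (.cons 244 (.leaf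 271 1952 (.leaf 223 1761 .nil)) .nil)) .nil)) .nil))))) (.cons 274 (.leaf 273 1979 (.cons 250 (.leaf 249 1976 (.cons 299 t132 .nil)) .nil)) (.cons 273 (.leaf 274 1979 (.cons 271 t131 .nil)) (.cons 273 (.leaf 274 1979 (.cons 246 (.leaf 245 1960 (.cons 249 (.cons 222 (.leaf 221 1771 (.cons 223 (.leaf 250 1779 (.cons 199 (.leaf 175 1404 (.cons 270 (.leaf 269 1962 (.leaf 294 1589 .nil)) .nil)) .nil)) .nil)) (.cons 225 (.leaf 226 1777 (.cons 177 (.leaf 201 1414 (.cons 222 (.leaf 221 1771 (.cons 250 (.leaf 223 1779 (.cons 251 (.leaf 271 1978 (.leaf 252 1986 .nil)) .nil)) .nil)) .nil)) .nil)) (.cons 270 (.leaf 269 1962 (.cons 222 (.leaf 221 1771 (.cons 225 (.leaf 226 1777 (.cons 201 (.leaf 177 1414 (.cons 202 (.leaf 178 1421 (.cons 200 (.leaf 176 1415 (.cons 199 (.leaf 223 1586 (.cons 175 (.leaf 198 1397 (.leaf 174 1395 .nil)) .nil)) .nil)) .nil)) .nil)) .nil)) .nil)) .nil)) (.cons 270 (.leaf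 269 1962 (.cons 250 (.leaf 271 1969 (.cons 227 (.leaf 226 1785 (.cons 251 (.leaf 252 1986 (.leaf 228 1793 .nil)) .nil)) .nil)) .nil)) .nil)))) .nil)) .nil)) (.cons 273 t129 (.cons 273 (.leaf 274 1979 (.cons 246 (.leaf 245 1960 (.cons 249 t128 .nil)) .nil)) (.cons 273 (.leaf 274 1979 (.cons 246 (.leaf 245 1960 (.cons 249 (.cons 222 (.leaf 221 1771 (.cons 225 (.leaf 226 1777 (.cons 201 (.leaf 177 1414 (.cons 202 (.leaf 178 1421 (.cons 223 (.leaf 250 1779 (.leaf 224 1585 .nil)) .nil)) .nil)) .nil)) .nil)) (.cons 222 (.leaf 221 1771 (.cons 225 (.leaf 226 1777 (.cons 201 (.leaf 177 1414 (.cons 202 (.leaf 178 1421 (.cons 223 (.leaf 224 1585 (.cons 270 (.leaf 269 1962 (.cons 199 (.leaf 175 1404 (.leaf 294 1589 .nil)) .nil)) .nil)) .nil)) .nil)) .nil)) .nil)) (.cons 270 (.leaf 269 1962 (.cons 250 (.leaf 271 1969 (.cons 227 (.leaf 226 1785 (.cons 251 (.leaf 252 1986 (.leaf 228 1793 .nil))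 .nil)) .nil)) .nil)) (.cons 270 (.leaf 269 1962 (.cons 271 (.leaf 250 1969 (.cons 293 (.leaf 294 2154 (.cons 297 (.leaf 298 2160 (.cons 321 (.leaf 345 1991 (.leaf 224 1799 .nil)) .nil)) .nil)) .nil)) .nil)) .nil)))) .nil)) .nil)) (.cons 273 (.leaf 274 1979 (.cons 246 (.leaf 245 1960 (.cons 249 (.cons 221 (.leaf 222 1771 (.cons 226 (.leaf 225 1777 (.cons 250 (.leaf 227 1785 (.cons 270 (.leaf 271 1969 (.leaf 269 1962 .nil)) .nil)) .nil)) .nil)) (.cons 221 (.leaf 222 1771 (.cons 226 (.leaf 225 1777 (.cons 250 (.leaf 227 1785 (.cons 251 (.leaf 271 1978 (.leaf 252 1986 .nil)) .nil)) .nil)) .nil)) (.cons 270 (.leaf 269 1962 (.cons 222 (.leaf 221 1771 (.cons 271 (.cons 198 (.leaf 174 1396 (.leaf 295 1588 .nil)) (.cons 297 (.leaf 298 2160 (.cons 224 (.leaf 200 1604 (.leaf 321 1799 .nil)) .nil)) .nil)) .nil)) .nil)) (.cons 270 (.leaf 269 1962 (.cons 250 (.leaf 271 1969 (.cons 227 (.leaf 226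 1785 (.cons 251 (.leaf 252 1986 (.leaf 228 1793 .nil)) .nil)) .nil)) .nil)) (.cons 226 (.leaf 225 1777 (.cons 250 (.leaf 227 1785 (.cons 178 (.leaf 202 1422 (.cons 251 (.leaf 252 1986 (.cons 224 (.leaf 223 1787 (.cons 297 (.leaf 200 1604 (.leaf 321 1805 .nil)) .nil)) .nil)) .nil)) .nil)) .nil)) .nil))))) .nil)) .nil)) .nil)))))))))
noncomputable def t136 : T := .cons 319 (.leaf 343 1982 (.cons 249 (.leaf 225 1797 (.cons 273 (.leaf 344 1989 (.cons 321 (.leaf 345 1988 (.cons 274 (.leaf 295 2170 (.cons 251 (.leaf 252 1985 (.cons 250 (.leaf 271 1977 (.cons 226 (.leaf 297 1805 (.cons 202 (.leaf 178 1428 (.leaf 299 1620 .nil)) .nil)) .nil)) .nil)) .nil)) .nil)) .nil)) .nil)) .nil)) (.cons 343 (.leaf 319 1982 (.cons 344 (.leaf 367 2174 (.cons 345 (.leaf 321 1988 (.leaf 369 2180 .nil)) .nil)) .nil)) (.cons 249 (.leaf 225 1797 (.cons 273 (.leaf 344 1989 (.cons 274 (.leaf 295 2170 (.cons 251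 (.leaf 252 1985 (.cons 250 (.leaf 271 1977 (.cons 299 (.leaf 300 2176 (.cons 226 (.leaf 202 1620 (.leaf 323 1815 .nil)) .nil)) .nil)) .nil)) .nil)) .nil)) .nil)) (.cons 319 (.leaf 343 1982 (.cons 321 (.leaf 345 1988 (.cons 249 (.leaf 225 1797 (.cons 295 (.cons 294 (.leaf 293 2344 (.leaf 322 2355 .nil)) (.cons 322 (.leaf 323 2363 (.cons 298 (.leaf 299 2361 (.cons 297 (.leaf 274 2169 (.leaf 318 2353 .nil)) .nil)) .nil)) (.cons 274 (.leaf 273 2170 (.cons 294 (.leaf 293 2344 (.cons 297 (.leaf 298 2169 (.cons 318 (.leaf 317 2345 (.cons 270 (.leaf 269 2155 (.cons 342 (.leaf 341 2538 (.cons 366 (.leaf 390 2357 (.leaf 271 2165 .nil)) .nil)) .nil)) .nil)) .nil)) .nil)) .nil)) .nil))) .nil)) .nil)) .nil)) .nil)))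
noncomputable def t137 : T := .cons 224 (.cons 199 (.leaf 223 1599 (.cons 200 (.leaf 175 1407 (.cons 201 (.leaf 177 1413 (.leaf 225 1605 .nil)) .nil)) .nil)) (.cons 199 (.leaf 223 1599 (.cons 200 (.leaf 175 1407 (.cons 295 (.leaf 271 1598 (.leaf 319 1790 .nil)) .nil)) .nil)) (.cons 295 (.leaf 319 1790 (.cons 200 (.leaf 271 1598 (.cons 201 (.leaf 177 1413 (.leaf 225 1605 .nil)) .nil)) .nil)) (.cons 199 (.leaf 223 1599 (.cons 295 (.leaf 319 1790 (.cons 297 (.leaf 321 1796 (.cons 274 (.leaf 273 2170 (.leaf 298 2169 .nil)) .nil)) .nil)) .nil)) .nil)))) (.cons 320 t136 (.cons 224 (.cons 297 (.leaf 321 1796 (.cons 200 (.leaf 273 1604 (.cons 175 (.leaf 199 1407 (.cons 176 (.leaf 151 1215 (.cons 177 (.leaf 201 1413 (.leaf 153 1221 .nil)) .nil)) .nil)) .nil)) .nil)) (.cons 225 (.leaf 201 1605 (.cons 223 (.leaf 199 1599 (.cons 249 (.leaf 320 1797 (.cons 222 (.leaf 221 1768 (.leaf 250 1776 .nil))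 .nil)) .nil)) .nil)) (.cons 297 (.leaf 321 1796 (.cons 199 (.leaf 223 1599 (.cons 200 (.leaf 175 1407 (.leaf 273 1604 .nil)) .nil)) .nil)) (.cons 297 (.leaf 321 1796 (.cons 200 (.leaf 273 1604 (.cons 201 (.leaf 177 1413 (.leaf 225 1605 .nil)) .nil)) .nil)) .nil)))) (.cons 224 (.cons 199 (.leaf 223 1599 (.cons 200 (.leaf 175 1407 (.cons 201 (.leaf 177 1413 (.leaf 225 1605 .nil)) .nil)) .nil)) (.cons 199 (.leaf 223 1599 (.cons 200 (.leaf 175 1407 (.cons 295 (.leaf 271 1598 (.leaf 319 1790 .nil)) .nil)) .nil)) (.cons 201 (.leaf 225 1605 (.cons 177 (.leaf 200 1413 (.cons 295 (.leaf 319 1790 (.cons 297 (.leaf 321 1796 (.cons 298 (.leaf 274 2169 (.cons 271 (.leaf 299 2171 (.leaf 270 2163 .nil)) .nil)) .nil)) .nil)) .nil)) .nil)) (.cons 225 (.leaf 201 1605 (.cons 320 (.leaf 249 1797 (.cons 321 (.leaf 297 1796 (.leaf 345 1988 .nil)) .nil)) .nil)) .nil)))) (.cons 224 (.cons 201 (.leaf 225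 1605 (.cons 200 (.leaf 177 1413 (.cons 295 (.leaf 271 1598 (.leaf 319 1790 .nil)) .nil)) .nil)) (.cons 199 (.leaf 223 1599 (.cons 200 (.leaf 175 1407 (.cons 201 (.leaf 177 1413 (.leaf 225 1605 .nil)) .nil)) .nil)) (.cons 295 (.leaf 319 1790 (.cons 199 (.leaf 223 1599 (.cons 200 (.leaf 175 1407 (.leaf 271 1598 .nil)) .nil)) .nil)) (.cons 199 (.leaf 223 1599 (.cons 225 (.leaf 201 1605 (.cons 319 (.leaf 295 1790 (.cons 320 (.leaf 249 1797 (.leaf 343 1982 .nil)) .nil)) .nil)) .nil)) .nil)))) (.cons 224 (.cons 199 (.leaf 223 1599 (.cons 295 (.leaf 319 1790 (.cons 297 (.leaf 321 1796 (.cons 200 (.leaf 175 1407 (.leaf 271 1598 .nil)) .nil)) .nil)) .nil)) (.cons 199 (.leaf 223 1599 (.cons 200 (.leaf 175 1407 (.cons 297 (.leaf 273 1604 (.leaf 321 1796 .nil)) .nil)) .nil)) (.cons 295 (.leaf 319 1790 (.cons 199 (.leaf 223 1599 (.cons 200 (.leaf 175 1407 (.leaf 271 1598 .nil)) .nil)) .nil)) (.cons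 295 (.leaf 319 1790 (.cons 200 (.leaf 271 1598 (.cons 297 (.leaf 273 1604 (.leaf 321 1796 .nil)) .nil)) .nil)) (.cons 199 (.leaf 223 1599 (.cons 295 (.leaf 319 1790 (.cons 297 (.leaf 321 1796 (.cons 274 (.leaf 273 2170 (.leaf 298 2169 .nil)) .nil)) .nil)) .nil)) .nil))))) .nil)))))
noncomputable def t138 : T := .cons 224 (.cons 295 (.leaf 319 1790 (.cons 271 (.leaf 200 1598 (.cons 321 (.leaf 297 1796 (.cons 320 (.leaf 345 1988 (.cons 247 (.leaf 223 1788 (.leaf 344 1983 .nil)) .nil)) .nil)) .nil)) .nil)) (.cons 295 (.leaf 319 1790 (.cons 271 (.leaf 200 1598 (.cons 321 (.leaf 297 1796 (.cons 320 (.leaf 345 1988 (.cons 344 (.leaf 247 1983 (.leaf 368 2175 .nil)) .nil)) .nil)) .nil)) .nil)) (.cons 223 (.leaf 199 1599 (.cons 320 (.leaf 247 1791 (.cons 321 (.leaf 297 1796 (.leaf 345 1988 .nil)) .nil)) .nil)) (.cons 199 (.leaf 223 1599 (.cons 200 (.leaf 175 1407 (.cons 201 (.leaf 177 1413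 (.leaf 225 1605 .nil)) .nil)) .nil)) .nil)))) (.cons 224 (.cons 201 (.leaf 225 1605 (.cons 200 (.leaf 177 1413 (.cons 295 (.leaf 271 1598 (.leaf 319 1790 .nil)) .nil)) .nil)) (.cons 199 (.leaf 223 1599 (.cons 200 (.leaf 175 1407 (.cons 201 (.leaf 177 1413 (.leaf 225 1605 .nil)) .nil)) .nil)) (.cons 295 (.leaf 319 1790 (.cons 199 (.leaf 223 1599 (.cons 297 (.leaf 321 1796 (.cons 200 (.leaf 175 1407 (.leaf 271 1598 .nil)) .nil)) .nil)) .nil)) (.cons 199 (.leaf 223 1599 (.cons 201 (.leaf 225 1605 (.cons 295 (.leaf 319 1790 (.cons 297 (.leaf 321 1796 (.cons 298 (.leaf 274 2169 (.cons 271 (.leaf 299 2171 (.leaf 270 2163 .nil)) .nil)) .nil)) .nil)) .nil)) .nil)) .nil)))) (.cons 320 (.cons 247 (.leaf 223 1791 (.cons 225 (.leaf 249 1797 (.cons 344 (.leaf 271 1983 (.cons 343 (.leaf 319 1982 (.leaf 367 2174 .nil)) .nil)) .nil)) .nil)) (.cons 225 (.leaf 249 1797 (.cons 343 (.leaf 319 1982 (.cons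 344 (.leaf 367 2174 (.cons 345 (.leaf 321 1988 (.leaf 369 2180 .nil)) .nil)) .nil)) .nil)) (.cons 247 (.leaf 223 1791 (.cons 249 (.leaf 225 1797 (.cons 250 (.leaf 274 1976 (.cons 271 (.leaf 344 1983 (.leaf 251 1978 .nil)) .nil)) .nil)) .nil)) (.cons 223 (.leaf 247 1791 (.cons 343 (.leaf 319 1982 (.cons 344 (.leaf 367 2174 (.cons 345 (.leaf 321 1988 (.leaf 369 2180 .nil)) .nil)) .nil)) .nil)) (.cons 247 (.leaf 223 1791 (.cons 249 (.leaf 225 1797 (.cons 250 (.leaf 274 1976 (.cons 271 (.leaf 251 1978 (.leaf 270 1970 .nil)) .nil)) .nil)) .nil)) .nil))))) (.cons 224 (.cons 201 (.leaf 225 1605 (.cons 200 (.leaf 177 1413 (.cons 175 (.leaf 199 1407 (.cons 176 (.leaf 151 1215 (.cons 271 (.leaf 295 1598 (.leaf 247 1406 .nil)) .nil)) .nil)) .nil)) .nil)) (.cons 199 (.leaf 223 1599 (.cons 200 (.leaf 175 1407 (.cons 271 (.leaf 295 1598 (.cons 247 (.leaf 176 1406 (.cons 320 (.leaf 344 1983 (.cons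 321 (.leaf 297 1796 (.leaf 345 1988 .nil)) .nil)) .nil)) .nil)) .nil)) .nil)) (.cons 201 (.leaf 225 1605 (.cons 200 (.leaf 177 1413 (.cons 271 (.leaf 295 1598 (.cons 247 (.leaf 176 1406 (.cons 320 (.leaf 223 1791 (.leaf 344 1983 .nil)) .nil)) .nil)) .nil)) .nil)) (.cons 199 (.leaf 223 1599 (.cons 225 (.leaf 201 1605 (.cons 320 (.leaf 249 1797 (.cons 321 (.leaf 297 1796 (.leaf 345 1988 .nil)) .nil)) .nil)) .nil)) .nil)))) (.cons 320 (.cons 225 (.leaf 249 1797 (.cons 224 (.leaf 201 1605 (.cons 321 (.leaf 297 1796 (.leaf 345 1988 .nil)) .nil)) .nil)) (.cons 225 (.leaf 249 1797 (.cons 224 (.leaf 201 1605 (.cons 319 (.leaf 295 1790 (.leaf 343 1982 .nil)) .nil)) .nil)) (.cons 319 (.leaf 343 1982 (.cons 224 (.leaf 295 1790 (.cons 321 (.leaf 297 1796 (.leaf 345 1988 .nil)) .nil)) .nil)) (.cons 343 (.leaf 319 1982 (.cons 344 (.leaf 367 2174 (.cons 345 (.leaf 321 1988 (.leaf 369 2180 .nil))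 .nil)) .nil)) .nil)))) (.cons 224 (.cons 199 (.leaf 223 1599 (.cons 200 (.leaf 175 1407 (.cons 201 (.leaf 177 1413 (.leaf 225 1605 .nil)) .nil)) .nil)) (.cons 295 (.leaf 319 1790 (.cons 200 (.leaf 271 1598 (.cons 201 (.leaf 177 1413 (.leaf 225 1605 .nil)) .nil)) .nil)) (.cons 199 (.leaf 223 1599 (.cons 200 (.leaf 175 1407 (.cons 295 (.leaf 271 1598 (.leaf 319 1790 .nil)) .nil)) .nil)) (.cons 199 (.leaf 223 1599 (.cons 225 (.leaf 201 1605 (.cons 319 (.leaf 295 1790 (.cons 320 (.leaf 249 1797 (.leaf 343 1982 .nil)) .nil)) .nil)) .nil)) .nil)))) (.cons 320 (.cons 223 (.leaf 247 1791 (.cons 343 (.leaf 319 1982 (.cons 344 (.leaf 367 2174 (.cons 345 (.leaf 321 1988 (.leaf 369 2180 .nil)) .nil)) .nil)) .nil)) (.cons 223 (.leaf 247 1791 (.cons 224 (.leaf 199 1599 (.cons 321 (.leaf 297 1796 (.leaf 345 1988 .nil)) .nil)) .nil)) (.cons 223 (.leaf 247 1791 (.cons 224 (.leaf 199 1599 (.cons 319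 (.leaf 295 1790 (.leaf 343 1982 .nil)) .nil)) .nil)) (.cons 343 (.leaf 319 1982 (.cons 344 (.leaf 367 2174 (.cons 345 (.leaf 321 1988 (.leaf 369 2180 .nil)) .nil)) .nil)) .nil)))) .nil))))))
noncomputable def t139 : T := .cons 321 (.leaf 345 1991 (.cons 224 (.leaf 200 1604 (.leaf 296 1796 .nil)) .nil)) (.cons 321 (.leaf 345 1991 (.cons 249 (.cons 322 (.leaf 346 1996 (.cons 225 (.leaf 298 1804 (.cons 201 (.leaf 177 1414 (.leaf 296 1606 .nil)) .nil)) .nil)) (.cons 250 (.leaf 226 1805 (.cons 251 (.leaf 271 1978 (.leaf 252 1986 .nil)) .nil)) .nil)) .nil)) (.cons 224 (.leaf 200 1604 (.cons 296 (.cons 199 (.leaf 223 1599 (.cons 295 (.leaf 319 1790 (.cons 294 (.leaf 293 2153 (.cons 270 (.leaf 269 2155 (.cons 225 (.leaf 201 1605 (.cons 298 (.leaf 271 2160 (.cons 249 (.leaf 320 1797 (.leaf 322 1804 .nil)) .nil)) .nil)) .nil)) .nil)) .nil)) .nil)) (.cons 199 (.leaf 223 1599 (.cons 295 (.leaf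 319 1790 (.cons 294 (.leaf 293 2153 (.cons 270 (.leaf 269 2155 (.cons 298 (.leaf 271 2160 (.cons 299 (.leaf 300 2179 (.cons 323 (.leaf 322 2360 (.leaf 324 2368 .nil)) .nil)) .nil)) .nil)) .nil)) .nil)) .nil)) (.cons 225 (.leaf 201 1605 (.cons 249 (.leaf 320 1797 (.cons 223 (.leaf 199 1599 (.cons 222 (.leaf 221 1768 (.leaf 250 1776 .nil)) .nil)) .nil)) .nil)) (.cons 225 (.leaf 201 1605 (.cons 249 (.leaf 320 1797 (.cons 295 (.leaf 319 1790 (.cons 294 (.leaf 293 2153 (.cons 270 (.leaf 269 2155 (.cons 271 (.leaf 250 1969 (.leaf 298 2160 .nil)) .nil)) .nil)) .nil)) .nil)) .nil)) .nil)))) .nil)) (.cons 321 (.leaf 345 1991 (.cons 249 (.leaf 224 1799 (.cons 250 (.leaf 226 1805 (.cons 251 (.leaf 271 1978 (.leaf 252 1986 .nil)) .nil)) .nil)) .nil)) .nil)))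
noncomputable def t140 : T := .cons 274 (.leaf 247 1979 (.cons 295 (.leaf 296 2170 (.cons 271 (.leaf 294 2162 (.cons 299 (.leaf 300 2176 (.leaf 298 2168 .nil)) .nil)) .nil)) .nil)) (.cons 297 t139 (.cons 274 (.leaf 247 1979 (.cons 299 (.leaf 300 2176 (.cons 251 (.leaf 252 1985 (.cons 323 (.cons 250 (.leaf 226 1815 (.leaf 347 2007 .nil)) (.cons 322 (.leaf 346 2006 (.cons 348 (.leaf 324 2012 (.cons 347 (.leaf 372 2204 (.cons 298 (.leaf 227 1814 (.leaf 271 2168 .nil)) .nil)) .nil)) .nil)) (.cons 226 (.leaf 250 1815 (.cons 227 (.leaf 202 1623 (.cons 322 (.leaf 298 1814 (.leaf 346 2006 .nil)) .nil)) .nil)) .nil))) .nil)) .nil)) .nil)) (.cons 274 (.leaf 247 1979 (.cons 296 (.leaf 295 2170 (.cons 299 (.leaf 300 2176 (.cons 251 (.leaf 252 1985 (.cons 323 (.cons 250 (.leaf 226 1815 (.leaf 347 2007 .nil)) (.cons 322 (.leaf 346 2006 (.cons 324 (.leaf 348 2012 (.cons 297 (.leaf 298 2368 (.leaf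 321 2371 .nil)) .nil)) .nil)) .nil)) .nil)) .nil)) .nil)) .nil)) (.cons 274 (.leaf 247 1979 (.cons 251 (.leaf 252 1985 (.cons 271 (.leaf 250 1977 (.cons 295 (.leaf 296 2170 (.leaf 294 2162 .nil)) .nil)) .nil)) .nil)) .nil))))
noncomputable def t141 : T := .cons 296 (.leaf 295 2170 (.cons 299 (.leaf 300 2176 (.cons 224 (.cons 199 (.leaf 223 1599 (.cons 321 (.leaf 297 1796 (.cons 201 (.leaf 225 1605 (.cons 320 (.leaf 345 1988 (.cons 319 (.leaf 343 1982 (.cons 322 (.leaf 298 2361 (.cons 200 (.leaf 175 1407 (.leaf 177 1413 .nil)) .nil)) .nil)) .nil)) .nil)) .nil)) .nil)) (.cons 225 (.leaf 201 1605 (.cons 320 (.leaf 249 1797 (.cons 321 (.leaf 345 1988 (.cons 251 (.leaf 252 1985 (.cons 223 (.leaf 199 1599 (.cons 226 (.leaf 250 1784 (.cons 202 (.leaf 227 1623 (.leaf 203 1593 .nil)) .nil)) .nil)) .nil)) .nil)) .nil)) .nil)) (.cons 297 (.leaf 200 1604 (.leaf 321 1796 .nil)) (.cons 225 (.leaf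 201 1605 (.cons 199 (.leaf 223 1599 (.cons 200 (.leaf 175 1407 (.leaf 297 1604 .nil)) .nil)) .nil)) .nil)))) .nil)) .nil)) (.cons 251 (.leaf 252 1985 (.cons 299 (.leaf 300 2176 (.cons 271 (.leaf 250 1977 (.leaf 298 2168 .nil)) .nil)) .nil)) (.cons 296 (.leaf 295 2170 (.cons 299 (.leaf 300 2176 (.cons 224 t0 .nil)) .nil)) (.cons 251 (.leaf 252 1985 (.cons 271 (.leaf 250 1977 (.cons 295 (.leaf 296 2170 (.leaf 294 2162 .nil)) .nil)) .nil)) (.cons 296 (.leaf 295 2170 (.cons 299 (.leaf 300 2176 (.cons 224 (.cons 199 (.leaf 223 1599 (.cons 321 (.leaf 297 1796 (.cons 201 (.leaf 225 1605 (.cons 320 (.leaf 345 1988 (.cons 343 (.leaf 319 1982 (.cons 344 (.leaf 249 1989 (.leaf 367 2174 .nil)) .nil)) .nil)) .nil)) .nil)) .nil)) (.cons 225 (.leaf 201 1605 (.cons 199 (.leaf 223 1599 (.cons 200 (.leaf 175 1407 (.cons 249 (.leaf 320 1797 (.leaf 176 1412 .nil)) .nil)) .nil)) .nil)) (.cons 297 (.leaf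 200 1604 (.leaf 321 1796 .nil)) .nil))) .nil)) .nil)) .nil))))
noncomputable def t142 : T := .cons 321 (.leaf 345 1991 (.cons 224 (.leaf 200 1604 (.leaf 296 1796 .nil)) .nil)) (.cons 321 (.leaf 345 1991 (.cons 249 (.cons 320 (.leaf 344 1990 (.cons 322 (.leaf 346 1996 (.cons 225 (.leaf 296 1797 (.leaf 298 1804 .nil)) .nil)) .nil)) (.cons 250 (.leaf 226 1805 (.cons 251 (.leaf 271 1978 (.leaf 252 1986 .nil)) .nil)) .nil)) .nil)) (.cons 224 (.leaf 200 1604 (.cons 296 (.cons 223 (.leaf 199 1599 (.cons 320 (.leaf 247 1791 (.cons 344 (.leaf 249 1989 (.leaf 368 2181 .nil)) .nil)) .nil)) (.cons 223 (.leaf 199 1599 (.cons 225 (.leaf 201 1605 (.cons 295 (.leaf 319 1790 (.cons 294 (.leaf 293 2153 (.cons 318 (.leaf 317 2346 (.cons 247 (.leaf 271 1782 (.cons 226 (.leaf 227 1786 (.leaf 246 1778 .nil)) .nil)) .nil)) .nil)) .nil)) .nil)) .nil)) (.cons 201 (.leaf 225 1605 (.cons 319 (.leaf 295 1790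 (.cons 320 (.leaf 343 1982 (.cons 344 (.leaf 249 1989 (.leaf 368 2181 .nil)) .nil)) .nil)) .nil)) .nil))) .nil)) (.cons 321 (.leaf 345 1991 (.cons 249 (.leaf 224 1799 (.cons 320 (.leaf 344 1990 (.cons 322 (.leaf 346 1996 (.cons 298 (.leaf 225 1804 (.cons 299 (.leaf 300 2370 (.leaf 319 2361 .nil)) .nil)) .nil)) .nil)) .nil)) .nil)) .nil)))
noncomputable def t143 : T := .cons 274 (.leaf 247 1979 (.cons 296 (.leaf 295 2170 (.cons 299 (.leaf 300 2176 (.cons 224 (.cons 199 (.leaf 223 1599 (.cons 321 (.leaf 297 1796 (.cons 201 (.leaf 225 1605 (.cons 320 (.leaf 345 1988 (.cons 319 (.leaf 343 1982 (.cons 322 (.leaf 298 2361 (.cons 200 (.leaf 175 1407 (.leaf 177 1413 .nil)) .nil)) .nil)) .nil)) .nil)) .nil)) .nil)) (.cons 225 (.leaf 201 1605 (.cons 320 (.leaf 249 1797 (.cons 321 (.leaf 345 1988 (.cons 251 (.leaf 252 1985 (.cons 223 (.leaf 199 1599 (.cons 226 (.leaf 250 1784 (.cons 202 (.leaf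 227 1623 (.leaf 203 1593 .nil)) .nil)) .nil)) .nil)) .nil)) .nil)) .nil)) (.cons 297 (.leaf 200 1604 (.leaf 321 1796 .nil)) (.cons 225 (.leaf 201 1605 (.cons 199 (.leaf 223 1599 (.cons 200 (.leaf 175 1407 (.leaf 297 1604 .nil)) .nil)) .nil)) .nil)))) .nil)) .nil)) .nil)) (.cons 297 t142 (.cons 274 t141 (.cons 274 (.leaf 247 1979 (.cons 251 (.leaf 252 1985 (.cons 299 (.leaf 300 2176 (.cons 271 (.leaf 250 1977 (.leaf 298 2168 .nil)) .nil)) .nil)) .nil)) (.cons 274 (.leaf 247 1979 (.cons 295 (.leaf 296 2170 (.cons 271 (.leaf 294 2162 (.cons 299 (.leaf 300 2176 (.leaf 298 2168 .nil)) .nil)) .nil)) .nil)) (.cons 274 (.leaf 247 1979 (.cons 251 (.leaf 252 1985 (.cons 271 (.leaf 250 1977 (.cons 295 (.leaf 296 2170 (.leaf 294 2162 .nil)) .nil)) .nil)) .nil)) .nil)))))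
noncomputable def t144 : T := .cons 321 (.leaf 345 1991 (.cons 224 (.leaf 200 1604 (.leaf 296 1796 .nil)) .nil)) (.cons 224 (.leaf 200 1604 (.cons 296 (.cons 295 (.leaf 319 1790 (.cons 294 (.leaf 293 2153 (.cons 270 (.leaf 269 2155 (.cons 271 (.leaf 298 2160 (.cons 223 (.leaf 199 1599 (.cons 318 (.leaf 317 2346 (.leaf 247 1782 .nil)) .nil)) .nil)) .nil)) .nil)) .nil)) (.cons 223 (.leaf 199 1599 (.cons 320 (.leaf 247 1791 (.cons 344 (.leaf 249 1989 (.leaf 368 2181 .nil)) .nil)) .nil)) (.cons 295 (.leaf 319 1790 (.cons 294 (.leaf 293 2153 (.cons 270 (.leaf 269 2155 (.cons 271 (.leaf 298 2160 (.cons 245 (.leaf 246 1963 (.cons 249 (.leaf 250 1969 (.cons 318 (.leaf 317 2346 (.cons 342 (.leaf 366 2165 (.leaf 247 1973 .nil)) .nil)) .nil)) .nil)) .nil)) .nil)) .nil)) .nil)) (.cons 295 (.leaf 319 1790 (.cons 199 (.leaf 223 1599 (.cons 294 (.leaf 293 2153 (.cons 270 (.leaf 269 2155 (.cons 298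 (.leaf 271 2160 (.cons 299 (.leaf 300 2179 (.cons 323 (.leaf 322 2360 (.leaf 324 2368 .nil)) .nil)) .nil)) .nil)) .nil)) .nil)) .nil)) .nil)))) .nil)) (.cons 321 (.leaf 345 1991 (.cons 249 (.cons 320 (.leaf 344 1990 (.cons 322 (.leaf 346 1996 (.cons 225 (.leaf 296 1797 (.leaf 298 1804 .nil)) .nil)) .nil)) (.cons 250 (.leaf 226 1805 (.cons 251 (.leaf 271 1978 (.leaf 252 1986 .nil)) .nil)) .nil)) .nil)) (.cons 321 (.leaf 345 1991 (.cons 249 (.leaf 224 1799 (.cons 320 (.leaf 344 1990 (.cons 322 (.leaf 346 1996 (.cons 298 (.leaf 225 1804 (.cons 299 (.leaf 300 2370 (.leaf 319 2361 .nil)) .nil)) .nil)) .nil)) .nil)) .nil)) .nil)))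
noncomputable def t145 : T := .cons 274 (.leaf 247 1979 (.cons 251 (.leaf 252 1985 (.cons 299 (.leaf 300 2176 (.cons 271 (.leaf 250 1977 (.leaf 298 2168 .nil)) .nil)) .nil)) .nil)) (.cons 297 t144 (.cons 274 (.cons 251 (.leaf 252 1985 (.cons 299 (.leaf 300 2176 (.cons 271 (.leaf 250 1977 (.leaf 298 2168 .nil)) .nil)) .nil)) (.cons 295 (.leaf 296 2170 (.cons 271 (.leaf 294 2162 (.cons 299 (.leaf 300 2176 (.leaf 298 2168 .nil)) .nil)) .nil)) (.cons 251 (.leaf 252 1985 (.cons 271 (.leaf 250 1977 (.cons 295 (.leaf 296 2170 (.leaf 294 2162 .nil)) .nil)) .nil)) (.cons 296 (.leaf 295 2170 (.cons 299 (.leaf 300 2176 (.cons 251 (.leaf 252 1985 (.cons 323 (.cons 250 (.leaf 226 1815 (.leaf 347 2007 .nil)) (.cons 322 (.leaf 346 2006 (.cons 324 (.leaf 348 2012 (.cons 297 (.leaf 298 2368 (.leaf 321 2371 .nil)) .nil)) .nil)) .nil)) .nil)) .nil)) .nil)) .nil)))) (.cons 274 (.leaf 247 1979 (.cons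 296 (.leaf 295 2170 (.cons 299 (.leaf 300 2176 (.cons 251 (.leaf 252 1985 (.cons 323 (.cons 250 (.leaf 226 1815 (.leaf 347 2007 .nil)) (.cons 322 (.leaf 346 2006 (.cons 324 (.leaf 348 2012 (.cons 297 (.leaf 298 2368 (.leaf 321 2371 .nil)) .nil)) .nil)) .nil)) .nil)) .nil)) .nil)) .nil)) (.cons 274 (.leaf 247 1979 (.cons 295 (.leaf 296 2170 (.cons 271 (.leaf 294 2162 (.cons 299 (.leaf 300 2176 (.leaf 298 2168 .nil)) .nil)) .nil)) .nil)) (.cons 274 (.leaf 247 1979 (.cons 251 (.leaf 252 1985 (.cons 271 (.leaf 250 1977 (.cons 295 (.leaf 296 2170 (.leaf 294 2162 .nil)) .nil)) .nil)) .nil)) .nil)))))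
noncomputable def t146 : T := .cons 299 (.leaf 202 1620 (.cons 323 (.leaf 251 1815 (.leaf 347 2007 .nil)) .nil)) (.cons 298 (.cons 203 (.leaf 227 1621 (.cons 299 (.leaf 323 1812 (.cons 321 (.leaf 297 1806 (.cons 322 (.leaf 345 1998 (.cons 346 (.leaf 251 2005 (.leaf 370 2197 .nil)) .nil)) .nil)) .nil)) .nil)) (.cons 201 (.leaf 225 1615 (.cons 299 (.leaf 323 1812 (.cons 321 (.leaf 297 1806 (.cons 322 (.leaf 345 1998 (.cons 346 (.leaf 251 2005 (.leaf 370 2197 .nil)) .nil)) .nil)) .nil)) .nil)) (.cons 227 (.leaf 203 1621 (.cons 224 (.leaf 225 1786 (.cons 321 (.leaf 297 1806 (.cons 322 (.leaf 251 1813 (.leaf 345 1998 .nil)) .nil)) .nil)) .nil)) (.cons 227 (.leaf 203 1621 (.cons 225 (.leaf 224 1786 (.leaf 201 1615 .nil)) .nil)) .nil)))) (.cons 298 (.cons 227 (.leaf 203 1621 (.cons 224 (.leaf 225 1786 (.cons 321 (.leaf 297 1806 (.cons 322 (.leaf 251 1813 (.leaf 345 1998 .nil)) .nil)) .nil))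 .nil)) (.cons 201 (.leaf 225 1615 (.cons 177 (.leaf 202 1423 (.cons 200 (.leaf 224 1413 (.cons 321 (.leaf 297 1806 (.cons 322 (.leaf 345 1998 (.cons 346 (.leaf 251 2005 (.cons 347 (.leaf 323 2004 (.leaf 371 2196 .nil)) .nil)) .nil)) .nil)) .nil)) .nil)) .nil)) (.cons 227 (.leaf 203 1621 (.cons 321 (.leaf 297 1806 (.cons 322 (.leaf 251 1813 (.leaf 345 1998 .nil)) .nil)) .nil)) (.cons 227 (.leaf 203 1621 (.cons 225 (.leaf 224 1786 (.leaf 201 1615 .nil)) .nil)) .nil)))) (.cons 299 (.leaf 202 1620 (.cons 323 (.leaf 347 2007 (.leaf 298 1812 .nil)) .nil)) (.cons 202 (.leaf 299 1620 (.cons 201 (.leaf 177 1423 (.cons 203 (.leaf 179 1429 (.cons 298 (.leaf 225 1615 (.leaf 227 1621 .nil)) .nil)) .nil)) .nil)) .nil))))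
noncomputable def t147 : T := .cons 299 (.leaf 202 1620 (.cons 323 (.leaf 251 1815 (.leaf 347 2007 .nil)) .nil)) (.cons 298 (.cons 227 (.leaf 203 1621 (.cons 224 (.leaf 225 1786 (.cons 321 (.leaf 297 1806 (.cons 322 (.leaf 251 1813 (.leaf 345 1998 .nil)) .nil)) .nil)) .nil)) (.cons 323 (.leaf 299 1812 (.cons 297 (.leaf 321 1806 (.cons 296 (.leaf 295 2169 (.cons 223 (.leaf 320 1791 (.cons 199 (.leaf 175 1404 (.leaf 224 1599 .nil)) .nil)) .nil)) .nil)) .nil)) (.cons 227 (.leaf 203 1621 (.cons 225 (.leaf 224 1786 (.leaf 201 1615 .nil)) .nil)) (.cons 323 (.leaf 299 1812 (.cons 297 (.leaf 321 1806 (.cons 296 (.leaf 295 2169 (.cons 223 (.leaf 320 1791 (.cons 199 (.leaf 175 1404 (.leaf 271 1596 .nil)) .nil)) .nil)) .nil)) .nil)) .nil)))) (.cons 298 (.cons 203 (.leaf 227 1621 (.cons 179 (.leaf 202 1429 (.cons 297 (.leaf 321 1806 (.cons 296 (.leaf 295 2169 (.cons 223 (.leaf 320 1791 (.cons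 199 (.leaf 175 1404 (.leaf 224 1599 .nil)) .nil)) .nil)) .nil)) .nil)) .nil)) (.cons 201 (.leaf 225 1615 (.cons 177 (.leaf 202 1423 (.cons 200 (.leaf 224 1413 (.cons 297 (.leaf 321 1806 (.cons 296 (.leaf 295 2169 (.cons 223 (.leaf 320 1791 (.cons 199 (.leaf 175 1404 (.leaf 271 1596 .nil)) .nil)) .nil)) .nil)) .nil)) .nil)) .nil)) (.cons 227 (.leaf 203 1621 (.cons 225 (.leaf 224 1786 (.leaf 201 1615 .nil)) .nil)) (.cons 203 (.leaf 227 1621 (.cons 179 (.leaf 202 1429 (.cons 297 (.leaf 321 1806 (.cons 296 (.leaf 295 2169 (.cons 223 (.leaf 320 1791 (.cons 199 (.leaf 175 1404 (.leaf 271 1596 .nil)) .nil)) .nil)) .nil)) .nil)) .nil)) .nil)))) .nil))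
noncomputable def t148 : T := .cons 273 (.leaf 274 1979 (.cons 246 (.leaf 245 1960 (.cons 249 (.cons 270 (.leaf 269 1962 (.cons 250 (.leaf 271 1969 (.cons 222 (.leaf 221 1771 (.leaf 223 1779 .nil)) .nil)) .nil)) (.cons 222 (.leaf 221 1771 (.cons 223 (.leaf 250 1779 (.cons 175 (.leaf 199 1404 (.cons 225 (.leaf 226 1777 (.cons 201 (.leaf 177 1414 (.leaf 296 1606 .nil)) .nil)) .nil)) .nil)) .nil)) (.cons 225 (.leaf 226 1777 (.cons 201 (.leaf 177 1414 (.leaf 296 1606 .nil)) .nil)) .nil))) .nil)) .nil)) (.cons 249 t6 (.cons 223 (.cons 199 (.leaf 175 1404 (.cons 271 (.leaf 296 1596 (.cons 270 (.leaf 294 1590 (.cons 269 (.leaf 249 1961 (.leaf 268 1953 .nil)) .nil)) .nil)) .nil)) (.cons 296 (.leaf 320 1791 (.cons 224 (.cons 297 (.leaf 321 1796 (.cons 200 (.leaf 273 1604 (.cons 176 (.leaf 271 1406 (.leaf 152 1214 .nil)) .nil)) .nil)) (.cons 225 (.leaf 201 1605 (.cons 226 (.leaf 227 1786 (.leaf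 246 1778 .nil)) .nil)) .nil)) .nil)) (.cons 199 (.leaf 175 1404 (.cons 271 (.cons 270 (.leaf 294 1590 (.cons 269 (.leaf 249 1961 (.leaf 268 1953 .nil)) .nil)) (.cons 174 (.leaf 198 1399 (.cons 200 (.leaf 176 1405 (.cons 224 (.leaf 295 1597 (.cons 201 (.leaf 177 1413 (.cons 222 (.leaf 202 1586 (.leaf 221 1577 .nil)) .nil)) .nil)) .nil)) .nil)) .nil)) .nil)) (.cons 199 (.leaf 175 1404 (.cons 296 (.leaf 224 1599 (.leaf 320 1791 .nil)) .nil)) .nil)))) (.cons 273 (.leaf 274 1979 (.cons 246 (.leaf 245 1960 (.cons 223 (.cons 296 (.leaf 320 1791 (.cons 224 (.leaf 199 1599 (.cons 225 (.leaf 201 1605 (.leaf 226 1778 .nil)) .nil)) .nil)) (.cons 296 (.leaf 320 1791 (.cons 224 (.cons 225 (.leaf 201 1605 (.leaf 226 1778 .nil)) (.cons 297 (.leaf 200 1604 (.leaf 321 1796 .nil)) .nil)) .nil)) (.cons 199 (.leaf 175 1404 (.cons 271 (.cons 174 (.leaf 198 1399 (.cons 200 (.leaf 176 1405 (.cons 224 (.leaf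 295 1597 (.leaf 297 1604 .nil)) .nil)) .nil)) (.cons 270 (.leaf 294 1590 (.cons 198 (.leaf 174 1399 (.cons 269 (.leaf 268 1953 (.cons 293 (.leaf 292 2146 (.leaf 222 1582 .nil)) .nil)) .nil)) .nil)) (.cons 200 (.leaf 176 1405 (.cons 224 (.leaf 295 1597 (.leaf 297 1604 .nil)) .nil)) .nil))) .nil)) (.cons 199 (.leaf 175 1404 (.cons 296 (.leaf 271 1596 (.leaf 320 1791 .nil)) .nil)) .nil)))) .nil)) .nil)) (.cons 273 (.leaf 274 1979 (.cons 246 (.leaf 245 1960 (.cons 249 (.cons 270 (.leaf 269 1962 (.cons 250 (.leaf 271 1969 (.cons 226 (.leaf 225 1777 (.leaf 227 1785 .nil)) .nil)) .nil)) (.cons 270 (.leaf 269 1962 (.cons 250 (.leaf 271 1969 (.cons 251 (.leaf 252 1986 (.cons 227 (.leaf 226 1785 (.leaf 228 1793 .nil)) .nil)) .nil)) .nil)) (.cons 225 (.leaf 226 1777 (.cons 201 (.leaf 177 1414 (.leaf 296 1606 .nil)) .nil)) (.cons 270 (.leaf 269 1962 (.cons 271 (.leaf 250 1969 (.cons 293 (.leaf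 294 2154 (.cons 297 (.leaf 298 2160 (.cons 321 (.leaf 345 1991 (.leaf 224 1799 .nil)) .nil)) .nil)) .nil)) .nil)) .nil)))) .nil)) .nil)) (.cons 274 (.leaf 273 1979 (.cons 250 (.leaf 249 1976 (.cons 226 t147 .nil)) .nil)) (.cons 274 (.leaf 273 1979 (.cons 249 (.leaf 250 1976 (.cons 225 (.cons 296 (.leaf 320 1797 (.cons 201 (.leaf 177 1414 (.leaf 224 1605 .nil)) .nil)) (.cons 246 (.leaf 226 1777 (.cons 177 (.leaf 201 1414 (.cons 245 (.leaf 224 1769 (.cons 221 (.leaf 220 1763 (.leaf 222 1771 .nil)) .nil)) .nil)) .nil)) (.cons 246 (.leaf 226 1777 (.cons 245 (.leaf 224 1769 (.cons 269 (.leaf 268 1954 (.leaf 270 1962 .nil)) .nil)) .nil)) (.cons 246 (.leaf 226 1777 (.cons 177 (.leaf 201 1414 (.cons 269 (.leaf 270 1962 (.cons 245 (.leaf 268 1954 (.cons 221 (.leaf 220 1763 (.leaf 222 1771 .nil)) .nil)) .nil)) .nil)) .nil)) .nil)))) .nil)) .nil)) (.cons 274 (.leaf 273 1979 (.cons 250 (.leaf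 249 1976 (.cons 226 t146 .nil)) .nil)) (.cons 273 (.leaf 274 1979 (.cons 246 (.leaf 245 1960 (.cons 249 (.cons 270 (.leaf 269 1962 (.cons 250 (.leaf 271 1969 (.cons 251 (.leaf 252 1986 (.cons 224 (.leaf 223 1787 (.cons 297 (.leaf 200 1604 (.leaf 321 1799 .nil)) .nil)) .nil)) .nil)) .nil)) (.cons 222 (.leaf 221 1771 (.cons 223 (.leaf 250 1779 (.cons 199 (.leaf 175 1404 (.cons 296 (.leaf 224 1599 (.leaf 271 1596 .nil)) .nil)) .nil)) .nil)) (.cons 270 (.leaf 269 1962 (.cons 222 (.leaf 221 1771 (.cons 271 (.cons 198 (.leaf 174 1396 (.leaf 295 1588 .nil)) (.cons 297 (.leaf 298 2160 (.cons 224 (.leaf 200 1604 (.leaf 321 1799 .nil)) .nil)) .nil)) .nil)) .nil)) (.cons 222 (.leaf 221 1771 (.cons 223 (.leaf 250 1779 (.cons 199 (.leaf 175 1404 (.cons 270 (.leaf 269 1962 (.leaf 294 1589 .nil)) .nil)) .nil)) .nil)) .nil)))) .nil)) .nil)) .nil))))))))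
noncomputable def t149 : T := .cons 274 (.leaf 247 1979 (.cons 296 (.leaf 295 2170 (.cons 299 (.leaf 300 2176 (.cons 251 (.leaf 252 1985 (.cons 323 (.cons 250 (.leaf 226 1815 (.leaf 347 2007 .nil)) (.cons 322 (.leaf 346 2006 (.cons 324 (.leaf 348 2012 (.cons 297 (.leaf 298 2368 (.leaf 321 2371 .nil)) .nil)) .nil)) .nil)) .nil)) .nil)) .nil)) .nil)) (.cons 224 (.cons 200 (.leaf 297 1604 (.cons 175 (.leaf 199 1407 (.cons 176 (.leaf 151 1215 (.leaf 249 1412 .nil)) .nil)) .nil)) (.cons 296 t86 (.cons 200 (.cons 175 (.leaf 199 1407 (.cons 176 (.leaf 151 1215 (.leaf 249 1412 .nil)) .nil)) (.cons 177 (.leaf 201 1413 (.cons 199 (.leaf 175 1407 (.cons 295 (.leaf 271 1598 (.cons 296 (.leaf 223 1599 (.leaf 319 1790 .nil)) .nil)) .nil)) .nil)) (.cons 176 (.leaf 249 1412 (.cons 177 (.leaf 201 1413 (.leaf 153 1221 .nil)) .nil)) .nil))) (.cons 200 (.leaf 297 1604 (.cons 175 (.leaf 199 1407 (.cons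 176 (.leaf 151 1215 (.cons 177 (.leaf 201 1413 (.leaf 153 1221 .nil)) .nil)) .nil)) .nil)) (.cons 200 (.leaf 297 1604 (.cons 176 (.leaf 249 1412 (.cons 177 (.leaf 201 1413 (.leaf 153 1221 .nil)) .nil)) .nil)) .nil))))) (.cons 274 (.cons 296 (.leaf 295 2170 (.cons 299 (.leaf 300 2176 (.cons 251 (.leaf 252 1985 (.cons 323 (.cons 250 (.leaf 226 1815 (.leaf 347 2007 .nil)) (.cons 322 (.leaf 346 2006 (.cons 324 (.leaf 348 2012 (.cons 297 (.leaf 298 2368 (.leaf 321 2371 .nil)) .nil)) .nil)) .nil)) .nil)) .nil)) .nil)) (.cons 295 (.leaf 296 2170 (.cons 271 (.leaf 294 2162 (.cons 299 (.leaf 300 2176 (.leaf 298 2168 .nil)) .nil)) .nil)) (.cons 251 (.leaf 252 1985 (.cons 271 (.leaf 250 1977 (.cons 295 (.leaf 296 2170 (.leaf 294 2162 .nil)) .nil)) .nil)) (.cons 251 (.leaf 252 1985 (.cons 299 (.leaf 300 2176 (.cons 271 (.leaf 250 1977 (.leaf 298 2168 .nil)) .nil)) .nil)) .nil)))) (.cons 274 (.leaf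 247 1979 (.cons 295 (.leaf 296 2170 (.cons 271 (.leaf 294 2162 (.cons 299 (.leaf 300 2176 (.leaf 298 2168 .nil)) .nil)) .nil)) .nil)) (.cons 274 (.leaf 247 1979 (.cons 251 (.leaf 252 1985 (.cons 299 (.leaf 300 2176 (.cons 271 (.leaf 250 1977 (.leaf 298 2168 .nil)) .nil)) .nil)) .nil)) (.cons 274 (.leaf 247 1979 (.cons 251 (.leaf 252 1985 (.cons 271 (.leaf 250 1977 (.cons 295 (.leaf 296 2170 (.leaf 294 2162 .nil)) .nil)) .nil)) .nil)) .nil)))))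
noncomputable def t150 : T := .cons 222 (.leaf 221 1771 (.cons 223 (.leaf 250 1779 (.cons 199 (.leaf 175 1404 (.cons 296 (.leaf 224 1599 (.leaf 271 1596 .nil)) .nil)) .nil)) .nil)) (.cons 222 (.leaf 221 1771 (.cons 223 (.leaf 250 1779 (.cons 270 (.leaf 269 1962 (.cons 199 (.leaf 175 1404 (.leaf 294 1589 .nil)) .nil)) .nil)) .nil)) (.cons 270 (.leaf 269 1962 (.cons 250 (.leaf 271 1969 (.cons 251 (.leaf 252 1986 (.cons 224 (.leaf 223 1787 (.cons 200 (.leaf 176 1412 (.cons 175 (.leaf 199 1407 (.cons 201 (.leaf 177 1413 (.cons 296 (.leaf 225 1605 (.cons 227 (.leaf 228 1793 (.cons 319 (.leaf 295 1790 (.cons 320 (.leaf 343 1982 (.leaf 344 1989 .nil)) .nil)) .nil)) .nil)) .nil)) .nil)) .nil)) .nil)) .nil)) .nil)) .nil)) (.cons 270 (.leaf 269 1962 (.cons 271 (.leaf 250 1969 (.cons 221 (.leaf 222 1771 (.cons 294 (.leaf 293 2154 (.cons 318 (.leaf 342 1973 (.cons 319 (.leaf 343 1972 (.cons 295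 (.leaf 224 1789 (.cons 317 (.leaf 341 1966 (.cons 316 (.leaf 315 2329 (.leaf 296 2337 .nil)) .nil)) .nil)) .nil)) .nil)) .nil)) .nil)) .nil)) .nil)) (.cons 270 (.leaf 269 1962 (.cons 222 (.leaf 221 1771 (.cons 223 (.cons 294 (.leaf 318 1781 (.leaf 199 1589 .nil)) (.cons 294 (.leaf 318 1781 (.cons 293 (.leaf 271 2154 (.leaf 317 1774 .nil)) .nil)) (.cons 199 (.leaf 175 1404 (.cons 296 (.leaf 224 1599 (.leaf 271 1596 .nil)) .nil)) .nil))) .nil)) .nil)) .nil))))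
noncomputable def t151 : T := .cons 199 (.leaf 175 1404 (.cons 296 (.leaf 224 1599 (.leaf 271 1596 .nil)) .nil)) (.cons 296 (.leaf 320 1791 (.cons 224 (.cons 295 (.leaf 319 1790 (.cons 271 (.leaf 200 1597 (.cons 222 (.leaf 198 1591 (.cons 221 (.leaf 220 1760 (.cons 197 (.leaf 196 1571 (.cons 294 (.leaf 318 1782 (.cons 245 (.leaf 244 1762 (.cons 269 (.leaf 270 1580 (.cons 268 (.leaf 293 2147 (.leaf 292 1574 .nil)) .nil)) .nil)) .nil)) .nil)) .nil)) .nil)) .nil)) .nil)) (.cons 225 (.leaf 201 1605 (.cons 226 (.leaf 227 1786 (.leaf 251 1784 .nil)) .nil)) .nil)) .nil)) (.cons 199 (.leaf 175 1404 (.cons 271 (.cons 198 (.leaf 174 1399 (.cons 200 (.leaf 176 1405 (.cons 222 (.leaf 295 1591 (.cons 221 (.leaf 220 1760 (.leaf 201 1578 .nil)) .nil)) .nil)) .nil)) (.cons 198 (.leaf 174 1399 (.cons 295 (.leaf 222 1591 (.cons 294 (.leaf 270 1590 (.leaf 318 1782 .nil)) .nil)) .nil)) (.cons 270 (.leaf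 294 1590 (.cons 269 (.leaf 268 1953 (.cons 200 (.leaf 176 1405 (.cons 293 (.leaf 292 2146 (.cons 202 (.cons 201 (.leaf 222 1586 (.cons 226 (.leaf 299 1620 (.leaf 177 1423 .nil)) .nil)) (.cons 201 (.leaf 222 1586 (.cons 224 (.leaf 177 1413 (.leaf 203 1594 .nil)) .nil)) (.cons 226 (.leaf 299 1620 (.cons 178 (.leaf 251 1428 (.cons 179 (.leaf 203 1429 (.leaf 155 1237 .nil)) .nil)) .nil)) .nil))) .nil)) .nil)) .nil)) .nil)) (.cons 176 (.leaf 200 1405 (.cons 294 (.leaf 270 1590 (.cons 295 (.leaf 318 1782 (.cons 319 (.leaf 343 1981 (.leaf 224 1789 .nil)) .nil)) .nil)) .nil)) .nil)))) .nil)) (.cons 199 (.leaf 175 1404 (.cons 296 (.leaf 271 1596 (.leaf 320 1791 .nil)) .nil)) (.cons 199 (.leaf 175 1404 (.cons 296 (.leaf 224 1599 (.leaf 320 1791 .nil)) .nil)) .nil))))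
noncomputable def t152 : T := .cons 273 (.leaf 274 1979 (.cons 246 (.leaf 245 1960 (.cons 249 (.cons 221 (.leaf 222 1771 (.cons 226 (.leaf 225 1777 (.cons 250 (.leaf 227 1785 (.cons 270 (.leaf 271 1969 (.leaf 269 1962 .nil)) .nil)) .nil)) .nil)) (.cons 270 (.leaf 269 1962 (.cons 271 (.leaf 250 1969 (.cons 221 (.leaf 222 1771 (.cons 294 (.leaf 293 2154 (.cons 318 (.leaf 342 1973 (.cons 319 (.leaf 343 1972 (.cons 295 (.leaf 224 1789 (.cons 317 (.leaf 341 1966 (.cons 316 (.leaf 315 2329 (.leaf 296 2337 .nil)) .nil)) .nil)) .nil)) .nil)) .nil)) .nil)) .nil)) .nil)) (.cons 221 (.leaf 222 1771 (.cons 226 (.leaf 225 1777 (.cons 250 (.leaf 227 1785 (.cons 251 (.leaf 271 1978 (.leaf 252 1986 .nil)) .nil)) .nil)) .nil)) (.cons 225 (.leaf 226 1777 (.cons 201 (.leaf 177 1414 (.leaf 296 1606 .nil)) .nil)) .nil)))) .nil)) .nil)) (.cons 274 (.leaf 273 1979 (.cons 249 (.leaf 250 1976 (.cons 225 (.cons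 296 (.leaf 320 1797 (.cons 201 (.leaf 177 1414 (.leaf 224 1605 .nil)) .nil)) (.cons 246 (.leaf 226 1777 (.cons 177 (.leaf 201 1414 (.cons 245 (.leaf 224 1769 (.cons 221 (.leaf 220 1763 (.leaf 222 1771 .nil)) .nil)) .nil)) .nil)) (.cons 246 (.leaf 226 1777 (.cons 245 (.leaf 224 1769 (.cons 269 (.leaf 268 1954 (.leaf 270 1962 .nil)) .nil)) .nil)) (.cons 246 (.leaf 226 1777 (.cons 177 (.leaf 201 1414 (.cons 269 (.leaf 270 1962 (.cons 245 (.leaf 268 1954 (.cons 221 (.leaf 220 1763 (.leaf 222 1771 .nil)) .nil)) .nil)) .nil)) .nil)) .nil)))) .nil)) .nil)) (.cons 274 (.leaf 273 1979 (.cons 250 (.leaf 249 1976 (.cons 223 t151 .nil)) .nil)) (.cons 273 (.leaf 274 1979 (.cons 246 (.leaf 245 1960 (.cons 249 (.cons 221 (.leaf 222 1771 (.cons 226 (.leaf 225 1777 (.cons 250 (.leaf 227 1785 (.cons 270 (.leaf 271 1969 (.leaf 269 1962 .nil)) .nil)) .nil)) .nil)) (.cons 222 (.leaf 221 1771 (.cons 223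 (.leaf 250 1779 (.cons 175 (.leaf 199 1404 (.cons 225 (.leaf 226 1777 (.cons 201 (.leaf 177 1414 (.cons 202 (.leaf 178 1421 (.leaf 224 1585 .nil)) .nil)) .nil)) .nil)) .nil)) .nil)) (.cons 270 (.leaf 269 1962 (.cons 250 (.leaf 271 1969 (.cons 227 (.leaf 226 1785 (.cons 251 (.leaf 252 1986 (.leaf 228 1793 .nil)) .nil)) .nil)) .nil)) (.cons 270 (.leaf 269 1962 (.cons 222 (.leaf 221 1771 (.cons 225 (.leaf 226 1777 (.cons 201 (.leaf 177 1414 (.cons 202 (.leaf 178 1421 (.cons 200 (.leaf 176 1415 (.cons 199 (.leaf 223 1586 (.cons 175 (.leaf 224 1407 (.leaf 198 1397 .nil)) .nil)) .nil)) .nil)) .nil)) .nil)) .nil)) .nil)) (.cons 270 (.leaf 269 1962 (.cons 250 (.leaf 271 1969 (.cons 222 (.leaf 221 1771 (.leaf 223 1779 .nil)) .nil)) .nil)) .nil))))) .nil)) .nil)) (.cons 273 (.leaf 274 1979 (.cons 246 (.leaf 245 1960 (.cons 249 (.cons 225 (.leaf 226 1777 (.cons 201 (.leaf 177 1414 (.leaf 296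 1606 .nil)) .nil)) (.cons 270 (.leaf 269 1962 (.cons 250 (.leaf 271 1969 (.cons 222 (.leaf 221 1771 (.leaf 223 1779 .nil)) .nil)) .nil)) .nil)) .nil)) .nil)) (.cons 273 (.leaf 274 1979 (.cons 246 (.leaf 245 1960 (.cons 249 (.cons 222 (.leaf 221 1771 (.cons 223 (.leaf 250 1779 (.cons 199 (.leaf 175 1404 (.cons 296 (.leaf 224 1599 (.leaf 271 1596 .nil)) .nil)) .nil)) .nil)) (.cons 222 (.leaf 221 1771 (.cons 223 (.leaf 250 1779 (.cons 270 (.leaf 269 1962 (.cons 199 (.leaf 175 1404 (.leaf 294 1589 .nil)) .nil)) .nil)) .nil)) (.cons 270 (.leaf 269 1962 (.cons 250 (.leaf 271 1969 (.cons 227 (.leaf 226 1785 (.cons 251 (.leaf 252 1986 (.leaf 228 1793 .nil)) .nil)) .nil)) .nil)) (.cons 270 (.leaf 269 1962 (.cons 222 (.leaf 221 1771 (.cons 223 (.cons 294 (.leaf 318 1781 (.leaf 199 1589 .nil)) (.cons 294 (.leaf 318 1781 (.cons 293 (.leaf 271 2154 (.leaf 317 1774 .nil)) .nil)) (.cons 199 (.leaf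 175 1404 (.cons 296 (.leaf 224 1599 (.leaf 271 1596 .nil)) .nil)) .nil))) .nil)) .nil)) .nil)))) .nil)) .nil)) (.cons 273 (.leaf 274 1979 (.cons 246 (.leaf 245 1960 (.cons 249 (.cons 225 (.leaf 226 1777 (.cons 201 (.leaf 177 1414 (.leaf 296 1606 .nil)) .nil)) (.cons 270 (.leaf 269 1962 (.cons 250 (.leaf 271 1969 (.cons 227 (.leaf 226 1785 (.cons 251 (.leaf 252 1986 (.leaf 228 1793 .nil)) .nil)) .nil)) .nil)) (.cons 270 (.leaf 269 1962 (.cons 250 (.leaf 271 1969 (.cons 251 (.leaf 252 1986 (.cons 224 (.leaf 223 1787 (.cons 200 (.leaf 176 1412 (.cons 175 (.leaf 199 1407 (.cons 201 (.leaf 177 1413 (.cons 296 (.leaf 225 1605 (.cons 227 (.leaf 228 1793 (.cons 319 (.leaf 295 1790 (.cons 320 (.leaf 343 1982 (.leaf 344 1989 .nil)) .nil)) .nil)) .nil)) .nil)) .nil)) .nil)) .nil)) .nil)) .nil)) .nil)) .nil))) .nil)) .nil)) (.cons 273 (.leaf 274 1979 (.cons 246 (.leaf 245 1960 (.cons 249 t150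 .nil)) .nil)) .nil)))))))
noncomputable def t153 : T := .cons 199 (.leaf 175 1404 (.cons 271 (.leaf 296 1596 (.cons 174 (.leaf 198 1399 (.cons 200 (.leaf 176 1405 (.cons 224 (.leaf 295 1597 (.cons 201 (.leaf 177 1413 (.cons 202 (.leaf 222 1586 (.leaf 203 1594 .nil)) .nil)) .nil)) .nil)) .nil)) .nil)) .nil)) (.cons 296 (.leaf 320 1791 (.cons 224 (.cons 295 (.leaf 319 1790 (.cons 294 (.leaf 293 2153 (.cons 225 (.leaf 201 1605 (.leaf 226 1778 .nil)) .nil)) .nil)) (.cons 295 (.leaf 319 1790 (.cons 294 (.leaf 293 2153 (.cons 318 (.leaf 270 1781 (.leaf 271 1782 .nil)) .nil)) .nil)) (.cons 225 (.leaf 201 1605 (.leaf 226 1778 .nil)) .nil))) .nil)) (.cons 199 (.leaf 175 1404 (.cons 271 (.cons 174 (.leaf 198 1399 (.cons 200 (.leaf 176 1405 (.cons 224 (.leaf 295 1597 (.cons 201 (.leaf 177 1413 (.cons 202 (.leaf 222 1586 (.leaf 203 1594 .nil)) .nil)) .nil)) .nil)) .nil)) (.cons 174 (.leaf 198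 1399 (.cons 294 (.leaf 270 1590 (.cons 295 (.leaf 318 1782 (.cons 319 (.leaf 343 1981 (.leaf 224 1789 .nil)) .nil)) .nil)) .nil)) (.cons 270 (.leaf 294 1590 (.cons 198 (.leaf 174 1399 (.cons 269 (.leaf 268 1953 (.cons 293 (.leaf 292 2146 (.leaf 222 1582 .nil)) .nil)) .nil)) .nil)) (.cons 270 (.leaf 294 1590 (.cons 200 (.leaf 176 1405 (.cons 224 (.leaf 295 1597 (.cons 201 (.leaf 177 1413 (.cons 202 (.leaf 222 1586 (.leaf 203 1594 .nil)) .nil)) .nil)) .nil)) .nil)) .nil)))) .nil)) (.cons 199 (.leaf 175 1404 (.cons 296 (.leaf 271 1596 (.leaf 320 1791 .nil)) .nil)) (.cons 199 (.leaf 175 1404 (.cons 296 (.leaf 224 1599 (.leaf 320 1791 .nil)) .nil)) .nil))))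
noncomputable def t154 : T := .cons 273 (.leaf 274 1979 (.cons 246 (.leaf 245 1960 (.cons 249 (.cons 222 (.leaf 221 1771 (.cons 225 (.leaf 226 1777 (.cons 201 (.leaf 177 1414 (.leaf 296 1606 .nil)) .nil)) .nil)) (.cons 222 (.leaf 221 1771 (.cons 223 (.leaf 250 1779 (.cons 199 (.leaf 175 1404 (.cons 296 (.leaf 224 1599 (.leaf 271 1596 .nil)) .nil)) .nil)) .nil)) (.cons 225 (.leaf 226 1777 (.cons 201 (.leaf 177 1414 (.leaf 296 1606 .nil)) .nil)) (.cons 222 (.leaf 221 1771 (.cons 225 (.leaf 226 1777 (.cons 201 (.leaf 177 1414 (.cons 176 (.leaf 200 1415 (.cons 202 (.leaf 178 1421 (.cons 223 (.leaf 250 1779 (.leaf 224 1585 .nil)) .nil)) .nil)) .nil)) .nil)) .nil)) .nil)))) .nil)) .nil)) (.cons 223 (.cons 199 (.leaf 175 1404 (.cons 296 (.leaf 224 1599 (.leaf 271 1596 .nil)) .nil)) (.cons 296 (.leaf 320 1791 (.cons 224 (.cons 295 (.leaf 319 1790 (.cons 271 (.leaf 200 1597 (.cons 222 (.leaf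 198 1591 (.cons 221 (.leaf 220 1760 (.leaf 249 1768 .nil)) .nil)) .nil)) .nil)) (.cons 225 (.leaf 201 1605 (.cons 226 (.leaf 227 1786 (.leaf 246 1778 .nil)) .nil)) .nil)) .nil)) (.cons 199 (.leaf 175 1404 (.cons 271 (.cons 270 (.leaf 294 1590 (.cons 269 (.leaf 249 1961 (.leaf 268 1953 .nil)) .nil)) (.cons 198 (.leaf 174 1399 (.cons 200 (.leaf 176 1405 (.cons 295 (.leaf 224 1597 (.leaf 222 1591 .nil)) .nil)) .nil)) .nil)) .nil)) (.cons 199 (.leaf 175 1404 (.cons 296 (.leaf 271 1596 (.leaf 320 1791 .nil)) .nil)) (.cons 199 (.leaf 175 1404 (.cons 296 (.leaf 224 1599 (.leaf 320 1791 .nil)) .nil)) .nil))))) (.cons 273 (.leaf 274 1979 (.cons 246 (.leaf 245 1960 (.cons 223 t153 .nil)) .nil)) t152))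
noncomputable def t155 : T := .cons 296 (.leaf 295 2170 (.cons 299 (.leaf 300 2176 (.cons 224 (.cons 199 (.leaf 223 1599 (.cons 321 (.leaf 297 1796 (.cons 201 (.leaf 225 1605 (.cons 320 (.leaf 345 1988 (.cons 343 (.leaf 319 1982 (.cons 344 (.leaf 249 1989 (.leaf 367 2174 .nil)) .nil)) .nil)) .nil)) .nil)) .nil)) (.cons 225 (.leaf 201 1605 (.cons 199 (.leaf 223 1599 (.cons 200 (.leaf 175 1407 (.cons 249 (.leaf 320 1797 (.leaf 176 1412 .nil)) .nil)) .nil)) .nil)) (.cons 297 (.leaf 200 1604 (.leaf 321 1796 .nil)) .nil))) .nil)) .nil)) (.cons 299 (.leaf 300 2176 (.cons 251 (.leaf 252 1985 (.cons 298 (.leaf 271 2168 (.cons 322 (.leaf 227 1814 (.leaf 346 2005 .nil)) .nil)) .nil)) .nil)) (.cons 296 (.leaf 295 2170 (.cons 251 (.leaf 252 1985 (.cons 224 (.cons 199 (.leaf 223 1599 (.cons 200 (.leaf 175 1407 (.leaf 297 1604 .nil)) .nil)) (.cons 199 (.leaf 223 1599 (.cons 200 (.leaf 175 1407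 (.cons 201 (.leaf 177 1413 (.leaf 225 1605 .nil)) .nil)) .nil)) (.cons 199 (.leaf 223 1599 (.cons 201 (.leaf 225 1605 (.cons 321 (.leaf 297 1796 (.cons 320 (.leaf 345 1988 (.cons 343 (.leaf 319 1982 (.cons 344 (.leaf 249 1989 (.leaf 367 2174 .nil)) .nil)) .nil)) .nil)) .nil)) .nil)) (.cons 297 (.leaf 200 1604 (.leaf 321 1796 .nil)) .nil)))) .nil)) .nil)) .nil))
noncomputable def t156 : T := .cons 225 (.leaf 201 1605 (.cons 199 (.leaf 223 1599 (.cons 320 (.leaf 249 1797 (.cons 343 (.leaf 319 1982 (.cons 344 (.leaf 367 2174 (.cons 345 (.leaf 321 1988 (.leaf 369 2180 .nil)) .nil)) .nil)) .nil)) .nil)) .nil)) (.cons 225 (.leaf 201 1605 (.cons 199 (.leaf 223 1599 (.cons 320 (.leaf 249 1797 (.cons 343 (.leaf 319 1982 (.cons 344 (.leaf 367 2174 (.cons 247 (.leaf 271 1983 (.cons 246 (.leaf 245 1960 (.cons 226 (.leaf 227 1786 (.cons 368 (.leaf 297 2181 (.cons 369 (.leaf 345 2180 (.leaf 393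 2372 .nil)) .nil)) .nil)) .nil)) .nil)) .nil)) .nil)) .nil)) .nil)) .nil)) (.cons 321 (.leaf 297 1796 (.cons 199 (.leaf 223 1599 (.cons 319 (.leaf 295 1790 (.cons 320 (.leaf 343 1982 (.leaf 345 1988 .nil)) .nil)) .nil)) .nil)) (.cons 297 (.leaf 321 1796 (.cons 201 (.leaf 225 1605 (.cons 295 (.leaf 319 1790 (.cons 294 (.leaf 293 2153 (.cons 270 (.leaf 269 2155 (.cons 271 (.leaf 298 2160 (.cons 246 (.leaf 245 1963 (.cons 198 (.leaf 222 1588 (.cons 318 (.leaf 317 2346 (.cons 342 (.leaf 366 2165 (.leaf 247 1973 .nil)) .nil)) .nil)) .nil)) .nil)) .nil)) .nil)) .nil)) .nil)) .nil)) (.cons 297 (.leaf 321 1796 (.cons 225 (.leaf 201 1605 (.cons 249 (.leaf 320 1797 (.cons 226 (.leaf 202 1613 (.cons 227 (.leaf 247 1786 (.leaf 228 1794 .nil)) .nil)) .nil)) .nil)) .nil)) .nil))))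
noncomputable def t157 : T := .cons 296 (.cons 199 (.leaf 223 1599 (.cons 201 (.leaf 225 1605 (.cons 321 (.leaf 297 1796 (.cons 320 (.leaf 345 1988 (.cons 343 (.leaf 319 1982 (.cons 344 (.leaf 249 1989 (.leaf 367 2174 .nil)) .nil)) .nil)) .nil)) .nil)) .nil)) (.cons 225 (.leaf 201 1605 (.cons 199 (.leaf 223 1599 (.cons 320 (.leaf 249 1797 (.cons 345 (.leaf 321 1988 (.cons 319 (.leaf 295 1790 (.leaf 343 1982 .nil)) .nil)) .nil)) .nil)) .nil)) (.cons 297 (.leaf 200 1604 (.leaf 321 1796 .nil)) (.cons 200 (.leaf 297 1604 (.cons 295 (.leaf 271 1598 (.leaf 319 1790 .nil)) .nil)) .nil)))) (.cons 296 t156 (.cons 200 (.cons 175 (.leaf 199 1407 (.cons 201 (.leaf 177 1413 (.cons 296 (.leaf 225 1605 (.cons 319 (.leaf 295 1790 (.cons 320 (.leaf 343 1982 (.cons 176 (.leaf 151 1215 (.leaf 249 1412 .nil)) .nil)) .nil)) .nil)) .nil)) .nil)) (.cons 199 (.leaf 175 1407 (.cons 201 (.leaf 177 1413 (.cons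 296 (.leaf 223 1599 (.leaf 225 1605 .nil)) .nil)) .nil)) (.cons 175 (.leaf 199 1407 (.cons 176 (.leaf 151 1215 (.leaf 249 1412 .nil)) .nil)) (.cons 176 (.leaf 249 1412 (.cons 177 (.leaf 201 1413 (.leaf 153 1221 .nil)) .nil)) .nil)))) (.cons 200 (.leaf 297 1604 (.cons 175 (.leaf 199 1407 (.cons 176 (.leaf 151 1215 (.leaf 249 1412 .nil)) .nil)) .nil)) (.cons 200 (.leaf 297 1604 (.cons 175 (.leaf 199 1407 (.cons 201 (.leaf 177 1413 (.cons 295 (.leaf 271 1598 (.cons 296 (.leaf 225 1605 (.leaf 319 1790 .nil)) .nil)) .nil)) .nil)) .nil)) (.cons 200 (.leaf 297 1604 (.cons 176 (.leaf 249 1412 (.cons 177 (.leaf 201 1413 (.leaf 153 1221 .nil)) .nil)) .nil)) .nil)))))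
noncomputable def t158 : T := .cons 224 (.leaf 200 1604 (.cons 296 (.leaf 321 1796 (.cons 201 (.leaf 225 1605 (.cons 295 (.leaf 319 1790 (.cons 294 (.leaf 293 2153 (.cons 270 (.leaf 269 2155 (.cons 271 (.leaf 298 2160 (.cons 246 (.leaf 245 1963 (.cons 198 (.leaf 222 1588 (.cons 318 (.leaf 317 2346 (.cons 342 (.leaf 366 2165 (.leaf 247 1973 .nil)) .nil)) .nil)) .nil)) .nil)) .nil)) .nil)) .nil)) .nil)) .nil)) .nil)) (.cons 224 (.leaf 200 1604 (.cons 296 (.cons 201 (.leaf 225 1605 (.cons 295 (.leaf 319 1790 (.cons 294 (.leaf 293 2153 (.cons 270 (.leaf 269 2155 (.cons 271 (.leaf 298 2160 (.cons 246 (.leaf 245 1963 (.cons 198 (.leaf 222 1588 (.cons 318 (.leaf 317 2346 (.cons 342 (.leaf 366 2165 (.leaf 247 1973 .nil)) .nil)) .nil)) .nil)) .nil)) .nil)) .nil)) .nil)) .nil)) (.cons 295 (.leaf 319 1790 (.cons 294 (.leaf 293 2153 (.cons 270 (.leaf 269 2155 (.cons 271 (.leaf 298 2160 (.cons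 245 (.leaf 246 1963 (.cons 249 (.leaf 250 1969 (.cons 318 (.leaf 317 2346 (.cons 342 (.leaf 366 2165 (.leaf 247 1973 .nil)) .nil)) .nil)) .nil)) .nil)) .nil)) .nil)) .nil)) (.cons 225 (.leaf 201 1605 (.cons 249 (.leaf 320 1797 (.cons 226 (.leaf 202 1613 (.cons 227 (.leaf 247 1786 (.leaf 228 1794 .nil)) .nil)) .nil)) .nil)) (.cons 201 (.leaf 225 1605 (.cons 319 (.leaf 295 1790 (.cons 320 (.leaf 343 1982 (.cons 344 (.leaf 249 1989 (.leaf 368 2181 .nil)) .nil)) .nil)) .nil)) .nil)))) .nil)) (.cons 321 (.leaf 345 1991 (.cons 249 (.cons 226 (.leaf 250 1805 (.cons 225 (.leaf 202 1613 (.cons 320 (.leaf 296 1797 (.leaf 344 1990 .nil)) .nil)) .nil)) (.cons 226 (.leaf 250 1805 (.cons 225 (.leaf 202 1613 (.cons 322 (.leaf 298 1804 (.leaf 346 1996 .nil)) .nil)) .nil)) (.cons 322 (.leaf 346 1996 (.cons 225 (.leaf 298 1804 (.cons 201 (.leaf 177 1414 (.leaf 296 1606 .nil)) .nil)) .nil)) (.cons 250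 (.leaf 226 1805 (.cons 251 (.leaf 271 1978 (.leaf 252 1986 .nil)) .nil)) .nil)))) .nil)) (.cons 224 (.leaf 200 1604 (.cons 321 (.leaf 345 1991 (.leaf 249 1799 .nil)) .nil)) .nil)))
noncomputable def t159 : T := .cons 274 (.leaf 247 1979 (.cons 251 (.leaf 252 1985 (.cons 299 (.leaf 300 2176 (.cons 271 (.leaf 250 1977 (.leaf 298 2168 .nil)) .nil)) .nil)) .nil)) (.cons 297 t158 (.cons 274 (.cons 251 (.leaf 252 1985 (.cons 299 (.leaf 300 2176 (.cons 271 (.leaf 250 1977 (.leaf 298 2168 .nil)) .nil)) .nil)) (.cons 295 (.leaf 296 2170 (.cons 271 (.leaf 294 2162 (.cons 299 (.leaf 300 2176 (.leaf 298 2168 .nil)) .nil)) .nil)) (.cons 251 (.leaf 252 1985 (.cons 271 (.leaf 250 1977 (.cons 295 (.leaf 296 2170 (.leaf 294 2162 .nil)) .nil)) .nil)) (.cons 296 (.leaf 295 2170 (.cons 299 (.leaf 300 2176 (.cons 251 (.leaf 252 1985 (.cons 323 (.cons 250 (.leaf 226 1815 (.leaf 347 2007 .nil)) (.cons 322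 (.leaf 346 2006 (.cons 324 (.leaf 348 2012 (.cons 297 (.leaf 298 2368 (.leaf 321 2371 .nil)) .nil)) .nil)) .nil)) .nil)) .nil)) .nil)) .nil)))) (.cons 274 (.leaf 247 1979 (.cons 296 (.leaf 295 2170 (.cons 299 (.leaf 300 2176 (.cons 251 (.leaf 252 1985 (.cons 323 (.cons 250 (.leaf 226 1815 (.leaf 347 2007 .nil)) (.cons 322 (.leaf 346 2006 (.cons 324 (.leaf 348 2012 (.cons 297 (.leaf 298 2368 (.leaf 321 2371 .nil)) .nil)) .nil)) .nil)) .nil)) .nil)) .nil)) .nil)) (.cons 274 (.leaf 247 1979 (.cons 295 (.leaf 296 2170 (.cons 271 (.leaf 294 2162 (.cons 299 (.leaf 300 2176 (.leaf 298 2168 .nil)) .nil)) .nil)) .nil)) (.cons 274 (.leaf 247 1979 (.cons 296 (.leaf 295 2170 (.cons 299 (.leaf 300 2176 (.cons 251 (.leaf 252 1985 (.cons 323 (.cons 250 (.leaf 226 1815 (.leaf 347 2007 .nil)) (.cons 322 (.leaf 346 2006 (.cons 324 (.leaf 348 2012 (.cons 321 (.leaf 297 2371 (.cons 345 (.leaf 320 1988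 (.leaf 344 2562 .nil)) .nil)) .nil)) .nil)) .nil)) .nil)) .nil)) .nil)) .nil)) .nil)))))
noncomputable def t160 : T := .cons 295 (.leaf 274 2170 (.cons 224 (.leaf 319 1790 (.cons 200 (.leaf 271 1598 (.leaf 297 1604 .nil)) .nil)) .nil)) (.cons 320 (.cons 319 (.leaf 343 1982 (.cons 321 (.leaf 345 1988 (.cons 224 (.leaf 297 1796 (.cons 199 (.leaf 223 1599 (.cons 200 (.leaf 175 1407 (.cons 249 (.leaf 225 1797 (.leaf 344 1989 .nil)) .nil)) .nil)) .nil)) .nil)) .nil)) (.cons 319 (.leaf 343 1982 (.cons 321 (.leaf 345 1988 (.cons 224 (.leaf 297 1796 (.cons 199 (.leaf 223 1599 (.cons 200 (.leaf 175 1407 (.cons 201 (.leaf 177 1413 (.leaf 225 1605 .nil)) .nil)) .nil)) .nil)) .nil)) .nil)) (.cons 249 (.leaf 225 1797 (.leaf 344 1989 .nil)) (.cons 344 (.leaf 249 1989 (.cons 343 (.leaf 319 1982 (.leaf 367 2174 .nil)) .nil)) .nil)))) (.cons 295 (.leaf 274 2170 (.cons 224 (.leaf 319 1790 (.cons 199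 (.leaf 223 1599 (.cons 200 (.leaf 175 1407 (.leaf 271 1598 .nil)) .nil)) .nil)) .nil)) (.cons 295 (.leaf 274 2170 (.cons 294 (.leaf 293 2153 (.cons 297 (.cons 270 (.leaf 269 2155 (.cons 271 (.leaf 298 2160 (.cons 249 (.leaf 250 1969 (.cons 320 (.leaf 225 1797 (.leaf 344 1989 .nil)) .nil)) .nil)) .nil)) (.cons 321 (.leaf 345 1991 (.leaf 322 2352 .nil)) .nil)) .nil)) .nil)) .nil)))
noncomputable def t161 : T := .cons 200 (.leaf 297 1604 (.cons 175 (.leaf 199 1407 (.cons 201 (.leaf 177 1413 (.cons 296 (.leaf 225 1605 (.cons 319 (.leaf 295 1790 (.cons 320 (.leaf 343 1982 (.cons 176 (.leaf 151 1215 (.leaf 249 1412 .nil)) .nil)) .nil)) .nil)) .nil)) .nil)) .nil)) (.cons 296 t96 (.cons 200 (.cons 175 (.leaf 199 1407 (.cons 201 (.leaf 177 1413 (.cons 296 (.leaf 225 1605 (.cons 319 (.leaf 295 1790 (.cons 320 (.leaf 343 1982 (.cons 176 (.leaf 151 1215 (.leaf 249 1412 .nil)) .nil)) .nil)) .nil))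 .nil)) .nil)) (.cons 199 (.leaf 175 1407 (.cons 201 (.leaf 177 1413 (.cons 296 (.leaf 223 1599 (.leaf 225 1605 .nil)) .nil)) .nil)) (.cons 175 (.leaf 199 1407 (.cons 176 (.leaf 151 1215 (.leaf 249 1412 .nil)) .nil)) (.cons 176 (.leaf 249 1412 (.cons 177 (.leaf 201 1413 (.leaf 153 1221 .nil)) .nil)) .nil)))) (.cons 200 (.leaf 297 1604 (.cons 175 (.leaf 199 1407 (.cons 176 (.leaf 151 1215 (.leaf 249 1412 .nil)) .nil)) .nil)) (.cons 200 (.leaf 297 1604 (.cons 175 (.leaf 199 1407 (.cons 201 (.leaf 177 1413 (.cons 295 (.leaf 271 1598 (.cons 296 (.leaf 225 1605 (.leaf 319 1790 .nil)) .nil)) .nil)) .nil)) .nil)) (.cons 200 (.leaf 297 1604 (.cons 176 (.leaf 249 1412 (.cons 177 (.leaf 201 1413 (.leaf 153 1221 .nil)) .nil)) .nil)) .nil)))))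
noncomputable def t162 : T := .cons 247 (.leaf 274 1979 (.cons 246 (.leaf 245 1960 (.cons 249 (.cons 225 (.leaf 226 1777 (.cons 201 (.leaf 177 1414 (.leaf 296 1606 .nil)) .nil)) (.cons 222 (.leaf 221 1771 (.cons 223 (.leaf 250 1779 (.cons 199 (.leaf 175 1404 (.cons 296 (.leaf 224 1599 (.leaf 271 1596 .nil)) .nil)) .nil)) .nil)) (.cons 270 (.leaf 269 1962 (.cons 271 (.leaf 250 1969 (.cons 293 (.leaf 294 2154 (.cons 297 (.leaf 298 2160 (.cons 321 (.leaf 345 1991 (.leaf 224 1799 .nil)) .nil)) .nil)) .nil)) .nil)) .nil))) .nil)) .nil)) (.cons 224 t161 (.cons 296 t160 (.cons 274 (.leaf 247 1979 (.cons 299 (.leaf 300 2176 (.cons 271 (.leaf 298 2168 (.cons 294 (.leaf 295 2162 (.cons 270 (.leaf 293 2154 (.cons 249 (.leaf 269 1961 (.leaf 250 1969 .nil)) .nil)) .nil)) .nil)) .nil)) .nil)) (.cons 274 (.leaf 247 1979 (.cons 295 (.leaf 296 2170 (.cons 271 (.leaf 294 2162 (.cons 299 (.leaf 300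 2176 (.leaf 298 2168 .nil)) .nil)) .nil)) .nil)) (.cons 274 (.leaf 247 1979 (.cons 296 (.leaf 295 2170 (.cons 299 (.leaf 300 2176 (.cons 224 t0 .nil)) .nil)) .nil)) (.cons 274 (.leaf 247 1979 (.cons 296 (.leaf 295 2170 (.cons 299 (.leaf 300 2176 (.cons 224 (.cons 199 (.leaf 223 1599 (.cons 321 (.leaf 297 1796 (.cons 201 (.leaf 225 1605 (.cons 320 (.leaf 345 1988 (.cons 343 (.leaf 319 1982 (.cons 344 (.leaf 249 1989 (.leaf 367 2174 .nil)) .nil)) .nil)) .nil)) .nil)) .nil)) (.cons 225 (.leaf 201 1605 (.cons 320 (.leaf 249 1797 (.cons 321 (.leaf 345 1988 (.cons 199 (.leaf 223 1599 (.cons 200 (.leaf 175 1407 (.cons 226 (.leaf 227 1595 (.cons 250 (.leaf 202 1620 (.cons 323 (.leaf 347 2007 (.cons 343 (.leaf 319 1982 (.cons 344 (.leaf 367 2174 (.leaf 322 2554 .nil)) .nil)) .nil)) .nil)) .nil)) .nil)) .nil)) .nil)) .nil)) .nil)) (.cons 225 (.leaf 201 1605 (.cons 199 (.leaf 223 1599 (.cons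 200 (.leaf 175 1407 (.leaf 297 1604 .nil)) .nil)) .nil)) (.cons 297 (.leaf 200 1604 (.leaf 321 1796 .nil)) .nil)))) .nil)) .nil)) .nil)) .nil))))))
noncomputable def t163 : T := .cons 202 (.leaf 299 1620 (.cons 201 (.leaf 177 1423 (.cons 203 (.leaf 179 1429 (.cons 298 (.leaf 225 1615 (.leaf 227 1621 .nil)) .nil)) .nil)) .nil)) (.cons 298 (.cons 203 (.leaf 227 1621 (.cons 299 (.leaf 323 1812 (.cons 321 (.leaf 297 1806 (.cons 322 (.leaf 345 1998 (.cons 346 (.leaf 251 2005 (.leaf 370 2197 .nil)) .nil)) .nil)) .nil)) .nil)) (.cons 201 (.leaf 225 1615 (.cons 299 (.leaf 323 1812 (.cons 321 (.leaf 297 1806 (.cons 322 (.leaf 345 1998 (.cons 346 (.leaf 251 2005 (.leaf 370 2197 .nil)) .nil)) .nil)) .nil)) .nil)) (.cons 227 (.leaf 203 1621 (.cons 224 (.leaf 225 1786 (.cons 321 (.leaf 297 1806 (.cons 322 (.leaf 251 1813 (.leaf 345 1998 .nil)) .nil)) .nil)) .nil)) (.cons 227 (.leaf 203 1621 (.cons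 225 (.leaf 224 1786 (.leaf 201 1615 .nil)) .nil)) .nil)))) (.cons 298 (.cons 227 (.leaf 203 1621 (.cons 224 (.leaf 225 1786 (.cons 321 (.leaf 297 1806 (.cons 322 (.leaf 251 1813 (.leaf 345 1998 .nil)) .nil)) .nil)) .nil)) (.cons 201 (.leaf 225 1615 (.cons 177 (.leaf 202 1423 (.cons 200 (.leaf 224 1413 (.cons 321 (.leaf 297 1806 (.cons 322 (.leaf 345 1998 (.cons 346 (.leaf 251 2005 (.cons 347 (.leaf 323 2004 (.leaf 371 2196 .nil)) .nil)) .nil)) .nil)) .nil)) .nil)) .nil)) (.cons 227 (.leaf 203 1621 (.cons 321 (.leaf 297 1806 (.cons 322 (.leaf 251 1813 (.leaf 345 1998 .nil)) .nil)) .nil)) (.cons 227 (.leaf 203 1621 (.cons 225 (.leaf 224 1786 (.leaf 201 1615 .nil)) .nil)) .nil)))) (.cons 202 (.leaf 299 1620 (.cons 177 (.leaf 201 1423 (.cons 178 (.leaf 251 1428 (.leaf 153 1231 .nil)) .nil)) .nil)) (.cons 299 (.leaf 202 1620 (.cons 323 (.leaf 251 1815 (.leaf 347 2007 .nil)) .nil)) .nil))))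
noncomputable def t164 : T := .cons 299 (.leaf 202 1620 (.cons 323 (.leaf 251 1815 (.leaf 347 2007 .nil)) .nil)) (.cons 298 (.cons 201 (.leaf 225 1615 (.cons 297 (.leaf 321 1806 (.cons 296 (.leaf 295 2169 (.cons 299 (.leaf 271 2171 (.leaf 323 1812 .nil)) .nil)) .nil)) .nil)) (.cons 227 (.leaf 203 1621 (.cons 224 (.leaf 225 1786 (.cons 321 (.leaf 297 1806 (.cons 322 (.leaf 251 1813 (.leaf 345 1998 .nil)) .nil)) .nil)) .nil)) (.cons 203 (.leaf 227 1621 (.cons 297 (.leaf 321 1806 (.cons 296 (.leaf 295 2169 (.cons 299 (.leaf 271 2171 (.leaf 323 1812 .nil)) .nil)) .nil)) .nil)) (.cons 227 (.leaf 203 1621 (.cons 225 (.leaf 224 1786 (.leaf 201 1615 .nil)) .nil)) .nil)))) (.cons 298 (.cons 203 (.leaf 227 1621 (.cons 179 (.leaf 202 1429 (.cons 321 (.leaf 297 1806 (.cons 322 (.leaf 345 1998 (.cons 346 (.leaf 251 2005 (.cons 347 (.leaf 323 2004 (.leaf 371 2196 .nil)) .nil)) .nil)) .nil)) .nil))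 .nil)) (.cons 201 (.leaf 225 1615 (.cons 177 (.leaf 202 1423 (.cons 200 (.leaf 224 1413 (.cons 321 (.leaf 297 1806 (.cons 322 (.leaf 345 1998 (.cons 346 (.leaf 251 2005 (.cons 347 (.leaf 323 2004 (.leaf 371 2196 .nil)) .nil)) .nil)) .nil)) .nil)) .nil)) .nil)) (.cons 227 (.leaf 203 1621 (.cons 225 (.leaf 224 1786 (.leaf 201 1615 .nil)) .nil)) .nil))) (.cons 299 (.leaf 202 1620 (.cons 323 (.leaf 347 2007 (.leaf 298 1812 .nil)) .nil)) (.cons 202 (.leaf 299 1620 (.cons 201 (.leaf 177 1423 (.cons 203 (.leaf 179 1429 (.cons 298 (.leaf 225 1615 (.leaf 227 1621 .nil)) .nil)) .nil)) .nil)) .nil))))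
noncomputable def t165 : T := .cons 273 (.leaf 274 1979 (.cons 246 (.leaf 245 1960 (.cons 249 (.cons 270 (.leaf 269 1962 (.cons 271 (.leaf 250 1969 (.cons 293 (.leaf 294 2154 (.cons 297 (.leaf 298 2160 (.cons 321 (.leaf 345 1991 (.leaf 224 1799 .nil)) .nil)) .nil)) .nil)) .nil)) (.cons 225 (.leaf 226 1777 (.cons 201 (.leaf 177 1414 (.leaf 296 1606 .nil)) .nil)) .nil)) .nil)) .nil)) (.cons 249 t33 (.cons 246 t104 (.cons 273 (.leaf 274 1979 (.cons 246 (.leaf 245 1960 (.cons 224 t30 .nil)) .nil)) (.cons 274 (.leaf 273 1979 (.cons 250 (.leaf 249 1976 (.cons 226 t164 .nil)) .nil)) (.cons 274 (.leaf 273 1979 (.cons 250 (.leaf 249 1976 (.cons 226 t163 .nil)) .nil)) (.cons 273 (.leaf 274 1979 (.cons 246 (.leaf 245 1960 (.cons 249 (.cons 225 (.leaf 226 1777 (.cons 201 (.leaf 177 1414 (.leaf 296 1606 .nil)) .nil)) (.cons 222 (.leaf 221 1771 (.cons 223 (.leaf 250 1779 (.cons 199 (.leaf 175 1404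 (.cons 269 (.leaf 270 1962 (.cons 271 (.leaf 296 1596 (.cons 198 (.leaf 174 1396 (.leaf 295 1591 .nil)) .nil)) .nil)) .nil)) .nil)) .nil)) (.cons 222 (.leaf 221 1771 (.cons 223 (.leaf 250 1779 (.cons 199 (.leaf 175 1404 (.cons 270 (.leaf 269 1962 (.leaf 294 1589 .nil)) .nil)) .nil)) .nil)) .nil))) .nil)) .nil)) (.cons 273 (.leaf 274 1979 (.cons 246 (.leaf 245 1960 (.cons 249 (.cons 270 (.leaf 269 1962 (.cons 271 (.leaf 250 1969 (.cons 293 (.leaf 294 2154 (.cons 297 (.leaf 298 2160 (.cons 321 (.leaf 345 1991 (.leaf 224 1799 .nil)) .nil)) .nil)) .nil)) .nil)) (.cons 222 (.leaf 221 1771 (.cons 223 (.leaf 250 1779 (.cons 199 (.leaf 175 1404 (.cons 296 (.leaf 224 1599 (.leaf 271 1596 .nil)) .nil)) .nil)) .nil)) (.cons 222 (.leaf 221 1771 (.cons 223 (.leaf 250 1779 (.cons 199 (.leaf 175 1404 (.cons 270 (.leaf 269 1962 (.leaf 294 1589 .nil)) .nil)) .nil)) .nil)) (.cons 270 (.leaf 269 1962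 (.cons 222 (.leaf 221 1771 (.cons 271 (.cons 198 (.leaf 174 1396 (.leaf 295 1588 .nil)) (.cons 297 (.leaf 298 2160 (.cons 224 (.leaf 200 1604 (.leaf 321 1799 .nil)) .nil)) .nil)) .nil)) .nil)) .nil)))) .nil)) .nil)) .nil)))))))
noncomputable def t166 : T := .cons 202 (.leaf 299 1620 (.cons 177 (.leaf 201 1423 (.cons 203 (.leaf 179 1429 (.cons 298 (.leaf 227 1621 (.cons 178 (.leaf 251 1428 (.leaf 153 1231 .nil)) .nil)) .nil)) .nil)) .nil)) (.cons 298 (.cons 201 (.leaf 225 1615 (.cons 203 (.leaf 227 1621 (.cons 323 (.leaf 299 1812 (.cons 322 (.leaf 347 2004 (.cons 345 (.leaf 321 1998 (.cons 346 (.leaf 251 2005 (.leaf 369 2190 .nil)) .nil)) .nil)) .nil)) .nil)) .nil)) (.cons 201 (.leaf 225 1615 (.cons 297 (.leaf 321 1806 (.cons 296 (.leaf 295 2169 (.cons 227 (.leaf 203 1621 (.cons 223 (.leaf 320 1791 (.cons 199 (.leaf 175 1404 (.leaf 224 1599 .nil)) .nil)) .nil)) .nil)) .nil)) .nil))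 (.cons 201 (.leaf 225 1615 (.cons 297 (.leaf 321 1806 (.cons 296 (.leaf 295 2169 (.cons 299 (.leaf 323 1812 (.cons 320 (.leaf 223 1791 (.leaf 319 2362 .nil)) .nil)) .nil)) .nil)) .nil)) (.cons 203 (.leaf 227 1621 (.cons 297 (.leaf 321 1806 (.cons 296 (.leaf 295 2169 (.cons 223 (.leaf 320 1791 (.cons 199 (.leaf 175 1404 (.leaf 224 1599 .nil)) .nil)) .nil)) .nil)) .nil)) (.cons 227 (.leaf 203 1621 (.cons 225 (.leaf 224 1786 (.leaf 201 1615 .nil)) .nil)) .nil))))) (.cons 298 (.cons 203 (.leaf 227 1621 (.cons 297 (.leaf 321 1806 (.cons 296 (.leaf 295 2169 (.cons 223 (.leaf 320 1791 (.cons 199 (.leaf 175 1404 (.leaf 224 1599 .nil)) .nil)) .nil)) .nil)) .nil)) (.cons 201 (.leaf 225 1615 (.cons 297 (.leaf 321 1806 (.cons 296 (.leaf 295 2169 (.cons 202 (.leaf 177 1423 (.cons 178 (.leaf 251 1428 (.cons 179 (.leaf 203 1429 (.leaf 155 1237 .nil)) .nil)) .nil)) .nil)) .nil)) .nil)) (.cons 201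 (.leaf 225 1615 (.cons 177 (.leaf 202 1423 (.cons 321 (.leaf 297 1806 (.cons 322 (.leaf 345 1998 (.cons 251 (.leaf 346 2005 (.leaf 227 1813 .nil)) .nil)) .nil)) .nil)) .nil)) (.cons 227 (.leaf 203 1621 (.cons 225 (.leaf 224 1786 (.leaf 201 1615 .nil)) .nil)) .nil)))) (.cons 202 (.leaf 299 1620 (.cons 177 (.leaf 201 1423 (.cons 178 (.leaf 251 1428 (.leaf 153 1231 .nil)) .nil)) .nil)) (.cons 202 (.leaf 299 1620 (.cons 177 (.leaf 201 1423 (.cons 178 (.leaf 153 1231 (.cons 179 (.leaf 203 1429 (.leaf 155 1237 .nil)) .nil)) .nil)) .nil)) (.cons 299 (.leaf 202 1620 (.cons 323 (.leaf 251 1815 (.leaf 347 2007 .nil)) .nil)) .nil)))))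
noncomputable def t167 : T := .cons 202 (.leaf 299 1620 (.cons 177 (.leaf 201 1423 (.cons 203 (.leaf 179 1429 (.cons 298 (.leaf 227 1621 (.cons 178 (.leaf 251 1428 (.leaf 153 1231 .nil)) .nil)) .nil)) .nil)) .nil)) (.cons 298 (.cons 227 (.leaf 203 1621 (.cons 224 (.leaf 225 1786 (.cons 321 (.leaf 297 1806 (.cons 322 (.leaf 251 1813 (.leaf 345 1998 .nil)) .nil)) .nil)) .nil)) (.cons 201 (.leaf 225 1615 (.cons 177 (.leaf 202 1423 (.cons 297 (.leaf 321 1806 (.cons 296 (.leaf 295 2169 (.cons 223 (.leaf 320 1791 (.cons 199 (.leaf 175 1404 (.leaf 224 1599 .nil)) .nil)) .nil)) .nil)) .nil)) .nil)) (.cons 203 (.leaf 227 1621 (.cons 202 (.leaf 179 1429 (.cons 177 (.leaf 201 1423 (.cons 178 (.leaf 251 1428 (.leaf 153 1231 .nil)) .nil)) .nil)) .nil)) .nil))) (.cons 298 (.cons 203 (.leaf 227 1621 (.cons 297 (.leaf 321 1806 (.cons 299 (.leaf 323 1812 (.cons 296 (.leaf 295 2169 (.leaf 271 2171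 .nil)) .nil)) .nil)) .nil)) (.cons 227 (.leaf 203 1621 (.cons 224 (.leaf 225 1786 (.cons 321 (.leaf 297 1806 (.cons 322 (.leaf 251 1813 (.leaf 345 1998 .nil)) .nil)) .nil)) .nil)) (.cons 323 (.leaf 299 1812 (.cons 297 (.leaf 321 1806 (.cons 296 (.leaf 295 2169 (.cons 223 (.leaf 320 1791 (.cons 199 (.leaf 175 1404 (.leaf 224 1599 .nil)) .nil)) .nil)) .nil)) .nil)) (.cons 227 (.leaf 203 1621 (.cons 225 (.leaf 224 1786 (.leaf 201 1615 .nil)) .nil)) .nil)))) (.cons 202 (.leaf 299 1620 (.cons 177 (.leaf 201 1423 (.cons 178 (.leaf 251 1428 (.leaf 153 1231 .nil)) .nil)) .nil)) (.cons 202 (.leaf 299 1620 (.cons 177 (.leaf 201 1423 (.cons 178 (.leaf 153 1231 (.cons 179 (.leaf 203 1429 (.leaf 155 1237 .nil)) .nil)) .nil)) .nil)) (.cons 299 (.leaf 202 1620 (.cons 323 (.leaf 251 1815 (.leaf 347 2007 .nil)) .nil)) .nil)))))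
noncomputable def t168 : T := .leaf 245 1960 (.cons 249 (.cons 225 (.leaf 226 1777 (.cons 177 (.leaf 201 1414 (.cons 222 (.leaf 221 1771 (.cons 270 (.leaf 269 1962 (.cons 250 (.leaf 271 1969 (.leaf 223 1779 .nil)) .nil)) .nil)) .nil)) .nil)) (.cons 221 (.leaf 222 1771 (.cons 226 (.leaf 225 1777 (.cons 250 (.leaf 227 1785 (.cons 251 (.leaf 271 1978 (.leaf 252 1986 .nil)) .nil)) .nil)) .nil)) (.cons 222 (.leaf 221 1771 (.cons 225 (.leaf 226 1777 (.cons 201 (.leaf 177 1414 (.cons 202 (.leaf 178 1421 (.cons 223 (.leaf 224 1585 (.cons 270 (.leaf 269 1962 (.cons 199 (.leaf 175 1404 (.leaf 294 1589 .nil)) .nil)) .nil)) .nil)) .nil)) .nil)) .nil)) (.cons 225 (.leaf 226 1777 (.cons 177 (.leaf 201 1414 (.cons 270 (.leaf 269 1962 (.cons 271 (.leaf 250 1969 (.cons 294 (.leaf 293 2154 (.cons 223 (.leaf 199 1590 (.leaf 318 1781 .nil)) .nil)) .nil)) .nil)) .nil)) .nil)) (.cons 270 (.leaf 269 1962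 (.cons 271 (.leaf 250 1969 (.cons 293 (.leaf 294 2154 (.cons 297 (.leaf 298 2160 (.cons 321 (.leaf 345 1991 (.leaf 224 1799 .nil)) .nil)) .nil)) .nil)) .nil)) .nil))))) .nil)
noncomputable def t169 : T := .cons 199 (.leaf 175 1404 (.cons 296 (.leaf 224 1599 (.leaf 271 1596 .nil)) .nil)) (.cons 296 (.leaf 320 1791 (.cons 224 (.cons 295 (.leaf 319 1790 (.cons 294 (.leaf 293 2153 (.cons 225 (.leaf 201 1605 (.leaf 226 1778 .nil)) .nil)) .nil)) (.cons 295 (.leaf 319 1790 (.cons 294 (.leaf 293 2153 (.cons 318 (.leaf 270 1781 (.leaf 271 1782 .nil)) .nil)) .nil)) (.cons 225 (.leaf 201 1605 (.leaf 226 1778 .nil)) .nil))) .nil)) (.cons 199 (.leaf 175 1404 (.cons 271 (.cons 294 (.leaf 270 1590 (.cons 295 (.leaf 318 1782 (.cons 319 (.leaf 343 1981 (.leaf 224 1789 .nil)) .nil)) .nil)) (.cons 198 (.leaf 174 1399 (.cons 295 (.leaf 222 1591 (.cons 319 (.leaf 343 1981 (.leaf 224 1789 .nil)) .nil))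 .nil)) (.cons 270 (.leaf 294 1590 (.cons 198 (.leaf 174 1399 (.cons 269 (.leaf 268 1953 (.cons 293 (.leaf 292 2146 (.leaf 222 1582 .nil)) .nil)) .nil)) .nil)) .nil))) .nil)) (.cons 199 (.leaf 175 1404 (.cons 296 (.leaf 224 1599 (.leaf 320 1791 .nil)) .nil)) (.cons 199 (.leaf 175 1404 (.cons 296 (.leaf 271 1596 (.leaf 320 1791 .nil)) .nil)) .nil))))
noncomputable def t170 : T := .cons 245 (.leaf 273 1960 (.cons 244 (.leaf 271 1952 (.cons 268 (.leaf 269 1954 (.leaf 267 1946 .nil)) .nil)) .nil)) (.cons 249 (.cons 221 (.leaf 222 1771 (.cons 225 (.leaf 226 1777 (.cons 201 (.leaf 177 1414 (.cons 296 (.leaf 224 1605 (.leaf 273 1606 .nil)) .nil)) .nil)) .nil)) (.cons 222 (.leaf 221 1771 (.cons 223 (.leaf 250 1779 (.cons 270 (.leaf 269 1962 (.cons 199 (.leaf 175 1404 (.leaf 294 1589 .nil)) .nil)) .nil)) .nil)) (.cons 270 (.leaf 269 1962 (.cons 226 (.leaf 225 1777 (.cons 250 (.leaf 227 1785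 (.leaf 271 1970 .nil)) .nil)) .nil)) .nil))) (.cons 245 (.cons 244 (.leaf 271 1952 (.cons 268 (.leaf 269 1954 (.leaf 267 1946 .nil)) .nil)) (.cons 220 (.leaf 221 1763 (.cons 225 (.leaf 224 1769 (.cons 249 (.leaf 226 1777 (.cons 269 (.leaf 268 1954 (.leaf 270 1962 .nil)) .nil)) .nil)) .nil)) (.cons 220 (.leaf 221 1763 (.cons 244 (.leaf 271 1952 (.leaf 219 1755 .nil)) .nil)) .nil))) (.cons 245 (.leaf 273 1960 (.cons 220 (.leaf 221 1763 (.cons 225 (.leaf 224 1769 (.cons 249 (.leaf 226 1777 (.cons 269 (.leaf 268 1954 (.leaf 270 1962 .nil)) .nil)) .nil)) .nil)) .nil)) (.cons 245 (.leaf 273 1960 (.cons 220 (.leaf 221 1763 (.cons 244 (.leaf 271 1952 (.leaf 219 1755 .nil)) .nil)) .nil)) .nil))))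
noncomputable def t171 : T := .cons 273 (.leaf 274 1979 (.cons 246 (.leaf 245 1960 (.cons 249 (.cons 222 (.leaf 221 1771 (.cons 225 (.leaf 226 1777 (.cons 201 (.leaf 177 1414 (.leaf 296 1606 .nil)) .nil)) .nil)) (.cons 222 (.leaf 221 1771 (.cons 223 (.leaf 250 1779 (.cons 199 (.leaf 175 1404 (.cons 296 (.leaf 224 1599 (.leaf 271 1596 .nil)) .nil)) .nil)) .nil)) (.cons 270 (.leaf 269 1962 (.cons 271 (.leaf 250 1969 (.cons 293 (.leaf 294 2154 (.cons 297 (.leaf 298 2160 (.cons 321 (.leaf 345 1991 (.leaf 224 1799 .nil)) .nil)) .nil)) .nil)) .nil)) .nil))) .nil)) .nil)) (.cons 223 (.cons 296 (.leaf 320 1791 (.cons 199 (.leaf 175 1404 (.leaf 224 1599 .nil)) .nil)) (.cons 199 (.leaf 175 1404 (.cons 271 (.cons 270 (.leaf 294 1590 (.cons 269 (.leaf 249 1961 (.leaf 268 1953 .nil)) .nil)) (.cons 198 (.leaf 174 1399 (.cons 295 (.leaf 222 1591 (.cons 319 (.leaf 343 1981 (.leaf 224 1789 .nil))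 .nil)) .nil)) .nil)) .nil)) (.cons 296 (.leaf 320 1791 (.cons 224 (.cons 225 (.leaf 201 1605 (.cons 226 (.leaf 227 1786 (.leaf 246 1778 .nil)) .nil)) (.cons 295 (.leaf 319 1790 (.cons 297 (.leaf 321 1796 (.cons 298 (.leaf 274 2169 (.cons 271 (.leaf 299 2171 (.leaf 270 2163 .nil)) .nil)) .nil)) .nil)) .nil)) .nil)) (.cons 296 (.leaf 320 1791 (.cons 199 (.leaf 175 1404 (.leaf 271 1596 .nil)) .nil)) .nil)))) (.cons 246 t170 (.cons 273 (.leaf 274 1979 (.cons 246 (.leaf 245 1960 (.cons 223 t169 .nil)) .nil)) (.cons 273 (.leaf 274 1979 (.cons 246 t168 .nil)) (.cons 274 (.leaf 273 1979 (.cons 250 (.leaf 249 1976 (.cons 226 t167 .nil)) .nil)) (.cons 273 (.leaf 274 1979 (.cons 246 (.leaf 245 1960 (.cons 249 (.cons 270 (.leaf 269 1962 (.cons 271 (.leaf 250 1969 (.cons 293 (.leaf 294 2154 (.cons 297 (.leaf 298 2160 (.cons 321 (.leaf 345 1991 (.leaf 224 1799 .nil)) .nil)) .nil)) .nil)) .nil))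 (.cons 221 (.leaf 222 1771 (.cons 225 (.leaf 226 1777 (.cons 201 (.leaf 177 1414 (.leaf 296 1606 .nil)) .nil)) .nil)) .nil)) .nil)) .nil)) (.cons 274 (.leaf 273 1979 (.cons 250 (.leaf 249 1976 (.cons 226 t166 .nil)) .nil)) (.cons 273 (.leaf 274 1979 (.cons 246 (.leaf 245 1960 (.cons 249 (.cons 221 (.leaf 222 1771 (.cons 270 (.leaf 269 1962 (.cons 271 (.leaf 250 1969 (.cons 293 (.leaf 294 2154 (.cons 297 (.leaf 298 2160 (.cons 321 (.leaf 345 1991 (.cons 320 (.leaf 344 1990 (.cons 296 (.leaf 223 1791 (.leaf 225 1797 .nil)) .nil)) .nil)) .nil)) .nil)) .nil)) .nil)) .nil)) (.cons 221 (.leaf 222 1771 (.cons 226 (.leaf 225 1777 (.cons 250 (.leaf 227 1785 (.cons 251 (.leaf 271 1978 (.leaf 252 1986 .nil)) .nil)) .nil)) .nil)) (.cons 221 (.leaf 222 1771 (.cons 270 (.leaf 269 1962 (.cons 250 (.leaf 271 1969 (.cons 227 (.leaf 226 1785 (.cons 251 (.leaf 252 1986 (.leaf 228 1793 .nil)) .nil))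 .nil)) .nil)) .nil)) (.cons 221 (.leaf 222 1771 (.cons 225 (.leaf 226 1777 (.cons 201 (.leaf 177 1414 (.leaf 296 1606 .nil)) .nil)) .nil)) (.cons 270 (.leaf 269 1962 (.cons 250 (.leaf 271 1969 (.cons 227 (.leaf 226 1785 (.cons 251 (.leaf 252 1986 (.leaf 228 1793 .nil)) .nil)) .nil)) .nil)) .nil))))) .nil)) .nil)) (.cons 273 (.leaf 274 1979 (.cons 246 (.leaf 245 1960 (.cons 249 (.cons 270 (.leaf 269 1962 (.cons 271 (.leaf 250 1969 (.cons 293 (.leaf 294 2154 (.cons 297 (.leaf 298 2160 (.cons 321 (.leaf 345 1991 (.leaf 224 1799 .nil)) .nil)) .nil)) .nil)) .nil)) (.cons 222 (.leaf 221 1771 (.cons 223 (.leaf 250 1779 (.cons 199 (.leaf 175 1404 (.cons 296 (.leaf 224 1599 (.leaf 271 1596 .nil)) .nil)) .nil)) .nil)) (.cons 270 (.leaf 269 1962 (.cons 222 (.leaf 221 1771 (.cons 223 (.cons 294 (.leaf 318 1781 (.leaf 199 1589 .nil)) (.cons 294 (.leaf 318 1781 (.cons 293 (.leaf 271 2154 (.leaf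 317 1774 .nil)) .nil)) (.cons 199 (.leaf 175 1404 (.cons 296 (.leaf 224 1599 (.leaf 271 1596 .nil)) .nil)) .nil))) .nil)) .nil)) (.cons 222 (.leaf 221 1771 (.cons 223 (.leaf 250 1779 (.cons 199 (.leaf 175 1404 (.cons 270 (.leaf 269 1962 (.leaf 294 1589 .nil)) .nil)) .nil)) .nil)) .nil)))) .nil)) .nil)) .nil)))))))))
noncomputable def t172 : T := .cons 299 (.leaf 202 1620 (.cons 323 (.leaf 251 1815 (.leaf 347 2007 .nil)) .nil)) (.cons 298 (.cons 203 (.leaf 227 1621 (.cons 321 (.leaf 297 1806 (.cons 322 (.leaf 345 1998 (.cons 323 (.leaf 299 1812 (.leaf 347 2004 .nil)) .nil)) .nil)) .nil)) (.cons 323 (.leaf 299 1812 (.cons 201 (.leaf 225 1615 (.cons 321 (.leaf 297 1806 (.cons 322 (.leaf 345 1998 (.leaf 347 2004 .nil)) .nil)) .nil)) .nil)) (.cons 225 (.leaf 201 1615 (.cons 224 (.leaf 227 1786 (.cons 223 (.leaf 246 1778 (.leaf 251 1784 .nil)) .nil)) .nil)) .nil))) (.cons 298 (.cons 203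 (.leaf 227 1621 (.cons 202 (.leaf 179 1429 (.cons 177 (.leaf 201 1423 (.cons 178 (.leaf 251 1428 (.leaf 153 1231 .nil)) .nil)) .nil)) .nil)) (.cons 201 (.leaf 225 1615 (.cons 177 (.leaf 202 1423 (.cons 200 (.leaf 224 1413 (.cons 321 (.leaf 297 1806 (.cons 322 (.leaf 345 1998 (.cons 346 (.leaf 251 2005 (.cons 347 (.leaf 323 2004 (.leaf 371 2196 .nil)) .nil)) .nil)) .nil)) .nil)) .nil)) .nil)) (.cons 203 (.leaf 227 1621 (.cons 179 (.leaf 202 1429 (.cons 321 (.leaf 297 1806 (.cons 322 (.leaf 345 1998 (.cons 346 (.leaf 251 2005 (.cons 347 (.leaf 323 2004 (.leaf 371 2196 .nil)) .nil)) .nil)) .nil)) .nil)) .nil)) (.cons 201 (.leaf 225 1615 (.cons 202 (.leaf 177 1423 (.cons 203 (.leaf 179 1429 (.leaf 227 1621 .nil)) .nil)) .nil)) (.cons 227 (.leaf 203 1621 (.cons 224 (.leaf 225 1786 (.cons 321 (.leaf 297 1806 (.cons 322 (.leaf 251 1813 (.leaf 345 1998 .nil)) .nil)) .nil)) .nil)) .nil)))))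 (.cons 299 (.leaf 202 1620 (.cons 323 (.leaf 347 2007 (.leaf 298 1812 .nil)) .nil)) (.cons 202 (.leaf 299 1620 (.cons 201 (.leaf 177 1423 (.cons 203 (.leaf 179 1429 (.cons 298 (.leaf 225 1615 (.leaf 227 1621 .nil)) .nil)) .nil)) .nil)) .nil))))
noncomputable def t173 : T := .cons 202 (.leaf 299 1620 (.cons 201 (.leaf 177 1423 (.cons 203 (.leaf 179 1429 (.cons 298 (.leaf 225 1615 (.leaf 227 1621 .nil)) .nil)) .nil)) .nil)) (.cons 298 (.cons 201 (.leaf 225 1615 (.cons 227 (.leaf 203 1621 (.cons 322 (.leaf 251 1813 (.cons 323 (.leaf 299 1812 (.leaf 347 2004 .nil)) .nil)) .nil)) .nil)) (.cons 201 (.leaf 225 1615 (.cons 297 (.leaf 321 1806 (.cons 299 (.leaf 323 1812 (.cons 296 (.leaf 271 2171 (.cons 320 (.leaf 223 1791 (.leaf 319 2362 .nil)) .nil)) .nil)) .nil)) .nil)) (.cons 227 (.leaf 203 1621 (.cons 224 (.leaf 225 1786 (.cons 321 (.leaf 297 1806 (.cons 322 (.leaf 251 1813 (.leaf 345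 1998 .nil)) .nil)) .nil)) .nil)) (.cons 323 (.leaf 299 1812 (.cons 203 (.leaf 227 1621 (.cons 322 (.leaf 347 2004 (.cons 321 (.leaf 297 1806 (.leaf 345 1998 .nil)) .nil)) .nil)) .nil)) .nil)))) (.cons 298 (.cons 201 (.leaf 225 1615 (.cons 202 (.leaf 177 1423 (.cons 178 (.leaf 251 1428 (.cons 179 (.leaf 203 1429 (.leaf 155 1237 .nil)) .nil)) .nil)) .nil)) (.cons 201 (.leaf 225 1615 (.cons 202 (.leaf 177 1423 (.cons 178 (.leaf 251 1428 (.cons 179 (.leaf 155 1237 (.cons 180 (.leaf 181 1418 (.cons 199 (.leaf 200 1401 (.cons 223 (.leaf 175 1404 (.cons 296 (.leaf 224 1599 (.leaf 271 1596 .nil)) .nil)) .nil)) .nil)) .nil)) .nil)) .nil)) .nil)) (.cons 203 (.leaf 227 1621 (.cons 202 (.leaf 179 1429 (.cons 177 (.leaf 201 1423 (.cons 178 (.leaf 251 1428 (.leaf 153 1231 .nil)) .nil)) .nil)) .nil)) (.cons 227 (.leaf 203 1621 (.cons 224 (.leaf 225 1786 (.cons 321 (.leaf 297 1806 (.cons 322 (.leaf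 251 1813 (.leaf 345 1998 .nil)) .nil)) .nil)) .nil)) (.cons 201 (.leaf 225 1615 (.cons 202 (.leaf 177 1423 (.cons 203 (.leaf 179 1429 (.leaf 227 1621 .nil)) .nil)) .nil)) .nil))))) (.cons 202 (.leaf 299 1620 (.cons 177 (.leaf 201 1423 (.cons 178 (.leaf 251 1428 (.leaf 153 1231 .nil)) .nil)) .nil)) (.cons 299 (.leaf 202 1620 (.cons 323 (.leaf 251 1815 (.leaf 347 2007 .nil)) .nil)) .nil))))
noncomputable def t174 : T := .cons 224 (.cons 199 (.leaf 223 1599 (.cons 200 (.leaf 175 1407 (.cons 176 (.leaf 271 1406 (.cons 177 (.leaf 201 1413 (.leaf 153 1221 .nil)) .nil)) .nil)) .nil)) (.cons 225 (.leaf 201 1605 (.cons 226 (.leaf 227 1786 (.cons 246 (.leaf 245 1769 (.leaf 249 1777 .nil)) .nil)) .nil)) (.cons 199 (.leaf 223 1599 (.cons 200 (.leaf 175 1407 (.cons 297 (.leaf 273 1604 (.leaf 321 1796 .nil)) .nil)) .nil)) .nil))) (.cons 320 (.cons 225 (.leaf 249 1797 (.cons 224 (.leaf 201 1605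 (.cons 226 (.leaf 227 1786 (.cons 245 (.leaf 246 1769 (.cons 343 (.leaf 319 1982 (.cons 344 (.leaf 271 1983 (.leaf 367 2174 .nil)) .nil)) .nil)) .nil)) .nil)) .nil)) (.cons 225 (.leaf 249 1797 (.cons 224 (.leaf 201 1605 (.cons 321 (.leaf 297 1796 (.leaf 345 1988 .nil)) .nil)) .nil)) (.cons 344 (.leaf 271 1983 (.cons 343 (.leaf 319 1982 (.leaf 367 2174 .nil)) .nil)) .nil))) (.cons 223 (.leaf 320 1791 (.cons 199 (.leaf 175 1404 (.leaf 271 1596 .nil)) .nil)) (.cons 224 (.cons 199 (.leaf 223 1599 (.cons 200 (.leaf 175 1407 (.cons 297 (.leaf 273 1604 (.leaf 321 1796 .nil)) .nil)) .nil)) (.cons 225 (.leaf 201 1605 (.cons 226 (.leaf 227 1786 (.cons 246 (.leaf 245 1769 (.leaf 249 1777 .nil)) .nil)) .nil)) .nil)) .nil)))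
noncomputable def t175 : T := .cons 273 (.leaf 274 1979 (.cons 246 (.leaf 245 1960 (.cons 223 (.cons 199 (.leaf 175 1404 (.cons 296 (.leaf 224 1599 (.leaf 271 1596 .nil)) .nil)) (.cons 296 (.leaf 320 1791 (.cons 224 (.cons 225 (.leaf 201 1605 (.leaf 226 1778 .nil)) (.cons 297 (.leaf 200 1604 (.leaf 321 1796 .nil)) .nil)) .nil)) (.cons 199 (.leaf 175 1404 (.cons 271 (.cons 198 (.leaf 174 1399 (.cons 270 (.leaf 294 1590 (.cons 269 (.leaf 249 1961 (.leaf 268 1953 .nil)) .nil)) .nil)) (.cons 200 (.leaf 176 1405 (.cons 224 (.leaf 297 1604 (.cons 201 (.leaf 177 1413 (.cons 202 (.leaf 222 1586 (.leaf 203 1594 .nil)) .nil)) .nil)) .nil)) .nil)) .nil)) (.cons 199 (.leaf 175 1404 (.cons 296 (.leaf 271 1596 (.leaf 320 1791 .nil)) .nil)) .nil)))) .nil)) .nil)) (.cons 249 (.cons 225 (.cons 201 (.leaf 177 1414 (.cons 296 (.leaf 224 1605 (.leaf 320 1797 .nil)) .nil)) (.cons 226 (.leaf 246 1777 (.cons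 227 (.leaf 224 1786 (.leaf 228 1794 .nil)) .nil)) (.cons 177 (.leaf 201 1414 (.cons 246 (.leaf 226 1777 (.cons 221 (.leaf 222 1771 (.cons 245 (.leaf 220 1763 (.cons 269 (.leaf 268 1954 (.leaf 270 1962 .nil)) .nil)) .nil)) .nil)) .nil)) .nil))) (.cons 250 (.leaf 274 1976 (.cons 223 (.leaf 222 1779 (.cons 175 (.leaf 199 1404 (.cons 227 (.leaf 226 1785 (.cons 251 (.leaf 271 1978 (.leaf 224 1787 .nil)) .nil)) .nil)) .nil)) .nil)) (.cons 250 (.leaf 274 1976 (.cons 271 (.leaf 251 1978 (.leaf 270 1970 .nil)) .nil)) .nil))) (.cons 296 t174 (.cons 273 (.leaf 274 1979 (.cons 246 (.leaf 245 1960 (.cons 223 (.cons 199 (.leaf 175 1404 (.cons 296 (.leaf 224 1599 (.leaf 271 1596 .nil)) .nil)) (.cons 296 (.leaf 320 1791 (.cons 224 (.cons 225 (.leaf 201 1605 (.leaf 226 1778 .nil)) (.cons 297 (.leaf 200 1604 (.leaf 321 1796 .nil)) .nil)) .nil)) (.cons 199 (.leaf 175 1404 (.cons 271 (.cons 198 (.leaf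 174 1399 (.cons 270 (.leaf 294 1590 (.cons 269 (.leaf 268 1953 (.cons 293 (.leaf 292 2146 (.leaf 222 1582 .nil)) .nil)) .nil)) .nil)) (.cons 200 (.leaf 176 1405 (.cons 224 (.leaf 297 1604 (.cons 201 (.leaf 177 1413 (.cons 202 (.leaf 222 1586 (.leaf 203 1594 .nil)) .nil)) .nil)) .nil)) (.cons 174 (.leaf 198 1399 (.cons 200 (.leaf 176 1405 (.cons 224 (.leaf 297 1604 (.cons 201 (.leaf 177 1413 (.cons 202 (.leaf 203 1594 (.cons 226 (.leaf 225 1778 (.leaf 227 1592 .nil)) .nil)) .nil)) .nil)) .nil)) .nil)) .nil))) .nil)) (.cons 199 (.leaf 175 1404 (.cons 296 (.leaf 271 1596 (.leaf 320 1791 .nil)) .nil)) .nil)))) .nil)) .nil)) (.cons 273 (.leaf 274 1979 (.cons 246 (.leaf 245 1960 (.cons 249 (.cons 270 (.leaf 269 1962 (.cons 271 (.leaf 250 1969 (.cons 293 (.leaf 294 2154 (.cons 297 (.leaf 298 2160 (.cons 321 (.leaf 345 1991 (.leaf 224 1799 .nil)) .nil)) .nil)) .nil)) .nil)) (.cons 225 (.leaf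 226 1777 (.cons 201 (.leaf 177 1414 (.leaf 296 1606 .nil)) .nil)) .nil)) .nil)) .nil)) (.cons 274 (.leaf 273 1979 (.cons 250 (.leaf 249 1976 (.cons 226 t173 .nil)) .nil)) (.cons 274 (.leaf 273 1979 (.cons 250 (.leaf 249 1976 (.cons 226 t172 .nil)) .nil)) (.cons 273 (.leaf 274 1979 (.cons 246 (.leaf 245 1960 (.cons 249 (.cons 222 (.leaf 221 1771 (.cons 223 (.leaf 250 1779 (.cons 199 (.leaf 175 1404 (.cons 270 (.leaf 269 1962 (.leaf 294 1589 .nil)) .nil)) .nil)) .nil)) (.cons 225 (.leaf 226 1777 (.cons 201 (.leaf 177 1414 (.leaf 296 1606 .nil)) .nil)) .nil)) .nil)) .nil)) (.cons 273 (.leaf 274 1979 (.cons 246 (.leaf 245 1960 (.cons 249 (.cons 270 (.leaf 269 1962 (.cons 271 (.leaf 250 1969 (.cons 293 (.leaf 294 2154 (.cons 297 (.leaf 298 2160 (.cons 321 (.leaf 345 1991 (.leaf 224 1799 .nil)) .nil)) .nil)) .nil)) .nil)) (.cons 222 (.leaf 221 1771 (.cons 223 (.leaf 250 1779 (.cons 199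 (.leaf 175 1404 (.cons 296 (.leaf 224 1599 (.leaf 271 1596 .nil)) .nil)) .nil)) .nil)) (.cons 270 (.leaf 269 1962 (.cons 222 (.leaf 221 1771 (.cons 223 (.cons 294 (.leaf 318 1781 (.leaf 199 1589 .nil)) (.cons 294 (.leaf 318 1781 (.cons 293 (.leaf 271 2154 (.leaf 317 1774 .nil)) .nil)) (.cons 199 (.leaf 175 1404 (.cons 296 (.leaf 224 1599 (.leaf 271 1596 .nil)) .nil)) .nil))) .nil)) .nil)) (.cons 222 (.leaf 221 1771 (.cons 223 (.leaf 250 1779 (.cons 199 (.leaf 175 1404 (.cons 270 (.leaf 269 1962 (.leaf 294 1589 .nil)) .nil)) .nil)) .nil)) .nil)))) .nil)) .nil)) .nil))))))))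
noncomputable def t176 : T := .cons 224 (.cons 199 (.leaf 223 1599 (.cons 175 (.leaf 200 1407 (.cons 225 (.leaf 201 1605 (.cons 320 (.leaf 249 1797 (.cons 319 (.leaf 295 1790 (.leaf 343 1982 .nil)) .nil)) .nil)) .nil)) .nil)) (.cons 199 (.leaf 223 1599 (.cons 175 (.leaf 200 1407 (.cons 225 (.leaf 201 1605 (.cons 320 (.leaf 249 1797 (.cons 343 (.leaf 319 1982 (.cons 344 (.leaf 367 2174 (.cons 321 (.leaf 297 1796 (.leaf 345 1988 .nil)) .nil)) .nil)) .nil)) .nil)) .nil)) .nil)) (.cons 199 (.leaf 223 1599 (.cons 201 (.leaf 225 1605 (.cons 321 (.leaf 297 1796 (.cons 320 (.leaf 345 1988 (.cons 343 (.leaf 319 1982 (.cons 344 (.leaf 249 1989 (.leaf 367 2174 .nil)) .nil)) .nil)) .nil)) .nil)) .nil)) (.cons 199 (.leaf 223 1599 (.cons 200 (.leaf 175 1407 (.leaf 297 1604 .nil)) .nil)) (.cons 297 (.leaf 200 1604 (.leaf 321 1796 .nil)) .nil))))) (.cons 224 (.cons 297 (.leaf 200 1604 (.leaf 321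 1796 .nil)) (.cons 225 (.leaf 201 1605 (.cons 199 (.leaf 223 1599 (.cons 320 (.leaf 249 1797 (.cons 343 (.leaf 319 1982 (.cons 344 (.leaf 367 2174 (.cons 345 (.leaf 321 1988 (.leaf 369 2180 .nil)) .nil)) .nil)) .nil)) .nil)) .nil)) (.cons 199 (.leaf 223 1599 (.cons 200 (.leaf 175 1407 (.leaf 297 1604 .nil)) .nil)) .nil))) (.cons 274 (.leaf 295 2170 (.cons 299 (.leaf 300 2176 (.cons 251 (.leaf 252 1985 (.cons 323 (.cons 250 (.leaf 226 1815 (.leaf 347 2007 .nil)) (.cons 322 (.leaf 346 2006 (.cons 324 (.leaf 348 2012 (.cons 297 (.leaf 298 2368 (.leaf 321 2371 .nil)) .nil)) .nil)) .nil)) .nil)) .nil)) .nil)) (.cons 295 (.leaf 274 2170 (.cons 224 (.leaf 319 1790 (.cons 199 (.leaf 223 1599 (.cons 200 (.leaf 175 1407 (.cons 201 (.leaf 177 1413 (.leaf 225 1605 .nil)) .nil)) .nil)) .nil)) .nil)) .nil)))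
noncomputable def t177 : T := .cons 321 (.leaf 345 1991 (.cons 224 (.leaf 200 1604 (.leaf 296 1796 .nil)) .nil)) (.cons 224 (.leaf 200 1604 (.cons 296 (.cons 223 (.leaf 199 1599 (.cons 320 (.leaf 247 1791 (.cons 344 (.leaf 249 1989 (.leaf 368 2181 .nil)) .nil)) .nil)) (.cons 223 (.leaf 199 1599 (.cons 225 (.leaf 201 1605 (.cons 295 (.leaf 319 1790 (.cons 294 (.leaf 293 2153 (.cons 270 (.leaf 269 2155 (.cons 318 (.leaf 317 2346 (.cons 246 (.leaf 247 1781 (.cons 245 (.leaf 222 1770 (.leaf 221 1775 .nil)) .nil)) .nil)) .nil)) .nil)) .nil)) .nil)) .nil)) (.cons 225 (.leaf 201 1605 (.cons 249 (.leaf 320 1797 (.cons 226 (.leaf 202 1613 (.cons 227 (.leaf 247 1786 (.leaf 228 1794 .nil)) .nil)) .nil)) .nil)) (.cons 225 (.leaf 201 1605 (.cons 249 (.leaf 320 1797 (.cons 223 (.leaf 199 1599 (.cons 222 (.leaf 221 1768 (.leaf 250 1776 .nil)) .nil)) .nil)) .nil)) .nil)))) .nil)) (.cons 321 (.leaf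 345 1991 (.cons 249 (.cons 250 (.leaf 226 1805 (.cons 251 (.leaf 252 1986 (.cons 227 (.leaf 228 1793 (.cons 320 (.leaf 344 1990 (.cons 296 (.leaf 225 1797 (.cons 322 (.leaf 346 1996 (.cons 295 (.leaf 294 2352 (.leaf 323 2363 .nil)) .nil)) .nil)) .nil)) .nil)) .nil)) .nil)) (.cons 322 (.leaf 346 1996 (.cons 225 (.leaf 298 1804 (.cons 201 (.leaf 177 1414 (.leaf 296 1606 .nil)) .nil)) .nil)) (.cons 250 (.leaf 226 1805 (.cons 251 (.leaf 252 1986 (.cons 227 (.leaf 228 1793 (.cons 320 (.leaf 344 1990 (.cons 322 (.leaf 346 1996 (.cons 298 (.leaf 299 1814 (.cons 319 (.leaf 318 2353 (.cons 343 (.leaf 296 1982 (.leaf 342 2546 .nil)) .nil)) .nil)) .nil)) .nil)) .nil)) .nil)) .nil)) (.cons 226 (.leaf 250 1805 (.cons 225 (.leaf 202 1613 (.cons 320 (.leaf 296 1797 (.leaf 344 1990 .nil)) .nil)) .nil)) (.cons 226 (.leaf 250 1805 (.cons 225 (.leaf 202 1613 (.cons 322 (.leaf 298 1804 (.leaf 346 1996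 .nil)) .nil)) .nil)) .nil))))) .nil)) (.cons 321 (.leaf 345 1991 (.cons 224 (.leaf 200 1604 (.leaf 249 1799 .nil)) .nil)) .nil)))
noncomputable def t178 : T := .cons 274 (.leaf 247 1979 (.cons 296 (.leaf 295 2170 (.cons 299 (.leaf 300 2176 (.cons 224 (.cons 199 (.leaf 223 1599 (.cons 321 (.leaf 297 1796 (.cons 201 (.leaf 225 1605 (.cons 320 (.leaf 345 1988 (.cons 319 (.leaf 343 1982 (.cons 322 (.leaf 298 2361 (.cons 200 (.leaf 175 1407 (.leaf 177 1413 .nil)) .nil)) .nil)) .nil)) .nil)) .nil)) .nil)) (.cons 225 (.leaf 201 1605 (.cons 320 (.leaf 249 1797 (.cons 321 (.leaf 345 1988 (.cons 251 (.leaf 252 1985 (.cons 223 (.leaf 199 1599 (.cons 226 (.leaf 250 1784 (.cons 202 (.leaf 227 1623 (.leaf 203 1593 .nil)) .nil)) .nil)) .nil)) .nil)) .nil)) .nil)) (.cons 297 (.leaf 200 1604 (.leaf 321 1796 .nil)) (.cons 225 (.leaf 201 1605 (.cons 199 (.leaf 223 1599 (.cons 200 (.leaf 175 1407 (.leaf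 297 1604 .nil)) .nil)) .nil)) .nil)))) .nil)) .nil)) .nil)) (.cons 297 t177 (.cons 296 t176 (.cons 274 (.leaf 247 1979 (.cons 251 (.leaf 252 1985 (.cons 299 (.leaf 300 2176 (.cons 323 (.cons 250 (.leaf 226 1815 (.leaf 347 2007 .nil)) (.cons 322 (.leaf 346 2006 (.cons 348 (.leaf 324 2012 (.cons 347 (.leaf 372 2204 (.cons 298 (.leaf 227 1814 (.leaf 371 2199 .nil)) .nil)) .nil)) .nil)) (.cons 226 (.leaf 250 1815 (.cons 227 (.leaf 202 1623 (.cons 298 (.leaf 203 1622 (.leaf 322 1814 .nil)) .nil)) .nil)) .nil))) .nil)) .nil)) .nil)) (.cons 274 (.leaf 247 1979 (.cons 296 (.leaf 295 2170 (.cons 251 (.leaf 252 1985 (.cons 224 (.cons 199 (.leaf 223 1599 (.cons 200 (.leaf 175 1407 (.leaf 297 1604 .nil)) .nil)) (.cons 199 (.leaf 223 1599 (.cons 200 (.leaf 175 1407 (.cons 201 (.leaf 177 1413 (.leaf 225 1605 .nil)) .nil)) .nil)) (.cons 199 (.leaf 223 1599 (.cons 201 (.leaf 225 1605 (.cons 321 (.leaf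 297 1796 (.cons 320 (.leaf 345 1988 (.cons 344 (.leaf 249 1989 (.cons 343 (.leaf 319 1982 (.leaf 367 2174 .nil)) .nil)) .nil)) .nil)) .nil)) .nil)) (.cons 297 (.leaf 200 1604 (.leaf 321 1796 .nil)) .nil)))) .nil)) .nil)) .nil)) (.cons 274 (.leaf 247 1979 (.cons 296 (.leaf 295 2170 (.cons 299 (.leaf 300 2176 (.cons 224 t0 .nil)) .nil)) .nil)) .nil)))))
noncomputable def t179 : T := .cons 199 (.leaf 223 1599 (.cons 201 (.leaf 225 1605 (.cons 295 (.leaf 319 1790 (.cons 294 (.leaf 293 2153 (.cons 297 (.leaf 321 1796 (.cons 270 (.leaf 269 2155 (.cons 298 (.leaf 271 2160 (.cons 299 (.leaf 300 2179 (.cons 323 (.leaf 322 2360 (.leaf 324 2368 .nil)) .nil)) .nil)) .nil)) .nil)) .nil)) .nil)) .nil)) .nil)) (.cons 223 (.leaf 199 1599 (.cons 201 (.leaf 225 1605 (.cons 247 (.leaf 320 1791 (.cons 245 (.leaf 246 1960 (.cons 295 (.leaf 319 1790 (.cons 294 (.leaf 293 2153 (.cons 271 (.leaf 318 1782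 (.cons 222 (.leaf 198 1591 (.cons 221 (.leaf 220 1760 (.leaf 244 1762 .nil)) .nil)) .nil)) .nil)) .nil)) .nil)) .nil)) .nil)) .nil)) (.cons 321 (.leaf 297 1796 (.cons 201 (.leaf 225 1605 (.cons 223 (.leaf 199 1599 (.cons 320 (.leaf 247 1791 (.leaf 345 1988 .nil)) .nil)) .nil)) .nil)) (.cons 321 (.leaf 297 1796 (.cons 201 (.leaf 225 1605 (.cons 319 (.leaf 295 1790 (.cons 320 (.leaf 343 1982 (.leaf 345 1988 .nil)) .nil)) .nil)) .nil)) (.cons 321 (.leaf 297 1796 (.cons 199 (.leaf 223 1599 (.cons 319 (.leaf 295 1790 (.cons 320 (.leaf 343 1982 (.leaf 345 1988 .nil)) .nil)) .nil)) .nil)) .nil))))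
noncomputable def t180 : T := .cons 296 (.cons 201 (.leaf 225 1605 (.cons 295 (.leaf 319 1790 (.cons 294 (.leaf 293 2153 (.cons 297 (.leaf 200 1604 (.leaf 321 1796 .nil)) .nil)) .nil)) .nil)) (.cons 295 (.leaf 319 1790 (.cons 199 (.leaf 223 1599 (.cons 200 (.leaf 175 1407 (.leaf 271 1598 .nil)) .nil)) .nil)) (.cons 201 (.leaf 225 1605 (.cons 295 (.leaf 319 1790 (.cons 294 (.leaf 293 2153 (.cons 297 (.leaf 321 1796 (.cons 270 (.leaf 269 2155 (.cons 271 (.leaf 298 2160 (.cons 246 (.leaf 245 1963 (.cons 198 (.leaf 222 1588 (.cons 318 (.leaf 317 2346 (.cons 342 (.leaf 366 2165 (.leaf 247 1973 .nil)) .nil)) .nil)) .nil)) .nil)) .nil)) .nil)) .nil)) .nil)) .nil)) (.cons 297 (.leaf 200 1604 (.leaf 321 1796 .nil)) .nil)))) (.cons 296 t179 (.cons 200 (.cons 177 (.leaf 201 1413 (.cons 176 (.leaf 153 1221 (.cons 247 (.leaf 271 1406 (.cons 223 (.leaf 152 1214 (.cons 199 (.leaf 175 1404 (.leaf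 296 1599 .nil)) .nil)) .nil)) .nil)) .nil)) (.cons 271 (.leaf 295 1598 (.cons 176 (.leaf 247 1406 (.cons 177 (.leaf 201 1413 (.leaf 153 1221 .nil)) .nil)) .nil)) (.cons 271 (.leaf 295 1598 (.cons 176 (.leaf 247 1406 (.cons 151 (.leaf 175 1215 (.cons 152 (.leaf 127 1023 (.cons 153 (.leaf 177 1221 (.leaf 129 1029 .nil)) .nil)) .nil)) .nil)) .nil)) (.cons 199 (.leaf 175 1407 (.cons 201 (.leaf 177 1413 (.cons 296 (.leaf 223 1599 (.leaf 225 1605 .nil)) .nil)) .nil)) (.cons 175 (.leaf 199 1407 (.cons 176 (.leaf 151 1215 (.cons 271 (.leaf 295 1598 (.leaf 247 1406 .nil)) .nil)) .nil)) .nil))))) (.cons 200 (.leaf 297 1604 (.cons 271 (.leaf 295 1598 (.cons 176 (.leaf 247 1406 (.cons 177 (.leaf 201 1413 (.leaf 153 1221 .nil)) .nil)) .nil)) .nil)) (.cons 200 (.leaf 297 1604 (.cons 199 (.leaf 175 1407 (.cons 201 (.leaf 177 1413 (.cons 296 (.leaf 223 1599 (.leaf 225 1605 .nil)) .nil)) .nil)) .nil))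 (.cons 200 (.leaf 297 1604 (.cons 271 (.leaf 295 1598 (.cons 176 (.leaf 247 1406 (.cons 151 (.leaf 175 1215 (.cons 152 (.leaf 127 1023 (.cons 153 (.leaf 177 1221 (.leaf 129 1029 .nil)) .nil)) .nil)) .nil)) .nil)) .nil)) .nil)))))
noncomputable def t181 : T := .cons 274 (.leaf 247 1979 (.cons 295 (.leaf 296 2170 (.cons 271 (.leaf 294 2162 (.cons 299 (.leaf 300 2176 (.leaf 298 2168 .nil)) .nil)) .nil)) .nil)) (.cons 224 t180 (.cons 274 (.cons 295 (.leaf 296 2170 (.cons 271 (.leaf 294 2162 (.cons 299 (.leaf 300 2176 (.leaf 298 2168 .nil)) .nil)) .nil)) (.cons 295 (.leaf 296 2170 (.cons 251 (.leaf 252 1985 (.cons 271 (.leaf 250 1977 (.leaf 294 2162 .nil)) .nil)) .nil)) (.cons 299 (.leaf 300 2176 (.cons 251 (.leaf 252 1985 (.cons 271 (.leaf 250 1977 (.leaf 298 2168 .nil)) .nil)) .nil)) (.cons 296 (.leaf 295 2170 (.cons 299 (.leaf 300 2176 (.cons 251 (.leaf 252 1985 (.cons 323 (.cons 250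 (.leaf 226 1815 (.leaf 347 2007 .nil)) (.cons 322 (.leaf 346 2006 (.cons 324 (.leaf 348 2012 (.cons 297 (.leaf 298 2368 (.leaf 321 2371 .nil)) .nil)) .nil)) .nil)) .nil)) .nil)) .nil)) .nil)))) (.cons 274 (.leaf 247 1979 (.cons 299 (.leaf 300 2176 (.cons 251 (.leaf 252 1985 (.cons 271 (.leaf 250 1977 (.leaf 298 2168 .nil)) .nil)) .nil)) .nil)) (.cons 274 (.leaf 247 1979 (.cons 296 (.leaf 295 2170 (.cons 299 (.leaf 300 2176 (.cons 251 (.leaf 252 1985 (.cons 323 (.cons 250 (.leaf 226 1815 (.leaf 347 2007 .nil)) (.cons 322 (.leaf 346 2006 (.cons 324 (.leaf 348 2012 (.cons 297 (.leaf 298 2368 (.leaf 321 2371 .nil)) .nil)) .nil)) .nil)) .nil)) .nil)) .nil)) .nil)) (.cons 274 (.leaf 247 1979 (.cons 251 (.leaf 252 1985 (.cons 271 (.leaf 250 1977 (.cons 295 (.leaf 296 2170 (.leaf 294 2162 .nil)) .nil)) .nil)) .nil)) .nil)))))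
noncomputable def t182 : T := .cons 200 (.cons 271 (.leaf 295 1598 (.cons 176 (.leaf 247 1406 (.cons 273 (.leaf 297 1604 (.leaf 249 1412 .nil)) .nil)) .nil)) (.cons 201 (.leaf 177 1413 (.cons 175 (.leaf 199 1407 (.cons 176 (.leaf 151 1215 (.cons 173 (.leaf 174 1384 (.cons 202 (.leaf 203 1403 (.cons 225 (.leaf 296 1605 (.cons 249 (.leaf 273 1412 (.leaf 152 1220 .nil)) .nil)) .nil)) .nil)) .nil)) .nil)) .nil)) (.cons 271 (.leaf 295 1598 (.cons 175 (.leaf 199 1407 (.cons 176 (.leaf 151 1215 (.leaf 247 1406 .nil)) .nil)) .nil)) (.cons 201 (.leaf 177 1413 (.cons 175 (.leaf 199 1407 (.cons 295 (.leaf 271 1598 (.cons 296 (.leaf 225 1605 (.leaf 319 1790 .nil)) .nil)) .nil)) .nil)) .nil)))) (.cons 296 (.cons 201 (.leaf 225 1605 (.cons 200 (.leaf 177 1413 (.cons 271 (.leaf 295 1598 (.cons 247 (.leaf 176 1406 (.cons 320 (.leaf 223 1791 (.leaf 344 1983 .nil)) .nil)) .nil)) .nil)) .nil)) (.cons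 295 (.leaf 319 1790 (.cons 271 (.leaf 200 1598 (.cons 321 (.leaf 297 1796 (.cons 320 (.leaf 345 1988 (.cons 247 (.leaf 223 1788 (.leaf 344 1983 .nil)) .nil)) .nil)) .nil)) .nil)) (.cons 225 (.leaf 201 1605 (.cons 297 (.leaf 321 1796 (.cons 320 (.leaf 249 1797 (.cons 247 (.leaf 223 1791 (.cons 271 (.leaf 344 1983 (.cons 200 (.leaf 273 1604 (.leaf 176 1406 .nil)) .nil)) .nil)) .nil)) .nil)) .nil)) (.cons 201 (.leaf 225 1605 (.cons 200 (.leaf 177 1413 (.cons 297 (.leaf 273 1604 (.leaf 321 1796 .nil)) .nil)) .nil)) (.cons 225 (.leaf 201 1605 (.cons 297 (.leaf 321 1796 (.cons 320 (.leaf 249 1797 (.cons 247 (.leaf 223 1791 (.cons 319 (.leaf 295 1790 (.leaf 343 1982 .nil)) .nil)) .nil)) .nil)) .nil)) .nil))))) (.cons 200 (.cons 175 (.leaf 199 1407 (.cons 176 (.leaf 151 1215 (.cons 273 (.leaf 297 1604 (.leaf 249 1412 .nil)) .nil)) .nil)) (.cons 177 (.leaf 201 1413 (.cons 176 (.leaf 153 1221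 (.cons 273 (.leaf 297 1604 (.leaf 249 1412 .nil)) .nil)) .nil)) (.cons 199 (.leaf 175 1407 (.cons 177 (.leaf 201 1413 (.cons 176 (.leaf 153 1221 (.cons 178 (.leaf 179 1402 (.cons 223 (.leaf 296 1599 (.cons 247 (.leaf 271 1405 (.leaf 152 1214 .nil)) .nil)) .nil)) .nil)) .nil)) .nil)) (.cons 175 (.leaf 199 1407 (.cons 201 (.leaf 177 1413 (.cons 296 (.leaf 225 1605 (.cons 297 (.leaf 273 1604 (.leaf 321 1796 .nil)) .nil)) .nil)) .nil)) .nil)))) (.cons 200 (.cons 175 (.leaf 199 1407 (.cons 176 (.leaf 151 1215 (.cons 271 (.leaf 295 1598 (.leaf 247 1406 .nil)) .nil)) .nil)) (.cons 201 (.leaf 177 1413 (.cons 225 (.leaf 296 1605 (.cons 271 (.leaf 295 1598 (.cons 176 (.leaf 247 1406 (.cons 151 (.leaf 175 1215 (.cons 152 (.leaf 127 1023 (.leaf 249 1220 .nil)) .nil)) .nil)) .nil)) .nil)) .nil)) (.cons 175 (.leaf 199 1407 (.cons 176 (.leaf 151 1215 (.cons 177 (.leaf 201 1413 (.leaf 153 1221 .nil))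 .nil)) .nil)) (.cons 201 (.leaf 177 1413 (.cons 225 (.leaf 296 1605 (.cons 271 (.leaf 295 1598 (.cons 247 (.leaf 176 1406 (.cons 226 (.leaf 227 1786 (.cons 246 (.leaf 245 1769 (.leaf 249 1777 .nil)) .nil)) .nil)) .nil)) .nil)) .nil)) (.cons 175 (.leaf 199 1407 (.cons 201 (.leaf 177 1413 (.cons 295 (.leaf 271 1598 (.cons 296 (.leaf 225 1605 (.leaf 319 1790 .nil)) .nil)) .nil)) .nil)) .nil))))) (.cons 296 (.cons 199 (.leaf 223 1599 (.cons 295 (.leaf 319 1790 (.cons 200 (.leaf 175 1407 (.leaf 271 1598 .nil)) .nil)) .nil)) (.cons 297 (.leaf 321 1796 (.cons 200 (.leaf 273 1604 (.cons 271 (.leaf 295 1598 (.cons 176 (.leaf 247 1406 (.cons 175 (.leaf 199 1407 (.leaf 151 1215 .nil)) .nil)) .nil)) .nil)) .nil)) (.cons 223 (.leaf 199 1599 (.cons 320 (.leaf 247 1791 (.cons 321 (.leaf 297 1796 (.leaf 345 1988 .nil)) .nil)) .nil)) (.cons 297 (.leaf 321 1796 (.cons 200 (.leaf 273 1604 (.cons 271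 (.leaf 295 1598 (.cons 176 (.leaf 247 1406 (.cons 270 (.leaf 269 2152 (.cons 151 (.leaf 175 1215 (.cons 152 (.leaf 127 1023 (.cons 153 (.leaf 177 1221 (.leaf 129 1029 .nil)) .nil)) .nil)) .nil)) .nil)) .nil)) .nil)) .nil)) .nil)))) (.cons 200 (.cons 175 (.leaf 199 1407 (.cons 176 (.leaf 151 1215 (.cons 273 (.leaf 297 1604 (.leaf 249 1412 .nil)) .nil)) .nil)) (.cons 201 (.leaf 177 1413 (.cons 225 (.leaf 296 1605 (.cons 271 (.leaf 295 1598 (.cons 273 (.leaf 297 1604 (.cons 176 (.leaf 249 1412 (.cons 151 (.leaf 175 1215 (.cons 152 (.leaf 127 1023 (.leaf 128 1028 .nil)) .nil)) .nil)) .nil)) .nil)) .nil)) .nil)) (.cons 175 (.leaf 199 1407 (.cons 176 (.leaf 151 1215 (.cons 177 (.leaf 201 1413 (.leaf 153 1221 .nil)) .nil)) .nil)) (.cons 201 (.leaf 177 1413 (.cons 225 (.leaf 296 1605 (.cons 271 (.leaf 295 1598 (.cons 273 (.leaf 297 1604 (.cons 249 (.leaf 176 1412 (.cons 250 (.leaf 251 1978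 (.leaf 270 1969 .nil)) .nil)) .nil)) .nil)) .nil)) .nil)) (.cons 175 (.leaf 199 1407 (.cons 201 (.leaf 177 1413 (.cons 295 (.leaf 271 1598 (.cons 296 (.leaf 225 1605 (.leaf 319 1790 .nil)) .nil)) .nil)) .nil)) .nil))))) .nil)))))
noncomputable def t183 : T := .cons 200 (.cons 271 (.leaf 295 1598 (.cons 176 (.leaf 247 1406 (.cons 273 (.leaf 297 1604 (.leaf 249 1412 .nil)) .nil)) .nil)) (.cons 175 (.leaf 199 1407 (.cons 176 (.leaf 151 1215 (.cons 273 (.leaf 297 1604 (.leaf 249 1412 .nil)) .nil)) .nil)) (.cons 199 (.leaf 175 1407 (.cons 177 (.leaf 201 1413 (.cons 271 (.leaf 295 1598 (.cons 296 (.leaf 223 1599 (.cons 176 (.leaf 153 1221 (.leaf 247 1406 .nil)) .nil)) .nil)) .nil)) .nil)) (.cons 175 (.leaf 199 1407 (.cons 295 (.leaf 271 1598 (.cons 296 (.leaf 319 1790 (.cons 297 (.leaf 273 1604 (.leaf 321 1796 .nil)) .nil)) .nil)) .nil)) .nil)))) (.cons 296 (.cons 223 (.leaf 199 1599 (.cons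 201 (.leaf 225 1605 (.cons 319 (.leaf 295 1790 (.cons 320 (.leaf 247 1791 (.leaf 343 1982 .nil)) .nil)) .nil)) .nil)) (.cons 225 (.leaf 201 1605 (.cons 320 (.leaf 249 1797 (.cons 321 (.leaf 297 1796 (.leaf 345 1988 .nil)) .nil)) .nil)) (.cons 223 (.leaf 199 1599 (.cons 320 (.leaf 247 1791 (.cons 321 (.leaf 297 1796 (.leaf 345 1988 .nil)) .nil)) .nil)) (.cons 223 (.leaf 199 1599 (.cons 225 (.leaf 201 1605 (.cons 297 (.leaf 321 1796 (.cons 295 (.leaf 319 1790 (.cons 222 (.cons 249 (.leaf 221 1768 (.leaf 250 1776 .nil)) (.cons 197 (.leaf 198 1579 (.cons 221 (.leaf 196 1571 (.cons 245 (.leaf 244 1762 (.leaf 246 1770 .nil)) .nil)) .nil)) (.cons 197 (.leaf 198 1579 (.cons 246 (.leaf 245 1770 (.cons 226 (.leaf 247 1778 (.cons 250 (.leaf 249 1776 (.leaf 251 1784 .nil)) .nil)) .nil)) .nil)) .nil))) .nil)) .nil)) .nil)) .nil)) .nil)))) (.cons 200 (.cons 271 (.leaf 295 1598 (.cons 176 (.leaf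 247 1406 (.cons 273 (.leaf 297 1604 (.leaf 249 1412 .nil)) .nil)) .nil)) (.cons 175 (.leaf 199 1407 (.cons 176 (.leaf 151 1215 (.cons 273 (.leaf 297 1604 (.leaf 249 1412 .nil)) .nil)) .nil)) (.cons 271 (.leaf 295 1598 (.cons 175 (.leaf 199 1407 (.cons 176 (.leaf 151 1215 (.leaf 247 1406 .nil)) .nil)) .nil)) (.cons 199 (.leaf 175 1407 (.cons 201 (.leaf 177 1413 (.cons 271 (.leaf 295 1598 (.cons 202 (.cons 223 (.leaf 203 1594 (.leaf 222 1586 .nil)) (.cons 178 (.leaf 179 1401 (.cons 227 (.leaf 226 1592 (.cons 203 (.leaf 251 1431 (.leaf 228 1600 .nil)) .nil)) .nil)) (.cons 178 (.leaf 179 1401 (.cons 222 (.leaf 223 1586 (.cons 198 (.leaf 221 1578 (.cons 225 (.leaf 197 1576 (.leaf 226 1584 .nil)) .nil)) .nil)) .nil)) .nil))) .nil)) .nil)) .nil)) .nil)))) t182))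
noncomputable def t184 : T := .cons 345 (.leaf 321 1988 (.cons 319 (.leaf 343 1982 (.cons 344 (.leaf 271 1983 (.leaf 369 2180 .nil)) .nil)) .nil)) (.cons 321 (.leaf 345 1988 (.cons 319 (.leaf 343 1982 (.cons 298 (.cons 297 (.leaf 299 2362 (.leaf 318 2353 .nil)) (.cons 322 (.leaf 299 2361 (.cons 323 (.leaf 295 2363 (.cons 347 (.leaf 346 2552 (.leaf 348 2560 .nil)) .nil)) .nil)) (.cons 297 (.leaf 318 2353 (.cons 271 (.leaf 270 2160 (.cons 295 (.leaf 222 1783 (.cons 322 (.leaf 294 2352 (.leaf 323 2360 .nil)) .nil)) .nil)) .nil)) .nil))) .nil)) .nil)) (.cons 344 (.leaf 271 1983 (.cons 368 (.leaf 297 2181 (.cons 343 (.leaf 319 1982 (.leaf 367 2174 .nil)) .nil)) .nil)) (.cons 344 (.leaf 271 1983 (.cons 368 (.leaf 297 2181 (.cons 391 (.leaf 367 2366 (.cons 392 (.leaf 415 2558 (.cons 393 (.leaf 369 2372 (.leaf 417 2564 .nil)) .nil)) .nil)) .nil)) .nil)) (.cons 345 (.leaf 321 1988 (.cons 319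 (.leaf 343 1982 (.cons 344 (.leaf 369 2180 (.cons 368 (.leaf 297 2181 (.cons 392 (.leaf 295 2367 (.cons 391 (.leaf 367 2366 (.leaf 415 2558 .nil)) .nil)) .nil)) .nil)) .nil)) .nil)) .nil))))
noncomputable def t185 : T := .cons 245 (.leaf 273 1960 (.cons 244 (.leaf 271 1952 (.cons 268 (.leaf 269 1954 (.leaf 267 1946 .nil)) .nil)) .nil)) (.cons 249 (.cons 221 (.leaf 222 1771 (.cons 225 (.leaf 226 1777 (.cons 201 (.leaf 177 1414 (.cons 296 (.leaf 273 1606 (.leaf 320 1797 .nil)) .nil)) .nil)) .nil)) (.cons 222 (.leaf 221 1771 (.cons 223 (.leaf 250 1779 (.cons 270 (.leaf 269 1962 (.cons 199 (.leaf 175 1404 (.leaf 294 1589 .nil)) .nil)) .nil)) .nil)) (.cons 225 (.leaf 226 1777 (.cons 177 (.leaf 201 1414 (.cons 270 (.leaf 269 1962 (.cons 271 (.leaf 250 1970 (.cons 296 (.leaf 320 1797 (.cons 223 (.leaf 199 1596 (.cons 294 (.leaf 318 1781 (.cons 293 (.leaf 273 2154 (.cons 292 (.leaf 295 2145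 (.leaf 291 2137 .nil)) .nil)) .nil)) .nil)) .nil)) .nil)) .nil)) .nil)) .nil)) .nil))) (.cons 249 t55 (.cons 245 (.leaf 273 1960 (.cons 220 (.leaf 221 1763 (.cons 244 (.leaf 219 1755 (.cons 268 (.leaf 269 1954 (.leaf 267 1946 .nil)) .nil)) .nil)) .nil)) (.cons 245 (.leaf 273 1960 (.cons 220 (.leaf 221 1763 (.cons 244 (.leaf 271 1952 (.leaf 219 1755 .nil)) .nil)) .nil)) .nil))))
noncomputable def t186 : T := .cons 202 (.leaf 299 1620 (.cons 201 (.leaf 177 1423 (.cons 203 (.leaf 179 1429 (.cons 298 (.leaf 225 1615 (.leaf 227 1621 .nil)) .nil)) .nil)) .nil)) (.cons 298 (.cons 201 (.leaf 225 1615 (.cons 297 (.leaf 321 1806 (.cons 296 (.leaf 295 2169 (.cons 223 (.leaf 320 1791 (.cons 299 (.leaf 271 2171 (.leaf 323 1812 .nil)) .nil)) .nil)) .nil)) .nil)) (.cons 227 (.leaf 203 1621 (.cons 321 (.leaf 297 1806 (.cons 322 (.leaf 251 1813 (.leaf 345 1998 .nil)) .nil)) .nil)) (.cons 201 (.leaf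 225 1615 (.cons 203 (.leaf 227 1621 (.cons 323 (.leaf 299 1812 (.cons 322 (.leaf 347 2004 (.cons 345 (.leaf 321 1998 (.cons 346 (.leaf 251 2005 (.leaf 369 2190 .nil)) .nil)) .nil)) .nil)) .nil)) .nil)) (.cons 201 (.leaf 225 1615 (.cons 227 (.leaf 203 1621 (.cons 322 (.leaf 251 1813 (.cons 323 (.leaf 299 1812 (.leaf 347 2004 .nil)) .nil)) .nil)) .nil)) .nil)))) (.cons 298 (.cons 227 (.leaf 203 1621 (.cons 321 (.leaf 297 1806 (.cons 322 (.leaf 251 1813 (.leaf 345 1998 .nil)) .nil)) .nil)) (.cons 201 (.leaf 225 1615 (.cons 177 (.leaf 202 1423 (.cons 297 (.leaf 321 1806 (.cons 296 (.leaf 295 2169 (.cons 223 (.leaf 320 1791 (.cons 199 (.leaf 175 1404 (.leaf 271 1596 .nil)) .nil)) .nil)) .nil)) .nil)) .nil)) (.cons 201 (.leaf 225 1615 (.cons 202 (.leaf 177 1423 (.cons 178 (.leaf 251 1428 (.cons 179 (.leaf 203 1429 (.leaf 155 1237 .nil)) .nil)) .nil)) .nil)) .nil))) (.cons 202 (.leaf 299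 1620 (.cons 177 (.leaf 201 1423 (.cons 178 (.leaf 251 1428 (.leaf 153 1231 .nil)) .nil)) .nil)) (.cons 299 (.leaf 202 1620 (.cons 323 (.leaf 251 1815 (.leaf 347 2007 .nil)) .nil)) .nil))))
noncomputable def t187 : T := .cons 274 (.leaf 273 1979 (.cons 250 (.leaf 249 1976 (.cons 226 t186 .nil)) .nil)) (.cons 249 (.cons 250 (.leaf 274 1976 (.cons 271 (.leaf 251 1978 (.leaf 270 1970 .nil)) .nil)) (.cons 246 t57 (.cons 250 (.leaf 274 1976 (.cons 222 (.leaf 223 1779 (.cons 226 (.leaf 227 1785 (.cons 246 (.leaf 221 1771 (.leaf 225 1777 .nil)) .nil)) .nil)) .nil)) .nil))) (.cons 246 t185 (.cons 273 (.leaf 274 1979 (.cons 246 (.leaf 245 1960 (.cons 296 (.cons 320 (.leaf 223 1791 (.cons 345 (.leaf 321 1988 (.cons 319 (.leaf 343 1982 (.cons 344 (.leaf 271 1983 (.leaf 369 2180 .nil)) .nil)) .nil)) .nil)) (.cons 294 t54 (.cons 320 t184 (.cons 320 (.leaf 223 1791 (.cons 345 (.leaf 321 1988 (.cons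 319 (.leaf 343 1982 (.cons 344 (.leaf 369 2180 (.cons 368 (.leaf 297 2181 (.cons 392 (.leaf 295 2367 (.cons 391 (.leaf 367 2366 (.leaf 415 2558 .nil)) .nil)) .nil)) .nil)) .nil)) .nil)) .nil)) (.cons 223 (.leaf 320 1791 (.cons 199 (.leaf 175 1404 (.leaf 271 1596 .nil)) .nil)) .nil))))) .nil)) .nil)) (.cons 273 (.leaf 274 1979 (.cons 246 (.leaf 245 1960 (.cons 249 (.cons 225 (.leaf 226 1777 (.cons 201 (.leaf 177 1414 (.leaf 296 1606 .nil)) .nil)) (.cons 222 (.leaf 221 1771 (.cons 223 (.leaf 250 1779 (.cons 199 (.leaf 175 1404 (.cons 270 (.leaf 269 1962 (.leaf 294 1589 .nil)) .nil)) .nil)) .nil)) .nil)) .nil)) .nil)) (.cons 273 (.leaf 274 1979 (.cons 246 (.leaf 245 1960 (.cons 249 (.cons 221 (.leaf 222 1771 (.cons 225 (.leaf 226 1777 (.cons 201 (.leaf 177 1414 (.leaf 296 1606 .nil)) .nil)) .nil)) (.cons 221 (.leaf 222 1771 (.cons 270 (.leaf 269 1962 (.cons 250 (.leaf 271 1969 (.cons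 227 (.leaf 226 1785 (.cons 251 (.leaf 252 1986 (.leaf 228 1793 .nil)) .nil)) .nil)) .nil)) .nil)) (.cons 221 (.leaf 222 1771 (.cons 270 (.leaf 269 1962 (.cons 271 (.leaf 250 1969 (.cons 293 (.leaf 294 2154 (.cons 297 (.leaf 298 2160 (.cons 321 (.leaf 345 1991 (.cons 320 (.leaf 344 1990 (.cons 296 (.leaf 225 1797 (.cons 319 (.leaf 343 1982 (.cons 318 (.leaf 317 2345 (.cons 342 (.leaf 295 1974 (.leaf 341 2538 .nil)) .nil)) .nil)) .nil)) .nil)) .nil)) .nil)) .nil)) .nil)) .nil)) .nil)) (.cons 225 (.leaf 226 1777 (.cons 201 (.leaf 177 1414 (.leaf 296 1606 .nil)) .nil)) .nil)))) .nil)) .nil)) (.cons 273 (.leaf 274 1979 (.cons 246 (.leaf 245 1960 (.cons 249 (.cons 222 (.leaf 221 1771 (.cons 223 (.leaf 250 1779 (.cons 199 (.leaf 175 1404 (.cons 270 (.leaf 269 1962 (.leaf 294 1589 .nil)) .nil)) .nil)) .nil)) (.cons 222 (.leaf 221 1771 (.cons 225 (.leaf 226 1777 (.cons 201 (.leaf 177 1414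 (.cons 200 (.leaf 176 1415 (.cons 202 (.leaf 178 1421 (.cons 199 (.leaf 223 1586 (.cons 174 (.leaf 175 1395 (.cons 198 (.leaf 271 1396 (.leaf 173 1387 .nil)) .nil)) .nil)) .nil)) .nil)) .nil)) .nil)) .nil)) (.cons 225 (.leaf 226 1777 (.cons 177 (.leaf 201 1414 (.cons 270 (.leaf 269 1962 (.cons 271 (.leaf 250 1969 (.cons 294 (.leaf 293 2154 (.cons 223 (.leaf 199 1590 (.leaf 318 1781 .nil)) .nil)) .nil)) .nil)) .nil)) .nil)) (.cons 221 (.leaf 222 1771 (.cons 270 (.leaf 269 1962 (.cons 250 (.leaf 271 1969 (.cons 227 (.leaf 226 1785 (.cons 251 (.leaf 252 1986 (.leaf 228 1793 .nil)) .nil)) .nil)) .nil)) .nil)) .nil)))) .nil)) .nil)) .nil))))))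
noncomputable def t188 : T := .cons 224 (.leaf 200 1604 (.cons 270 (.leaf 298 2160 (.cons 269 (.leaf 244 1955 (.leaf 268 1953 .nil)) .nil)) .nil)) (.cons 270 (.leaf 298 2160 (.cons 269 (.leaf 244 1955 (.leaf 268 1953 .nil)) .nil)) (.cons 321 (.leaf 345 1991 (.cons 223 (.cons 199 (.leaf 175 1404 (.cons 198 (.leaf 174 1399 (.cons 200 (.leaf 224 1604 (.leaf 176 1405 .nil)) .nil)) .nil)) (.cons 199 (.leaf 175 1404 (.cons 198 (.leaf 174 1399 (.cons 200 (.leaf 176 1405 (.cons 222 (.leaf 295 1591 (.cons 221 (.leaf 220 1760 (.leaf 201 1578 .nil)) .nil)) .nil)) .nil)) .nil)) (.cons 199 (.leaf 175 1404 (.cons 198 (.leaf 174 1399 (.cons 295 (.leaf 222 1591 (.cons 319 (.leaf 343 1981 (.leaf 224 1789 .nil)) .nil)) .nil)) .nil)) (.cons 224 (.leaf 200 1604 (.cons 295 (.leaf 319 1789 (.cons 222 (.leaf 198 1591 (.cons 221 (.leaf 220 1760 (.leaf 244 1762 .nil)) .nil)) .nil)) .nil)) (.cons 200 (.leaf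 224 1604 (.cons 199 (.leaf 175 1404 (.leaf 176 1405 .nil)) .nil)) .nil))))) .nil)) (.cons 224 (.leaf 200 1604 (.cons 298 (.leaf 270 2160 (.cons 299 (.leaf 300 2179 (.cons 319 (.leaf 295 1789 (.cons 321 (.leaf 345 1991 (.cons 320 (.leaf 318 2353 (.leaf 322 2361 .nil)) .nil)) .nil)) .nil)) .nil)) .nil)) .nil)))
noncomputable def t189 : T := .cons 270 (.cons 269 (.leaf 268 1953 (.cons 293 (.leaf 292 2146 (.leaf 294 2154 .nil)) .nil)) (.cons 245 (.leaf 246 1960 (.cons 297 (.leaf 298 2160 (.cons 321 (.leaf 345 1991 (.cons 269 (.leaf 244 1955 (.leaf 268 1953 .nil)) .nil)) .nil)) .nil)) (.cons 246 (.leaf 245 1960 (.cons 294 (.leaf 293 2154 (.cons 223 (.leaf 199 1590 (.leaf 318 1781 .nil)) .nil)) .nil)) .nil))) (.cons 224 (.cons 200 (.leaf 295 1598 (.leaf 297 1604 .nil)) (.cons 295 (.leaf 319 1789 (.cons 223 (.cons 199 (.leaf 175 1404 (.cons 198 (.leaf 174 1399 (.leaf 222 1591 .nil)) .nil))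 (.cons 294 (.leaf 318 1782 (.cons 293 (.leaf 270 2154 (.leaf 292 2145 .nil)) .nil)) .nil)) .nil)) (.cons 200 (.leaf 297 1604 (.leaf 176 1406 .nil)) .nil))) (.cons 245 (.leaf 246 1960 (.cons 295 (.cons 319 (.leaf 343 1981 (.leaf 224 1789 .nil)) (.cons 319 (.leaf 343 1981 (.cons 318 (.leaf 342 1974 (.cons 294 (.leaf 223 1782 (.cons 292 (.leaf 293 2145 (.cons 320 (.leaf 344 1980 (.cons 321 (.leaf 322 2355 (.cons 297 (.leaf 345 1991 (.leaf 298 2353 .nil)) .nil)) .nil)) .nil)) .nil)) .nil)) .nil)) (.cons 223 (.cons 198 (.leaf 222 1591 (.cons 199 (.leaf 175 1404 (.leaf 174 1399 .nil)) .nil)) (.cons 224 (.leaf 200 1597 (.cons 222 (.leaf 198 1591 (.cons 221 (.leaf 220 1760 (.leaf 244 1762 .nil)) .nil)) .nil)) (.cons 200 (.leaf 224 1597 (.cons 199 (.leaf 175 1404 (.leaf 176 1405 .nil)) .nil)) .nil))) .nil))) .nil)) (.cons 270 (.cons 269 (.leaf 268 1953 (.cons 293 (.leaf 292 2146 (.leaf 294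 2154 .nil)) .nil)) (.cons 246 (.leaf 245 1960 (.cons 294 (.leaf 293 2154 (.cons 318 (.leaf 342 1973 (.cons 297 (.leaf 298 2160 (.cons 200 (.leaf 224 1604 (.cons 317 (.leaf 341 1966 (.cons 319 (.leaf 343 1972 (.cons 222 (.leaf 295 1780 (.cons 197 (.leaf 221 1583 (.cons 198 (.leaf 174 1396 (.leaf 173 1391 .nil)) .nil)) .nil)) .nil)) .nil)) .nil)) .nil)) .nil)) .nil)) .nil)) (.cons 245 (.leaf 246 1960 (.cons 269 (.leaf 244 1955 (.leaf 268 1953 .nil)) .nil)) .nil))) (.cons 245 (.leaf 246 1960 (.cons 295 (.cons 319 (.leaf 343 1981 (.leaf 224 1789 .nil)) (.cons 319 (.leaf 343 1981 (.cons 318 (.leaf 342 1974 (.cons 294 (.leaf 223 1782 (.cons 293 (.leaf 270 2154 (.leaf 292 2145 .nil)) .nil)) .nil)) .nil)) (.cons 223 (.cons 198 (.leaf 222 1591 (.cons 199 (.leaf 175 1404 (.leaf 174 1399 .nil)) .nil)) (.cons 224 (.leaf 200 1597 (.cons 222 (.leaf 198 1591 (.cons 221 (.leaf 220 1760 (.leaf 244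 1762 .nil)) .nil)) .nil)) (.cons 200 (.leaf 224 1597 (.cons 199 (.leaf 175 1404 (.leaf 176 1405 .nil)) .nil)) .nil))) .nil))) .nil)) (.cons 245 (.leaf 246 1960 (.cons 297 t188 .nil)) (.cons 245 (.leaf 246 1960 (.cons 270 (.cons 294 (.leaf 293 2154 (.cons 223 (.leaf 199 1590 (.cons 269 (.leaf 244 1955 (.leaf 268 1953 .nil)) .nil)) .nil)) (.cons 294 (.leaf 293 2154 (.cons 223 (.leaf 199 1590 (.cons 297 (.leaf 298 2160 (.cons 224 (.leaf 200 1604 (.cons 295 (.leaf 319 1789 (.cons 222 (.leaf 198 1591 (.cons 221 (.leaf 220 1760 (.leaf 244 1762 .nil)) .nil)) .nil)) .nil)) .nil)) .nil)) .nil)) (.cons 269 (.leaf 244 1955 (.leaf 268 1953 .nil)) (.cons 269 (.leaf 268 1953 (.cons 293 (.leaf 292 2146 (.leaf 294 2154 .nil)) .nil)) .nil)))) .nil)) .nil))))))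
noncomputable def t190 : T := .cons 298 (.cons 203 (.leaf 227 1621 (.cons 202 (.leaf 299 1620 (.leaf 179 1429 .nil)) .nil)) (.cons 225 (.leaf 201 1615 (.cons 224 (.leaf 227 1786 (.cons 223 (.leaf 251 1784 (.cons 199 (.leaf 175 1404 (.leaf 198 1587 .nil)) .nil)) .nil)) .nil)) (.cons 299 (.leaf 202 1620 (.leaf 323 1812 .nil)) .nil))) (.cons 298 (.cons 203 (.leaf 227 1621 (.cons 321 (.leaf 297 1806 (.cons 322 (.leaf 345 1998 (.cons 323 (.leaf 299 1812 (.leaf 347 2004 .nil)) .nil)) .nil)) .nil)) (.cons 323 (.leaf 299 1812 (.cons 201 (.leaf 225 1615 (.cons 321 (.leaf 297 1806 (.cons 322 (.leaf 345 1998 (.leaf 347 2004 .nil)) .nil)) .nil)) .nil)) (.cons 225 (.leaf 201 1615 (.cons 224 (.leaf 227 1786 (.cons 223 (.leaf 251 1784 (.cons 199 (.leaf 175 1404 (.leaf 198 1587 .nil)) .nil)) .nil)) .nil)) .nil))) (.cons 202 (.cons 177 (.leaf 201 1423 (.cons 203 (.leaf 179 1429 (.cons 298 (.leaf 227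 1621 (.cons 178 (.leaf 251 1428 (.leaf 153 1231 .nil)) .nil)) .nil)) .nil)) (.cons 177 (.leaf 201 1423 (.cons 203 (.leaf 179 1429 (.cons 298 (.leaf 227 1621 (.cons 321 (.leaf 297 1806 (.cons 322 (.leaf 345 1998 (.cons 346 (.leaf 251 2005 (.cons 347 (.leaf 323 2004 (.leaf 371 2196 .nil)) .nil)) .nil)) .nil)) .nil)) .nil)) .nil)) (.cons 178 (.leaf 251 1428 (.cons 179 (.leaf 203 1429 (.leaf 155 1237 .nil)) .nil)) (.cons 177 (.leaf 201 1423 (.cons 178 (.leaf 251 1428 (.leaf 153 1231 .nil)) .nil)) (.cons 201 (.leaf 177 1423 (.cons 203 (.leaf 179 1429 (.cons 298 (.leaf 225 1615 (.leaf 227 1621 .nil)) .nil)) .nil)) .nil))))) (.cons 202 (.leaf 299 1620 (.cons 177 (.leaf 201 1423 (.cons 178 (.leaf 251 1428 (.leaf 153 1231 .nil)) .nil)) .nil)) (.cons 299 (.leaf 202 1620 (.cons 323 (.leaf 347 2007 (.leaf 298 1812 .nil)) .nil)) .nil))))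
noncomputable def t191 : T := .cons 222 (.leaf 221 1771 (.cons 223 (.leaf 250 1779 (.cons 175 (.leaf 199 1404 (.cons 270 (.leaf 269 1962 (.cons 294 (.leaf 318 1781 (.cons 225 (.leaf 226 1777 (.cons 295 (.leaf 319 1780 (.cons 198 (.leaf 271 1588 (.cons 174 (.leaf 150 1204 (.leaf 151 1205 .nil)) .nil)) .nil)) .nil)) .nil)) .nil)) .nil)) .nil)) .nil)) (.cons 222 (.leaf 221 1771 (.cons 223 (.leaf 250 1779 (.cons 175 (.leaf 199 1404 (.cons 225 (.leaf 226 1777 (.cons 201 (.leaf 177 1414 (.cons 224 (.leaf 202 1585 (.cons 198 (.leaf 197 1579 (.cons 174 (.leaf 150 1204 (.leaf 271 1396 .nil)) .nil)) .nil)) .nil)) .nil)) .nil)) .nil)) .nil)) (.cons 270 (.leaf 269 1962 (.cons 226 (.leaf 225 1777 (.cons 250 (.leaf 227 1785 (.leaf 271 1970 .nil)) .nil)) .nil)) (.cons 270 (.leaf 269 1962 (.cons 222 (.leaf 221 1771 (.cons 198 (.cons 173 (.leaf 197 1391 (.cons 199 (.leaf 175 1397 (.cons 223 (.leaf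 250 1779 (.leaf 294 1589 .nil)) .nil)) .nil)) (.cons 173 (.leaf 197 1391 (.cons 199 (.leaf 175 1397 (.cons 223 (.leaf 294 1589 (.cons 271 (.leaf 174 1396 (.leaf 295 1588 .nil)) .nil)) .nil)) .nil)) (.cons 271 (.leaf 250 1970 (.leaf 174 1396 .nil)) .nil))) .nil)) .nil)) (.cons 222 (.leaf 221 1771 (.cons 223 (.leaf 250 1779 (.cons 175 (.leaf 199 1404 (.cons 225 (.leaf 226 1777 (.cons 201 (.leaf 177 1414 (.cons 224 (.leaf 202 1585 (.cons 198 (.leaf 197 1579 (.cons 174 (.leaf 150 1204 (.leaf 151 1205 .nil)) .nil)) .nil)) .nil)) .nil)) .nil)) .nil)) .nil)) (.cons 270 (.leaf 269 1962 (.cons 222 (.leaf 221 1771 (.cons 198 (.cons 173 (.leaf 197 1391 (.cons 199 (.leaf 175 1397 (.cons 149 (.leaf 174 1199 (.cons 225 (.leaf 226 1777 (.cons 294 (.leaf 223 1589 (.cons 177 (.leaf 201 1414 (.cons 317 (.leaf 293 1774 (.cons 318 (.leaf 341 1966 (.cons 319 (.leaf 295 1780 (.leaf 343 1972 .nil)) .nil))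 .nil)) .nil)) .nil)) .nil)) .nil)) .nil)) .nil)) (.cons 271 (.leaf 174 1396 (.leaf 295 1588 .nil)) (.cons 173 (.leaf 197 1391 (.cons 199 (.leaf 175 1397 (.cons 223 (.leaf 294 1589 (.cons 271 (.leaf 295 1588 (.cons 200 (.leaf 176 1405 (.cons 201 (.leaf 202 1586 (.cons 177 (.leaf 224 1413 (.leaf 225 1414 .nil)) .nil)) .nil)) .nil)) .nil)) .nil)) .nil)) (.cons 173 (.leaf 197 1391 (.cons 174 (.leaf 271 1396 (.leaf 149 1199 .nil)) .nil)) .nil)))) .nil)) .nil)) .nil)))))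
noncomputable def t192 : T := .leaf 274 1979 (.cons 246 (.leaf 245 1960 (.cons 249 (.cons 270 (.leaf 269 1962 (.cons 250 (.leaf 271 1969 (.cons 251 (.leaf 252 1986 (.cons 224 (.leaf 223 1787 (.cons 226 (.leaf 225 1777 (.leaf 227 1785 .nil)) .nil)) .nil)) .nil)) .nil)) (.cons 226 (.leaf 225 1777 (.cons 250 (.leaf 227 1785 (.cons 178 (.leaf 202 1422 (.cons 251 (.leaf 271 1978 (.leaf 252 1986 .nil)) .nil)) .nil)) .nil)) (.cons 270 (.leaf 269 1962 (.cons 250 (.leaf 271 1969 (.cons 251 (.leaf 252 1986 (.cons 224 (.leaf 223 1787 (.cons 297 (.leaf 200 1604 (.leaf 321 1799 .nil)) .nil)) .nil)) .nil)) .nil)) (.cons 270 (.leaf 269 1962 (.cons 222 (.leaf 221 1771 (.cons 271 (.cons 198 (.leaf 174 1396 (.leaf 295 1588 .nil)) (.cons 297 (.leaf 298 2160 (.cons 224 (.leaf 200 1604 (.leaf 321 1799 .nil)) .nil)) .nil)) .nil)) .nil)) (.cons 226 (.leaf 225 1777 (.cons 250 (.leaf 227 1785 (.cons 178 (.leaf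 202 1422 (.cons 251 (.leaf 252 1986 (.cons 224 (.leaf 223 1787 (.cons 297 (.leaf 200 1604 (.leaf 321 1805 .nil)) .nil)) .nil)) .nil)) .nil)) .nil)) .nil))))) .nil)) .nil)
noncomputable def t193 : T := .cons 273 t192 (.cons 249 (.cons 250 (.leaf 274 1976 (.cons 271 (.leaf 251 1978 (.leaf 270 1970 .nil)) .nil)) (.cons 246 t134 (.cons 250 (.leaf 274 1976 (.cons 222 (.leaf 223 1779 (.cons 226 (.leaf 227 1785 (.cons 246 (.leaf 221 1771 (.leaf 225 1777 .nil)) .nil)) .nil)) .nil)) .nil))) (.cons 246 (.cons 245 (.leaf 273 1960 (.cons 224 (.leaf 225 1769 (.cons 220 (.leaf 221 1763 (.cons 244 (.leaf 271 1952 (.leaf 219 1755 .nil)) .nil)) .nil)) .nil)) (.cons 249 t191 (.cons 245 (.leaf 273 1960 (.cons 220 (.leaf 221 1763 (.cons 225 (.leaf 224 1769 (.cons 249 (.leaf 226 1777 (.cons 269 (.leaf 268 1954 (.leaf 270 1962 .nil)) .nil)) .nil)) .nil)) .nil)) (.cons 245 (.leaf 273 1960 (.cons 220 (.leaf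 221 1763 (.cons 244 (.leaf 271 1952 (.leaf 219 1755 .nil)) .nil)) .nil)) (.cons 245 (.leaf 273 1960 (.cons 224 (.leaf 225 1769 (.cons 244 (.leaf 271 1952 (.leaf 223 1761 .nil)) .nil)) .nil)) .nil))))) (.cons 274 (.leaf 273 1979 (.cons 250 (.leaf 249 1976 (.cons 226 t190 .nil)) .nil)) (.cons 273 (.leaf 274 1979 (.cons 271 t189 .nil)) (.cons 273 (.leaf 274 1979 (.cons 246 (.leaf 245 1960 (.cons 249 (.cons 270 (.leaf 269 1962 (.cons 250 (.leaf 271 1969 (.cons 227 (.leaf 226 1785 (.cons 251 (.leaf 252 1986 (.leaf 228 1793 .nil)) .nil)) .nil)) .nil)) (.cons 225 (.leaf 226 1777 (.cons 177 (.leaf 201 1414 (.cons 222 (.leaf 221 1771 (.cons 250 (.leaf 223 1779 (.cons 251 (.leaf 271 1978 (.leaf 252 1986 .nil)) .nil)) .nil)) .nil)) .nil)) (.cons 270 (.leaf 269 1962 (.cons 222 (.leaf 221 1771 (.cons 225 (.leaf 226 1777 (.cons 201 (.leaf 177 1414 (.cons 202 (.leaf 178 1421 (.cons 200 (.leaf 176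 1415 (.cons 199 (.leaf 223 1586 (.cons 175 (.leaf 198 1397 (.leaf 174 1395 .nil)) .nil)) .nil)) .nil)) .nil)) .nil)) .nil)) .nil)) (.cons 270 (.leaf 269 1962 (.cons 250 (.leaf 271 1969 (.cons 222 (.leaf 221 1771 (.leaf 223 1779 .nil)) .nil)) .nil)) .nil)))) .nil)) .nil)) (.cons 273 t129 (.cons 273 (.leaf 274 1979 (.cons 246 (.leaf 245 1960 (.cons 249 (.cons 225 (.leaf 226 1777 (.cons 177 (.leaf 201 1414 (.cons 222 (.leaf 221 1771 (.cons 250 (.leaf 223 1779 (.cons 251 (.leaf 271 1978 (.leaf 252 1986 .nil)) .nil)) .nil)) .nil)) .nil)) (.cons 270 (.leaf 269 1962 (.cons 271 (.leaf 250 1969 (.cons 293 (.leaf 294 2154 (.cons 297 (.leaf 298 2160 (.cons 321 (.leaf 345 1991 (.leaf 224 1799 .nil)) .nil)) .nil)) .nil)) .nil)) (.cons 225 (.leaf 226 1777 (.cons 201 (.leaf 177 1414 (.cons 178 (.leaf 202 1421 (.cons 200 (.leaf 176 1415 (.cons 297 (.leaf 224 1604 (.cons 269 (.leaf 270 1962 (.cons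 321 (.leaf 345 1991 (.cons 322 (.leaf 298 1804 (.leaf 346 1996 .nil)) .nil)) .nil)) .nil)) .nil)) .nil)) .nil)) .nil)) .nil))) .nil)) .nil)) .nil)))))))
noncomputable def t194 : T := .cons 224 (.cons 199 (.leaf 223 1599 (.cons 200 (.leaf 175 1407 (.cons 297 (.leaf 273 1604 (.leaf 321 1796 .nil)) .nil)) .nil)) (.cons 295 (.leaf 319 1790 (.cons 200 (.leaf 271 1598 (.cons 201 (.leaf 177 1413 (.leaf 225 1605 .nil)) .nil)) .nil)) (.cons 199 (.leaf 223 1599 (.cons 295 (.leaf 319 1790 (.cons 297 (.leaf 321 1796 (.cons 274 (.leaf 273 2170 (.leaf 298 2169 .nil)) .nil)) .nil)) .nil)) .nil))) (.cons 320 (.cons 343 (.leaf 319 1982 (.cons 344 (.leaf 367 2174 (.cons 345 (.leaf 321 1988 (.leaf 369 2180 .nil)) .nil)) .nil)) (.cons 249 (.leaf 225 1797 (.cons 273 (.leaf 344 1989 (.cons 274 (.leaf 295 2170 (.cons 251 (.leaf 252 1985 (.cons 250 (.leaf 271 1977 (.cons 299 (.leaf 300 2176 (.cons 226 (.leaf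 202 1620 (.leaf 323 1815 .nil)) .nil)) .nil)) .nil)) .nil)) .nil)) .nil)) (.cons 319 (.leaf 343 1982 (.cons 321 (.leaf 345 1988 (.cons 249 (.leaf 225 1797 (.cons 298 (.cons 297 (.leaf 299 2362 (.leaf 318 2353 .nil)) (.cons 322 (.leaf 299 2361 (.cons 346 (.leaf 347 2552 (.cons 274 (.leaf 251 2005 (.leaf 273 1999 .nil)) .nil)) .nil)) (.cons 297 (.leaf 318 2353 (.cons 274 (.leaf 295 2169 (.cons 250 (.leaf 226 1806 (.cons 251 (.leaf 271 1978 (.cons 227 (.leaf 203 1622 (.leaf 228 1793 .nil)) .nil)) .nil)) .nil)) .nil)) .nil))) .nil)) .nil)) .nil)) .nil))) (.cons 224 (.cons 199 (.leaf 223 1599 (.cons 200 (.leaf 175 1407 (.cons 297 (.leaf 273 1604 (.leaf 321 1796 .nil)) .nil)) .nil)) (.cons 199 (.leaf 223 1599 (.cons 200 (.leaf 175 1407 (.cons 201 (.leaf 177 1413 (.leaf 225 1605 .nil)) .nil)) .nil)) (.cons 201 (.leaf 225 1605 (.cons 200 (.leaf 177 1413 (.cons 297 (.leaf 273 1604 (.leaf 321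 1796 .nil)) .nil)) .nil)) (.cons 199 (.leaf 223 1599 (.cons 225 (.leaf 201 1605 (.cons 320 (.leaf 249 1797 (.cons 321 (.leaf 297 1796 (.leaf 345 1988 .nil)) .nil)) .nil)) .nil)) .nil)))) (.cons 224 (.cons 199 (.leaf 223 1599 (.cons 200 (.leaf 175 1407 (.cons 201 (.leaf 177 1413 (.leaf 225 1605 .nil)) .nil)) .nil)) (.cons 199 (.leaf 223 1599 (.cons 175 (.leaf 200 1407 (.cons 295 (.leaf 319 1790 (.cons 297 (.leaf 321 1796 (.cons 298 (.leaf 274 2169 (.cons 271 (.leaf 299 2171 (.leaf 270 2163 .nil)) .nil)) .nil)) .nil)) .nil)) .nil)) (.cons 201 (.leaf 225 1605 (.cons 177 (.leaf 200 1413 (.cons 295 (.leaf 319 1790 (.cons 297 (.leaf 321 1796 (.cons 298 (.leaf 274 2169 (.cons 271 (.leaf 299 2171 (.leaf 270 2163 .nil)) .nil)) .nil)) .nil)) .nil)) .nil)) (.cons 199 (.leaf 223 1599 (.cons 225 (.leaf 201 1605 (.cons 320 (.leaf 249 1797 (.cons 321 (.leaf 297 1796 (.leaf 345 1988 .nil)) .nil))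 .nil)) .nil)) .nil)))) (.cons 224 (.cons 199 (.leaf 223 1599 (.cons 200 (.leaf 175 1407 (.cons 201 (.leaf 177 1413 (.leaf 225 1605 .nil)) .nil)) .nil)) (.cons 199 (.leaf 223 1599 (.cons 200 (.leaf 175 1407 (.cons 295 (.leaf 271 1598 (.leaf 319 1790 .nil)) .nil)) .nil)) (.cons 201 (.leaf 225 1605 (.cons 200 (.leaf 177 1413 (.cons 295 (.leaf 271 1598 (.leaf 319 1790 .nil)) .nil)) .nil)) (.cons 199 (.leaf 223 1599 (.cons 225 (.leaf 201 1605 (.cons 319 (.leaf 295 1790 (.cons 320 (.leaf 249 1797 (.leaf 343 1982 .nil)) .nil)) .nil)) .nil)) .nil)))) (.cons 224 (.cons 199 (.leaf 223 1599 (.cons 295 (.leaf 319 1790 (.cons 297 (.leaf 321 1796 (.cons 200 (.leaf 175 1407 (.leaf 271 1598 .nil)) .nil)) .nil)) .nil)) (.cons 199 (.leaf 223 1599 (.cons 200 (.leaf 175 1407 (.cons 297 (.leaf 273 1604 (.leaf 321 1796 .nil)) .nil)) .nil)) (.cons 295 (.leaf 319 1790 (.cons 200 (.leaf 271 1598 (.cons 175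 (.leaf 199 1407 (.cons 176 (.leaf 151 1215 (.cons 177 (.leaf 201 1413 (.leaf 153 1221 .nil)) .nil)) .nil)) .nil)) .nil)) (.cons 295 (.leaf 319 1790 (.cons 200 (.leaf 271 1598 (.cons 297 (.leaf 273 1604 (.leaf 321 1796 .nil)) .nil)) .nil)) (.cons 199 (.leaf 223 1599 (.cons 295 (.leaf 319 1790 (.cons 297 (.leaf 321 1796 (.cons 274 (.leaf 273 2170 (.leaf 298 2169 .nil)) .nil)) .nil)) .nil)) .nil))))) .nil)))))
noncomputable def t195 : T := .cons 224 (.cons 295 (.leaf 319 1790 (.cons 200 (.leaf 271 1598 (.cons 201 (.leaf 177 1413 (.leaf 225 1605 .nil)) .nil)) .nil)) (.cons 223 (.leaf 199 1599 (.cons 320 (.leaf 247 1791 (.cons 321 (.leaf 297 1796 (.leaf 345 1988 .nil)) .nil)) .nil)) .nil)) (.cons 224 (.cons 199 (.leaf 223 1599 (.cons 175 (.leaf 200 1407 (.cons 295 (.leaf 319 1790 (.cons 297 (.leaf 321 1796 (.cons 298 (.leaf 274 2169 (.cons 271 (.leaf 299 2171 (.leaf 270 2163 .nil)) .nil))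 .nil)) .nil)) .nil)) .nil)) (.cons 199 (.leaf 223 1599 (.cons 200 (.leaf 175 1407 (.cons 201 (.leaf 177 1413 (.leaf 225 1605 .nil)) .nil)) .nil)) (.cons 295 (.leaf 319 1790 (.cons 200 (.leaf 271 1598 (.cons 201 (.leaf 177 1413 (.leaf 225 1605 .nil)) .nil)) .nil)) (.cons 199 (.leaf 223 1599 (.cons 201 (.leaf 225 1605 (.cons 295 (.leaf 319 1790 (.cons 297 (.leaf 321 1796 (.cons 298 (.leaf 274 2169 (.cons 271 (.leaf 299 2171 (.leaf 270 2163 .nil)) .nil)) .nil)) .nil)) .nil)) .nil)) .nil)))) (.cons 320 (.cons 225 (.leaf 249 1797 (.cons 247 (.leaf 223 1791 (.cons 344 (.leaf 271 1983 (.cons 343 (.leaf 319 1982 (.leaf 367 2174 .nil)) .nil)) .nil)) .nil)) (.cons 225 (.leaf 249 1797 (.cons 343 (.leaf 319 1982 (.cons 344 (.leaf 367 2174 (.cons 345 (.leaf 321 1988 (.leaf 369 2180 .nil)) .nil)) .nil)) .nil)) (.cons 247 (.leaf 223 1791 (.cons 249 (.leaf 225 1797 (.cons 250 (.leaf 274 1976 (.cons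 271 (.leaf 344 1983 (.leaf 251 1978 .nil)) .nil)) .nil)) .nil)) (.cons 223 (.leaf 247 1791 (.cons 343 (.leaf 319 1982 (.cons 344 (.leaf 367 2174 (.cons 345 (.leaf 321 1988 (.leaf 369 2180 .nil)) .nil)) .nil)) .nil)) (.cons 247 (.leaf 223 1791 (.cons 249 (.leaf 225 1797 (.cons 250 (.leaf 274 1976 (.cons 271 (.leaf 251 1978 (.leaf 270 1970 .nil)) .nil)) .nil)) .nil)) .nil))))) (.cons 320 (.cons 319 (.leaf 343 1982 (.cons 224 (.leaf 295 1790 (.cons 321 (.leaf 297 1796 (.leaf 345 1988 .nil)) .nil)) .nil)) (.cons 225 (.leaf 249 1797 (.cons 224 (.leaf 201 1605 (.cons 321 (.leaf 297 1796 (.leaf 345 1988 .nil)) .nil)) .nil)) (.cons 225 (.leaf 249 1797 (.cons 224 (.leaf 201 1605 (.cons 319 (.leaf 295 1790 (.leaf 343 1982 .nil)) .nil)) .nil)) (.cons 343 (.leaf 319 1982 (.cons 344 (.leaf 367 2174 (.cons 345 (.leaf 321 1988 (.leaf 369 2180 .nil)) .nil)) .nil)) .nil)))) (.cons 224 (.cons 201 (.leaf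 225 1605 (.cons 200 (.leaf 177 1413 (.cons 271 (.leaf 295 1598 (.cons 247 (.leaf 176 1406 (.cons 320 (.leaf 223 1791 (.leaf 344 1983 .nil)) .nil)) .nil)) .nil)) .nil)) (.cons 225 (.leaf 201 1605 (.cons 320 (.leaf 249 1797 (.cons 321 (.leaf 297 1796 (.leaf 345 1988 .nil)) .nil)) .nil)) (.cons 223 (.leaf 199 1599 (.cons 320 (.leaf 247 1791 (.cons 321 (.leaf 297 1796 (.leaf 345 1988 .nil)) .nil)) .nil)) (.cons 199 (.leaf 223 1599 (.cons 200 (.leaf 175 1407 (.cons 201 (.leaf 177 1413 (.leaf 225 1605 .nil)) .nil)) .nil)) .nil)))) (.cons 224 (.cons 199 (.leaf 223 1599 (.cons 200 (.leaf 175 1407 (.cons 201 (.leaf 177 1413 (.leaf 225 1605 .nil)) .nil)) .nil)) (.cons 295 (.leaf 319 1790 (.cons 200 (.leaf 271 1598 (.cons 201 (.leaf 177 1413 (.leaf 225 1605 .nil)) .nil)) .nil)) (.cons 295 (.leaf 319 1790 (.cons 200 (.leaf 271 1598 (.cons 175 (.leaf 199 1407 (.cons 176 (.leaf 151 1215 (.cons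 177 (.leaf 201 1413 (.leaf 153 1221 .nil)) .nil)) .nil)) .nil)) .nil)) (.cons 199 (.leaf 223 1599 (.cons 200 (.leaf 175 1407 (.cons 295 (.leaf 271 1598 (.leaf 319 1790 .nil)) .nil)) .nil)) (.cons 199 (.leaf 223 1599 (.cons 225 (.leaf 201 1605 (.cons 319 (.leaf 295 1790 (.cons 320 (.leaf 249 1797 (.leaf 343 1982 .nil)) .nil)) .nil)) .nil)) .nil))))) (.cons 320 (.cons 223 (.leaf 247 1791 (.cons 343 (.leaf 319 1982 (.cons 344 (.leaf 367 2174 (.cons 345 (.leaf 321 1988 (.leaf 369 2180 .nil)) .nil)) .nil)) .nil)) (.cons 223 (.leaf 247 1791 (.cons 224 (.leaf 199 1599 (.cons 321 (.leaf 297 1796 (.leaf 345 1988 .nil)) .nil)) .nil)) (.cons 223 (.leaf 247 1791 (.cons 224 (.leaf 199 1599 (.cons 319 (.leaf 295 1790 (.leaf 343 1982 .nil)) .nil)) .nil)) (.cons 343 (.leaf 319 1982 (.cons 344 (.leaf 367 2174 (.cons 345 (.leaf 321 1988 (.leaf 369 2180 .nil)) .nil)) .nil)) .nil)))) .nil))))))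
noncomputable def t196 : T := .cons 296 (.leaf 295 2170 (.cons 251 (.leaf 252 1985 (.cons 299 (.leaf 300 2176 (.cons 320 (.cons 225 (.leaf 249 1797 (.cons 224 (.leaf 201 1605 (.cons 297 (.leaf 200 1604 (.leaf 321 1796 .nil)) .nil)) .nil)) (.cons 271 (.leaf 250 1977 (.leaf 298 2168 .nil)) .nil)) .nil)) .nil)) .nil)) (.cons 251 (.leaf 252 1985 (.cons 299 (.leaf 300 2176 (.cons 271 (.leaf 250 1977 (.leaf 298 2168 .nil)) .nil)) .nil)) (.cons 295 (.leaf 296 2170 (.cons 271 (.leaf 294 2162 (.cons 299 (.leaf 300 2176 (.leaf 298 2168 .nil)) .nil)) .nil)) (.cons 296 (.leaf 295 2170 (.cons 251 (.leaf 252 1985 (.cons 224 (.cons 199 (.leaf 223 1599 (.cons 200 (.leaf 175 1407 (.leaf 297 1604 .nil)) .nil)) (.cons 199 (.leaf 223 1599 (.cons 200 (.leaf 175 1407 (.cons 201 (.leaf 177 1413 (.leaf 225 1605 .nil)) .nil)) .nil)) (.cons 199 (.leaf 223 1599 (.cons 201 (.leaf 225 1605 (.cons 321 (.leaf 297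 1796 (.cons 320 (.leaf 345 1988 (.cons 344 (.leaf 249 1989 (.cons 343 (.leaf 319 1982 (.leaf 367 2174 .nil)) .nil)) .nil)) .nil)) .nil)) .nil)) (.cons 297 (.leaf 200 1604 (.leaf 321 1796 .nil)) .nil)))) .nil)) .nil)) .nil)))
noncomputable def t197 : T := .cons 199 (.leaf 223 1599 (.cons 201 (.leaf 225 1605 (.cons 321 (.leaf 297 1796 (.cons 320 (.leaf 345 1988 (.cons 343 (.leaf 319 1982 (.cons 344 (.leaf 249 1989 (.leaf 367 2174 .nil)) .nil)) .nil)) .nil)) .nil)) .nil)) (.cons 225 (.leaf 201 1605 (.cons 199 (.leaf 223 1599 (.cons 320 (.leaf 249 1797 (.cons 345 (.leaf 321 1988 (.cons 319 (.leaf 295 1790 (.leaf 343 1982 .nil)) .nil)) .nil)) .nil)) .nil)) (.cons 321 (.leaf 297 1796 (.cons 295 (.leaf 319 1790 (.cons 293 (.leaf 294 2153 (.cons 320 (.leaf 345 1988 (.cons 322 (.leaf 323 2363 (.cons 344 (.leaf 249 1989 (.cons 271 (.leaf 247 1983 (.leaf 368 2175 .nil)) .nil)) .nil)) .nil))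 .nil)) .nil)) .nil)) (.cons 225 (.leaf 201 1605 (.cons 199 (.leaf 223 1599 (.cons 320 (.leaf 249 1797 (.cons 343 (.leaf 319 1982 (.cons 344 (.leaf 367 2174 (.cons 247 (.leaf 271 1983 (.cons 246 (.leaf 245 1960 (.cons 226 (.leaf 227 1786 (.cons 368 (.leaf 297 2181 (.cons 369 (.leaf 345 2180 (.leaf 393 2372 .nil)) .nil)) .nil)) .nil)) .nil)) .nil)) .nil)) .nil)) .nil)) .nil)) (.cons 297 (.leaf 321 1796 (.cons 199 (.leaf 223 1599 (.cons 295 (.leaf 319 1790 (.cons 294 (.leaf 293 2153 (.cons 270 (.leaf 269 2155 (.cons 298 (.leaf 271 2160 (.cons 225 (.leaf 201 1605 (.cons 322 (.leaf 249 1804 (.leaf 323 2360 .nil)) .nil)) .nil)) .nil)) .nil)) .nil)) .nil)) .nil)) (.cons 297 (.leaf 321 1796 (.cons 199 (.leaf 223 1599 (.cons 295 (.leaf 319 1790 (.cons 294 (.leaf 293 2153 (.cons 270 (.leaf 269 2155 (.cons 298 (.leaf 271 2160 (.cons 299 (.leaf 300 2179 (.cons 323 (.leaf 322 2360 (.leaf 324 2368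 .nil)) .nil)) .nil)) .nil)) .nil)) .nil)) .nil)) .nil)) (.cons 297 (.leaf 321 1796 (.cons 223 (.leaf 199 1599 (.cons 320 (.leaf 247 1791 (.cons 344 (.leaf 249 1989 (.leaf 368 2181 .nil)) .nil)) .nil)) .nil)) .nil))))))
noncomputable def t198 : T := .cons 200 (.leaf 297 1604 (.cons 175 (.leaf 199 1407 (.cons 176 (.leaf 151 1215 (.leaf 249 1412 .nil)) .nil)) .nil)) (.cons 296 t197 (.cons 200 (.cons 175 (.leaf 199 1407 (.cons 176 (.leaf 151 1215 (.leaf 249 1412 .nil)) .nil)) (.cons 175 (.leaf 199 1407 (.cons 201 (.leaf 177 1413 (.cons 296 (.leaf 225 1605 (.cons 319 (.leaf 295 1790 (.cons 320 (.leaf 343 1982 (.cons 223 (.leaf 247 1791 (.cons 202 (.leaf 203 1594 (.cons 344 (.leaf 249 1989 (.cons 345 (.leaf 321 1988 (.leaf 369 2180 .nil)) .nil)) .nil)) .nil)) .nil)) .nil)) .nil)) .nil)) .nil)) (.cons 175 (.leaf 199 1407 (.cons 176 (.leaf 151 1215 (.cons 177 (.leaf 201 1413 (.leaf 153 1221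 .nil)) .nil)) .nil)) (.cons 176 (.leaf 249 1412 (.cons 177 (.leaf 201 1413 (.leaf 153 1221 .nil)) .nil)) .nil)))) (.cons 200 (.leaf 297 1604 (.cons 175 (.leaf 199 1407 (.cons 176 (.leaf 151 1215 (.cons 177 (.leaf 201 1413 (.leaf 153 1221 .nil)) .nil)) .nil)) .nil)) (.cons 200 (.leaf 297 1604 (.cons 176 (.leaf 249 1412 (.cons 177 (.leaf 201 1413 (.leaf 153 1221 .nil)) .nil)) .nil)) .nil))))
noncomputable def t199 : T := .cons 224 (.cons 200 (.leaf 297 1604 (.cons 175 (.leaf 199 1407 (.cons 176 (.leaf 151 1215 (.leaf 249 1412 .nil)) .nil)) .nil)) (.cons 274 (.leaf 247 1979 (.cons 251 (.leaf 252 1985 (.cons 295 (.leaf 296 2170 (.cons 271 (.leaf 250 1977 (.leaf 294 2162 .nil)) .nil)) .nil)) .nil)) .nil)) (.cons 224 t198 (.cons 274 t196 (.cons 274 (.leaf 247 1979 (.cons 251 (.leaf 252 1985 (.cons 299 (.leaf 300 2176 (.cons 271 (.leaf 250 1977 (.leaf 298 2168 .nil)) .nil)) .nil)) .nil))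 (.cons 274 (.leaf 247 1979 (.cons 296 (.leaf 295 2170 (.cons 251 (.leaf 252 1985 (.cons 299 (.leaf 300 2176 (.cons 320 (.cons 225 (.leaf 249 1797 (.cons 224 (.leaf 201 1605 (.cons 297 (.leaf 200 1604 (.leaf 321 1796 .nil)) .nil)) .nil)) (.cons 321 (.leaf 345 1988 (.cons 224 (.leaf 297 1796 (.cons 199 (.leaf 223 1599 (.cons 343 (.leaf 319 1982 (.cons 344 (.leaf 367 2174 (.cons 323 (.leaf 322 2554 (.cons 250 (.leaf 226 1815 (.leaf 347 2007 .nil)) .nil)) .nil)) .nil)) .nil)) .nil)) .nil)) (.cons 249 (.leaf 225 1797 (.leaf 344 1989 .nil)) .nil))) .nil)) .nil)) .nil)) .nil)) .nil))))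
noncomputable def top0 : T := .cons 273 t72 (.cons 296 (.cons 224 (.cons 295 (.leaf 319 1790 (.cons 200 (.leaf 271 1598 (.cons 201 (.leaf 177 1413 (.leaf 225 1605 .nil)) .nil)) .nil)) (.cons 223 (.leaf 199 1599 (.cons 320 (.leaf 247 1791 (.cons 321 (.leaf 297 1796 (.leaf 345 1988 .nil)) .nil)) .nil)) .nil)) t69) (.cons 296 (.cons 224 (.cons 199 (.leaf 223 1599 (.cons 295 (.leaf 319 1790 (.cons 297 (.leaf 321 1796 (.cons 200 (.leaf 175 1407 (.leaf 271 1598 .nil)) .nil)) .nil)) .nil)) (.cons 199 (.leaf 223 1599 (.cons 200 (.leaf 175 1407 (.cons 297 (.leaf 273 1604 (.leaf 321 1796 .nil)) .nil)) .nil)) (.cons 295 (.leaf 319 1790 (.cons 200 (.leaf 271 1598 (.cons 201 (.leaf 177 1413 (.leaf 225 1605 .nil)) .nil)) .nil)) (.cons 199 (.leaf 223 1599 (.cons 295 (.leaf 319 1790 (.cons 297 (.leaf 321 1796 (.cons 274 (.leaf 273 2170 (.leaf 298 2169 .nil)) .nil)) .nil)) .nil)) .nil)))) t68) (.cons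 247 t67 (.cons 247 t58 (.cons 224 t50 (.cons 273 t45 (.cons 273 t42 (.cons 247 t39 (.cons 247 t34 (.cons 273 t28 (.cons 247 t25 (.cons 273 t20 (.cons 247 t18 (.cons 273 t12 (.cons 273 t10 (.cons 247 (t7) (.cons 273 t4 (.cons 273 t2 .nil))))))))))))))))))
noncomputable def top1 : T := .cons 273 t140 (.cons 296 (t138) (.cons 296 t137 (.cons 247 (t135) (.cons 247 t127 (.cons 224 t119 (.cons 273 t116 (.cons 273 t113 (.cons 247 (t110) (.cons 247 t107 (.cons 247 t102 (.cons 273 t98 (.cons 247 (.cons 273 (.leaf 274 1979 (.cons 246 t94 .nil)) t93) (.cons 273 t90 (.cons 273 t87 (.cons 273 t85 (.cons 247 t82 (.cons 273 (.cons 274 (.leaf 247 1979 (.cons 299 (.leaf 300 2176 (.cons 251 (.leaf 252 1985 (.cons 323 (.cons 250 (.leaf 226 1815 (.leaf 347 2007 .nil)) (.cons 322 (.leaf 346 2006 (.cons 348 (.leaf 324 2012 (.cons 347 (.leaf 372 2204 (.cons 298 (.leaf 227 1814 (.leaf 271 2168 .nil)) .nil))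 .nil)) .nil)) (.cons 226 (.leaf 250 1815 (.cons 227 (.leaf 202 1623 (.cons 322 (.leaf 298 1814 (.leaf 346 2006 .nil)) .nil)) .nil)) .nil))) .nil)) .nil)) .nil)) (.cons 224 t78 (.cons 274 t76 (.cons 274 (.leaf 247 1979 (.cons 296 (.leaf 295 2170 (.cons 299 (.leaf 300 2176 (.cons 224 t75 .nil)) .nil)) .nil)) (.cons 274 (.leaf 247 1979 (.cons 299 (.leaf 300 2176 (.cons 251 (.leaf 252 1985 (.cons 271 (.leaf 250 1977 (.leaf 298 2168 .nil)) .nil)) .nil)) .nil)) .nil))))) (.cons 273 t74 .nil))))))))))))))))))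
noncomputable def top2 : T := .cons 273 t199 (.cons 296 t195 (.cons 296 t194 (.cons 247 t193 (.cons 247 t187 (.cons 224 t183 (.cons 273 t181 (.cons 273 t178 (.cons 247 (t175) (.cons 247 t171 (.cons 247 t165 (.cons 273 t162 (.cons 273 t159 (.cons 273 (.cons 274 (.leaf 247 1979 (.cons 296 (.leaf 295 2170 (.cons 299 (.leaf 300 2176 (.cons 224 (.cons 199 (.leaf 223 1599 (.cons 321 (.leaf 297 1796 (.cons 201 (.leaf 225 1605 (.cons 320 (.leaf 345 1988 (.cons 343 (.leaf 319 1982 (.cons 344 (.leaf 249 1989 (.leaf 367 2174 .nil)) .nil)) .nil)) .nil)) .nil)) .nil)) (.cons 225 (.leaf 201 1605 (.cons 199 (.leaf 223 1599 (.cons 200 (.leaf 175 1407 (.cons 249 (.leaf 320 1797 (.leaf 176 1412 .nil)) .nil)) .nil)) .nil)) (.cons 297 (.leaf 200 1604 (.leaf 321 1796 .nil)) .nil))) .nil)) .nil)) .nil)) (.cons 224 t157 (.cons 274 t155 (.cons 274 (.leaf 247 1979 (.cons 299 (.leaf 300 2176 (.cons 251 (.leaf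 252 1985 (.cons 298 (.leaf 271 2168 (.cons 322 (.leaf 227 1814 (.leaf 346 2005 .nil)) .nil)) .nil)) .nil)) .nil)) .nil)))) (.cons 247 t154 (.cons 273 t149 (.cons 247 (t148) (.cons 273 t145 (.cons 273 t143 .nil))))))))))))))))))

end Vale.Agent.P062.PB.N5D15
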