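import Vale.Agent.P062.Checker

namespace Vale.Agent.P062.PB.N5D2

open Vale.Agent.P062

noncomputable def t0 : T := .cons 247 (.leaf 274 1979 (.cons 246 (.leaf 245 1960 (.cons 249 (.cons 225 (.leaf 201 1606 (.leaf 320 1797 .nil)) (.cons 320 (.leaf 223 1791 (.leaf 344 1989 .nil)) (.cons 225 (.leaf 201 1606 (.leaf 226 1777 .nil)) .nil))) .nil)) .nil)) (.cons 224 (.cons 297 (.leaf 200 1604 (.leaf 321 1796 .nil)) (.cons 199 (.leaf 223 1599 (.cons 200 (.leaf 175 1407 (.cons 201 (.leaf 177 1413 (.leaf 225 1605 .nil)) .nil)) .nil)) (.cons 199 (.leaf 223 1599 (.cons 201 (.leaf 225 1605 (.cons 321 (.leaf 297 1796 (.cons 320 (.leaf 345 1988 (.cons 343 (.leaf 319 1982 (.cons 344 (.leaf 249 1989 (.leaf 367 2174 .nil)) .nil)) .nil)) .nil)) .nil)) .nil)) .nil))) (.cons 247 (.leaf 274 1979 (.cons 246 (.leaf 245 1960 (.cons 224 (.cons 201 (.leaf 225 1605 (.cons 200 (.leaf 177 1413 (.leaf 297 1604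 .nil)) .nil)) (.cons 201 (.leaf 225 1605 (.cons 200 (.leaf 177 1413 (.cons 176 (.leaf 249 1412 (.leaf 271 1406 .nil)) .nil)) .nil)) (.cons 199 (.leaf 223 1599 (.cons 225 (.leaf 201 1605 (.cons 226 (.leaf 227 1786 (.leaf 249 1777 .nil)) .nil)) .nil)) (.cons 297 (.leaf 200 1604 (.leaf 321 1796 .nil)) .nil)))) .nil)) .nil)) (.cons 247 (.leaf 274 1979 (.cons 223 (.leaf 320 1791 (.cons 199 (.leaf 175 1404 (.leaf 224 1599 .nil)) .nil)) .nil)) (.cons 247 (.leaf 274 1979 (.cons 246 (.leaf 245 1960 (.cons 249 (.cons 225 (.leaf 201 1606 (.leaf 320 1797 .nil)) (.cons 270 (.leaf 269 1962 (.cons 250 (.leaf 271 1969 (.cons 221 (.leaf 222 1771 (.cons 226 (.leaf 227 1785 (.cons 178 (.leaf 202 1422 (.cons 320 (.leaf 344 1989 (.cons 321 (.leaf 345 1988 (.leaf 297 1805 .nil)) .nil)) .nil)) .nil)) .nil)) .nil)) .nil)) (.cons 225 (.leaf 201 1606 (.leaf 226 1777 .nil)) .nil))) .nil)) .nil)) .nil))))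
noncomputable def t1 : T := .cons 320 (.leaf 344 1989 (.cons 225 (.leaf 201 1606 (.leaf 248 1797 .nil)) .nil)) (.cons 225 (.leaf 201 1606 (.cons 297 (.cons 200 (.leaf 224 1607 (.cons 226 (.leaf 202 1613 (.cons 321 (.leaf 250 1805 (.cons 345 (.leaf 248 1991 (.leaf 369 2183 .nil)) .nil)) .nil)) .nil)) (.cons 298 (.leaf 322 1804 (.cons 271 (.leaf 270 2160 (.leaf 299 2171 .nil)) .nil)) .nil)) .nil)) (.cons 320 (.leaf 344 1989 (.cons 248 (.cons 223 (.leaf 247 1791 (.cons 224 (.leaf 199 1599 (.cons 200 (.leaf 297 1604 (.leaf 176 1412 .nil)) .nil)) .nil)) (.cons 319 (.leaf 343 1982 (.cons 321 (.leaf 345 1988 (.cons 295 (.leaf 224 1790 (.cons 294 (.leaf 293 2344 (.leaf 322 2355 .nil)) .nil)) .nil)) .nil)) (.cons 247 (.leaf 223 1791 (.cons 246 (.leaf 245 1960 (.cons 221 (.leaf 222 1771 (.cons 270 (.leaf 269 1962 (.cons 250 (.leaf 271 1969 (.cons 226 (.leaf 227 1785 (.cons 321 (.leaf 345 1988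 (.leaf 297 1805 .nil)) .nil)) .nil)) .nil)) .nil)) .nil)) .nil)) .nil))) .nil)) (.cons 320 (.leaf 344 1989 (.cons 225 (.leaf 201 1606 (.leaf 297 1798 .nil)) .nil)) .nil)))
noncomputable def t2 : T := .cons 295 (.leaf 274 2170 (.cons 294 (.leaf 293 2153 (.cons 297 (.cons 269 (.leaf 270 2155 (.cons 321 (.leaf 322 2352 (.cons 248 (.leaf 224 1796 (.leaf 345 1991 .nil)) .nil)) .nil)) (.cons 270 (.leaf 269 2155 (.cons 271 (.leaf 298 2160 (.cons 245 (.leaf 246 1963 (.cons 249 (.leaf 250 1969 (.cons 225 (.leaf 201 1606 (.leaf 320 1798 .nil)) .nil)) .nil)) .nil)) .nil)) (.cons 321 (.leaf 322 2352 (.cons 345 (.leaf 248 1991 (.leaf 369 2183 .nil)) .nil)) .nil))) .nil)) .nil)) (.cons 249 t1 (.cons 248 t0 (.cons 274 (.leaf 295 2170 (.cons 299 (.leaf 300 2176 (.cons 271 (.leaf 298 2168 (.cons 246 (.leaf 247 1971 (.cons 270 (.leaf 245 1963 (.cons 249 (.leaf 250 1969 (.cons 201 (.leaf 225 1606 (.cons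 269 (.leaf 297 2152 (.cons 293 (.leaf 292 2146 (.leaf 294 2154 .nil)) .nil)) .nil)) .nil)) .nil)) .nil)) .nil)) .nil)) .nil)) (.cons 274 (.leaf 295 2170 (.cons 247 (.leaf 248 1979 (.cons 271 (.leaf 246 1971 (.cons 299 (.leaf 300 2176 (.leaf 298 2168 .nil)) .nil)) .nil)) .nil)) (.cons 274 (.leaf 295 2170 (.cons 248 (.leaf 247 1979 (.cons 299 (.leaf 300 2176 (.cons 224 (.cons 225 (.leaf 201 1605 (.cons 199 (.leaf 223 1599 (.cons 297 (.leaf 200 1604 (.leaf 321 1796 .nil)) .nil)) .nil)) (.cons 225 (.leaf 201 1605 (.cons 199 (.leaf 223 1599 (.cons 200 (.leaf 175 1407 (.cons 249 (.leaf 320 1797 (.leaf 176 1412 .nil)) .nil)) .nil)) .nil)) (.cons 225 (.leaf 201 1605 (.cons 199 (.leaf 223 1599 (.cons 297 (.leaf 321 1796 (.cons 320 (.leaf 249 1797 (.cons 343 (.leaf 319 1982 (.cons 344 (.leaf 367 2174 (.leaf 368 2181 .nil)) .nil)) .nil)) .nil)) .nil)) .nil)) (.cons 297 (.leaf 200 1604 (.leaf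 321 1796 .nil)) .nil)))) .nil)) .nil)) .nil)) .nil)))))
noncomputable def t3 : T := .cons 225 (.leaf 249 1807 (.cons 345 (.leaf 321 1998 (.cons 346 (.leaf 369 2190 (.cons 370 (.leaf 299 2197 (.cons 371 (.leaf 347 2196 (.leaf 395 2388 .nil)) .nil)) .nil)) .nil)) .nil)) (.cons 225 (.leaf 249 1807 (.cons 321 (.leaf 345 1998 (.cons 320 (.leaf 323 2363 (.cons 319 (.leaf 299 2361 (.cons 343 (.leaf 248 1982 (.leaf 367 2173 .nil)) .nil)) .nil)) .nil)) .nil)) (.cons 225 (.leaf 249 1807 (.cons 323 (.leaf 347 2004 (.cons 299 (.leaf 226 1812 (.cons 346 (.leaf 370 2197 (.cons 345 (.leaf 369 2190 (.cons 343 (.leaf 344 2553 (.cons 319 (.leaf 367 2173 (.cons 248 (.leaf 224 1790 (.leaf 271 1981 .nil)) .nil)) .nil)) .nil)) .nil)) .nil)) .nil)) .nil)) (.cons 225 (.leaf 249 1807 (.cons 323 (.leaf 347 2004 (.cons 226 (.leaf 299 1812 (.cons 203 (.leaf 227 1621 (.cons 202 (.leaf 179 1429 (.cons 223 (.leaf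 224 1593 (.cons 320 (.leaf 321 2363 (.cons 247 (.leaf 248 1791 (.leaf 271 1788 .nil)) .nil)) .nil)) .nil)) .nil)) .nil)) .nil)) .nil)) (.cons 323 (.leaf 347 2004 (.cons 345 (.leaf 321 1998 (.cons 346 (.leaf 369 2190 (.cons 299 (.leaf 370 2197 (.leaf 226 1812 .nil)) .nil)) .nil)) .nil)) (.cons 323 (.leaf 347 2004 (.cons 345 (.leaf 321 1998 (.cons 346 (.leaf 369 2190 (.cons 324 (.leaf 325 2570 (.cons 343 (.leaf 344 2553 (.cons 319 (.leaf 367 2173 (.cons 248 (.leaf 224 1790 (.leaf 271 1981 .nil)) .nil)) .nil)) .nil)) .nil)) .nil)) .nil)) .nil)))))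
noncomputable def t4 : T := .cons 248 (.cons 224 (.leaf 319 1790 (.cons 223 (.leaf 199 1599 (.cons 247 (.leaf 249 1976 (.leaf 320 1791 .nil)) .nil)) .nil)) (.cons 249 (.leaf 247 1976 (.cons 225 (.leaf 320 1797 (.leaf 322 1807 .nil)) .nil)) (.cons 224 (.leaf 319 1790 (.cons 200 (.leaf 271 1598 (.cons 201 (.leaf 177 1413 (.leaf 225 1605 .nil)) .nil)) .nil)) .nil))) (.cons 226 (.cons 201 (.leaf 225 1615 (.cons 202 (.leaf 299 1620 (.leaf 177 1423 .nil)) .nil)) (.cons 201 (.leaf 225 1615 (.cons 202 (.leaf 177 1423 (.cons 203 (.leaf 179 1429 (.leaf 227 1621 .nil)) .nil)) .nil)) (.cons 323 (.leaf 299 1812 (.cons 201 (.leaf 225 1615 (.cons 203 (.leaf 227 1621 (.cons 322 (.leaf 347 2004 (.cons 321 (.leaf 320 2363 (.leaf 345 1998 .nil)) .nil)) .nil)) .nil)) .nil)) (.cons 299 (.leaf 202 1620 (.leaf 323 1812 .nil)) .nil)))) (.cons 248 (.cons 224 (.leaf 319 1790 (.cons 223 (.leaf 199 1599 (.cons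 247 (.leaf 249 1976 (.leaf 320 1791 .nil)) .nil)) .nil)) (.cons 247 (.leaf 249 1976 (.cons 223 (.leaf 320 1791 (.cons 199 (.leaf 175 1404 (.leaf 271 1596 .nil)) .nil)) .nil)) (.cons 224 (.leaf 319 1790 (.cons 200 (.leaf 271 1598 (.cons 201 (.leaf 177 1413 (.leaf 225 1605 .nil)) .nil)) .nil)) .nil))) (.cons 248 (.cons 224 (.leaf 319 1790 (.cons 223 (.leaf 199 1599 (.cons 247 (.leaf 249 1976 (.leaf 320 1791 .nil)) .nil)) .nil)) (.cons 247 (.leaf 249 1976 (.cons 223 (.leaf 320 1791 (.cons 199 (.leaf 175 1404 (.leaf 224 1599 .nil)) .nil)) .nil)) (.cons 224 (.leaf 319 1790 (.cons 200 (.leaf 271 1598 (.cons 175 (.leaf 199 1407 (.cons 176 (.leaf 151 1215 (.cons 177 (.leaf 201 1413 (.leaf 153 1221 .nil)) .nil)) .nil)) .nil)) .nil)) (.cons 247 (.leaf 249 1976 (.cons 223 (.leaf 320 1791 (.cons 199 (.leaf 175 1404 (.leaf 271 1596 .nil)) .nil)) .nil)) (.cons 319 (.leaf 224 1790 (.cons 343 (.leaf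 271 1981 (.leaf 320 1982 .nil)) .nil)) .nil))))) (.cons 226 (.cons 201 (.leaf 225 1615 (.cons 202 (.leaf 299 1620 (.leaf 177 1423 .nil)) .nil)) (.cons 201 (.leaf 225 1615 (.cons 202 (.leaf 177 1423 (.cons 203 (.leaf 179 1429 (.leaf 227 1621 .nil)) .nil)) .nil)) (.cons 323 (.leaf 299 1812 (.cons 201 (.leaf 225 1615 (.cons 203 (.leaf 227 1621 (.cons 322 (.leaf 347 2004 (.cons 345 (.leaf 321 1998 (.cons 346 (.leaf 369 2190 (.cons 343 (.leaf 344 2553 (.cons 319 (.leaf 367 2173 (.cons 248 (.leaf 224 1790 (.leaf 271 1981 .nil)) .nil)) .nil)) .nil)) .nil)) .nil)) .nil)) .nil)) .nil)) (.cons 299 (.leaf 202 1620 (.leaf 323 1812 .nil)) .nil)))) (.cons 322 t3 .nil)))))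
noncomputable def t5 : T := .cons 269 (.leaf 270 2155 (.cons 317 (.leaf 318 2346 (.cons 321 (.leaf 322 2352 (.cons 345 (.leaf 369 2183 (.cons 344 (.leaf 368 2182 (.cons 249 (.leaf 320 1989 (.cons 225 (.leaf 201 1606 (.cons 226 (.leaf 202 1613 (.leaf 250 1805 .nil)) .nil)) .nil)) .nil)) .nil)) .nil)) .nil)) .nil)) (.cons 321 (.leaf 322 2352 (.cons 345 (.leaf 369 2183 (.cons 344 (.leaf 368 2182 (.cons 320 (.leaf 249 1989 (.cons 271 (.leaf 247 1983 (.cons 298 (.leaf 299 2171 (.cons 318 (.leaf 317 2346 (.leaf 319 2353 .nil)) .nil)) .nil)) .nil)) .nil)) .nil)) .nil)) (.cons 270 (.leaf 269 2155 (.cons 318 (.leaf 317 2346 (.cons 249 (.cons 225 (.leaf 201 1606 (.leaf 320 1798 .nil)) (.cons 271 (.leaf 250 1969 (.leaf 298 2160 .nil)) .nil)) .nil)) .nil)) (.cons 321 (.leaf 322 2352 (.cons 345 (.leaf 369 2183 (.cons 344 (.leaf 368 2182 (.cons 249 (.leaf 320 1989 (.cons 225 (.leaf 201 1606 (.cons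 226 (.leaf 202 1613 (.leaf 250 1805 .nil)) .nil)) .nil)) .nil)) .nil)) .nil)) (.cons 269 (.leaf 270 2155 (.cons 317 (.leaf 318 2346 (.cons 322 (.leaf 321 2352 (.cons 298 (.leaf 323 2360 (.cons 299 (.leaf 271 2171 (.leaf 300 2179 .nil)) .nil)) .nil)) .nil)) .nil)) .nil))))
noncomputable def t6 : T := .cons 248 (.leaf 224 1790 (.cons 320 (.leaf 343 1982 (.cons 249 (.leaf 225 1797 (.leaf 344 1989 .nil)) .nil)) .nil)) (.cons 248 (.leaf 224 1790 (.cons 320 (.cons 249 (.leaf 225 1797 (.leaf 344 1989 .nil)) (.cons 321 (.leaf 345 1988 (.leaf 322 2355 .nil)) .nil)) .nil)) (.cons 343 (.leaf 367 2173 (.cons 271 (.cons 344 (.leaf 368 2172 (.cons 320 (.leaf 247 1980 (.leaf 249 1989 .nil)) .nil)) (.cons 342 (.leaf 366 2166 (.cons 247 (.leaf 318 1974 (.cons 223 (.leaf 199 1596 (.leaf 320 1788 .nil)) .nil)) .nil)) (.cons 342 (.leaf 366 2166 (.cons 318 (.leaf 247 1974 (.cons 317 (.leaf 316 2337 (.cons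 344 (.leaf 368 2172 (.leaf 345 2539 .nil)) .nil)) .nil)) .nil)) (.cons 344 (.leaf 368 2172 (.cons 249 (.leaf 320 1989 (.cons 201 (.leaf 225 1606 (.cons 270 (.leaf 250 1969 (.cons 269 (.leaf 268 2144 (.cons 245 (.leaf 244 1955 (.cons 342 (.leaf 366 2166 (.leaf 318 1967 .nil)) .nil)) .nil)) .nil)) .nil)) .nil)) .nil)) .nil)))) .nil)) (.cons 248 (.leaf 224 1790 (.cons 343 (.leaf 271 1981 (.leaf 367 2173 .nil)) .nil)) .nil)))
noncomputable def t7 : T := .cons 224 (.leaf 319 1790 (.cons 200 (.leaf 271 1598 (.cons 175 (.leaf 199 1407 (.cons 176 (.leaf 151 1215 (.cons 177 (.leaf 201 1413 (.leaf 153 1221 .nil)) .nil)) .nil)) .nil)) .nil)) (.cons 320 (.cons 223 (.leaf 247 1791 (.cons 319 (.leaf 343 1982 (.cons 321 (.leaf 345 1988 (.cons 294 (.leaf 293 2344 (.leaf 322 2355 .nil)) .nil)) .nil)) .nil)) (.cons 321 (.leaf 345 1988 (.cons 225 (.leaf 249 1797 (.cons 294 (.leaf 293 2344 (.cons 322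 (.leaf 297 2352 (.leaf 323 2363 .nil)) .nil)) .nil)) .nil)) (.cons 319 (.leaf 343 1982 (.cons 225 (.leaf 249 1797 (.cons 247 (.leaf 223 1791 (.cons 271 (.leaf 344 1980 (.cons 318 (.leaf 342 1974 (.cons 297 (.leaf 298 2354 (.leaf 317 2345 .nil)) .nil)) .nil)) .nil)) .nil)) .nil)) .nil))) (.cons 224 (.cons 200 (.leaf 271 1598 (.cons 175 (.leaf 199 1407 (.cons 176 (.leaf 151 1215 (.cons 177 (.leaf 201 1413 (.leaf 153 1221 .nil)) .nil)) .nil)) .nil)) (.cons 199 (.leaf 223 1599 (.cons 225 (.leaf 201 1605 (.cons 320 (.leaf 249 1797 (.cons 321 (.leaf 297 1796 (.leaf 345 1988 .nil)) .nil)) .nil)) .nil)) (.cons 200 (.leaf 271 1598 (.cons 201 (.leaf 177 1413 (.leaf 225 1605 .nil)) .nil)) (.cons 271 (.leaf 200 1598 (.cons 297 (.leaf 321 1796 (.cons 298 (.leaf 299 2171 (.leaf 270 2163 .nil)) .nil)) .nil)) .nil)))) (.cons 224 (.leaf 319 1790 (.cons 199 (.leaf 223 1599 (.cons 225 (.leaf 201 1605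 (.cons 320 (.leaf 249 1797 (.cons 321 (.leaf 297 1796 (.leaf 345 1988 .nil)) .nil)) .nil)) .nil)) .nil)) .nil)))
noncomputable def t8 : T := .cons 273 (.leaf 274 2170 (.cons 294 (.leaf 293 2153 (.cons 297 (.cons 270 (.leaf 269 2155 (.cons 318 (.leaf 317 2346 (.cons 249 (.cons 225 (.leaf 201 1606 (.leaf 320 1798 .nil)) (.cons 271 (.leaf 250 1969 (.leaf 298 2160 .nil)) .nil)) .nil)) .nil)) (.cons 318 (.leaf 317 2346 (.cons 319 (.leaf 298 2354 (.cons 248 (.leaf 224 1790 (.cons 343 (.leaf 271 1981 (.leaf 320 1982 .nil)) .nil)) .nil)) .nil)) (.cons 321 (.leaf 322 2352 (.cons 345 (.leaf 248 1991 (.leaf 369 2183 .nil)) .nil)) .nil))) .nil)) .nil)) (.cons 297 (.cons 298 (.leaf 274 2169 (.cons 271 (.leaf 299 2171 (.leaf 270 2163 .nil)) .nil)) (.cons 294 (.cons 321 (.leaf 322 2352 (.cons 269 (.leaf 270 2155 (.cons 293 (.leaf 268 2147 (.leaf 320 2344 .nil)) .nil)) .nil)) (.cons 269 (.leaf 270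 2155 (.cons 293 (.leaf 268 2147 (.cons 317 (.leaf 316 2338 (.leaf 318 2346 .nil)) .nil)) .nil)) (.cons 321 (.leaf 322 2352 (.cons 293 (.leaf 320 2344 (.cons 317 (.leaf 316 2338 (.leaf 318 2346 .nil)) .nil)) .nil)) (.cons 321 (.leaf 322 2352 (.cons 248 (.leaf 224 1796 (.cons 345 (.leaf 320 1988 (.leaf 369 2183 .nil)) .nil)) .nil)) .nil)))) (.cons 298 (.leaf 274 2169 (.cons 318 (.leaf 319 2354 (.cons 294 (.leaf 317 2346 (.cons 322 (.leaf 321 2352 (.leaf 323 2360 .nil)) .nil)) .nil)) .nil)) .nil))) (.cons 248 t7 (.cons 273 (.leaf 274 2170 (.cons 294 (.leaf 293 2153 (.cons 319 t6 .nil)) .nil)) (.cons 273 (.leaf 274 2170 (.cons 294 (.leaf 293 2153 (.cons 297 t5 .nil)) .nil)) (.cons 273 (.leaf 274 2170 (.cons 294 (.leaf 293 2153 (.cons 297 (.cons 269 (.leaf 270 2155 (.cons 317 (.leaf 318 2346 (.cons 321 (.leaf 322 2352 (.cons 248 (.leaf 224 1796 (.leaf 345 1991 .nil)) .nil)) .nil)) .nil))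 (.cons 270 (.leaf 269 2155 (.cons 318 (.leaf 317 2346 (.cons 249 (.cons 225 (.leaf 201 1606 (.leaf 320 1798 .nil)) (.cons 271 (.leaf 250 1969 (.leaf 298 2160 .nil)) .nil)) .nil)) .nil)) (.cons 321 (.leaf 322 2352 (.cons 345 (.leaf 248 1991 (.leaf 369 2183 .nil)) .nil)) .nil))) .nil)) .nil)) (.cons 274 (.leaf 273 2170 (.cons 298 (.leaf 297 2169 (.cons 250 t4 .nil)) .nil)) (.cons 273 (.leaf 274 2170 (.cons 294 (.leaf 293 2153 (.cons 297 (.cons 269 (.leaf 270 2155 (.cons 317 (.leaf 318 2346 (.cons 321 (.leaf 322 2352 (.cons 248 (.leaf 224 1796 (.leaf 345 1991 .nil)) .nil)) .nil)) .nil)) (.cons 269 (.leaf 270 2155 (.cons 318 (.leaf 317 2346 (.cons 319 (.leaf 298 2354 (.cons 248 (.leaf 224 1790 (.cons 343 (.leaf 320 1982 (.leaf 367 2173 .nil)) .nil)) .nil)) .nil)) .nil)) (.cons 321 (.leaf 322 2352 (.cons 345 (.leaf 248 1991 (.leaf 369 2183 .nil)) .nil)) (.cons 321 (.leaf 322 2352 (.cons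 345 (.leaf 369 2183 (.cons 344 (.leaf 368 2182 (.cons 320 (.leaf 249 1989 (.cons 317 (.leaf 318 2346 (.cons 343 (.leaf 367 2174 (.cons 342 (.leaf 341 2537 (.cons 346 (.leaf 370 2188 (.cons 347 (.leaf 348 2563 (.leaf 319 2555 .nil)) .nil)) .nil)) .nil)) .nil)) .nil)) .nil)) .nil)) .nil)) .nil)))) .nil)) .nil)) (.cons 273 (.leaf 274 2170 (.cons 294 (.leaf 293 2153 (.cons 297 (.cons 269 (.leaf 270 2155 (.cons 318 (.leaf 317 2346 (.cons 298 (.leaf 319 2354 (.cons 299 (.leaf 271 2171 (.leaf 300 2179 .nil)) .nil)) .nil)) .nil)) (.cons 317 (.leaf 318 2346 (.cons 322 (.leaf 321 2352 (.cons 298 (.leaf 323 2360 (.cons 299 (.leaf 271 2171 (.leaf 300 2179 .nil)) .nil)) .nil)) .nil)) (.cons 269 (.leaf 270 2155 (.cons 321 (.leaf 322 2352 (.cons 248 (.leaf 224 1796 (.leaf 345 1991 .nil)) .nil)) .nil)) .nil))) .nil)) .nil)) (.cons 273 (.leaf 274 2170 (.cons 294 (.leaf 293 2153 (.cons 297 (.cons 318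 (.leaf 317 2346 (.cons 319 (.leaf 298 2354 (.cons 248 (.leaf 224 1790 (.cons 343 (.leaf 271 1981 (.leaf 320 1982 .nil)) .nil)) .nil)) .nil)) (.cons 318 (.leaf 317 2346 (.cons 269 (.leaf 270 2155 (.cons 319 (.leaf 298 2354 (.cons 248 (.leaf 224 1790 (.cons 343 (.leaf 320 1982 (.leaf 367 2173 .nil)) .nil)) .nil)) .nil)) .nil)) (.cons 270 (.leaf 269 2155 (.cons 318 (.leaf 317 2346 (.cons 249 (.cons 225 (.leaf 201 1606 (.leaf 320 1798 .nil)) (.cons 271 (.leaf 250 1969 (.cons 247 (.leaf 223 1782 (.leaf 342 1973 .nil)) .nil)) .nil)) .nil)) .nil)) (.cons 270 (.leaf 269 2155 (.cons 271 (.leaf 298 2160 (.cons 249 (.leaf 250 1969 (.cons 225 (.leaf 201 1606 (.leaf 320 1798 .nil)) .nil)) .nil)) .nil)) (.cons 270 (.leaf 269 2155 (.cons 271 (.leaf 298 2160 (.cons 249 (.leaf 250 1969 (.cons 201 (.leaf 225 1606 (.cons 318 (.leaf 317 2346 (.cons 247 (.leaf 223 1782 (.leaf 342 1973 .nil)) .nil)) .nil))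 .nil)) .nil)) .nil)) .nil))))) .nil)) .nil)) .nil)))))))))
noncomputable def t9 : T := .cons 318 (.leaf 317 2346 (.cons 319 (.leaf 298 2354 (.cons 248 (.leaf 224 1790 (.cons 343 (.leaf 271 1981 (.leaf 320 1982 .nil)) .nil)) .nil)) .nil)) (.cons 318 (.leaf 317 2346 (.cons 269 (.leaf 270 2155 (.cons 319 (.leaf 298 2354 (.cons 248 (.leaf 224 1790 (.cons 343 (.leaf 320 1982 (.leaf 367 2173 .nil)) .nil)) .nil)) .nil)) .nil)) (.cons 270 (.leaf 269 2155 (.cons 318 (.leaf 317 2346 (.cons 319 (.cons 343 (.leaf 367 2173 (.leaf 246 1972 .nil)) (.cons 224 (.leaf 248 1790 (.cons 246 (.leaf 222 1780 (.cons 247 (.leaf 223 1781 (.cons 271 (.leaf 342 1973 (.cons 320 (.leaf 344 1980 (.cons 249 (.leaf 250 1969 (.leaf 225 1798 .nil)) .nil)) .nil)) .nil)) .nil)) .nil)) (.cons 343 (.leaf 367 2173 (.cons 248 (.leaf 224 1790 (.leaf 271 1981 .nil)) .nil)) .nil))) .nil)) .nil)) (.cons 270 (.leaf 269 2155 (.cons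 271 (.leaf 298 2160 (.cons 249 (.leaf 250 1969 (.cons 225 (.leaf 201 1606 (.leaf 320 1798 .nil)) .nil)) .nil)) .nil)) (.cons 270 (.leaf 269 2155 (.cons 271 (.leaf 298 2160 (.cons 249 (.leaf 250 1969 (.cons 201 (.leaf 225 1606 (.cons 318 (.leaf 317 2346 (.cons 247 (.leaf 223 1782 (.leaf 342 1973 .nil)) .nil)) .nil)) .nil)) .nil)) .nil)) .nil))))
noncomputable def t10 : T := .cons 248 (.cons 319 (.leaf 224 1790 (.cons 249 (.leaf 247 1976 (.cons 343 (.leaf 271 1981 (.leaf 320 1982 .nil)) .nil)) .nil)) (.cons 249 (.leaf 247 1976 (.cons 225 (.leaf 320 1797 (.leaf 322 1807 .nil)) .nil)) (.cons 319 (.leaf 224 1790 (.cons 343 (.leaf 271 1981 (.leaf 320 1982 .nil)) .nil)) (.cons 319 (.leaf 224 1790 (.cons 249 (.leaf 247 1976 (.cons 343 (.leaf 271 1981 (.leaf 367 2173 .nil)) .nil)) .nil)) .nil)))) (.cons 226 (.cons 203 (.leaf 227 1621 (.cons 225 (.leaf 201 1615 (.cons 299 (.leaf 202 1620 (.leaf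 323 1812 .nil)) .nil)) .nil)) (.cons 201 (.leaf 225 1615 (.cons 202 (.leaf 177 1423 (.cons 203 (.leaf 179 1429 (.leaf 227 1621 .nil)) .nil)) .nil)) (.cons 203 (.leaf 227 1621 (.cons 225 (.leaf 201 1615 (.cons 299 (.leaf 323 1812 (.cons 322 (.leaf 249 1807 (.cons 346 (.leaf 370 2197 (.cons 345 (.leaf 321 1998 (.leaf 369 2190 .nil)) .nil)) .nil)) .nil)) .nil)) .nil)) (.cons 299 (.leaf 202 1620 (.leaf 323 1812 .nil)) .nil)))) (.cons 248 (.cons 319 (.leaf 224 1790 (.cons 249 (.leaf 247 1976 (.cons 343 (.leaf 271 1981 (.leaf 320 1982 .nil)) .nil)) .nil)) (.cons 247 (.leaf 249 1976 (.cons 223 (.leaf 320 1791 (.cons 199 (.leaf 175 1404 (.leaf 271 1596 .nil)) .nil)) .nil)) (.cons 319 (.leaf 224 1790 (.cons 343 (.leaf 271 1981 (.leaf 320 1982 .nil)) .nil)) (.cons 319 (.leaf 224 1790 (.cons 249 (.leaf 247 1976 (.cons 343 (.leaf 271 1981 (.leaf 367 2173 .nil)) .nil)) .nil)) (.cons 224 (.leaf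 319 1790 (.cons 223 (.leaf 199 1599 (.cons 247 (.leaf 249 1976 (.leaf 320 1791 .nil)) .nil)) .nil)) .nil))))) (.cons 226 (.cons 299 (.leaf 202 1620 (.leaf 323 1812 .nil)) (.cons 201 (.leaf 225 1615 (.cons 202 (.leaf 177 1423 (.cons 203 (.leaf 179 1429 (.leaf 227 1621 .nil)) .nil)) .nil)) (.cons 201 (.leaf 225 1615 (.cons 203 (.leaf 227 1621 (.cons 323 (.leaf 299 1812 (.cons 322 (.leaf 347 2004 (.cons 321 (.leaf 320 2363 (.leaf 345 1998 .nil)) .nil)) .nil)) .nil)) .nil)) .nil))) .nil)))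
noncomputable def t11 : T := .cons 248 (.leaf 224 1790 (.cons 320 (.leaf 343 1982 (.cons 249 (.leaf 225 1797 (.leaf 344 1989 .nil)) .nil)) .nil)) (.cons 248 (.leaf 224 1790 (.cons 320 (.cons 249 (.leaf 225 1797 (.leaf 344 1989 .nil)) (.cons 321 (.leaf 345 1988 (.leaf 322 2355 .nil)) .nil)) .nil)) (.cons 343 (.leaf 367 2173 (.cons 271 (.cons 344 (.leaf 368 2172 (.cons 246 (.leaf 270 1975 (.cons 247 (.leaf 320 1980 (.leaf 222 1783 .nil)) .nil)) .nil)) (.cons 246 (.leaf 270 1975 (.cons 247 (.leaf 222 1783 (.cons 223 (.leaf 199 1596 (.leaf 320 1788 .nil)) .nil)) .nil)) (.cons 344 (.leaf 368 2172 (.cons 320 (.leaf 247 1980 (.leaf 249 1989 .nil)) .nil)) (.cons 246 (.leaf 270 1975 (.cons 344 (.leaf 368 2172 (.cons 320 (.leaf 249 1989 (.cons 321 (.leaf 322 2355 (.cons 345 (.leaf 369 2180 (.cons 318 (.leaf 317 2536 (.leaf 346 2544 .nil)) .nil)) .nil)) .nil)) .nil)) .nil)) (.cons 270 (.leaf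 246 1975 (.cons 249 (.leaf 250 1969 (.cons 201 (.leaf 225 1606 (.cons 268 (.leaf 269 2144 (.cons 342 (.leaf 366 2166 (.cons 318 (.leaf 247 1973 (.cons 316 (.leaf 317 2337 (.cons 341 (.leaf 365 2158 (.cons 340 (.leaf 339 2521 (.leaf 315 2523 .nil)) .nil)) .nil)) .nil)) .nil)) .nil)) .nil)) .nil)) .nil)) .nil))))) .nil)) (.cons 343 (.leaf 367 2173 (.cons 248 (.leaf 224 1790 (.leaf 271 1981 .nil)) .nil)) .nil)))
noncomputable def t12 : T := .cons 226 (.cons 203 (.leaf 227 1621 (.cons 225 (.leaf 201 1615 (.cons 249 (.leaf 322 1807 (.cons 248 (.leaf 247 1976 (.leaf 320 1797 .nil)) .nil)) .nil)) .nil)) (.cons 299 (.leaf 202 1620 (.leaf 323 1812 .nil)) .nil)) (.cons 322 (.cons 249 (.leaf 225 1807 (.cons 321 (.leaf 345 1998 (.cons 323 (.leaf 320 2363 (.leaf 347 2004 .nil)) .nil)) .nil)) (.cons 249 (.leaf 225 1807 (.cons 248 (.leaf 247 1976 (.cons 224 (.leaf 319 1790 (.cons 199 (.leaf 223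 1599 (.cons 200 (.leaf 175 1407 (.leaf 271 1598 .nil)) .nil)) .nil)) .nil)) .nil)) (.cons 323 (.leaf 347 2004 (.cons 345 (.leaf 321 1998 (.cons 346 (.leaf 369 2190 (.cons 299 (.leaf 370 2197 (.cons 343 (.leaf 344 2553 (.cons 319 (.leaf 367 2173 (.cons 248 (.leaf 224 1790 (.leaf 271 1981 .nil)) .nil)) .nil)) .nil)) .nil)) .nil)) .nil)) .nil))) (.cons 226 (.cons 203 (.leaf 227 1621 (.cons 225 (.leaf 201 1615 (.cons 299 (.leaf 202 1620 (.leaf 323 1812 .nil)) .nil)) .nil)) (.cons 201 (.leaf 225 1615 (.cons 202 (.leaf 177 1423 (.cons 203 (.leaf 179 1429 (.leaf 227 1621 .nil)) .nil)) .nil)) (.cons 203 (.leaf 227 1621 (.cons 225 (.leaf 201 1615 (.cons 299 (.leaf 323 1812 (.cons 322 (.leaf 249 1807 (.cons 346 (.leaf 370 2197 (.cons 345 (.leaf 321 1998 (.leaf 369 2190 .nil)) .nil)) .nil)) .nil)) .nil)) .nil)) (.cons 299 (.leaf 202 1620 (.leaf 323 1812 .nil)) .nil)))) (.cons 248 (.cons 247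 (.leaf 249 1976 (.cons 223 (.leaf 320 1791 (.cons 199 (.leaf 175 1404 (.leaf 224 1599 .nil)) .nil)) .nil)) (.cons 247 (.leaf 249 1976 (.cons 223 (.leaf 320 1791 (.cons 199 (.leaf 175 1404 (.leaf 271 1596 .nil)) .nil)) .nil)) (.cons 224 (.leaf 319 1790 (.cons 200 (.leaf 271 1598 (.cons 201 (.leaf 177 1413 (.leaf 225 1605 .nil)) .nil)) .nil)) .nil))) (.cons 248 (.cons 247 (.leaf 249 1976 (.cons 223 (.leaf 320 1791 (.cons 199 (.leaf 175 1404 (.leaf 224 1599 .nil)) .nil)) .nil)) (.cons 224 (.leaf 319 1790 (.cons 200 (.leaf 271 1598 (.cons 175 (.leaf 199 1407 (.cons 176 (.leaf 151 1215 (.cons 177 (.leaf 201 1413 (.leaf 153 1221 .nil)) .nil)) .nil)) .nil)) .nil)) (.cons 247 (.leaf 249 1976 (.cons 223 (.leaf 320 1791 (.cons 199 (.leaf 175 1404 (.leaf 271 1596 .nil)) .nil)) .nil)) (.cons 319 (.leaf 224 1790 (.cons 343 (.leaf 271 1981 (.leaf 320 1982 .nil)) .nil)) .nil)))) (.cons 322 (.cons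 323 (.leaf 347 2004 (.cons 345 (.leaf 321 1998 (.cons 346 (.leaf 369 2190 (.cons 299 (.leaf 370 2197 (.leaf 226 1812 .nil)) .nil)) .nil)) .nil)) (.cons 345 (.leaf 321 1998 (.cons 346 (.leaf 369 2190 (.cons 370 (.leaf 299 2197 (.cons 371 (.leaf 347 2196 (.leaf 395 2388 .nil)) .nil)) .nil)) .nil)) (.cons 321 (.leaf 345 1998 (.cons 320 (.leaf 323 2363 (.cons 319 (.leaf 294 2355 (.leaf 299 2361 .nil)) .nil)) .nil)) (.cons 323 (.leaf 347 2004 (.cons 226 (.leaf 299 1812 (.cons 201 (.leaf 225 1615 (.cons 202 (.leaf 177 1423 (.cons 203 (.leaf 179 1429 (.leaf 227 1621 .nil)) .nil)) .nil)) .nil)) .nil)) (.cons 321 (.leaf 345 1998 (.cons 323 (.leaf 320 2363 (.leaf 347 2004 .nil)) .nil)) .nil))))) .nil)))))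
noncomputable def t13 : T := .cons 274 (.leaf 273 2170 (.cons 298 (.leaf 297 2169 (.cons 250 t12 .nil)) .nil)) (.cons 319 (.cons 343 (.leaf 367 2173 (.cons 248 (.leaf 224 1790 (.leaf 271 1981 .nil)) .nil)) (.cons 248 (.leaf 224 1790 (.cons 320 (.cons 321 (.leaf 345 1988 (.cons 294 (.leaf 293 2344 (.leaf 322 2355 .nil)) .nil)) (.cons 247 (.leaf 223 1791 (.cons 271 (.leaf 344 1980 (.cons 222 (.leaf 246 1783 (.cons 318 (.leaf 342 1974 (.cons 297 (.leaf 298 2354 (.leaf 317 2345 .nil)) .nil)) .nil)) .nil)) .nil)) .nil)) .nil)) (.cons 343 (.leaf 367 2173 (.cons 271 (.cons 270 (.leaf 246 1975 (.cons 269 (.leaf 297 2152 (.leaf 268 2144 .nil)) .nil)) (.cons 342 (.leaf 366 2166 (.cons 247 (.leaf 318 1974 (.cons 223 (.leaf 199 1596 (.leaf 320 1788 .nil)) .nil)) .nil)) .nil)) .nil)) (.cons 248 (.leaf 224 1790 (.cons 343 (.leaf 320 1982 (.leaf 367 2173 .nil)) .nil)) .nil)))) (.cons 273 (.leaf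 274 2170 (.cons 294 (.leaf 293 2153 (.cons 319 t11 .nil)) .nil)) (.cons 273 (.leaf 274 2170 (.cons 294 (.leaf 293 2153 (.cons 297 (.cons 269 (.leaf 270 2155 (.cons 321 (.leaf 322 2352 (.cons 248 (.leaf 224 1796 (.leaf 345 1991 .nil)) .nil)) .nil)) (.cons 270 (.leaf 269 2155 (.cons 271 (.leaf 298 2160 (.cons 249 (.leaf 250 1969 (.cons 225 (.leaf 201 1606 (.leaf 320 1798 .nil)) .nil)) .nil)) .nil)) (.cons 317 (.leaf 318 2346 (.cons 321 (.leaf 322 2352 (.cons 248 (.leaf 224 1796 (.leaf 345 1991 .nil)) .nil)) .nil)) .nil))) .nil)) .nil)) (.cons 273 (.leaf 274 2170 (.cons 294 (.leaf 293 2153 (.cons 297 (.cons 269 (.leaf 270 2155 (.cons 318 (.leaf 317 2346 (.cons 298 (.leaf 319 2354 (.cons 299 (.leaf 271 2171 (.leaf 300 2179 .nil)) .nil)) .nil)) .nil)) (.cons 317 (.leaf 318 2346 (.cons 321 (.leaf 322 2352 (.cons 345 (.leaf 369 2183 (.cons 344 (.leaf 368 2182 (.cons 249 (.leaf 320 1989 (.cons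 225 (.leaf 201 1606 (.cons 226 (.leaf 202 1613 (.leaf 250 1805 .nil)) .nil)) .nil)) .nil)) .nil)) .nil)) .nil)) (.cons 270 (.leaf 269 2155 (.cons 271 (.leaf 298 2160 (.cons 249 (.leaf 250 1969 (.cons 225 (.leaf 201 1606 (.leaf 320 1798 .nil)) .nil)) .nil)) .nil)) .nil))) .nil)) .nil)) (.cons 273 (.leaf 274 2170 (.cons 294 (.leaf 293 2153 (.cons 297 (.cons 269 (.leaf 270 2155 (.cons 317 (.leaf 318 2346 (.cons 321 (.leaf 322 2352 (.cons 248 (.leaf 224 1796 (.leaf 345 1991 .nil)) .nil)) .nil)) .nil)) (.cons 269 (.leaf 270 2155 (.cons 318 (.leaf 317 2346 (.cons 319 (.leaf 298 2354 (.cons 248 (.leaf 224 1790 (.cons 343 (.leaf 320 1982 (.leaf 367 2173 .nil)) .nil)) .nil)) .nil)) .nil)) (.cons 321 (.leaf 322 2352 (.cons 345 (.leaf 248 1991 (.leaf 369 2183 .nil)) .nil)) (.cons 321 (.leaf 322 2352 (.cons 345 (.leaf 369 2183 (.cons 344 (.leaf 368 2182 (.cons 320 (.leaf 249 1989 (.cons 317 (.leaf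 318 2346 (.cons 343 (.leaf 367 2174 (.cons 342 (.leaf 341 2537 (.cons 346 (.leaf 370 2188 (.cons 347 (.leaf 348 2563 (.leaf 319 2555 .nil)) .nil)) .nil)) .nil)) .nil)) .nil)) .nil)) .nil)) .nil)) .nil)))) .nil)) .nil)) (.cons 274 (.leaf 273 2170 (.cons 298 (.leaf 297 2169 (.cons 250 t10 .nil)) .nil)) (.cons 273 (.leaf 274 2170 (.cons 294 (.leaf 293 2153 (.cons 297 (.cons 269 (.leaf 270 2155 (.cons 318 (.leaf 317 2346 (.cons 298 (.leaf 319 2354 (.cons 299 (.leaf 271 2171 (.leaf 300 2179 .nil)) .nil)) .nil)) .nil)) (.cons 317 (.leaf 318 2346 (.cons 322 (.leaf 321 2352 (.cons 298 (.leaf 323 2360 (.cons 299 (.leaf 271 2171 (.leaf 300 2179 .nil)) .nil)) .nil)) .nil)) (.cons 269 (.leaf 270 2155 (.cons 321 (.leaf 322 2352 (.cons 248 (.leaf 224 1796 (.leaf 345 1991 .nil)) .nil)) .nil)) .nil))) .nil)) .nil)) (.cons 273 (.leaf 274 2170 (.cons 294 (.leaf 293 2153 (.cons 297 t9 .nil)) .nil))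 .nil))))))))
noncomputable def t14 : T := .leaf 274 2170 (.cons 294 (.leaf 293 2153 (.cons 297 (.cons 270 (.leaf 269 2155 (.cons 271 (.leaf 298 2160 (.cons 245 (.leaf 246 1963 (.cons 249 (.leaf 250 1969 (.cons 225 (.leaf 201 1606 (.leaf 320 1798 .nil)) .nil)) .nil)) .nil)) .nil)) (.cons 318 (.leaf 317 2346 (.cons 319 (.leaf 298 2354 (.cons 248 (.leaf 224 1790 (.cons 343 (.leaf 271 1981 (.leaf 320 1982 .nil)) .nil)) .nil)) .nil)) (.cons 318 (.leaf 317 2346 (.cons 269 (.leaf 270 2155 (.cons 319 (.leaf 298 2354 (.cons 248 (.leaf 224 1790 (.cons 343 (.leaf 320 1982 (.leaf 367 2173 .nil)) .nil)) .nil)) .nil)) .nil)) (.cons 270 (.leaf 269 2155 (.cons 271 (.leaf 298 2160 (.cons 245 (.leaf 246 1963 (.cons 249 (.leaf 250 1969 (.cons 201 (.leaf 225 1606 (.cons 318 (.leaf 317 2346 (.cons 247 (.leaf 223 1782 (.leaf 342 1973 .nil)) .nil)) .nil)) .nil)) .nil)) .nil)) .nil)) (.cons 270 (.leaf 269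 2155 (.cons 318 (.leaf 317 2346 (.cons 246 (.cons 245 (.leaf 271 1963 (.leaf 221 1775 .nil)) (.cons 319 (.leaf 222 1780 (.leaf 343 1972 .nil)) .nil)) .nil)) .nil)) .nil))))) .nil)) .nil)
noncomputable def t15 : T := .cons 343 (.leaf 367 2173 (.cons 271 (.leaf 248 1981 (.cons 246 (.leaf 270 1975 (.cons 344 (.leaf 368 2172 (.cons 247 (.leaf 320 1980 (.leaf 222 1783 .nil)) .nil)) .nil)) .nil)) .nil)) (.cons 248 (.leaf 224 1790 (.cons 320 (.cons 225 (.leaf 249 1797 (.cons 321 (.leaf 345 1988 (.leaf 322 2355 .nil)) .nil)) (.cons 321 (.leaf 345 1988 (.leaf 322 2355 .nil)) (.cons 225 (.leaf 249 1797 (.cons 247 (.leaf 223 1791 (.cons 246 (.leaf 245 1960 (.cons 222 (.leaf 271 1783 (.leaf 270 1780 .nil)) .nil)) .nil)) .nil)) .nil))) .nil)) (.cons 343 (.leaf 367 2173 (.cons 271 (.cons 246 (.leaf 270 1975 (.cons 344 (.leaf 368 2172 (.cons 247 (.leaf 320 1980 (.leaf 222 1783 .nil)) .nil)) .nil))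 (.cons 344 (.leaf 368 2172 (.cons 320 (.leaf 247 1980 (.leaf 249 1989 .nil)) .nil)) (.cons 270 (.leaf 246 1975 (.cons 249 (.leaf 250 1969 (.cons 201 (.leaf 225 1606 (.cons 268 (.leaf 269 2144 (.cons 342 (.leaf 366 2166 (.cons 318 (.leaf 247 1973 (.cons 316 (.leaf 317 2337 (.cons 341 (.leaf 365 2158 (.cons 340 (.leaf 339 2521 (.leaf 320 2529 .nil)) .nil)) .nil)) .nil)) .nil)) .nil)) .nil)) .nil)) .nil)) (.cons 270 (.leaf 246 1975 (.cons 249 (.leaf 250 1969 (.cons 201 (.leaf 225 1606 (.cons 269 (.leaf 268 2144 (.cons 245 (.leaf 244 1955 (.cons 342 (.leaf 366 2166 (.leaf 318 1967 .nil)) .nil)) .nil)) .nil)) .nil)) .nil)) .nil)))) .nil)) (.cons 343 (.leaf 367 2173 (.cons 248 (.leaf 224 1790 (.leaf 271 1981 .nil)) .nil)) (.cons 248 (.leaf 224 1790 (.cons 320 (.leaf 343 1982 (.cons 249 (.leaf 225 1797 (.leaf 344 1989 .nil)) .nil)) .nil)) .nil))))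
noncomputable def t16 : T := .leaf 274 2170 (.cons 294 (.leaf 293 2153 (.cons 297 (.cons 270 (.leaf 269 2155 (.cons 271 (.leaf 298 2160 (.cons 245 (.leaf 246 1963 (.cons 249 (.leaf 250 1969 (.cons 225 (.leaf 201 1606 (.leaf 320 1798 .nil)) .nil)) .nil)) .nil)) .nil)) (.cons 321 (.leaf 322 2352 (.cons 345 (.leaf 369 2183 (.cons 344 (.leaf 368 2182 (.cons 320 (.leaf 249 1989 (.cons 317 (.leaf 318 2346 (.cons 343 (.leaf 367 2174 (.cons 342 (.leaf 341 2537 (.cons 346 (.leaf 370 2188 (.cons 347 (.leaf 348 2563 (.leaf 319 2555 .nil)) .nil)) .nil)) .nil)) .nil)) .nil)) .nil)) .nil)) .nil)) (.cons 270 (.leaf 269 2155 (.cons 271 (.leaf 298 2160 (.cons 245 (.leaf 246 1963 (.cons 249 (.leaf 250 1969 (.cons 201 (.leaf 225 1606 (.cons 318 (.leaf 317 2346 (.cons 247 (.leaf 223 1782 (.leaf 342 1973 .nil)) .nil)) .nil)) .nil)) .nil)) .nil)) .nil)) (.cons 270 (.leaf 269 2155 (.cons 271 (.leaf 298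 2160 (.cons 245 (.leaf 246 1963 (.cons 318 (.leaf 317 2346 (.cons 247 (.leaf 223 1782 (.leaf 342 1973 .nil)) .nil)) .nil)) .nil)) .nil)) .nil)))) .nil)) .nil)
noncomputable def t17 : T := .cons 273 (.leaf 274 2170 (.cons 294 (.leaf 293 2153 (.cons 297 (.cons 317 (.leaf 318 2346 (.cons 321 (.leaf 322 2352 (.cons 248 (.leaf 224 1796 (.leaf 345 1991 .nil)) .nil)) .nil)) (.cons 270 (.leaf 269 2155 (.cons 271 (.leaf 298 2160 (.cons 245 (.leaf 246 1963 (.cons 249 (.leaf 250 1969 (.cons 225 (.leaf 201 1606 (.leaf 320 1798 .nil)) .nil)) .nil)) .nil)) .nil)) .nil)) .nil)) .nil)) (.cons 319 (.cons 343 (.leaf 367 2173 (.cons 248 (.leaf 224 1790 (.leaf 271 1981 .nil)) .nil)) (.cons 248 (.leaf 224 1790 (.cons 320 (.cons 321 (.leaf 345 1988 (.cons 294 (.leaf 293 2344 (.leaf 322 2355 .nil)) .nil)) (.cons 247 (.leaf 223 1791 (.cons 271 (.leaf 344 1980 (.cons 222 (.leaf 246 1783 (.cons 318 (.leaf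 342 1974 (.cons 297 (.leaf 298 2354 (.leaf 317 2345 .nil)) .nil)) .nil)) .nil)) .nil)) .nil)) .nil)) (.cons 343 (.leaf 367 2173 (.cons 271 (.cons 270 (.leaf 246 1975 (.cons 269 (.leaf 297 2152 (.leaf 268 2144 .nil)) .nil)) (.cons 342 (.leaf 366 2166 (.cons 247 (.leaf 318 1974 (.cons 223 (.leaf 199 1596 (.leaf 320 1788 .nil)) .nil)) .nil)) .nil)) .nil)) (.cons 248 (.leaf 224 1790 (.cons 343 (.leaf 320 1982 (.leaf 367 2173 .nil)) .nil)) .nil)))) (.cons 273 t16 (.cons 274 (.leaf 273 2170 (.cons 297 (.leaf 298 2169 (.cons 248 (.cons 320 (.cons 343 (.leaf 319 1982 (.cons 321 (.leaf 224 1796 (.leaf 345 1988 .nil)) .nil)) (.cons 321 (.leaf 224 1796 (.leaf 345 1988 .nil)) (.cons 343 (.leaf 319 1982 (.cons 321 (.leaf 345 1988 (.cons 322 (.leaf 323 2363 (.cons 344 (.leaf 367 2174 (.cons 368 (.leaf 271 2175 (.leaf 392 2373 .nil)) .nil)) .nil)) .nil)) .nil)) (.cons 319 (.leaf 224 1790 (.leaf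 343 1982 .nil)) .nil)))) (.cons 320 (.cons 343 (.leaf 319 1982 (.cons 321 (.leaf 345 1988 (.cons 322 (.leaf 323 2363 (.cons 344 (.leaf 367 2174 (.cons 368 (.leaf 271 2175 (.leaf 392 2373 .nil)) .nil)) .nil)) .nil)) .nil)) (.cons 247 (.leaf 223 1791 (.cons 249 (.leaf 250 1976 (.leaf 225 1797 .nil)) .nil)) .nil)) (.cons 224 (.leaf 321 1796 (.cons 199 (.leaf 223 1599 (.cons 200 (.leaf 175 1407 (.leaf 271 1598 .nil)) .nil)) .nil)) (.cons 319 (.leaf 224 1790 (.cons 343 (.leaf 271 1981 (.leaf 320 1982 .nil)) .nil)) (.cons 224 (.leaf 319 1790 (.leaf 321 1796 .nil)) .nil))))) .nil)) .nil)) (.cons 273 (.leaf 274 2170 (.cons 294 (.leaf 293 2153 (.cons 297 (.cons 269 (.leaf 270 2155 (.cons 318 (.leaf 317 2346 (.cons 319 (.leaf 298 2354 (.cons 248 (.leaf 224 1790 (.cons 343 (.leaf 320 1982 (.leaf 367 2173 .nil)) .nil)) .nil)) .nil)) .nil)) (.cons 321 (.leaf 322 2352 (.cons 345 (.leaf 248 1991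 (.leaf 369 2183 .nil)) .nil)) (.cons 321 (.leaf 322 2352 (.cons 345 (.leaf 369 2183 (.cons 344 (.leaf 368 2182 (.cons 320 (.leaf 249 1989 (.cons 317 (.leaf 318 2346 (.cons 343 (.leaf 367 2174 (.cons 342 (.leaf 341 2537 (.cons 346 (.leaf 370 2188 (.cons 347 (.leaf 348 2563 (.leaf 319 2555 .nil)) .nil)) .nil)) .nil)) .nil)) .nil)) .nil)) .nil)) .nil)) .nil))) .nil)) .nil)) (.cons 273 (.leaf 274 2170 (.cons 294 (.leaf 293 2153 (.cons 319 t15 .nil)) .nil)) (.cons 273 (.leaf 274 2170 (.cons 294 (.leaf 293 2153 (.cons 297 (.cons 270 (.leaf 269 2155 (.cons 271 (.leaf 298 2160 (.cons 245 (.leaf 246 1963 (.cons 249 (.leaf 250 1969 (.cons 201 (.leaf 225 1606 (.cons 318 (.leaf 317 2346 (.cons 247 (.leaf 223 1782 (.leaf 342 1973 .nil)) .nil)) .nil)) .nil)) .nil)) .nil)) .nil)) (.cons 317 (.leaf 318 2346 (.cons 321 (.leaf 322 2352 (.cons 248 (.leaf 224 1796 (.leaf 345 1991 .nil)) .nil)) .nil))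 (.cons 270 (.leaf 269 2155 (.cons 271 (.leaf 298 2160 (.cons 246 (.leaf 245 1963 (.cons 222 (.leaf 198 1588 (.leaf 319 1780 .nil)) .nil)) .nil)) .nil)) .nil))) .nil)) .nil)) (.cons 273 t14 .nil)))))))
noncomputable def t18 : T := .cons 270 (.leaf 269 2155 (.cons 318 (.leaf 317 2346 (.cons 321 (.leaf 322 2352 (.cons 345 (.leaf 369 2183 (.cons 344 (.leaf 368 2182 (.cons 346 (.leaf 370 2188 (.cons 343 (.leaf 319 2547 (.cons 367 (.leaf 320 2174 (.leaf 342 2164 .nil)) .nil)) .nil)) .nil)) .nil)) .nil)) .nil)) .nil)) (.cons 321 (.leaf 322 2352 (.cons 345 (.leaf 369 2183 (.cons 344 (.leaf 368 2182 (.cons 320 (.leaf 249 1989 (.cons 317 (.leaf 318 2346 (.cons 343 (.leaf 367 2174 (.cons 342 (.leaf 341 2537 (.cons 346 (.leaf 370 2188 (.cons 347 (.leaf 348 2563 (.leaf 319 2555 .nil)) .nil)) .nil)) .nil)) .nil)) .nil)) .nil)) .nil)) .nil)) (.cons 270 (.leaf 269 2155 (.cons 318 (.leaf 317 2346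 (.cons 246 (.cons 245 (.leaf 271 1963 (.leaf 221 1775 .nil)) (.cons 319 (.leaf 222 1780 (.leaf 343 1972 .nil)) .nil)) .nil)) .nil)) (.cons 321 (.leaf 322 2352 (.cons 345 (.leaf 369 2183 (.cons 344 (.leaf 368 2182 (.cons 249 (.leaf 320 1989 (.cons 225 (.leaf 201 1606 (.cons 226 (.leaf 202 1613 (.leaf 250 1805 .nil)) .nil)) .nil)) .nil)) .nil)) .nil)) .nil)))
noncomputable def t19 : T := .cons 344 (.leaf 249 1989 (.cons 247 (.leaf 271 1983 (.cons 248 (.leaf 223 1791 (.cons 343 (.leaf 319 1982 (.leaf 367 2174 .nil)) .nil)) .nil)) .nil)) (.cons 248 (.cons 223 (.leaf 247 1791 (.cons 224 (.leaf 199 1599 (.cons 225 (.leaf 201 1605 (.leaf 249 1797 .nil)) .nil)) .nil)) (.cons 321 (.leaf 345 1988 (.cons 223 (.leaf 247 1791 (.cons 224 (.leaf 199 1599 (.leaf 297 1796 .nil)) .nil)) .nil)) (.cons 247 (.leaf 223 1791 (.cons 246 (.leaf 245 1960 (.cons 249 (.leaf 225 1797 (.cons 221 (.leaf 222 1771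 (.cons 270 (.leaf 269 1962 (.cons 250 (.leaf 271 1969 (.cons 226 (.leaf 227 1785 (.cons 321 (.leaf 345 1988 (.leaf 297 1805 .nil)) .nil)) .nil)) .nil)) .nil)) .nil)) .nil)) .nil)) (.cons 225 (.leaf 249 1797 (.cons 224 (.leaf 201 1605 (.cons 319 (.leaf 295 1790 (.leaf 343 1982 .nil)) .nil)) .nil)) .nil)))) (.cons 344 (.cons 247 (.leaf 271 1983 (.cons 248 (.leaf 223 1791 (.cons 343 (.leaf 319 1982 (.leaf 367 2174 .nil)) .nil)) .nil)) (.cons 368 (.leaf 297 2181 (.cons 271 (.leaf 247 1983 (.leaf 295 2175 .nil)) .nil)) (.cons 297 (.leaf 368 2181 (.cons 343 (.leaf 367 2174 (.cons 248 (.leaf 319 1982 (.cons 223 (.leaf 247 1791 (.cons 224 (.leaf 199 1599 (.leaf 200 1604 .nil)) .nil)) .nil)) .nil)) .nil)) (.cons 297 (.leaf 368 2181 (.cons 343 (.leaf 367 2174 (.cons 248 (.leaf 319 1982 (.cons 321 (.leaf 224 1796 (.leaf 345 1988 .nil)) .nil)) .nil)) .nil)) .nil)))) (.cons 344 (.leaf 249 1989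 (.cons 247 (.leaf 271 1983 (.cons 343 (.leaf 367 2174 (.cons 368 (.leaf 297 2181 (.cons 369 (.leaf 345 2180 (.leaf 393 2372 .nil)) .nil)) .nil)) .nil)) .nil)) (.cons 248 (.cons 223 (.leaf 247 1791 (.cons 224 (.leaf 199 1599 (.cons 225 (.leaf 201 1605 (.leaf 249 1797 .nil)) .nil)) .nil)) (.cons 321 (.leaf 345 1988 (.cons 223 (.leaf 247 1791 (.cons 224 (.leaf 199 1599 (.leaf 297 1796 .nil)) .nil)) .nil)) (.cons 249 (.leaf 225 1797 (.leaf 344 1989 .nil)) .nil))) (.cons 344 (.leaf 249 1989 (.cons 297 (.leaf 368 2181 (.cons 343 (.leaf 367 2174 (.cons 248 (.leaf 319 1982 (.cons 321 (.leaf 224 1796 (.leaf 345 1988 .nil)) .nil)) .nil)) .nil)) .nil)) .nil)))))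
noncomputable def t20 : T := .cons 247 (.leaf 274 1979 (.cons 246 (.leaf 245 1960 (.cons 249 (.cons 225 (.leaf 201 1606 (.leaf 320 1797 .nil)) (.cons 225 (.leaf 201 1606 (.leaf 226 1777 .nil)) (.cons 320 (.leaf 223 1791 (.leaf 344 1989 .nil)) .nil))) .nil)) .nil)) (.cons 224 (.cons 297 (.leaf 200 1604 (.leaf 321 1796 .nil)) (.cons 199 (.leaf 223 1599 (.cons 200 (.leaf 175 1407 (.cons 201 (.leaf 177 1413 (.leaf 225 1605 .nil)) .nil)) .nil)) (.cons 199 (.leaf 223 1599 (.cons 201 (.leaf 225 1605 (.cons 321 (.leaf 297 1796 (.cons 320 (.leaf 345 1988 (.cons 343 (.leaf 319 1982 (.cons 344 (.leaf 249 1989 (.leaf 367 2174 .nil)) .nil)) .nil)) .nil)) .nil)) .nil)) .nil))) (.cons 247 (.leaf 274 1979 (.cons 246 (.leaf 245 1960 (.cons 224 (.cons 201 (.leaf 225 1605 (.cons 200 (.leaf 177 1413 (.leaf 297 1604 .nil)) .nil)) (.cons 201 (.leaf 225 1605 (.cons 200 (.leaf 177 1413 (.cons 176 (.leaf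 249 1412 (.leaf 271 1406 .nil)) .nil)) .nil)) (.cons 199 (.leaf 223 1599 (.cons 225 (.leaf 201 1605 (.cons 226 (.leaf 227 1786 (.leaf 249 1777 .nil)) .nil)) .nil)) (.cons 297 (.leaf 200 1604 (.leaf 321 1796 .nil)) .nil)))) .nil)) .nil)) (.cons 247 (.leaf 274 1979 (.cons 223 (.leaf 320 1791 (.cons 199 (.leaf 175 1404 (.leaf 224 1599 .nil)) .nil)) .nil)) (.cons 247 (.leaf 274 1979 (.cons 246 (.leaf 245 1960 (.cons 249 (.cons 225 (.leaf 201 1606 (.leaf 320 1797 .nil)) (.cons 270 (.leaf 269 1962 (.cons 250 (.leaf 271 1969 (.cons 221 (.leaf 222 1771 (.cons 226 (.leaf 227 1785 (.cons 178 (.leaf 202 1422 (.cons 320 (.leaf 344 1989 (.cons 321 (.leaf 345 1988 (.leaf 297 1805 .nil)) .nil)) .nil)) .nil)) .nil)) .nil)) .nil)) (.cons 225 (.leaf 201 1606 (.leaf 226 1777 .nil)) .nil))) .nil)) .nil)) .nil))))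
noncomputable def t21 : T := .cons 274 (.leaf 295 2170 (.cons 248 (.leaf 247 1979 (.cons 299 (.leaf 300 2176 (.cons 224 (.cons 199 (.leaf 223 1599 (.cons 200 (.leaf 175 1407 (.leaf 297 1604 .nil)) .nil)) (.cons 199 (.leaf 223 1599 (.cons 200 (.leaf 175 1407 (.cons 201 (.leaf 177 1413 (.leaf 225 1605 .nil)) .nil)) .nil)) (.cons 225 (.leaf 201 1605 (.cons 320 (.leaf 249 1797 (.cons 321 (.leaf 297 1796 (.leaf 345 1988 .nil)) .nil)) .nil)) .nil))) .nil)) .nil)) .nil)) (.cons 248 t20 (.cons 320 t19 (.cons 295 (.leaf 274 2170 (.cons 294 (.leaf 293 2153 (.cons 297 t18 .nil)) .nil)) (.cons 295 (.leaf 274 2170 (.cons 294 (.leaf 293 2153 (.cons 297 (.cons 321 (.leaf 322 2352 (.cons 248 (.leaf 224 1796 (.leaf 345 1991 .nil)) .nil)) (.cons 270 (.leaf 269 2155 (.cons 318 (.leaf 317 2346 (.cons 246 (.cons 245 (.leaf 271 1963 (.leaf 221 1775 .nil)) (.cons 319 (.leaf 222 1780 (.leaf 343 1972 .nil))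 .nil)) .nil)) .nil)) .nil)) .nil)) .nil)) (.cons 274 (.leaf 295 2170 (.cons 248 (.leaf 247 1979 (.cons 299 (.leaf 300 2176 (.cons 224 (.cons 199 (.leaf 223 1599 (.cons 200 (.leaf 175 1407 (.cons 201 (.leaf 177 1413 (.leaf 225 1605 .nil)) .nil)) .nil)) (.cons 199 (.leaf 223 1599 (.cons 200 (.leaf 175 1407 (.cons 176 (.leaf 249 1412 (.cons 177 (.leaf 201 1413 (.leaf 153 1221 .nil)) .nil)) .nil)) .nil)) (.cons 199 (.leaf 223 1599 (.cons 200 (.leaf 175 1407 (.cons 249 (.leaf 176 1412 (.cons 320 (.leaf 225 1797 (.leaf 344 1989 .nil)) .nil)) .nil)) .nil)) (.cons 225 (.leaf 201 1605 (.cons 320 (.leaf 249 1797 (.cons 321 (.leaf 345 1988 (.cons 343 (.leaf 319 1982 (.cons 344 (.leaf 367 2174 (.cons 323 (.leaf 322 2554 (.cons 347 (.leaf 250 2007 (.cons 370 (.leaf 346 2198 (.cons 371 (.leaf 394 2390 (.cons 372 (.leaf 348 2204 (.leaf 396 2396 .nil)) .nil)) .nil)) .nil)) .nil)) .nil)) .nil)) .nil))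 .nil)) .nil)) .nil)))) .nil)) .nil)) .nil)) (.cons 274 (.leaf 295 2170 (.cons 248 (.leaf 247 1979 (.cons 299 (.leaf 300 2176 (.cons 224 (.cons 199 (.leaf 223 1599 (.cons 200 (.leaf 175 1407 (.leaf 297 1604 .nil)) .nil)) (.cons 199 (.leaf 223 1599 (.cons 225 (.leaf 201 1605 (.cons 320 (.leaf 249 1797 (.cons 343 (.leaf 319 1982 (.cons 344 (.leaf 367 2174 (.cons 368 (.leaf 297 2181 (.cons 369 (.leaf 345 2180 (.leaf 393 2372 .nil)) .nil)) .nil)) .nil)) .nil)) .nil)) .nil)) (.cons 200 (.leaf 297 1604 (.cons 201 (.leaf 177 1413 (.leaf 225 1605 .nil)) .nil)) (.cons 225 (.leaf 201 1605 (.cons 199 (.leaf 223 1599 (.cons 200 (.leaf 175 1407 (.cons 249 (.leaf 320 1797 (.leaf 176 1412 .nil)) .nil)) .nil)) .nil)) .nil)))) .nil)) .nil)) .nil)) (.cons 274 (.leaf 295 2170 (.cons 248 (.leaf 247 1979 (.cons 299 (.leaf 300 2176 (.cons 224 (.cons 200 (.leaf 297 1604 (.cons 199 (.leaf 175 1407 (.leaf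 223 1599 .nil)) .nil)) (.cons 225 (.leaf 201 1605 (.cons 199 (.leaf 223 1599 (.cons 200 (.leaf 175 1407 (.cons 249 (.leaf 320 1797 (.leaf 176 1412 .nil)) .nil)) .nil)) .nil)) (.cons 225 (.leaf 201 1605 (.cons 199 (.leaf 223 1599 (.cons 297 (.leaf 321 1796 (.cons 320 (.leaf 249 1797 (.cons 343 (.leaf 319 1982 (.cons 344 (.leaf 367 2174 (.leaf 368 2181 .nil)) .nil)) .nil)) .nil)) .nil)) .nil)) (.cons 200 (.leaf 297 1604 (.cons 201 (.leaf 177 1413 (.leaf 225 1605 .nil)) .nil)) .nil)))) .nil)) .nil)) .nil)) .nil)))))))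
noncomputable def t22 : T := .leaf 274 2170 (.cons 294 (.leaf 293 2153 (.cons 297 (.cons 321 (.leaf 322 2352 (.cons 345 (.leaf 369 2183 (.cons 344 (.leaf 368 2182 (.cons 320 (.leaf 249 1989 (.cons 271 (.leaf 247 1983 (.cons 298 (.leaf 270 2160 (.leaf 299 2171 .nil)) .nil)) .nil)) .nil)) .nil)) .nil)) (.cons 321 (.leaf 322 2352 (.cons 345 (.leaf 369 2183 (.cons 344 (.leaf 368 2182 (.cons 320 (.leaf 249 1989 (.cons 271 (.leaf 247 1983 (.cons 298 (.leaf 299 2171 (.cons 318 (.leaf 317 2346 (.leaf 319 2353 .nil)) .nil)) .nil)) .nil)) .nil)) .nil)) .nil)) (.cons 269 (.leaf 270 2155 (.cons 318 (.leaf 317 2346 (.cons 298 (.leaf 319 2354 (.cons 299 (.leaf 271 2171 (.leaf 300 2179 .nil)) .nil)) .nil)) .nil)) (.cons 321 (.leaf 322 2352 (.cons 345 (.leaf 369 2183 (.cons 344 (.leaf 368 2182 (.cons 320 (.leaf 249 1989 (.cons 317 (.leaf 318 2346 (.cons 343 (.leaf 367 2174 (.cons 342 (.leaf 341 2537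 (.cons 346 (.leaf 370 2188 (.cons 347 (.leaf 348 2563 (.leaf 319 2555 .nil)) .nil)) .nil)) .nil)) .nil)) .nil)) .nil)) .nil)) .nil)) .nil)))) .nil)) .nil)
noncomputable def t23 : T := .cons 249 (.leaf 225 1797 (.cons 319 (.leaf 343 1982 (.cons 317 (.leaf 318 2345 (.cons 345 (.leaf 321 1988 (.cons 344 (.leaf 369 2180 (.cons 368 (.leaf 271 2175 (.leaf 392 2367 .nil)) .nil)) .nil)) .nil)) .nil)) .nil)) (.cons 321 (.leaf 345 1988 (.cons 249 (.leaf 225 1797 (.cons 247 (.leaf 250 1976 (.cons 322 (.leaf 323 2363 (.cons 344 (.leaf 271 1983 (.cons 367 (.leaf 343 2174 (.cons 368 (.leaf 391 2366 (.leaf 392 2373 .nil)) .nil)) .nil)) .nil)) .nil)) .nil)) .nil)) (.cons 345 (.leaf 321 1988 (.cons 225 (.leaf 249 1797 (.cons 344 (.leaf 369 2180 (.cons 368 (.leaf 271 2175 (.cons 391 (.leaf 367 2366 (.cons 392 (.leaf 319 2367 (.leaf 415 2558 .nil)) .nil)) .nil)) .nil)) .nil)) .nil)) (.cons 319 (.leaf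 343 1982 (.cons 249 (.leaf 225 1797 (.cons 247 (.leaf 250 1976 (.cons 318 (.leaf 317 2345 (.cons 271 (.leaf 344 1980 (.leaf 342 1974 .nil)) .nil)) .nil)) .nil)) .nil)) (.cons 319 (.leaf 343 1982 (.cons 249 (.leaf 225 1797 (.cons 247 (.leaf 250 1976 (.cons 318 (.leaf 317 2345 (.cons 271 (.leaf 342 1974 (.cons 269 (.leaf 270 2152 (.cons 246 (.leaf 222 1783 (.cons 245 (.leaf 244 1952 (.leaf 268 1954 .nil)) .nil)) .nil)) .nil)) .nil)) .nil)) .nil)) .nil)) (.cons 319 (.leaf 343 1982 (.cons 317 (.leaf 318 2345 (.cons 345 (.leaf 321 1988 (.cons 344 (.leaf 369 2180 (.cons 368 (.leaf 271 2175 (.leaf 392 2367 .nil)) .nil)) .nil)) .nil)) .nil)) (.cons 343 (.leaf 319 1982 (.cons 225 (.leaf 249 1797 (.cons 344 (.leaf 367 2174 (.cons 345 (.leaf 321 1988 (.leaf 369 2180 .nil)) .nil)) .nil)) .nil)) .nil))))))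
noncomputable def t24 : T := .cons 246 (.leaf 270 1975 (.cons 344 (.leaf 368 2172 (.cons 320 (.leaf 247 1980 (.leaf 249 1989 .nil)) .nil)) .nil)) (.cons 342 (.leaf 366 2166 (.cons 344 (.leaf 368 2172 (.cons 320 (.leaf 247 1980 (.leaf 249 1989 .nil)) .nil)) .nil)) (.cons 270 (.leaf 246 1975 (.cons 249 (.leaf 250 1969 (.cons 201 (.leaf 225 1606 (.cons 268 (.leaf 269 2144 (.cons 342 (.leaf 366 2166 (.cons 318 (.leaf 247 1973 (.cons 316 (.leaf 317 2337 (.cons 341 (.leaf 365 2158 (.cons 340 (.leaf 339 2521 (.leaf 320 2529 .nil)) .nil)) .nil)) .nil)) .nil)) .nil)) .nil)) .nil)) .nil)) (.cons 270 (.leaf 246 1975 (.cons 249 (.leaf 250 1969 (.cons 201 (.leaf 225 1606 (.cons 268 (.leaf 269 2144 (.cons 342 (.leaf 366 2166 (.cons 318 (.leaf 247 1973 (.cons 316 (.leaf 317 2337 (.cons 341 (.leaf 365 2158 (.cons 340 (.leaf 339 2521 (.leaf 315 2523 .nil)) .nil)) .nil)) .nil)) .nil)) .nil)) .nil))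 .nil)) .nil)) (.cons 246 (.leaf 270 1975 (.cons 344 (.leaf 368 2172 (.cons 320 (.leaf 249 1989 (.cons 321 (.leaf 322 2355 (.cons 345 (.leaf 369 2180 (.cons 318 (.leaf 317 2536 (.leaf 346 2544 .nil)) .nil)) .nil)) .nil)) .nil)) .nil)) (.cons 270 (.leaf 246 1975 (.cons 269 (.leaf 268 2144 (.cons 245 (.leaf 244 1955 (.cons 342 (.leaf 366 2166 (.leaf 318 1967 .nil)) .nil)) .nil)) .nil)) .nil)))))
noncomputable def t25 : T := .cons 319 (.cons 248 (.leaf 224 1790 (.cons 320 (.leaf 343 1982 (.cons 321 (.leaf 345 1988 (.cons 294 (.leaf 293 2344 (.leaf 322 2355 .nil)) .nil)) .nil)) .nil)) (.cons 248 (.leaf 224 1790 (.cons 320 (.cons 321 (.leaf 345 1988 (.cons 294 (.leaf 293 2344 (.leaf 322 2355 .nil)) .nil)) (.cons 249 (.leaf 225 1797 (.cons 344 (.leaf 273 1989 (.cons 368 (.leaf 271 2175 (.leaf 392 2367 .nil)) .nil)) .nil)) .nil)) .nil)) (.cons 343 (.leaf 367 2173 (.cons 271 (.cons 342 (.leaf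 366 2166 (.cons 247 (.leaf 318 1974 (.cons 344 (.leaf 320 1980 (.leaf 368 2172 .nil)) .nil)) .nil)) (.cons 270 (.leaf 246 1975 (.cons 269 (.leaf 297 2152 (.leaf 268 2144 .nil)) .nil)) .nil)) .nil)) (.cons 343 (.leaf 367 2173 (.cons 248 (.leaf 224 1790 (.leaf 271 1981 .nil)) .nil)) .nil)))) (.cons 273 (.leaf 274 2170 (.cons 294 (.leaf 293 2153 (.cons 319 (.cons 343 (.leaf 367 2173 (.cons 271 (.leaf 248 1981 (.cons 246 (.leaf 270 1975 (.cons 344 (.leaf 368 2172 (.cons 320 (.leaf 247 1980 (.leaf 249 1989 .nil)) .nil)) .nil)) .nil)) .nil)) (.cons 248 (.leaf 224 1790 (.cons 320 (.cons 249 (.leaf 225 1797 (.leaf 344 1989 .nil)) (.cons 321 (.leaf 345 1988 (.leaf 322 2355 .nil)) .nil)) .nil)) (.cons 343 (.leaf 367 2173 (.cons 271 t24 .nil)) (.cons 343 (.leaf 367 2173 (.cons 248 (.leaf 224 1790 (.leaf 271 1981 .nil)) .nil)) .nil)))) .nil)) .nil)) (.cons 273 (.leaf 274 2170 (.cons 294 (.leaf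 293 2153 (.cons 297 (.cons 321 (.leaf 322 2352 (.cons 345 (.leaf 248 1991 (.leaf 369 2183 .nil)) .nil)) (.cons 270 (.leaf 269 2155 (.cons 271 (.leaf 298 2160 (.cons 245 (.leaf 246 1963 (.cons 249 (.leaf 250 1969 (.cons 225 (.leaf 201 1606 (.leaf 320 1798 .nil)) .nil)) .nil)) .nil)) .nil)) .nil)) .nil)) .nil)) (.cons 274 (.leaf 273 2170 (.cons 248 (.cons 320 (.cons 319 (.leaf 224 1790 (.leaf 343 1982 .nil)) (.cons 321 (.leaf 345 1988 (.cons 297 (.leaf 298 2169 (.leaf 224 1796 .nil)) .nil)) (.cons 319 (.leaf 343 1982 (.cons 225 (.leaf 249 1797 (.cons 297 (.leaf 298 2169 (.cons 317 (.leaf 318 2345 (.cons 345 (.leaf 321 1988 (.cons 344 (.leaf 369 2180 (.cons 368 (.leaf 271 2175 (.leaf 392 2367 .nil)) .nil)) .nil)) .nil)) .nil)) .nil)) .nil)) .nil))) (.cons 297 (.leaf 298 2169 (.cons 224 (.leaf 321 1796 (.cons 200 (.leaf 271 1598 (.cons 201 (.leaf 177 1413 (.leaf 225 1605 .nil)) .nil))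 .nil)) .nil)) (.cons 297 (.leaf 298 2169 (.cons 320 t23 .nil)) (.cons 319 (.leaf 224 1790 (.cons 343 (.leaf 271 1981 (.leaf 320 1982 .nil)) .nil)) (.cons 319 (.leaf 224 1790 (.cons 343 (.leaf 320 1982 (.leaf 367 2173 .nil)) .nil)) .nil))))) .nil)) (.cons 273 t22 (.cons 273 (.leaf 274 2170 (.cons 294 (.leaf 293 2153 (.cons 297 (.cons 269 (.leaf 270 2155 (.cons 318 (.leaf 317 2346 (.cons 319 (.leaf 298 2354 (.cons 248 (.leaf 224 1790 (.cons 343 (.leaf 320 1982 (.leaf 367 2173 .nil)) .nil)) .nil)) .nil)) .nil)) (.cons 269 (.leaf 270 2155 (.cons 321 (.leaf 322 2352 (.cons 248 (.leaf 224 1796 (.leaf 345 1991 .nil)) .nil)) .nil)) (.cons 321 (.leaf 322 2352 (.cons 345 (.leaf 369 2183 (.cons 344 (.leaf 368 2182 (.cons 320 (.leaf 249 1989 (.cons 317 (.leaf 318 2346 (.cons 343 (.leaf 367 2174 (.cons 342 (.leaf 341 2537 (.cons 346 (.leaf 370 2188 (.cons 347 (.leaf 348 2563 (.leaf 319 2555 .nil))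 .nil)) .nil)) .nil)) .nil)) .nil)) .nil)) .nil)) .nil)) .nil))) .nil)) .nil)) (.cons 273 (.leaf 274 2170 (.cons 294 (.leaf 293 2153 (.cons 297 (.cons 318 (.leaf 317 2346 (.cons 270 (.leaf 269 2155 (.cons 319 (.leaf 298 2354 (.cons 343 (.leaf 367 2173 (.leaf 246 1972 .nil)) .nil)) .nil)) .nil)) (.cons 318 (.leaf 317 2346 (.cons 298 (.leaf 319 2354 (.cons 299 (.leaf 271 2171 (.leaf 300 2179 .nil)) .nil)) .nil)) (.cons 270 (.leaf 269 2155 (.cons 318 (.leaf 317 2346 (.cons 246 (.cons 245 (.leaf 271 1963 (.leaf 221 1775 .nil)) (.cons 319 (.leaf 222 1780 (.leaf 343 1972 .nil)) .nil)) .nil)) .nil)) (.cons 270 (.leaf 269 2155 (.cons 271 (.leaf 298 2160 (.cons 245 (.leaf 246 1963 (.cons 249 (.leaf 250 1969 (.cons 225 (.leaf 201 1606 (.leaf 320 1798 .nil)) .nil)) .nil)) .nil)) .nil)) .nil)))) .nil)) .nil)) (.cons 273 (.leaf 274 2170 (.cons 294 (.leaf 293 2153 (.cons 297 (.cons 321 (.leaf 322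 2352 (.cons 345 (.leaf 248 1991 (.leaf 369 2183 .nil)) .nil)) (.cons 318 (.leaf 317 2346 (.cons 298 (.leaf 319 2354 (.cons 299 (.leaf 271 2171 (.leaf 300 2179 .nil)) .nil)) .nil)) .nil)) .nil)) .nil)) .nil)))))))
noncomputable def t26 : T := .cons 273 (.leaf 274 2170 (.cons 294 (.leaf 293 2153 (.cons 297 (.cons 318 (.leaf 317 2346 (.cons 270 (.leaf 269 2155 (.cons 319 (.leaf 298 2354 (.cons 343 (.leaf 367 2173 (.leaf 246 1972 .nil)) .nil)) .nil)) .nil)) (.cons 318 (.leaf 317 2346 (.cons 298 (.leaf 319 2354 (.cons 299 (.leaf 271 2171 (.leaf 300 2179 .nil)) .nil)) .nil)) (.cons 321 (.leaf 322 2352 (.cons 345 (.leaf 248 1991 (.leaf 369 2183 .nil)) .nil)) .nil))) .nil)) .nil)) (.cons 297 (.cons 298 (.leaf 274 2169 (.cons 271 (.leaf 299 2171 (.leaf 270 2163 .nil)) .nil)) (.cons 294 (.cons 321 (.leaf 322 2352 (.cons 269 (.leaf 270 2155 (.cons 293 (.leaf 268 2147 (.leaf 320 2344 .nil)) .nil))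 .nil)) (.cons 269 (.leaf 270 2155 (.cons 293 (.leaf 268 2147 (.cons 317 (.leaf 316 2338 (.leaf 318 2346 .nil)) .nil)) .nil)) (.cons 321 (.leaf 322 2352 (.cons 293 (.leaf 320 2344 (.cons 317 (.leaf 316 2338 (.leaf 318 2346 .nil)) .nil)) .nil)) (.cons 321 (.leaf 322 2352 (.cons 248 (.leaf 224 1796 (.cons 345 (.leaf 320 1988 (.leaf 369 2183 .nil)) .nil)) .nil)) .nil)))) (.cons 298 (.leaf 274 2169 (.cons 318 (.leaf 319 2354 (.cons 294 (.leaf 317 2346 (.cons 322 (.leaf 321 2352 (.leaf 323 2360 .nil)) .nil)) .nil)) .nil)) .nil))) t25)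
noncomputable def t27 : T := .cons 223 (.leaf 247 1791 (.cons 343 (.leaf 319 1982 (.cons 344 (.leaf 367 2174 (.cons 368 (.leaf 271 2175 (.cons 369 (.leaf 345 2180 (.leaf 393 2372 .nil)) .nil)) .nil)) .nil)) .nil)) (.cons 321 (.leaf 345 1988 (.cons 247 (.leaf 223 1791 (.cons 322 (.leaf 323 2363 (.cons 344 (.leaf 271 1983 (.cons 367 (.leaf 343 2174 (.cons 368 (.leaf 391 2366 (.leaf 392 2373 .nil)) .nil)) .nil)) .nil)) .nil)) .nil)) (.cons 247 (.leaf 223 1791 (.cons 344 (.leaf 271 1983 (.cons 345 (.leaf 321 1988 (.leaf 369 2180 .nil)) .nil)) .nil)) (.cons 319 (.leaf 343 1982 (.cons 317 (.leaf 318 2345 (.cons 345 (.leaf 321 1988 (.cons 344 (.leaf 369 2180 (.cons 368 (.leaf 271 2175 (.leaf 392 2367 .nil)) .nil)) .nil)) .nil)) .nil)) (.cons 319 (.leaf 343 1982 (.cons 247 (.leaf 223 1791 (.cons 318 (.leaf 317 2345 (.cons 271 (.leaf 344 1980 (.leaf 342 1974 .nil)) .nil)) .nil)) .nil)) (.cons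 343 (.leaf 319 1982 (.cons 223 (.leaf 247 1791 (.cons 344 (.leaf 367 2174 (.cons 345 (.leaf 321 1988 (.leaf 369 2180 .nil)) .nil)) .nil)) .nil)) (.cons 319 (.leaf 343 1982 (.cons 247 (.leaf 223 1791 (.cons 318 (.leaf 317 2345 (.cons 271 (.leaf 342 1974 (.cons 246 (.leaf 222 1783 (.cons 245 (.leaf 244 1952 (.cons 269 (.leaf 270 2152 (.leaf 268 1954 .nil)) .nil)) .nil)) .nil)) .nil)) .nil)) .nil)) .nil))))))
noncomputable def t28 : T := .cons 343 (.leaf 367 2173 (.cons 271 (.leaf 248 1981 (.cons 342 (.leaf 366 2166 (.cons 247 (.leaf 318 1974 (.cons 223 (.leaf 199 1596 (.leaf 320 1788 .nil)) .nil)) .nil)) .nil)) .nil)) (.cons 248 (.leaf 224 1790 (.cons 320 (.cons 321 (.leaf 345 1988 (.leaf 322 2355 .nil)) (.cons 247 (.leaf 223 1791 (.cons 271 (.leaf 344 1980 (.cons 246 (.leaf 245 1960 (.leaf 222 1783 .nil)) .nil)) .nil)) .nil)) .nil)) (.cons 343 (.leaf 367 2173 (.cons 271 (.cons 342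 (.leaf 366 2166 (.cons 247 (.leaf 318 1974 (.cons 223 (.leaf 199 1596 (.leaf 320 1788 .nil)) .nil)) .nil)) (.cons 270 (.leaf 246 1975 (.cons 269 (.leaf 268 2144 (.cons 245 (.leaf 244 1955 (.cons 342 (.leaf 366 2166 (.leaf 318 1967 .nil)) .nil)) .nil)) .nil)) (.cons 246 (.leaf 270 1975 (.cons 247 (.leaf 222 1783 (.cons 223 (.leaf 199 1596 (.leaf 320 1788 .nil)) .nil)) .nil)) .nil))) .nil)) (.cons 343 (.leaf 367 2173 (.cons 248 (.leaf 224 1790 (.leaf 271 1981 .nil)) .nil)) (.cons 343 (.leaf 367 2173 (.cons 248 (.leaf 224 1790 (.leaf 320 1982 .nil)) .nil)) .nil))))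
noncomputable def t29 : T := .cons 343 (.leaf 367 2173 (.cons 271 (.leaf 248 1981 (.cons 246 (.leaf 270 1975 (.cons 247 (.leaf 222 1783 (.cons 223 (.leaf 199 1596 (.leaf 320 1788 .nil)) .nil)) .nil)) .nil)) .nil)) (.cons 248 (.leaf 224 1790 (.cons 320 (.cons 321 (.leaf 345 1988 (.cons 294 (.leaf 293 2344 (.leaf 322 2355 .nil)) .nil)) (.cons 247 (.leaf 223 1791 (.cons 271 (.leaf 344 1980 (.cons 222 (.leaf 246 1783 (.cons 318 (.leaf 342 1974 (.cons 297 (.leaf 298 2354 (.leaf 317 2345 .nil)) .nil)) .nil)) .nil)) .nil)) .nil)) .nil)) (.cons 343 (.leaf 367 2173 (.cons 271 (.cons 246 (.leaf 270 1975 (.cons 247 (.leaf 222 1783 (.cons 223 (.leaf 199 1596 (.leaf 320 1788 .nil)) .nil)) .nil)) (.cons 342 (.leaf 366 2166 (.cons 247 (.leaf 318 1974 (.cons 223 (.leaf 199 1596 (.leaf 320 1788 .nil)) .nil)) .nil)) (.cons 270 (.leaf 246 1975 (.cons 269 (.leaf 297 2152 (.leaf 268 2144 .nil)) .nil))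 .nil))) .nil)) (.cons 343 (.leaf 367 2173 (.cons 248 (.leaf 224 1790 (.leaf 271 1981 .nil)) .nil)) (.cons 343 (.leaf 367 2173 (.cons 248 (.leaf 224 1790 (.leaf 320 1982 .nil)) .nil)) .nil))))
noncomputable def t30 : T := .cons 273 (.leaf 274 2170 (.cons 294 (.leaf 293 2153 (.cons 297 (.cons 318 (.leaf 317 2346 (.cons 270 (.leaf 269 2155 (.cons 319 (.leaf 298 2354 (.cons 343 (.leaf 367 2173 (.leaf 246 1972 .nil)) .nil)) .nil)) .nil)) (.cons 318 (.leaf 317 2346 (.cons 298 (.leaf 319 2354 (.cons 299 (.leaf 271 2171 (.leaf 300 2179 .nil)) .nil)) .nil)) (.cons 321 (.leaf 322 2352 (.cons 248 (.leaf 224 1796 (.leaf 345 1991 .nil)) .nil)) .nil))) .nil)) .nil)) (.cons 319 t29 (.cons 273 (.leaf 274 2170 (.cons 294 (.leaf 293 2153 (.cons 319 t28 .nil)) .nil)) (.cons 273 (.leaf 274 2170 (.cons 294 (.leaf 293 2153 (.cons 297 (.cons 270 (.leaf 269 2155 (.cons 271 (.leaf 298 2160 (.cons 245 (.leaf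 246 1963 (.cons 318 (.leaf 317 2346 (.cons 247 (.leaf 223 1782 (.leaf 342 1973 .nil)) .nil)) .nil)) .nil)) .nil)) (.cons 321 (.leaf 322 2352 (.cons 248 (.leaf 224 1796 (.leaf 345 1991 .nil)) .nil)) .nil)) .nil)) .nil)) (.cons 273 (.leaf 274 2170 (.cons 294 (.leaf 293 2153 (.cons 297 (.cons 269 (.leaf 270 2155 (.cons 318 (.leaf 317 2346 (.cons 319 (.leaf 298 2354 (.cons 248 (.leaf 224 1790 (.cons 343 (.leaf 320 1982 (.leaf 367 2173 .nil)) .nil)) .nil)) .nil)) .nil)) (.cons 321 (.leaf 322 2352 (.cons 248 (.leaf 224 1796 (.leaf 345 1991 .nil)) .nil)) (.cons 269 (.leaf 270 2155 (.cons 318 (.leaf 317 2346 (.cons 298 (.leaf 319 2354 (.cons 299 (.leaf 300 2179 (.cons 323 (.leaf 322 2360 (.leaf 324 2368 .nil)) .nil)) .nil)) .nil)) .nil)) .nil))) .nil)) .nil)) (.cons 274 (.leaf 273 2170 (.cons 297 (.leaf 298 2169 (.cons 248 (.cons 319 (.leaf 224 1790 (.cons 343 (.leaf 271 1981 (.leaf 320 1982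 .nil)) .nil)) (.cons 320 t27 (.cons 224 (.leaf 321 1796 (.cons 199 (.leaf 223 1599 (.cons 200 (.leaf 175 1407 (.leaf 271 1598 .nil)) .nil)) .nil)) (.cons 224 (.leaf 319 1790 (.leaf 321 1796 .nil)) .nil)))) .nil)) .nil)) (.cons 273 (.leaf 274 2170 (.cons 294 (.leaf 293 2153 (.cons 297 (.cons 269 (.leaf 270 2155 (.cons 318 (.leaf 317 2346 (.cons 298 (.leaf 319 2354 (.cons 299 (.leaf 271 2171 (.leaf 300 2179 .nil)) .nil)) .nil)) .nil)) (.cons 318 (.leaf 317 2346 (.cons 298 (.leaf 319 2354 (.cons 299 (.leaf 271 2171 (.leaf 300 2179 .nil)) .nil)) .nil)) (.cons 270 (.leaf 269 2155 (.cons 271 (.leaf 298 2160 (.cons 246 (.leaf 245 1963 (.cons 222 (.leaf 198 1588 (.leaf 319 1780 .nil)) .nil)) .nil)) .nil)) (.cons 270 (.leaf 269 2155 (.cons 318 (.leaf 317 2346 (.cons 321 (.leaf 322 2352 (.cons 345 (.leaf 369 2183 (.cons 344 (.leaf 368 2182 (.cons 346 (.leaf 370 2188 (.cons 343 (.leaf 319 2547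 (.cons 367 (.leaf 320 2174 (.leaf 342 2164 .nil)) .nil)) .nil)) .nil)) .nil)) .nil)) .nil)) .nil)) (.cons 270 (.leaf 269 2155 (.cons 271 (.leaf 298 2160 (.cons 245 (.leaf 246 1963 (.cons 318 (.leaf 317 2346 (.cons 247 (.leaf 223 1782 (.leaf 342 1973 .nil)) .nil)) .nil)) .nil)) .nil)) .nil))))) .nil)) .nil)) (.cons 273 (.leaf 274 2170 (.cons 294 (.leaf 293 2153 (.cons 297 (.cons 270 (.leaf 269 2155 (.cons 318 (.leaf 317 2346 (.cons 319 (.leaf 298 2354 (.cons 343 (.leaf 367 2173 (.leaf 246 1972 .nil)) .nil)) .nil)) .nil)) (.cons 318 (.leaf 317 2346 (.cons 298 (.leaf 319 2354 (.cons 299 (.leaf 271 2171 (.leaf 300 2179 .nil)) .nil)) .nil)) (.cons 270 (.leaf 269 2155 (.cons 271 (.leaf 298 2160 (.cons 246 (.leaf 245 1963 (.cons 222 (.leaf 198 1588 (.leaf 319 1780 .nil)) .nil)) .nil)) .nil)) (.cons 270 (.leaf 269 2155 (.cons 318 (.leaf 317 2346 (.cons 246 (.cons 245 (.leaf 271 1963 (.leaf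 221 1775 .nil)) (.cons 319 (.leaf 222 1780 (.leaf 343 1972 .nil)) .nil)) .nil)) .nil)) (.cons 270 (.leaf 269 2155 (.cons 271 (.leaf 298 2160 (.cons 245 (.leaf 246 1963 (.cons 318 (.leaf 317 2346 (.cons 247 (.leaf 223 1782 (.leaf 342 1973 .nil)) .nil)) .nil)) .nil)) .nil)) .nil))))) .nil)) .nil)) (.cons 273 (.leaf 274 2170 (.cons 294 (.leaf 293 2153 (.cons 297 (.cons 317 (.leaf 318 2346 (.cons 322 (.leaf 321 2352 (.cons 298 (.leaf 323 2360 (.cons 299 (.leaf 271 2171 (.leaf 300 2179 .nil)) .nil)) .nil)) .nil)) (.cons 318 (.leaf 317 2346 (.cons 298 (.leaf 319 2354 (.cons 299 (.leaf 271 2171 (.leaf 300 2179 .nil)) .nil)) .nil)) (.cons 321 (.leaf 322 2352 (.cons 248 (.leaf 224 1796 (.leaf 345 1991 .nil)) .nil)) .nil))) .nil)) .nil)) (.cons 273 (.leaf 274 2170 (.cons 294 (.leaf 293 2153 (.cons 297 (.cons 270 (.leaf 269 2155 (.cons 271 (.leaf 298 2160 (.cons 246 (.leaf 245 1963 (.cons 222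 (.leaf 198 1588 (.leaf 319 1780 .nil)) .nil)) .nil)) .nil)) (.cons 321 (.leaf 322 2352 (.cons 248 (.leaf 224 1796 (.leaf 345 1991 .nil)) .nil)) .nil)) .nil)) .nil)) .nil)))))))))
noncomputable def t31 : T := .cons 320 (.leaf 344 1989 (.cons 225 (.leaf 201 1606 (.leaf 248 1797 .nil)) .nil)) (.cons 320 (.leaf 344 1989 (.cons 274 (.cons 299 (.leaf 300 2176 (.cons 271 (.leaf 298 2168 (.cons 246 (.leaf 247 1971 (.cons 270 (.leaf 245 1963 (.leaf 250 1969 .nil)) .nil)) .nil)) .nil)) (.cons 299 (.leaf 300 2176 (.cons 271 (.leaf 298 2168 (.cons 270 (.leaf 250 1969 (.cons 245 (.leaf 246 1963 (.cons 269 (.leaf 244 1955 (.leaf 248 1961 .nil)) .nil)) .nil)) .nil)) .nil)) (.cons 247 (.leaf 248 1979 (.cons 271 (.leaf 246 1971 (.cons 199 (.leaf 223 1596 (.cons 270 (.leaf 250 1969 (.cons 297 (.leaf 269 2152 (.leaf 298 2160 .nil)) .nil)) .nil)) .nil)) .nil)) (.cons 248 (.leaf 247 1979 (.cons 299 (.leaf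 300 2176 (.cons 319 (.leaf 343 1982 (.cons 297 (.leaf 298 2362 (.cons 224 (.leaf 200 1604 (.leaf 321 1796 .nil)) .nil)) .nil)) .nil)) .nil)) (.cons 247 (.leaf 248 1979 (.cons 271 (.leaf 246 1971 (.cons 199 (.leaf 223 1596 (.cons 270 (.leaf 250 1969 (.cons 269 (.leaf 297 2152 (.cons 293 (.leaf 292 2146 (.leaf 294 2154 .nil)) .nil)) .nil)) .nil)) .nil)) .nil)) .nil))))) .nil)) (.cons 225 (.leaf 201 1606 (.cons 297 (.cons 202 (.leaf 226 1613 (.cons 224 (.leaf 200 1607 (.cons 298 (.leaf 322 1804 (.cons 271 (.leaf 270 2160 (.leaf 299 2171 .nil)) .nil)) .nil)) .nil)) (.cons 202 (.leaf 226 1613 (.cons 298 (.leaf 322 1804 (.cons 271 (.leaf 270 2160 (.leaf 299 2171 .nil)) .nil)) .nil)) (.cons 202 (.leaf 226 1613 (.cons 224 (.leaf 200 1607 (.cons 248 (.leaf 321 1796 (.cons 199 (.leaf 223 1599 (.cons 247 (.leaf 274 1979 (.cons 246 (.leaf 245 1960 (.cons 270 (.leaf 269 1962 (.cons 271 (.leaf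 250 1969 (.cons 222 (.leaf 221 1771 (.cons 198 (.leaf 175 1397 (.leaf 174 1396 .nil)) .nil)) .nil)) .nil)) .nil)) .nil)) .nil)) .nil)) .nil)) .nil)) (.cons 200 (.leaf 224 1607 (.cons 298 (.leaf 322 1804 (.cons 271 (.leaf 270 2160 (.leaf 299 2171 .nil)) .nil)) .nil)) (.cons 224 (.leaf 200 1607 (.cons 226 (.leaf 202 1613 (.cons 321 (.leaf 248 1796 (.leaf 250 1805 .nil)) .nil)) .nil)) .nil))))) .nil)) (.cons 225 (.leaf 201 1606 (.cons 320 (.leaf 344 1989 (.leaf 297 1798 .nil)) .nil)) .nil)))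
noncomputable def t32 : T := .cons 320 (.leaf 344 1989 (.cons 248 (.leaf 225 1797 (.cons 223 (.leaf 247 1791 (.cons 224 (.leaf 199 1599 (.cons 200 (.leaf 297 1604 (.leaf 176 1412 .nil)) .nil)) .nil)) .nil)) .nil)) (.cons 320 (.leaf 344 1989 (.cons 248 (.cons 223 (.leaf 247 1791 (.cons 224 (.leaf 199 1599 (.cons 200 (.leaf 297 1604 (.leaf 176 1412 .nil)) .nil)) .nil)) (.cons 319 (.leaf 343 1982 (.cons 224 (.leaf 295 1790 (.cons 297 (.leaf 200 1604 (.leaf 321 1796 .nil)) .nil)) .nil)) (.cons 247 (.leaf 223 1791 (.cons 246 (.leaf 245 1960 (.cons 221 (.leaf 222 1771 (.cons 270 (.leaf 269 1962 (.cons 271 (.leaf 250 1969 (.cons 294 (.leaf 293 2154 (.cons 297 (.leaf 298 2160 (.cons 318 (.leaf 342 1973 (.cons 317 (.leaf 295 2346 (.leaf 319 2345 .nil)) .nil)) .nil)) .nil)) .nil)) .nil)) .nil)) .nil)) .nil)) (.cons 223 (.leaf 247 1791 (.cons 224 (.leaf 199 1599 (.cons 200 (.leaf 176 1412 (.cons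 177 (.leaf 201 1413 (.cons 221 (.leaf 222 1768 (.cons 271 (.leaf 295 1598 (.cons 270 (.leaf 269 1961 (.leaf 250 1969 .nil)) .nil)) .nil)) .nil)) .nil)) .nil)) .nil)) .nil)))) .nil)) (.cons 225 (.leaf 201 1606 (.cons 297 (.cons 200 (.leaf 224 1607 (.cons 226 (.leaf 202 1613 (.cons 321 (.leaf 250 1805 (.cons 322 (.leaf 298 1804 (.leaf 346 1996 .nil)) .nil)) .nil)) .nil)) (.cons 202 (.leaf 226 1613 (.cons 298 (.leaf 322 1804 (.cons 271 (.leaf 270 2160 (.leaf 299 2171 .nil)) .nil)) .nil)) (.cons 202 (.leaf 226 1613 (.cons 224 (.leaf 200 1607 (.cons 248 (.leaf 321 1796 (.cons 199 (.leaf 223 1599 (.cons 295 (.leaf 319 1790 (.cons 294 (.leaf 293 2153 (.cons 270 (.leaf 269 2155 (.cons 271 (.leaf 250 1969 (.cons 246 (.leaf 245 1963 (.cons 222 (.leaf 198 1588 (.cons 221 (.leaf 247 1771 (.leaf 197 1583 .nil)) .nil)) .nil)) .nil)) .nil)) .nil)) .nil)) .nil)) .nil)) .nil)) .nil)) (.cons 224 (.leaf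 200 1607 (.cons 248 (.leaf 321 1796 (.cons 199 (.leaf 223 1599 (.cons 295 (.leaf 319 1790 (.cons 293 (.leaf 294 2153 (.cons 298 (.leaf 322 1804 (.cons 271 (.leaf 270 2160 (.leaf 299 2171 .nil)) .nil)) .nil)) .nil)) .nil)) .nil)) .nil)) .nil)))) .nil)) (.cons 225 (.leaf 201 1606 (.cons 320 (.leaf 248 1797 (.leaf 344 1989 .nil)) .nil)) (.cons 225 (.leaf 201 1606 (.cons 320 (.leaf 344 1989 (.leaf 297 1798 .nil)) .nil)) .nil))))
noncomputable def t33 : T := .cons 274 (.leaf 295 2170 (.cons 248 (.leaf 247 1979 (.cons 299 (.leaf 300 2176 (.cons 224 (.cons 225 (.leaf 201 1605 (.cons 199 (.leaf 223 1599 (.cons 297 (.leaf 200 1604 (.leaf 321 1796 .nil)) .nil)) .nil)) (.cons 225 (.leaf 201 1605 (.cons 199 (.leaf 223 1599 (.cons 200 (.leaf 175 1407 (.cons 249 (.leaf 320 1797 (.leaf 176 1412 .nil)) .nil)) .nil)) .nil)) (.cons 199 (.leaf 223 1599 (.cons 225 (.leaf 201 1605 (.cons 297 (.leaf 321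 1796 (.cons 320 (.leaf 249 1797 (.cons 343 (.leaf 319 1982 (.cons 344 (.leaf 367 2174 (.leaf 368 2181 .nil)) .nil)) .nil)) .nil)) .nil)) .nil)) (.cons 297 (.leaf 200 1604 (.leaf 321 1796 .nil)) .nil)))) .nil)) .nil)) .nil)) (.cons 249 t32 (.cons 249 t31 (.cons 274 (.leaf 295 2170 (.cons 299 (.leaf 300 2176 (.cons 271 (.leaf 298 2168 (.cons 246 (.leaf 247 1971 (.cons 270 (.leaf 245 1963 (.cons 249 (.leaf 250 1969 (.cons 201 (.leaf 225 1606 (.cons 269 (.leaf 297 2152 (.cons 293 (.leaf 292 2146 (.leaf 294 2154 .nil)) .nil)) .nil)) .nil)) .nil)) .nil)) .nil)) .nil)) .nil)) (.cons 274 (.leaf 295 2170 (.cons 247 (.leaf 248 1979 (.cons 271 (.leaf 246 1971 (.cons 299 (.leaf 300 2176 (.leaf 298 2168 .nil)) .nil)) .nil)) .nil)) (.cons 274 (.leaf 295 2170 (.cons 299 (.leaf 300 2176 (.cons 271 (.leaf 298 2168 (.cons 270 (.cons 245 (.leaf 246 1963 (.cons 249 (.leaf 250 1969 (.cons 269 (.leaf 244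 1955 (.leaf 248 1961 .nil)) .nil)) .nil)) (.cons 245 (.leaf 246 1963 (.cons 249 (.leaf 250 1969 (.cons 225 (.leaf 201 1606 (.cons 320 (.leaf 248 1797 (.leaf 344 1989 .nil)) .nil)) .nil)) .nil)) (.cons 245 (.leaf 246 1963 (.cons 269 (.leaf 244 1955 (.leaf 297 2152 .nil)) .nil)) (.cons 249 (.leaf 250 1969 (.cons 269 (.leaf 248 1961 (.leaf 297 2152 .nil)) .nil)) .nil)))) .nil)) .nil)) .nil)) (.cons 274 (.leaf 295 2170 (.cons 248 (.leaf 247 1979 (.cons 224 (.cons 199 (.leaf 223 1599 (.cons 200 (.leaf 175 1407 (.leaf 297 1604 .nil)) .nil)) (.cons 225 (.leaf 201 1605 (.cons 199 (.leaf 223 1599 (.cons 200 (.leaf 175 1407 (.cons 249 (.leaf 320 1797 (.leaf 176 1412 .nil)) .nil)) .nil)) .nil)) (.cons 199 (.leaf 223 1599 (.cons 225 (.leaf 201 1605 (.cons 249 (.leaf 320 1797 (.cons 297 (.leaf 321 1796 (.cons 226 (.leaf 202 1613 (.cons 227 (.leaf 228 1794 (.cons 203 (.leaf 204 1601 (.cons 298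 (.leaf 322 1804 (.leaf 250 1621 .nil)) .nil)) .nil)) .nil)) .nil)) .nil)) .nil)) .nil)) (.cons 225 (.leaf 201 1605 (.cons 200 (.leaf 297 1604 (.cons 249 (.leaf 320 1797 (.leaf 176 1412 .nil)) .nil)) .nil)) .nil)))) .nil)) .nil)) .nil))))))
noncomputable def t34 : T := .cons 248 (.leaf 247 1979 (.cons 224 (.cons 225 (.leaf 201 1605 (.cons 199 (.leaf 223 1599 (.cons 175 (.leaf 200 1407 (.cons 249 (.leaf 320 1797 (.cons 299 (.leaf 300 2176 (.cons 271 (.leaf 298 2168 (.cons 270 (.leaf 269 1961 (.leaf 250 1969 .nil)) .nil)) .nil)) .nil)) .nil)) .nil)) .nil)) (.cons 225 (.leaf 201 1605 (.cons 199 (.leaf 223 1599 (.cons 320 (.leaf 249 1797 (.cons 343 (.leaf 319 1982 (.cons 344 (.leaf 367 2174 (.cons 368 (.leaf 297 2181 (.cons 369 (.leaf 345 2180 (.leaf 393 2372 .nil)) .nil)) .nil)) .nil)) .nil)) .nil)) .nil)) (.cons 200 (.leaf 297 1604 (.cons 199 (.leaf 175 1407 (.leaf 223 1599 .nil)) .nil))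 (.cons 225 (.leaf 201 1605 (.cons 200 (.leaf 297 1604 (.cons 249 (.leaf 320 1797 (.leaf 176 1412 .nil)) .nil)) .nil)) .nil)))) .nil)) (.cons 248 (.leaf 247 1979 (.cons 224 (.cons 225 (.leaf 201 1605 (.cons 200 (.leaf 297 1604 (.cons 199 (.leaf 175 1407 (.leaf 223 1599 .nil)) .nil)) .nil)) (.cons 225 (.leaf 201 1605 (.cons 199 (.leaf 223 1599 (.cons 320 (.leaf 249 1797 (.cons 343 (.leaf 319 1982 (.cons 344 (.leaf 367 2174 (.cons 368 (.leaf 297 2181 (.cons 369 (.leaf 345 2180 (.leaf 393 2372 .nil)) .nil)) .nil)) .nil)) .nil)) .nil)) .nil)) (.cons 200 (.leaf 297 1604 (.cons 199 (.leaf 175 1407 (.leaf 223 1599 .nil)) .nil)) (.cons 225 (.leaf 201 1605 (.cons 200 (.leaf 297 1604 (.cons 249 (.leaf 320 1797 (.leaf 176 1412 .nil)) .nil)) .nil)) (.cons 225 (.leaf 201 1605 (.cons 199 (.leaf 223 1599 (.cons 200 (.leaf 175 1407 (.cons 249 (.leaf 320 1797 (.leaf 176 1412 .nil)) .nil)) .nil)) .nil))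 .nil))))) .nil)) (.cons 299 (.leaf 300 2176 (.cons 271 (.leaf 298 2168 (.cons 270 (.cons 245 (.leaf 246 1963 (.cons 249 (.leaf 250 1969 (.cons 269 (.leaf 244 1955 (.leaf 248 1961 .nil)) .nil)) .nil)) (.cons 245 (.leaf 246 1963 (.cons 249 (.leaf 250 1969 (.cons 225 (.leaf 201 1606 (.cons 320 (.leaf 248 1797 (.leaf 344 1989 .nil)) .nil)) .nil)) .nil)) (.cons 245 (.leaf 246 1963 (.cons 269 (.leaf 244 1955 (.leaf 297 2152 .nil)) .nil)) (.cons 249 (.leaf 250 1969 (.cons 269 (.leaf 248 1961 (.leaf 297 2152 .nil)) .nil)) .nil)))) .nil)) .nil)) (.cons 299 (.leaf 300 2176 (.cons 271 (.leaf 298 2168 (.cons 246 (.leaf 247 1971 (.cons 270 (.leaf 245 1963 (.cons 249 (.leaf 250 1969 (.cons 201 (.leaf 225 1606 (.cons 269 (.leaf 297 2152 (.cons 293 (.leaf 292 2146 (.leaf 294 2154 .nil)) .nil)) .nil)) .nil)) .nil)) .nil)) .nil)) .nil)) (.cons 299 (.leaf 300 2176 (.cons 247 (.leaf 248 1979 (.cons 271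 (.leaf 246 1971 (.leaf 298 2168 .nil)) .nil)) .nil)) .nil))))
noncomputable def t35 : T := .cons 344 (.leaf 249 1989 (.cons 247 (.leaf 271 1983 (.cons 248 (.leaf 223 1791 (.cons 343 (.leaf 319 1982 (.leaf 367 2174 .nil)) .nil)) .nil)) .nil)) (.cons 248 (.cons 223 (.leaf 247 1791 (.cons 224 (.leaf 199 1599 (.cons 225 (.leaf 201 1605 (.leaf 249 1797 .nil)) .nil)) .nil)) (.cons 319 (.leaf 343 1982 (.cons 223 (.leaf 247 1791 (.cons 224 (.leaf 199 1599 (.leaf 295 1790 .nil)) .nil)) .nil)) (.cons 225 (.leaf 249 1797 (.cons 224 (.leaf 201 1605 (.cons 319 (.leaf 295 1790 (.leaf 343 1982 .nil)) .nil)) .nil)) (.cons 249 (.leaf 225 1797 (.cons 247 (.leaf 223 1791 (.cons 246 (.leaf 245 1960 (.cons 221 (.leaf 222 1771 (.cons 270 (.leaf 269 1962 (.cons 271 (.leaf 250 1969 (.cons 294 (.leaf 293 2154 (.cons 297 (.leaf 298 2160 (.cons 318 (.leaf 342 1973 (.cons 317 (.leaf 295 2346 (.leaf 319 2345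 .nil)) .nil)) .nil)) .nil)) .nil)) .nil)) .nil)) .nil)) .nil)) .nil)) .nil)))) (.cons 344 (.cons 247 (.leaf 271 1983 (.cons 248 (.leaf 223 1791 (.cons 343 (.leaf 319 1982 (.leaf 367 2174 .nil)) .nil)) .nil)) (.cons 297 (.leaf 368 2181 (.cons 343 (.leaf 367 2174 (.cons 248 (.leaf 319 1982 (.cons 223 (.leaf 247 1791 (.cons 224 (.leaf 199 1599 (.leaf 200 1604 .nil)) .nil)) .nil)) .nil)) .nil)) (.cons 247 (.leaf 271 1983 (.cons 223 (.leaf 248 1791 (.cons 368 (.leaf 297 2181 (.cons 369 (.leaf 345 2180 (.leaf 393 2372 .nil)) .nil)) .nil)) .nil)) (.cons 297 (.leaf 368 2181 (.cons 343 (.leaf 367 2174 (.cons 319 (.leaf 248 1982 (.cons 298 (.leaf 299 2362 (.cons 318 (.leaf 295 2354 (.leaf 317 2345 .nil)) .nil)) .nil)) .nil)) .nil)) (.cons 247 (.leaf 271 1983 (.cons 343 (.leaf 367 2174 (.cons 368 (.leaf 297 2181 (.cons 369 (.leaf 345 2180 (.leaf 393 2372 .nil)) .nil)) .nil)) .nil)) .nil)))))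 (.cons 344 (.leaf 249 1989 (.cons 247 (.leaf 271 1983 (.cons 343 (.leaf 367 2174 (.cons 368 (.leaf 297 2181 (.cons 369 (.leaf 345 2180 (.leaf 393 2372 .nil)) .nil)) .nil)) .nil)) .nil)) (.cons 344 (.leaf 249 1989 (.cons 297 (.leaf 368 2181 (.cons 343 (.leaf 367 2174 (.cons 248 (.leaf 319 1982 (.cons 223 (.leaf 247 1791 (.cons 224 (.leaf 199 1599 (.leaf 200 1604 .nil)) .nil)) .nil)) .nil)) .nil)) .nil)) (.cons 344 (.leaf 249 1989 (.cons 297 (.leaf 368 2181 (.cons 343 (.leaf 367 2174 (.cons 319 (.leaf 248 1982 (.cons 298 (.leaf 299 2362 (.cons 318 (.leaf 295 2354 (.leaf 317 2345 .nil)) .nil)) .nil)) .nil)) .nil)) .nil)) (.cons 344 (.leaf 249 1989 (.cons 247 (.leaf 271 1983 (.cons 223 (.leaf 248 1791 (.cons 368 (.leaf 297 2181 (.cons 369 (.leaf 345 2180 (.leaf 393 2372 .nil)) .nil)) .nil)) .nil)) .nil)) .nil))))))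
noncomputable def t36 : T := .cons 274 (.leaf 295 2170 (.cons 248 (.leaf 247 1979 (.cons 224 (.cons 199 (.leaf 223 1599 (.cons 225 (.leaf 201 1605 (.cons 320 (.leaf 249 1797 (.cons 343 (.leaf 319 1982 (.cons 344 (.leaf 367 2174 (.cons 368 (.leaf 297 2181 (.cons 369 (.leaf 345 2180 (.leaf 393 2372 .nil)) .nil)) .nil)) .nil)) .nil)) .nil)) .nil)) (.cons 199 (.leaf 223 1599 (.cons 200 (.leaf 175 1407 (.leaf 297 1604 .nil)) .nil)) (.cons 225 (.leaf 201 1605 (.cons 199 (.leaf 223 1599 (.cons 175 (.leaf 200 1407 (.cons 249 (.leaf 320 1797 (.cons 299 (.leaf 300 2176 (.cons 271 (.leaf 298 2168 (.cons 270 (.leaf 269 1961 (.leaf 250 1969 .nil)) .nil)) .nil)) .nil)) .nil)) .nil)) .nil)) (.cons 200 (.leaf 297 1604 (.cons 201 (.leaf 177 1413 (.leaf 225 1605 .nil)) .nil)) .nil)))) .nil)) .nil)) (.cons 320 t35 (.cons 274 t34 (.cons 274 (.leaf 295 2170 (.cons 299 (.leaf 300 2176 (.cons 271 (.leaf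 298 2168 (.cons 246 (.leaf 247 1971 (.cons 270 (.leaf 245 1963 (.cons 249 (.leaf 250 1969 (.cons 201 (.leaf 225 1606 (.cons 269 (.leaf 297 2152 (.cons 293 (.leaf 292 2146 (.leaf 294 2154 .nil)) .nil)) .nil)) .nil)) .nil)) .nil)) .nil)) .nil)) .nil)) (.cons 274 (.leaf 295 2170 (.cons 299 (.leaf 300 2176 (.cons 247 (.leaf 248 1979 (.cons 271 (.leaf 246 1971 (.leaf 298 2168 .nil)) .nil)) .nil)) .nil)) (.cons 274 (.leaf 295 2170 (.cons 248 (.leaf 247 1979 (.cons 224 (.cons 225 (.leaf 201 1605 (.cons 200 (.leaf 297 1604 (.cons 199 (.leaf 175 1407 (.leaf 223 1599 .nil)) .nil)) .nil)) (.cons 225 (.leaf 201 1605 (.cons 199 (.leaf 223 1599 (.cons 320 (.leaf 249 1797 (.cons 343 (.leaf 319 1982 (.cons 344 (.leaf 367 2174 (.cons 368 (.leaf 297 2181 (.cons 369 (.leaf 345 2180 (.leaf 393 2372 .nil)) .nil)) .nil)) .nil)) .nil)) .nil)) .nil)) (.cons 200 (.leaf 297 1604 (.cons 199 (.leaf 175 1407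 (.leaf 223 1599 .nil)) .nil)) (.cons 225 (.leaf 201 1605 (.cons 200 (.leaf 297 1604 (.cons 249 (.leaf 320 1797 (.leaf 176 1412 .nil)) .nil)) .nil)) (.cons 225 (.leaf 201 1605 (.cons 199 (.leaf 223 1599 (.cons 200 (.leaf 175 1407 (.cons 249 (.leaf 320 1797 (.leaf 176 1412 .nil)) .nil)) .nil)) .nil)) .nil))))) .nil)) .nil)) (.cons 274 (.leaf 295 2170 (.cons 299 (.leaf 300 2176 (.cons 271 (.leaf 298 2168 (.cons 270 (.cons 245 (.leaf 246 1963 (.cons 249 (.leaf 250 1969 (.cons 269 (.leaf 244 1955 (.leaf 248 1961 .nil)) .nil)) .nil)) (.cons 245 (.leaf 246 1963 (.cons 249 (.leaf 250 1969 (.cons 225 (.leaf 201 1606 (.cons 320 (.leaf 248 1797 (.leaf 344 1989 .nil)) .nil)) .nil)) .nil)) (.cons 245 (.leaf 246 1963 (.cons 269 (.leaf 244 1955 (.leaf 297 2152 .nil)) .nil)) (.cons 249 (.leaf 250 1969 (.cons 269 (.leaf 248 1961 (.leaf 297 2152 .nil)) .nil)) .nil)))) .nil)) .nil)) .nil)) .nil))))))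
noncomputable def t37 : T := .cons 225 (.leaf 201 1606 (.cons 320 (.leaf 248 1797 (.leaf 344 1989 .nil)) .nil)) (.cons 320 (.leaf 344 1989 (.cons 248 (.cons 247 (.leaf 274 1979 (.leaf 223 1791 .nil)) (.cons 321 (.leaf 345 1988 (.cons 224 (.leaf 297 1796 (.cons 199 (.leaf 223 1599 (.cons 200 (.leaf 175 1407 (.leaf 176 1412 .nil)) .nil)) .nil)) .nil)) (.cons 247 (.leaf 274 1979 (.cons 246 (.leaf 245 1960 (.cons 221 (.leaf 222 1771 (.cons 270 (.leaf 269 1962 (.cons 250 (.leaf 271 1969 (.cons 226 (.leaf 227 1785 (.cons 321 (.leaf 345 1988 (.leaf 297 1805 .nil)) .nil)) .nil)) .nil)) .nil)) .nil)) .nil)) .nil))) .nil)) (.cons 225 (.leaf 201 1606 (.cons 297 (.cons 200 (.leaf 224 1607 (.cons 226 (.leaf 202 1613 (.cons 321 (.leaf 250 1805 (.cons 345 (.leaf 248 1991 (.leaf 369 2183 .nil)) .nil)) .nil)) .nil)) (.cons 226 (.leaf 202 1613 (.cons 321 (.leaf 250 1805 (.cons 345 (.leaf 248 1991 (.leaf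 369 2183 .nil)) .nil)) .nil)) (.cons 200 (.leaf 224 1607 (.cons 226 (.leaf 202 1613 (.cons 321 (.leaf 250 1805 (.cons 322 (.leaf 298 1804 (.leaf 346 1996 .nil)) .nil)) .nil)) .nil)) (.cons 200 (.leaf 224 1607 (.cons 298 (.leaf 322 1804 (.cons 271 (.leaf 270 2160 (.leaf 299 2171 .nil)) .nil)) .nil)) .nil)))) .nil)) (.cons 225 (.leaf 201 1606 (.cons 320 (.leaf 344 1989 (.leaf 297 1798 .nil)) .nil)) .nil)))
noncomputable def t38 : T := .cons 320 (.leaf 344 1989 (.cons 225 (.leaf 201 1606 (.leaf 248 1797 .nil)) .nil)) (.cons 320 (.leaf 344 1989 (.cons 248 (.cons 321 (.leaf 345 1988 (.cons 224 (.leaf 297 1796 (.cons 199 (.leaf 223 1599 (.cons 200 (.leaf 175 1407 (.leaf 176 1412 .nil)) .nil)) .nil)) .nil)) (.cons 247 (.leaf 223 1791 (.cons 246 (.leaf 245 1960 (.cons 221 (.leaf 222 1771 (.cons 270 (.leaf 269 1962 (.cons 271 (.leaf 250 1969 (.cons 294 (.leaf 293 2154 (.cons 297 (.leaf 298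 2160 (.cons 318 (.leaf 342 1973 (.cons 317 (.leaf 295 2346 (.leaf 341 1966 .nil)) .nil)) .nil)) .nil)) .nil)) .nil)) .nil)) .nil)) .nil)) (.cons 321 (.leaf 345 1988 (.cons 224 (.leaf 297 1796 (.cons 200 (.leaf 176 1412 (.cons 175 (.leaf 199 1407 (.cons 177 (.leaf 201 1413 (.cons 271 (.leaf 295 1598 (.cons 270 (.leaf 269 1961 (.leaf 250 1969 .nil)) .nil)) .nil)) .nil)) .nil)) .nil)) .nil)) (.cons 247 (.leaf 223 1791 (.cons 246 (.leaf 245 1960 (.cons 222 (.leaf 221 1771 (.cons 270 (.leaf 269 1962 (.cons 271 (.leaf 250 1969 (.cons 198 (.leaf 174 1396 (.leaf 295 1588 .nil)) .nil)) .nil)) .nil)) .nil)) .nil)) .nil)))) .nil)) (.cons 225 (.leaf 201 1606 (.cons 297 (.cons 200 (.leaf 224 1607 (.cons 226 (.leaf 202 1613 (.cons 321 (.leaf 250 1805 (.cons 345 (.leaf 248 1991 (.leaf 369 2183 .nil)) .nil)) .nil)) .nil)) (.cons 226 (.leaf 202 1613 (.cons 321 (.leaf 250 1805 (.cons 345 (.leaf 248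 1991 (.leaf 369 2183 .nil)) .nil)) .nil)) (.cons 200 (.leaf 224 1607 (.cons 298 (.leaf 322 1804 (.cons 271 (.leaf 270 2160 (.leaf 299 2171 .nil)) .nil)) .nil)) .nil))) .nil)) (.cons 320 (.leaf 344 1989 (.cons 225 (.leaf 248 1797 (.leaf 297 1798 .nil)) .nil)) (.cons 320 (.leaf 344 1989 (.cons 225 (.leaf 201 1606 (.leaf 297 1798 .nil)) .nil)) .nil))))
noncomputable def t39 : T := .cons 274 (.leaf 295 2170 (.cons 248 (.leaf 247 1979 (.cons 224 (.cons 199 (.leaf 223 1599 (.cons 200 (.leaf 175 1407 (.leaf 297 1604 .nil)) .nil)) (.cons 199 (.leaf 223 1599 (.cons 200 (.leaf 175 1407 (.cons 201 (.leaf 177 1413 (.leaf 225 1605 .nil)) .nil)) .nil)) (.cons 199 (.leaf 223 1599 (.cons 225 (.leaf 201 1605 (.cons 249 (.leaf 320 1797 (.cons 297 (.leaf 321 1796 (.cons 226 (.leaf 202 1613 (.cons 227 (.leaf 228 1794 (.cons 203 (.leaf 204 1601 (.cons 298 (.leaf 322 1804 (.leaf 250 1621 .nil)) .nil))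 .nil)) .nil)) .nil)) .nil)) .nil)) .nil)) (.cons 297 (.leaf 200 1604 (.leaf 321 1796 .nil)) .nil)))) .nil)) .nil)) (.cons 249 t38 (.cons 249 t37 (.cons 274 (.leaf 295 2170 (.cons 247 (.leaf 248 1979 (.cons 271 (.leaf 246 1971 (.cons 299 (.leaf 300 2176 (.leaf 298 2168 .nil)) .nil)) .nil)) .nil)) (.cons 274 (.leaf 295 2170 (.cons 299 (.leaf 300 2176 (.cons 271 (.leaf 298 2168 (.cons 246 (.leaf 247 1971 (.cons 270 (.leaf 245 1963 (.cons 249 (.leaf 250 1969 (.cons 201 (.leaf 225 1606 (.cons 269 (.leaf 297 2152 (.cons 293 (.leaf 292 2146 (.leaf 294 2154 .nil)) .nil)) .nil)) .nil)) .nil)) .nil)) .nil)) .nil)) .nil)) (.cons 274 (.leaf 295 2170 (.cons 299 (.leaf 300 2176 (.cons 271 (.leaf 298 2168 (.cons 270 (.cons 245 (.leaf 246 1963 (.cons 249 (.leaf 250 1969 (.cons 269 (.leaf 244 1955 (.leaf 248 1961 .nil)) .nil)) .nil)) (.cons 245 (.leaf 246 1963 (.cons 249 (.leaf 250 1969 (.cons 225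 (.leaf 201 1606 (.cons 320 (.leaf 248 1797 (.leaf 344 1989 .nil)) .nil)) .nil)) .nil)) (.cons 245 (.leaf 246 1963 (.cons 269 (.leaf 244 1955 (.leaf 297 2152 .nil)) .nil)) (.cons 249 (.leaf 250 1969 (.cons 269 (.leaf 248 1961 (.leaf 297 2152 .nil)) .nil)) .nil)))) .nil)) .nil)) .nil)) (.cons 274 (.leaf 295 2170 (.cons 248 (.leaf 247 1979 (.cons 299 (.leaf 300 2176 (.cons 224 (.cons 199 (.leaf 223 1599 (.cons 200 (.leaf 175 1407 (.leaf 297 1604 .nil)) .nil)) (.cons 225 (.leaf 201 1605 (.cons 199 (.leaf 223 1599 (.cons 200 (.leaf 175 1407 (.cons 249 (.leaf 320 1797 (.leaf 176 1412 .nil)) .nil)) .nil)) .nil)) (.cons 199 (.leaf 223 1599 (.cons 225 (.leaf 201 1605 (.cons 320 (.leaf 249 1797 (.cons 321 (.leaf 297 1796 (.leaf 345 1988 .nil)) .nil)) .nil)) .nil)) (.cons 297 (.leaf 200 1604 (.leaf 321 1796 .nil)) .nil)))) .nil)) .nil)) .nil)) .nil))))))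
noncomputable def t40 : T := .cons 247 (.leaf 223 1791 (.cons 246 (.leaf 245 1960 (.cons 249 (.leaf 225 1797 (.cons 221 (.leaf 222 1771 (.cons 270 (.leaf 269 1962 (.cons 250 (.leaf 271 1969 (.cons 226 (.leaf 227 1785 (.cons 321 (.leaf 345 1988 (.leaf 297 1805 .nil)) .nil)) .nil)) .nil)) .nil)) .nil)) .nil)) .nil)) (.cons 223 (.leaf 247 1791 (.cons 319 (.leaf 343 1982 (.cons 321 (.leaf 345 1988 (.cons 322 (.leaf 323 2363 (.cons 298 (.leaf 299 2361 (.cons 297 (.leaf 318 2353 (.cons 270 (.leaf 271 2160 (.cons 346 (.leaf 370 2191 (.leaf 347 2552 .nil)) .nil)) .nil)) .nil)) .nil)) .nil)) .nil)) .nil)) (.cons 319 (.leaf 343 1982 (.cons 225 (.leaf 249 1797 (.cons 321 (.leaf 345 1988 (.cons 322 (.leaf 323 2363 (.cons 298 (.leaf 299 2361 (.cons 297 (.leaf 318 2353 (.cons 270 (.leaf 271 2160 (.cons 346 (.leaf 370 2191 (.leaf 347 2552 .nil)) .nil)) .nil)) .nil)) .nil)) .nil)) .nil)) .nil)) (.cons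 319 (.leaf 343 1982 (.cons 225 (.leaf 249 1797 (.cons 247 (.leaf 223 1791 (.cons 246 (.leaf 245 1960 (.cons 271 (.leaf 222 1783 (.cons 318 (.leaf 342 1974 (.cons 297 (.leaf 298 2354 (.leaf 317 2345 .nil)) .nil)) .nil)) .nil)) .nil)) .nil)) .nil)) (.cons 319 (.leaf 343 1982 (.cons 247 (.leaf 223 1791 (.cons 246 (.leaf 245 1960 (.cons 222 (.leaf 271 1783 (.cons 249 (.leaf 225 1797 (.leaf 221 1771 .nil)) .nil)) .nil)) .nil)) .nil)) (.cons 321 (.leaf 345 1988 (.cons 223 (.leaf 247 1791 (.cons 225 (.leaf 249 1797 (.cons 319 (.leaf 343 1982 (.cons 322 (.leaf 323 2363 (.cons 298 (.leaf 299 2361 (.cons 297 (.leaf 318 2353 (.cons 346 (.leaf 370 2191 (.leaf 347 2552 .nil)) .nil)) .nil)) .nil)) .nil)) .nil)) .nil)) .nil)) .nil)))))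
noncomputable def t41 : T := .cons 344 (.leaf 249 1989 (.cons 271 (.leaf 247 1983 (.leaf 368 2175 .nil)) .nil)) (.cons 248 (.cons 223 (.leaf 247 1791 (.cons 225 (.leaf 249 1797 (.cons 319 (.leaf 343 1982 (.cons 321 (.leaf 345 1988 (.leaf 322 2355 .nil)) .nil)) .nil)) .nil)) (.cons 247 (.leaf 223 1791 (.cons 246 (.leaf 245 1960 (.cons 249 (.leaf 225 1797 (.cons 222 (.leaf 221 1771 (.cons 270 (.leaf 269 1962 (.cons 271 (.leaf 250 1969 (.leaf 198 1588 .nil)) .nil)) .nil)) .nil)) .nil)) .nil)) (.cons 225 (.leaf 249 1797 (.cons 319 (.leaf 343 1982 (.cons 321 (.leaf 345 1988 (.leaf 322 2355 .nil)) .nil)) .nil)) (.cons 223 (.leaf 247 1791 (.cons 319 (.leaf 343 1982 (.cons 321 (.leaf 345 1988 (.leaf 322 2355 .nil)) .nil)) .nil)) .nil)))) (.cons 344 (.cons 271 (.leaf 247 1983 (.leaf 368 2175 .nil)) (.cons 343 (.leaf 367 2174 (.cons 248 (.leaf 319 1982 (.cons 345 (.leaf 321 1988 (.leaf 369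 2180 .nil)) .nil)) .nil)) .nil)) (.cons 344 (.leaf 249 1989 (.cons 343 (.leaf 367 2174 (.cons 248 (.leaf 319 1982 (.cons 345 (.leaf 321 1988 (.leaf 369 2180 .nil)) .nil)) .nil)) .nil)) .nil)))
noncomputable def t42 : T := .cons 293 (.leaf 273 2153 (.cons 268 (.leaf 269 2147 (.cons 292 (.leaf 271 2145 (.leaf 267 2139 .nil)) .nil)) .nil)) (.cons 297 (.cons 317 (.leaf 318 2346 (.cons 322 (.leaf 321 2352 (.cons 298 (.leaf 323 2360 (.cons 299 (.leaf 271 2171 (.cons 273 (.leaf 300 2179 (.cons 346 (.leaf 370 2197 (.cons 249 (.leaf 225 1804 (.cons 320 (.leaf 344 1989 (.leaf 319 2362 .nil)) .nil)) .nil)) .nil)) .nil)) .nil)) .nil)) .nil)) (.cons 269 (.leaf 270 2155 (.cons 321 (.leaf 322 2352 (.cons 345 (.leaf 369 2183 (.cons 248 (.leaf 273 1991 (.leaf 320 1988 .nil)) .nil)) .nil)) .nil)) (.cons 269 (.leaf 270 2155 (.cons 318 (.leaf 317 2346 (.cons 298 (.leaf 319 2354 (.cons 299 (.leaf 271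 2171 (.cons 323 (.leaf 322 2360 (.leaf 324 2368 .nil)) .nil)) .nil)) .nil)) .nil)) (.cons 269 (.leaf 270 2155 (.cons 318 (.leaf 317 2346 (.cons 298 (.leaf 319 2354 (.cons 299 (.leaf 271 2171 (.cons 300 (.leaf 273 2179 (.cons 324 (.leaf 323 2368 (.leaf 325 2376 .nil)) .nil)) .nil)) .nil)) .nil)) .nil)) .nil)))) (.cons 293 (.cons 268 (.leaf 269 2147 (.cons 292 (.leaf 271 2145 (.leaf 267 2139 .nil)) .nil)) (.cons 269 (.leaf 268 2147 (.cons 270 (.leaf 297 2155 (.cons 317 (.leaf 316 2338 (.cons 246 (.leaf 222 1774 (.leaf 341 1965 .nil)) .nil)) .nil)) .nil)) (.cons 292 (.leaf 271 2145 (.cons 316 (.leaf 317 2338 (.leaf 315 2330 .nil)) .nil)) .nil))) (.cons 293 (.leaf 273 2153 (.cons 269 (.leaf 268 2147 (.cons 270 (.leaf 297 2155 (.cons 317 (.leaf 316 2338 (.cons 246 (.leaf 222 1774 (.leaf 341 1965 .nil)) .nil)) .nil)) .nil)) .nil)) (.cons 293 (.leaf 273 2153 (.cons 292 (.leaf 271 2145 (.cons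 316 (.leaf 317 2338 (.leaf 315 2330 .nil)) .nil)) .nil)) .nil))))
noncomputable def t43 : T := .cons 273 (.leaf 274 2170 (.cons 294 (.leaf 293 2153 (.cons 297 (.cons 318 (.leaf 317 2346 (.cons 270 (.leaf 269 2155 (.cons 321 (.leaf 322 2352 (.cons 345 (.leaf 248 1991 (.leaf 369 2183 .nil)) .nil)) .nil)) .nil)) (.cons 321 (.leaf 322 2352 (.cons 345 (.leaf 248 1991 (.leaf 369 2183 .nil)) .nil)) (.cons 318 (.leaf 317 2346 (.cons 270 (.leaf 269 2155 (.cons 246 (.cons 245 (.leaf 271 1963 (.leaf 221 1775 .nil)) (.cons 319 (.leaf 298 2354 (.leaf 222 1780 .nil)) .nil)) .nil)) .nil)) .nil))) .nil)) .nil)) (.cons 297 (.cons 298 (.leaf 274 2169 (.cons 271 (.leaf 299 2171 (.leaf 270 2163 .nil)) .nil)) (.cons 294 (.cons 321 (.leaf 322 2352 (.cons 269 (.leaf 270 2155 (.cons 293 (.leaf 268 2147 (.leaf 320 2344 .nil)) .nil)) .nil)) (.cons 269 (.leaf 270 2155 (.cons 293 (.leaf 268 2147 (.cons 317 (.leaf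 316 2338 (.leaf 318 2346 .nil)) .nil)) .nil)) (.cons 321 (.leaf 322 2352 (.cons 293 (.leaf 320 2344 (.cons 317 (.leaf 316 2338 (.leaf 318 2346 .nil)) .nil)) .nil)) (.cons 270 (.leaf 269 2155 (.cons 318 (.leaf 317 2346 (.cons 321 (.leaf 322 2352 (.cons 345 (.leaf 369 2183 (.cons 319 (.cons 343 (.leaf 367 2173 (.leaf 246 1972 .nil)) (.cons 222 (.leaf 246 1780 (.cons 320 (.leaf 248 1988 (.leaf 346 2544 .nil)) .nil)) (.cons 343 (.leaf 367 2173 (.cons 346 (.leaf 320 2544 (.leaf 344 2547 .nil)) .nil)) .nil))) .nil)) .nil)) .nil)) .nil)) .nil)))) (.cons 298 (.leaf 274 2169 (.cons 318 (.leaf 319 2354 (.cons 294 (.leaf 317 2346 (.cons 322 (.leaf 321 2352 (.leaf 323 2360 .nil)) .nil)) .nil)) .nil)) .nil))) (.cons 294 t42 (.cons 273 (.leaf 274 2170 (.cons 294 (.leaf 293 2153 (.cons 320 t41 .nil)) .nil)) (.cons 273 (.leaf 274 2170 (.cons 320 (.cons 344 (.leaf 249 1989 (.cons 271 (.leaf 247 1983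 (.leaf 368 2175 .nil)) .nil)) (.cons 248 t40 (.cons 344 (.cons 271 (.leaf 247 1983 (.leaf 368 2175 .nil)) (.cons 247 (.leaf 271 1983 (.cons 248 (.leaf 223 1791 (.cons 343 (.leaf 319 1982 (.leaf 367 2174 .nil)) .nil)) .nil)) (.cons 297 (.leaf 368 2181 (.cons 343 (.leaf 367 2174 (.cons 248 (.leaf 319 1982 (.cons 345 (.leaf 321 1988 (.leaf 369 2180 .nil)) .nil)) .nil)) .nil)) .nil))) (.cons 344 (.leaf 249 1989 (.cons 297 (.leaf 368 2181 (.cons 343 (.leaf 367 2174 (.cons 248 (.leaf 319 1982 (.cons 345 (.leaf 321 1988 (.leaf 369 2180 .nil)) .nil)) .nil)) .nil)) .nil)) .nil)))) .nil)) (.cons 273 (.leaf 274 2170 (.cons 294 (.leaf 293 2153 (.cons 297 (.cons 318 (.leaf 317 2346 (.cons 270 (.leaf 269 2155 (.cons 321 (.leaf 322 2352 (.cons 345 (.leaf 248 1991 (.leaf 369 2183 .nil)) .nil)) .nil)) .nil)) (.cons 318 (.leaf 317 2346 (.cons 270 (.leaf 269 2155 (.cons 319 (.leaf 298 2354 (.cons 343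 (.leaf 367 2173 (.leaf 246 1972 .nil)) .nil)) .nil)) .nil)) (.cons 321 (.leaf 322 2352 (.cons 345 (.leaf 248 1991 (.leaf 369 2183 .nil)) .nil)) .nil))) .nil)) .nil)) (.cons 273 (.leaf 274 2170 (.cons 294 (.leaf 293 2153 (.cons 297 (.cons 269 (.leaf 270 2155 (.cons 321 (.leaf 322 2352 (.cons 345 (.leaf 248 1991 (.leaf 369 2183 .nil)) .nil)) .nil)) (.cons 321 (.leaf 322 2352 (.cons 345 (.leaf 248 1991 (.leaf 369 2183 .nil)) .nil)) (.cons 270 (.leaf 269 2155 (.cons 271 (.leaf 298 2160 (.cons 249 (.leaf 250 1969 (.cons 225 (.leaf 201 1606 (.leaf 320 1798 .nil)) .nil)) .nil)) .nil)) .nil))) .nil)) .nil)) (.cons 273 (.leaf 274 2170 (.cons 294 (.leaf 293 2153 (.cons 297 (.cons 318 (.leaf 317 2346 (.cons 298 (.leaf 319 2354 (.cons 299 (.leaf 271 2171 (.leaf 300 2179 .nil)) .nil)) .nil)) (.cons 321 (.leaf 322 2352 (.cons 345 (.leaf 248 1991 (.leaf 369 2183 .nil)) .nil)) .nil)) .nil)) .nil))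 (.cons 273 (.leaf 274 2170 (.cons 294 (.leaf 293 2153 (.cons 297 (.cons 318 (.leaf 317 2346 (.cons 270 (.leaf 269 2155 (.cons 319 (.leaf 298 2354 (.cons 343 (.leaf 367 2173 (.leaf 246 1972 .nil)) .nil)) .nil)) .nil)) (.cons 318 (.leaf 317 2346 (.cons 298 (.leaf 319 2354 (.cons 299 (.leaf 271 2171 (.leaf 300 2179 .nil)) .nil)) .nil)) (.cons 270 (.leaf 269 2155 (.cons 271 (.leaf 298 2160 (.cons 249 (.leaf 250 1969 (.cons 225 (.leaf 201 1606 (.leaf 320 1798 .nil)) .nil)) .nil)) .nil)) (.cons 270 (.leaf 269 2155 (.cons 318 (.leaf 317 2346 (.cons 246 (.cons 245 (.leaf 271 1963 (.leaf 221 1775 .nil)) (.cons 319 (.leaf 222 1780 (.leaf 343 1972 .nil)) .nil)) .nil)) .nil)) .nil)))) .nil)) .nil)) .nil))))))))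
noncomputable def t44 : T := .cons 248 (.leaf 224 1790 (.cons 343 (.leaf 271 1981 (.leaf 320 1982 .nil)) .nil)) (.cons 248 (.leaf 224 1790 (.cons 320 (.cons 225 (.leaf 249 1797 (.cons 321 (.leaf 345 1988 (.leaf 322 2355 .nil)) .nil)) (.cons 225 (.leaf 249 1797 (.cons 247 (.leaf 223 1791 (.cons 246 (.leaf 245 1960 (.cons 222 (.leaf 271 1783 (.leaf 270 1780 .nil)) .nil)) .nil)) .nil)) (.cons 321 (.leaf 345 1988 (.leaf 322 2355 .nil)) .nil))) .nil)) (.cons 343 (.leaf 367 2173 (.cons 271 (.cons 342 (.leaf 366 2166 (.cons 247 (.leaf 318 1974 (.cons 223 (.leaf 199 1596 (.leaf 320 1788 .nil)) .nil)) .nil)) (.cons 246 (.leaf 270 1975 (.cons 247 (.leaf 222 1783 (.cons 223 (.leaf 199 1596 (.leaf 320 1788 .nil)) .nil)) .nil)) (.cons 270 (.leaf 246 1975 (.cons 249 (.leaf 250 1969 (.cons 201 (.leaf 225 1606 (.cons 269 (.leaf 268 2144 (.cons 245 (.leaf 244 1955 (.cons 342 (.leaf 366 2166 (.leaf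 318 1967 .nil)) .nil)) .nil)) .nil)) .nil)) .nil)) .nil))) .nil)) (.cons 343 (.leaf 367 2173 (.cons 248 (.leaf 224 1790 (.leaf 320 1982 .nil)) .nil)) (.cons 343 (.leaf 367 2173 (.cons 248 (.leaf 224 1790 (.leaf 271 1981 .nil)) .nil)) .nil))))
noncomputable def t45 : T := .cons 293 (.leaf 273 2153 (.cons 268 (.leaf 269 2147 (.cons 292 (.leaf 271 2145 (.leaf 267 2139 .nil)) .nil)) .nil)) (.cons 297 (.cons 269 (.leaf 270 2155 (.cons 317 (.leaf 318 2346 (.cons 321 (.leaf 322 2352 (.cons 248 (.leaf 224 1796 (.cons 345 (.leaf 273 1991 (.leaf 320 1988 .nil)) .nil)) .nil)) .nil)) .nil)) (.cons 321 (.leaf 322 2352 (.cons 248 (.leaf 224 1796 (.cons 345 (.leaf 273 1991 (.leaf 320 1988 .nil)) .nil)) .nil)) (.cons 270 (.leaf 269 2155 (.cons 271 (.leaf 298 2163 (.cons 318 (.leaf 317 2346 (.cons 247 (.leaf 223 1782 (.leaf 342 1973 .nil)) .nil)) .nil)) .nil)) .nil))) (.cons 293 (.cons 268 (.leaf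 269 2147 (.cons 292 (.leaf 271 2145 (.leaf 267 2139 .nil)) .nil)) (.cons 269 (.leaf 268 2147 (.cons 270 (.leaf 297 2155 (.cons 317 (.leaf 316 2338 (.cons 246 (.leaf 222 1774 (.leaf 341 1965 .nil)) .nil)) .nil)) .nil)) (.cons 292 (.leaf 271 2145 (.cons 316 (.leaf 317 2338 (.leaf 315 2330 .nil)) .nil)) .nil))) (.cons 293 (.leaf 273 2153 (.cons 269 (.leaf 268 2147 (.cons 270 (.leaf 297 2155 (.cons 317 (.leaf 316 2338 (.cons 246 (.leaf 222 1774 (.leaf 341 1965 .nil)) .nil)) .nil)) .nil)) .nil)) (.cons 293 (.leaf 273 2153 (.cons 292 (.leaf 271 2145 (.cons 316 (.leaf 317 2338 (.leaf 315 2330 .nil)) .nil)) .nil)) .nil))))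
noncomputable def t46 : T := .cons 343 (.leaf 367 2173 (.cons 271 (.leaf 248 1981 (.cons 246 (.leaf 270 1975 (.cons 247 (.leaf 222 1783 (.cons 223 (.leaf 199 1596 (.leaf 320 1788 .nil)) .nil)) .nil)) .nil)) .nil)) (.cons 343 (.leaf 367 2173 (.cons 271 (.cons 246 (.leaf 270 1975 (.cons 247 (.leaf 222 1783 (.cons 223 (.leaf 199 1596 (.leaf 320 1788 .nil)) .nil)) .nil)) (.cons 342 (.leaf 366 2166 (.cons 247 (.leaf 318 1974 (.cons 223 (.leaf 199 1596 (.leaf 320 1788 .nil)) .nil)) .nil)) (.cons 270 (.leaf 246 1975 (.cons 269 (.leaf 297 2152 (.leaf 268 2144 .nil)) .nil)) .nil))) .nil)) (.cons 248 (.leaf 224 1790 (.cons 320 (.cons 247 (.leaf 223 1791 (.cons 249 (.leaf 225 1797 (.cons 250 (.leaf 274 1976 (.cons 226 (.leaf 227 1785 (.cons 270 (.leaf 271 1970 (.cons 246 (.leaf 269 1962 (.cons 222 (.leaf 294 1780 (.leaf 221 1771 .nil)) .nil)) .nil)) .nil)) .nil)) .nil)) .nil)) (.cons 321 (.leaf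 345 1988 (.cons 294 (.leaf 293 2344 (.leaf 322 2355 .nil)) .nil)) (.cons 223 (.leaf 247 1791 (.cons 225 (.leaf 249 1797 (.cons 321 (.leaf 345 1988 (.cons 322 (.leaf 323 2363 (.cons 298 (.leaf 299 2361 (.cons 297 (.leaf 274 2169 (.leaf 318 2353 .nil)) .nil)) .nil)) .nil)) .nil)) .nil)) .nil))) .nil)) (.cons 248 (.leaf 224 1790 (.cons 343 (.leaf 320 1982 (.leaf 367 2173 .nil)) .nil)) (.cons 248 (.leaf 224 1790 (.cons 343 (.leaf 271 1981 (.leaf 367 2173 .nil)) .nil)) .nil))))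
noncomputable def t47 : T := .cons 273 (.leaf 274 2170 (.cons 294 (.leaf 293 2153 (.cons 297 (.cons 270 (.leaf 269 2155 (.cons 318 (.leaf 317 2346 (.cons 319 (.leaf 298 2354 (.cons 343 (.leaf 367 2173 (.leaf 246 1972 .nil)) .nil)) .nil)) .nil)) (.cons 321 (.leaf 322 2352 (.cons 248 (.leaf 224 1796 (.leaf 345 1991 .nil)) .nil)) .nil)) .nil)) .nil)) (.cons 319 t46 (.cons 294 t45 (.cons 273 (.leaf 274 2170 (.cons 294 (.leaf 293 2153 (.cons 319 t44 .nil)) .nil)) (.cons 273 (.leaf 274 2170 (.cons 294 (.leaf 293 2153 (.cons 297 (.cons 269 (.leaf 270 2155 (.cons 322 (.leaf 321 2352 (.cons 298 (.leaf 323 2360 (.cons 299 (.leaf 271 2171 (.leaf 300 2179 .nil)) .nil)) .nil)) .nil)) (.cons 317 (.leaf 318 2346 (.cons 322 (.leaf 321 2352 (.cons 298 (.leaf 323 2360 (.cons 299 (.leaf 271 2171 (.leaf 300 2179 .nil)) .nil)) .nil)) .nil)) (.cons 270 (.leaf 269 2155 (.cons 318 (.leaf 317 2346 (.cons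 321 (.leaf 322 2352 (.cons 345 (.leaf 369 2183 (.cons 346 (.leaf 370 2188 (.cons 319 (.leaf 320 2544 (.cons 343 (.leaf 367 2173 (.leaf 246 1972 .nil)) .nil)) .nil)) .nil)) .nil)) .nil)) .nil)) (.cons 270 (.leaf 269 2155 (.cons 271 (.leaf 298 2160 (.cons 249 (.leaf 250 1969 (.cons 225 (.leaf 201 1606 (.leaf 320 1798 .nil)) .nil)) .nil)) .nil)) .nil)))) .nil)) .nil)) (.cons 274 (.leaf 273 2170 (.cons 298 (.leaf 297 2169 (.cons 248 (.cons 319 (.leaf 224 1790 (.cons 343 (.leaf 271 1981 (.leaf 320 1982 .nil)) .nil)) (.cons 320 (.cons 225 (.leaf 249 1797 (.cons 319 (.leaf 343 1982 (.cons 321 (.leaf 345 1988 (.cons 322 (.leaf 323 2363 (.leaf 299 2361 .nil)) .nil)) .nil)) .nil)) (.cons 247 (.leaf 223 1791 (.cons 249 (.leaf 250 1976 (.leaf 225 1797 .nil)) .nil)) (.cons 223 (.leaf 247 1791 (.cons 319 (.leaf 343 1982 (.cons 321 (.leaf 345 1988 (.cons 322 (.leaf 323 2363 (.leaf 299 2361 .nil))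 .nil)) .nil)) .nil)) .nil))) (.cons 224 (.cons 199 (.leaf 223 1599 (.cons 225 (.leaf 201 1605 (.cons 249 (.leaf 320 1797 (.cons 250 (.leaf 247 1976 (.leaf 322 1807 .nil)) .nil)) .nil)) .nil)) (.cons 200 (.leaf 271 1598 (.cons 201 (.leaf 177 1413 (.leaf 225 1605 .nil)) .nil)) (.cons 199 (.leaf 223 1599 (.cons 200 (.leaf 175 1407 (.leaf 271 1598 .nil)) .nil)) .nil))) (.cons 319 (.leaf 224 1790 (.cons 343 (.leaf 271 1981 (.leaf 367 2173 .nil)) .nil)) .nil)))) .nil)) .nil)) (.cons 273 (.leaf 274 2170 (.cons 294 (.leaf 293 2153 (.cons 297 (.cons 270 (.leaf 269 2155 (.cons 318 (.leaf 317 2346 (.cons 319 (.leaf 298 2354 (.cons 343 (.leaf 367 2173 (.leaf 246 1972 .nil)) .nil)) .nil)) .nil)) (.cons 318 (.leaf 317 2346 (.cons 298 (.leaf 319 2354 (.cons 299 (.leaf 271 2171 (.leaf 300 2179 .nil)) .nil)) .nil)) (.cons 270 (.leaf 269 2155 (.cons 271 (.leaf 298 2160 (.cons 249 (.leaf 250 1969 (.cons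 225 (.leaf 201 1606 (.leaf 320 1798 .nil)) .nil)) .nil)) .nil)) (.cons 270 (.leaf 269 2155 (.cons 318 (.leaf 317 2346 (.cons 319 (.cons 343 (.leaf 367 2173 (.leaf 246 1972 .nil)) (.cons 224 (.leaf 248 1790 (.cons 246 (.leaf 222 1780 (.cons 245 (.leaf 271 1963 (.leaf 221 1775 .nil)) .nil)) .nil)) (.cons 343 (.leaf 367 2173 (.cons 248 (.leaf 224 1790 (.leaf 271 1981 .nil)) .nil)) .nil))) .nil)) .nil)) .nil)))) .nil)) .nil)) .nil))))))
noncomputable def t48 : T := .cons 225 (.leaf 249 1797 (.cons 319 (.leaf 343 1982 (.cons 297 (.leaf 298 2169 (.cons 317 (.leaf 318 2345 (.cons 345 (.leaf 321 1988 (.cons 344 (.leaf 369 2180 (.cons 368 (.leaf 271 2175 (.leaf 392 2367 .nil)) .nil)) .nil)) .nil)) .nil)) .nil)) .nil)) (.cons 345 (.leaf 321 1988 (.cons 225 (.leaf 249 1797 (.cons 297 (.leaf 298 2169 (.cons 344 (.leaf 369 2180 (.cons 367 (.leaf 343 2174 (.cons 368 (.leaf 271 2175 (.leaf 391 2366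 .nil)) .nil)) .nil)) .nil)) .nil)) .nil)) (.cons 345 (.leaf 321 1988 (.cons 225 (.leaf 249 1797 (.cons 297 (.leaf 298 2169 (.cons 344 (.leaf 369 2180 (.cons 368 (.leaf 271 2175 (.cons 391 (.leaf 367 2366 (.cons 392 (.leaf 319 2367 (.leaf 415 2558 .nil)) .nil)) .nil)) .nil)) .nil)) .nil)) .nil)) (.cons 343 (.leaf 319 1982 (.cons 225 (.leaf 249 1797 (.cons 297 (.leaf 298 2169 (.cons 344 (.leaf 367 2174 (.cons 368 (.leaf 271 2175 (.cons 369 (.leaf 345 2180 (.leaf 393 2372 .nil)) .nil)) .nil)) .nil)) .nil)) .nil)) (.cons 343 (.leaf 319 1982 (.cons 225 (.leaf 249 1797 (.cons 344 (.leaf 367 2174 (.cons 345 (.leaf 321 1988 (.leaf 369 2180 .nil)) .nil)) .nil)) .nil)) (.cons 343 (.leaf 319 1982 (.cons 225 (.leaf 249 1797 (.cons 297 (.leaf 298 2169 (.cons 344 (.leaf 367 2174 (.cons 368 (.leaf 271 2175 (.cons 392 (.leaf 321 2373 (.cons 393 (.leaf 369 2372 (.leaf 417 2564 .nil)) .nil)) .nil))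 .nil)) .nil)) .nil)) .nil)) (.cons 319 (.leaf 343 1982 (.cons 225 (.leaf 249 1797 (.cons 298 (.leaf 297 2169 (.cons 321 (.leaf 345 1988 (.cons 322 (.leaf 323 2363 (.leaf 299 2361 .nil)) .nil)) .nil)) .nil)) .nil)) (.cons 343 (.leaf 319 1982 (.cons 297 (.leaf 298 2169 (.cons 321 (.leaf 345 1988 (.cons 322 (.leaf 323 2363 (.cons 344 (.leaf 367 2174 (.cons 368 (.leaf 271 2175 (.leaf 392 2373 .nil)) .nil)) .nil)) .nil)) .nil)) .nil)) .nil)))))))
noncomputable def t49 : T := .cons 248 (.leaf 224 1790 (.cons 343 (.leaf 271 1981 (.leaf 320 1982 .nil)) .nil)) (.cons 248 (.leaf 224 1790 (.cons 320 (.cons 249 (.leaf 225 1797 (.leaf 344 1989 .nil)) (.cons 321 (.leaf 345 1988 (.leaf 322 2355 .nil)) .nil)) .nil)) (.cons 343 (.leaf 367 2173 (.cons 271 (.cons 342 (.leaf 366 2166 (.cons 344 (.leaf 368 2172 (.cons 320 (.leaf 249 1989 (.cons 321 (.leaf 322 2546 (.leaf 341 2537 .nil)) .nil)) .nil))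 .nil)) (.cons 270 (.leaf 246 1975 (.cons 249 (.leaf 250 1969 (.cons 201 (.leaf 225 1606 (.cons 269 (.leaf 268 2144 (.cons 245 (.leaf 244 1955 (.cons 342 (.leaf 366 2166 (.leaf 318 1967 .nil)) .nil)) .nil)) .nil)) .nil)) .nil)) (.cons 246 (.leaf 270 1975 (.cons 344 (.leaf 368 2172 (.cons 320 (.leaf 249 1989 (.cons 321 (.leaf 322 2355 (.cons 345 (.leaf 369 2180 (.cons 318 (.leaf 317 2536 (.leaf 346 2544 .nil)) .nil)) .nil)) .nil)) .nil)) .nil)) (.cons 270 (.leaf 246 1975 (.cons 269 (.leaf 268 2144 (.cons 245 (.leaf 244 1955 (.cons 342 (.leaf 366 2166 (.leaf 318 1967 .nil)) .nil)) .nil)) .nil)) .nil)))) .nil)) (.cons 343 (.leaf 367 2173 (.cons 248 (.leaf 224 1790 (.leaf 271 1981 .nil)) .nil)) .nil)))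
noncomputable def t50 : T := .cons 224 (.leaf 319 1790 (.cons 200 (.leaf 271 1598 (.cons 175 (.leaf 199 1407 (.cons 176 (.leaf 151 1215 (.cons 177 (.leaf 201 1413 (.leaf 153 1221 .nil)) .nil)) .nil)) .nil)) .nil)) (.cons 320 (.cons 225 (.leaf 249 1797 (.cons 343 (.leaf 319 1982 (.cons 344 (.leaf 367 2174 (.cons 368 (.leaf 271 2175 (.cons 369 (.leaf 345 2180 (.leaf 393 2372 .nil)) .nil)) .nil)) .nil)) .nil)) (.cons 321 (.leaf 345 1988 (.cons 225 (.leaf 249 1797 (.cons 294 (.leaf 293 2344 (.cons 322 (.leaf 297 2352 (.leaf 323 2363 .nil)) .nil)) .nil)) .nil)) (.cons 225 (.leaf 249 1797 (.cons 343 (.leaf 319 1982 (.cons 344 (.leaf 367 2174 (.cons 368 (.leaf 271 2175 (.cons 297 (.leaf 273 2181 (.cons 321 (.leaf 392 2373 (.cons 322 (.leaf 294 2352 (.leaf 323 2554 .nil)) .nil)) .nil)) .nil)) .nil)) .nil)) .nil)) (.cons 319 (.leaf 343 1982 (.cons 321 (.leaf 345 1988 (.cons 294 (.leaf 293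 2344 (.leaf 322 2355 .nil)) .nil)) .nil)) .nil)))) (.cons 224 (.cons 200 (.leaf 271 1598 (.cons 175 (.leaf 199 1407 (.cons 176 (.leaf 151 1215 (.cons 177 (.leaf 201 1413 (.leaf 153 1221 .nil)) .nil)) .nil)) .nil)) (.cons 199 (.leaf 223 1599 (.cons 225 (.leaf 201 1605 (.cons 320 (.leaf 249 1797 (.cons 321 (.leaf 297 1796 (.leaf 345 1988 .nil)) .nil)) .nil)) .nil)) (.cons 271 (.leaf 200 1598 (.cons 297 (.leaf 321 1796 (.cons 298 (.leaf 299 2171 (.leaf 270 2163 .nil)) .nil)) .nil)) .nil))) (.cons 224 (.leaf 319 1790 (.cons 199 (.leaf 223 1599 (.cons 225 (.leaf 201 1605 (.cons 320 (.leaf 249 1797 (.cons 321 (.leaf 297 1796 (.leaf 345 1988 .nil)) .nil)) .nil)) .nil)) .nil)) .nil)))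
noncomputable def t51 : T := .cons 297 (.cons 298 (.leaf 274 2169 (.cons 271 (.leaf 299 2171 (.leaf 270 2163 .nil)) .nil)) (.cons 294 (.cons 269 (.leaf 270 2155 (.cons 317 (.leaf 318 2346 (.cons 321 (.leaf 322 2352 (.cons 248 (.leaf 224 1796 (.cons 345 (.leaf 320 1988 (.leaf 369 2183 .nil)) .nil)) .nil)) .nil)) .nil)) (.cons 269 (.leaf 270 2155 (.cons 293 (.leaf 268 2147 (.cons 317 (.leaf 316 2338 (.leaf 318 2346 .nil)) .nil)) .nil)) (.cons 321 (.leaf 322 2352 (.cons 224 (.leaf 248 1796 (.cons 293 (.leaf 320 2344 (.cons 317 (.leaf 316 2338 (.leaf 318 2346 .nil)) .nil)) .nil)) .nil)) (.cons 321 (.leaf 322 2352 (.cons 224 (.leaf 248 1796 (.cons 269 (.leaf 270 2155 (.cons 293 (.leaf 268 2147 (.leaf 320 2344 .nil)) .nil)) .nil)) .nil)) .nil)))) (.cons 298 (.leaf 274 2169 (.cons 318 (.leaf 319 2354 (.cons 294 (.leaf 317 2346 (.cons 322 (.leaf 321 2352 (.leaf 323 2360 .nil)) .nil)) .nil))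 .nil)) .nil))) (.cons 248 t50 (.cons 273 (.leaf 274 2170 (.cons 294 (.leaf 293 2153 (.cons 319 t49 .nil)) .nil)) (.cons 274 (.leaf 273 2170 (.cons 248 (.cons 297 (.leaf 298 2169 (.cons 319 (.leaf 224 1790 (.cons 343 (.leaf 271 1981 (.leaf 320 1982 .nil)) .nil)) .nil)) (.cons 320 t48 (.cons 297 (.leaf 298 2169 (.cons 224 (.leaf 321 1796 (.cons 199 (.leaf 223 1599 (.cons 200 (.leaf 175 1407 (.leaf 271 1598 .nil)) .nil)) .nil)) .nil)) (.cons 224 (.leaf 319 1790 (.cons 199 (.leaf 223 1599 (.cons 200 (.leaf 175 1407 (.leaf 271 1598 .nil)) .nil)) .nil)) (.cons 224 (.leaf 319 1790 (.cons 297 (.leaf 298 2169 (.leaf 321 1796 .nil)) .nil)) .nil))))) .nil)) (.cons 273 (.leaf 274 2170 (.cons 294 (.leaf 293 2153 (.cons 297 (.cons 269 (.leaf 270 2155 (.cons 321 (.leaf 322 2352 (.cons 248 (.leaf 224 1796 (.leaf 345 1991 .nil)) .nil)) .nil)) (.cons 270 (.leaf 269 2155 (.cons 271 (.leaf 298 2160 (.cons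 249 (.leaf 250 1969 (.cons 225 (.leaf 201 1606 (.leaf 320 1798 .nil)) .nil)) .nil)) .nil)) (.cons 321 (.leaf 322 2352 (.cons 345 (.leaf 248 1991 (.leaf 369 2183 .nil)) .nil)) .nil))) .nil)) .nil)) (.cons 273 (.leaf 274 2170 (.cons 294 (.leaf 293 2153 (.cons 297 (.cons 270 (.leaf 269 2155 (.cons 271 (.leaf 298 2160 (.cons 249 (.leaf 250 1969 (.cons 225 (.leaf 201 1606 (.leaf 320 1798 .nil)) .nil)) .nil)) .nil)) (.cons 321 (.leaf 322 2352 (.cons 345 (.leaf 369 2183 (.cons 344 (.leaf 368 2182 (.cons 320 (.leaf 249 1989 (.cons 317 (.leaf 318 2346 (.cons 343 (.leaf 367 2174 (.cons 342 (.leaf 341 2537 (.cons 346 (.leaf 370 2188 (.cons 347 (.leaf 348 2563 (.leaf 319 2555 .nil)) .nil)) .nil)) .nil)) .nil)) .nil)) .nil)) .nil)) .nil)) (.cons 269 (.leaf 270 2155 (.cons 318 (.leaf 317 2346 (.cons 298 (.leaf 319 2354 (.cons 299 (.leaf 271 2171 (.leaf 300 2179 .nil)) .nil)) .nil)) .nil)) .nil)))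 .nil)) .nil)) (.cons 273 (.leaf 274 2170 (.cons 294 (.leaf 293 2153 (.cons 297 (.cons 321 (.leaf 322 2352 (.cons 345 (.leaf 248 1991 (.leaf 369 2183 .nil)) .nil)) (.cons 269 (.leaf 270 2155 (.cons 318 (.leaf 317 2346 (.cons 298 (.leaf 319 2354 (.cons 299 (.leaf 300 2179 (.cons 323 (.leaf 322 2360 (.leaf 324 2368 .nil)) .nil)) .nil)) .nil)) .nil)) (.cons 269 (.leaf 270 2155 (.cons 318 (.leaf 317 2346 (.cons 319 (.leaf 298 2354 (.cons 248 (.leaf 224 1790 (.cons 343 (.leaf 320 1982 (.leaf 367 2173 .nil)) .nil)) .nil)) .nil)) .nil)) .nil))) .nil)) .nil)) (.cons 273 (.leaf 274 2170 (.cons 294 (.leaf 293 2153 (.cons 297 (.cons 318 (.leaf 317 2346 (.cons 270 (.leaf 269 2155 (.cons 319 (.leaf 298 2354 (.cons 343 (.leaf 367 2173 (.leaf 246 1972 .nil)) .nil)) .nil)) .nil)) (.cons 318 (.leaf 317 2346 (.cons 298 (.leaf 319 2354 (.cons 299 (.leaf 271 2171 (.leaf 300 2179 .nil)) .nil)) .nil)) (.cons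 270 (.leaf 269 2155 (.cons 318 (.leaf 317 2346 (.cons 319 (.cons 343 (.leaf 367 2173 (.leaf 246 1972 .nil)) (.cons 224 (.leaf 248 1790 (.cons 246 (.leaf 222 1780 (.cons 245 (.leaf 271 1963 (.leaf 221 1775 .nil)) .nil)) .nil)) (.cons 343 (.leaf 367 2173 (.cons 248 (.leaf 224 1790 (.leaf 271 1981 .nil)) .nil)) .nil))) .nil)) .nil)) (.cons 270 (.leaf 269 2155 (.cons 271 (.leaf 298 2160 (.cons 249 (.leaf 250 1969 (.cons 225 (.leaf 201 1606 (.leaf 320 1798 .nil)) .nil)) .nil)) .nil)) .nil)))) .nil)) .nil)) .nil)))))))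
noncomputable def t52 : T := .cons 247 (.leaf 274 1979 (.cons 245 (.leaf 246 1960 (.cons 320 (.leaf 223 1791 (.cons 249 (.leaf 225 1797 (.leaf 344 1989 .nil)) .nil)) .nil)) .nil)) (.cons 320 (.cons 319 (.leaf 343 1982 (.cons 321 (.leaf 345 1988 (.cons 224 (.leaf 297 1796 (.cons 199 (.leaf 223 1599 (.cons 200 (.leaf 175 1407 (.cons 201 (.leaf 177 1413 (.leaf 225 1605 .nil)) .nil)) .nil)) .nil)) .nil)) .nil)) (.cons 249 (.leaf 225 1797 (.leaf 344 1989 .nil)) (.cons 249 (.leaf 344 1989 (.cons 319 (.leaf 343 1982 (.cons 321 (.leaf 345 1988 (.cons 224 (.leaf 297 1796 (.cons 199 (.leaf 223 1599 (.cons 200 (.leaf 175 1407 (.leaf 176 1412 .nil)) .nil)) .nil)) .nil)) .nil)) .nil)) .nil))) (.cons 247 (.leaf 274 1979 (.cons 246 (.leaf 245 1960 (.cons 224 (.cons 297 (.leaf 200 1604 (.leaf 321 1796 .nil)) (.cons 199 (.leaf 223 1599 (.cons 175 (.leaf 200 1407 (.cons 225 (.leaf 201 1605 (.cons 226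 (.leaf 227 1786 (.leaf 249 1777 .nil)) .nil)) .nil)) .nil)) (.cons 199 (.leaf 223 1599 (.cons 225 (.leaf 201 1605 (.cons 226 (.leaf 227 1786 (.leaf 249 1777 .nil)) .nil)) .nil)) .nil))) .nil)) .nil)) (.cons 247 (.leaf 274 1979 (.cons 223 (.leaf 320 1791 (.cons 199 (.leaf 175 1404 (.leaf 224 1599 .nil)) .nil)) .nil)) (.cons 247 (.leaf 274 1979 (.cons 246 (.leaf 245 1960 (.cons 249 (.cons 221 (.leaf 222 1771 (.cons 269 (.leaf 270 1962 (.cons 320 (.leaf 225 1797 (.leaf 344 1989 .nil)) .nil)) .nil)) (.cons 221 (.leaf 222 1771 (.cons 269 (.leaf 270 1962 (.cons 320 (.leaf 344 1989 (.cons 319 (.leaf 343 1982 (.cons 321 (.leaf 345 1988 (.cons 297 (.leaf 224 1796 (.cons 298 (.leaf 299 2362 (.leaf 318 2353 .nil)) .nil)) .nil)) .nil)) .nil)) .nil)) .nil)) (.cons 225 (.leaf 201 1606 (.leaf 226 1777 .nil)) .nil))) .nil)) .nil)) .nil))))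
noncomputable def t53 : T := .cons 248 (.cons 223 (.leaf 247 1791 (.cons 319 (.leaf 343 1982 (.cons 345 (.leaf 321 1988 (.cons 344 (.leaf 249 1989 (.leaf 369 2180 .nil)) .nil)) .nil)) .nil)) (.cons 223 (.leaf 247 1791 (.cons 319 (.leaf 343 1982 (.cons 345 (.leaf 321 1988 (.cons 344 (.leaf 369 2180 (.cons 297 (.leaf 368 2181 (.cons 318 (.leaf 317 2536 (.cons 298 (.leaf 295 2354 (.leaf 299 2362 .nil)) .nil)) .nil)) .nil)) .nil)) .nil)) .nil)) (.cons 249 (.leaf 225 1797 (.leaf 344 1989 .nil)) (.cons 225 (.leaf 249 1797 (.cons 224 (.leaf 201 1605 (.cons 319 (.leaf 295 1790 (.leaf 343 1982 .nil)) .nil)) .nil)) .nil)))) (.cons 248 (.cons 225 (.leaf 249 1797 (.cons 224 (.leaf 201 1605 (.cons 319 (.leaf 295 1790 (.leaf 343 1982 .nil)) .nil)) .nil)) (.cons 223 (.leaf 247 1791 (.cons 224 (.leaf 199 1599 (.cons 319 (.leaf 295 1790 (.leaf 343 1982 .nil)) .nil)) .nil)) (.cons 223 (.leaf 247 1791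 (.cons 224 (.leaf 199 1599 (.cons 225 (.leaf 201 1605 (.leaf 249 1797 .nil)) .nil)) .nil)) (.cons 247 (.leaf 223 1791 (.cons 246 (.leaf 245 1960 (.cons 249 (.leaf 225 1797 (.cons 222 (.leaf 221 1771 (.cons 270 (.leaf 269 1962 (.cons 319 (.leaf 343 1982 (.cons 294 (.leaf 295 1780 (.cons 293 (.leaf 317 1774 (.cons 321 (.leaf 345 1988 (.leaf 318 2347 .nil)) .nil)) .nil)) .nil)) .nil)) .nil)) .nil)) .nil)) .nil)) .nil)))) (.cons 248 (.cons 319 (.leaf 343 1982 (.cons 224 (.leaf 295 1790 (.cons 199 (.leaf 223 1599 (.cons 200 (.leaf 175 1407 (.leaf 297 1604 .nil)) .nil)) .nil)) .nil)) (.cons 321 (.leaf 345 1988 (.cons 223 (.leaf 247 1791 (.cons 224 (.leaf 199 1599 (.leaf 297 1796 .nil)) .nil)) .nil)) (.cons 345 (.leaf 321 1988 (.cons 223 (.leaf 247 1791 (.cons 319 (.leaf 343 1982 (.cons 344 (.leaf 369 2180 (.cons 297 (.leaf 368 2181 (.cons 318 (.leaf 317 2536 (.cons 298 (.leaf 295 2354 (.leaf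 299 2362 .nil)) .nil)) .nil)) .nil)) .nil)) .nil)) .nil)) (.cons 319 (.leaf 343 1982 (.cons 224 (.leaf 295 1790 (.cons 199 (.leaf 223 1599 (.cons 200 (.leaf 175 1407 (.cons 201 (.leaf 177 1413 (.leaf 225 1605 .nil)) .nil)) .nil)) .nil)) .nil)) (.cons 321 (.leaf 345 1988 (.cons 224 (.leaf 297 1796 (.cons 319 (.leaf 295 1790 (.leaf 343 1982 .nil)) .nil)) .nil)) .nil))))) (.cons 344 (.leaf 249 1989 (.cons 343 (.leaf 367 2174 (.cons 368 (.leaf 297 2181 (.cons 369 (.leaf 345 2180 (.leaf 393 2372 .nil)) .nil)) .nil)) .nil)) (.cons 249 (.leaf 344 1989 (.cons 225 (.leaf 201 1606 (.leaf 248 1797 .nil)) .nil)) .nil))))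
noncomputable def t54 : T := .cons 274 (.leaf 295 2170 (.cons 248 (.leaf 247 1979 (.cons 299 (.leaf 300 2176 (.cons 224 (.cons 199 (.leaf 223 1599 (.cons 201 (.leaf 225 1605 (.cons 321 (.leaf 297 1796 (.cons 320 (.leaf 345 1988 (.cons 319 (.leaf 343 1982 (.cons 322 (.leaf 298 2361 (.cons 347 (.leaf 346 2552 (.cons 323 (.leaf 250 2007 (.leaf 348 2560 .nil)) .nil)) .nil)) .nil)) .nil)) .nil)) .nil)) .nil)) (.cons 199 (.leaf 223 1599 (.cons 200 (.leaf 175 1407 (.cons 201 (.leaf 177 1413 (.leaf 225 1605 .nil)) .nil)) .nil)) (.cons 297 (.leaf 200 1604 (.leaf 321 1796 .nil)) .nil))) .nil)) .nil)) .nil)) (.cons 320 t53 (.cons 248 t52 (.cons 295 (.leaf 274 2170 (.cons 294 (.leaf 293 2153 (.cons 297 (.cons 317 (.leaf 318 2346 (.cons 321 (.leaf 322 2352 (.cons 345 (.leaf 369 2183 (.cons 344 (.leaf 368 2182 (.cons 249 (.leaf 320 1989 (.cons 225 (.leaf 201 1606 (.cons 226 (.leaf 202 1613 (.leaf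 250 1805 .nil)) .nil)) .nil)) .nil)) .nil)) .nil)) .nil)) (.cons 318 (.leaf 317 2346 (.cons 269 (.leaf 270 2155 (.cons 298 (.leaf 319 2354 (.cons 299 (.leaf 300 2179 (.cons 323 (.leaf 322 2360 (.leaf 324 2368 .nil)) .nil)) .nil)) .nil)) .nil)) (.cons 318 (.leaf 317 2346 (.cons 270 (.leaf 269 2155 (.cons 319 (.leaf 298 2354 (.cons 343 (.leaf 367 2173 (.leaf 246 1972 .nil)) .nil)) .nil)) .nil)) (.cons 321 (.leaf 322 2352 (.cons 345 (.leaf 369 2183 (.cons 344 (.leaf 368 2182 (.cons 249 (.leaf 320 1989 (.cons 225 (.leaf 201 1606 (.cons 226 (.leaf 202 1613 (.leaf 250 1805 .nil)) .nil)) .nil)) .nil)) .nil)) .nil)) .nil)))) .nil)) .nil)) (.cons 295 (.leaf 274 2170 (.cons 294 (.leaf 293 2153 (.cons 297 (.cons 318 (.leaf 317 2346 (.cons 270 (.leaf 269 2155 (.cons 319 (.leaf 298 2354 (.cons 343 (.leaf 367 2173 (.leaf 246 1972 .nil)) .nil)) .nil)) .nil)) (.cons 321 (.leaf 322 2352 (.cons 248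 (.leaf 224 1796 (.leaf 345 1991 .nil)) .nil)) .nil)) .nil)) .nil)) (.cons 274 (.leaf 295 2170 (.cons 248 (.leaf 247 1979 (.cons 299 (.leaf 300 2176 (.cons 320 (.cons 249 (.leaf 225 1797 (.leaf 344 1989 .nil)) (.cons 319 (.leaf 343 1982 (.cons 321 (.leaf 345 1988 (.cons 322 (.leaf 298 2361 (.cons 347 (.leaf 346 2552 (.cons 323 (.leaf 250 2007 (.leaf 348 2560 .nil)) .nil)) .nil)) .nil)) .nil)) .nil)) .nil)) .nil)) .nil)) (.cons 274 (.leaf 295 2170 (.cons 248 (.leaf 247 1979 (.cons 299 (.leaf 300 2176 (.cons 224 (.cons 199 (.leaf 223 1599 (.cons 225 (.leaf 201 1605 (.cons 200 (.leaf 175 1407 (.leaf 297 1604 .nil)) .nil)) .nil)) (.cons 199 (.leaf 223 1599 (.cons 225 (.leaf 201 1605 (.cons 320 (.leaf 249 1797 (.cons 343 (.leaf 319 1982 (.cons 344 (.leaf 367 2174 (.cons 368 (.leaf 297 2181 (.cons 369 (.leaf 345 2180 (.leaf 393 2372 .nil)) .nil)) .nil)) .nil)) .nil)) .nil)) .nil)) (.cons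 199 (.leaf 223 1599 (.cons 200 (.leaf 175 1407 (.leaf 297 1604 .nil)) .nil)) (.cons 200 (.leaf 297 1604 (.cons 201 (.leaf 177 1413 (.leaf 225 1605 .nil)) .nil)) (.cons 225 (.leaf 201 1605 (.cons 199 (.leaf 223 1599 (.cons 200 (.leaf 175 1407 (.cons 249 (.leaf 320 1797 (.leaf 176 1412 .nil)) .nil)) .nil)) .nil)) .nil))))) .nil)) .nil)) .nil)) (.cons 274 (.leaf 295 2170 (.cons 248 (.leaf 247 1979 (.cons 299 (.leaf 300 2176 (.cons 224 (.cons 199 (.leaf 223 1599 (.cons 200 (.leaf 175 1407 (.leaf 297 1604 .nil)) .nil)) (.cons 225 (.leaf 201 1605 (.cons 199 (.leaf 223 1599 (.cons 200 (.leaf 175 1407 (.cons 249 (.leaf 320 1797 (.leaf 176 1412 .nil)) .nil)) .nil)) .nil)) (.cons 225 (.leaf 201 1605 (.cons 199 (.leaf 223 1599 (.cons 249 (.leaf 320 1797 (.cons 297 (.leaf 321 1796 (.cons 226 (.leaf 202 1613 (.cons 227 (.leaf 228 1794 (.cons 203 (.leaf 204 1601 (.cons 298 (.leaf 322 1804 (.leaf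 250 1621 .nil)) .nil)) .nil)) .nil)) .nil)) .nil)) .nil)) .nil)) (.cons 200 (.leaf 297 1604 (.cons 201 (.leaf 177 1413 (.leaf 225 1605 .nil)) .nil)) .nil)))) .nil)) .nil)) .nil)) .nil)))))))
noncomputable def t55 : T := .cons 271 (.leaf 247 1983 (.cons 249 (.leaf 273 1989 (.cons 367 (.leaf 343 2174 (.cons 368 (.leaf 295 2175 (.leaf 391 2366 .nil)) .nil)) .nil)) .nil)) (.cons 273 (.leaf 249 1989 (.cons 343 (.leaf 367 2174 (.cons 368 (.leaf 297 2181 (.cons 369 (.leaf 345 2180 (.leaf 393 2372 .nil)) .nil)) .nil)) .nil)) (.cons 271 (.leaf 247 1983 (.cons 249 (.leaf 273 1989 (.cons 368 (.leaf 295 2175 (.cons 369 (.leaf 345 2180 (.leaf 393 2372 .nil)) .nil)) .nil)) .nil)) (.cons 271 (.leaf 247 1983 (.cons 343 (.leaf 367 2174 (.cons 368 (.leaf 295 2175 (.cons 369 (.leaf 345 2180 (.leaf 393 2372 .nil)) .nil)) .nil)) .nil)) (.cons 343 (.leaf 367 2174 (.cons 345 (.leaf 369 2180 (.cons 271 (.leaf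 247 1983 (.cons 273 (.leaf 249 1989 (.cons 270 (.cons 297 (.leaf 269 2152 (.leaf 298 2160 .nil)) (.cons 245 (.leaf 246 1963 (.cons 269 (.leaf 244 1955 (.cons 293 (.leaf 292 2146 (.leaf 294 2154 .nil)) .nil)) .nil)) (.cons 246 (.leaf 245 1963 (.cons 293 (.leaf 294 2154 (.cons 297 (.leaf 298 2160 (.cons 319 (.leaf 295 1975 (.cons 318 (.leaf 317 2536 (.leaf 346 2547 .nil)) .nil)) .nil)) .nil)) .nil)) .nil))) .nil)) .nil)) .nil)) .nil)) .nil))))
noncomputable def t56 : T := .cons 248 (.cons 319 (.leaf 343 1982 (.cons 321 (.leaf 345 1988 (.cons 297 (.leaf 224 1796 (.cons 298 (.leaf 299 2362 (.leaf 318 2353 .nil)) .nil)) .nil)) .nil)) (.cons 321 (.leaf 345 1988 (.cons 223 (.leaf 247 1791 (.cons 224 (.leaf 199 1599 (.leaf 297 1796 .nil)) .nil)) .nil)) (.cons 319 (.leaf 343 1982 (.cons 223 (.leaf 247 1791 (.cons 224 (.leaf 199 1599 (.leaf 295 1790 .nil)) .nil)) .nil)) (.cons 319 (.leaf 343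 1982 (.cons 321 (.leaf 345 1988 (.cons 247 (.leaf 223 1791 (.cons 249 (.leaf 225 1797 (.cons 318 (.cons 297 (.leaf 317 2345 (.leaf 298 2353 .nil)) (.cons 293 (.leaf 294 2347 (.cons 292 (.leaf 317 2339 (.cons 342 (.leaf 341 2538 (.cons 271 (.leaf 295 1974 (.cons 270 (.leaf 269 1961 (.leaf 250 1970 .nil)) .nil)) .nil)) .nil)) .nil)) (.cons 293 (.leaf 294 2347 (.cons 297 (.leaf 298 2353 (.cons 342 (.leaf 341 2538 (.cons 271 (.leaf 295 1974 (.cons 270 (.leaf 269 2152 (.leaf 250 1970 .nil)) .nil)) .nil)) .nil)) .nil)) .nil))) .nil)) .nil)) .nil)) .nil)) .nil)))) (.cons 344 t55 (.cons 344 (.cons 247 (.leaf 271 1983 (.cons 273 (.leaf 249 1989 (.cons 367 (.leaf 343 2174 (.cons 368 (.leaf 297 2181 (.leaf 391 2366 .nil)) .nil)) .nil)) .nil)) (.cons 345 (.leaf 369 2180 (.cons 248 (.leaf 321 1988 (.cons 249 (.leaf 225 1797 (.leaf 273 1989 .nil)) .nil)) .nil)) (.cons 247 (.leaf 271 1983 (.cons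 367 (.leaf 343 2174 (.cons 368 (.leaf 391 2366 (.cons 369 (.leaf 345 2180 (.leaf 393 2372 .nil)) .nil)) .nil)) .nil)) .nil))) (.cons 248 (.cons 319 (.leaf 343 1982 (.cons 321 (.leaf 345 1988 (.cons 297 (.leaf 224 1796 (.cons 298 (.leaf 299 2362 (.leaf 318 2353 .nil)) .nil)) .nil)) .nil)) (.cons 319 (.leaf 343 1982 (.cons 223 (.leaf 247 1791 (.cons 224 (.leaf 199 1599 (.leaf 295 1790 .nil)) .nil)) .nil)) (.cons 321 (.leaf 345 1988 (.cons 223 (.leaf 247 1791 (.cons 224 (.leaf 199 1599 (.leaf 297 1796 .nil)) .nil)) .nil)) (.cons 225 (.leaf 249 1797 (.cons 343 (.leaf 319 1982 (.cons 344 (.leaf 367 2174 (.cons 345 (.leaf 321 1988 (.leaf 369 2180 .nil)) .nil)) .nil)) .nil)) .nil)))) (.cons 248 (.cons 223 (.leaf 247 1791 (.cons 249 (.leaf 225 1797 (.cons 344 (.leaf 273 1989 (.cons 345 (.leaf 321 1988 (.leaf 369 2180 .nil)) .nil)) .nil)) .nil)) (.cons 247 (.leaf 223 1791 (.cons 225 (.leaf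 249 1797 (.cons 224 (.leaf 201 1605 (.cons 226 (.leaf 227 1786 (.cons 245 (.leaf 246 1769 (.cons 271 (.leaf 344 1983 (.cons 295 (.leaf 200 1598 (.leaf 319 1789 .nil)) .nil)) .nil)) .nil)) .nil)) .nil)) .nil)) (.cons 321 (.leaf 345 1988 (.cons 224 (.leaf 297 1796 (.cons 225 (.leaf 201 1605 (.leaf 249 1797 .nil)) .nil)) .nil)) (.cons 321 (.leaf 345 1988 (.cons 223 (.leaf 247 1791 (.cons 224 (.leaf 199 1599 (.leaf 297 1796 .nil)) .nil)) .nil)) .nil)))) (.cons 248 (.cons 223 (.leaf 247 1791 (.cons 224 (.leaf 199 1599 (.cons 319 (.leaf 295 1790 (.leaf 343 1982 .nil)) .nil)) .nil)) (.cons 247 (.leaf 223 1791 (.cons 225 (.leaf 249 1797 (.cons 201 (.leaf 224 1605 (.cons 344 (.leaf 271 1983 (.cons 367 (.leaf 343 2174 (.cons 368 (.leaf 391 2366 (.cons 297 (.leaf 273 2181 (.cons 392 (.leaf 321 2373 (.cons 393 (.leaf 369 2372 (.leaf 417 2564 .nil)) .nil)) .nil)) .nil)) .nil)) .nil)) .nil)) .nil))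 .nil)) (.cons 319 (.leaf 343 1982 (.cons 224 (.leaf 295 1790 (.cons 225 (.leaf 201 1605 (.leaf 249 1797 .nil)) .nil)) .nil)) (.cons 247 (.leaf 223 1791 (.cons 225 (.leaf 249 1797 (.cons 224 (.leaf 201 1605 (.cons 226 (.leaf 227 1786 (.cons 245 (.leaf 246 1769 (.cons 271 (.leaf 344 1983 (.cons 295 (.leaf 200 1598 (.leaf 319 1789 .nil)) .nil)) .nil)) .nil)) .nil)) .nil)) .nil)) (.cons 247 (.leaf 223 1791 (.cons 225 (.leaf 249 1797 (.cons 343 (.leaf 319 1982 (.cons 344 (.leaf 271 1983 (.leaf 367 2174 .nil)) .nil)) .nil)) .nil)) .nil))))) (.cons 344 (.cons 249 (.leaf 273 1989 (.cons 367 (.leaf 343 2174 (.cons 368 (.leaf 391 2366 (.cons 369 (.leaf 345 2180 (.leaf 393 2372 .nil)) .nil)) .nil)) .nil)) (.cons 345 (.leaf 369 2180 (.cons 248 (.leaf 321 1988 (.cons 249 (.leaf 225 1797 (.leaf 273 1989 .nil)) .nil)) .nil)) (.cons 343 (.leaf 367 2174 (.cons 248 (.leaf 319 1982 (.cons 249 (.leaf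 225 1797 (.leaf 273 1989 .nil)) .nil)) .nil)) (.cons 343 (.leaf 367 2174 (.cons 248 (.leaf 319 1982 (.cons 345 (.leaf 321 1988 (.leaf 369 2180 .nil)) .nil)) .nil)) .nil)))) (.cons 344 (.cons 247 (.leaf 271 1983 (.cons 248 (.leaf 223 1791 (.cons 343 (.leaf 319 1982 (.leaf 367 2174 .nil)) .nil)) .nil)) (.cons 345 (.leaf 369 2180 (.cons 247 (.leaf 271 1983 (.cons 248 (.leaf 223 1791 (.leaf 321 1988 .nil)) .nil)) .nil)) (.cons 345 (.leaf 369 2180 (.cons 248 (.leaf 321 1988 (.cons 343 (.leaf 319 1982 (.leaf 367 2174 .nil)) .nil)) .nil)) (.cons 247 (.leaf 271 1983 (.cons 343 (.leaf 367 2174 (.cons 369 (.leaf 345 2180 (.cons 368 (.leaf 393 2372 (.cons 297 (.leaf 273 2181 (.cons 321 (.leaf 392 2373 (.cons 341 (.leaf 342 2728 (.cons 322 (.leaf 323 2554 (.cons 370 (.leaf 371 2747 (.cons 346 (.leaf 394 2383 (.cons 294 (.leaf 295 2352 (.cons 298 (.leaf 299 2197 (.cons 319 (.leaf 318 2353 (.leaf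 347 2552 .nil)) .nil)) .nil)) .nil)) .nil)) .nil)) .nil)) .nil)) .nil)) .nil)) .nil)) .nil)) .nil)) .nil)))) .nil)))))))
noncomputable def t57 : T := .cons 247 (.leaf 274 1979 (.cons 223 (.leaf 320 1791 (.cons 199 (.leaf 175 1404 (.leaf 224 1599 .nil)) .nil)) .nil)) (.cons 224 (.cons 225 (.leaf 201 1605 (.cons 320 (.leaf 249 1797 (.cons 343 (.leaf 319 1982 (.cons 344 (.leaf 367 2174 (.cons 345 (.leaf 321 1988 (.leaf 369 2180 .nil)) .nil)) .nil)) .nil)) .nil)) (.cons 199 (.leaf 223 1599 (.cons 200 (.leaf 175 1407 (.cons 176 (.leaf 249 1412 (.cons 177 (.leaf 201 1413 (.leaf 153 1221 .nil)) .nil)) .nil)) .nil)) (.cons 199 (.leaf 223 1599 (.cons 200 (.leaf 175 1407 (.cons 249 (.leaf 176 1412 (.cons 320 (.leaf 225 1797 (.leaf 344 1989 .nil)) .nil)) .nil)) .nil)) (.cons 199 (.leaf 223 1599 (.cons 200 (.leaf 175 1407 (.cons 201 (.leaf 177 1413 (.leaf 225 1605 .nil)) .nil)) .nil)) .nil))))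 (.cons 247 (.leaf 274 1979 (.cons 246 (.leaf 245 1960 (.cons 249 (.cons 221 (.leaf 222 1771 (.cons 270 (.leaf 269 1962 (.cons 271 (.leaf 250 1969 (.cons 223 (.leaf 199 1596 (.cons 294 (.leaf 293 2154 (.leaf 318 1781 .nil)) .nil)) .nil)) .nil)) .nil)) (.cons 225 (.leaf 201 1606 (.leaf 226 1777 .nil)) .nil)) .nil)) .nil)) (.cons 274 (.leaf 247 1979 (.cons 299 (.leaf 300 2176 (.cons 298 (.leaf 271 2168 (.cons 249 (.cons 225 (.leaf 201 1612 (.leaf 320 1797 .nil)) (.cons 320 (.leaf 344 1989 (.cons 319 (.leaf 343 1982 (.cons 321 (.leaf 345 1988 (.leaf 322 2361 .nil)) .nil)) .nil)) (.cons 225 (.leaf 201 1612 (.cons 322 (.leaf 346 1999 (.leaf 250 1807 .nil)) .nil)) .nil))) .nil)) .nil)) .nil)) .nil)))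
noncomputable def t58 : T := .cons 344 (.leaf 249 1989 (.cons 247 (.leaf 271 1983 (.cons 367 (.leaf 343 2174 (.cons 368 (.leaf 391 2366 (.cons 369 (.leaf 345 2180 (.leaf 393 2372 .nil)) .nil)) .nil)) .nil)) .nil)) (.cons 248 (.cons 225 (.leaf 249 1797 (.cons 224 (.leaf 201 1605 (.cons 319 (.leaf 295 1790 (.leaf 343 1982 .nil)) .nil)) .nil)) (.cons 319 (.leaf 343 1982 (.cons 223 (.leaf 247 1791 (.cons 224 (.leaf 199 1599 (.leaf 295 1790 .nil)) .nil)) .nil)) (.cons 225 (.leaf 249 1797 (.cons 223 (.leaf 247 1791 (.cons 224 (.leaf 199 1599 (.leaf 201 1605 .nil)) .nil)) .nil)) (.cons 247 (.leaf 223 1791 (.cons 246 (.leaf 245 1960 (.cons 249 (.leaf 225 1797 (.cons 222 (.leaf 221 1771 (.cons 270 (.leaf 269 1962 (.cons 319 (.leaf 343 1982 (.cons 294 (.leaf 295 1780 (.cons 293 (.leaf 271 2154 (.leaf 317 1774 .nil)) .nil)) .nil)) .nil)) .nil)) .nil)) .nil)) .nil)) .nil)))) (.cons 248 (.cons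 319 (.leaf 343 1982 (.cons 223 (.leaf 247 1791 (.cons 224 (.leaf 199 1599 (.leaf 295 1790 .nil)) .nil)) .nil)) (.cons 319 (.leaf 343 1982 (.cons 224 (.leaf 295 1790 (.cons 199 (.leaf 223 1599 (.cons 200 (.leaf 175 1407 (.cons 201 (.leaf 177 1413 (.leaf 225 1605 .nil)) .nil)) .nil)) .nil)) .nil)) (.cons 247 (.leaf 223 1791 (.cons 245 (.leaf 246 1960 (.cons 344 (.leaf 271 1983 (.cons 345 (.leaf 321 1988 (.leaf 369 2180 .nil)) .nil)) .nil)) .nil)) (.cons 319 (.leaf 343 1982 (.cons 295 (.leaf 224 1790 (.cons 293 (.leaf 294 2153 (.cons 345 (.leaf 321 1988 (.cons 344 (.leaf 369 2180 (.cons 271 (.leaf 247 1980 (.leaf 368 2175 .nil)) .nil)) .nil)) .nil)) .nil)) .nil)) .nil)))) (.cons 344 (.leaf 249 1989 (.cons 343 (.leaf 367 2174 (.cons 248 (.leaf 319 1982 (.cons 345 (.leaf 321 1988 (.leaf 369 2180 .nil)) .nil)) .nil)) .nil)) (.cons 344 (.leaf 249 1989 (.cons 247 (.leaf 271 1983 (.cons 248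 (.leaf 223 1791 (.cons 345 (.leaf 321 1988 (.leaf 369 2180 .nil)) .nil)) .nil)) .nil)) .nil))))
noncomputable def t59 : T := .cons 247 (.leaf 274 1979 (.cons 246 (.leaf 245 1960 (.cons 249 (.cons 225 (.leaf 201 1606 (.leaf 320 1797 .nil)) (.cons 221 (.leaf 222 1771 (.cons 270 (.leaf 269 1962 (.cons 271 (.leaf 250 1969 (.cons 223 (.leaf 199 1596 (.cons 294 (.leaf 293 2154 (.leaf 318 1781 .nil)) .nil)) .nil)) .nil)) .nil)) .nil)) .nil)) .nil)) (.cons 320 (.cons 319 (.leaf 343 1982 (.cons 224 (.leaf 295 1790 (.cons 199 (.leaf 223 1599 (.cons 200 (.leaf 175 1407 (.cons 201 (.leaf 177 1413 (.leaf 225 1605 .nil)) .nil)) .nil)) .nil)) .nil)) (.cons 247 (.leaf 223 1791 (.cons 245 (.leaf 246 1960 (.cons 249 (.leaf 225 1797 (.leaf 344 1989 .nil)) .nil)) .nil)) (.cons 319 (.leaf 343 1982 (.cons 295 (.leaf 224 1790 (.cons 293 (.leaf 294 2153 (.cons 345 (.leaf 321 1988 (.cons 344 (.leaf 249 1989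 (.leaf 369 2180 .nil)) .nil)) .nil)) .nil)) .nil)) .nil))) (.cons 295 (.leaf 274 2170 (.cons 224 (.leaf 319 1790 (.cons 199 (.leaf 223 1599 (.cons 200 (.leaf 175 1407 (.leaf 271 1598 .nil)) .nil)) .nil)) .nil)) (.cons 274 (.leaf 247 1979 (.leaf 295 2170 .nil)) .nil)))
noncomputable def t60 : T := .cons 248 t59 (.cons 320 t58 (.cons 248 t57 (.cons 274 (.leaf 295 2170 (.cons 299 (.leaf 300 2176 (.cons 298 (.leaf 271 2168 (.cons 250 (.cons 323 (.leaf 347 2007 (.leaf 226 1812 .nil)) (.cons 323 (.leaf 347 2007 (.cons 322 (.cons 249 (.leaf 346 1999 (.leaf 225 1807 .nil)) (.cons 345 (.leaf 321 1998 (.cons 346 (.leaf 370 2197 (.leaf 369 2190 .nil)) .nil)) (.cons 249 (.leaf 225 1807 (.cons 320 (.leaf 344 1989 (.cons 321 (.leaf 345 1998 (.leaf 319 2361 .nil)) .nil)) .nil)) .nil))) .nil)) (.cons 226 (.leaf 202 1620 (.cons 203 (.leaf 227 1621 (.cons 225 (.leaf 201 1615 (.cons 322 (.leaf 249 1807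 (.cons 345 (.leaf 321 1998 (.cons 346 (.leaf 370 2197 (.leaf 369 2190 .nil)) .nil)) .nil)) .nil)) .nil)) .nil)) .nil))) .nil)) .nil)) .nil)) (.cons 274 (.leaf 295 2170 (.cons 247 (.leaf 248 1979 (.cons 271 (.leaf 246 1971 (.cons 299 (.leaf 300 2176 (.leaf 298 2168 .nil)) .nil)) .nil)) .nil)) (.cons 274 (.leaf 295 2170 (.cons 248 (.leaf 247 1979 (.cons 299 (.leaf 300 2176 (.cons 224 (.cons 225 (.leaf 201 1605 (.cons 320 (.leaf 249 1797 (.cons 321 (.leaf 345 1988 (.cons 343 (.leaf 319 1982 (.cons 344 (.leaf 367 2174 (.cons 323 (.leaf 322 2554 (.cons 347 (.leaf 250 2007 (.cons 370 (.leaf 346 2198 (.cons 371 (.leaf 298 2199 (.leaf 394 2390 .nil)) .nil)) .nil)) .nil)) .nil)) .nil)) .nil)) .nil)) .nil)) (.cons 199 (.leaf 223 1599 (.cons 200 (.leaf 175 1407 (.cons 176 (.leaf 249 1412 (.cons 177 (.leaf 201 1413 (.leaf 153 1221 .nil)) .nil)) .nil)) .nil)) (.cons 199 (.leaf 223 1599 (.cons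 200 (.leaf 175 1407 (.cons 249 (.leaf 176 1412 (.cons 320 (.leaf 225 1797 (.leaf 344 1989 .nil)) .nil)) .nil)) .nil)) (.cons 201 (.leaf 225 1605 (.cons 199 (.leaf 223 1599 (.cons 200 (.leaf 175 1407 (.leaf 177 1413 .nil)) .nil)) .nil)) .nil)))) .nil)) .nil)) .nil)) .nil)))))
noncomputable def t61 : T := .cons 345 (.leaf 321 1998 (.cons 346 (.leaf 369 2190 (.cons 370 (.leaf 299 2197 (.cons 371 (.leaf 347 2196 (.leaf 395 2388 .nil)) .nil)) .nil)) .nil)) (.cons 345 (.leaf 321 1998 (.cons 346 (.leaf 369 2190 (.cons 299 (.leaf 370 2197 (.cons 226 (.leaf 202 1620 (.leaf 323 1812 .nil)) .nil)) .nil)) .nil)) (.cons 346 (.cons 347 (.leaf 323 2004 (.leaf 371 2196 .nil)) (.cons 299 (.leaf 370 2197 (.cons 226 (.leaf 202 1620 (.leaf 323 1812 .nil)) .nil)) (.cons 370 (.leaf 299 2197 (.cons 371 (.leaf 347 2196 (.leaf 395 2388 .nil)) .nil)) .nil))) (.cons 345 (.leaf 321 1998 (.cons 323 (.leaf 347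 2004 (.cons 346 (.leaf 369 2190 (.cons 324 (.leaf 325 2570 (.cons 343 (.leaf 344 2553 (.cons 319 (.leaf 367 2173 (.cons 248 (.leaf 224 1790 (.leaf 271 1981 .nil)) .nil)) .nil)) .nil)) .nil)) .nil)) .nil)) (.cons 323 (.leaf 347 2004 (.cons 299 (.leaf 226 1812 (.cons 321 (.leaf 345 1998 (.cons 324 (.cons 300 (.leaf 301 2377 (.cons 348 (.leaf 372 2207 (.leaf 349 2568 .nil)) .nil)) (.cons 325 (.leaf 326 2387 (.cons 349 (.leaf 348 2568 (.leaf 350 2576 .nil)) .nil)) (.cons 301 (.leaf 300 2377 (.cons 325 (.leaf 326 2387 (.leaf 302 2385 .nil)) .nil)) .nil))) .nil)) .nil)) .nil)) .nil))))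
noncomputable def t62 : T := .cons 226 (.cons 299 (.leaf 202 1620 (.leaf 323 1812 .nil)) (.cons 201 (.leaf 225 1615 (.cons 202 (.leaf 177 1423 (.cons 203 (.leaf 179 1429 (.leaf 227 1621 .nil)) .nil)) .nil)) (.cons 201 (.leaf 225 1615 (.cons 203 (.leaf 227 1621 (.cons 323 (.leaf 299 1812 (.cons 322 (.leaf 347 2004 (.cons 345 (.leaf 321 1998 (.cons 346 (.leaf 369 2190 (.cons 343 (.leaf 344 2553 (.cons 319 (.leaf 367 2173 (.cons 248 (.leaf 224 1790 (.leaf 271 1981 .nil)) .nil)) .nil)) .nil)) .nil)) .nil)) .nil)) .nil)) .nil)) .nil))) (.cons 322 (.cons 249 (.leaf 225 1807 (.cons 248 (.leaf 247 1976 (.cons 224 (.leaf 319 1790 (.cons 199 (.leaf 223 1599 (.cons 200 (.leaf 175 1407 (.leaf 271 1598 .nil)) .nil)) .nil)) .nil)) .nil)) (.cons 323 (.leaf 347 2004 (.cons 345 (.leaf 321 1998 (.cons 346 (.leaf 369 2190 (.cons 299 (.leaf 370 2197 (.cons 343 (.leaf 344 2553 (.cons 319 (.leaf 367 2173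 (.cons 248 (.leaf 224 1790 (.leaf 271 1981 .nil)) .nil)) .nil)) .nil)) .nil)) .nil)) .nil)) (.cons 347 (.leaf 323 2004 (.cons 225 (.leaf 249 1807 (.cons 346 (.leaf 371 2196 (.cons 369 (.leaf 345 2190 (.cons 370 (.leaf 299 2197 (.leaf 393 2382 .nil)) .nil)) .nil)) .nil)) .nil)) .nil))) (.cons 322 (.cons 323 (.leaf 347 2004 (.cons 345 (.leaf 321 1998 (.cons 346 (.leaf 369 2190 (.cons 324 (.leaf 325 2570 (.cons 343 (.leaf 344 2553 (.cons 319 (.leaf 367 2173 (.cons 248 (.leaf 224 1790 (.leaf 271 1981 .nil)) .nil)) .nil)) .nil)) .nil)) .nil)) .nil)) (.cons 225 (.leaf 249 1807 (.cons 226 (.leaf 201 1615 (.cons 203 (.leaf 227 1621 (.cons 202 (.leaf 179 1429 (.cons 224 (.leaf 223 1593 (.cons 248 (.leaf 319 1790 (.cons 200 (.leaf 271 1598 (.cons 175 (.leaf 199 1407 (.cons 176 (.leaf 151 1215 (.cons 177 (.leaf 178 1400 (.leaf 153 1221 .nil)) .nil)) .nil)) .nil)) .nil)) .nil)) .nil)) .nil))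 .nil)) .nil)) (.cons 225 (.leaf 249 1807 (.cons 201 (.leaf 226 1615 (.cons 345 (.leaf 321 1998 (.cons 346 (.leaf 369 2190 (.cons 347 (.leaf 323 2004 (.leaf 371 2196 .nil)) .nil)) .nil)) .nil)) .nil)) .nil))) (.cons 226 (.cons 299 (.leaf 202 1620 (.leaf 323 1812 .nil)) (.cons 201 (.leaf 225 1615 (.cons 202 (.leaf 177 1423 (.cons 203 (.leaf 179 1429 (.leaf 227 1621 .nil)) .nil)) .nil)) (.cons 299 (.leaf 323 1812 (.cons 225 (.leaf 201 1615 (.cons 227 (.leaf 203 1621 (.cons 248 (.cons 247 (.leaf 249 1976 (.leaf 224 1786 .nil)) (.cons 224 (.leaf 319 1790 (.cons 199 (.leaf 223 1599 (.leaf 200 1595 .nil)) .nil)) (.cons 249 (.leaf 247 1976 (.leaf 228 1794 .nil)) .nil))) .nil)) .nil)) .nil)) .nil))) (.cons 226 (.cons 202 (.leaf 299 1620 (.cons 201 (.leaf 177 1423 (.leaf 225 1615 .nil)) .nil)) (.cons 203 (.leaf 227 1621 (.cons 225 (.leaf 201 1615 (.cons 249 (.leaf 322 1807 (.cons 248 (.leaf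 247 1976 (.cons 224 (.leaf 319 1790 (.cons 223 (.leaf 199 1599 (.leaf 222 1776 .nil)) .nil)) .nil)) .nil)) .nil)) .nil)) (.cons 202 (.leaf 299 1620 (.cons 203 (.leaf 179 1429 (.leaf 227 1621 .nil)) .nil)) .nil))) (.cons 226 (.cons 203 (.leaf 227 1621 (.cons 225 (.leaf 201 1615 (.cons 299 (.leaf 202 1620 (.leaf 323 1812 .nil)) .nil)) .nil)) (.cons 201 (.leaf 225 1615 (.cons 202 (.leaf 177 1423 (.cons 203 (.leaf 179 1429 (.leaf 227 1621 .nil)) .nil)) .nil)) (.cons 203 (.leaf 227 1621 (.cons 225 (.leaf 201 1615 (.cons 299 (.leaf 323 1812 (.cons 322 (.leaf 249 1807 (.cons 346 (.leaf 370 2197 (.cons 345 (.leaf 321 1998 (.leaf 369 2190 .nil)) .nil)) .nil)) .nil)) .nil)) .nil)) (.cons 299 (.leaf 202 1620 (.leaf 323 1812 .nil)) .nil)))) (.cons 322 t61 .nil))))))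
noncomputable def t63 : T := .cons 245 (.leaf 247 1960 (.cons 270 (.leaf 271 1963 (.cons 221 (.leaf 318 1775 (.cons 197 (.leaf 222 1583 (.leaf 269 1580 .nil)) .nil)) .nil)) .nil)) (.cons 270 (.cons 245 (.leaf 271 1963 (.cons 221 (.leaf 318 1775 (.cons 197 (.leaf 222 1583 (.leaf 269 1580 .nil)) .nil)) .nil)) (.cons 222 (.leaf 319 1780 (.cons 197 (.leaf 221 1583 (.cons 198 (.leaf 173 1391 (.cons 199 (.leaf 223 1589 (.leaf 175 1397 .nil)) .nil)) .nil)) .nil)) (.cons 245 (.leaf 271 1963 (.cons 221 (.leaf 318 1775 (.cons 197 (.leaf 269 1580 (.leaf 173 1388 .nil)) .nil)) .nil)) (.cons 271 (.leaf 245 1963 (.cons 319 (.leaf 343 1981 (.leaf 222 1780 .nil)) .nil)) .nil)))) (.cons 319 (.cons 222 (.leaf 270 1780 (.cons 247 (.leaf 271 1783 (.cons 221 (.leaf 249 1771 (.cons 220 (.leaf 223 1760 (.leaf 219 1752 .nil)) .nil)) .nil)) .nil)) (.cons 343 (.leaf 271 1981 (.leaf 367 2173 .nil)) (.cons 270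 (.leaf 222 1780 (.cons 343 (.leaf 367 2173 (.leaf 318 1972 .nil)) .nil)) .nil))) (.cons 247 (.leaf 245 1960 (.cons 271 (.cons 223 (.leaf 199 1596 (.leaf 318 1782 .nil)) (.cons 319 (.leaf 343 1981 (.leaf 222 1783 .nil)) .nil)) .nil)) (.cons 247 (.leaf 245 1960 (.cons 249 (.cons 225 (.leaf 201 1606 (.leaf 226 1777 .nil)) (.cons 270 (.leaf 269 1962 (.cons 222 (.leaf 319 1780 (.leaf 221 1771 .nil)) .nil)) .nil)) .nil)) (.cons 245 (.leaf 247 1960 (.cons 270 (.leaf 271 1963 (.cons 221 (.leaf 318 1775 (.cons 197 (.leaf 269 1580 (.leaf 173 1388 .nil)) .nil)) .nil)) .nil)) .nil)))))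
noncomputable def t64 : T := .cons 224 (.leaf 319 1790 (.cons 201 (.leaf 225 1605 (.cons 199 (.leaf 223 1599 (.cons 200 (.leaf 175 1407 (.leaf 177 1413 .nil)) .nil)) .nil)) .nil)) (.cons 246 t63 (.cons 224 (.cons 201 (.leaf 225 1605 (.cons 199 (.leaf 223 1599 (.cons 200 (.leaf 175 1407 (.leaf 177 1413 .nil)) .nil)) .nil)) (.cons 225 (.leaf 201 1605 (.cons 223 (.leaf 199 1599 (.cons 247 (.cons 246 (.leaf 245 1960 (.leaf 226 1778 .nil)) (.cons 226 (.leaf 227 1786 (.cons 271 (.leaf 318 1782 (.cons 222 (.leaf 198 1591 (.cons 249 (.leaf 221 1768 (.leaf 250 1776 .nil)) .nil)) .nil)) .nil)) (.cons 245 (.leaf 246 1960 (.cons 271 (.leaf 318 1782 (.cons 222 (.leaf 198 1591 (.cons 221 (.leaf 220 1760 (.leaf 249 1768 .nil)) .nil)) .nil)) .nil)) .nil))) .nil)) .nil)) (.cons 200 (.leaf 271 1598 (.cons 199 (.leaf 175 1407 (.leaf 223 1599 .nil)) .nil)) (.cons 200 (.leaf 271 1598 (.cons 201 (.leaf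 177 1413 (.leaf 225 1605 .nil)) .nil)) .nil)))) (.cons 319 (.leaf 224 1790 (.cons 343 (.leaf 271 1981 (.leaf 367 2173 .nil)) .nil)) .nil)))
noncomputable def t65 : T := .cons 269 (.leaf 270 2155 (.cons 318 (.leaf 317 2346 (.cons 298 (.leaf 319 2354 (.cons 299 (.leaf 271 2171 (.cons 323 (.leaf 322 2360 (.leaf 324 2368 .nil)) .nil)) .nil)) .nil)) .nil)) (.cons 321 (.leaf 322 2352 (.cons 224 (.leaf 248 1796 (.cons 318 (.leaf 317 2346 (.cons 298 (.leaf 319 2354 (.cons 299 (.leaf 271 2171 (.cons 300 (.leaf 273 2179 (.cons 324 (.leaf 323 2368 (.leaf 325 2376 .nil)) .nil)) .nil)) .nil)) .nil)) .nil)) .nil)) (.cons 270 (.leaf 269 2155 (.cons 298 (.leaf 271 2163 (.cons 322 (.leaf 321 2352 (.leaf 323 2360 .nil)) .nil)) .nil)) (.cons 270 (.leaf 269 2155 (.cons 271 (.leaf 298 2163 (.cons 318 (.leaf 317 2346 (.cons 247 (.leaf 223 1782 (.leaf 342 1973 .nil)) .nil)) .nil)) .nil)) (.cons 321 (.leaf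 322 2352 (.cons 224 (.leaf 248 1796 (.cons 270 (.leaf 269 2155 (.cons 318 (.leaf 317 2346 (.cons 319 (.leaf 298 2354 (.cons 343 (.leaf 367 2173 (.leaf 246 1972 .nil)) .nil)) .nil)) .nil)) .nil)) .nil)) (.cons 321 (.leaf 322 2352 (.cons 248 (.leaf 224 1796 (.cons 345 (.leaf 273 1991 (.leaf 369 2183 .nil)) .nil)) .nil)) .nil)))))
noncomputable def t66 : T := .cons 297 (.cons 269 (.leaf 270 2155 (.cons 318 (.leaf 317 2346 (.cons 298 (.leaf 319 2354 (.cons 299 (.leaf 271 2171 (.cons 323 (.leaf 322 2360 (.leaf 324 2368 .nil)) .nil)) .nil)) .nil)) .nil)) (.cons 293 (.leaf 273 2153 (.cons 317 (.leaf 316 2338 (.leaf 318 2346 .nil)) .nil)) (.cons 269 (.leaf 270 2155 (.cons 321 (.leaf 322 2352 (.cons 248 (.leaf 224 1796 (.cons 345 (.leaf 273 1991 (.leaf 369 2183 .nil)) .nil)) .nil)) .nil)) .nil))) (.cons 297 t65 (.cons 293 (.leaf 273 2153 (.cons 268 (.leaf 269 2147 (.cons 292 (.leaf 271 2145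 (.leaf 267 2139 .nil)) .nil)) .nil)) (.cons 293 (.cons 268 (.leaf 269 2147 (.cons 292 (.leaf 271 2145 (.leaf 267 2139 .nil)) .nil)) (.cons 269 (.leaf 268 2147 (.cons 270 (.leaf 297 2155 (.cons 317 (.leaf 316 2338 (.cons 246 (.leaf 222 1774 (.leaf 341 1965 .nil)) .nil)) .nil)) .nil)) (.cons 292 (.leaf 271 2145 (.cons 316 (.leaf 317 2338 (.leaf 315 2330 .nil)) .nil)) .nil))) (.cons 293 (.leaf 273 2153 (.cons 269 (.leaf 268 2147 (.cons 270 (.leaf 297 2155 (.cons 317 (.leaf 316 2338 (.cons 246 (.leaf 222 1774 (.leaf 341 1965 .nil)) .nil)) .nil)) .nil)) .nil)) (.cons 293 (.leaf 273 2153 (.cons 292 (.leaf 271 2145 (.cons 316 (.leaf 317 2338 (.leaf 315 2330 .nil)) .nil)) .nil)) .nil)))))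
noncomputable def t67 : T := .cons 269 (.leaf 270 2155 (.cons 293 (.leaf 268 2147 (.cons 317 (.leaf 316 2338 (.leaf 318 2346 .nil)) .nil)) .nil)) (.cons 321 (.leaf 322 2352 (.cons 248 (.leaf 224 1796 (.cons 318 (.leaf 317 2346 (.cons 369 (.leaf 345 2183 (.cons 271 (.cons 247 (.leaf 223 1782 (.cons 342 (.leaf 319 1974 (.leaf 366 2165 .nil)) .nil)) (.cons 343 (.leaf 319 1981 (.cons 342 (.leaf 366 2165 (.cons 367 (.leaf 270 2164 (.cons 292 (.leaf 293 2145 (.cons 368 (.leaf 370 2739 (.cons 341 (.leaf 344 2728 (.leaf 340 2720 .nil)) .nil)) .nil)) .nil)) .nil)) .nil)) (.cons 247 (.leaf 223 1782 (.cons 342 (.leaf 366 2165 (.leaf 270 1973 .nil)) .nil)) (.cons 247 (.leaf 223 1782 (.cons 319 (.leaf 343 1981 (.cons 246 (.leaf 222 1783 (.cons 245 (.leaf 244 1952 (.cons 221 (.leaf 270 1775 (.leaf 220 1763 .nil)) .nil)) .nil)) .nil)) .nil)) .nil)))) .nil)) .nil)) .nil)) .nil)) (.cons 321 (.leaf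 322 2352 (.cons 224 (.leaf 248 1796 (.cons 317 (.leaf 318 2346 (.cons 293 (.leaf 316 2338 (.cons 268 (.leaf 269 2147 (.cons 292 (.leaf 271 2145 (.leaf 267 2139 .nil)) .nil)) .nil)) .nil)) .nil)) .nil)) (.cons 269 (.leaf 270 2155 (.cons 321 (.leaf 322 2352 (.cons 293 (.leaf 268 2147 (.cons 248 (.leaf 224 1796 (.cons 271 (.leaf 292 2145 (.cons 319 (.leaf 343 1981 (.cons 345 (.leaf 369 2183 (.cons 247 (.cons 223 (.leaf 199 1596 (.leaf 318 1782 .nil)) (.cons 222 (.leaf 246 1783 (.cons 223 (.leaf 199 1596 (.leaf 198 1591 .nil)) .nil)) (.cons 246 (.leaf 222 1783 (.cons 245 (.leaf 244 1952 (.cons 221 (.leaf 318 1772 (.leaf 220 1763 .nil)) .nil)) .nil)) .nil))) .nil)) .nil)) .nil)) .nil)) .nil)) .nil)) .nil)) (.cons 269 (.leaf 270 2155 (.cons 293 (.leaf 268 2147 (.cons 292 (.leaf 271 2145 (.cons 316 (.leaf 317 2338 (.leaf 315 2330 .nil)) .nil)) .nil)) .nil)) (.cons 321 (.leaf 322 2352 (.cons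 270 (.leaf 269 2155 (.cons 318 (.leaf 317 2346 (.cons 248 (.leaf 224 1796 (.cons 319 (.cons 343 (.leaf 271 1981 (.leaf 367 2173 .nil)) (.cons 246 (.leaf 222 1780 (.cons 221 (.leaf 245 1775 (.cons 247 (.leaf 223 1781 (.cons 342 (.leaf 271 1973 (.cons 345 (.leaf 369 2183 (.cons 365 (.leaf 341 2158 (.cons 366 (.leaf 390 2357 (.leaf 389 2350 .nil)) .nil)) .nil)) .nil)) .nil)) .nil)) .nil)) (.cons 343 (.leaf 367 2173 (.leaf 246 1972 .nil)) .nil))) .nil)) .nil)) .nil)) .nil)) .nil)))))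
noncomputable def t68 : T := .cons 273 (.leaf 274 2170 (.cons 294 (.leaf 293 2153 (.cons 297 (.cons 317 (.leaf 318 2346 (.cons 322 (.leaf 321 2352 (.cons 298 (.leaf 323 2360 (.cons 299 (.leaf 271 2171 (.leaf 300 2179 .nil)) .nil)) .nil)) .nil)) (.cons 270 (.leaf 269 2155 (.cons 318 (.leaf 317 2346 (.cons 319 (.leaf 298 2354 (.cons 343 (.leaf 367 2173 (.leaf 246 1972 .nil)) .nil)) .nil)) .nil)) (.cons 269 (.leaf 270 2155 (.cons 322 (.leaf 321 2352 (.cons 298 (.leaf 323 2360 (.cons 299 (.leaf 271 2171 (.leaf 300 2179 .nil)) .nil)) .nil)) .nil)) (.cons 270 (.leaf 269 2155 (.cons 318 (.leaf 317 2346 (.cons 321 (.leaf 322 2352 (.cons 345 (.leaf 248 1991 (.leaf 369 2183 .nil)) .nil)) .nil)) .nil)) .nil)))) .nil)) .nil)) (.cons 297 (.cons 294 (.cons 269 (.leaf 270 2155 (.cons 318 (.leaf 317 2346 (.cons 298 (.leaf 274 2169 (.leaf 319 2354 .nil)) .nil)) .nil)) (.cons 269 (.leaf 270 2155 (.cons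 293 (.leaf 268 2147 (.cons 317 (.leaf 316 2338 (.leaf 318 2346 .nil)) .nil)) .nil)) (.cons 298 (.leaf 274 2169 (.cons 318 (.leaf 317 2346 (.leaf 319 2354 .nil)) .nil)) (.cons 298 (.leaf 274 2169 (.cons 270 (.leaf 269 2155 (.leaf 271 2163 .nil)) .nil)) .nil)))) (.cons 294 t67 (.cons 298 (.leaf 274 2169 (.cons 318 (.leaf 319 2354 (.cons 294 (.leaf 317 2346 (.cons 322 (.leaf 321 2352 (.leaf 323 2360 .nil)) .nil)) .nil)) .nil)) (.cons 298 (.leaf 274 2169 (.cons 271 (.leaf 299 2171 (.leaf 270 2163 .nil)) .nil)) .nil)))) (.cons 294 t66 (.cons 273 (.leaf 274 2170 (.cons 294 (.leaf 293 2153 (.cons 248 t64 .nil)) .nil)) (.cons 274 (.leaf 273 2170 (.cons 298 (.leaf 297 2169 (.cons 250 t62 .nil)) .nil)) (.cons 273 (.leaf 274 2170 (.cons 294 (.leaf 293 2153 (.cons 297 (.cons 270 (.leaf 269 2155 (.cons 318 (.leaf 317 2346 (.cons 319 (.leaf 298 2354 (.cons 343 (.leaf 367 2173 (.leaf 246 1972 .nil))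 .nil)) .nil)) .nil)) (.cons 269 (.leaf 270 2155 (.cons 321 (.leaf 322 2352 (.cons 248 (.leaf 224 1796 (.leaf 345 1991 .nil)) .nil)) .nil)) (.cons 317 (.leaf 318 2346 (.cons 321 (.leaf 322 2352 (.cons 248 (.leaf 224 1796 (.leaf 345 1991 .nil)) .nil)) .nil)) .nil))) .nil)) .nil)) (.cons 273 (.leaf 274 2170 (.cons 294 (.leaf 293 2153 (.cons 297 (.cons 270 (.leaf 269 2155 (.cons 271 (.leaf 298 2160 (.cons 249 (.leaf 250 1969 (.cons 201 (.leaf 225 1606 (.cons 318 (.leaf 317 2346 (.cons 247 (.leaf 223 1782 (.leaf 342 1973 .nil)) .nil)) .nil)) .nil)) .nil)) .nil)) (.cons 317 (.leaf 318 2346 (.cons 322 (.leaf 321 2352 (.cons 298 (.leaf 323 2360 (.cons 299 (.leaf 271 2171 (.leaf 300 2179 .nil)) .nil)) .nil)) .nil)) (.cons 269 (.leaf 270 2155 (.cons 321 (.leaf 322 2352 (.cons 248 (.leaf 224 1796 (.leaf 345 1991 .nil)) .nil)) .nil)) .nil))) .nil)) .nil)) (.cons 273 (.leaf 274 2170 (.cons 294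 (.leaf 293 2153 (.cons 297 (.cons 270 (.leaf 269 2155 (.cons 318 (.leaf 317 2346 (.cons 319 (.leaf 298 2354 (.cons 343 (.leaf 367 2173 (.leaf 246 1972 .nil)) .nil)) .nil)) .nil)) (.cons 317 (.leaf 318 2346 (.cons 322 (.leaf 321 2352 (.cons 298 (.leaf 323 2360 (.cons 299 (.leaf 271 2171 (.leaf 300 2179 .nil)) .nil)) .nil)) .nil)) (.cons 269 (.leaf 270 2155 (.cons 322 (.leaf 321 2352 (.cons 298 (.leaf 323 2360 (.cons 299 (.leaf 271 2171 (.leaf 300 2179 .nil)) .nil)) .nil)) .nil)) (.cons 270 (.leaf 269 2155 (.cons 318 (.leaf 317 2346 (.cons 321 (.leaf 322 2352 (.cons 345 (.leaf 369 2183 (.cons 344 (.leaf 368 2182 (.cons 346 (.leaf 370 2188 (.cons 343 (.leaf 319 2547 (.cons 367 (.leaf 342 2164 (.leaf 366 2738 .nil)) .nil)) .nil)) .nil)) .nil)) .nil)) .nil)) .nil)) .nil)))) .nil)) .nil)) .nil)))))))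
noncomputable def t69 : T := .cons 318 (.leaf 317 2346 (.cons 298 (.leaf 319 2354 (.cons 299 (.leaf 271 2171 (.leaf 300 2179 .nil)) .nil)) .nil)) (.cons 321 (.leaf 322 2352 (.cons 345 (.leaf 369 2183 (.cons 344 (.leaf 368 2182 (.cons 320 (.leaf 249 1989 (.cons 247 (.leaf 271 1983 (.cons 343 (.leaf 367 2174 (.cons 342 (.leaf 341 2537 (.cons 346 (.leaf 370 2188 (.cons 347 (.leaf 348 2563 (.leaf 319 2555 .nil)) .nil)) .nil)) .nil)) .nil)) .nil)) .nil)) .nil)) .nil)) (.cons 321 (.leaf 322 2352 (.cons 345 (.leaf 369 2183 (.cons 344 (.leaf 368 2182 (.cons 320 (.leaf 249 1989 (.cons 271 (.leaf 247 1983 (.cons 298 (.leaf 299 2171 (.cons 318 (.leaf 317 2346 (.cons 342 (.leaf 366 2165 (.cons 343 (.leaf 367 2174 (.leaf 341 2537 .nil)) .nil)) .nil)) .nil)) .nil)) .nil)) .nil)) .nil)) .nil)) (.cons 321 (.leaf 322 2352 (.cons 345 (.leaf 369 2183 (.cons 344 (.leaf 368 2182 (.cons 320 (.leaf 249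 1989 (.cons 317 (.leaf 318 2346 (.cons 343 (.leaf 367 2174 (.cons 342 (.leaf 341 2537 (.cons 346 (.leaf 370 2188 (.cons 347 (.leaf 348 2563 (.leaf 319 2555 .nil)) .nil)) .nil)) .nil)) .nil)) .nil)) .nil)) .nil)) .nil)) .nil)))
noncomputable def t70 : T := .cons 343 (.leaf 367 2173 (.cons 342 (.leaf 366 2166 (.cons 247 (.leaf 318 1974 (.cons 320 (.leaf 344 1980 (.leaf 223 1788 .nil)) .nil)) .nil)) .nil)) (.cons 320 (.cons 344 (.leaf 247 1980 (.leaf 249 1989 .nil)) (.cons 247 (.leaf 223 1788 (.cons 318 (.leaf 342 1974 (.cons 317 (.leaf 316 2337 (.leaf 292 2339 .nil)) .nil)) .nil)) (.cons 344 (.leaf 249 1989 (.leaf 368 2175 .nil)) .nil))) (.cons 343 (.leaf 367 2173 (.cons 342 (.leaf 366 2166 (.cons 318 (.leaf 247 1974 (.cons 317 (.leaf 316 2337 (.cons 344 (.leaf 368 2172 (.leaf 345 2539 .nil)) .nil)) .nil)) .nil)) .nil)) (.cons 343 (.leaf 367 2173 (.cons 342 (.leaf 366 2166 (.cons 247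 (.leaf 318 1974 (.cons 223 (.leaf 199 1596 (.leaf 320 1788 .nil)) .nil)) .nil)) .nil)) (.cons 343 (.leaf 367 2173 (.cons 342 (.leaf 366 2166 (.cons 344 (.leaf 368 2172 (.cons 249 (.leaf 320 1989 (.cons 201 (.leaf 225 1606 (.cons 270 (.leaf 250 1969 (.cons 269 (.leaf 292 2146 (.leaf 268 2144 .nil)) .nil)) .nil)) .nil)) .nil)) .nil)) .nil)) (.cons 343 (.leaf 367 2173 (.cons 344 (.leaf 368 2172 (.cons 320 (.leaf 247 1980 (.leaf 249 1989 .nil)) .nil)) .nil)) .nil)))))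
noncomputable def t71 : T := .cons 293 (.leaf 294 2153 (.cons 319 (.cons 343 (.leaf 367 2173 (.cons 246 (.leaf 270 1975 (.cons 342 (.leaf 366 2166 (.cons 344 (.leaf 368 2172 (.cons 320 (.leaf 247 1980 (.leaf 249 1989 .nil)) .nil)) .nil)) .nil)) .nil)) (.cons 247 (.cons 320 (.leaf 344 1980 (.leaf 223 1788 .nil)) (.cons 199 (.leaf 223 1596 (.cons 246 (.leaf 222 1783 (.cons 245 (.leaf 244 1952 (.leaf 270 1963 .nil)) .nil)) .nil)) (.cons 320 (.leaf 344 1980 (.cons 222 (.leaf 246 1783 (.cons 318 (.leaf 342 1974 (.cons 317 (.leaf 316 2337 (.leaf 292 2339 .nil)) .nil)) .nil)) .nil)) .nil))) (.cons 343 (.leaf 367 2173 (.cons 246 (.leaf 270 1975 (.cons 247 (.leaf 222 1783 (.cons 342 (.leaf 318 1974 (.leaf 366 2166 .nil)) .nil)) .nil)) .nil)) (.cons 343 (.leaf 367 2173 (.cons 270 (.leaf 246 1975 (.cons 269 (.leaf 292 2146 (.leaf 268 2144 .nil)) .nil)) .nil)) (.cons 343 (.leaf 367 2173 (.cons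 342 (.leaf 366 2166 (.cons 247 (.leaf 318 1974 (.cons 320 (.leaf 344 1980 (.leaf 223 1788 .nil)) .nil)) .nil)) .nil)) .nil))))) .nil)) (.cons 320 (.cons 344 (.leaf 247 1983 (.leaf 249 1989 .nil)) (.cons 247 (.leaf 223 1788 (.cons 246 (.cons 245 (.leaf 244 1952 (.leaf 270 1963 .nil)) (.cons 222 (.leaf 319 1783 (.cons 198 (.leaf 270 1588 (.leaf 174 1396 .nil)) .nil)) (.cons 244 (.leaf 245 1952 (.cons 319 (.leaf 222 1783 (.cons 342 (.leaf 318 1974 (.cons 343 (.leaf 367 2173 (.leaf 366 2166 .nil)) .nil)) .nil)) .nil)) .nil))) .nil)) (.cons 344 (.leaf 249 1989 (.leaf 368 2175 .nil)) .nil))) (.cons 270 (.cons 293 (.leaf 294 2153 (.cons 246 (.leaf 245 1963 (.cons 222 (.leaf 198 1588 (.cons 319 (.leaf 247 1783 (.leaf 343 1975 .nil)) .nil)) .nil)) .nil)) (.cons 245 (.leaf 246 1963 (.cons 269 (.leaf 244 1955 (.leaf 268 2144 .nil)) .nil)) (.cons 293 (.leaf 294 2153 (.cons 269 (.leaf 292 2146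 (.leaf 268 2144 .nil)) .nil)) .nil))) (.cons 293 (.leaf 294 2153 (.cons 247 (.cons 223 (.leaf 199 1596 (.leaf 320 1788 .nil)) (.cons 223 (.leaf 199 1596 (.cons 200 (.leaf 224 1597 (.cons 222 (.leaf 198 1591 (.cons 319 (.leaf 246 1783 (.cons 342 (.leaf 318 1974 (.cons 343 (.leaf 367 2173 (.leaf 366 2166 .nil)) .nil)) .nil)) .nil)) .nil)) .nil)) (.cons 319 (.cons 320 (.leaf 344 1980 (.cons 222 (.leaf 246 1783 (.cons 318 (.leaf 342 1974 (.cons 317 (.leaf 316 2337 (.leaf 292 2339 .nil)) .nil)) .nil)) .nil)) (.cons 343 (.leaf 367 2173 (.cons 342 (.leaf 318 1974 (.leaf 366 2166 .nil)) .nil)) (.cons 344 (.leaf 320 1980 (.cons 343 (.leaf 367 2173 (.leaf 368 2172 .nil)) .nil)) .nil))) .nil))) .nil)) (.cons 270 (.cons 293 (.leaf 294 2153 (.cons 269 (.leaf 292 2146 (.leaf 268 2144 .nil)) .nil)) (.cons 245 (.leaf 246 1963 (.cons 269 (.leaf 244 1955 (.leaf 268 2144 .nil)) .nil)) (.cons 294 (.leaf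 293 2153 (.cons 246 (.leaf 245 1963 (.cons 222 (.leaf 198 1588 (.leaf 319 1780 .nil)) .nil)) .nil)) .nil))) (.cons 270 (.cons 293 (.leaf 294 2153 (.cons 269 (.leaf 292 2146 (.leaf 268 2144 .nil)) .nil)) (.cons 269 (.leaf 268 2144 (.cons 245 (.leaf 244 1955 (.leaf 246 1963 .nil)) .nil)) (.cons 294 (.leaf 293 2153 (.cons 246 (.leaf 245 1963 (.cons 222 (.leaf 198 1588 (.cons 197 (.leaf 221 1583 (.cons 223 (.leaf 199 1589 (.cons 247 (.leaf 320 1788 (.leaf 318 1781 .nil)) .nil)) .nil)) .nil)) .nil)) .nil)) .nil))) (.cons 293 (.leaf 294 2153 (.cons 319 t70 .nil)) .nil))))))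
noncomputable def t72 : T := .leaf 367 2174 (.cons 271 (.leaf 247 1983 (.cons 345 (.leaf 369 2180 (.cons 346 (.cons 323 (.leaf 322 2553 (.cons 269 (.leaf 270 2152 (.cons 347 (.leaf 324 2561 (.cons 299 (.leaf 250 2007 (.leaf 370 2198 .nil)) .nil)) .nil)) .nil)) (.cons 371 (.leaf 370 2744 (.cons 347 (.leaf 372 2752 (.cons 321 (.leaf 348 2563 (.cons 342 (.leaf 341 2537 (.leaf 322 2545 .nil)) .nil)) .nil)) .nil)) (.cons 371 (.leaf 370 2744 (.cons 347 (.leaf 372 2752 (.cons 269 (.leaf 270 2152 (.cons 324 (.leaf 323 2561 (.cons 348 (.leaf 321 2563 (.leaf 325 2569 .nil)) .nil)) .nil)) .nil)) .nil)) (.cons 323 (.leaf 322 2553 (.cons 347 (.leaf 324 2561 (.cons 250 (.leaf 299 2007 (.cons 269 (.leaf 270 2152 (.cons 348 (.leaf 321 2563 (.cons 372 (.leaf 371 2752 (.leaf 373 2760 .nil)) .nil)) .nil)) .nil)) .nil)) .nil)) (.cons 322 (.leaf 323 2553 (.cons 342 (.leaf 321 2545 (.cons 269 (.leaf 270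 2152 (.cons 317 (.leaf 318 2539 (.cons 341 (.leaf 316 2531 (.cons 365 (.leaf 364 2722 (.leaf 366 2730 .nil)) .nil)) .nil)) .nil)) .nil)) .nil)) .nil))))) .nil)) .nil)) .nil)
noncomputable def t73 : T := .cons 344 (.leaf 367 2174 (.cons 271 (.leaf 247 1983 (.cons 345 (.leaf 369 2180 (.cons 346 (.cons 371 (.leaf 370 2744 (.cons 347 (.leaf 319 2555 (.leaf 372 2752 .nil)) .nil)) (.cons 371 (.leaf 370 2744 (.cons 347 (.leaf 372 2752 (.cons 321 (.leaf 348 2563 (.cons 342 (.leaf 341 2537 (.leaf 322 2545 .nil)) .nil)) .nil)) .nil)) (.cons 319 (.leaf 318 2547 (.cons 270 (.leaf 269 2152 (.leaf 246 1975 .nil)) .nil)) .nil))) .nil)) .nil)) .nil)) (.cons 271 (.cons 247 (.leaf 344 1983 (.leaf 223 1788 .nil)) (.cons 270 (.leaf 269 2152 (.cons 319 (.leaf 246 1975 (.cons 317 (.leaf 318 2345 (.cons 342 (.leaf 366 2166 (.cons 321 (.leaf 322 2546 (.cons 341 (.leaf 340 2529 (.leaf 344 2537 .nil)) .nil))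 .nil)) .nil)) .nil)) .nil)) (.cons 223 (.leaf 247 1788 (.cons 270 (.leaf 269 2152 (.cons 319 (.leaf 246 1975 (.cons 318 (.leaf 317 2345 (.cons 342 (.leaf 366 2166 (.cons 321 (.leaf 341 2538 (.leaf 322 2546 .nil)) .nil)) .nil)) .nil)) .nil)) .nil)) .nil))) (.cons 344 t72 (.cons 319 (.leaf 367 2173 (.cons 318 (.leaf 317 2345 (.cons 342 (.cons 271 (.leaf 247 1974 (.leaf 366 2166 .nil)) (.cons 321 (.leaf 341 2538 (.leaf 322 2546 .nil)) .nil)) .nil)) .nil)) (.cons 367 (.leaf 319 2173 (.leaf 344 2174 .nil)) .nil))))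
noncomputable def t74 : T := .cons 346 (.cons 299 (.leaf 370 2197 (.cons 345 (.leaf 369 2190 (.cons 347 (.leaf 371 2196 (.cons 250 (.leaf 323 2004 (.leaf 321 1998 .nil)) .nil)) .nil)) .nil)) (.cons 299 (.leaf 370 2197 (.cons 321 (.leaf 323 2363 (.leaf 319 2361 .nil)) .nil)) (.cons 370 (.leaf 299 2197 (.cons 369 (.leaf 345 2190 (.leaf 393 2382 .nil)) .nil)) (.cons 345 (.leaf 369 2190 (.cons 347 (.leaf 371 2196 (.cons 250 (.leaf 321 1998 (.leaf 323 2004 .nil)) .nil)) .nil)) .nil)))) (.cons 346 (.cons 370 (.leaf 299 2197 (.cons 369 (.leaf 345 2190 (.leaf 393 2382 .nil)) .nil)) (.cons 347 (.leaf 371 2196 (.cons 250 (.leaf 323 2004 (.cons 225 (.leaf 249 1807 (.cons 226 (.leaf 201 1615 (.cons 202 (.leaf 299 1620 (.cons 203 (.leaf 179 1429 (.leaf 227 1621 .nil)) .nil)) .nil)) .nil)) .nil)) .nil)) (.cons 369 (.leaf 345 2190 (.cons 370 (.leaf 393 2382 (.cons 371 (.leaf 347 2196 (.leaf 395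 2388 .nil)) .nil)) .nil)) .nil))) (.cons 344 (.cons 345 (.leaf 369 2180 (.cons 250 (.leaf 321 1998 (.cons 225 (.leaf 249 1807 (.cons 226 (.leaf 201 1615 (.cons 202 (.leaf 299 1620 (.cons 203 (.leaf 179 1429 (.leaf 227 1621 .nil)) .nil)) .nil)) .nil)) .nil)) .nil)) (.cons 271 (.leaf 247 1983 (.leaf 368 2175 .nil)) .nil)) (.cons 321 (.leaf 323 2363 (.cons 299 (.leaf 319 2361 (.cons 300 (.leaf 301 2378 (.cons 346 (.leaf 370 2197 (.cons 345 (.leaf 369 2190 (.cons 347 (.leaf 371 2196 (.leaf 348 2563 .nil)) .nil)) .nil)) .nil)) .nil)) .nil)) (.cons 321 (.leaf 323 2363 (.cons 345 (.leaf 250 1998 (.cons 369 (.leaf 344 2180 (.leaf 393 2381 .nil)) .nil)) .nil)) (.cons 323 (.leaf 321 2363 (.cons 250 (.leaf 347 2004 (.cons 225 (.leaf 249 1807 (.cons 226 (.leaf 201 1615 (.leaf 299 1812 .nil)) .nil)) .nil)) .nil)) .nil)))))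
noncomputable def t75 : T := .cons 271 (.leaf 247 1983 (.leaf 368 2175 .nil)) (.cons 369 (.leaf 345 2180 (.cons 367 (.leaf 343 2174 (.cons 368 (.leaf 391 2366 (.leaf 393 2372 .nil)) .nil)) .nil)) (.cons 271 (.leaf 247 1983 (.cons 345 (.leaf 369 2180 (.cons 343 (.leaf 367 2174 (.cons 346 (.cons 269 (.leaf 270 2152 (.cons 322 (.leaf 323 2553 (.cons 321 (.leaf 342 2545 (.cons 370 (.leaf 394 2383 (.leaf 371 2744 .nil)) .nil)) .nil)) .nil)) (.cons 371 (.leaf 370 2744 (.cons 347 (.leaf 372 2752 (.cons 321 (.leaf 348 2563 (.cons 342 (.leaf 341 2537 (.leaf 322 2545 .nil)) .nil)) .nil)) .nil)) (.cons 371 (.leaf 370 2744 (.cons 347 (.leaf 372 2752 (.cons 269 (.leaf 270 2152 (.cons 324 (.leaf 323 2561 (.cons 348 (.leaf 321 2563 (.leaf 325 2569 .nil)) .nil)) .nil)) .nil)) .nil)) (.cons 323 (.leaf 322 2553 (.cons 269 (.leaf 270 2152 (.cons 347 (.leaf 324 2561 (.cons 299 (.leaf 250 2007 (.leaf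 370 2198 .nil)) .nil)) .nil)) .nil)) (.cons 323 (.leaf 322 2553 (.cons 347 (.leaf 324 2561 (.cons 250 (.leaf 299 2007 (.cons 269 (.leaf 270 2152 (.cons 348 (.leaf 321 2563 (.cons 372 (.leaf 371 2752 (.leaf 373 2760 .nil)) .nil)) .nil)) .nil)) .nil)) .nil)) .nil))))) .nil)) .nil)) .nil)) .nil))
noncomputable def t76 : T := .cons 321 (.leaf 323 2363 (.cons 319 (.leaf 299 2361 (.cons 343 (.leaf 367 2173 (.leaf 342 2546 .nil)) .nil)) .nil)) (.cons 346 (.cons 299 (.leaf 370 2197 (.cons 345 (.leaf 369 2190 (.cons 347 (.leaf 371 2196 (.cons 250 (.leaf 323 2004 (.cons 225 (.leaf 249 1807 (.cons 226 (.leaf 202 1620 (.leaf 201 1615 .nil)) .nil)) .nil)) .nil)) .nil)) .nil)) (.cons 347 (.leaf 371 2196 (.cons 250 (.leaf 323 2004 (.cons 225 (.leaf 249 1807 (.cons 226 (.leaf 201 1615 (.cons 202 (.leaf 299 1620 (.cons 203 (.leaf 179 1429 (.leaf 227 1621 .nil)) .nil)) .nil)) .nil)) .nil)) .nil)) (.cons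 370 (.leaf 299 2197 (.cons 369 (.leaf 345 2190 (.leaf 393 2382 .nil)) .nil)) (.cons 371 (.leaf 347 2196 (.cons 369 (.leaf 345 2190 (.cons 370 (.leaf 393 2382 (.leaf 395 2388 .nil)) .nil)) .nil)) .nil)))) (.cons 346 (.cons 299 (.leaf 370 2197 (.cons 321 (.leaf 319 2361 (.cons 250 (.leaf 345 1998 (.cons 225 (.leaf 249 1807 (.cons 226 (.leaf 202 1620 (.leaf 201 1615 .nil)) .nil)) .nil)) .nil)) .nil)) (.cons 345 (.leaf 369 2190 (.cons 250 (.leaf 321 1998 (.cons 225 (.leaf 249 1807 (.cons 226 (.leaf 201 1615 (.cons 202 (.leaf 299 1620 (.cons 203 (.leaf 179 1429 (.leaf 227 1621 .nil)) .nil)) .nil)) .nil)) .nil)) .nil)) (.cons 347 (.leaf 371 2196 (.cons 319 (.leaf 321 2552 (.cons 367 (.leaf 343 2173 (.cons 370 (.leaf 299 2197 (.cons 369 (.leaf 393 2382 (.leaf 368 2745 .nil)) .nil)) .nil)) .nil)) .nil)) (.cons 345 (.leaf 369 2190 (.cons 321 (.leaf 250 1998 (.cons 347 (.leaf 371 2196 (.leaf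 319 2552 .nil)) .nil)) .nil)) (.cons 370 (.leaf 299 2197 (.cons 369 (.leaf 345 2190 (.leaf 393 2382 .nil)) .nil)) .nil))))) (.cons 321 (.leaf 323 2363 (.cons 345 (.leaf 250 1998 (.cons 369 (.leaf 393 2381 (.leaf 346 2190 .nil)) .nil)) .nil)) .nil)))
noncomputable def t77 : T := .cons 297 (.leaf 298 2169 (.cons 344 (.cons 271 (.leaf 247 1983 (.leaf 368 2175 .nil)) (.cons 369 (.leaf 345 2180 (.cons 368 (.leaf 393 2372 (.cons 392 (.leaf 319 2367 (.leaf 321 2373 .nil)) .nil)) .nil)) (.cons 271 (.leaf 247 1983 (.cons 270 (.leaf 269 2152 (.cons 343 (.leaf 367 2174 (.cons 319 (.leaf 246 1975 (.cons 317 (.leaf 318 2345 (.cons 342 (.leaf 366 2166 (.cons 341 (.leaf 340 2529 (.leaf 321 2537 .nil)) .nil)) .nil)) .nil)) .nil)) .nil)) .nil)) .nil))) .nil)) (.cons 344 (.cons 367 (.leaf 343 2174 (.cons 345 (.leaf 369 2180 (.cons 368 (.leaf 271 2175 (.leaf 391 2366 .nil)) .nil)) .nil)) (.cons 367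 (.leaf 343 2174 (.cons 345 (.leaf 369 2180 (.cons 368 (.leaf 391 2366 (.cons 319 (.leaf 392 2367 (.cons 346 (.leaf 347 2746 (.cons 318 (.leaf 317 2536 (.leaf 321 2544 .nil)) .nil)) .nil)) .nil)) .nil)) .nil)) (.cons 271 (.leaf 247 1983 (.cons 343 (.leaf 367 2174 (.cons 345 (.leaf 369 2180 (.cons 319 (.cons 318 (.leaf 317 2536 (.leaf 346 2547 .nil)) (.cons 246 (.leaf 270 1975 (.cons 342 (.leaf 366 2166 (.cons 321 (.leaf 322 2545 (.leaf 341 2537 .nil)) .nil)) .nil)) .nil)) .nil)) .nil)) .nil)) (.cons 271 (.leaf 247 1983 (.leaf 368 2175 .nil)) .nil)))) (.cons 298 (.leaf 297 2169 (.cons 322 t76 .nil)) (.cons 297 (.leaf 298 2169 (.cons 344 t75 .nil)) (.cons 298 (.leaf 297 2169 (.cons 322 t74 .nil)) (.cons 297 (.leaf 298 2169 (.cons 344 (.cons 271 (.leaf 247 1983 (.leaf 368 2175 .nil)) (.cons 367 (.leaf 343 2174 (.cons 368 (.leaf 391 2366 (.cons 369 (.leaf 345 2180 (.leaf 393 2372 .nil))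 .nil)) .nil)) (.cons 271 (.leaf 247 1983 (.cons 270 (.leaf 269 2152 (.cons 343 (.leaf 367 2174 (.cons 319 (.leaf 246 1975 (.cons 317 (.leaf 318 2345 (.cons 342 (.leaf 366 2166 (.cons 341 (.leaf 340 2529 (.leaf 316 2531 .nil)) .nil)) .nil)) .nil)) .nil)) .nil)) .nil)) .nil))) .nil)) (.cons 297 (.leaf 298 2169 (.cons 343 t73 .nil)) (.cons 297 (.leaf 298 2169 (.cons 344 (.cons 271 (.leaf 247 1983 (.leaf 368 2175 .nil)) (.cons 367 (.leaf 343 2174 (.cons 368 (.leaf 391 2366 (.cons 392 (.leaf 319 2367 (.leaf 321 2373 .nil)) .nil)) .nil)) (.cons 271 (.leaf 247 1983 (.cons 270 (.leaf 269 2152 (.cons 343 (.leaf 367 2174 (.cons 319 (.leaf 246 1975 (.cons 317 (.leaf 318 2345 (.cons 342 (.leaf 366 2166 (.cons 341 (.leaf 340 2529 (.leaf 321 2537 .nil)) .nil)) .nil)) .nil)) .nil)) .nil)) .nil)) .nil))) .nil)) .nil)))))))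
noncomputable def t78 : T := .cons 270 (.leaf 269 2155 (.cons 318 (.leaf 317 2346 (.cons 321 (.leaf 322 2352 (.cons 345 (.leaf 369 2183 (.cons 319 (.leaf 298 2354 (.cons 343 (.leaf 367 2173 (.leaf 246 1972 .nil)) .nil)) .nil)) .nil)) .nil)) .nil)) (.cons 318 (.leaf 317 2346 (.cons 298 (.leaf 319 2354 (.cons 322 (.leaf 321 2352 (.leaf 323 2360 .nil)) .nil)) .nil)) (.cons 270 (.leaf 269 2155 (.cons 298 (.leaf 271 2163 (.cons 322 (.leaf 321 2352 (.leaf 323 2360 .nil)) .nil)) .nil)) (.cons 270 (.leaf 269 2155 (.cons 271 (.leaf 298 2163 (.cons 318 (.leaf 317 2346 (.cons 247 (.leaf 223 1782 (.leaf 342 1973 .nil)) .nil)) .nil)) .nil)) (.cons 270 (.leaf 269 2155 (.cons 318 (.leaf 317 2346 (.cons 321 (.leaf 322 2352 (.cons 345 (.leaf 369 2183 (.cons 319 (.cons 343 (.leaf 367 2173 (.leaf 246 1972 .nil)) (.cons 222 (.leaf 246 1780 (.cons 320 (.leaf 346 2544 (.cons 342 (.leaf 341 2538 (.cons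 271 (.leaf 247 1973 (.leaf 366 2165 .nil)) .nil)) .nil)) .nil)) (.cons 343 (.leaf 367 2173 (.cons 346 (.leaf 320 2544 (.leaf 344 2547 .nil)) .nil)) .nil))) .nil)) .nil)) .nil)) .nil)) .nil))))
noncomputable def t79 : T := .cons 294 (.cons 293 (.leaf 273 2153 (.cons 271 (.leaf 292 2145 (.cons 316 (.leaf 317 2338 (.cons 320 (.leaf 321 2344 (.cons 247 (.leaf 344 1983 (.leaf 223 1788 .nil)) .nil)) .nil)) .nil)) .nil)) (.cons 297 t78 (.cons 293 (.leaf 273 2153 (.cons 268 (.leaf 269 2147 (.cons 292 (.leaf 267 2139 (.cons 316 (.leaf 317 2338 (.leaf 315 2330 .nil)) .nil)) .nil)) .nil)) (.cons 293 (.leaf 273 2153 (.cons 292 (.leaf 271 2145 (.cons 268 (.leaf 269 2147 (.leaf 267 2139 .nil)) .nil)) .nil)) .nil)))) (.cons 274 (.leaf 273 2170 (.cons 320 t77 .nil)) (.cons 273 (.leaf 274 2170 (.cons 271 t71 .nil)) (.cons 273 (.leaf 274 2170 (.cons 294 (.leaf 293 2153 (.cons 297 (.cons 269 (.leaf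 270 2155 (.cons 321 (.leaf 322 2352 (.cons 345 (.leaf 369 2183 (.cons 344 (.leaf 368 2182 (.cons 249 (.leaf 320 1989 (.cons 225 (.leaf 201 1606 (.cons 226 (.leaf 202 1613 (.leaf 250 1805 .nil)) .nil)) .nil)) .nil)) .nil)) .nil)) .nil)) (.cons 270 (.leaf 269 2155 (.cons 318 (.leaf 317 2346 (.cons 319 (.leaf 298 2354 (.cons 343 (.leaf 367 2173 (.leaf 246 1972 .nil)) .nil)) .nil)) .nil)) (.cons 317 (.leaf 318 2346 (.cons 321 (.leaf 322 2352 (.cons 345 (.leaf 369 2183 (.cons 344 (.leaf 368 2182 (.cons 249 (.leaf 320 1989 (.cons 225 (.leaf 201 1606 (.cons 226 (.leaf 202 1613 (.leaf 250 1805 .nil)) .nil)) .nil)) .nil)) .nil)) .nil)) .nil)) .nil))) .nil)) .nil)) (.cons 273 (.leaf 274 2170 (.cons 294 (.leaf 293 2153 (.cons 297 (.cons 269 (.leaf 270 2155 (.cons 322 (.leaf 321 2352 (.cons 298 (.leaf 323 2360 (.cons 299 (.leaf 271 2171 (.leaf 300 2179 .nil)) .nil)) .nil)) .nil)) (.cons 317 (.leaf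 318 2346 (.cons 322 (.leaf 321 2352 (.cons 298 (.leaf 323 2360 (.cons 299 (.leaf 271 2171 (.leaf 300 2179 .nil)) .nil)) .nil)) .nil)) (.cons 270 (.leaf 269 2155 (.cons 318 (.leaf 317 2346 (.cons 321 (.leaf 322 2352 (.cons 345 (.leaf 369 2183 (.cons 344 (.leaf 368 2182 (.cons 346 (.leaf 370 2188 (.cons 343 (.leaf 319 2547 (.cons 367 (.leaf 342 2164 (.leaf 366 2738 .nil)) .nil)) .nil)) .nil)) .nil)) .nil)) .nil)) .nil)) (.cons 270 (.leaf 269 2155 (.cons 318 (.leaf 317 2346 (.cons 319 (.leaf 298 2354 (.cons 343 (.leaf 367 2173 (.leaf 246 1972 .nil)) .nil)) .nil)) .nil)) .nil)))) .nil)) .nil)) (.cons 273 (.leaf 274 2170 (.cons 294 (.leaf 293 2153 (.cons 297 (.cons 317 (.leaf 318 2346 (.cons 321 (.leaf 322 2352 (.cons 345 (.leaf 369 2183 (.cons 344 (.leaf 368 2182 (.cons 249 (.leaf 320 1989 (.cons 225 (.leaf 201 1606 (.cons 226 (.leaf 202 1613 (.leaf 250 1805 .nil)) .nil)) .nil)) .nil))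 .nil)) .nil)) .nil)) (.cons 270 (.leaf 269 2155 (.cons 271 (.leaf 298 2160 (.cons 249 (.leaf 250 1969 (.cons 225 (.leaf 201 1606 (.leaf 320 1798 .nil)) .nil)) .nil)) .nil)) (.cons 270 (.leaf 269 2155 (.cons 271 (.leaf 298 2160 (.cons 249 (.leaf 250 1969 (.cons 201 (.leaf 225 1606 (.cons 318 (.leaf 317 2346 (.cons 247 (.leaf 223 1782 (.leaf 342 1973 .nil)) .nil)) .nil)) .nil)) .nil)) .nil)) (.cons 270 (.leaf 269 2155 (.cons 271 (.leaf 298 2160 (.cons 245 (.leaf 246 1963 (.cons 318 (.leaf 317 2346 (.cons 247 (.leaf 223 1782 (.leaf 342 1973 .nil)) .nil)) .nil)) .nil)) .nil)) .nil)))) .nil)) .nil)) (.cons 273 (.leaf 274 2170 (.cons 294 (.leaf 293 2153 (.cons 297 t69 .nil)) .nil)) (.cons 273 (.leaf 274 2170 (.cons 294 (.leaf 293 2153 (.cons 297 (.cons 269 (.leaf 270 2155 (.cons 321 (.leaf 322 2352 (.cons 345 (.leaf 369 2183 (.cons 344 (.leaf 368 2182 (.cons 249 (.leaf 320 1989 (.cons 225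 (.leaf 201 1606 (.cons 226 (.leaf 202 1613 (.leaf 250 1805 .nil)) .nil)) .nil)) .nil)) .nil)) .nil)) .nil)) (.cons 321 (.leaf 322 2352 (.cons 345 (.leaf 369 2183 (.cons 344 (.leaf 368 2182 (.cons 320 (.leaf 249 1989 (.cons 247 (.leaf 271 1983 (.cons 343 (.leaf 367 2174 (.cons 342 (.leaf 341 2537 (.cons 346 (.leaf 370 2188 (.cons 347 (.leaf 348 2563 (.leaf 319 2555 .nil)) .nil)) .nil)) .nil)) .nil)) .nil)) .nil)) .nil)) .nil)) (.cons 270 (.leaf 269 2155 (.cons 271 (.leaf 298 2160 (.cons 249 (.leaf 250 1969 (.cons 225 (.leaf 201 1606 (.leaf 320 1798 .nil)) .nil)) .nil)) .nil)) (.cons 269 (.leaf 270 2155 (.cons 322 (.leaf 321 2352 (.cons 298 (.leaf 323 2360 (.cons 299 (.leaf 271 2171 (.leaf 300 2179 .nil)) .nil)) .nil)) .nil)) .nil)))) .nil)) .nil)) .nil)))))))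
noncomputable def t80 : T := .cons 298 (.leaf 274 2169 (.cons 271 (.leaf 299 2171 (.leaf 270 2163 .nil)) .nil)) (.cons 294 (.cons 321 (.leaf 322 2352 (.cons 269 (.leaf 270 2155 (.cons 293 (.leaf 268 2147 (.leaf 320 2344 .nil)) .nil)) .nil)) (.cons 321 (.leaf 322 2352 (.cons 293 (.leaf 320 2344 (.cons 317 (.leaf 316 2338 (.leaf 318 2346 .nil)) .nil)) .nil)) (.cons 269 (.leaf 270 2155 (.cons 293 (.leaf 268 2147 (.cons 317 (.leaf 316 2338 (.leaf 318 2346 .nil)) .nil)) .nil)) (.cons 270 (.leaf 269 2155 (.cons 318 (.leaf 317 2346 (.cons 321 (.leaf 322 2352 (.cons 345 (.leaf 369 2183 (.cons 319 (.cons 343 (.leaf 367 2173 (.leaf 246 1972 .nil)) (.cons 222 (.leaf 246 1780 (.cons 320 (.leaf 346 2544 (.cons 342 (.leaf 341 2538 (.cons 271 (.leaf 247 1973 (.leaf 366 2165 .nil)) .nil)) .nil)) .nil)) (.cons 343 (.leaf 367 2173 (.cons 346 (.leaf 320 2544 (.leaf 344 2547 .nil)) .nil)) .nil))) .nil))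 .nil)) .nil)) .nil)) .nil)))) (.cons 298 (.leaf 274 2169 (.cons 318 (.leaf 319 2354 (.cons 294 (.leaf 317 2346 (.cons 322 (.leaf 321 2352 (.leaf 323 2360 .nil)) .nil)) .nil)) .nil)) .nil))
noncomputable def t81 : T := .cons 225 (.leaf 249 1797 (.cons 247 (.leaf 223 1791 (.cons 321 (.leaf 345 1988 (.cons 344 (.leaf 271 1983 (.cons 367 (.leaf 343 2174 (.cons 368 (.leaf 391 2366 (.cons 392 (.leaf 297 2373 (.cons 393 (.leaf 369 2372 (.leaf 417 2564 .nil)) .nil)) .nil)) .nil)) .nil)) .nil)) .nil)) .nil)) (.cons 343 (.leaf 319 1982 (.cons 225 (.leaf 249 1797 (.cons 344 (.leaf 367 2174 (.cons 345 (.leaf 321 1988 (.leaf 369 2180 .nil)) .nil)) .nil)) .nil)) (.cons 247 (.leaf 223 1791 (.cons 249 (.leaf 225 1797 (.cons 250 (.leaf 274 1976 (.cons 226 (.leaf 227 1785 (.cons 270 (.leaf 271 1970 (.cons 246 (.leaf 269 1962 (.cons 221 (.leaf 222 1771 (.cons 245 (.leaf 220 1763 (.cons 173 (.leaf 197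 1388 (.cons 294 (.leaf 318 1775 (.cons 321 (.leaf 345 1988 (.cons 295 (.leaf 293 2344 (.cons 322 (.leaf 297 2352 (.leaf 323 2363 .nil)) .nil)) .nil)) .nil)) .nil)) .nil)) .nil)) .nil)) .nil)) .nil)) .nil)) .nil)) .nil)) (.cons 225 (.leaf 249 1797 (.cons 247 (.leaf 223 1791 (.cons 343 (.leaf 319 1982 (.cons 344 (.leaf 271 1983 (.leaf 367 2174 .nil)) .nil)) .nil)) .nil)) (.cons 247 (.leaf 223 1791 (.cons 319 (.leaf 343 1982 (.cons 344 (.leaf 271 1983 (.cons 345 (.leaf 321 1988 (.leaf 369 2180 .nil)) .nil)) .nil)) .nil)) .nil))))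
noncomputable def t82 : T := .cons 224 (.cons 199 (.leaf 223 1599 (.cons 201 (.leaf 225 1605 (.cons 295 (.leaf 319 1790 (.cons 297 (.leaf 321 1796 (.cons 298 (.leaf 274 2169 (.cons 271 (.leaf 200 1598 (.leaf 299 2171 .nil)) .nil)) .nil)) .nil)) .nil)) .nil)) (.cons 199 (.leaf 223 1599 (.cons 200 (.leaf 175 1407 (.cons 201 (.leaf 177 1413 (.leaf 225 1605 .nil)) .nil)) .nil)) (.cons 295 (.leaf 319 1790 (.cons 271 (.leaf 200 1598 (.cons 297 (.leaf 321 1796 (.cons 298 (.leaf 274 2169 (.leaf 299 2171 .nil)) .nil)) .nil)) .nil)) (.cons 199 (.leaf 223 1599 (.cons 201 (.leaf 225 1605 (.cons 295 (.leaf 319 1790 (.cons 297 (.leaf 321 1796 (.cons 298 (.leaf 274 2169 (.cons 271 (.leaf 299 2171 (.leaf 270 2163 .nil)) .nil)) .nil)) .nil)) .nil)) .nil)) .nil)))) (.cons 320 t81 (.cons 224 (.cons 199 (.leaf 223 1599 (.cons 200 (.leaf 175 1407 (.cons 177 (.leaf 201 1413 (.cons 176 (.leaf 153 1221 (.cons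 271 (.leaf 295 1598 (.leaf 247 1406 .nil)) .nil)) .nil)) .nil)) .nil)) (.cons 225 (.leaf 201 1605 (.cons 320 (.leaf 249 1797 (.cons 321 (.leaf 297 1796 (.leaf 345 1988 .nil)) .nil)) .nil)) (.cons 199 (.leaf 223 1599 (.cons 200 (.leaf 175 1407 (.cons 271 (.leaf 295 1598 (.cons 247 (.leaf 176 1406 (.cons 297 (.leaf 321 1796 (.cons 270 (.leaf 269 2152 (.cons 249 (.leaf 250 1970 (.cons 320 (.leaf 225 1797 (.leaf 344 1983 .nil)) .nil)) .nil)) .nil)) .nil)) .nil)) .nil)) .nil)) .nil))) (.cons 320 (.cons 225 (.leaf 249 1797 (.cons 201 (.leaf 224 1605 (.cons 343 (.leaf 319 1982 (.cons 344 (.leaf 367 2174 (.cons 345 (.leaf 321 1988 (.leaf 369 2180 .nil)) .nil)) .nil)) .nil)) .nil)) (.cons 225 (.leaf 249 1797 (.cons 224 (.leaf 201 1605 (.cons 321 (.leaf 297 1796 (.leaf 345 1988 .nil)) .nil)) .nil)) (.cons 225 (.leaf 249 1797 (.cons 201 (.leaf 224 1605 (.cons 343 (.leaf 319 1982 (.cons 344 (.leaf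 367 2174 (.cons 271 (.leaf 247 1983 (.cons 368 (.leaf 295 2175 (.cons 369 (.leaf 345 2180 (.leaf 393 2372 .nil)) .nil)) .nil)) .nil)) .nil)) .nil)) .nil)) (.cons 225 (.leaf 249 1797 (.cons 224 (.leaf 201 1605 (.cons 319 (.leaf 295 1790 (.leaf 343 1982 .nil)) .nil)) .nil)) (.cons 319 (.leaf 343 1982 (.cons 321 (.leaf 345 1988 (.cons 297 (.leaf 224 1796 (.cons 298 (.leaf 299 2362 (.leaf 318 2353 .nil)) .nil)) .nil)) .nil)) (.cons 343 (.leaf 319 1982 (.cons 225 (.leaf 249 1797 (.cons 344 (.leaf 367 2174 (.cons 345 (.leaf 321 1988 (.leaf 369 2180 .nil)) .nil)) .nil)) .nil)) .nil)))))) (.cons 320 (.cons 343 (.leaf 319 1982 (.cons 223 (.leaf 247 1791 (.cons 344 (.leaf 367 2174 (.cons 345 (.leaf 321 1988 (.leaf 369 2180 .nil)) .nil)) .nil)) .nil)) (.cons 343 (.leaf 319 1982 (.cons 225 (.leaf 249 1797 (.cons 344 (.leaf 367 2174 (.cons 345 (.leaf 321 1988 (.leaf 369 2180 .nil)) .nil)) .nil))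 .nil)) (.cons 223 (.leaf 247 1791 (.cons 224 (.leaf 199 1599 (.cons 225 (.leaf 201 1605 (.leaf 249 1797 .nil)) .nil)) .nil)) .nil))) (.cons 224 (.cons 199 (.leaf 223 1599 (.cons 200 (.leaf 175 1407 (.cons 201 (.leaf 177 1413 (.leaf 225 1605 .nil)) .nil)) .nil)) (.cons 295 (.leaf 319 1790 (.cons 200 (.leaf 271 1598 (.cons 175 (.leaf 199 1407 (.cons 176 (.leaf 151 1215 (.cons 177 (.leaf 201 1413 (.leaf 153 1221 .nil)) .nil)) .nil)) .nil)) .nil)) (.cons 295 (.leaf 319 1790 (.cons 200 (.leaf 271 1598 (.cons 201 (.leaf 177 1413 (.leaf 225 1605 .nil)) .nil)) .nil)) (.cons 223 (.leaf 199 1599 (.cons 247 (.leaf 320 1791 (.cons 295 (.leaf 319 1790 (.cons 271 (.leaf 200 1597 (.cons 198 (.leaf 222 1591 (.cons 294 (.leaf 318 1782 (.cons 293 (.leaf 292 2145 (.cons 269 (.leaf 268 2147 (.cons 270 (.leaf 249 1961 (.leaf 297 2152 .nil)) .nil)) .nil)) .nil)) .nil)) .nil)) .nil)) .nil)) .nil)) (.cons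 223 (.leaf 199 1599 (.cons 201 (.leaf 225 1605 (.cons 319 (.leaf 295 1790 (.cons 320 (.leaf 247 1791 (.leaf 343 1982 .nil)) .nil)) .nil)) .nil)) .nil))))) (.cons 320 (.cons 223 (.leaf 247 1791 (.cons 224 (.leaf 199 1599 (.cons 321 (.leaf 297 1796 (.leaf 345 1988 .nil)) .nil)) .nil)) (.cons 223 (.leaf 247 1791 (.cons 224 (.leaf 199 1599 (.cons 319 (.leaf 295 1790 (.leaf 343 1982 .nil)) .nil)) .nil)) (.cons 319 (.leaf 343 1982 (.cons 321 (.leaf 345 1988 (.cons 297 (.leaf 224 1796 (.cons 298 (.leaf 299 2362 (.leaf 318 2353 .nil)) .nil)) .nil)) .nil)) (.cons 223 (.leaf 247 1791 (.cons 343 (.leaf 319 1982 (.cons 344 (.leaf 367 2174 (.cons 345 (.leaf 321 1988 (.leaf 369 2180 .nil)) .nil)) .nil)) .nil)) .nil)))) .nil))))))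
noncomputable def t83 : T := .cons 224 (.cons 199 (.leaf 223 1599 (.cons 200 (.leaf 175 1407 (.cons 201 (.leaf 177 1413 (.leaf 225 1605 .nil)) .nil)) .nil)) (.cons 297 (.leaf 321 1796 (.cons 200 (.leaf 273 1604 (.cons 201 (.leaf 177 1413 (.leaf 225 1605 .nil)) .nil)) .nil)) (.cons 297 (.leaf 321 1796 (.cons 199 (.leaf 223 1599 (.cons 200 (.leaf 175 1407 (.leaf 273 1604 .nil)) .nil)) .nil)) (.cons 225 (.leaf 201 1605 (.cons 223 (.leaf 199 1599 (.cons 297 (.leaf 321 1796 (.cons 222 (.cons 249 (.leaf 221 1768 (.leaf 250 1776 .nil)) (.cons 197 (.leaf 198 1579 (.cons 221 (.leaf 196 1571 (.cons 245 (.leaf 244 1762 (.leaf 246 1770 .nil)) .nil)) .nil)) (.cons 197 (.leaf 198 1579 (.cons 246 (.leaf 245 1770 (.cons 226 (.leaf 247 1778 (.cons 202 (.leaf 203 1593 (.cons 249 (.leaf 250 1776 (.leaf 273 1613 .nil)) .nil)) .nil)) .nil)) .nil)) .nil))) .nil)) .nil)) .nil)) .nil)))) (.cons 320 (.cons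 247 (.leaf 223 1791 (.cons 249 (.leaf 225 1797 (.cons 274 (.leaf 250 1976 (.leaf 273 1979 .nil)) .nil)) .nil)) (.cons 249 (.leaf 225 1797 (.cons 343 (.leaf 319 1982 (.cons 344 (.leaf 273 1989 (.leaf 367 2174 .nil)) .nil)) .nil)) (.cons 247 (.leaf 223 1791 (.cons 273 (.leaf 274 1979 (.cons 245 (.leaf 246 1960 (.cons 319 (.leaf 343 1982 (.cons 344 (.leaf 271 1983 (.cons 368 (.leaf 297 2181 (.cons 369 (.leaf 345 2180 (.leaf 393 2372 .nil)) .nil)) .nil)) .nil)) .nil)) .nil)) .nil)) (.cons 223 (.leaf 247 1791 (.cons 225 (.leaf 249 1797 (.cons 343 (.leaf 319 1982 (.cons 344 (.leaf 367 2174 (.cons 345 (.leaf 321 1988 (.leaf 369 2180 .nil)) .nil)) .nil)) .nil)) .nil)) .nil)))) (.cons 320 (.cons 319 (.leaf 343 1982 (.cons 321 (.leaf 345 1988 (.cons 297 (.leaf 224 1796 (.cons 298 (.leaf 299 2362 (.leaf 318 2353 .nil)) .nil)) .nil)) .nil)) (.cons 249 (.leaf 225 1797 (.cons 343 (.leaf 319 1982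 (.cons 344 (.leaf 273 1989 (.leaf 367 2174 .nil)) .nil)) .nil)) (.cons 225 (.leaf 249 1797 (.cons 224 (.leaf 201 1605 (.cons 321 (.leaf 297 1796 (.leaf 345 1988 .nil)) .nil)) .nil)) .nil))) (.cons 320 (.cons 223 (.leaf 247 1791 (.cons 224 (.leaf 199 1599 (.cons 225 (.leaf 201 1605 (.leaf 249 1797 .nil)) .nil)) .nil)) (.cons 321 (.leaf 345 1988 (.cons 224 (.leaf 297 1796 (.cons 225 (.leaf 201 1605 (.leaf 249 1797 .nil)) .nil)) .nil)) (.cons 247 (.leaf 223 1791 (.cons 271 (.leaf 344 1983 (.cons 319 (.leaf 343 1982 (.cons 321 (.leaf 345 1988 (.cons 297 (.leaf 224 1796 (.cons 298 (.leaf 299 2362 (.leaf 318 2353 .nil)) .nil)) .nil)) .nil)) .nil)) .nil)) (.cons 223 (.leaf 247 1791 (.cons 225 (.leaf 249 1797 (.cons 343 (.leaf 319 1982 (.cons 344 (.leaf 367 2174 (.cons 345 (.leaf 321 1988 (.leaf 369 2180 .nil)) .nil)) .nil)) .nil)) .nil)) .nil)))) (.cons 320 (.cons 223 (.leaf 247 1791 (.cons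 199 (.leaf 224 1599 (.cons 343 (.leaf 319 1982 (.cons 344 (.leaf 367 2174 (.cons 345 (.leaf 321 1988 (.leaf 369 2180 .nil)) .nil)) .nil)) .nil)) .nil)) (.cons 321 (.leaf 345 1988 (.cons 297 (.leaf 224 1796 (.cons 319 (.leaf 343 1982 (.cons 298 (.leaf 299 2362 (.leaf 318 2353 .nil)) .nil)) .nil)) .nil)) (.cons 247 (.leaf 223 1791 (.cons 273 (.leaf 274 1979 (.cons 344 (.leaf 271 1983 (.leaf 249 1989 .nil)) .nil)) .nil)) .nil))) (.cons 224 (.cons 199 (.leaf 223 1599 (.cons 200 (.leaf 175 1407 (.cons 201 (.leaf 177 1413 (.leaf 225 1605 .nil)) .nil)) .nil)) (.cons 297 (.leaf 321 1796 (.cons 200 (.leaf 273 1604 (.cons 201 (.leaf 177 1413 (.leaf 225 1605 .nil)) .nil)) .nil)) (.cons 297 (.leaf 321 1796 (.cons 199 (.leaf 223 1599 (.cons 200 (.leaf 175 1407 (.leaf 273 1604 .nil)) .nil)) .nil)) (.cons 201 (.leaf 225 1605 (.cons 223 (.leaf 199 1599 (.cons 297 (.leaf 321 1796 (.cons 320 (.leaf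 247 1791 (.cons 343 (.leaf 319 1982 (.cons 344 (.leaf 367 2174 (.cons 368 (.leaf 273 2181 (.cons 369 (.leaf 345 2180 (.leaf 393 2372 .nil)) .nil)) .nil)) .nil)) .nil)) .nil)) .nil)) .nil)) .nil)))) (.cons 320 (.cons 249 (.leaf 225 1797 (.cons 343 (.leaf 319 1982 (.cons 344 (.leaf 273 1989 (.leaf 367 2174 .nil)) .nil)) .nil)) (.cons 247 (.leaf 223 1791 (.cons 273 (.leaf 274 1979 (.cons 344 (.leaf 271 1983 (.cons 343 (.leaf 319 1982 (.leaf 367 2174 .nil)) .nil)) .nil)) .nil)) (.cons 223 (.leaf 247 1791 (.cons 224 (.leaf 199 1599 (.cons 225 (.leaf 201 1605 (.leaf 249 1797 .nil)) .nil)) .nil)) .nil))) .nil))))))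
noncomputable def t84 : T := .cons 248 (.cons 224 (.cons 199 (.leaf 223 1599 (.cons 200 (.leaf 175 1407 (.cons 201 (.leaf 177 1413 (.leaf 225 1605 .nil)) .nil)) .nil)) (.cons 297 (.leaf 321 1796 (.cons 199 (.leaf 223 1599 (.cons 200 (.leaf 175 1407 (.leaf 273 1604 .nil)) .nil)) .nil)) (.cons 225 (.leaf 201 1605 (.cons 320 (.leaf 249 1797 (.cons 297 (.leaf 321 1796 (.cons 273 (.leaf 200 1604 (.cons 247 (.leaf 274 1979 (.cons 245 (.leaf 246 1960 (.cons 344 (.leaf 271 1983 (.leaf 368 2181 .nil)) .nil)) .nil)) .nil)) .nil)) .nil)) .nil)) (.cons 225 (.leaf 201 1605 (.cons 223 (.leaf 199 1599 (.cons 297 (.leaf 321 1796 (.cons 222 (.cons 249 (.leaf 320 1797 (.leaf 221 1768 .nil)) (.cons 197 (.leaf 198 1579 (.cons 221 (.leaf 196 1571 (.cons 245 (.leaf 244 1762 (.leaf 246 1770 .nil)) .nil)) .nil)) (.cons 197 (.leaf 198 1579 (.cons 246 (.leaf 245 1770 (.cons 226 (.leaf 247 1778 (.cons 202 (.leaf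 203 1593 (.cons 249 (.leaf 320 1797 (.leaf 250 1776 .nil)) .nil)) .nil)) .nil)) .nil)) .nil))) .nil)) .nil)) .nil)) .nil)))) t83) (.cons 248 (.cons 224 (.cons 199 (.leaf 223 1599 (.cons 225 (.leaf 201 1605 (.cons 320 (.leaf 249 1797 (.cons 321 (.leaf 297 1796 (.leaf 345 1988 .nil)) .nil)) .nil)) .nil)) (.cons 201 (.leaf 225 1605 (.cons 177 (.leaf 200 1413 (.cons 295 (.leaf 319 1790 (.cons 297 (.leaf 321 1796 (.cons 298 (.leaf 274 2169 (.cons 271 (.leaf 299 2171 (.leaf 270 2163 .nil)) .nil)) .nil)) .nil)) .nil)) .nil)) (.cons 295 (.leaf 319 1790 (.cons 200 (.leaf 271 1598 (.cons 175 (.leaf 199 1407 (.cons 176 (.leaf 151 1215 (.cons 177 (.leaf 201 1413 (.leaf 153 1221 .nil)) .nil)) .nil)) .nil)) .nil)) (.cons 295 (.leaf 319 1790 (.cons 271 (.leaf 200 1598 (.cons 297 (.leaf 321 1796 (.cons 298 (.leaf 274 2169 (.leaf 299 2171 .nil)) .nil)) .nil)) .nil)) .nil)))) t82) (.cons 295 (.cons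 273 (.leaf 274 2170 (.cons 294 (.leaf 293 2153 (.cons 297 (.cons 322 (.leaf 321 2352 (.cons 269 (.leaf 270 2155 (.cons 298 (.leaf 323 2360 (.cons 299 (.leaf 271 2171 (.leaf 300 2179 .nil)) .nil)) .nil)) .nil)) (.cons 322 (.leaf 321 2352 (.cons 298 (.leaf 323 2360 (.cons 299 (.leaf 271 2171 (.leaf 300 2179 .nil)) .nil)) .nil)) (.cons 270 (.leaf 269 2155 (.cons 271 (.leaf 298 2160 (.cons 249 (.leaf 250 1969 (.cons 225 (.leaf 201 1606 (.leaf 320 1798 .nil)) .nil)) .nil)) .nil)) (.cons 270 (.leaf 269 2155 (.cons 318 (.leaf 317 2346 (.cons 271 (.cons 247 (.leaf 223 1782 (.leaf 342 1973 .nil)) (.cons 245 (.leaf 246 1963 (.cons 249 (.leaf 250 1969 (.cons 225 (.leaf 201 1606 (.leaf 320 1798 .nil)) .nil)) .nil)) .nil)) .nil)) .nil)) (.cons 322 (.leaf 321 2352 (.cons 269 (.leaf 270 2155 (.cons 298 (.leaf 323 2360 (.cons 318 (.leaf 317 2346 (.leaf 319 2354 .nil)) .nil)) .nil)) .nil)) .nil)))))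 .nil)) .nil)) (.cons 297 t80 t79)) (.cons 295 t68 (.cons 273 t60 (.cons 320 (.cons 248 (.cons 223 (.leaf 247 1791 (.cons 224 (.leaf 199 1599 (.cons 321 (.leaf 297 1796 (.leaf 345 1988 .nil)) .nil)) .nil)) (.cons 223 (.leaf 247 1791 (.cons 199 (.leaf 224 1599 (.cons 249 (.leaf 225 1797 (.cons 343 (.leaf 319 1982 (.cons 344 (.leaf 273 1989 (.leaf 367 2174 .nil)) .nil)) .nil)) .nil)) .nil)) (.cons 321 (.leaf 345 1988 (.cons 224 (.leaf 297 1796 (.cons 225 (.leaf 201 1605 (.leaf 249 1797 .nil)) .nil)) .nil)) (.cons 247 (.leaf 223 1791 (.cons 319 (.leaf 343 1982 (.cons 344 (.leaf 271 1983 (.cons 345 (.leaf 321 1988 (.leaf 369 2180 .nil)) .nil)) .nil)) .nil)) .nil)))) t56) (.cons 273 t54 (.cons 295 (.cons 273 (.leaf 274 2170 (.cons 294 (.leaf 293 2153 (.cons 297 (.cons 270 (.leaf 269 2155 (.cons 318 (.leaf 317 2346 (.cons 319 (.leaf 298 2354 (.cons 343 (.leaf 367 2173 (.leaf 246 1972 .nil))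 .nil)) .nil)) .nil)) (.cons 318 (.leaf 317 2346 (.cons 298 (.leaf 319 2354 (.cons 299 (.leaf 271 2171 (.leaf 300 2179 .nil)) .nil)) .nil)) (.cons 321 (.leaf 322 2352 (.cons 345 (.leaf 248 1991 (.leaf 369 2183 .nil)) .nil)) .nil))) .nil)) .nil)) t51) (.cons 295 t47 (.cons 295 (t43) (.cons 273 t39 (.cons 273 t36 (.cons 273 t33 (.cons 295 (t30) (.cons 295 t26 (.cons 273 t21 (.cons 295 t17 (.cons 295 t13 (.cons 295 (t8) (.cons 273 t2 .nil)))))))))))))))))))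
noncomputable def t85 : T := .cons 225 (.leaf 249 1807 (.cons 323 (.leaf 347 2004 (.cons 321 (.leaf 320 2363 (.leaf 345 1998 .nil)) .nil)) .nil)) (.cons 225 (.leaf 249 1807 (.cons 345 (.leaf 321 1998 (.cons 346 (.leaf 369 2190 (.cons 370 (.leaf 299 2197 (.cons 371 (.leaf 347 2196 (.leaf 395 2388 .nil)) .nil)) .nil)) .nil)) .nil)) (.cons 225 (.leaf 249 1807 (.cons 321 (.leaf 345 1998 (.cons 320 (.leaf 323 2363 (.cons 319 (.leaf 299 2361 (.cons 343 (.leaf 248 1982 (.leaf 367 2173 .nil)) .nil)) .nil)) .nil)) .nil)) (.cons 323 (.leaf 347 2004 (.cons 299 (.leaf 226 1812 (.cons 346 (.leaf 370 2197 (.cons 345 (.leaf 369 2190 (.cons 343 (.leaf 344 2553 (.cons 319 (.leaf 367 2173 (.cons 248 (.leaf 224 1790 (.leaf 271 1981 .nil)) .nil)) .nil)) .nil)) .nil)) .nil)) .nil)) (.cons 225 (.leaf 249 1807 (.cons 323 (.leaf 347 2004 (.cons 226 (.leaf 299 1812 (.cons 203 (.leaf 227 1621 (.cons 202 (.leaf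 179 1429 (.cons 223 (.leaf 224 1593 (.cons 320 (.leaf 321 2363 (.cons 247 (.leaf 248 1791 (.leaf 271 1788 .nil)) .nil)) .nil)) .nil)) .nil)) .nil)) .nil)) .nil)) .nil))))
noncomputable def t86 : T := .cons 248 (.cons 224 (.leaf 319 1790 (.cons 199 (.leaf 223 1599 (.cons 200 (.leaf 175 1407 (.leaf 271 1598 .nil)) .nil)) .nil)) (.cons 247 (.leaf 249 1976 (.cons 223 (.leaf 320 1791 (.cons 199 (.leaf 175 1404 (.leaf 271 1596 .nil)) .nil)) .nil)) (.cons 224 (.leaf 319 1790 (.cons 199 (.leaf 223 1599 (.cons 175 (.leaf 200 1407 (.cons 225 (.leaf 201 1605 (.cons 249 (.leaf 247 1976 (.leaf 320 1797 .nil)) .nil)) .nil)) .nil)) .nil)) (.cons 224 (.leaf 319 1790 (.cons 200 (.leaf 271 1598 (.cons 201 (.leaf 177 1413 (.leaf 225 1605 .nil)) .nil)) .nil)) .nil)))) (.cons 226 (.cons 299 (.leaf 202 1620 (.leaf 323 1812 .nil)) (.cons 201 (.leaf 225 1615 (.cons 202 (.leaf 177 1423 (.cons 203 (.leaf 179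 1429 (.leaf 227 1621 .nil)) .nil)) .nil)) (.cons 203 (.leaf 227 1621 (.cons 225 (.leaf 201 1615 (.cons 299 (.leaf 323 1812 (.cons 322 (.leaf 249 1807 (.cons 346 (.leaf 370 2197 (.cons 345 (.leaf 321 1998 (.leaf 369 2190 .nil)) .nil)) .nil)) .nil)) .nil)) .nil)) .nil))) (.cons 248 (.cons 224 (.leaf 319 1790 (.cons 223 (.leaf 199 1599 (.cons 247 (.leaf 249 1976 (.leaf 320 1791 .nil)) .nil)) .nil)) (.cons 247 (.leaf 249 1976 (.cons 223 (.leaf 320 1791 (.cons 199 (.leaf 175 1404 (.leaf 224 1599 .nil)) .nil)) .nil)) (.cons 224 (.leaf 319 1790 (.cons 200 (.leaf 271 1598 (.cons 175 (.leaf 199 1407 (.cons 176 (.leaf 151 1215 (.cons 177 (.leaf 201 1413 (.leaf 153 1221 .nil)) .nil)) .nil)) .nil)) .nil)) (.cons 247 (.leaf 249 1976 (.cons 223 (.leaf 320 1791 (.cons 199 (.leaf 175 1404 (.leaf 271 1596 .nil)) .nil)) .nil)) (.cons 224 (.leaf 319 1790 (.cons 200 (.leaf 271 1598 (.cons 177 (.leaf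 201 1413 (.cons 176 (.leaf 153 1221 (.cons 151 (.leaf 175 1215 (.cons 152 (.leaf 127 1023 (.cons 247 (.leaf 249 1976 (.leaf 223 1214 .nil)) .nil)) .nil)) .nil)) .nil)) .nil)) .nil)) .nil))))) (.cons 226 (.cons 299 (.leaf 202 1620 (.leaf 323 1812 .nil)) (.cons 201 (.leaf 225 1615 (.cons 202 (.leaf 177 1423 (.cons 203 (.leaf 179 1429 (.leaf 227 1621 .nil)) .nil)) .nil)) (.cons 201 (.leaf 225 1615 (.cons 203 (.leaf 227 1621 (.cons 323 (.leaf 299 1812 (.cons 322 (.leaf 347 2004 (.cons 321 (.leaf 320 2363 (.leaf 345 1998 .nil)) .nil)) .nil)) .nil)) .nil)) .nil))) (.cons 322 t85 .nil))))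
noncomputable def t87 : T := .cons 321 (.leaf 322 2352 (.cons 345 (.leaf 369 2183 (.cons 344 (.leaf 368 2182 (.cons 320 (.leaf 249 1989 (.cons 269 (.leaf 270 2155 (.cons 317 (.leaf 318 2346 (.cons 343 (.leaf 367 2174 (.cons 342 (.leaf 341 2537 (.cons 346 (.leaf 370 2188 (.cons 347 (.leaf 348 2563 (.leaf 319 2555 .nil)) .nil)) .nil)) .nil)) .nil)) .nil)) .nil)) .nil)) .nil)) .nil)) (.cons 321 (.leaf 322 2352 (.cons 345 (.leaf 369 2183 (.cons 344 (.leaf 368 2182 (.cons 320 (.leaf 249 1989 (.cons 247 (.leaf 271 1983 (.cons 317 (.leaf 318 2346 (.cons 343 (.leaf 367 2174 (.cons 342 (.leaf 341 2537 (.cons 346 (.leaf 370 2188 (.cons 347 (.leaf 348 2563 (.leaf 319 2555 .nil)) .nil)) .nil)) .nil)) .nil)) .nil)) .nil)) .nil)) .nil)) .nil)) (.cons 270 (.leaf 269 2155 (.cons 271 (.leaf 298 2160 (.cons 249 (.leaf 250 1969 (.cons 225 (.leaf 201 1606 (.leaf 320 1798 .nil)) .nil)) .nil)) .nil)) (.cons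 269 (.leaf 270 2155 (.cons 318 (.leaf 317 2346 (.cons 298 (.leaf 319 2354 (.cons 299 (.leaf 271 2171 (.leaf 300 2179 .nil)) .nil)) .nil)) .nil)) .nil)))
noncomputable def t88 : T := .leaf 274 2170 (.cons 294 (.leaf 293 2153 (.cons 319 (.cons 248 (.leaf 224 1790 (.cons 320 (.leaf 343 1982 (.cons 249 (.leaf 225 1797 (.leaf 344 1989 .nil)) .nil)) .nil)) (.cons 248 (.leaf 224 1790 (.cons 320 (.cons 249 (.leaf 225 1797 (.leaf 344 1989 .nil)) (.cons 321 (.leaf 345 1988 (.leaf 322 2355 .nil)) .nil)) .nil)) (.cons 343 (.leaf 367 2173 (.cons 271 (.cons 344 (.leaf 368 2172 (.cons 246 (.leaf 270 1975 (.cons 247 (.leaf 320 1980 (.leaf 222 1783 .nil)) .nil)) .nil)) (.cons 344 (.leaf 368 2172 (.cons 320 (.leaf 247 1980 (.leaf 249 1989 .nil)) .nil)) (.cons 342 (.leaf 366 2166 (.cons 247 (.leaf 318 1974 (.cons 223 (.leaf 199 1596 (.leaf 320 1788 .nil)) .nil)) .nil)) (.cons 270 (.leaf 246 1975 (.cons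 249 (.leaf 250 1969 (.cons 201 (.leaf 225 1606 (.cons 269 (.leaf 268 2144 (.cons 245 (.leaf 244 1955 (.cons 342 (.leaf 366 2166 (.leaf 318 1967 .nil)) .nil)) .nil)) .nil)) .nil)) .nil)) .nil)))) .nil)) (.cons 343 (.leaf 367 2173 (.cons 248 (.leaf 224 1790 (.leaf 271 1981 .nil)) .nil)) .nil)))) .nil)) .nil)
noncomputable def t89 : T := .cons 323 (.leaf 347 2004 (.cons 345 (.leaf 321 1998 (.cons 346 (.leaf 369 2190 (.cons 299 (.leaf 370 2197 (.leaf 226 1812 .nil)) .nil)) .nil)) .nil)) (.cons 345 (.leaf 321 1998 (.cons 346 (.leaf 369 2190 (.cons 370 (.leaf 299 2197 (.cons 371 (.leaf 347 2196 (.leaf 395 2388 .nil)) .nil)) .nil)) .nil)) (.cons 321 (.leaf 345 1998 (.cons 320 (.leaf 323 2363 (.cons 319 (.leaf 294 2355 (.leaf 299 2361 .nil)) .nil)) .nil)) (.cons 323 (.leaf 347 2004 (.cons 299 (.leaf 226 1812 (.cons 346 (.leaf 370 2197 (.cons 345 (.leaf 369 2190 (.cons 343 (.leaf 344 2553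 (.cons 319 (.leaf 367 2173 (.cons 248 (.leaf 224 1790 (.leaf 271 1981 .nil)) .nil)) .nil)) .nil)) .nil)) .nil)) .nil)) (.cons 347 (.leaf 323 2004 (.cons 346 (.leaf 371 2196 (.cons 370 (.leaf 299 2197 (.cons 369 (.leaf 393 2382 (.cons 367 (.leaf 368 2745 (.cons 319 (.leaf 343 2173 (.cons 248 (.leaf 224 1790 (.cons 247 (.leaf 249 1976 (.cons 320 (.leaf 223 1791 (.leaf 321 2552 .nil)) .nil)) .nil)) .nil)) .nil)) .nil)) .nil)) .nil)) .nil)) (.cons 321 (.leaf 345 1998 (.cons 323 (.leaf 320 2363 (.leaf 347 2004 .nil)) .nil)) .nil)))))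
noncomputable def t90 : T := .cons 226 (.cons 299 (.leaf 202 1620 (.leaf 323 1812 .nil)) (.cons 201 (.leaf 225 1615 (.cons 202 (.leaf 177 1423 (.cons 203 (.leaf 179 1429 (.leaf 227 1621 .nil)) .nil)) .nil)) (.cons 203 (.leaf 227 1621 (.cons 225 (.leaf 201 1615 (.cons 249 (.leaf 322 1807 (.cons 248 (.leaf 247 1976 (.leaf 320 1797 .nil)) .nil)) .nil)) .nil)) .nil))) (.cons 322 (.cons 225 (.leaf 249 1807 (.cons 345 (.leaf 321 1998 (.cons 346 (.leaf 369 2190 (.cons 370 (.leaf 299 2197 (.cons 371 (.leaf 347 2196 (.leaf 395 2388 .nil)) .nil)) .nil)) .nil)) .nil)) (.cons 249 (.leaf 225 1807 (.cons 248 (.leaf 247 1976 (.cons 224 (.leaf 319 1790 (.cons 199 (.leaf 223 1599 (.cons 200 (.leaf 175 1407 (.leaf 271 1598 .nil)) .nil)) .nil)) .nil)) .nil)) (.cons 323 (.leaf 347 2004 (.cons 345 (.leaf 321 1998 (.cons 346 (.leaf 369 2190 (.cons 299 (.leaf 370 2197 (.cons 343 (.leaf 344 2553 (.cons 319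 (.leaf 367 2173 (.cons 248 (.leaf 224 1790 (.leaf 271 1981 .nil)) .nil)) .nil)) .nil)) .nil)) .nil)) .nil)) .nil))) (.cons 226 (.cons 299 (.leaf 202 1620 (.leaf 323 1812 .nil)) (.cons 201 (.leaf 225 1615 (.cons 202 (.leaf 177 1423 (.cons 203 (.leaf 179 1429 (.leaf 227 1621 .nil)) .nil)) .nil)) (.cons 203 (.leaf 227 1621 (.cons 225 (.leaf 201 1615 (.cons 299 (.leaf 323 1812 (.cons 322 (.leaf 249 1807 (.cons 346 (.leaf 370 2197 (.cons 345 (.leaf 321 1998 (.leaf 369 2190 .nil)) .nil)) .nil)) .nil)) .nil)) .nil)) .nil))) (.cons 248 (.cons 224 (.leaf 319 1790 (.cons 199 (.leaf 223 1599 (.cons 200 (.leaf 175 1407 (.leaf 271 1598 .nil)) .nil)) .nil)) (.cons 247 (.leaf 249 1976 (.cons 223 (.leaf 320 1791 (.cons 199 (.leaf 175 1404 (.leaf 271 1596 .nil)) .nil)) .nil)) (.cons 224 (.leaf 319 1790 (.cons 199 (.leaf 223 1599 (.cons 175 (.leaf 200 1407 (.cons 225 (.leaf 201 1605 (.cons 249 (.leaf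 247 1976 (.leaf 320 1797 .nil)) .nil)) .nil)) .nil)) .nil)) (.cons 224 (.leaf 319 1790 (.cons 200 (.leaf 271 1598 (.cons 201 (.leaf 177 1413 (.leaf 225 1605 .nil)) .nil)) .nil)) .nil)))) (.cons 322 t89 (.cons 322 (.cons 321 (.leaf 345 1998 (.cons 323 (.leaf 320 2363 (.leaf 347 2004 .nil)) .nil)) (.cons 345 (.leaf 321 1998 (.cons 346 (.leaf 369 2190 (.cons 370 (.leaf 299 2197 (.cons 371 (.leaf 347 2196 (.leaf 395 2388 .nil)) .nil)) .nil)) .nil)) (.cons 321 (.leaf 345 1998 (.cons 320 (.leaf 323 2363 (.cons 319 (.leaf 294 2355 (.leaf 299 2361 .nil)) .nil)) .nil)) (.cons 323 (.leaf 347 2004 (.cons 299 (.leaf 226 1812 (.cons 346 (.leaf 370 2197 (.cons 345 (.leaf 369 2190 (.cons 343 (.leaf 344 2553 (.cons 319 (.leaf 367 2173 (.cons 248 (.leaf 224 1790 (.leaf 271 1981 .nil)) .nil)) .nil)) .nil)) .nil)) .nil)) .nil)) (.cons 323 (.leaf 347 2004 (.cons 226 (.leaf 299 1812 (.cons 201 (.leaf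 225 1615 (.cons 202 (.leaf 177 1423 (.cons 203 (.leaf 179 1429 (.leaf 227 1621 .nil)) .nil)) .nil)) .nil)) .nil)) .nil))))) .nil)))))
noncomputable def t91 : T := .cons 274 (.leaf 273 2170 (.cons 298 (.leaf 297 2169 (.cons 250 t90 .nil)) .nil)) (.cons 319 (.cons 343 (.leaf 367 2173 (.cons 248 (.leaf 224 1790 (.leaf 271 1981 .nil)) .nil)) (.cons 248 (.leaf 224 1790 (.cons 320 (.cons 247 (.leaf 223 1791 (.cons 271 (.leaf 344 1980 (.cons 222 (.leaf 246 1783 (.cons 318 (.leaf 342 1974 (.cons 297 (.leaf 298 2354 (.leaf 317 2345 .nil)) .nil)) .nil)) .nil)) .nil)) (.cons 321 (.leaf 345 1988 (.cons 294 (.leaf 293 2344 (.leaf 322 2355 .nil)) .nil)) .nil)) .nil)) (.cons 343 (.leaf 367 2173 (.cons 271 (.cons 342 (.leaf 366 2166 (.cons 247 (.leaf 318 1974 (.cons 223 (.leaf 199 1596 (.leaf 320 1788 .nil)) .nil)) .nil)) (.cons 270 (.leaf 246 1975 (.cons 269 (.leaf 297 2152 (.leaf 268 2144 .nil))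 .nil)) .nil)) .nil)) (.cons 248 (.leaf 224 1790 (.cons 343 (.leaf 320 1982 (.leaf 367 2173 .nil)) .nil)) .nil)))) (.cons 273 t88 (.cons 273 (.leaf 274 2170 (.cons 294 (.leaf 293 2153 (.cons 297 (.cons 269 (.leaf 270 2155 (.cons 318 (.leaf 317 2346 (.cons 319 (.leaf 298 2354 (.cons 248 (.leaf 224 1790 (.cons 343 (.leaf 320 1982 (.leaf 367 2173 .nil)) .nil)) .nil)) .nil)) .nil)) (.cons 269 (.leaf 270 2155 (.cons 321 (.leaf 322 2352 (.cons 248 (.leaf 224 1796 (.leaf 345 1991 .nil)) .nil)) .nil)) (.cons 321 (.leaf 322 2352 (.cons 345 (.leaf 369 2183 (.cons 344 (.leaf 368 2182 (.cons 320 (.leaf 249 1989 (.cons 269 (.leaf 270 2155 (.cons 317 (.leaf 318 2346 (.cons 343 (.leaf 367 2174 (.cons 342 (.leaf 341 2537 (.cons 346 (.leaf 370 2188 (.cons 347 (.leaf 348 2563 (.leaf 319 2555 .nil)) .nil)) .nil)) .nil)) .nil)) .nil)) .nil)) .nil)) .nil)) .nil)) (.cons 321 (.leaf 322 2352 (.cons 345 (.leaf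 248 1991 (.leaf 369 2183 .nil)) .nil)) .nil)))) .nil)) .nil)) (.cons 273 (.leaf 274 2170 (.cons 294 (.leaf 293 2153 (.cons 297 (.cons 269 (.leaf 270 2155 (.cons 321 (.leaf 322 2352 (.cons 248 (.leaf 224 1796 (.leaf 345 1991 .nil)) .nil)) .nil)) (.cons 270 (.leaf 269 2155 (.cons 271 (.leaf 298 2160 (.cons 249 (.leaf 250 1969 (.cons 225 (.leaf 201 1606 (.leaf 320 1798 .nil)) .nil)) .nil)) .nil)) (.cons 321 (.leaf 322 2352 (.cons 345 (.leaf 248 1991 (.leaf 369 2183 .nil)) .nil)) .nil))) .nil)) .nil)) (.cons 273 (.leaf 274 2170 (.cons 294 (.leaf 293 2153 (.cons 297 t87 .nil)) .nil)) (.cons 274 (.leaf 273 2170 (.cons 298 (.leaf 297 2169 (.cons 250 t86 .nil)) .nil)) (.cons 273 (.leaf 274 2170 (.cons 294 (.leaf 293 2153 (.cons 297 (.cons 269 (.leaf 270 2155 (.cons 321 (.leaf 322 2352 (.cons 248 (.leaf 224 1796 (.leaf 345 1991 .nil)) .nil)) .nil)) (.cons 317 (.leaf 318 2346 (.cons 321 (.leaf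 322 2352 (.cons 248 (.leaf 224 1796 (.leaf 345 1991 .nil)) .nil)) .nil)) (.cons 269 (.leaf 270 2155 (.cons 318 (.leaf 317 2346 (.cons 319 (.leaf 298 2354 (.cons 248 (.leaf 224 1790 (.cons 343 (.leaf 271 1981 (.leaf 367 2173 .nil)) .nil)) .nil)) .nil)) .nil)) (.cons 270 (.leaf 269 2155 (.cons 271 (.leaf 298 2160 (.cons 249 (.leaf 250 1969 (.cons 201 (.leaf 225 1606 (.cons 318 (.leaf 317 2346 (.cons 247 (.leaf 223 1782 (.leaf 342 1973 .nil)) .nil)) .nil)) .nil)) .nil)) .nil)) .nil)))) .nil)) .nil)) (.cons 273 (.leaf 274 2170 (.cons 294 (.leaf 293 2153 (.cons 297 (.cons 270 (.leaf 269 2155 (.cons 271 (.leaf 298 2160 (.cons 249 (.leaf 250 1969 (.cons 225 (.leaf 201 1606 (.leaf 320 1798 .nil)) .nil)) .nil)) .nil)) (.cons 318 (.leaf 317 2346 (.cons 319 (.leaf 298 2354 (.cons 248 (.leaf 224 1790 (.cons 343 (.leaf 271 1981 (.leaf 320 1982 .nil)) .nil)) .nil)) .nil)) (.cons 318 (.leaf 317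 2346 (.cons 269 (.leaf 270 2155 (.cons 319 (.leaf 298 2354 (.cons 248 (.leaf 224 1790 (.cons 343 (.leaf 320 1982 (.leaf 367 2173 .nil)) .nil)) .nil)) .nil)) .nil)) (.cons 270 (.leaf 269 2155 (.cons 318 (.leaf 317 2346 (.cons 246 (.cons 245 (.leaf 271 1963 (.leaf 221 1775 .nil)) (.cons 319 (.leaf 222 1780 (.leaf 343 1972 .nil)) .nil)) .nil)) .nil)) .nil)))) .nil)) .nil)) .nil))))))))
noncomputable def t92 : T := .cons 295 (.leaf 274 2170 (.cons 294 (.leaf 293 2153 (.cons 297 (.cons 321 (.leaf 224 1796 (.leaf 345 1991 .nil)) (.cons 321 (.leaf 345 1991 (.leaf 322 2352 .nil)) (.cons 224 (.leaf 200 1604 (.leaf 319 1790 .nil)) .nil))) .nil)) .nil)) (.cons 224 (.cons 199 (.leaf 223 1599 (.cons 200 (.leaf 175 1407 (.leaf 297 1604 .nil)) .nil)) (.cons 225 (.leaf 201 1605 (.cons 320 (.leaf 249 1797 (.cons 199 (.leaf 223 1599 (.cons 175 (.leaf 200 1407 (.cons 343 (.leaf 319 1982 (.cons 344 (.leaf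 367 2174 (.cons 345 (.leaf 321 1988 (.leaf 369 2180 .nil)) .nil)) .nil)) .nil)) .nil)) .nil)) .nil)) (.cons 225 (.leaf 201 1605 (.cons 320 (.leaf 249 1797 (.cons 321 (.leaf 297 1796 (.leaf 345 1988 .nil)) .nil)) .nil)) .nil))) (.cons 295 (.leaf 274 2170 (.cons 294 (.leaf 293 2153 (.cons 297 (.cons 321 (.leaf 345 1991 (.leaf 322 2352 .nil)) (.cons 270 (.leaf 269 2155 (.cons 271 (.leaf 298 2160 (.cons 249 (.leaf 250 1969 (.cons 225 (.leaf 201 1606 (.leaf 320 1797 .nil)) .nil)) .nil)) .nil)) .nil)) .nil)) .nil)) (.cons 295 (.leaf 274 2170 (.cons 224 (.leaf 319 1790 (.cons 200 (.leaf 271 1598 (.cons 201 (.leaf 177 1413 (.leaf 225 1605 .nil)) .nil)) .nil)) .nil)) .nil)))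
noncomputable def t93 : T := .cons 224 (.leaf 200 1604 (.cons 296 (.leaf 321 1796 (.cons 201 (.leaf 225 1605 (.cons 319 (.leaf 295 1790 (.cons 320 (.leaf 343 1982 (.cons 344 (.leaf 249 1989 (.leaf 368 2181 .nil)) .nil)) .nil)) .nil)) .nil)) .nil)) (.cons 321 (.leaf 345 1991 (.cons 249 (.cons 250 (.leaf 226 1805 (.cons 270 (.leaf 271 1969 (.cons 320 (.leaf 344 1990 (.cons 225 (.leaf 296 1797 (.cons 322 (.leaf 298 1804 (.leaf 346 1996 .nil)) .nil)) .nil)) .nil)) .nil)) (.cons 250 (.leaf 226 1805 (.cons 251 (.leaf 271 1978 (.leaf 252 1986 .nil)) .nil)) (.cons 322 (.leaf 346 1996 (.cons 225 (.leaf 298 1804 (.cons 296 (.leaf 201 1606 (.leaf 320 1797 .nil)) .nil)) .nil)) .nil))) .nil)) (.cons 224 (.leaf 200 1604 (.cons 296 (.cons 201 (.leaf 225 1605 (.cons 319 (.leaf 295 1790 (.cons 320 (.leaf 343 1982 (.cons 344 (.leaf 249 1989 (.leaf 368 2181 .nil)) .nil)) .nil)) .nil)) (.cons 295 (.leaf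 319 1790 (.cons 199 (.leaf 223 1599 (.cons 294 (.leaf 293 2153 (.cons 270 (.leaf 269 2155 (.cons 271 (.leaf 298 2160 (.cons 249 (.leaf 250 1969 (.cons 318 (.leaf 317 2346 (.cons 342 (.leaf 366 2165 (.leaf 247 1973 .nil)) .nil)) .nil)) .nil)) .nil)) .nil)) .nil)) .nil)) (.cons 225 (.leaf 201 1605 (.cons 249 (.leaf 320 1797 (.cons 199 (.leaf 223 1599 (.cons 226 (.leaf 202 1613 (.cons 227 (.leaf 247 1786 (.leaf 228 1794 .nil)) .nil)) .nil)) .nil)) .nil)) (.cons 295 (.leaf 319 1790 (.cons 199 (.leaf 223 1599 (.cons 201 (.leaf 225 1605 (.cons 294 (.leaf 293 2153 (.cons 270 (.leaf 269 2155 (.cons 271 (.leaf 298 2160 (.cons 318 (.leaf 317 2346 (.cons 342 (.leaf 366 2165 (.leaf 247 1973 .nil)) .nil)) .nil)) .nil)) .nil)) .nil)) .nil)) .nil)) .nil)))) .nil)) (.cons 224 (.leaf 200 1604 (.cons 321 (.leaf 296 1796 (.leaf 345 1991 .nil)) .nil)) (.cons 224 (.leaf 200 1604 (.cons 321 (.leaf 345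 1991 (.leaf 249 1799 .nil)) .nil)) .nil))))
noncomputable def t94 : T := .cons 274 (.leaf 247 1979 (.cons 251 (.leaf 252 1985 (.cons 250 (.leaf 271 1977 (.cons 297 (.cons 321 (.leaf 345 1997 (.cons 224 (.leaf 200 1604 (.leaf 296 1796 .nil)) .nil)) (.cons 224 (.leaf 200 1604 (.cons 202 (.leaf 226 1614 (.cons 223 (.leaf 249 1787 (.cons 296 (.leaf 295 2170 (.leaf 199 1599 .nil)) .nil)) .nil)) .nil)) (.cons 321 (.leaf 345 1997 (.cons 226 (.leaf 202 1614 (.leaf 249 1805 .nil)) .nil)) .nil))) .nil)) .nil)) .nil)) (.cons 297 t93 (.cons 296 t92 (.cons 274 (.leaf 247 1979 (.cons 251 (.leaf 252 1985 (.cons 271 (.leaf 250 1977 (.cons 294 (.leaf 295 2162 (.cons 270 (.leaf 293 2154 (.cons 249 (.leaf 269 1961 (.cons 297 (.leaf 298 2160 (.cons 224 (.leaf 200 1604 (.leaf 321 1799 .nil)) .nil)) .nil)) .nil)) .nil)) .nil)) .nil)) .nil)) (.cons 274 (.leaf 247 1979 (.cons 251 (.leaf 252 1985 (.cons 271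 (.leaf 250 1977 (.cons 295 (.leaf 296 2170 (.leaf 294 2162 .nil)) .nil)) .nil)) .nil)) (.cons 274 (.leaf 247 1979 (.cons 296 (.leaf 295 2170 (.cons 251 (.leaf 252 1985 (.cons 320 (.cons 343 (.leaf 319 1982 (.cons 344 (.leaf 249 1989 (.leaf 367 2174 .nil)) .nil)) (.cons 343 (.leaf 319 1982 (.cons 344 (.leaf 367 2174 (.cons 345 (.leaf 321 1988 (.leaf 369 2180 .nil)) .nil)) .nil)) (.cons 225 (.leaf 249 1797 (.cons 319 (.leaf 343 1982 (.cons 321 (.leaf 345 1988 (.cons 224 (.leaf 201 1605 (.leaf 297 1796 .nil)) .nil)) .nil)) .nil)) (.cons 249 (.leaf 225 1797 (.leaf 344 1989 .nil)) .nil)))) .nil)) .nil)) .nil)) (.cons 274 (.leaf 247 1979 (.cons 251 (.leaf 252 1985 (.cons 250 (.leaf 271 1977 (.cons 297 (.cons 321 (.leaf 345 1997 (.cons 224 (.leaf 200 1604 (.leaf 296 1796 .nil)) .nil)) (.cons 224 (.leaf 200 1604 (.cons 202 (.leaf 226 1614 (.cons 249 (.leaf 223 1787 (.cons 227 (.leaf 228 1793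 (.cons 203 (.leaf 178 1431 (.leaf 298 1622 .nil)) .nil)) .nil)) .nil)) .nil)) (.cons 321 (.leaf 345 1997 (.cons 226 (.leaf 202 1614 (.leaf 249 1805 .nil)) .nil)) .nil))) .nil)) .nil)) .nil)) .nil))))))
noncomputable def t95 : T := .cons 296 (.leaf 320 1791 (.cons 224 (.leaf 199 1599 (.cons 297 (.leaf 200 1604 (.leaf 321 1796 .nil)) .nil)) .nil)) (.cons 296 (.leaf 320 1791 (.cons 224 (.cons 297 (.leaf 200 1604 (.leaf 321 1796 .nil)) (.cons 225 (.leaf 201 1605 (.leaf 226 1778 .nil)) .nil)) .nil)) (.cons 199 (.leaf 175 1404 (.cons 271 (.cons 174 (.leaf 198 1399 (.cons 294 (.leaf 270 1590 (.cons 295 (.leaf 318 1782 (.cons 319 (.leaf 343 1981 (.leaf 224 1789 .nil)) .nil)) .nil)) .nil)) (.cons 174 (.leaf 198 1399 (.cons 200 (.leaf 176 1405 (.cons 224 (.leaf 295 1597 (.leaf 297 1604 .nil)) .nil)) .nil)) (.cons 174 (.leaf 198 1399 (.cons 200 (.leaf 176 1405 (.cons 224 (.leaf 297 1604 (.cons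 201 (.leaf 177 1413 (.cons 202 (.leaf 222 1586 (.leaf 203 1594 .nil)) .nil)) .nil)) .nil)) .nil)) (.cons 200 (.leaf 176 1405 (.cons 224 (.leaf 295 1597 (.leaf 297 1604 .nil)) .nil)) (.cons 270 (.leaf 294 1590 (.cons 176 (.leaf 200 1405 (.cons 198 (.leaf 174 1399 (.cons 222 (.leaf 295 1588 (.cons 269 (.leaf 268 1953 (.leaf 293 1582 .nil)) .nil)) .nil)) .nil)) .nil)) .nil))))) .nil)) (.cons 199 (.leaf 175 1404 (.cons 296 (.leaf 271 1596 (.leaf 320 1791 .nil)) .nil)) .nil)))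
noncomputable def t96 : T := .cons 223 (.leaf 320 1791 (.cons 199 (.leaf 175 1404 (.leaf 224 1599 .nil)) .nil)) (.cons 224 (.cons 201 (.leaf 225 1605 (.cons 200 (.leaf 177 1413 (.cons 175 (.leaf 199 1407 (.cons 176 (.leaf 151 1215 (.leaf 271 1406 .nil)) .nil)) .nil)) .nil)) (.cons 201 (.leaf 225 1605 (.cons 200 (.leaf 177 1413 (.cons 176 (.leaf 271 1406 (.cons 151 (.leaf 175 1215 (.cons 152 (.leaf 223 1214 (.leaf 127 1023 .nil)) .nil)) .nil)) .nil)) .nil)) (.cons 199 (.leaf 223 1599 (.cons 200 (.leaf 175 1407 (.cons 176 (.leaf 271 1406 (.cons 177 (.leaf 201 1413 (.leaf 153 1221 .nil)) .nil)) .nil)) .nil)) (.cons 223 (.leaf 199 1599 (.cons 221 (.leaf 222 1768 (.cons 295 (.leaf 319 1790 (.cons 271 (.leaf 200 1597 (.cons 269 (.leaf 270 1961 (.cons 294 (.leaf 318 1782 (.cons 293 (.leaf 292 2145 (.leaf 268 2147 .nil)) .nil)) .nil)) .nil)) .nil)) .nil)) .nil)) (.cons 201 (.leaf 225 1605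 (.cons 295 (.leaf 319 1790 (.cons 297 (.leaf 298 2169 (.leaf 321 1796 .nil)) .nil)) .nil)) .nil))))) (.cons 225 (.leaf 320 1797 (.cons 201 (.leaf 177 1414 (.leaf 224 1605 .nil)) .nil)) (.cons 223 (.leaf 320 1791 (.cons 199 (.leaf 175 1404 (.leaf 271 1596 .nil)) .nil)) .nil)))
noncomputable def t97 : T := .leaf 245 1960 (.cons 249 (.cons 270 (.leaf 269 1962 (.cons 271 (.leaf 250 1969 (.cons 293 (.leaf 294 2154 (.cons 297 (.leaf 298 2160 (.cons 321 (.leaf 345 1991 (.leaf 224 1799 .nil)) .nil)) .nil)) .nil)) .nil)) (.cons 221 (.leaf 222 1771 (.cons 225 (.leaf 226 1777 (.cons 201 (.leaf 177 1414 (.cons 200 (.leaf 176 1415 (.cons 224 (.leaf 297 1604 (.cons 199 (.leaf 175 1407 (.cons 198 (.leaf 197 1576 (.cons 174 (.leaf 173 1387 (.cons 271 (.leaf 295 1598 (.leaf 223 1399 .nil)) .nil)) .nil)) .nil)) .nil)) .nil)) .nil)) .nil)) .nil)) (.cons 221 (.leaf 222 1771 (.cons 225 (.leaf 226 1777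 (.cons 201 (.leaf 177 1414 (.cons 200 (.leaf 176 1415 (.cons 297 (.leaf 224 1604 (.cons 269 (.leaf 270 1962 (.cons 321 (.leaf 345 1991 (.cons 322 (.leaf 298 1804 (.leaf 346 1996 .nil)) .nil)) .nil)) .nil)) .nil)) .nil)) .nil)) .nil)) (.cons 221 (.leaf 222 1771 (.cons 270 (.leaf 269 1962 (.cons 271 (.leaf 250 1969 (.cons 294 (.leaf 293 2154 (.cons 223 (.leaf 199 1590 (.leaf 318 1781 .nil)) .nil)) .nil)) .nil)) .nil)) .nil)))) .nil)
noncomputable def t98 : T := .cons 296 (.leaf 320 1791 (.cons 199 (.leaf 175 1404 (.leaf 224 1599 .nil)) .nil)) (.cons 296 (.leaf 320 1791 (.cons 224 (.cons 225 (.leaf 201 1605 (.cons 226 (.leaf 227 1786 (.leaf 246 1778 .nil)) .nil)) (.cons 297 (.leaf 321 1796 (.cons 200 (.leaf 273 1604 (.cons 176 (.leaf 271 1406 (.leaf 152 1214 .nil)) .nil)) .nil)) .nil)) .nil)) (.cons 199 (.leaf 175 1404 (.cons 271 (.cons 198 (.leaf 174 1399 (.cons 222 (.leaf 295 1591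 (.cons 221 (.leaf 220 1760 (.cons 249 (.leaf 224 1768 (.leaf 246 1771 .nil)) .nil)) .nil)) .nil)) (.cons 198 (.leaf 174 1399 (.cons 222 (.leaf 295 1591 (.cons 220 (.leaf 221 1760 (.cons 270 (.leaf 294 1590 (.cons 269 (.leaf 249 1961 (.leaf 268 1953 .nil)) .nil)) .nil)) .nil)) .nil)) (.cons 270 (.leaf 294 1590 (.cons 249 (.leaf 269 1961 (.leaf 250 1970 .nil)) .nil)) (.cons 198 (.leaf 174 1399 (.cons 222 (.leaf 295 1591 (.cons 220 (.leaf 221 1760 (.cons 270 (.leaf 294 1590 (.cons 269 (.leaf 268 1953 (.cons 293 (.leaf 292 2146 (.leaf 246 1582 .nil)) .nil)) .nil)) .nil)) .nil)) .nil)) .nil)))) .nil)) (.cons 199 (.leaf 175 1404 (.cons 296 (.leaf 271 1596 (.leaf 320 1791 .nil)) .nil)) .nil)))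
noncomputable def t99 : T := .cons 296 (.leaf 320 1791 (.cons 224 (.leaf 199 1599 (.cons 225 (.leaf 201 1605 (.cons 226 (.leaf 227 1786 (.leaf 246 1778 .nil)) .nil)) .nil)) .nil)) (.cons 296 (.leaf 320 1791 (.cons 224 (.cons 225 (.leaf 201 1605 (.cons 226 (.leaf 227 1786 (.leaf 246 1778 .nil)) .nil)) (.cons 295 (.leaf 319 1790 (.cons 297 (.leaf 321 1796 (.cons 274 (.leaf 298 2169 (.cons 249 (.leaf 250 1976 (.cons 222 (.leaf 221 1768 (.cons 271 (.leaf 200 1597 (.leaf 198 1591 .nil)) .nil)) .nil)) .nil)) .nil)) .nil)) .nil)) .nil)) (.cons 199 (.leaf 175 1404 (.cons 271 (.cons 198 (.leaf 174 1399 (.cons 222 (.leaf 295 1591 (.cons 221 (.leaf 220 1760 (.cons 249 (.leaf 224 1768 (.leaf 246 1771 .nil)) .nil)) .nil)) .nil)) (.cons 270 (.leaf 294 1590 (.cons 249 (.leaf 269 1961 (.leaf 250 1970 .nil)) .nil)) (.cons 198 (.leaf 174 1399 (.cons 222 (.leaf 295 1591 (.cons 220 (.leaf 221 1760 (.cons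 270 (.leaf 294 1590 (.cons 269 (.leaf 268 1953 (.cons 293 (.leaf 292 2146 (.leaf 246 1582 .nil)) .nil)) .nil)) .nil)) .nil)) .nil)) .nil))) .nil)) (.cons 199 (.leaf 175 1404 (.cons 296 (.leaf 271 1596 (.leaf 320 1791 .nil)) .nil)) .nil)))
noncomputable def t100 : T := .cons 296 (.leaf 320 1791 (.cons 224 (.leaf 199 1599 (.cons 297 (.leaf 200 1604 (.leaf 321 1796 .nil)) .nil)) .nil)) (.cons 296 (.leaf 320 1791 (.cons 224 (.cons 297 (.leaf 200 1604 (.leaf 321 1796 .nil)) (.cons 225 (.leaf 201 1605 (.leaf 226 1778 .nil)) .nil)) .nil)) (.cons 199 (.leaf 175 1404 (.cons 271 (.cons 174 (.leaf 198 1399 (.cons 294 (.leaf 270 1590 (.cons 295 (.leaf 318 1782 (.cons 319 (.leaf 343 1981 (.leaf 224 1789 .nil)) .nil)) .nil)) .nil)) (.cons 174 (.leaf 198 1399 (.cons 200 (.leaf 176 1405 (.cons 224 (.leaf 295 1597 (.leaf 297 1604 .nil)) .nil)) .nil)) (.cons 270 (.leaf 294 1590 (.cons 176 (.leaf 200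 1405 (.cons 198 (.leaf 174 1399 (.cons 222 (.leaf 295 1588 (.cons 269 (.leaf 249 1961 (.leaf 268 1953 .nil)) .nil)) .nil)) .nil)) .nil)) (.cons 174 (.leaf 198 1399 (.cons 200 (.leaf 176 1405 (.cons 224 (.leaf 297 1604 (.cons 201 (.leaf 177 1413 (.cons 202 (.leaf 222 1586 (.leaf 203 1594 .nil)) .nil)) .nil)) .nil)) .nil)) (.cons 200 (.leaf 176 1405 (.cons 224 (.leaf 295 1597 (.leaf 297 1604 .nil)) .nil)) .nil))))) .nil)) (.cons 199 (.leaf 175 1404 (.cons 296 (.leaf 271 1596 (.leaf 320 1791 .nil)) .nil)) .nil)))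
noncomputable def t101 : T := .cons 273 (.leaf 274 1979 (.cons 246 (.leaf 245 1960 (.cons 223 t100 .nil)) .nil)) (.cons 223 t99 (.cons 223 t98 (.cons 273 (.leaf 274 1979 (.cons 246 t97 .nil)) (.cons 273 (.leaf 274 1979 (.cons 246 (.leaf 245 1960 (.cons 249 (.cons 221 (.leaf 222 1771 (.cons 225 (.leaf 226 1777 (.cons 201 (.leaf 177 1414 (.leaf 296 1606 .nil)) .nil)) .nil)) (.cons 270 (.leaf 269 1962 (.cons 271 (.leaf 250 1969 (.cons 293 (.leaf 294 2154 (.cons 297 (.leaf 298 2160 (.cons 321 (.leaf 345 1991 (.leaf 224 1799 .nil)) .nil)) .nil)) .nil)) .nil)) .nil)) .nil)) .nil)) (.cons 274 (.leaf 273 1979 (.cons 249 (.leaf 250 1976 (.cons 296 t96 .nil)) .nil)) (.cons 273 (.leaf 274 1979 (.cons 246 (.leaf 245 1960 (.cons 223 t95 .nil)) .nil)) (.cons 273 (.leaf 274 1979 (.cons 246 (.leaf 245 1960 (.cons 249 (.cons 225 (.leaf 226 1777 (.cons 201 (.leaf 177 1414 (.leaf 296 1606 .nil)) .nil))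 (.cons 222 (.leaf 221 1771 (.cons 223 (.leaf 250 1779 (.cons 199 (.leaf 175 1404 (.cons 270 (.leaf 269 1962 (.leaf 294 1589 .nil)) .nil)) .nil)) .nil)) .nil)) .nil)) .nil)) (.cons 273 (.leaf 274 1979 (.cons 246 (.leaf 245 1960 (.cons 249 (.cons 270 (.leaf 269 1962 (.cons 222 (.leaf 221 1771 (.cons 223 (.leaf 250 1779 (.cons 199 (.leaf 175 1404 (.leaf 294 1589 .nil)) .nil)) .nil)) .nil)) (.cons 222 (.leaf 221 1771 (.cons 223 (.leaf 250 1779 (.cons 199 (.leaf 175 1404 (.cons 296 (.leaf 224 1599 (.leaf 271 1596 .nil)) .nil)) .nil)) .nil)) (.cons 270 (.leaf 269 1962 (.cons 271 (.leaf 250 1969 (.cons 293 (.leaf 294 2154 (.cons 297 (.leaf 298 2160 (.cons 321 (.leaf 345 1991 (.leaf 224 1799 .nil)) .nil)) .nil)) .nil)) .nil)) (.cons 270 (.leaf 269 1962 (.cons 222 (.leaf 221 1771 (.cons 223 (.cons 199 (.leaf 175 1404 (.leaf 294 1589 .nil)) (.cons 294 (.leaf 318 1781 (.cons 293 (.leaf 271 2154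 (.leaf 317 1774 .nil)) .nil)) (.cons 199 (.leaf 175 1404 (.cons 296 (.leaf 224 1599 (.leaf 271 1596 .nil)) .nil)) .nil))) .nil)) .nil)) .nil)))) .nil)) .nil)) (.cons 273 (.leaf 274 1979 (.cons 246 (.leaf 245 1960 (.cons 249 (.cons 225 (.leaf 226 1777 (.cons 201 (.leaf 177 1414 (.leaf 296 1606 .nil)) .nil)) (.cons 222 (.leaf 221 1771 (.cons 223 (.leaf 250 1779 (.cons 199 (.leaf 175 1404 (.cons 296 (.leaf 224 1599 (.leaf 271 1596 .nil)) .nil)) .nil)) .nil)) (.cons 225 (.leaf 226 1777 (.cons 201 (.leaf 177 1414 (.cons 178 (.leaf 202 1421 (.cons 200 (.leaf 176 1415 (.cons 224 (.leaf 297 1604 (.cons 199 (.leaf 175 1407 (.cons 198 (.leaf 197 1576 (.cons 174 (.leaf 173 1387 (.cons 271 (.leaf 295 1598 (.leaf 223 1399 .nil)) .nil)) .nil)) .nil)) .nil)) .nil)) .nil)) .nil)) .nil)) .nil))) .nil)) .nil)) (.cons 273 (.leaf 274 1979 (.cons 246 (.leaf 245 1960 (.cons 249 (.cons 225 (.leaf 226 1777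 (.cons 201 (.leaf 177 1414 (.leaf 296 1606 .nil)) .nil)) (.cons 270 (.leaf 269 1962 (.cons 271 (.leaf 250 1969 (.cons 293 (.leaf 294 2154 (.cons 297 (.leaf 298 2160 (.cons 321 (.leaf 345 1991 (.leaf 224 1799 .nil)) .nil)) .nil)) .nil)) .nil)) .nil)) .nil)) .nil)) .nil))))))))))
noncomputable def t102 : T := .leaf 245 1960 (.cons 249 (.cons 270 (.leaf 269 1962 (.cons 222 (.leaf 221 1771 (.cons 223 (.leaf 250 1779 (.cons 199 (.leaf 175 1404 (.leaf 294 1589 .nil)) .nil)) .nil)) .nil)) (.cons 222 (.leaf 221 1771 (.cons 223 (.leaf 250 1779 (.cons 199 (.leaf 175 1404 (.cons 296 (.leaf 224 1599 (.leaf 271 1596 .nil)) .nil)) .nil)) .nil)) (.cons 270 (.leaf 269 1962 (.cons 250 (.leaf 271 1969 (.cons 251 (.leaf 252 1986 (.cons 224 (.leaf 223 1787 (.cons 200 (.leaf 297 1604 (.leaf 176 1412 .nil)) .nil)) .nil)) .nil)) .nil)) (.cons 270 (.leaf 269 1962 (.cons 271 (.leaf 250 1969 (.cons 293 (.leaf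 294 2154 (.cons 297 (.leaf 298 2160 (.cons 321 (.leaf 345 1991 (.leaf 224 1799 .nil)) .nil)) .nil)) .nil)) .nil)) (.cons 270 (.leaf 269 1962 (.cons 222 (.leaf 221 1771 (.cons 223 (.cons 199 (.leaf 175 1404 (.leaf 294 1589 .nil)) (.cons 294 (.leaf 318 1781 (.cons 293 (.leaf 271 2154 (.leaf 317 1774 .nil)) .nil)) (.cons 199 (.leaf 175 1404 (.cons 296 (.leaf 224 1599 (.leaf 271 1596 .nil)) .nil)) .nil))) .nil)) .nil)) .nil))))) .nil)
noncomputable def t103 : T := .cons 223 (.leaf 320 1791 (.cons 199 (.leaf 175 1404 (.leaf 224 1599 .nil)) .nil)) (.cons 249 (.leaf 250 1976 (.cons 225 (.leaf 320 1797 (.cons 201 (.leaf 177 1414 (.leaf 224 1605 .nil)) .nil)) .nil)) (.cons 224 (.cons 223 (.leaf 199 1599 (.cons 249 (.leaf 250 1976 (.cons 221 (.leaf 222 1768 (.cons 297 (.leaf 321 1796 (.cons 295 (.leaf 298 2169 (.cons 200 (.leaf 271 1597 (.cons 176 (.leaf 152 1214 (.cons 177 (.leaf 201 1413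 (.leaf 153 1221 .nil)) .nil)) .nil)) .nil)) .nil)) .nil)) .nil)) .nil)) (.cons 225 (.leaf 201 1605 (.cons 226 (.leaf 227 1786 (.cons 246 (.leaf 245 1769 (.leaf 249 1777 .nil)) .nil)) .nil)) (.cons 223 (.leaf 199 1599 (.cons 201 (.leaf 225 1605 (.cons 200 (.leaf 177 1413 (.cons 176 (.leaf 271 1406 (.leaf 152 1214 .nil)) .nil)) .nil)) .nil)) (.cons 223 (.leaf 199 1599 (.cons 249 (.leaf 250 1976 (.cons 222 (.leaf 221 1768 (.cons 297 (.leaf 321 1796 (.cons 295 (.leaf 298 2169 (.cons 271 (.leaf 200 1597 (.leaf 198 1591 .nil)) .nil)) .nil)) .nil)) .nil)) .nil)) .nil)))) (.cons 223 (.leaf 320 1791 (.cons 199 (.leaf 175 1404 (.leaf 271 1596 .nil)) .nil)) .nil)))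
noncomputable def t104 : T := .leaf 245 1960 (.cons 249 (.cons 221 (.leaf 222 1771 (.cons 225 (.leaf 226 1777 (.cons 201 (.leaf 177 1414 (.cons 200 (.leaf 176 1415 (.cons 224 (.leaf 297 1604 (.cons 199 (.leaf 175 1407 (.cons 198 (.leaf 197 1576 (.cons 174 (.leaf 173 1387 (.cons 271 (.leaf 295 1598 (.leaf 223 1399 .nil)) .nil)) .nil)) .nil)) .nil)) .nil)) .nil)) .nil)) .nil)) (.cons 221 (.leaf 222 1771 (.cons 270 (.leaf 269 1962 (.cons 271 (.leaf 250 1969 (.cons 294 (.leaf 293 2154 (.cons 223 (.leaf 199 1590 (.leaf 318 1781 .nil)) .nil)) .nil)) .nil)) .nil)) (.cons 270 (.leaf 269 1962 (.cons 250 (.leaf 271 1969 (.cons 227 (.leaf 226 1785 (.cons 251 (.leaf 252 1986 (.leaf 228 1793 .nil)) .nil)) .nil)) .nil)) (.cons 225 (.leaf 226 1777 (.cons 201 (.leaf 177 1414 (.cons 178 (.leaf 202 1421 (.cons 200 (.leaf 176 1415 (.cons 297 (.leaf 224 1604 (.cons 221 (.leaf 222 1771 (.cons 269 (.leaf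 270 1962 (.cons 321 (.leaf 345 1991 (.cons 322 (.leaf 298 1804 (.leaf 346 1996 .nil)) .nil)) .nil)) .nil)) .nil)) .nil)) .nil)) .nil)) .nil)) .nil)))) .nil)
noncomputable def t105 : T := .cons 199 (.leaf 223 1599 (.cons 200 (.leaf 175 1407 (.cons 201 (.leaf 177 1413 (.leaf 225 1605 .nil)) .nil)) .nil)) (.cons 225 (.leaf 201 1605 (.cons 226 (.leaf 227 1786 (.cons 249 (.leaf 250 1976 (.cons 297 (.leaf 321 1796 (.cons 295 (.leaf 298 2169 (.cons 200 (.leaf 271 1598 (.cons 175 (.leaf 199 1407 (.cons 176 (.leaf 151 1215 (.leaf 152 1220 .nil)) .nil)) .nil)) .nil)) .nil)) .nil)) .nil)) .nil)) (.cons 225 (.leaf 201 1605 (.cons 226 (.leaf 227 1786 (.cons 250 (.leaf 249 1976 (.cons 223 (.leaf 251 1784 (.cons 202 (.leaf 203 1593 (.cons 297 (.leaf 321 1796 (.cons 295 (.leaf 298 2169 (.cons 271 (.leaf 200 1597 (.cons 269 (.leaf 270 2152 (.cons 294 (.leaf 318 1782 (.cons 293 (.leaf 292 2145 (.leaf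 268 2147 .nil)) .nil)) .nil)) .nil)) .nil)) .nil)) .nil)) .nil)) .nil)) .nil)) .nil)) (.cons 223 (.leaf 199 1599 (.cons 249 (.leaf 250 1976 (.cons 221 (.leaf 222 1768 (.cons 297 (.leaf 321 1796 (.cons 295 (.leaf 298 2169 (.cons 200 (.leaf 271 1597 (.cons 176 (.leaf 152 1214 (.cons 177 (.leaf 201 1413 (.leaf 153 1221 .nil)) .nil)) .nil)) .nil)) .nil)) .nil)) .nil)) .nil)) (.cons 223 (.leaf 199 1599 (.cons 249 (.leaf 250 1976 (.cons 221 (.leaf 222 1768 (.cons 297 (.leaf 321 1796 (.cons 295 (.leaf 298 2169 (.cons 271 (.leaf 200 1597 (.cons 294 (.leaf 318 1782 (.cons 269 (.leaf 270 2152 (.cons 293 (.leaf 292 2145 (.leaf 268 2147 .nil)) .nil)) .nil)) .nil)) .nil)) .nil)) .nil)) .nil)) .nil)) (.cons 223 (.leaf 199 1599 (.cons 201 (.leaf 225 1605 (.cons 249 (.leaf 250 1976 (.cons 222 (.leaf 221 1768 (.cons 297 (.leaf 321 1796 (.cons 295 (.leaf 298 2169 (.cons 271 (.leaf 198 1591 (.cons 294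 (.leaf 318 1782 (.cons 269 (.leaf 270 2152 (.cons 293 (.leaf 292 2145 (.leaf 268 2147 .nil)) .nil)) .nil)) .nil)) .nil)) .nil)) .nil)) .nil)) .nil)) .nil)) .nil)))))
noncomputable def t106 : T := .cons 249 (.cons 250 (.leaf 274 1976 (.cons 271 (.leaf 251 1978 (.leaf 270 1970 .nil)) .nil)) (.cons 225 (.cons 201 (.leaf 177 1414 (.cons 226 (.leaf 246 1777 (.cons 227 (.leaf 224 1786 (.leaf 228 1794 .nil)) .nil)) .nil)) (.cons 201 (.leaf 177 1414 (.cons 296 (.leaf 224 1605 (.leaf 320 1797 .nil)) .nil)) (.cons 226 (.leaf 246 1777 (.cons 227 (.leaf 224 1786 (.leaf 228 1794 .nil)) .nil)) (.cons 177 (.leaf 201 1414 (.cons 246 (.leaf 226 1777 (.cons 221 (.leaf 222 1771 (.cons 245 (.leaf 220 1763 (.cons 269 (.leaf 268 1954 (.leaf 270 1962 .nil)) .nil)) .nil)) .nil)) .nil)) .nil)))) (.cons 250 (.leaf 274 1976 (.cons 222 (.leaf 223 1779 (.cons 226 (.leaf 227 1785 (.cons 246 (.leaf 221 1771 (.leaf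 225 1777 .nil)) .nil)) .nil)) .nil)) .nil))) (.cons 223 (.cons 296 (.leaf 320 1791 (.cons 199 (.leaf 175 1404 (.leaf 224 1599 .nil)) .nil)) (.cons 296 (.leaf 320 1791 (.cons 224 (.cons 297 (.leaf 321 1796 (.cons 200 (.leaf 273 1604 (.cons 176 (.leaf 271 1406 (.leaf 152 1214 .nil)) .nil)) .nil)) (.cons 225 (.leaf 201 1605 (.cons 226 (.leaf 227 1786 (.leaf 246 1778 .nil)) .nil)) .nil)) .nil)) (.cons 199 (.leaf 175 1404 (.cons 271 (.cons 198 (.leaf 174 1399 (.cons 222 (.leaf 295 1591 (.cons 221 (.leaf 220 1760 (.cons 249 (.leaf 224 1768 (.leaf 246 1771 .nil)) .nil)) .nil)) .nil)) (.cons 270 (.leaf 294 1590 (.cons 249 (.leaf 269 1961 (.leaf 250 1970 .nil)) .nil)) (.cons 198 (.leaf 174 1399 (.cons 222 (.leaf 295 1591 (.cons 220 (.leaf 221 1760 (.cons 270 (.leaf 294 1590 (.cons 269 (.leaf 268 1953 (.cons 293 (.leaf 292 2146 (.leaf 246 1582 .nil)) .nil)) .nil)) .nil)) .nil)) .nil)) .nil)))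 .nil)) (.cons 199 (.leaf 175 1404 (.cons 296 (.leaf 271 1596 (.leaf 320 1791 .nil)) .nil)) .nil)))) (.cons 273 (.leaf 274 1979 (.cons 246 (.leaf 245 1960 (.cons 223 (.cons 296 (.leaf 320 1791 (.cons 224 (.leaf 199 1599 (.cons 297 (.leaf 200 1604 (.leaf 321 1796 .nil)) .nil)) .nil)) (.cons 296 (.leaf 320 1791 (.cons 224 (.cons 297 (.leaf 200 1604 (.leaf 321 1796 .nil)) (.cons 225 (.leaf 201 1605 (.leaf 226 1778 .nil)) .nil)) .nil)) (.cons 199 (.leaf 175 1404 (.cons 271 (.cons 174 (.leaf 198 1399 (.cons 200 (.leaf 176 1405 (.cons 224 (.leaf 295 1597 (.leaf 297 1604 .nil)) .nil)) .nil)) (.cons 270 (.leaf 294 1590 (.cons 198 (.leaf 174 1399 (.cons 269 (.leaf 268 1953 (.cons 293 (.leaf 292 2146 (.leaf 222 1582 .nil)) .nil)) .nil)) .nil)) (.cons 200 (.leaf 176 1405 (.cons 224 (.leaf 295 1597 (.leaf 297 1604 .nil)) .nil)) .nil))) .nil)) (.cons 199 (.leaf 175 1404 (.cons 296 (.leaf 271 1596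 (.leaf 320 1791 .nil)) .nil)) .nil)))) .nil)) .nil)) (.cons 273 (.leaf 274 1979 (.cons 246 (.leaf 245 1960 (.cons 249 (.cons 221 (.leaf 222 1771 (.cons 225 (.leaf 226 1777 (.cons 201 (.leaf 177 1414 (.leaf 296 1606 .nil)) .nil)) .nil)) (.cons 221 (.leaf 222 1771 (.cons 270 (.leaf 269 1962 (.cons 271 (.leaf 250 1969 (.cons 293 (.leaf 294 2154 (.cons 297 (.leaf 298 2160 (.cons 224 (.leaf 200 1604 (.leaf 321 1799 .nil)) .nil)) .nil)) .nil)) .nil)) .nil)) (.cons 225 (.leaf 226 1777 (.cons 201 (.leaf 177 1414 (.leaf 296 1606 .nil)) .nil)) .nil))) .nil)) .nil)) (.cons 274 (.leaf 273 1979 (.cons 296 (.cons 223 (.leaf 320 1791 (.cons 199 (.leaf 175 1404 (.leaf 224 1599 .nil)) .nil)) (.cons 249 (.leaf 250 1976 (.cons 225 (.leaf 320 1797 (.cons 201 (.leaf 177 1414 (.leaf 224 1605 .nil)) .nil)) .nil)) (.cons 224 t105 (.cons 223 (.leaf 320 1791 (.cons 199 (.leaf 175 1404 (.leaf 271 1596 .nil))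 .nil)) .nil)))) .nil)) (.cons 273 (.leaf 274 1979 (.cons 246 t104 .nil)) (.cons 273 (.leaf 274 1979 (.cons 246 (.leaf 245 1960 (.cons 249 (.cons 225 (.leaf 226 1777 (.cons 201 (.leaf 177 1414 (.leaf 296 1606 .nil)) .nil)) (.cons 222 (.leaf 221 1771 (.cons 223 (.leaf 250 1779 (.cons 199 (.leaf 175 1404 (.cons 270 (.leaf 269 1962 (.leaf 294 1589 .nil)) .nil)) .nil)) .nil)) .nil)) .nil)) .nil)) (.cons 273 (.leaf 274 1979 (.cons 246 (.leaf 245 1960 (.cons 249 (.cons 270 (.leaf 269 1962 (.cons 222 (.leaf 221 1771 (.cons 223 (.leaf 250 1779 (.cons 199 (.leaf 175 1404 (.leaf 294 1589 .nil)) .nil)) .nil)) .nil)) (.cons 222 (.leaf 221 1771 (.cons 223 (.leaf 250 1779 (.cons 199 (.leaf 175 1404 (.cons 296 (.leaf 224 1599 (.leaf 271 1596 .nil)) .nil)) .nil)) .nil)) (.cons 270 (.leaf 269 1962 (.cons 222 (.leaf 221 1771 (.cons 223 (.cons 199 (.leaf 175 1404 (.leaf 294 1589 .nil)) (.cons 294 (.leaf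 318 1781 (.cons 293 (.leaf 271 2154 (.leaf 317 1774 .nil)) .nil)) (.cons 199 (.leaf 175 1404 (.cons 296 (.leaf 224 1599 (.leaf 271 1596 .nil)) .nil)) .nil))) .nil)) .nil)) (.cons 270 (.leaf 269 1962 (.cons 250 (.leaf 271 1969 (.cons 227 (.leaf 226 1785 (.cons 251 (.leaf 252 1986 (.leaf 228 1793 .nil)) .nil)) .nil)) .nil)) .nil)))) .nil)) .nil)) (.cons 274 (.leaf 273 1979 (.cons 296 t103 .nil)) (.cons 273 (.leaf 274 1979 (.cons 246 t102 .nil)) .nil)))))))))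
noncomputable def t107 : T := .cons 270 (.leaf 269 1962 (.cons 222 (.leaf 221 1771 (.cons 225 (.leaf 226 1777 (.cons 201 (.leaf 177 1414 (.cons 200 (.leaf 176 1415 (.cons 202 (.leaf 178 1421 (.cons 199 (.leaf 223 1586 (.cons 175 (.leaf 224 1407 (.leaf 198 1397 .nil)) .nil)) .nil)) .nil)) .nil)) .nil)) .nil)) .nil)) (.cons 225 (.leaf 226 1777 (.cons 201 (.leaf 177 1414 (.cons 178 (.leaf 202 1421 (.cons 200 (.leaf 176 1415 (.cons 224 (.leaf 297 1604 (.cons 199 (.leaf 175 1407 (.cons 198 (.leaf 197 1576 (.cons 174 (.leaf 173 1387 (.cons 271 (.leaf 295 1598 (.leaf 223 1399 .nil)) .nil)) .nil)) .nil)) .nil)) .nil)) .nil)) .nil)) .nil)) (.cons 270 (.leaf 269 1962 (.cons 222 (.leaf 221 1771 (.cons 271 (.cons 198 (.leaf 174 1396 (.leaf 295 1588 .nil)) (.cons 174 (.leaf 198 1396 (.cons 293 (.leaf 294 2154 (.cons 297 (.leaf 298 2160 (.cons 224 (.leaf 200 1604 (.leaf 321 1799 .nil)) .nil)) .nil))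 .nil)) (.cons 293 (.leaf 294 2154 (.cons 295 (.leaf 319 1783 (.cons 224 (.leaf 200 1598 (.cons 297 (.leaf 298 2160 (.leaf 321 1799 .nil)) .nil)) .nil)) .nil)) .nil))) .nil)) .nil)) (.cons 270 (.leaf 269 1962 (.cons 222 (.leaf 221 1771 (.cons 225 (.leaf 226 1777 (.cons 201 (.leaf 177 1414 (.cons 200 (.leaf 176 1415 (.cons 202 (.leaf 178 1421 (.cons 199 (.leaf 223 1586 (.cons 175 (.leaf 198 1397 (.leaf 174 1395 .nil)) .nil)) .nil)) .nil)) .nil)) .nil)) .nil)) .nil)) (.cons 270 (.leaf 269 1962 (.cons 222 (.leaf 221 1771 (.cons 225 (.leaf 226 1777 (.cons 201 (.leaf 177 1414 (.cons 202 (.leaf 178 1421 (.cons 223 (.leaf 224 1585 (.cons 199 (.leaf 175 1404 (.leaf 294 1589 .nil)) .nil)) .nil)) .nil)) .nil)) .nil)) .nil)) .nil))))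
noncomputable def t108 : T := .cons 199 (.leaf 223 1599 (.cons 201 (.leaf 225 1605 (.cons 319 (.leaf 295 1790 (.cons 320 (.leaf 343 1982 (.cons 344 (.leaf 249 1989 (.cons 345 (.leaf 321 1988 (.leaf 369 2180 .nil)) .nil)) .nil)) .nil)) .nil)) .nil)) (.cons 199 (.leaf 223 1599 (.cons 295 (.leaf 319 1790 (.cons 294 (.leaf 293 2153 (.cons 297 (.leaf 321 1796 (.cons 270 (.leaf 269 2155 (.cons 271 (.leaf 298 2160 (.cons 245 (.leaf 246 1963 (.cons 318 (.leaf 317 2346 (.cons 342 (.leaf 366 2165 (.leaf 247 1973 .nil)) .nil)) .nil)) .nil)) .nil)) .nil)) .nil)) .nil)) .nil)) (.cons 199 (.leaf 223 1599 (.cons 201 (.leaf 225 1605 (.cons 319 (.leaf 295 1790 (.cons 320 (.leaf 343 1982 (.cons 344 (.leaf 249 1989 (.cons 247 (.leaf 271 1983 (.cons 245 (.leaf 246 1960 (.cons 368 (.leaf 297 2181 (.cons 369 (.leaf 345 2180 (.leaf 393 2372 .nil)) .nil)) .nil)) .nil)) .nil)) .nil)) .nil)) .nil)) .nil))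 (.cons 321 (.leaf 297 1796 (.cons 201 (.leaf 225 1605 (.cons 320 (.leaf 345 1988 (.cons 344 (.leaf 249 1989 (.cons 271 (.leaf 247 1983 (.cons 367 (.leaf 343 2174 (.cons 368 (.leaf 295 2175 (.leaf 391 2366 .nil)) .nil)) .nil)) .nil)) .nil)) .nil)) .nil)) (.cons 321 (.leaf 297 1796 (.cons 199 (.leaf 223 1599 (.cons 320 (.leaf 345 1988 (.cons 343 (.leaf 319 1982 (.cons 344 (.leaf 249 1989 (.leaf 367 2174 .nil)) .nil)) .nil)) .nil)) .nil)) .nil))))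
noncomputable def t109 : T := .cons 295 (.leaf 274 2170 (.cons 294 (.leaf 293 2153 (.cons 297 (.cons 318 (.leaf 317 2346 (.cons 269 (.leaf 270 2155 (.cons 319 (.leaf 224 1790 (.leaf 298 2354 .nil)) .nil)) .nil)) (.cons 318 (.leaf 317 2346 (.cons 269 (.leaf 270 2155 (.cons 319 (.leaf 298 2354 (.cons 343 (.leaf 271 1981 (.leaf 320 1982 .nil)) .nil)) .nil)) .nil)) (.cons 321 (.leaf 224 1796 (.leaf 345 1991 .nil)) .nil))) .nil)) .nil)) (.cons 224 (.cons 199 (.leaf 223 1599 (.cons 201 (.leaf 225 1605 (.cons 321 (.leaf 297 1796 (.cons 320 (.leaf 345 1988 (.cons 343 (.leaf 319 1982 (.cons 344 (.leaf 249 1989 (.leaf 367 2174 .nil)) .nil)) .nil)) .nil)) .nil)) .nil)) (.cons 225 (.leaf 201 1605 (.cons 320 (.leaf 249 1797 (.cons 199 (.leaf 223 1599 (.cons 175 (.leaf 200 1407 (.cons 343 (.leaf 319 1982 (.cons 344 (.leaf 367 2174 (.cons 345 (.leaf 321 1988 (.leaf 369 2180 .nil)) .nil)) .nil))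 .nil)) .nil)) .nil)) .nil)) (.cons 199 (.leaf 223 1599 (.cons 200 (.leaf 175 1407 (.leaf 297 1604 .nil)) .nil)) (.cons 297 (.leaf 200 1604 (.leaf 321 1796 .nil)) .nil)))) (.cons 295 (.leaf 274 2170 (.cons 294 (.leaf 293 2153 (.cons 297 (.cons 318 (.leaf 317 2346 (.cons 269 (.leaf 270 2155 (.cons 319 (.leaf 298 2354 (.cons 343 (.leaf 271 1981 (.leaf 320 1982 .nil)) .nil)) .nil)) .nil)) (.cons 321 (.leaf 345 1991 (.leaf 322 2352 .nil)) .nil)) .nil)) .nil)) (.cons 295 (.leaf 274 2170 (.cons 224 (.leaf 319 1790 (.cons 200 (.leaf 271 1598 (.cons 201 (.leaf 177 1413 (.leaf 225 1605 .nil)) .nil)) .nil)) .nil)) (.cons 295 (.leaf 274 2170 (.cons 294 (.leaf 293 2153 (.cons 297 (.cons 321 (.leaf 224 1796 (.leaf 345 1991 .nil)) (.cons 270 (.leaf 269 2155 (.cons 271 (.leaf 298 2160 (.cons 224 (.leaf 200 1604 (.cons 201 (.leaf 225 1605 (.cons 223 (.leaf 199 1599 (.cons 246 (.leaf 245 1963 (.cons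 222 (.leaf 198 1588 (.cons 221 (.leaf 249 1768 (.leaf 197 1583 .nil)) .nil)) .nil)) .nil)) .nil)) .nil)) .nil)) .nil)) (.cons 321 (.leaf 345 1991 (.leaf 322 2352 .nil)) .nil))) .nil)) .nil)) .nil))))
noncomputable def t110 : T := .cons 247 (.leaf 274 1979 (.cons 246 (.leaf 245 1960 (.cons 249 (.cons 270 (.leaf 269 1962 (.cons 222 (.leaf 221 1771 (.cons 223 (.cons 199 (.leaf 175 1404 (.leaf 294 1589 .nil)) (.cons 225 (.leaf 226 1777 (.cons 201 (.leaf 177 1414 (.leaf 296 1606 .nil)) .nil)) .nil)) .nil)) .nil)) (.cons 270 (.leaf 269 1962 (.cons 222 (.leaf 221 1771 (.cons 223 (.cons 199 (.leaf 175 1404 (.leaf 294 1589 .nil)) (.cons 294 (.leaf 318 1781 (.cons 293 (.leaf 271 2154 (.leaf 317 1774 .nil)) .nil)) (.cons 199 (.leaf 175 1404 (.cons 296 (.leaf 224 1599 (.leaf 271 1596 .nil)) .nil)) .nil))) .nil)) .nil)) (.cons 225 (.leaf 226 1777 (.cons 201 (.leaf 177 1414 (.leaf 296 1606 .nil))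 .nil)) (.cons 270 (.leaf 269 1962 (.cons 222 (.leaf 221 1771 (.cons 225 (.leaf 226 1777 (.cons 201 (.leaf 177 1414 (.cons 200 (.leaf 176 1415 (.cons 202 (.leaf 178 1421 (.cons 199 (.leaf 223 1586 (.cons 175 (.leaf 224 1407 (.leaf 198 1397 .nil)) .nil)) .nil)) .nil)) .nil)) .nil)) .nil)) .nil)) .nil)))) .nil)) .nil)) (.cons 296 t109 (.cons 224 (.cons 200 (.leaf 297 1604 (.cons 176 (.leaf 249 1412 (.cons 177 (.leaf 201 1413 (.leaf 153 1221 .nil)) .nil)) .nil)) (.cons 296 t108 (.cons 200 (.cons 176 (.leaf 249 1412 (.cons 177 (.leaf 201 1413 (.leaf 153 1221 .nil)) .nil)) (.cons 177 (.leaf 201 1413 (.cons 199 (.leaf 175 1407 (.cons 295 (.leaf 271 1598 (.cons 296 (.leaf 223 1599 (.leaf 319 1790 .nil)) .nil)) .nil)) .nil)) (.cons 175 (.leaf 199 1407 (.cons 176 (.leaf 151 1215 (.leaf 249 1412 .nil)) .nil)) .nil))) (.cons 200 (.leaf 297 1604 (.cons 177 (.leaf 201 1413 (.cons 176 (.leaf 153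 1221 (.cons 271 (.leaf 295 1598 (.leaf 247 1406 .nil)) .nil)) .nil)) .nil)) (.cons 200 (.leaf 297 1604 (.cons 175 (.leaf 199 1407 (.cons 176 (.leaf 151 1215 (.leaf 249 1412 .nil)) .nil)) .nil)) .nil))))) (.cons 247 (.leaf 274 1979 (.cons 246 (.leaf 245 1960 (.cons 249 t107 .nil)) .nil)) (.cons 247 (.leaf 274 1979 (.cons 246 (.leaf 245 1960 (.cons 249 (.cons 270 (.leaf 269 1962 (.cons 222 (.leaf 221 1771 (.cons 225 (.leaf 226 1777 (.cons 201 (.leaf 177 1414 (.leaf 296 1606 .nil)) .nil)) .nil)) .nil)) (.cons 270 (.leaf 269 1962 (.cons 222 (.leaf 221 1771 (.cons 223 (.cons 199 (.leaf 175 1404 (.leaf 294 1589 .nil)) (.cons 294 (.leaf 318 1781 (.cons 293 (.leaf 271 2154 (.leaf 317 1774 .nil)) .nil)) (.cons 199 (.leaf 175 1404 (.cons 296 (.leaf 271 1596 (.leaf 320 1791 .nil)) .nil)) .nil))) .nil)) .nil)) (.cons 225 (.leaf 226 1777 (.cons 201 (.leaf 177 1414 (.leaf 296 1606 .nil)) .nil))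 (.cons 270 (.leaf 269 1962 (.cons 222 (.leaf 221 1771 (.cons 225 (.leaf 226 1777 (.cons 201 (.leaf 177 1414 (.cons 200 (.leaf 176 1415 (.cons 202 (.leaf 178 1421 (.cons 199 (.leaf 223 1586 (.cons 175 (.leaf 198 1397 (.leaf 174 1395 .nil)) .nil)) .nil)) .nil)) .nil)) .nil)) .nil)) .nil)) .nil)))) .nil)) .nil)) (.cons 274 (.leaf 247 1979 (.cons 296 (.leaf 295 2170 (.cons 251 (.leaf 252 1985 (.cons 320 (.cons 321 (.leaf 345 1988 (.cons 224 (.leaf 297 1796 (.cons 199 (.leaf 223 1599 (.cons 200 (.leaf 175 1407 (.cons 201 (.leaf 177 1413 (.leaf 225 1605 .nil)) .nil)) .nil)) .nil)) .nil)) (.cons 343 (.leaf 319 1982 (.cons 344 (.leaf 367 2174 (.cons 368 (.leaf 297 2181 (.cons 369 (.leaf 345 2180 (.leaf 393 2372 .nil)) .nil)) .nil)) .nil)) (.cons 343 (.leaf 319 1982 (.cons 344 (.leaf 367 2174 (.cons 297 (.leaf 368 2181 (.cons 224 (.leaf 200 1604 (.leaf 321 1796 .nil)) .nil)) .nil)) .nil))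 (.cons 343 (.leaf 319 1982 (.cons 344 (.leaf 367 2174 (.cons 345 (.leaf 321 1988 (.leaf 369 2180 .nil)) .nil)) .nil)) .nil)))) .nil)) .nil)) .nil)) (.cons 274 (.leaf 247 1979 (.cons 296 (.leaf 295 2170 (.cons 320 (.cons 251 (.leaf 252 1985 (.cons 343 (.leaf 319 1982 (.cons 344 (.leaf 249 1989 (.leaf 367 2174 .nil)) .nil)) .nil)) (.cons 251 (.leaf 252 1985 (.cons 343 (.leaf 319 1982 (.cons 344 (.leaf 367 2174 (.cons 345 (.leaf 321 1988 (.leaf 369 2180 .nil)) .nil)) .nil)) .nil)) (.cons 319 (.leaf 343 1982 (.cons 321 (.leaf 345 1988 (.cons 297 (.leaf 224 1796 (.cons 318 (.leaf 317 2345 (.leaf 298 2353 .nil)) .nil)) .nil)) .nil)) (.cons 249 (.leaf 225 1797 (.leaf 344 1989 .nil)) .nil)))) .nil)) .nil)) (.cons 274 (.leaf 247 1979 (.cons 296 (.leaf 295 2170 (.cons 224 (.cons 199 (.leaf 223 1599 (.cons 200 (.leaf 175 1407 (.leaf 297 1604 .nil)) .nil)) (.cons 199 (.leaf 223 1599 (.cons 200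 (.leaf 175 1407 (.cons 176 (.leaf 249 1412 (.cons 177 (.leaf 201 1413 (.leaf 153 1221 .nil)) .nil)) .nil)) .nil)) (.cons 199 (.leaf 223 1599 (.cons 321 (.leaf 297 1796 (.cons 320 (.leaf 345 1988 (.cons 343 (.leaf 319 1982 (.cons 344 (.leaf 249 1989 (.leaf 367 2174 .nil)) .nil)) .nil)) .nil)) .nil)) (.cons 297 (.leaf 200 1604 (.leaf 321 1796 .nil)) .nil)))) .nil)) .nil)) .nil)))))))
noncomputable def t111 : T := .cons 222 (.leaf 221 1771 (.cons 223 (.leaf 250 1779 (.cons 199 (.leaf 175 1404 (.cons 270 (.leaf 269 1962 (.leaf 294 1589 .nil)) .nil)) .nil)) .nil)) (.cons 222 (.leaf 221 1771 (.cons 223 (.leaf 250 1779 (.cons 199 (.leaf 175 1404 (.cons 296 (.leaf 224 1599 (.leaf 271 1596 .nil)) .nil)) .nil)) .nil)) (.cons 270 (.leaf 269 1962 (.cons 250 (.leaf 271 1969 (.cons 251 (.leaf 252 1986 (.cons 224 (.leaf 223 1787 (.cons 200 (.leaf 176 1412 (.cons 175 (.leaf 199 1407 (.cons 201 (.leaf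 177 1413 (.cons 296 (.leaf 225 1605 (.cons 227 (.leaf 228 1793 (.cons 319 (.leaf 295 1790 (.cons 320 (.leaf 343 1982 (.leaf 344 1989 .nil)) .nil)) .nil)) .nil)) .nil)) .nil)) .nil)) .nil)) .nil)) .nil)) .nil)) (.cons 270 (.leaf 269 1962 (.cons 271 (.leaf 250 1969 (.cons 221 (.leaf 222 1771 (.cons 294 (.leaf 293 2154 (.cons 318 (.leaf 342 1973 (.cons 319 (.leaf 343 1972 (.cons 295 (.leaf 224 1789 (.cons 317 (.leaf 341 1966 (.cons 316 (.leaf 315 2329 (.leaf 296 2337 .nil)) .nil)) .nil)) .nil)) .nil)) .nil)) .nil)) .nil)) .nil)) (.cons 270 (.leaf 269 1962 (.cons 222 (.leaf 221 1771 (.cons 223 (.cons 199 (.leaf 175 1404 (.leaf 294 1589 .nil)) (.cons 294 (.leaf 318 1781 (.cons 293 (.leaf 271 2154 (.leaf 317 1774 .nil)) .nil)) (.cons 199 (.leaf 175 1404 (.cons 296 (.leaf 224 1599 (.leaf 271 1596 .nil)) .nil)) .nil))) .nil)) .nil)) .nil))))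
noncomputable def t112 : T := .leaf 273 1979 (.cons 296 (.cons 223 (.leaf 320 1791 (.cons 199 (.leaf 175 1404 (.leaf 224 1599 .nil)) .nil)) (.cons 224 (.cons 223 (.leaf 199 1599 (.cons 225 (.leaf 201 1605 (.cons 226 (.leaf 227 1786 (.leaf 246 1778 .nil)) .nil)) .nil)) (.cons 225 (.leaf 201 1605 (.cons 226 (.leaf 227 1786 (.cons 246 (.leaf 245 1769 (.leaf 249 1777 .nil)) .nil)) .nil)) (.cons 223 (.leaf 199 1599 (.cons 249 (.leaf 250 1976 (.cons 221 (.leaf 222 1768 (.cons 295 (.leaf 319 1790 (.cons 200 (.leaf 271 1597 (.cons 176 (.leaf 152 1214 (.cons 177 (.leaf 201 1413 (.leaf 153 1221 .nil)) .nil)) .nil)) .nil)) .nil)) .nil)) .nil)) (.cons 223 (.leaf 199 1599 (.cons 249 (.leaf 250 1976 (.cons 222 (.leaf 221 1768 (.cons 295 (.leaf 319 1790 (.cons 271 (.leaf 200 1597 (.leaf 198 1591 .nil)) .nil)) .nil)) .nil)) .nil)) .nil)))) (.cons 249 (.leaf 250 1976 (.cons 225 (.leaf 320 1797 (.cons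 201 (.leaf 177 1414 (.leaf 224 1605 .nil)) .nil)) .nil)) (.cons 223 (.leaf 320 1791 (.cons 199 (.leaf 175 1404 (.leaf 271 1596 .nil)) .nil)) .nil)))) .nil)
noncomputable def t113 : T := .cons 221 (.leaf 222 1771 (.cons 226 (.leaf 225 1777 (.cons 250 (.leaf 227 1785 (.cons 271 (.leaf 251 1978 (.leaf 270 1969 .nil)) .nil)) .nil)) .nil)) (.cons 221 (.leaf 222 1771 (.cons 226 (.leaf 225 1777 (.cons 250 (.leaf 227 1785 (.cons 251 (.leaf 271 1978 (.leaf 252 1986 .nil)) .nil)) .nil)) .nil)) (.cons 270 (.leaf 269 1962 (.cons 250 (.leaf 271 1969 (.cons 227 (.leaf 226 1785 (.cons 251 (.leaf 252 1986 (.leaf 228 1793 .nil)) .nil)) .nil)) .nil)) (.cons 222 (.leaf 221 1771 (.cons 225 (.leaf 226 1777 (.cons 201 (.leaf 177 1414 (.cons 200 (.leaf 176 1415 (.cons 202 (.leaf 178 1421 (.cons 199 (.leaf 223 1586 (.cons 174 (.leaf 175 1395 (.cons 198 (.leaf 271 1396 (.leaf 173 1387 .nil)) .nil)) .nil))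 .nil)) .nil)) .nil)) .nil)) .nil)) (.cons 222 (.leaf 221 1771 (.cons 225 (.leaf 226 1777 (.cons 201 (.leaf 177 1414 (.cons 202 (.leaf 178 1421 (.cons 223 (.leaf 250 1779 (.leaf 224 1585 .nil)) .nil)) .nil)) .nil)) .nil)) (.cons 221 (.leaf 222 1771 (.cons 270 (.leaf 269 1962 (.cons 271 (.leaf 250 1969 (.cons 294 (.leaf 293 2154 (.cons 223 (.leaf 199 1590 (.leaf 318 1781 .nil)) .nil)) .nil)) .nil)) .nil)) .nil)))))
noncomputable def t114 : T := .cons 223 (.leaf 320 1791 (.cons 199 (.leaf 175 1404 (.leaf 224 1599 .nil)) .nil)) (.cons 224 (.cons 199 (.leaf 223 1599 (.cons 200 (.leaf 175 1407 (.cons 201 (.leaf 177 1413 (.leaf 225 1605 .nil)) .nil)) .nil)) (.cons 295 (.leaf 319 1790 (.cons 200 (.leaf 271 1598 (.cons 201 (.leaf 177 1413 (.leaf 225 1605 .nil)) .nil)) .nil)) (.cons 223 (.leaf 199 1599 (.cons 249 (.leaf 250 1976 (.cons 221 (.leaf 222 1768 (.cons 295 (.leaf 319 1790 (.cons 200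 (.leaf 271 1597 (.cons 176 (.leaf 152 1214 (.cons 177 (.leaf 201 1413 (.leaf 153 1221 .nil)) .nil)) .nil)) .nil)) .nil)) .nil)) .nil)) (.cons 223 (.leaf 199 1599 (.cons 249 (.leaf 250 1976 (.cons 221 (.leaf 222 1768 (.cons 295 (.leaf 319 1790 (.cons 271 (.leaf 200 1597 (.cons 269 (.leaf 270 1961 (.cons 294 (.leaf 318 1782 (.cons 293 (.leaf 292 2145 (.leaf 268 2147 .nil)) .nil)) .nil)) .nil)) .nil)) .nil)) .nil)) .nil)) (.cons 223 (.leaf 199 1599 (.cons 225 (.leaf 201 1605 (.cons 226 (.leaf 227 1786 (.cons 250 (.leaf 249 1976 (.leaf 251 1784 .nil)) .nil)) .nil)) .nil)) .nil))))) (.cons 249 (.leaf 250 1976 (.cons 225 (.leaf 320 1797 (.cons 201 (.leaf 177 1414 (.leaf 224 1605 .nil)) .nil)) .nil)) (.cons 223 (.leaf 320 1791 (.cons 199 (.leaf 175 1404 (.leaf 271 1596 .nil)) .nil)) .nil)))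
noncomputable def t115 : T := .cons 199 (.leaf 175 1404 (.cons 296 (.leaf 224 1599 (.leaf 271 1596 .nil)) .nil)) (.cons 296 (.leaf 320 1791 (.cons 224 (.cons 225 (.leaf 201 1605 (.leaf 226 1778 .nil)) (.cons 295 (.leaf 319 1790 (.cons 200 (.leaf 271 1597 (.cons 176 (.leaf 152 1214 (.cons 177 (.leaf 201 1413 (.leaf 153 1221 .nil)) .nil)) .nil)) .nil)) (.cons 225 (.leaf 226 1778 (.cons 295 (.leaf 319 1790 (.cons 271 (.leaf 200 1597 (.cons 294 (.leaf 293 2153 (.leaf 318 1782 .nil)) .nil)) .nil)) .nil)) .nil))) .nil)) (.cons 199 (.leaf 175 1404 (.cons 271 (.cons 174 (.leaf 198 1399 (.cons 294 (.leaf 270 1590 (.cons 295 (.leaf 318 1782 (.cons 319 (.leaf 343 1981 (.leaf 224 1789 .nil)) .nil)) .nil)) .nil)) (.cons 200 (.leaf 176 1405 (.cons 224 (.leaf 295 1597 (.cons 201 (.leaf 177 1413 (.cons 202 (.leaf 222 1586 (.leaf 203 1594 .nil)) .nil)) .nil)) .nil)) (.cons 270 (.leaf 294 1590 (.cons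 198 (.leaf 174 1399 (.cons 269 (.leaf 268 1953 (.cons 293 (.leaf 292 2146 (.leaf 222 1582 .nil)) .nil)) .nil)) .nil)) .nil))) .nil)) (.cons 199 (.leaf 175 1404 (.cons 296 (.leaf 271 1596 (.leaf 320 1791 .nil)) .nil)) (.cons 199 (.leaf 175 1404 (.cons 296 (.leaf 224 1599 (.leaf 320 1791 .nil)) .nil)) .nil))))
noncomputable def t116 : T := .cons 199 (.leaf 175 1404 (.cons 296 (.leaf 224 1599 (.leaf 271 1596 .nil)) .nil)) (.cons 296 (.leaf 320 1791 (.cons 224 (.cons 225 (.leaf 201 1605 (.cons 226 (.leaf 227 1786 (.leaf 246 1778 .nil)) .nil)) (.cons 295 (.leaf 319 1790 (.cons 271 (.leaf 200 1597 (.cons 222 (.leaf 198 1591 (.cons 221 (.leaf 220 1760 (.leaf 249 1768 .nil)) .nil)) .nil)) .nil)) .nil)) .nil)) (.cons 199 (.leaf 175 1404 (.cons 271 (.cons 198 (.leaf 174 1399 (.cons 222 (.leaf 295 1591 (.cons 221 (.leaf 220 1760 (.cons 249 (.leaf 224 1768 (.leaf 246 1771 .nil)) .nil)) .nil))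 .nil)) (.cons 198 (.leaf 174 1399 (.cons 222 (.leaf 295 1591 (.cons 220 (.leaf 221 1760 (.cons 270 (.leaf 294 1590 (.cons 269 (.leaf 249 1961 (.leaf 268 1953 .nil)) .nil)) .nil)) .nil)) .nil)) (.cons 270 (.leaf 294 1590 (.cons 249 (.leaf 269 1961 (.leaf 250 1970 .nil)) .nil)) (.cons 198 (.leaf 174 1399 (.cons 222 (.leaf 295 1591 (.cons 220 (.leaf 221 1760 (.cons 270 (.leaf 294 1590 (.cons 269 (.leaf 268 1953 (.cons 293 (.leaf 292 2146 (.leaf 246 1582 .nil)) .nil)) .nil)) .nil)) .nil)) .nil)) .nil)))) .nil)) (.cons 199 (.leaf 175 1404 (.cons 296 (.leaf 271 1596 (.leaf 320 1791 .nil)) .nil)) (.cons 199 (.leaf 175 1404 (.cons 296 (.leaf 224 1599 (.leaf 320 1791 .nil)) .nil)) .nil))))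
noncomputable def t117 : T := .cons 273 (.leaf 274 1979 (.cons 246 (.leaf 245 1960 (.cons 249 (.cons 270 (.leaf 269 1962 (.cons 222 (.leaf 221 1771 (.cons 225 (.leaf 226 1777 (.cons 201 (.leaf 177 1414 (.leaf 296 1606 .nil)) .nil)) .nil)) .nil)) (.cons 222 (.leaf 221 1771 (.cons 223 (.leaf 250 1779 (.cons 199 (.leaf 175 1404 (.cons 296 (.leaf 224 1599 (.leaf 271 1596 .nil)) .nil)) .nil)) .nil)) (.cons 270 (.leaf 269 1962 (.cons 250 (.leaf 271 1969 (.cons 227 (.leaf 226 1785 (.cons 251 (.leaf 252 1986 (.leaf 228 1793 .nil)) .nil)) .nil)) .nil)) .nil))) .nil)) .nil)) (.cons 223 t116 (.cons 273 (.leaf 274 1979 (.cons 246 (.leaf 245 1960 (.cons 223 t115 .nil)) .nil)) (.cons 273 (.leaf 274 1979 (.cons 246 (.leaf 245 1960 (.cons 249 (.cons 221 (.leaf 222 1771 (.cons 225 (.leaf 226 1777 (.cons 201 (.leaf 177 1414 (.leaf 296 1606 .nil)) .nil)) .nil)) (.cons 270 (.leaf 269 1962 (.cons 271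 (.leaf 250 1969 (.cons 221 (.leaf 222 1771 (.cons 294 (.leaf 293 2154 (.cons 318 (.leaf 342 1973 (.cons 319 (.leaf 343 1972 (.cons 295 (.leaf 224 1789 (.cons 317 (.leaf 341 1966 (.cons 316 (.leaf 315 2329 (.leaf 296 2337 .nil)) .nil)) .nil)) .nil)) .nil)) .nil)) .nil)) .nil)) .nil)) (.cons 225 (.leaf 226 1777 (.cons 201 (.leaf 177 1414 (.leaf 296 1606 .nil)) .nil)) (.cons 270 (.leaf 269 1962 (.cons 250 (.leaf 271 1969 (.cons 227 (.leaf 226 1785 (.cons 251 (.leaf 252 1986 (.leaf 228 1793 .nil)) .nil)) .nil)) .nil)) .nil)))) .nil)) .nil)) (.cons 273 (.leaf 274 1979 (.cons 246 (.leaf 245 1960 (.cons 249 (.cons 222 (.leaf 221 1771 (.cons 225 (.leaf 226 1777 (.cons 201 (.leaf 177 1414 (.leaf 296 1606 .nil)) .nil)) .nil)) (.cons 222 (.leaf 221 1771 (.cons 223 (.leaf 250 1779 (.cons 199 (.leaf 175 1404 (.cons 270 (.leaf 269 1962 (.leaf 294 1589 .nil)) .nil)) .nil)) .nil)) (.cons 225 (.leaf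 226 1777 (.cons 201 (.leaf 177 1414 (.leaf 296 1606 .nil)) .nil)) .nil))) .nil)) .nil)) (.cons 274 (.leaf 273 1979 (.cons 296 t114 .nil)) (.cons 273 (.leaf 274 1979 (.cons 246 (.leaf 245 1960 (.cons 249 t113 .nil)) .nil)) (.cons 273 (.leaf 274 1979 (.cons 246 (.leaf 245 1960 (.cons 249 (.cons 222 (.leaf 221 1771 (.cons 223 (.leaf 250 1779 (.cons 199 (.leaf 175 1404 (.cons 270 (.leaf 269 1962 (.leaf 294 1589 .nil)) .nil)) .nil)) .nil)) (.cons 222 (.leaf 221 1771 (.cons 223 (.leaf 250 1779 (.cons 199 (.leaf 175 1404 (.cons 296 (.leaf 224 1599 (.leaf 271 1596 .nil)) .nil)) .nil)) .nil)) (.cons 270 (.leaf 269 1962 (.cons 250 (.leaf 271 1969 (.cons 227 (.leaf 226 1785 (.cons 251 (.leaf 252 1986 (.leaf 228 1793 .nil)) .nil)) .nil)) .nil)) (.cons 270 (.leaf 269 1962 (.cons 222 (.leaf 221 1771 (.cons 223 (.cons 199 (.leaf 175 1404 (.leaf 294 1589 .nil)) (.cons 294 (.leaf 318 1781 (.cons 293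 (.leaf 271 2154 (.leaf 317 1774 .nil)) .nil)) (.cons 199 (.leaf 175 1404 (.cons 296 (.leaf 224 1599 (.leaf 271 1596 .nil)) .nil)) .nil))) .nil)) .nil)) .nil)))) .nil)) .nil)) (.cons 274 t112 (.cons 274 (.leaf 273 1979 (.cons 296 (.cons 223 (.leaf 320 1791 (.cons 199 (.leaf 175 1404 (.leaf 224 1599 .nil)) .nil)) (.cons 224 (.cons 225 (.leaf 201 1605 (.cons 226 (.leaf 227 1786 (.cons 246 (.leaf 245 1769 (.leaf 249 1777 .nil)) .nil)) .nil)) (.cons 199 (.leaf 223 1599 (.cons 200 (.leaf 175 1407 (.cons 176 (.leaf 271 1406 (.cons 177 (.leaf 201 1413 (.leaf 153 1221 .nil)) .nil)) .nil)) .nil)) (.cons 199 (.leaf 223 1599 (.cons 200 (.leaf 175 1407 (.cons 176 (.leaf 271 1406 (.cons 153 (.leaf 177 1221 (.cons 152 (.leaf 129 1029 (.cons 249 (.leaf 250 1976 (.leaf 225 1220 .nil)) .nil)) .nil)) .nil)) .nil)) .nil)) .nil))) (.cons 249 (.leaf 250 1976 (.cons 225 (.leaf 320 1797 (.cons 201 (.leaf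 177 1414 (.leaf 224 1605 .nil)) .nil)) .nil)) (.cons 223 (.leaf 320 1791 (.cons 199 (.leaf 175 1404 (.leaf 271 1596 .nil)) .nil)) .nil)))) .nil)) (.cons 273 (.leaf 274 1979 (.cons 246 (.leaf 245 1960 (.cons 249 t111 .nil)) .nil)) .nil))))))))))
noncomputable def t118 : T := .cons 251 (.leaf 252 1985 (.cons 250 (.leaf 271 1977 (.cons 202 (.leaf 226 1614 (.cons 223 (.leaf 249 1787 (.cons 296 (.leaf 295 2170 (.leaf 199 1599 .nil)) .nil)) .nil)) .nil)) .nil)) (.cons 251 (.leaf 252 1985 (.cons 250 (.leaf 271 1977 (.cons 202 (.leaf 226 1614 (.cons 249 (.leaf 223 1787 (.cons 227 (.leaf 228 1793 (.cons 203 (.leaf 178 1431 (.leaf 298 1622 .nil)) .nil)) .nil)) .nil)) .nil)) .nil)) (.cons 295 (.leaf 296 2170 (.cons 271 (.leaf 294 2162 (.cons 270 (.leaf 298 2160 (.cons 249 (.leaf 269 1961 (.leaf 250 1969 .nil)) .nil)) .nil)) .nil)) (.cons 296 (.leaf 295 2170 (.cons 223 (.leaf 199 1599 (.cons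 251 (.leaf 252 1985 (.cons 249 (.leaf 250 1787 (.cons 320 (.leaf 225 1797 (.leaf 344 1989 .nil)) .nil)) .nil)) .nil)) .nil)) (.cons 295 (.leaf 296 2170 (.cons 251 (.leaf 252 1985 (.cons 271 (.leaf 294 2162 (.cons 270 (.leaf 298 2160 (.cons 245 (.leaf 246 1963 (.cons 269 (.leaf 244 1955 (.leaf 249 1961 .nil)) .nil)) .nil)) .nil)) .nil)) .nil)) (.cons 296 (.leaf 295 2170 (.cons 199 (.leaf 223 1599 (.cons 251 (.leaf 252 1985 (.cons 271 (.leaf 250 1977 (.cons 270 (.leaf 269 2152 (.leaf 298 2160 .nil)) .nil)) .nil)) .nil)) .nil)) .nil)))))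
noncomputable def t119 : T := .cons 199 (.leaf 223 1599 (.cons 295 (.leaf 319 1790 (.cons 294 (.leaf 293 2153 (.cons 270 (.leaf 269 2155 (.cons 271 (.leaf 298 2160 (.cons 245 (.leaf 246 1963 (.cons 249 (.leaf 250 1969 (.cons 318 (.leaf 317 2346 (.cons 342 (.leaf 366 2165 (.leaf 247 1973 .nil)) .nil)) .nil)) .nil)) .nil)) .nil)) .nil)) .nil)) .nil)) (.cons 223 (.leaf 199 1599 (.cons 320 (.leaf 247 1791 (.cons 344 (.leaf 249 1989 (.leaf 368 2181 .nil)) .nil)) .nil)) (.cons 295 (.leaf 319 1790 (.cons 294 (.leaf 293 2153 (.cons 270 (.leaf 269 2155 (.cons 271 (.leaf 298 2160 (.cons 245 (.leaf 246 1963 (.cons 249 (.leaf 250 1969 (.cons 318 (.leaf 317 2346 (.cons 342 (.leaf 366 2165 (.leaf 247 1973 .nil)) .nil)) .nil)) .nil)) .nil)) .nil)) .nil)) .nil)) (.cons 199 (.leaf 223 1599 (.cons 295 (.leaf 319 1790 (.cons 294 (.leaf 293 2153 (.cons 270 (.leaf 269 2155 (.cons 271 (.leaf 298 2160 (.cons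 245 (.leaf 246 1963 (.cons 318 (.leaf 317 2346 (.cons 342 (.leaf 366 2165 (.leaf 247 1973 .nil)) .nil)) .nil)) .nil)) .nil)) .nil)) .nil)) .nil)) (.cons 295 (.leaf 319 1790 (.cons 199 (.leaf 223 1599 (.cons 294 (.leaf 293 2153 (.cons 270 (.leaf 269 2155 (.cons 271 (.leaf 298 2160 (.cons 245 (.leaf 246 1963 (.cons 249 (.leaf 250 1969 (.cons 320 (.leaf 225 1797 (.leaf 344 1989 .nil)) .nil)) .nil)) .nil)) .nil)) .nil)) .nil)) .nil)) .nil))))
noncomputable def t120 : T := .cons 274 (.leaf 247 1979 (.cons 251 (.leaf 252 1985 (.cons 271 (.leaf 250 1977 (.cons 294 (.leaf 295 2162 (.cons 270 (.leaf 293 2154 (.cons 245 (.leaf 246 1963 (.cons 269 (.leaf 244 1955 (.leaf 249 1961 .nil)) .nil)) .nil)) .nil)) .nil)) .nil)) .nil)) (.cons 297 (.cons 321 (.leaf 345 1991 (.cons 224 (.leaf 200 1604 (.leaf 296 1796 .nil)) .nil)) (.cons 224 (.leaf 200 1604 (.cons 296 t119 .nil)) (.cons 321 (.leaf 345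 1991 (.cons 249 (.cons 250 (.leaf 226 1805 (.cons 270 (.leaf 271 1969 (.cons 320 (.leaf 344 1990 (.cons 225 (.leaf 296 1797 (.cons 322 (.leaf 298 1804 (.leaf 346 1996 .nil)) .nil)) .nil)) .nil)) .nil)) (.cons 250 (.leaf 226 1805 (.cons 251 (.leaf 271 1978 (.leaf 252 1986 .nil)) .nil)) (.cons 320 (.leaf 344 1990 (.cons 225 (.leaf 296 1797 (.cons 322 (.leaf 298 1804 (.leaf 346 1996 .nil)) .nil)) .nil)) .nil))) .nil)) (.cons 321 (.leaf 345 1991 (.cons 224 (.leaf 200 1604 (.leaf 249 1799 .nil)) .nil)) .nil)))) (.cons 297 (.cons 321 (.leaf 345 1991 (.cons 224 (.leaf 200 1604 (.leaf 296 1796 .nil)) .nil)) (.cons 224 (.leaf 200 1604 (.cons 274 t118 .nil)) (.cons 321 (.leaf 345 1991 (.cons 249 (.cons 250 (.leaf 226 1805 (.cons 270 (.leaf 271 1969 (.cons 320 (.leaf 344 1990 (.cons 225 (.leaf 296 1797 (.cons 322 (.leaf 298 1804 (.leaf 346 1996 .nil)) .nil)) .nil)) .nil)) .nil)) (.cons 250 (.leaf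 226 1805 (.cons 251 (.leaf 271 1978 (.leaf 252 1986 .nil)) .nil)) (.cons 320 (.leaf 344 1990 (.cons 225 (.leaf 296 1797 (.cons 322 (.leaf 298 1804 (.leaf 346 1996 .nil)) .nil)) .nil)) .nil))) .nil)) (.cons 321 (.leaf 345 1991 (.cons 224 (.leaf 200 1604 (.leaf 249 1799 .nil)) .nil)) .nil)))) (.cons 274 (.leaf 247 1979 (.cons 296 (.leaf 295 2170 (.cons 251 (.leaf 252 1985 (.cons 320 (.cons 319 (.leaf 343 1982 (.cons 321 (.leaf 345 1988 (.cons 297 (.leaf 224 1796 (.cons 318 (.leaf 317 2345 (.leaf 298 2353 .nil)) .nil)) .nil)) .nil)) (.cons 249 (.leaf 225 1797 (.leaf 344 1989 .nil)) .nil)) .nil)) .nil)) .nil)) (.cons 274 (.leaf 247 1979 (.cons 251 (.leaf 252 1985 (.cons 271 (.leaf 250 1977 (.cons 295 (.leaf 296 2170 (.leaf 294 2162 .nil)) .nil)) .nil)) .nil)) (.cons 274 (.leaf 247 1979 (.cons 251 (.leaf 252 1985 (.cons 271 (.leaf 250 1977 (.cons 270 (.cons 297 (.leaf 298 2160 (.cons 269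 (.leaf 249 1961 (.leaf 296 2152 .nil)) .nil)) (.cons 297 (.leaf 298 2160 (.cons 224 (.leaf 200 1604 (.cons 321 (.leaf 296 1796 (.leaf 345 1991 .nil)) .nil)) .nil)) (.cons 245 (.leaf 246 1963 (.cons 269 (.leaf 244 1955 (.leaf 249 1961 .nil)) .nil)) .nil))) .nil)) .nil)) .nil)) (.cons 274 (.leaf 247 1979 (.cons 296 (.leaf 295 2170 (.cons 320 (.cons 249 (.leaf 225 1797 (.leaf 344 1989 .nil)) (.cons 319 (.leaf 343 1982 (.cons 321 (.leaf 345 1988 (.cons 297 (.leaf 224 1796 (.cons 318 (.leaf 317 2345 (.leaf 298 2353 .nil)) .nil)) .nil)) .nil)) .nil)) .nil)) .nil)) .nil))))))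
noncomputable def t121 : T := .cons 296 (.leaf 295 2170 (.cons 224 (.cons 199 (.leaf 223 1599 (.cons 200 (.leaf 175 1407 (.leaf 297 1604 .nil)) .nil)) (.cons 199 (.leaf 223 1599 (.cons 200 (.leaf 175 1407 (.cons 176 (.leaf 249 1412 (.cons 177 (.leaf 201 1413 (.leaf 153 1221 .nil)) .nil)) .nil)) .nil)) (.cons 199 (.leaf 223 1599 (.cons 321 (.leaf 297 1796 (.cons 320 (.leaf 345 1988 (.cons 343 (.leaf 319 1982 (.cons 344 (.leaf 249 1989 (.leaf 367 2174 .nil)) .nil)) .nil)) .nil)) .nil)) (.cons 297 (.leaf 200 1604 (.leaf 321 1796 .nil)) .nil)))) .nil)) (.cons 251 (.leaf 252 1985 (.cons 271 (.leaf 250 1977 (.cons 270 (.cons 297 (.leaf 298 2160 (.cons 269 (.leaf 249 1961 (.leaf 296 2152 .nil)) .nil)) (.cons 297 (.leaf 298 2160 (.cons 224 (.leaf 200 1604 (.cons 321 (.leaf 296 1796 (.leaf 345 1991 .nil)) .nil)) .nil)) (.cons 245 (.leaf 246 1963 (.cons 269 (.leaf 244 1955 (.leaf 249 1961 .nil))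 .nil)) .nil))) .nil)) .nil)) (.cons 251 (.leaf 252 1985 (.cons 271 (.leaf 250 1977 (.cons 294 (.leaf 295 2162 (.cons 270 (.leaf 293 2154 (.cons 245 (.leaf 246 1963 (.cons 269 (.leaf 244 1955 (.leaf 249 1961 .nil)) .nil)) .nil)) .nil)) .nil)) .nil)) (.cons 251 (.leaf 252 1985 (.cons 271 (.leaf 250 1977 (.cons 295 (.leaf 296 2170 (.leaf 294 2162 .nil)) .nil)) .nil)) .nil)))
noncomputable def t122 : T := .cons 199 (.leaf 223 1599 (.cons 321 (.leaf 297 1796 (.cons 320 (.leaf 345 1988 (.cons 343 (.leaf 319 1982 (.cons 344 (.leaf 249 1989 (.leaf 367 2174 .nil)) .nil)) .nil)) .nil)) .nil)) (.cons 223 (.leaf 199 1599 (.cons 247 (.leaf 320 1791 (.cons 245 (.leaf 246 1960 (.cons 295 (.leaf 319 1790 (.cons 294 (.leaf 293 2153 (.cons 271 (.leaf 318 1782 (.cons 222 (.leaf 198 1591 (.cons 221 (.leaf 220 1760 (.leaf 249 1768 .nil)) .nil)) .nil)) .nil)) .nil)) .nil)) .nil)) .nil)) (.cons 295 (.leaf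 319 1790 (.cons 293 (.leaf 294 2153 (.cons 321 (.leaf 297 1796 (.cons 320 (.leaf 345 1988 (.cons 322 (.leaf 323 2363 (.cons 344 (.leaf 249 1989 (.cons 271 (.leaf 247 1983 (.leaf 368 2175 .nil)) .nil)) .nil)) .nil)) .nil)) .nil)) .nil)) (.cons 321 (.leaf 297 1796 (.cons 199 (.leaf 223 1599 (.cons 320 (.leaf 345 1988 (.cons 344 (.leaf 249 1989 (.cons 271 (.leaf 247 1983 (.cons 367 (.leaf 343 2174 (.cons 368 (.leaf 295 2175 (.leaf 391 2366 .nil)) .nil)) .nil)) .nil)) .nil)) .nil)) .nil)) (.cons 199 (.leaf 223 1599 (.cons 295 (.leaf 319 1790 (.cons 294 (.leaf 293 2153 (.cons 297 (.leaf 321 1796 (.cons 270 (.leaf 269 2155 (.cons 271 (.leaf 298 2160 (.cons 245 (.leaf 246 1963 (.cons 249 (.leaf 250 1969 (.cons 318 (.leaf 317 2346 (.cons 342 (.leaf 366 2165 (.leaf 247 1973 .nil)) .nil)) .nil)) .nil)) .nil)) .nil)) .nil)) .nil)) .nil)) .nil)) (.cons 199 (.leaf 223 1599 (.cons 295 (.leaf 319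 1790 (.cons 294 (.leaf 293 2153 (.cons 297 (.leaf 321 1796 (.cons 270 (.leaf 269 2155 (.cons 271 (.leaf 298 2160 (.cons 245 (.leaf 246 1963 (.cons 318 (.leaf 317 2346 (.cons 342 (.leaf 366 2165 (.leaf 247 1973 .nil)) .nil)) .nil)) .nil)) .nil)) .nil)) .nil)) .nil)) .nil)) .nil)))))
noncomputable def t123 : T := .cons 274 (.leaf 247 1979 (.cons 251 (.leaf 252 1985 (.cons 271 (.leaf 250 1977 (.cons 294 (.leaf 295 2162 (.cons 270 (.leaf 293 2154 (.cons 245 (.leaf 246 1963 (.cons 269 (.leaf 244 1955 (.leaf 249 1961 .nil)) .nil)) .nil)) .nil)) .nil)) .nil)) .nil)) (.cons 224 (.cons 200 (.leaf 297 1604 (.cons 176 (.leaf 249 1412 (.cons 177 (.leaf 201 1413 (.leaf 153 1221 .nil)) .nil)) .nil)) (.cons 296 t122 (.cons 200 (.cons 176 (.leaf 249 1412 (.cons 177 (.leaf 201 1413 (.leaf 153 1221 .nil)) .nil)) (.cons 177 (.leaf 201 1413 (.cons 199 (.leaf 175 1407 (.cons 295 (.leaf 271 1598 (.cons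 296 (.leaf 223 1599 (.leaf 319 1790 .nil)) .nil)) .nil)) .nil)) (.cons 175 (.leaf 199 1407 (.cons 176 (.leaf 151 1215 (.leaf 249 1412 .nil)) .nil)) .nil))) (.cons 200 (.leaf 297 1604 (.cons 177 (.leaf 201 1413 (.cons 176 (.leaf 153 1221 (.cons 271 (.leaf 295 1598 (.leaf 247 1406 .nil)) .nil)) .nil)) .nil)) .nil)))) (.cons 274 t121 (.cons 274 (.leaf 247 1979 (.cons 296 (.leaf 295 2170 (.cons 224 (.cons 199 (.leaf 223 1599 (.cons 200 (.leaf 175 1407 (.leaf 297 1604 .nil)) .nil)) (.cons 199 (.leaf 223 1599 (.cons 200 (.leaf 175 1407 (.cons 176 (.leaf 249 1412 (.cons 177 (.leaf 201 1413 (.leaf 153 1221 .nil)) .nil)) .nil)) .nil)) (.cons 199 (.leaf 223 1599 (.cons 321 (.leaf 297 1796 (.cons 320 (.leaf 345 1988 (.cons 343 (.leaf 319 1982 (.cons 344 (.leaf 249 1989 (.leaf 367 2174 .nil)) .nil)) .nil)) .nil)) .nil)) (.cons 297 (.leaf 200 1604 (.leaf 321 1796 .nil)) .nil)))) .nil)) .nil))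 (.cons 274 (.leaf 247 1979 (.cons 251 (.leaf 252 1985 (.cons 271 (.leaf 250 1977 (.cons 270 (.cons 297 (.leaf 298 2160 (.cons 269 (.leaf 249 1961 (.leaf 296 2152 .nil)) .nil)) (.cons 297 (.leaf 298 2160 (.cons 224 (.leaf 200 1604 (.cons 321 (.leaf 296 1796 (.leaf 345 1991 .nil)) .nil)) .nil)) (.cons 245 (.leaf 246 1963 (.cons 269 (.leaf 244 1955 (.leaf 249 1961 .nil)) .nil)) .nil))) .nil)) .nil)) .nil)) (.cons 274 (.leaf 247 1979 (.cons 251 (.leaf 252 1985 (.cons 271 (.leaf 250 1977 (.cons 295 (.leaf 296 2170 (.leaf 294 2162 .nil)) .nil)) .nil)) .nil)) .nil)))))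
noncomputable def t124 : T := .cons 224 (.leaf 200 1604 (.cons 321 (.leaf 296 1796 (.leaf 345 1991 .nil)) .nil)) (.cons 224 (.leaf 200 1604 (.cons 296 (.cons 225 (.leaf 201 1605 (.cons 249 (.leaf 320 1797 (.cons 226 (.leaf 202 1613 (.cons 227 (.leaf 228 1794 (.cons 203 (.leaf 204 1601 (.cons 251 (.leaf 252 1792 (.cons 298 (.leaf 274 1622 (.leaf 322 1804 .nil)) .nil)) .nil)) .nil)) .nil)) .nil)) .nil)) (.cons 295 (.leaf 274 2170 (.leaf 319 1790 .nil)) (.cons 225 (.leaf 201 1605 (.cons 249 (.leaf 320 1797 (.cons 202 (.leaf 226 1613 (.cons 295 (.leaf 319 1790 (.cons 294 (.leaf 293 2153 (.cons 270 (.leaf 269 2155 (.cons 271 (.leaf 250 1969 (.leaf 298 2160 .nil)) .nil)) .nil)) .nil)) .nil)) .nil)) .nil)) .nil))) .nil)) (.cons 321 (.leaf 345 1991 (.cons 249 (.cons 250 (.leaf 226 1805 (.cons 270 (.leaf 271 1969 (.cons 320 (.leaf 344 1990 (.cons 225 (.leaf 296 1797 (.cons 322 (.leaf 298 1804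 (.leaf 346 1996 .nil)) .nil)) .nil)) .nil)) .nil)) (.cons 250 (.leaf 226 1805 (.cons 251 (.leaf 271 1978 (.leaf 252 1986 .nil)) .nil)) (.cons 320 (.leaf 344 1990 (.cons 225 (.leaf 296 1797 (.cons 322 (.leaf 298 1804 (.leaf 346 1996 .nil)) .nil)) .nil)) .nil))) .nil)) (.cons 224 (.leaf 200 1604 (.cons 321 (.leaf 345 1991 (.leaf 249 1799 .nil)) .nil)) .nil)))
noncomputable def t125 : T := .cons 224 (.leaf 200 1604 (.cons 296 (.leaf 321 1796 (.cons 225 (.leaf 201 1605 (.cons 249 (.leaf 320 1797 (.cons 226 (.leaf 202 1613 (.cons 227 (.leaf 247 1786 (.leaf 228 1794 .nil)) .nil)) .nil)) .nil)) .nil)) .nil)) (.cons 224 (.leaf 200 1604 (.cons 296 (.cons 225 (.leaf 201 1605 (.cons 249 (.leaf 320 1797 (.cons 226 (.leaf 202 1613 (.cons 227 (.leaf 247 1786 (.leaf 228 1794 .nil)) .nil)) .nil)) .nil)) (.cons 295 (.leaf 319 1790 (.cons 294 (.leaf 293 2153 (.cons 270 (.leaf 269 2155 (.cons 271 (.leaf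 298 2160 (.cons 245 (.leaf 246 1963 (.cons 249 (.leaf 250 1969 (.cons 318 (.leaf 317 2346 (.cons 342 (.leaf 366 2165 (.leaf 247 1973 .nil)) .nil)) .nil)) .nil)) .nil)) .nil)) .nil)) .nil)) (.cons 201 (.leaf 225 1605 (.cons 295 (.leaf 319 1790 (.cons 294 (.leaf 293 2153 (.cons 270 (.leaf 269 2155 (.cons 271 (.leaf 298 2160 (.cons 245 (.leaf 246 1963 (.cons 318 (.leaf 317 2346 (.cons 342 (.leaf 366 2165 (.leaf 247 1973 .nil)) .nil)) .nil)) .nil)) .nil)) .nil)) .nil)) .nil)) (.cons 201 (.leaf 225 1605 (.cons 319 (.leaf 295 1790 (.cons 320 (.leaf 343 1982 (.cons 344 (.leaf 249 1989 (.leaf 368 2181 .nil)) .nil)) .nil)) .nil)) .nil)))) .nil)) (.cons 321 (.leaf 345 1991 (.cons 249 (.cons 250 (.leaf 226 1805 (.cons 270 (.leaf 271 1969 (.cons 320 (.leaf 344 1990 (.cons 225 (.leaf 296 1797 (.cons 322 (.leaf 298 1804 (.leaf 346 1996 .nil)) .nil)) .nil)) .nil)) .nil)) (.cons 250 (.leaf 226 1805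 (.cons 251 (.leaf 271 1978 (.leaf 252 1986 .nil)) .nil)) (.cons 320 (.leaf 344 1990 (.cons 225 (.leaf 296 1797 (.cons 322 (.leaf 298 1804 (.leaf 346 1996 .nil)) .nil)) .nil)) .nil))) .nil)) (.cons 224 (.leaf 200 1604 (.cons 321 (.leaf 296 1796 (.leaf 345 1991 .nil)) .nil)) (.cons 224 (.leaf 200 1604 (.cons 321 (.leaf 345 1991 (.leaf 249 1799 .nil)) .nil)) .nil))))
noncomputable def t126 : T := .cons 274 (.leaf 247 1979 (.cons 251 (.leaf 252 1985 (.cons 271 (.leaf 250 1977 (.cons 294 (.leaf 295 2162 (.cons 270 (.leaf 293 2154 (.cons 245 (.leaf 246 1963 (.cons 269 (.leaf 244 1955 (.leaf 249 1961 .nil)) .nil)) .nil)) .nil)) .nil)) .nil)) .nil)) (.cons 297 t125 (.cons 297 t124 (.cons 274 (.leaf 247 1979 (.cons 251 (.leaf 252 1985 (.cons 271 (.leaf 250 1977 (.cons 295 (.leaf 296 2170 (.leaf 294 2162 .nil)) .nil)) .nil)) .nil)) (.cons 274 (.leaf 247 1979 (.cons 296 (.leaf 295 2170 (.cons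 251 (.leaf 252 1985 (.cons 320 (.cons 319 (.leaf 343 1982 (.cons 321 (.leaf 345 1988 (.cons 297 (.leaf 224 1796 (.cons 318 (.leaf 317 2345 (.leaf 298 2353 .nil)) .nil)) .nil)) .nil)) (.cons 249 (.leaf 225 1797 (.leaf 344 1989 .nil)) .nil)) .nil)) .nil)) .nil)) (.cons 274 (.leaf 247 1979 (.cons 251 (.leaf 252 1985 (.cons 271 (.leaf 250 1977 (.cons 270 (.cons 245 (.leaf 246 1963 (.cons 269 (.leaf 244 1955 (.leaf 249 1961 .nil)) .nil)) (.cons 297 (.leaf 298 2160 (.cons 224 (.leaf 200 1604 (.cons 321 (.leaf 296 1796 (.leaf 345 1991 .nil)) .nil)) .nil)) .nil)) .nil)) .nil)) .nil)) (.cons 247 (.leaf 274 1979 (.cons 246 (.leaf 245 1960 (.cons 249 (.cons 221 (.leaf 222 1771 (.cons 225 (.leaf 226 1777 (.cons 201 (.leaf 177 1414 (.leaf 296 1606 .nil)) .nil)) .nil)) (.cons 270 (.leaf 269 1962 (.cons 271 (.leaf 250 1969 (.cons 293 (.leaf 294 2154 (.cons 297 (.leaf 298 2160 (.cons 321 (.leaf 345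 1991 (.leaf 224 1799 .nil)) .nil)) .nil)) .nil)) .nil)) .nil)) .nil)) .nil)) .nil))))))
noncomputable def t127 : T := .cons 322 (.cons 346 (.leaf 251 2005 (.cons 347 (.leaf 323 2004 (.leaf 371 2196 .nil)) .nil)) (.cons 321 (.leaf 345 1998 (.cons 226 (.leaf 297 1806 (.cons 347 (.leaf 323 2004 (.cons 225 (.leaf 201 1615 (.cons 227 (.leaf 224 1786 (.leaf 203 1621 .nil)) .nil)) .nil)) .nil)) .nil)) (.cons 321 (.leaf 345 1998 (.cons 226 (.leaf 297 1806 (.cons 201 (.leaf 225 1615 (.cons 202 (.leaf 177 1423 (.cons 203 (.leaf 179 1429 (.leaf 227 1621 .nil)) .nil)) .nil)) .nil)) .nil)) .nil))) (.cons 226 (.cons 201 (.leaf 225 1615 (.cons 203 (.leaf 227 1621 (.cons 202 (.leaf 177 1423 (.leaf 179 1429 .nil)) .nil)) .nil)) (.cons 201 (.leaf 225 1615 (.cons 177 (.leaf 202 1423 (.cons 297 (.leaf 321 1806 (.cons 296 (.leaf 295 2169 (.cons 223 (.leaf 320 1791 (.cons 199 (.leaf 175 1404 (.leaf 224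 1599 .nil)) .nil)) .nil)) .nil)) .nil)) .nil)) (.cons 203 (.leaf 227 1621 (.cons 179 (.leaf 202 1429 (.cons 297 (.leaf 321 1806 (.cons 296 (.leaf 295 2169 (.cons 223 (.leaf 320 1791 (.cons 199 (.leaf 175 1404 (.leaf 224 1599 .nil)) .nil)) .nil)) .nil)) .nil)) .nil)) (.cons 201 (.leaf 225 1615 (.cons 203 (.leaf 227 1621 (.cons 297 (.leaf 321 1806 (.cons 296 (.leaf 295 2169 (.cons 223 (.leaf 320 1791 (.cons 199 (.leaf 175 1404 (.leaf 224 1599 .nil)) .nil)) .nil)) .nil)) .nil)) .nil)) .nil)))) (.cons 296 (.cons 223 (.leaf 320 1791 (.cons 199 (.leaf 175 1404 (.leaf 224 1599 .nil)) .nil)) (.cons 295 (.leaf 297 2169 (.cons 319 (.leaf 224 1790 (.cons 343 (.leaf 271 1981 (.leaf 367 2173 .nil)) .nil)) .nil)) (.cons 223 (.leaf 320 1791 (.cons 199 (.leaf 175 1404 (.leaf 271 1596 .nil)) .nil)) .nil))) (.cons 226 (.cons 227 (.leaf 203 1621 (.cons 251 (.leaf 322 1813 (.cons 225 (.leaf 224 1786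 (.leaf 201 1615 .nil)) .nil)) .nil)) (.cons 201 (.leaf 225 1615 (.cons 202 (.leaf 177 1423 (.cons 178 (.leaf 251 1428 (.cons 179 (.leaf 203 1429 (.leaf 155 1237 .nil)) .nil)) .nil)) .nil)) (.cons 225 (.leaf 201 1615 (.cons 224 (.leaf 227 1786 (.cons 223 (.leaf 251 1784 (.cons 199 (.leaf 175 1404 (.leaf 296 1599 .nil)) .nil)) .nil)) .nil)) (.cons 227 (.leaf 203 1621 (.cons 322 (.leaf 251 1813 (.cons 345 (.leaf 321 1998 (.cons 346 (.leaf 369 2190 (.cons 347 (.leaf 323 2004 (.leaf 371 2196 .nil)) .nil)) .nil)) .nil)) .nil)) (.cons 225 (.leaf 201 1615 (.cons 227 (.leaf 224 1786 (.leaf 203 1621 .nil)) .nil)) .nil))))) (.cons 226 (.cons 227 (.leaf 203 1621 (.cons 322 (.leaf 251 1813 (.cons 321 (.leaf 297 1806 (.leaf 345 1998 .nil)) .nil)) .nil)) (.cons 321 (.leaf 297 1806 (.cons 322 (.leaf 345 1998 (.cons 201 (.leaf 225 1615 (.cons 346 (.leaf 251 2005 (.cons 347 (.leaf 323 2004 (.leaf 371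 2196 .nil)) .nil)) .nil)) .nil)) .nil)) (.cons 227 (.leaf 203 1621 (.cons 201 (.leaf 225 1615 (.cons 202 (.leaf 177 1423 (.cons 251 (.leaf 178 1428 (.leaf 322 1813 .nil)) .nil)) .nil)) .nil)) (.cons 321 (.leaf 297 1806 (.cons 201 (.leaf 225 1615 (.cons 202 (.leaf 177 1423 (.cons 203 (.leaf 179 1429 (.leaf 227 1621 .nil)) .nil)) .nil)) .nil)) .nil)))) .nil))))
noncomputable def t128 : T := .cons 199 (.leaf 175 1404 (.cons 296 (.leaf 224 1599 (.leaf 271 1596 .nil)) .nil)) (.cons 296 (.leaf 320 1791 (.cons 224 (.cons 225 (.leaf 201 1605 (.leaf 226 1778 .nil)) (.cons 295 (.leaf 319 1790 (.cons 294 (.leaf 293 2153 (.cons 318 (.leaf 270 1781 (.leaf 271 1782 .nil)) .nil)) .nil)) .nil)) .nil)) (.cons 199 (.leaf 175 1404 (.cons 271 (.cons 174 (.leaf 198 1399 (.cons 294 (.leaf 270 1590 (.cons 295 (.leaf 318 1782 (.cons 319 (.leaf 343 1981 (.leaf 224 1789 .nil)) .nil)) .nil)) .nil)) (.cons 198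 (.leaf 174 1399 (.cons 295 (.leaf 222 1591 (.cons 319 (.leaf 343 1981 (.leaf 224 1789 .nil)) .nil)) .nil)) (.cons 294 (.leaf 270 1590 (.cons 295 (.leaf 318 1782 (.cons 319 (.leaf 343 1981 (.leaf 224 1789 .nil)) .nil)) .nil)) (.cons 270 (.leaf 294 1590 (.cons 198 (.leaf 174 1399 (.cons 269 (.leaf 268 1953 (.cons 293 (.leaf 292 2146 (.leaf 222 1582 .nil)) .nil)) .nil)) .nil)) .nil)))) .nil)) (.cons 199 (.leaf 175 1404 (.cons 296 (.leaf 224 1599 (.leaf 320 1791 .nil)) .nil)) (.cons 199 (.leaf 175 1404 (.cons 296 (.leaf 271 1596 (.leaf 320 1791 .nil)) .nil)) .nil))))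
noncomputable def t129 : T := .cons 245 (.leaf 273 1960 (.cons 224 (.leaf 225 1769 (.cons 244 (.leaf 271 1952 (.leaf 223 1761 .nil)) .nil)) .nil)) (.cons 249 (.cons 222 (.leaf 221 1771 (.cons 223 (.leaf 250 1779 (.cons 175 (.leaf 199 1404 (.cons 270 (.leaf 269 1962 (.cons 294 (.leaf 318 1781 (.cons 293 (.leaf 317 1774 (.cons 271 (.leaf 273 2154 (.cons 295 (.leaf 292 2145 (.leaf 198 1588 .nil)) .nil)) .nil)) .nil)) .nil)) .nil)) .nil)) .nil)) (.cons 221 (.leaf 222 1771 (.cons 225 (.leaf 226 1777 (.cons 201 (.leaf 177 1414 (.cons 296 (.leaf 224 1605 (.leaf 273 1606 .nil)) .nil)) .nil)) .nil)) (.cons 270 (.leaf 269 1962 (.cons 226 (.leaf 225 1777 (.cons 250 (.leaf 227 1785 (.leaf 271 1970 .nil)) .nil)) .nil)) .nil))) (.cons 245 (.cons 224 (.leaf 225 1769 (.cons 244 (.leaf 271 1952 (.leaf 223 1761 .nil)) .nil)) (.cons 220 (.leaf 221 1763 (.cons 269 (.leaf 268 1954 (.cons 249 (.leaf 270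 1962 (.cons 226 (.leaf 225 1777 (.cons 250 (.leaf 227 1785 (.cons 223 (.leaf 222 1779 (.cons 199 (.leaf 175 1404 (.cons 271 (.leaf 296 1596 (.leaf 251 1978 .nil)) .nil)) .nil)) .nil)) .nil)) .nil)) .nil)) .nil)) (.cons 220 (.leaf 221 1763 (.cons 244 (.leaf 219 1755 (.cons 268 (.leaf 269 1954 (.leaf 267 1946 .nil)) .nil)) .nil)) .nil))) (.cons 245 (.leaf 273 1960 (.cons 220 (.leaf 221 1763 (.cons 244 (.leaf 271 1952 (.leaf 219 1755 .nil)) .nil)) .nil)) (.cons 245 (.leaf 273 1960 (.cons 220 (.leaf 221 1763 (.cons 244 (.leaf 219 1755 (.cons 268 (.leaf 269 1954 (.leaf 267 1946 .nil)) .nil)) .nil)) .nil)) .nil))))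
noncomputable def t130 : T := .cons 296 (.leaf 320 1791 (.cons 199 (.leaf 175 1404 (.leaf 224 1599 .nil)) .nil)) (.cons 199 (.leaf 175 1404 (.cons 271 (.cons 198 (.leaf 174 1399 (.cons 222 (.leaf 295 1591 (.cons 221 (.leaf 220 1760 (.cons 249 (.leaf 224 1768 (.leaf 246 1771 .nil)) .nil)) .nil)) .nil)) (.cons 198 (.leaf 174 1399 (.cons 222 (.leaf 295 1591 (.cons 220 (.leaf 221 1760 (.cons 270 (.leaf 294 1590 (.cons 269 (.leaf 268 1953 (.cons 293 (.leaf 292 2146 (.leaf 246 1582 .nil)) .nil)) .nil)) .nil)) .nil)) .nil)) (.cons 270 (.leaf 294 1590 (.cons 249 (.leaf 269 1961 (.leaf 250 1970 .nil)) .nil)) .nil))) .nil)) (.cons 296 (.leaf 320 1791 (.cons 224 (.cons 295 (.leaf 319 1790 (.cons 297 (.leaf 321 1796 (.cons 274 (.leaf 298 2169 (.cons 249 (.leaf 250 1976 (.cons 222 (.leaf 221 1768 (.cons 271 (.leaf 198 1591 (.cons 294 (.leaf 318 1782 (.cons 269 (.leaf 270 2152 (.cons 293 (.leaf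 292 2145 (.leaf 268 2147 .nil)) .nil)) .nil)) .nil)) .nil)) .nil)) .nil)) .nil)) .nil)) (.cons 225 (.leaf 201 1605 (.cons 226 (.leaf 227 1786 (.leaf 246 1778 .nil)) .nil)) .nil)) .nil)) (.cons 296 (.leaf 320 1791 (.cons 199 (.leaf 175 1404 (.leaf 271 1596 .nil)) .nil)) .nil)))
noncomputable def t131 : T := .cons 273 (.leaf 274 1979 (.cons 246 (.leaf 245 1960 (.cons 249 (.cons 222 (.leaf 221 1771 (.cons 225 (.leaf 226 1777 (.cons 201 (.leaf 177 1414 (.leaf 296 1606 .nil)) .nil)) .nil)) (.cons 222 (.leaf 221 1771 (.cons 223 (.leaf 250 1779 (.cons 199 (.leaf 175 1404 (.cons 270 (.leaf 269 1962 (.leaf 294 1589 .nil)) .nil)) .nil)) .nil)) (.cons 225 (.leaf 226 1777 (.cons 201 (.leaf 177 1414 (.leaf 296 1606 .nil)) .nil)) .nil))) .nil)) .nil)) (.cons 223 t130 (.cons 246 t129 (.cons 273 (.leaf 274 1979 (.cons 246 (.leaf 245 1960 (.cons 223 t128 .nil)) .nil)) (.cons 273 (.leaf 274 1979 (.cons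 246 (.leaf 245 1960 (.cons 249 (.cons 221 (.leaf 222 1771 (.cons 226 (.leaf 225 1777 (.cons 250 (.leaf 227 1785 (.cons 271 (.leaf 251 1978 (.leaf 270 1969 .nil)) .nil)) .nil)) .nil)) (.cons 221 (.leaf 222 1771 (.cons 226 (.leaf 225 1777 (.cons 250 (.leaf 227 1785 (.cons 251 (.leaf 271 1978 (.leaf 252 1986 .nil)) .nil)) .nil)) .nil)) (.cons 222 (.leaf 221 1771 (.cons 225 (.leaf 226 1777 (.cons 201 (.leaf 177 1414 (.cons 202 (.leaf 178 1421 (.cons 223 (.leaf 224 1585 (.cons 199 (.leaf 175 1404 (.cons 270 (.leaf 269 1962 (.leaf 294 1589 .nil)) .nil)) .nil)) .nil)) .nil)) .nil)) .nil)) (.cons 270 (.leaf 269 1962 (.cons 271 (.leaf 250 1969 (.cons 293 (.leaf 294 2154 (.cons 297 (.leaf 298 2160 (.cons 321 (.leaf 345 1991 (.leaf 224 1799 .nil)) .nil)) .nil)) .nil)) .nil)) .nil)))) .nil)) .nil)) (.cons 274 (.leaf 273 1979 (.cons 250 (.leaf 249 1976 (.cons 298 t127 .nil)) .nil)) (.cons 273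 (.leaf 274 1979 (.cons 246 (.leaf 245 1960 (.cons 249 (.cons 221 (.leaf 222 1771 (.cons 226 (.leaf 225 1777 (.cons 250 (.leaf 227 1785 (.cons 271 (.leaf 251 1978 (.leaf 270 1969 .nil)) .nil)) .nil)) .nil)) (.cons 270 (.leaf 269 1962 (.cons 271 (.leaf 250 1969 (.cons 293 (.leaf 294 2154 (.cons 297 (.leaf 298 2160 (.cons 321 (.leaf 345 1991 (.leaf 224 1799 .nil)) .nil)) .nil)) .nil)) .nil)) (.cons 221 (.leaf 222 1771 (.cons 226 (.leaf 225 1777 (.cons 250 (.leaf 227 1785 (.cons 251 (.leaf 271 1978 (.leaf 252 1986 .nil)) .nil)) .nil)) .nil)) (.cons 225 (.leaf 226 1777 (.cons 201 (.leaf 177 1414 (.leaf 296 1606 .nil)) .nil)) .nil)))) .nil)) .nil)) (.cons 273 (.leaf 274 1979 (.cons 246 (.leaf 245 1960 (.cons 249 (.cons 270 (.leaf 269 1962 (.cons 271 (.leaf 250 1969 (.cons 293 (.leaf 294 2154 (.cons 297 (.leaf 298 2160 (.cons 321 (.leaf 345 1991 (.leaf 224 1799 .nil)) .nil)) .nil)) .nil))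 .nil)) (.cons 222 (.leaf 221 1771 (.cons 223 (.leaf 250 1779 (.cons 199 (.leaf 175 1404 (.cons 296 (.leaf 224 1599 (.leaf 271 1596 .nil)) .nil)) .nil)) .nil)) (.cons 270 (.leaf 269 1962 (.cons 222 (.leaf 221 1771 (.cons 223 (.cons 199 (.leaf 175 1404 (.leaf 294 1589 .nil)) (.cons 294 (.leaf 318 1781 (.cons 293 (.leaf 271 2154 (.leaf 317 1774 .nil)) .nil)) (.cons 199 (.leaf 175 1404 (.cons 296 (.leaf 224 1599 (.leaf 271 1596 .nil)) .nil)) .nil))) .nil)) .nil)) (.cons 222 (.leaf 221 1771 (.cons 223 (.leaf 250 1779 (.cons 199 (.leaf 175 1404 (.cons 270 (.leaf 269 1962 (.leaf 294 1589 .nil)) .nil)) .nil)) .nil)) .nil)))) .nil)) .nil)) .nil)))))))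
noncomputable def t132 : T := .cons 270 (.leaf 269 1962 (.cons 250 (.leaf 271 1969 (.cons 222 (.leaf 221 1771 (.leaf 223 1779 .nil)) .nil)) .nil)) (.cons 222 (.leaf 221 1771 (.cons 223 (.leaf 250 1779 (.cons 199 (.leaf 175 1404 (.cons 296 (.leaf 224 1599 (.leaf 271 1596 .nil)) .nil)) .nil)) .nil)) (.cons 270 (.leaf 269 1962 (.cons 222 (.leaf 221 1771 (.cons 223 (.cons 199 (.leaf 175 1404 (.leaf 294 1589 .nil)) (.cons 294 (.leaf 318 1781 (.cons 293 (.leaf 271 2154 (.leaf 317 1774 .nil)) .nil)) (.cons 199 (.leaf 175 1404 (.cons 296 (.leaf 224 1599 (.leaf 271 1596 .nil)) .nil)) .nil))) .nil)) .nil)) (.cons 270 (.leaf 269 1962 (.cons 250 (.leaf 271 1969 (.cons 251 (.leaf 252 1986 (.cons 224 (.leaf 223 1787 (.cons 200 (.leaf 297 1604 (.leaf 176 1412 .nil)) .nil)) .nil)) .nil)) .nil)) (.cons 222 (.leaf 221 1771 (.cons 223 (.leaf 250 1779 (.cons 199 (.leaf 175 1404 (.cons 270 (.leaf 269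 1962 (.leaf 294 1589 .nil)) .nil)) .nil)) .nil)) (.cons 270 (.leaf 269 1962 (.cons 271 (.leaf 250 1969 (.cons 293 (.leaf 294 2154 (.cons 297 (.leaf 298 2160 (.cons 321 (.leaf 345 1991 (.leaf 224 1799 .nil)) .nil)) .nil)) .nil)) .nil)) .nil)))))
noncomputable def t133 : T := .cons 221 (.leaf 222 1771 (.cons 225 (.leaf 226 1777 (.cons 201 (.leaf 177 1414 (.cons 200 (.leaf 176 1415 (.cons 297 (.leaf 224 1604 (.cons 269 (.leaf 270 1962 (.cons 321 (.leaf 345 1991 (.cons 322 (.leaf 298 1804 (.leaf 346 1996 .nil)) .nil)) .nil)) .nil)) .nil)) .nil)) .nil)) .nil)) (.cons 221 (.leaf 222 1771 (.cons 225 (.leaf 226 1777 (.cons 201 (.leaf 177 1414 (.cons 178 (.leaf 202 1421 (.cons 200 (.leaf 176 1415 (.cons 297 (.leaf 224 1604 (.cons 321 (.leaf 345 1991 (.cons 322 (.leaf 298 1804 (.leaf 346 1996 .nil)) .nil)) .nil)) .nil)) .nil)) .nil)) .nil)) .nil)) (.cons 221 (.leaf 222 1771 (.cons 270 (.leaf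 269 1962 (.cons 271 (.leaf 250 1969 (.cons 293 (.leaf 294 2154 (.cons 297 (.leaf 298 2160 (.cons 224 (.leaf 200 1604 (.leaf 321 1799 .nil)) .nil)) .nil)) .nil)) .nil)) .nil)) (.cons 270 (.leaf 269 1962 (.cons 250 (.leaf 271 1969 (.cons 251 (.leaf 252 1986 (.cons 224 (.leaf 223 1787 (.cons 200 (.leaf 297 1604 (.leaf 176 1412 .nil)) .nil)) .nil)) .nil)) .nil)) (.cons 221 (.leaf 222 1771 (.cons 270 (.leaf 269 1962 (.cons 271 (.leaf 250 1969 (.cons 294 (.leaf 293 2154 (.cons 223 (.leaf 199 1590 (.leaf 318 1781 .nil)) .nil)) .nil)) .nil)) .nil)) .nil))))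
noncomputable def t134 : T := .cons 223 (.leaf 320 1791 (.cons 199 (.leaf 175 1404 (.leaf 224 1599 .nil)) .nil)) (.cons 224 (.cons 199 (.leaf 223 1599 (.cons 200 (.leaf 175 1407 (.cons 201 (.leaf 177 1413 (.leaf 225 1605 .nil)) .nil)) .nil)) (.cons 201 (.leaf 225 1605 (.cons 200 (.leaf 177 1413 (.cons 175 (.leaf 199 1407 (.cons 176 (.leaf 151 1215 (.leaf 271 1406 .nil)) .nil)) .nil)) .nil)) (.cons 201 (.leaf 225 1605 (.cons 200 (.leaf 177 1413 (.cons 176 (.leaf 271 1406 (.cons 151 (.leaf 175 1215 (.cons 152 (.leaf 223 1214 (.leaf 127 1023 .nil)) .nil)) .nil)) .nil)) .nil)) (.cons 199 (.leaf 223 1599 (.cons 200 (.leaf 175 1407 (.cons 176 (.leaf 271 1406 (.cons 177 (.leaf 201 1413 (.leaf 153 1221 .nil)) .nil)) .nil)) .nil)) (.cons 199 (.leaf 223 1599 (.cons 200 (.leaf 175 1407 (.cons 176 (.leaf 271 1406 (.cons 153 (.leaf 177 1221 (.cons 152 (.leaf 129 1029 (.cons 249 (.leaf 250 1976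 (.leaf 225 1220 .nil)) .nil)) .nil)) .nil)) .nil)) .nil)) (.cons 223 (.leaf 199 1599 (.cons 225 (.leaf 201 1605 (.cons 226 (.leaf 227 1786 (.cons 250 (.leaf 249 1976 (.leaf 251 1784 .nil)) .nil)) .nil)) .nil)) .nil)))))) (.cons 249 (.leaf 250 1976 (.cons 225 (.leaf 320 1797 (.cons 201 (.leaf 177 1414 (.leaf 224 1605 .nil)) .nil)) .nil)) (.cons 223 (.leaf 320 1791 (.cons 199 (.leaf 175 1404 (.leaf 271 1596 .nil)) .nil)) .nil)))
noncomputable def t135 : T := .cons 320 (.leaf 223 1791 (.cons 271 (.leaf 344 1983 (.cons 319 (.leaf 343 1982 (.cons 321 (.leaf 345 1988 (.cons 224 (.leaf 297 1796 (.cons 200 (.leaf 176 1406 (.cons 201 (.leaf 177 1413 (.leaf 225 1605 .nil)) .nil)) .nil)) .nil)) .nil)) .nil)) .nil)) (.cons 224 (.cons 199 (.leaf 223 1599 (.cons 175 (.leaf 200 1407 (.cons 225 (.leaf 201 1605 (.cons 226 (.leaf 227 1786 (.cons 246 (.leaf 245 1769 (.leaf 249 1777 .nil)) .nil)) .nil))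 .nil)) .nil)) (.cons 225 (.leaf 201 1605 (.cons 226 (.leaf 227 1786 (.cons 246 (.leaf 245 1769 (.leaf 249 1777 .nil)) .nil)) .nil)) (.cons 199 (.leaf 223 1599 (.cons 200 (.leaf 175 1407 (.cons 297 (.leaf 273 1604 (.leaf 321 1796 .nil)) .nil)) .nil)) .nil))) (.cons 320 (.cons 225 (.leaf 249 1797 (.cons 343 (.leaf 319 1982 (.cons 344 (.leaf 271 1983 (.leaf 367 2174 .nil)) .nil)) .nil)) (.cons 225 (.leaf 249 1797 (.cons 224 (.leaf 201 1605 (.cons 321 (.leaf 297 1796 (.leaf 345 1988 .nil)) .nil)) .nil)) (.cons 271 (.leaf 344 1983 (.cons 319 (.leaf 343 1982 (.cons 321 (.leaf 345 1988 (.cons 224 (.leaf 297 1796 (.cons 200 (.leaf 176 1406 (.cons 201 (.leaf 177 1413 (.leaf 225 1605 .nil)) .nil)) .nil)) .nil)) .nil)) .nil)) (.cons 271 (.leaf 344 1983 (.cons 319 (.leaf 343 1982 (.cons 321 (.leaf 345 1988 (.cons 297 (.leaf 224 1796 (.cons 318 (.leaf 317 2345 (.leaf 298 2353 .nil)) .nil)) .nil))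 .nil)) .nil)) .nil)))) (.cons 320 (.leaf 223 1791 (.cons 225 (.leaf 249 1797 (.cons 343 (.leaf 319 1982 (.cons 344 (.leaf 271 1983 (.leaf 367 2174 .nil)) .nil)) .nil)) .nil)) (.cons 320 (.leaf 223 1791 (.cons 271 (.leaf 344 1983 (.cons 319 (.leaf 343 1982 (.cons 321 (.leaf 345 1988 (.cons 297 (.leaf 224 1796 (.cons 318 (.leaf 317 2345 (.leaf 298 2353 .nil)) .nil)) .nil)) .nil)) .nil)) .nil)) .nil))))
noncomputable def t136 : T := .cons 273 (.leaf 274 1979 (.cons 246 (.leaf 245 1960 (.cons 249 (.cons 270 (.leaf 269 1962 (.cons 250 (.leaf 271 1969 (.cons 222 (.leaf 221 1771 (.leaf 223 1779 .nil)) .nil)) .nil)) (.cons 222 (.leaf 221 1771 (.cons 225 (.leaf 226 1777 (.cons 201 (.leaf 177 1414 (.leaf 296 1606 .nil)) .nil)) .nil)) (.cons 270 (.leaf 269 1962 (.cons 250 (.leaf 271 1969 (.cons 251 (.leaf 252 1986 (.cons 224 (.leaf 223 1787 (.cons 200 (.leaf 297 1604 (.leaf 176 1412 .nil)) .nil))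 .nil)) .nil)) .nil)) .nil))) .nil)) .nil)) (.cons 249 (.cons 250 (.leaf 274 1976 (.cons 271 (.leaf 251 1978 (.leaf 270 1970 .nil)) .nil)) (.cons 225 (.cons 201 (.leaf 177 1414 (.cons 226 (.leaf 246 1777 (.cons 227 (.leaf 224 1786 (.leaf 228 1794 .nil)) .nil)) .nil)) (.cons 201 (.leaf 177 1414 (.cons 296 (.leaf 224 1605 (.leaf 320 1797 .nil)) .nil)) (.cons 226 (.leaf 246 1777 (.cons 227 (.leaf 224 1786 (.leaf 228 1794 .nil)) .nil)) (.cons 177 (.leaf 201 1414 (.cons 246 (.leaf 226 1777 (.cons 221 (.leaf 222 1771 (.cons 245 (.leaf 220 1763 (.cons 269 (.leaf 268 1954 (.leaf 270 1962 .nil)) .nil)) .nil)) .nil)) .nil)) .nil)))) (.cons 250 (.leaf 274 1976 (.cons 222 (.leaf 223 1779 (.cons 226 (.leaf 227 1785 (.cons 246 (.leaf 221 1771 (.leaf 225 1777 .nil)) .nil)) .nil)) .nil)) .nil))) (.cons 296 t135 (.cons 273 (.leaf 274 1979 (.cons 246 (.leaf 245 1960 (.cons 223 (.cons 199 (.leaf 175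 1404 (.cons 296 (.leaf 224 1599 (.leaf 271 1596 .nil)) .nil)) (.cons 296 (.leaf 320 1791 (.cons 224 (.cons 297 (.leaf 200 1604 (.leaf 321 1796 .nil)) (.cons 225 (.leaf 201 1605 (.leaf 226 1778 .nil)) .nil)) .nil)) (.cons 199 (.leaf 175 1404 (.cons 271 (.cons 200 (.leaf 176 1405 (.cons 224 (.leaf 297 1604 (.cons 201 (.leaf 177 1413 (.cons 202 (.leaf 222 1586 (.leaf 203 1594 .nil)) .nil)) .nil)) .nil)) (.cons 198 (.leaf 174 1399 (.cons 270 (.leaf 294 1590 (.cons 269 (.leaf 268 1953 (.cons 293 (.leaf 292 2146 (.leaf 222 1582 .nil)) .nil)) .nil)) .nil)) (.cons 174 (.leaf 198 1399 (.cons 200 (.leaf 176 1405 (.cons 224 (.leaf 297 1604 (.cons 201 (.leaf 177 1413 (.cons 202 (.leaf 203 1594 (.cons 226 (.leaf 225 1778 (.leaf 227 1592 .nil)) .nil)) .nil)) .nil)) .nil)) .nil)) .nil))) .nil)) (.cons 199 (.leaf 175 1404 (.cons 296 (.leaf 271 1596 (.leaf 320 1791 .nil)) .nil)) .nil)))) .nil)) .nil))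 (.cons 273 (.leaf 274 1979 (.cons 246 (.leaf 245 1960 (.cons 249 (.cons 221 (.leaf 222 1771 (.cons 225 (.leaf 226 1777 (.cons 201 (.leaf 177 1414 (.leaf 296 1606 .nil)) .nil)) .nil)) (.cons 270 (.leaf 269 1962 (.cons 271 (.leaf 250 1969 (.cons 293 (.leaf 294 2154 (.cons 297 (.leaf 298 2160 (.cons 321 (.leaf 345 1991 (.leaf 224 1799 .nil)) .nil)) .nil)) .nil)) .nil)) .nil)) .nil)) .nil)) (.cons 274 (.leaf 273 1979 (.cons 296 t134 .nil)) (.cons 273 (.leaf 274 1979 (.cons 246 (.leaf 245 1960 (.cons 249 t133 .nil)) .nil)) (.cons 273 (.leaf 274 1979 (.cons 246 (.leaf 245 1960 (.cons 249 (.cons 221 (.leaf 222 1771 (.cons 225 (.leaf 226 1777 (.cons 177 (.leaf 201 1414 (.cons 270 (.leaf 269 1962 (.cons 271 (.leaf 250 1969 (.cons 294 (.leaf 293 2154 (.cons 223 (.leaf 199 1590 (.leaf 318 1781 .nil)) .nil)) .nil)) .nil)) .nil)) .nil)) .nil)) (.cons 221 (.leaf 222 1771 (.cons 225 (.leaf 226 1777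 (.cons 201 (.leaf 177 1414 (.leaf 296 1606 .nil)) .nil)) .nil)) (.cons 221 (.leaf 222 1771 (.cons 270 (.leaf 269 1962 (.cons 271 (.leaf 250 1969 (.cons 294 (.leaf 293 2154 (.cons 223 (.leaf 199 1590 (.leaf 318 1781 .nil)) .nil)) .nil)) .nil)) .nil)) (.cons 225 (.leaf 226 1777 (.cons 201 (.leaf 177 1414 (.leaf 296 1606 .nil)) .nil)) .nil)))) .nil)) .nil)) (.cons 273 (.leaf 274 1979 (.cons 246 (.leaf 245 1960 (.cons 249 (.cons 222 (.leaf 221 1771 (.cons 223 (.leaf 250 1779 (.cons 199 (.leaf 175 1404 (.cons 270 (.leaf 269 1962 (.leaf 294 1589 .nil)) .nil)) .nil)) .nil)) (.cons 225 (.leaf 226 1777 (.cons 201 (.leaf 177 1414 (.leaf 296 1606 .nil)) .nil)) .nil)) .nil)) .nil)) (.cons 273 (.leaf 274 1979 (.cons 246 (.leaf 245 1960 (.cons 249 t132 .nil)) .nil)) .nil)))))))))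
noncomputable def t137 : T := .cons 200 (.leaf 297 1604 (.cons 175 (.leaf 199 1407 (.cons 201 (.leaf 177 1413 (.cons 296 (.leaf 225 1605 (.cons 319 (.leaf 295 1790 (.cons 320 (.leaf 343 1982 (.cons 223 (.leaf 247 1791 (.cons 202 (.leaf 203 1594 (.cons 221 (.leaf 222 1577 (.cons 344 (.leaf 249 1989 (.cons 345 (.leaf 321 1988 (.leaf 369 2180 .nil)) .nil)) .nil)) .nil)) .nil)) .nil)) .nil)) .nil)) .nil)) .nil)) .nil)) (.cons 296 (.cons 223 (.leaf 199 1599 (.cons 225 (.leaf 201 1605 (.cons 295 (.leaf 319 1790 (.cons 294 (.leaf 293 2153 (.cons 297 (.leaf 321 1796 (.cons 270 (.leaf 269 2155 (.cons 318 (.leaf 317 2346 (.cons 246 (.leaf 247 1781 (.cons 245 (.leaf 222 1770 (.leaf 221 1775 .nil)) .nil)) .nil)) .nil)) .nil)) .nil)) .nil)) .nil)) .nil)) (.cons 321 (.leaf 297 1796 (.cons 199 (.leaf 223 1599 (.cons 320 (.leaf 345 1988 (.cons 343 (.leaf 319 1982 (.cons 344 (.leaf 249 1989 (.leaf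 367 2174 .nil)) .nil)) .nil)) .nil)) .nil)) (.cons 225 (.leaf 201 1605 (.cons 199 (.leaf 223 1599 (.cons 319 (.leaf 295 1790 (.cons 320 (.leaf 249 1797 (.leaf 343 1982 .nil)) .nil)) .nil)) .nil)) (.cons 321 (.leaf 297 1796 (.cons 201 (.leaf 225 1605 (.cons 319 (.leaf 295 1790 (.cons 320 (.leaf 343 1982 (.leaf 345 1988 .nil)) .nil)) .nil)) .nil)) (.cons 321 (.leaf 297 1796 (.cons 201 (.leaf 225 1605 (.cons 223 (.leaf 199 1599 (.cons 320 (.leaf 247 1791 (.leaf 345 1988 .nil)) .nil)) .nil)) .nil)) .nil))))) (.cons 296 (.cons 199 (.leaf 223 1599 (.cons 200 (.leaf 175 1407 (.cons 201 (.leaf 177 1413 (.leaf 225 1605 .nil)) .nil)) .nil)) (.cons 199 (.leaf 223 1599 (.cons 175 (.leaf 200 1407 (.cons 319 (.leaf 295 1790 (.cons 320 (.leaf 343 1982 (.cons 344 (.leaf 249 1989 (.cons 345 (.leaf 321 1988 (.leaf 369 2180 .nil)) .nil)) .nil)) .nil)) .nil)) .nil)) (.cons 201 (.leaf 225 1605 (.cons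 177 (.leaf 200 1413 (.cons 319 (.leaf 295 1790 (.cons 320 (.leaf 343 1982 (.cons 344 (.leaf 249 1989 (.cons 345 (.leaf 321 1988 (.leaf 369 2180 .nil)) .nil)) .nil)) .nil)) .nil)) .nil)) (.cons 225 (.leaf 201 1605 (.cons 320 (.leaf 249 1797 (.cons 223 (.leaf 199 1599 (.leaf 247 1791 .nil)) .nil)) .nil)) .nil)))) (.cons 200 (.leaf 297 1604 (.cons 175 (.leaf 199 1407 (.cons 176 (.leaf 151 1215 (.leaf 249 1412 .nil)) .nil)) .nil)) (.cons 200 (.leaf 297 1604 (.cons 175 (.leaf 199 1407 (.cons 176 (.leaf 151 1215 (.cons 177 (.leaf 201 1413 (.leaf 153 1221 .nil)) .nil)) .nil)) .nil)) (.cons 297 (.leaf 200 1604 (.cons 321 (.leaf 296 1796 (.leaf 345 1991 .nil)) .nil)) .nil)))))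
noncomputable def t138 : T := .cons 274 (.leaf 247 1979 (.cons 296 (.leaf 295 2170 (.cons 251 (.leaf 252 1985 (.cons 224 (.cons 199 (.leaf 223 1599 (.cons 200 (.leaf 175 1407 (.leaf 297 1604 .nil)) .nil)) (.cons 199 (.leaf 223 1599 (.cons 200 (.leaf 175 1407 (.cons 201 (.leaf 177 1413 (.leaf 225 1605 .nil)) .nil)) .nil)) (.cons 199 (.leaf 223 1599 (.cons 201 (.leaf 225 1605 (.cons 321 (.leaf 297 1796 (.cons 320 (.leaf 345 1988 (.cons 343 (.leaf 319 1982 (.cons 344 (.leaf 249 1989 (.leaf 367 2174 .nil)) .nil)) .nil)) .nil)) .nil)) .nil)) (.cons 297 (.leaf 200 1604 (.leaf 321 1796 .nil)) .nil)))) .nil)) .nil)) .nil)) (.cons 224 t137 (.cons 296 (.cons 295 (.leaf 274 2170 (.cons 224 (.leaf 319 1790 (.cons 199 (.leaf 223 1599 (.cons 200 (.leaf 175 1407 (.leaf 297 1604 .nil)) .nil)) .nil)) .nil)) (.cons 224 (.cons 199 (.leaf 223 1599 (.cons 200 (.leaf 175 1407 (.leaf 297 1604 .nil)) .nil))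 (.cons 199 (.leaf 223 1599 (.cons 200 (.leaf 175 1407 (.cons 201 (.leaf 177 1413 (.leaf 225 1605 .nil)) .nil)) .nil)) (.cons 225 (.leaf 201 1605 (.cons 320 (.leaf 249 1797 (.cons 321 (.leaf 297 1796 (.leaf 345 1988 .nil)) .nil)) .nil)) .nil))) (.cons 295 (.leaf 274 2170 (.cons 294 (.leaf 293 2153 (.cons 297 (.cons 321 (.leaf 345 1991 (.leaf 322 2352 .nil)) (.cons 318 (.leaf 317 2346 (.cons 269 (.leaf 270 2155 (.cons 319 (.leaf 298 2354 (.cons 343 (.leaf 320 1982 (.leaf 367 2173 .nil)) .nil)) .nil)) .nil)) .nil)) .nil)) .nil)) (.cons 295 (.leaf 274 2170 (.cons 224 (.leaf 319 1790 (.cons 199 (.leaf 223 1599 (.cons 200 (.leaf 175 1407 (.cons 201 (.leaf 177 1413 (.leaf 225 1605 .nil)) .nil)) .nil)) .nil)) .nil)) .nil)))) (.cons 247 (.leaf 274 1979 (.cons 246 (.leaf 245 1960 (.cons 249 (.cons 222 (.leaf 221 1771 (.cons 223 (.leaf 250 1779 (.cons 199 (.leaf 175 1404 (.cons 270 (.leaf 269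 1962 (.leaf 294 1589 .nil)) .nil)) .nil)) .nil)) (.cons 225 (.leaf 226 1777 (.cons 201 (.leaf 177 1414 (.cons 178 (.leaf 202 1421 (.cons 200 (.leaf 176 1415 (.cons 297 (.leaf 224 1604 (.cons 269 (.leaf 270 1962 (.cons 321 (.leaf 345 1991 (.cons 322 (.leaf 298 1804 (.leaf 346 1996 .nil)) .nil)) .nil)) .nil)) .nil)) .nil)) .nil)) .nil)) (.cons 225 (.leaf 226 1777 (.cons 201 (.leaf 177 1414 (.cons 176 (.leaf 200 1415 (.cons 202 (.leaf 178 1421 (.cons 222 (.leaf 221 1771 (.cons 223 (.leaf 250 1779 (.leaf 224 1585 .nil)) .nil)) .nil)) .nil)) .nil)) .nil)) .nil))) .nil)) .nil)) (.cons 247 (.leaf 274 1979 (.cons 246 (.leaf 245 1960 (.cons 249 (.cons 225 (.leaf 226 1777 (.cons 201 (.leaf 177 1414 (.leaf 296 1606 .nil)) .nil)) (.cons 222 (.leaf 221 1771 (.cons 223 (.leaf 250 1779 (.cons 199 (.leaf 175 1404 (.cons 270 (.leaf 269 1962 (.leaf 294 1589 .nil)) .nil)) .nil)) .nil)) .nil)) .nil))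 .nil)) (.cons 274 (.leaf 247 1979 (.cons 296 (.leaf 295 2170 (.cons 251 (.leaf 252 1985 (.cons 224 (.cons 199 (.leaf 223 1599 (.cons 200 (.leaf 175 1407 (.leaf 297 1604 .nil)) .nil)) (.cons 199 (.leaf 223 1599 (.cons 200 (.leaf 175 1407 (.cons 201 (.leaf 177 1413 (.leaf 225 1605 .nil)) .nil)) .nil)) (.cons 199 (.leaf 223 1599 (.cons 201 (.leaf 225 1605 (.cons 321 (.leaf 297 1796 (.cons 320 (.leaf 345 1988 (.cons 343 (.leaf 319 1982 (.cons 344 (.leaf 367 2174 (.cons 322 (.leaf 323 2554 (.cons 298 (.leaf 346 2005 (.cons 227 (.leaf 203 1622 (.leaf 250 1813 .nil)) .nil)) .nil)) .nil)) .nil)) .nil)) .nil)) .nil)) .nil)) (.cons 297 (.leaf 200 1604 (.leaf 321 1796 .nil)) .nil)))) .nil)) .nil)) .nil)) (.cons 274 (.leaf 247 1979 (.cons 296 (.leaf 295 2170 (.cons 251 (.leaf 252 1985 (.cons 224 (.cons 199 (.leaf 223 1599 (.cons 200 (.leaf 175 1407 (.leaf 297 1604 .nil)) .nil)) (.cons 199 (.leaf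 223 1599 (.cons 200 (.leaf 175 1407 (.cons 176 (.leaf 249 1412 (.cons 177 (.leaf 201 1413 (.leaf 153 1221 .nil)) .nil)) .nil)) .nil)) (.cons 199 (.leaf 223 1599 (.cons 321 (.leaf 297 1796 (.cons 320 (.leaf 345 1988 (.cons 343 (.leaf 319 1982 (.cons 344 (.leaf 249 1989 (.leaf 367 2174 .nil)) .nil)) .nil)) .nil)) .nil)) (.cons 297 (.leaf 200 1604 (.leaf 321 1796 .nil)) .nil)))) .nil)) .nil)) .nil)) (.cons 274 (.leaf 247 1979 (.cons 296 (.leaf 295 2170 (.cons 251 (.leaf 252 1985 (.cons 320 (.cons 319 (.leaf 343 1982 (.cons 321 (.leaf 345 1988 (.cons 297 (.leaf 224 1796 (.cons 318 (.leaf 317 2345 (.leaf 298 2353 .nil)) .nil)) .nil)) .nil)) (.cons 249 (.leaf 225 1797 (.leaf 344 1989 .nil)) .nil)) .nil)) .nil)) .nil)) .nil)))))))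
noncomputable def t139 : T := .cons 175 (.leaf 199 1407 (.cons 176 (.leaf 151 1215 (.cons 177 (.leaf 201 1413 (.leaf 153 1221 .nil)) .nil)) .nil)) (.cons 201 (.leaf 177 1413 (.cons 225 (.leaf 296 1605 (.cons 271 (.leaf 295 1598 (.cons 176 (.leaf 247 1406 (.cons 152 (.leaf 249 1220 (.leaf 128 1028 .nil)) .nil)) .nil)) .nil)) .nil)) (.cons 199 (.leaf 175 1407 (.cons 223 (.leaf 296 1599 (.cons 271 (.leaf 295 1598 (.cons 176 (.leaf 247 1405 (.cons 152 (.leaf 128 1022 (.cons 153 (.leaf 177 1221 (.leaf 129 1029 .nil)) .nil)) .nil)) .nil)) .nil)) .nil)) (.cons 199 (.leaf 175 1407 (.cons 223 (.leaf 296 1599 (.cons 271 (.leaf 295 1598 (.cons 176 (.leaf 247 1405 (.cons 152 (.leaf 128 1022 (.cons 127 (.leaf 151 1023 (.cons 129 (.leaf 153 1029 (.cons 225 (.leaf 249 1220 (.cons 198 (.leaf 197 1576 (.leaf 226 1587 .nil)) .nil)) .nil)) .nil)) .nil)) .nil)) .nil)) .nil)) .nil)) (.cons 199 (.leaf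 175 1407 (.cons 177 (.leaf 201 1413 (.cons 271 (.leaf 295 1598 (.cons 296 (.leaf 223 1599 (.cons 321 (.leaf 297 1796 (.cons 320 (.leaf 345 1988 (.cons 225 (.leaf 249 1797 (.cons 197 (.leaf 198 1576 (.cons 226 (.leaf 227 1595 (.cons 343 (.leaf 319 1982 (.cons 344 (.leaf 247 1983 (.leaf 367 2174 .nil)) .nil)) .nil)) .nil)) .nil)) .nil)) .nil)) .nil)) .nil)) .nil)) .nil)) .nil))))
noncomputable def t140 : T := .cons 175 (.leaf 199 1407 (.cons 176 (.leaf 151 1215 (.cons 177 (.leaf 201 1413 (.leaf 153 1221 .nil)) .nil)) .nil)) (.cons 201 (.leaf 177 1413 (.cons 225 (.leaf 296 1605 (.cons 273 (.leaf 297 1604 (.cons 176 (.leaf 249 1412 (.cons 128 (.leaf 152 1028 (.cons 151 (.leaf 175 1215 (.cons 247 (.leaf 271 1406 (.cons 246 (.leaf 245 1960 (.cons 226 (.leaf 227 1786 (.leaf 223 1778 .nil)) .nil)) .nil)) .nil)) .nil)) .nil)) .nil)) .nil)) .nil)) (.cons 199 (.leaf 175 1407 (.cons 223 (.leaf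 296 1599 (.cons 273 (.leaf 297 1604 (.cons 176 (.leaf 249 1412 (.cons 247 (.leaf 271 1405 (.leaf 152 1214 .nil)) .nil)) .nil)) .nil)) .nil)) (.cons 201 (.leaf 177 1413 (.cons 225 (.leaf 296 1605 (.cons 273 (.leaf 297 1604 (.cons 176 (.leaf 249 1412 (.cons 128 (.leaf 152 1028 (.cons 247 (.leaf 271 1406 (.cons 246 (.leaf 245 1960 (.cons 226 (.leaf 227 1786 (.leaf 223 1778 .nil)) .nil)) .nil)) .nil)) .nil)) .nil)) .nil)) .nil)) (.cons 199 (.leaf 175 1407 (.cons 177 (.leaf 201 1413 (.cons 296 (.leaf 223 1599 (.cons 297 (.leaf 273 1604 (.leaf 321 1796 .nil)) .nil)) .nil)) .nil)) .nil))))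
noncomputable def t141 : T := .cons 199 (.leaf 175 1407 (.cons 201 (.leaf 177 1413 (.cons 271 (.leaf 295 1598 (.cons 273 (.leaf 297 1604 (.cons 198 (.cons 173 (.leaf 174 1387 (.cons 172 (.leaf 197 1379 (.cons 222 (.leaf 221 1578 (.cons 202 (.leaf 223 1586 (.cons 179 (.leaf 178 1401 (.cons 176 (.leaf 247 1406 (.leaf 249 1412 .nil)) .nil)) .nil)) .nil)) .nil)) .nil)) (.cons 173 (.leaf 174 1387 (.cons 172 (.leaf 197 1379 (.cons 222 (.leaf 221 1578 (.cons 202 (.leaf 223 1586 (.cons 179 (.leaf 178 1401 (.cons 226 (.leaf 225 1584 (.leaf 227 1592 .nil)) .nil)) .nil)) .nil)) .nil)) .nil)) (.cons 173 (.leaf 174 1387 (.cons 221 (.leaf 222 1578 (.cons 226 (.leaf 225 1584 (.cons 202 (.leaf 227 1592 (.cons 178 (.leaf 179 1401 (.cons 250 (.leaf 251 1428 (.leaf 249 1422 .nil)) .nil)) .nil)) .nil)) .nil)) .nil)) (.cons 173 (.leaf 174 1387 (.cons 197 (.leaf 225 1576 (.leaf 172 1379 .nil)) .nil)) (.cons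 225 (.leaf 197 1576 (.leaf 226 1584 .nil)) .nil))))) .nil)) .nil)) .nil)) .nil)) (.cons 273 (.leaf 297 1604 (.cons 175 (.leaf 199 1407 (.cons 176 (.leaf 151 1215 (.leaf 249 1412 .nil)) .nil)) .nil)) (.cons 271 (.leaf 295 1598 (.cons 176 (.leaf 247 1406 (.cons 177 (.leaf 201 1413 (.leaf 153 1221 .nil)) .nil)) .nil)) (.cons 199 (.leaf 175 1407 (.cons 201 (.leaf 177 1413 (.cons 271 (.leaf 295 1598 (.cons 273 (.leaf 297 1604 (.cons 198 (.cons 173 (.leaf 174 1387 (.cons 172 (.leaf 197 1379 (.cons 222 (.leaf 221 1578 (.cons 202 (.leaf 223 1586 (.cons 179 (.leaf 178 1401 (.cons 226 (.leaf 225 1584 (.leaf 227 1592 .nil)) .nil)) .nil)) .nil)) .nil)) .nil)) (.cons 222 (.leaf 221 1578 (.cons 173 (.leaf 174 1387 (.cons 172 (.leaf 197 1379 (.cons 202 (.leaf 223 1586 (.cons 179 (.leaf 178 1401 (.cons 203 (.leaf 180 1409 (.cons 227 (.leaf 226 1592 (.leaf 228 1600 .nil)) .nil)) .nil)) .nil)) .nil))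 .nil)) .nil)) (.cons 173 (.leaf 174 1387 (.cons 197 (.leaf 225 1576 (.leaf 172 1379 .nil)) .nil)) (.cons 226 (.leaf 225 1584 (.cons 173 (.leaf 174 1387 (.cons 202 (.leaf 227 1592 (.cons 222 (.leaf 221 1578 (.leaf 223 1586 .nil)) .nil)) .nil)) .nil)) (.cons 225 (.leaf 197 1576 (.leaf 226 1584 .nil)) .nil))))) .nil)) .nil)) .nil)) .nil)) .nil)))
noncomputable def t142 : T := .cons 223 (.leaf 199 1599 (.cons 201 (.leaf 225 1605 (.cons 297 (.leaf 321 1796 (.cons 320 (.leaf 247 1791 (.cons 343 (.leaf 319 1982 (.cons 344 (.leaf 367 2174 (.cons 368 (.leaf 273 2181 (.cons 369 (.leaf 345 2180 (.leaf 393 2372 .nil)) .nil)) .nil)) .nil)) .nil)) .nil)) .nil)) .nil)) (.cons 225 (.leaf 201 1605 (.cons 320 (.leaf 249 1797 (.cons 321 (.leaf 297 1796 (.leaf 345 1988 .nil)) .nil)) .nil)) (.cons 223 (.leaf 199 1599 (.cons 295 (.leaf 319 1790 (.cons 320 (.leaf 247 1791 (.cons 321 (.leaf 297 1796 (.leaf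 345 1988 .nil)) .nil)) .nil)) .nil)) (.cons 223 (.leaf 199 1599 (.cons 201 (.leaf 225 1605 (.cons 319 (.leaf 295 1790 (.cons 320 (.leaf 247 1791 (.leaf 343 1982 .nil)) .nil)) .nil)) .nil)) (.cons 223 (.leaf 199 1599 (.cons 225 (.leaf 201 1605 (.cons 297 (.leaf 321 1796 (.cons 222 (.cons 249 (.leaf 221 1768 (.leaf 250 1776 .nil)) (.cons 197 (.leaf 198 1579 (.cons 221 (.leaf 196 1571 (.cons 245 (.leaf 244 1762 (.leaf 246 1770 .nil)) .nil)) .nil)) (.cons 197 (.leaf 198 1579 (.cons 246 (.leaf 245 1770 (.cons 226 (.leaf 247 1778 (.cons 202 (.leaf 203 1593 (.cons 249 (.leaf 250 1776 (.leaf 273 1613 .nil)) .nil)) .nil)) .nil)) .nil)) .nil))) .nil)) .nil)) .nil)) .nil))))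
noncomputable def t143 : T := .cons 200 (.cons 175 (.leaf 199 1407 (.cons 295 (.leaf 271 1598 (.cons 176 (.leaf 151 1215 (.cons 177 (.leaf 201 1413 (.leaf 153 1221 .nil)) .nil)) .nil)) .nil)) (.cons 177 (.leaf 201 1413 (.cons 176 (.leaf 153 1221 (.cons 271 (.leaf 295 1598 (.leaf 247 1406 .nil)) .nil)) .nil)) (.cons 175 (.leaf 199 1407 (.cons 295 (.leaf 271 1598 (.cons 296 (.leaf 319 1790 (.cons 297 (.leaf 273 1604 (.leaf 321 1796 .nil)) .nil)) .nil)) .nil)) (.cons 177 (.leaf 201 1413 (.cons 176 (.leaf 153 1221 (.cons 273 (.leaf 297 1604 (.leaf 249 1412 .nil)) .nil)) .nil)) .nil)))) (.cons 296 t142 (.cons 200 t141 (.cons 200 (.cons 271 (.leaf 295 1598 (.cons 176 (.leaf 247 1406 (.cons 177 (.leaf 201 1413 (.leaf 153 1221 .nil)) .nil)) .nil)) (.cons 177 (.leaf 201 1413 (.cons 176 (.leaf 153 1221 (.cons 273 (.leaf 297 1604 (.leaf 249 1412 .nil)) .nil)) .nil)) (.cons 271 (.leaf 295 1598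 (.cons 176 (.leaf 247 1406 (.cons 273 (.leaf 297 1604 (.leaf 249 1412 .nil)) .nil)) .nil)) (.cons 177 (.leaf 201 1413 (.cons 295 (.leaf 271 1598 (.cons 296 (.leaf 319 1790 (.cons 297 (.leaf 273 1604 (.leaf 321 1796 .nil)) .nil)) .nil)) .nil)) .nil)))) (.cons 200 (.cons 175 (.leaf 199 1407 (.cons 176 (.leaf 151 1215 (.cons 271 (.leaf 295 1598 (.leaf 247 1406 .nil)) .nil)) .nil)) (.cons 175 (.leaf 199 1407 (.cons 176 (.leaf 151 1215 (.cons 273 (.leaf 297 1604 (.leaf 249 1412 .nil)) .nil)) .nil)) (.cons 271 (.leaf 295 1598 (.cons 176 (.leaf 247 1406 (.cons 273 (.leaf 297 1604 (.leaf 249 1412 .nil)) .nil)) .nil)) (.cons 175 (.leaf 199 1407 (.cons 295 (.leaf 271 1598 (.cons 296 (.leaf 319 1790 (.cons 297 (.leaf 273 1604 (.leaf 321 1796 .nil)) .nil)) .nil)) .nil)) .nil)))) (.cons 200 t140 (.cons 200 (.cons 177 (.leaf 201 1413 (.cons 295 (.leaf 271 1598 (.cons 296 (.leaf 319 1790 (.cons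 297 (.leaf 273 1604 (.leaf 321 1796 .nil)) .nil)) .nil)) .nil)) (.cons 175 (.leaf 199 1407 (.cons 151 (.leaf 176 1215 (.cons 295 (.leaf 271 1598 (.cons 296 (.leaf 319 1790 (.cons 297 (.leaf 273 1604 (.leaf 321 1796 .nil)) .nil)) .nil)) .nil)) .nil)) (.cons 175 (.leaf 199 1407 (.cons 176 (.leaf 151 1215 (.cons 177 (.leaf 201 1413 (.leaf 153 1221 .nil)) .nil)) .nil)) .nil))) (.cons 200 (.cons 177 (.leaf 201 1413 (.cons 176 (.leaf 153 1221 (.cons 271 (.leaf 295 1598 (.leaf 247 1406 .nil)) .nil)) .nil)) (.cons 175 (.leaf 199 1407 (.cons 176 (.leaf 151 1215 (.cons 271 (.leaf 295 1598 (.leaf 247 1406 .nil)) .nil)) .nil)) (.cons 201 (.leaf 177 1413 (.cons 175 (.leaf 199 1407 (.cons 176 (.leaf 151 1215 (.cons 173 (.leaf 174 1384 (.cons 202 (.leaf 203 1403 (.cons 225 (.leaf 296 1605 (.cons 249 (.leaf 273 1412 (.leaf 152 1220 .nil)) .nil)) .nil)) .nil)) .nil)) .nil)) .nil)) (.cons 175 (.leaf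 199 1407 (.cons 201 (.leaf 177 1413 (.cons 295 (.leaf 271 1598 (.cons 296 (.leaf 225 1605 (.leaf 319 1790 .nil)) .nil)) .nil)) .nil)) .nil)))) (.cons 200 t139 .nil))))))))
noncomputable def t144 : T := .cons 274 (.leaf 295 2170 (.cons 251 (.leaf 252 1985 (.cons 320 (.cons 321 (.leaf 345 1988 (.cons 343 (.leaf 319 1982 (.cons 344 (.leaf 367 2174 (.cons 297 (.leaf 224 1796 (.leaf 368 2181 .nil)) .nil)) .nil)) .nil)) (.cons 343 (.leaf 319 1982 (.cons 344 (.leaf 367 2174 (.cons 368 (.leaf 297 2181 (.cons 369 (.leaf 345 2180 (.leaf 393 2372 .nil)) .nil)) .nil)) .nil)) (.cons 343 (.leaf 319 1982 (.cons 344 (.leaf 367 2174 (.cons 297 (.leaf 368 2181 (.cons 224 (.leaf 200 1604 (.leaf 321 1796 .nil)) .nil)) .nil)) .nil)) (.cons 345 (.leaf 321 1988 (.cons 250 (.leaf 271 1977 (.cons 343 (.leaf 319 1982 (.cons 344 (.leaf 367 2174 (.leaf 369 2180 .nil)) .nil)) .nil)) .nil)) (.cons 321 (.leaf 345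 1988 (.cons 224 (.leaf 297 1796 (.cons 199 (.leaf 223 1599 (.cons 200 (.leaf 175 1407 (.cons 201 (.leaf 177 1413 (.leaf 225 1605 .nil)) .nil)) .nil)) .nil)) .nil)) .nil))))) .nil)) .nil)) (.cons 320 (.cons 321 (.leaf 345 1988 (.cons 224 (.leaf 297 1796 (.cons 199 (.leaf 223 1599 (.cons 200 (.leaf 175 1407 (.cons 201 (.leaf 177 1413 (.leaf 225 1605 .nil)) .nil)) .nil)) .nil)) .nil)) (.cons 343 (.leaf 319 1982 (.cons 344 (.leaf 367 2174 (.cons 368 (.leaf 297 2181 (.cons 369 (.leaf 345 2180 (.leaf 393 2372 .nil)) .nil)) .nil)) .nil)) (.cons 343 (.leaf 319 1982 (.cons 344 (.leaf 367 2174 (.cons 297 (.leaf 368 2181 (.cons 224 (.leaf 200 1604 (.leaf 321 1796 .nil)) .nil)) .nil)) .nil)) (.cons 343 (.leaf 319 1982 (.cons 344 (.leaf 367 2174 (.cons 345 (.leaf 321 1988 (.leaf 369 2180 .nil)) .nil)) .nil)) .nil)))) (.cons 295 (.leaf 274 2170 (.cons 294 (.leaf 293 2153 (.cons 297 (.cons 321 (.leaf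 345 1991 (.leaf 322 2352 .nil)) (.cons 270 (.leaf 269 2155 (.cons 271 (.leaf 298 2160 (.cons 245 (.leaf 246 1963 (.cons 318 (.leaf 317 2346 (.cons 342 (.leaf 366 2165 (.cons 343 (.leaf 319 1981 (.leaf 367 2164 .nil)) .nil)) .nil)) .nil)) .nil)) .nil)) .nil)) .nil)) .nil)) (.cons 295 (.leaf 274 2170 (.cons 224 (.leaf 319 1790 (.cons 200 (.leaf 271 1598 (.cons 201 (.leaf 177 1413 (.leaf 225 1605 .nil)) .nil)) .nil)) .nil)) (.cons 274 (.leaf 295 2170 (.cons 251 (.leaf 252 1985 (.cons 250 (.leaf 271 1977 (.cons 297 (.cons 321 (.leaf 224 1796 (.leaf 345 1997 .nil)) (.cons 224 (.leaf 200 1604 (.cons 223 (.leaf 199 1599 (.cons 225 (.leaf 201 1605 (.leaf 226 1784 .nil)) .nil)) .nil)) (.cons 321 (.leaf 345 1997 (.cons 226 (.leaf 202 1614 (.leaf 298 1806 .nil)) .nil)) .nil))) .nil)) .nil)) .nil)) .nil))))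
noncomputable def t145 : T := .cons 199 (.leaf 223 1599 (.cons 200 (.leaf 175 1407 (.cons 295 (.leaf 271 1598 (.leaf 319 1790 .nil)) .nil)) .nil)) (.cons 223 (.leaf 199 1599 (.cons 201 (.leaf 225 1605 (.cons 177 (.leaf 200 1413 (.cons 320 (.leaf 247 1791 (.cons 343 (.leaf 319 1982 (.cons 344 (.leaf 367 2174 (.cons 345 (.leaf 321 1988 (.leaf 369 2180 .nil)) .nil)) .nil)) .nil)) .nil)) .nil)) .nil)) (.cons 295 (.leaf 319 1790 (.cons 200 (.leaf 271 1598 (.cons 201 (.leaf 177 1413 (.leaf 225 1605 .nil)) .nil)) .nil)) (.cons 223 (.leaf 199 1599 (.cons 201 (.leaf 225 1605 (.cons 200 (.leaf 177 1413 (.cons 202 (.leaf 203 1594 (.cons 221 (.leaf 222 1577 (.cons 247 (.leaf 320 1791 (.cons 271 (.leaf 295 1597 (.leaf 176 1406 .nil)) .nil)) .nil)) .nil)) .nil)) .nil)) .nil)) (.cons 223 (.leaf 199 1599 (.cons 201 (.leaf 225 1605 (.cons 247 (.leaf 320 1791 (.cons 245 (.leaf 246 1960 (.cons 295 (.leaf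 319 1790 (.cons 294 (.leaf 293 2153 (.cons 271 (.leaf 318 1782 (.cons 222 (.leaf 198 1591 (.cons 221 (.leaf 220 1760 (.leaf 244 1762 .nil)) .nil)) .nil)) .nil)) .nil)) .nil)) .nil)) .nil)) .nil)) .nil))))
noncomputable def t146 : T := .cons 200 (.leaf 297 1604 (.cons 175 (.leaf 199 1407 (.cons 176 (.leaf 151 1215 (.cons 271 (.leaf 295 1598 (.leaf 247 1406 .nil)) .nil)) .nil)) .nil)) (.cons 296 (.cons 201 (.leaf 225 1605 (.cons 223 (.leaf 199 1599 (.cons 247 (.leaf 320 1791 (.cons 245 (.leaf 246 1960 (.cons 295 (.leaf 319 1790 (.cons 294 (.leaf 293 2153 (.cons 271 (.leaf 318 1782 (.cons 222 (.leaf 198 1591 (.cons 221 (.leaf 220 1760 (.leaf 244 1762 .nil)) .nil)) .nil)) .nil)) .nil)) .nil)) .nil)) .nil)) .nil)) (.cons 321 (.leaf 297 1796 (.cons 201 (.leaf 225 1605 (.cons 223 (.leaf 199 1599 (.cons 320 (.leaf 247 1791 (.leaf 345 1988 .nil)) .nil)) .nil)) .nil)) (.cons 321 (.leaf 297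 1796 (.cons 201 (.leaf 225 1605 (.cons 319 (.leaf 295 1790 (.cons 320 (.leaf 343 1982 (.leaf 345 1988 .nil)) .nil)) .nil)) .nil)) (.cons 199 (.leaf 223 1599 (.cons 295 (.leaf 319 1790 (.cons 294 (.leaf 293 2153 (.cons 297 (.leaf 321 1796 (.cons 270 (.leaf 269 2155 (.cons 271 (.leaf 298 2160 (.cons 245 (.leaf 246 1963 (.cons 318 (.leaf 317 2346 (.cons 342 (.leaf 366 2165 (.leaf 247 1973 .nil)) .nil)) .nil)) .nil)) .nil)) .nil)) .nil)) .nil)) .nil)) .nil)))) (.cons 296 t145 (.cons 200 (.leaf 297 1604 (.cons 175 (.leaf 199 1407 (.cons 176 (.leaf 151 1215 (.cons 177 (.leaf 201 1413 (.leaf 153 1221 .nil)) .nil)) .nil)) .nil)) (.cons 200 (.leaf 297 1604 (.cons 177 (.leaf 201 1413 (.cons 176 (.leaf 153 1221 (.cons 271 (.leaf 295 1598 (.leaf 247 1406 .nil)) .nil)) .nil)) .nil)) .nil))))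
noncomputable def t147 : T := .cons 274 (.leaf 247 1979 (.cons 251 (.leaf 252 1985 (.cons 250 (.leaf 271 1977 (.cons 297 (.cons 321 (.leaf 345 1997 (.cons 224 (.leaf 200 1604 (.leaf 296 1796 .nil)) .nil)) (.cons 224 (.leaf 200 1604 (.cons 226 (.leaf 202 1614 (.cons 223 (.leaf 225 1784 (.cons 296 (.leaf 295 2170 (.leaf 199 1599 .nil)) .nil)) .nil)) .nil)) (.cons 224 (.leaf 200 1604 (.cons 321 (.leaf 345 1997 (.cons 226 (.leaf 202 1614 (.leaf 298 1806 .nil)) .nil)) .nil)) (.cons 321 (.leaf 345 1997 (.cons 226 (.leaf 202 1614 (.leaf 298 1806 .nil)) .nil)) .nil)))) .nil)) .nil)) .nil)) (.cons 224 t146 (.cons 296 t144 (.cons 274 (.leaf 247 1979 (.cons 251 (.leaf 252 1985 (.cons 250 (.leaf 271 1977 (.cons 298 (.cons 227 (.leaf 203 1622 (.leaf 322 1813 .nil)) (.cons 227 (.leaf 203 1622 (.cons 226 (.cons 202 (.leaf 178 1428 (.leaf 297 1614 .nil)) (.cons 201 (.leaf 225 1615 (.cons 202 (.leaf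 178 1428 (.leaf 177 1423 .nil)) .nil)) (.cons 225 (.leaf 201 1615 (.cons 224 (.leaf 223 1784 (.cons 200 (.leaf 297 1604 (.leaf 199 1595 .nil)) .nil)) .nil)) .nil))) .nil)) (.cons 322 (.leaf 346 2005 (.cons 321 (.leaf 345 1998 (.cons 226 (.leaf 297 1806 (.cons 201 (.leaf 225 1615 (.cons 202 (.leaf 178 1428 (.leaf 177 1423 .nil)) .nil)) .nil)) .nil)) .nil)) .nil))) .nil)) .nil)) .nil)) (.cons 274 (.leaf 247 1979 (.cons 251 (.leaf 252 1985 (.cons 271 (.leaf 250 1977 (.cons 295 (.leaf 296 2170 (.leaf 294 2162 .nil)) .nil)) .nil)) .nil)) (.cons 274 (.leaf 247 1979 (.cons 296 (.leaf 295 2170 (.cons 251 (.leaf 252 1985 (.cons 320 (.cons 321 (.leaf 345 1988 (.cons 343 (.leaf 319 1982 (.cons 344 (.leaf 367 2174 (.cons 297 (.leaf 224 1796 (.leaf 368 2181 .nil)) .nil)) .nil)) .nil)) (.cons 343 (.leaf 319 1982 (.cons 344 (.leaf 367 2174 (.cons 368 (.leaf 297 2181 (.cons 369 (.leaf 345 2180 (.leaf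 393 2372 .nil)) .nil)) .nil)) .nil)) (.cons 343 (.leaf 319 1982 (.cons 344 (.leaf 367 2174 (.cons 297 (.leaf 368 2181 (.cons 224 (.leaf 200 1604 (.leaf 321 1796 .nil)) .nil)) .nil)) .nil)) (.cons 321 (.leaf 345 1988 (.cons 224 (.leaf 297 1796 (.cons 199 (.leaf 223 1599 (.cons 200 (.leaf 175 1407 (.cons 201 (.leaf 177 1413 (.leaf 225 1605 .nil)) .nil)) .nil)) .nil)) .nil)) (.cons 345 (.leaf 321 1988 (.cons 343 (.leaf 319 1982 (.cons 344 (.leaf 367 2174 (.leaf 369 2180 .nil)) .nil)) .nil)) .nil))))) .nil)) .nil)) .nil)) .nil)))))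
noncomputable def t148 : T := .cons 201 (.leaf 225 1615 (.cons 202 (.leaf 177 1423 (.cons 203 (.leaf 179 1429 (.leaf 227 1621 .nil)) .nil)) .nil)) (.cons 201 (.leaf 225 1615 (.cons 202 (.leaf 177 1423 (.cons 178 (.leaf 251 1428 (.cons 179 (.leaf 203 1429 (.leaf 155 1237 .nil)) .nil)) .nil)) .nil)) (.cons 201 (.leaf 225 1615 (.cons 202 (.leaf 177 1423 (.cons 251 (.leaf 178 1428 (.cons 322 (.leaf 346 2005 (.leaf 227 1813 .nil)) .nil)) .nil)) .nil)) (.cons 202 (.cons 203 (.leaf 179 1429 (.leaf 227 1621 .nil)) (.cons 178 (.leaf 251 1428 (.cons 153 (.leaf 177 1231 (.cons 154 (.leaf 129 1039 (.cons 155 (.leaf 179 1237 (.leaf 131 1045 .nil)) .nil)) .nil)) .nil)) (.cons 227 (.leaf 203 1621 (.cons 251 (.leaf 178 1428 (.leaf 322 1813 .nil)) .nil)) .nil))) (.cons 227 (.leaf 203 1621 (.cons 251 (.leaf 322 1813 (.cons 225 (.leaf 201 1615 (.cons 228 (.cons 253 (.leaf 252 1800 (.cons 229 (.leaf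 230 1810 (.leaf 254 1808 .nil)) .nil)) (.cons 204 (.leaf 205 1609 (.cons 180 (.leaf 252 1438 (.leaf 156 1246 .nil)) .nil)) (.cons 205 (.leaf 204 1609 (.cons 229 (.leaf 230 1810 (.leaf 206 1617 .nil)) .nil)) .nil))) .nil)) .nil)) .nil)) .nil))))
noncomputable def t149 : T := .cons 322 (.cons 321 (.leaf 345 1998 (.cons 226 (.leaf 297 1806 (.cons 201 (.leaf 225 1615 (.cons 202 (.leaf 177 1423 (.cons 203 (.leaf 179 1429 (.leaf 227 1621 .nil)) .nil)) .nil)) .nil)) .nil)) (.cons 346 (.leaf 251 2005 (.cons 347 (.leaf 323 2004 (.leaf 371 2196 .nil)) .nil)) .nil)) (.cons 226 (.cons 201 (.leaf 225 1615 (.cons 202 (.leaf 177 1423 (.cons 203 (.leaf 179 1429 (.leaf 227 1621 .nil)) .nil)) .nil)) (.cons 201 (.leaf 225 1615 (.cons 177 (.leaf 202 1423 (.cons 297 (.leaf 321 1806 (.cons 296 (.leaf 295 2169 (.cons 223 (.leaf 320 1791 (.cons 199 (.leaf 175 1404 (.leaf 271 1596 .nil)) .nil)) .nil)) .nil))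 .nil)) .nil)) (.cons 203 (.leaf 227 1621 (.cons 179 (.leaf 202 1429 (.cons 297 (.leaf 321 1806 (.cons 296 (.leaf 295 2169 (.cons 223 (.leaf 320 1791 (.cons 199 (.leaf 175 1404 (.leaf 271 1596 .nil)) .nil)) .nil)) .nil)) .nil)) .nil)) (.cons 201 (.leaf 225 1615 (.cons 203 (.leaf 227 1621 (.cons 297 (.leaf 321 1806 (.cons 296 (.leaf 295 2169 (.cons 223 (.leaf 320 1791 (.cons 199 (.leaf 175 1404 (.leaf 271 1596 .nil)) .nil)) .nil)) .nil)) .nil)) .nil)) .nil)))) (.cons 322 (.cons 345 (.leaf 321 1998 (.cons 346 (.leaf 251 2005 (.leaf 369 2190 .nil)) .nil)) (.cons 345 (.leaf 321 1998 (.cons 346 (.leaf 369 2190 (.cons 347 (.leaf 323 2004 (.leaf 371 2196 .nil)) .nil)) .nil)) (.cons 251 (.leaf 227 1813 (.cons 321 (.leaf 345 1998 (.cons 323 (.leaf 347 2004 (.cons 296 (.cons 295 (.leaf 297 2360 (.leaf 320 2363 .nil)) (.cons 223 (.leaf 320 1791 (.cons 199 (.leaf 175 1404 (.leaf 271 1596 .nil))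 .nil)) (.cons 297 (.leaf 295 2360 (.leaf 324 2371 .nil)) .nil))) .nil)) .nil)) .nil)) (.cons 251 (.leaf 346 2005 (.leaf 227 1813 .nil)) .nil)))) (.cons 322 (.cons 346 (.leaf 251 2005 (.cons 347 (.leaf 323 2004 (.leaf 371 2196 .nil)) .nil)) (.cons 321 (.leaf 345 1998 (.cons 226 (.leaf 297 1806 (.cons 201 (.leaf 225 1615 (.cons 202 (.leaf 177 1423 (.cons 178 (.leaf 251 1428 (.cons 179 (.leaf 203 1429 (.leaf 155 1237 .nil)) .nil)) .nil)) .nil)) .nil)) .nil)) (.cons 321 (.leaf 345 1998 (.cons 347 (.leaf 323 2004 (.cons 346 (.leaf 371 2196 (.cons 320 (.leaf 319 2552 (.cons 296 (.leaf 223 1791 (.cons 295 (.leaf 297 2169 (.cons 344 (.leaf 271 1983 (.cons 367 (.leaf 343 2174 (.cons 368 (.leaf 391 2366 (.cons 369 (.leaf 370 2745 (.leaf 393 2372 .nil)) .nil)) .nil)) .nil)) .nil)) .nil)) .nil)) .nil)) .nil)) .nil)) .nil))) (.cons 226 t148 .nil))))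
noncomputable def t150 : T := .cons 295 (.leaf 293 2153 (.cons 271 (.cons 223 (.leaf 199 1596 (.leaf 318 1782 .nil)) (.cons 319 (.leaf 343 1981 (.leaf 222 1783 .nil)) .nil)) .nil)) (.cons 270 (.cons 223 (.leaf 318 1781 (.cons 199 (.leaf 175 1404 (.leaf 271 1596 .nil)) .nil)) (.cons 223 (.leaf 318 1781 (.cons 199 (.leaf 175 1404 (.leaf 222 1589 .nil)) .nil)) (.cons 271 (.leaf 293 2154 (.cons 269 (.leaf 297 2152 (.leaf 268 1953 .nil)) .nil)) .nil))) (.cons 223 (.cons 318 (.leaf 270 1781 (.cons 295 (.leaf 271 1782 (.cons 297 (.leaf 317 2346 (.cons 321 (.leaf 345 1991 (.leaf 322 2352 .nil)) .nil)) .nil)) .nil)) (.cons 199 (.leaf 175 1404 (.leaf 271 1596 .nil)) (.cons 199 (.leaf 175 1404 (.cons 270 (.leaf 318 1781 (.leaf 222 1589 .nil)) .nil)) .nil))) (.cons 295 (.leaf 293 2153 (.cons 297 (.cons 321 (.leaf 345 1991 (.leaf 322 2352 .nil)) (.cons 270 (.leaf 269 2155 (.cons 318 (.leaf 223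 1781 (.leaf 317 2346 .nil)) .nil)) .nil)) .nil)) (.cons 293 (.leaf 295 2153 (.cons 270 (.leaf 271 2154 (.cons 222 (.leaf 317 1774 (.cons 197 (.leaf 221 1583 (.cons 198 (.leaf 173 1391 (.leaf 269 1582 .nil)) .nil)) .nil)) .nil)) .nil)) .nil))))
noncomputable def t151 : T := .cons 320 (.leaf 223 1791 (.cons 344 (.leaf 271 1983 (.cons 345 (.leaf 321 1988 (.leaf 369 2180 .nil)) .nil)) .nil)) (.cons 294 t150 (.cons 320 (.cons 344 (.leaf 271 1983 (.cons 345 (.leaf 321 1988 (.leaf 369 2180 .nil)) .nil)) (.cons 321 (.leaf 345 1988 (.cons 319 (.leaf 343 1982 (.cons 295 (.cons 294 (.leaf 293 2344 (.leaf 322 2355 .nil)) (.cons 271 (.leaf 222 1783 (.cons 318 (.leaf 342 1974 (.cons 297 (.leaf 298 2353 (.leaf 317 2345 .nil)) .nil)) .nil)) .nil)) .nil)) .nil)) (.cons 344 (.leaf 271 1983 (.cons 343 (.leaf 319 1982 (.leaf 367 2174 .nil)) .nil)) (.cons 345 (.leaf 321 1988 (.cons 319 (.leaf 343 1982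 (.cons 344 (.leaf 369 2180 (.cons 297 (.leaf 368 2181 (.cons 318 (.leaf 317 2536 (.cons 295 (.leaf 298 2354 (.cons 294 (.leaf 293 2153 (.cons 270 (.leaf 222 1780 (.leaf 269 2155 .nil)) .nil)) .nil)) .nil)) .nil)) .nil)) .nil)) .nil)) .nil)))) (.cons 320 (.leaf 223 1791 (.cons 345 (.leaf 321 1988 (.cons 319 (.leaf 343 1982 (.cons 344 (.leaf 369 2180 (.cons 297 (.leaf 368 2181 (.cons 318 (.leaf 317 2536 (.cons 295 (.leaf 298 2354 (.cons 294 (.leaf 293 2153 (.cons 270 (.leaf 222 1780 (.leaf 269 2155 .nil)) .nil)) .nil)) .nil)) .nil)) .nil)) .nil)) .nil)) .nil)) (.cons 223 (.leaf 320 1791 (.cons 199 (.leaf 175 1404 (.leaf 271 1596 .nil)) .nil)) .nil))))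
noncomputable def t152 : T := .cons 245 (.leaf 273 1960 (.cons 220 (.leaf 221 1763 (.cons 269 (.leaf 268 1954 (.cons 249 (.leaf 270 1962 (.cons 226 (.leaf 225 1777 (.cons 250 (.leaf 227 1785 (.cons 223 (.leaf 222 1779 (.cons 199 (.leaf 175 1404 (.cons 271 (.leaf 296 1596 (.leaf 244 1952 .nil)) .nil)) .nil)) .nil)) .nil)) .nil)) .nil)) .nil)) .nil)) (.cons 249 (.cons 222 (.leaf 221 1771 (.cons 223 (.leaf 250 1779 (.cons 175 (.leaf 199 1404 (.cons 270 (.leaf 269 1962 (.cons 294 (.leaf 318 1781 (.cons 293 (.leaf 317 1774 (.cons 271 (.leaf 273 2154 (.cons 295 (.leaf 292 2145 (.leaf 198 1588 .nil)) .nil)) .nil)) .nil)) .nil)) .nil)) .nil)) .nil)) (.cons 221 (.leaf 222 1771 (.cons 225 (.leaf 226 1777 (.cons 201 (.leaf 177 1414 (.cons 296 (.leaf 273 1606 (.leaf 320 1797 .nil)) .nil)) .nil)) .nil)) (.cons 270 (.leaf 269 1962 (.cons 226 (.leaf 225 1777 (.cons 250 (.leaf 227 1785 (.leaf 271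 1970 .nil)) .nil)) .nil)) .nil))) (.cons 245 (.leaf 273 1960 (.cons 220 (.leaf 221 1763 (.cons 244 (.leaf 271 1952 (.leaf 219 1755 .nil)) .nil)) .nil)) (.cons 249 (.cons 221 (.leaf 222 1771 (.cons 220 (.leaf 245 1763 (.cons 226 (.leaf 225 1777 (.cons 250 (.leaf 227 1785 (.cons 271 (.leaf 251 1978 (.leaf 270 1970 .nil)) .nil)) .nil)) .nil)) .nil)) (.cons 225 (.leaf 226 1777 (.cons 177 (.leaf 201 1414 (.cons 221 (.leaf 222 1771 (.cons 245 (.leaf 220 1763 (.cons 244 (.leaf 271 1952 (.cons 268 (.leaf 269 1954 (.leaf 267 1946 .nil)) .nil)) .nil)) .nil)) .nil)) .nil)) (.cons 270 (.leaf 269 1962 (.cons 226 (.leaf 225 1777 (.cons 250 (.leaf 227 1785 (.leaf 271 1970 .nil)) .nil)) .nil)) (.cons 221 (.leaf 222 1771 (.cons 225 (.leaf 226 1777 (.cons 177 (.leaf 201 1414 (.cons 245 (.leaf 220 1763 (.cons 269 (.leaf 268 1954 (.leaf 270 1962 .nil)) .nil)) .nil)) .nil)) .nil)) (.cons 221 (.leaf 222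 1771 (.cons 245 (.leaf 220 1763 (.cons 269 (.leaf 268 1954 (.leaf 270 1962 .nil)) .nil)) .nil)) .nil))))) (.cons 245 (.leaf 273 1960 (.cons 220 (.leaf 221 1763 (.cons 244 (.leaf 219 1755 (.cons 268 (.leaf 269 1954 (.leaf 267 1946 .nil)) .nil)) .nil)) .nil)) (.cons 245 (.leaf 273 1960 (.cons 244 (.leaf 271 1952 (.cons 268 (.leaf 269 1954 (.leaf 267 1946 .nil)) .nil)) .nil)) .nil)))))
noncomputable def t153 : T := .cons 269 (.leaf 270 1962 (.cons 221 (.leaf 222 1771 (.cons 245 (.leaf 220 1763 (.leaf 268 1954 .nil)) .nil)) .nil)) (.cons 225 (.leaf 226 1777 (.cons 296 (.leaf 320 1797 (.cons 222 (.leaf 221 1771 (.cons 177 (.leaf 201 1414 (.cons 271 (.cons 223 (.leaf 199 1596 (.cons 295 (.leaf 198 1591 (.leaf 319 1783 .nil)) .nil)) (.cons 199 (.leaf 223 1596 (.cons 198 (.leaf 174 1396 (.cons 175 (.leaf 270 1397 (.cons 127 (.leaf 151 1014 (.cons 176 (.leaf 178 1394 (.cons 197 (.leaf 200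 1385 (.leaf 196 1377 .nil)) .nil)) .nil)) .nil)) .nil)) .nil)) (.cons 295 (.leaf 319 1783 (.cons 198 (.leaf 174 1396 (.leaf 270 1588 .nil)) .nil)) (.cons 295 (.leaf 319 1783 (.cons 223 (.leaf 199 1596 (.cons 294 (.leaf 318 1782 (.cons 293 (.leaf 292 2145 (.cons 317 (.leaf 270 1774 (.leaf 316 2338 .nil)) .nil)) .nil)) .nil)) .nil)) .nil)))) .nil)) .nil)) .nil)) .nil)) (.cons 225 (.leaf 226 1777 (.cons 177 (.leaf 201 1414 (.cons 221 (.leaf 222 1771 (.cons 245 (.leaf 220 1763 (.cons 244 (.leaf 271 1952 (.cons 268 (.leaf 269 1954 (.leaf 267 1946 .nil)) .nil)) .nil)) .nil)) .nil)) .nil)) (.cons 269 (.leaf 270 1962 (.cons 225 (.leaf 226 1777 (.cons 245 (.leaf 268 1954 (.cons 296 (.leaf 320 1797 (.cons 271 (.leaf 244 1952 (.cons 223 (.leaf 199 1596 (.cons 201 (.leaf 177 1414 (.cons 295 (.cons 222 (.leaf 198 1591 (.leaf 319 1783 .nil)) (.cons 318 (.leaf 294 1782 (.cons 319 (.leaf 343 1981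 (.leaf 342 1974 .nil)) .nil)) (.cons 222 (.leaf 198 1591 (.cons 293 (.leaf 317 1773 (.cons 294 (.leaf 292 2145 (.leaf 318 1782 .nil)) .nil)) .nil)) .nil))) .nil)) .nil)) .nil)) .nil)) .nil)) .nil)) .nil)) (.cons 269 (.leaf 270 1962 (.cons 225 (.leaf 226 1777 (.cons 177 (.leaf 201 1414 (.cons 245 (.leaf 268 1954 (.cons 220 (.leaf 221 1763 (.cons 244 (.leaf 271 1952 (.leaf 219 1755 .nil)) .nil)) .nil)) .nil)) .nil)) .nil)) .nil))))
noncomputable def t154 : T := .cons 273 (.leaf 274 1979 (.cons 246 (.leaf 245 1960 (.cons 249 (.cons 222 (.leaf 221 1771 (.cons 223 (.leaf 250 1779 (.cons 199 (.leaf 175 1404 (.cons 270 (.leaf 269 1962 (.leaf 294 1589 .nil)) .nil)) .nil)) .nil)) (.cons 222 (.leaf 221 1771 (.cons 225 (.leaf 226 1777 (.cons 201 (.leaf 177 1414 (.leaf 296 1606 .nil)) .nil)) .nil)) (.cons 270 (.leaf 269 1962 (.cons 250 (.leaf 271 1969 (.cons 227 (.leaf 226 1785 (.cons 251 (.leaf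 252 1986 (.leaf 228 1793 .nil)) .nil)) .nil)) .nil)) .nil))) .nil)) .nil)) (.cons 249 (.cons 246 (.cons 221 (.leaf 222 1771 (.cons 226 (.leaf 225 1777 (.cons 250 (.leaf 274 1976 (.leaf 227 1785 .nil)) .nil)) .nil)) (.cons 269 (.leaf 270 1962 (.cons 221 (.leaf 222 1771 (.cons 245 (.leaf 220 1763 (.leaf 268 1954 .nil)) .nil)) .nil)) (.cons 250 (.leaf 274 1976 (.cons 226 (.leaf 225 1777 (.leaf 227 1785 .nil)) .nil)) .nil))) (.cons 246 t153 (.cons 250 (.leaf 274 1976 (.cons 271 (.leaf 251 1978 (.leaf 270 1970 .nil)) .nil)) (.cons 250 (.leaf 274 1976 (.cons 222 (.leaf 223 1779 (.cons 226 (.leaf 227 1785 (.cons 246 (.leaf 221 1771 (.leaf 225 1777 .nil)) .nil)) .nil)) .nil)) .nil)))) (.cons 246 t152 (.cons 273 (.leaf 274 1979 (.cons 246 (.leaf 245 1960 (.cons 296 t151 .nil)) .nil)) (.cons 274 (.leaf 273 1979 (.cons 250 (.leaf 249 1976 (.cons 298 t149 .nil)) .nil)) (.cons 273 (.leaf 274 1979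 (.cons 246 (.leaf 245 1960 (.cons 249 (.cons 225 (.leaf 226 1777 (.cons 201 (.leaf 177 1414 (.leaf 296 1606 .nil)) .nil)) (.cons 222 (.leaf 221 1771 (.cons 223 (.leaf 250 1779 (.cons 199 (.leaf 175 1404 (.cons 270 (.leaf 269 1962 (.leaf 294 1589 .nil)) .nil)) .nil)) .nil)) .nil)) .nil)) .nil)) (.cons 273 (.leaf 274 1979 (.cons 246 (.leaf 245 1960 (.cons 249 (.cons 270 (.leaf 269 1962 (.cons 250 (.leaf 271 1969 (.cons 227 (.leaf 226 1785 (.cons 251 (.leaf 252 1986 (.leaf 228 1793 .nil)) .nil)) .nil)) .nil)) (.cons 225 (.leaf 226 1777 (.cons 201 (.leaf 177 1414 (.leaf 296 1606 .nil)) .nil)) (.cons 221 (.leaf 222 1771 (.cons 270 (.leaf 269 1962 (.cons 271 (.leaf 250 1969 (.cons 293 (.leaf 294 2154 (.cons 297 (.leaf 298 2160 (.cons 321 (.leaf 345 1991 (.cons 320 (.leaf 344 1990 (.cons 296 (.leaf 225 1797 (.cons 319 (.leaf 343 1982 (.cons 318 (.leaf 317 2345 (.cons 342 (.leaf 295 1974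 (.leaf 341 2538 .nil)) .nil)) .nil)) .nil)) .nil)) .nil)) .nil)) .nil)) .nil)) .nil)) .nil)) .nil))) .nil)) .nil)) (.cons 273 (.leaf 274 1979 (.cons 246 (.leaf 245 1960 (.cons 249 (.cons 222 (.leaf 221 1771 (.cons 223 (.leaf 250 1779 (.cons 199 (.leaf 175 1404 (.cons 270 (.leaf 269 1962 (.leaf 294 1589 .nil)) .nil)) .nil)) .nil)) (.cons 222 (.leaf 221 1771 (.cons 225 (.leaf 226 1777 (.cons 201 (.leaf 177 1414 (.cons 200 (.leaf 176 1415 (.cons 202 (.leaf 178 1421 (.cons 199 (.leaf 223 1586 (.cons 174 (.leaf 175 1395 (.cons 198 (.leaf 271 1396 (.leaf 173 1387 .nil)) .nil)) .nil)) .nil)) .nil)) .nil)) .nil)) .nil)) (.cons 270 (.leaf 269 1962 (.cons 250 (.leaf 271 1969 (.cons 227 (.leaf 226 1785 (.cons 251 (.leaf 252 1986 (.leaf 228 1793 .nil)) .nil)) .nil)) .nil)) .nil))) .nil)) .nil)) .nil)))))))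
noncomputable def t155 : T := .cons 225 (.leaf 226 1777 (.cons 201 (.leaf 177 1414 (.cons 178 (.leaf 202 1421 (.cons 200 (.leaf 176 1415 (.cons 224 (.leaf 297 1604 (.cons 199 (.leaf 175 1407 (.cons 198 (.leaf 197 1576 (.cons 174 (.leaf 173 1387 (.cons 271 (.leaf 295 1598 (.leaf 223 1399 .nil)) .nil)) .nil)) .nil)) .nil)) .nil)) .nil)) .nil)) .nil)) (.cons 270 (.leaf 269 1962 (.cons 271 (.leaf 250 1969 (.cons 293 (.leaf 294 2154 (.cons 297 (.leaf 298 2160 (.cons 321 (.leaf 345 1991 (.leaf 224 1799 .nil)) .nil)) .nil)) .nil)) .nil)) (.cons 225 (.leaf 226 1777 (.cons 201 (.leaf 177 1414 (.cons 178 (.leaf 202 1421 (.cons 200 (.leaf 176 1415 (.cons 297 (.leaf 224 1604 (.cons 269 (.leaf 270 1962 (.cons 321 (.leaf 345 1991 (.cons 322 (.leaf 298 1804 (.leaf 346 1996 .nil)) .nil)) .nil)) .nil)) .nil)) .nil)) .nil)) .nil)) (.cons 225 (.leaf 226 1777 (.cons 177 (.leaf 201 1414 (.cons 270 (.leaf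 269 1962 (.cons 271 (.leaf 250 1969 (.cons 294 (.leaf 293 2154 (.cons 223 (.leaf 199 1590 (.leaf 318 1781 .nil)) .nil)) .nil)) .nil)) .nil)) .nil)) .nil)))
noncomputable def t156 : T := .leaf 245 1960 (.cons 249 (.cons 221 (.leaf 222 1771 (.cons 226 (.leaf 225 1777 (.cons 250 (.leaf 227 1785 (.cons 271 (.leaf 251 1978 (.leaf 270 1969 .nil)) .nil)) .nil)) .nil)) (.cons 221 (.leaf 222 1771 (.cons 226 (.leaf 225 1777 (.cons 250 (.leaf 227 1785 (.cons 251 (.leaf 271 1978 (.leaf 252 1986 .nil)) .nil)) .nil)) .nil)) (.cons 221 (.leaf 222 1771 (.cons 270 (.leaf 269 1962 (.cons 271 (.leaf 250 1969 (.cons 293 (.leaf 294 2154 (.cons 297 (.leaf 298 2160 (.cons 224 (.leaf 200 1604 (.leaf 321 1799 .nil)) .nil)) .nil)) .nil)) .nil)) .nil)) (.cons 221 (.leaf 222 1771 (.cons 225 (.leaf 226 1777 (.cons 201 (.leaf 177 1414 (.cons 200 (.leaf 176 1415 (.cons 297 (.leaf 224 1604 (.cons 269 (.leaf 270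 1962 (.cons 321 (.leaf 345 1991 (.cons 322 (.leaf 298 1804 (.leaf 346 1996 .nil)) .nil)) .nil)) .nil)) .nil)) .nil)) .nil)) .nil)) (.cons 270 (.leaf 269 1962 (.cons 271 (.leaf 250 1969 (.cons 293 (.leaf 294 2154 (.cons 297 (.leaf 298 2160 (.cons 321 (.leaf 345 1991 (.leaf 224 1799 .nil)) .nil)) .nil)) .nil)) .nil)) .nil))))) .nil)
noncomputable def t157 : T := .cons 225 (.leaf 226 1777 (.cons 177 (.leaf 201 1414 (.cons 270 (.leaf 269 1962 (.cons 271 (.leaf 250 1969 (.cons 222 (.leaf 221 1771 (.cons 198 (.leaf 174 1396 (.leaf 295 1588 .nil)) .nil)) .nil)) .nil)) .nil)) .nil)) (.cons 222 (.leaf 221 1771 (.cons 225 (.leaf 226 1777 (.cons 201 (.leaf 177 1414 (.cons 200 (.leaf 176 1415 (.cons 202 (.leaf 178 1421 (.cons 199 (.leaf 223 1586 (.cons 174 (.leaf 175 1395 (.cons 198 (.leaf 271 1396 (.leaf 173 1387 .nil)) .nil)) .nil)) .nil)) .nil)) .nil)) .nil)) .nil)) (.cons 225 (.leaf 226 1777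 (.cons 177 (.leaf 201 1414 (.cons 270 (.leaf 269 1962 (.cons 271 (.leaf 250 1969 (.cons 294 (.leaf 293 2154 (.cons 223 (.leaf 199 1590 (.leaf 318 1781 .nil)) .nil)) .nil)) .nil)) .nil)) .nil)) (.cons 270 (.leaf 269 1962 (.cons 250 (.leaf 271 1969 (.cons 227 (.leaf 226 1785 (.cons 251 (.leaf 252 1986 (.leaf 228 1793 .nil)) .nil)) .nil)) .nil)) (.cons 270 (.leaf 269 1962 (.cons 250 (.leaf 271 1969 (.cons 222 (.leaf 221 1771 (.leaf 223 1779 .nil)) .nil)) .nil)) (.cons 225 (.leaf 226 1777 (.cons 177 (.leaf 201 1414 (.cons 222 (.leaf 221 1771 (.cons 223 (.leaf 250 1779 (.cons 199 (.leaf 175 1404 (.cons 270 (.leaf 269 1962 (.leaf 294 1589 .nil)) .nil)) .nil)) .nil)) .nil)) .nil)) .nil)))))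
noncomputable def t158 : T := .cons 221 (.leaf 222 1771 (.cons 225 (.leaf 226 1777 (.cons 201 (.leaf 177 1414 (.cons 200 (.leaf 176 1415 (.cons 297 (.leaf 224 1604 (.cons 269 (.leaf 270 1962 (.cons 321 (.leaf 345 1991 (.cons 322 (.leaf 298 1804 (.leaf 346 1996 .nil)) .nil)) .nil)) .nil)) .nil)) .nil)) .nil)) .nil)) (.cons 222 (.leaf 221 1771 (.cons 223 (.leaf 250 1779 (.cons 199 (.leaf 175 1404 (.cons 270 (.leaf 269 1962 (.leaf 294 1589 .nil)) .nil)) .nil)) .nil)) (.cons 225 (.leaf 226 1777 (.cons 201 (.leaf 177 1414 (.cons 178 (.leaf 202 1421 (.cons 200 (.leaf 176 1415 (.cons 297 (.leaf 224 1604 (.cons 269 (.leaf 270 1962 (.cons 321 (.leaf 345 1991 (.cons 322 (.leaf 298 1804 (.leaf 346 1996 .nil)) .nil)) .nil)) .nil)) .nil)) .nil)) .nil)) .nil)) (.cons 221 (.leaf 222 1771 (.cons 225 (.leaf 226 1777 (.cons 201 (.leaf 177 1414 (.cons 178 (.leaf 202 1421 (.cons 200 (.leaf 176 1415 (.cons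 297 (.leaf 224 1604 (.cons 321 (.leaf 345 1991 (.cons 322 (.leaf 298 1804 (.leaf 346 1996 .nil)) .nil)) .nil)) .nil)) .nil)) .nil)) .nil)) .nil)) .nil)))
noncomputable def t159 : T := .cons 199 (.leaf 175 1404 (.cons 176 (.leaf 200 1405 (.cons 198 (.leaf 174 1399 (.cons 222 (.leaf 295 1591 (.cons 221 (.leaf 220 1760 (.cons 224 (.leaf 244 1762 (.cons 197 (.leaf 196 1568 (.leaf 225 1579 .nil)) .nil)) .nil)) .nil)) .nil)) .nil)) .nil)) (.cons 224 (.cons 200 (.leaf 295 1597 (.leaf 297 1604 .nil)) (.cons 295 (.leaf 319 1789 (.cons 222 (.leaf 198 1591 (.cons 221 (.leaf 220 1760 (.leaf 244 1762 .nil)) .nil)) .nil)) (.cons 200 (.leaf 297 1604 (.leaf 176 1406 .nil)) .nil))) (.cons 199 (.leaf 175 1404 (.cons 176 (.leaf 200 1405 (.cons 198 (.leaf 174 1399 (.cons 222 (.leaf 295 1591 (.cons 221 (.leaf 220 1760 (.cons 269 (.leaf 293 1581 (.cons 270 (.leaf 244 1955 (.leaf 268 1953 .nil)) .nil))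 .nil)) .nil)) .nil)) .nil)) .nil)) (.cons 199 (.leaf 175 1404 (.cons 198 (.leaf 174 1399 (.cons 222 (.leaf 295 1591 (.cons 221 (.leaf 220 1760 (.cons 224 (.leaf 244 1762 (.cons 197 (.leaf 196 1568 (.leaf 225 1579 .nil)) .nil)) .nil)) .nil)) .nil)) .nil)) (.cons 199 (.leaf 175 1404 (.cons 174 (.leaf 198 1399 (.cons 200 (.leaf 176 1405 (.cons 224 (.leaf 297 1604 (.cons 201 (.leaf 177 1413 (.cons 202 (.leaf 222 1586 (.leaf 203 1594 .nil)) .nil)) .nil)) .nil)) .nil)) .nil)) (.cons 199 (.leaf 175 1404 (.cons 174 (.leaf 198 1399 (.cons 200 (.leaf 176 1405 (.cons 224 (.leaf 295 1597 (.leaf 297 1604 .nil)) .nil)) .nil)) .nil)) (.cons 199 (.leaf 175 1404 (.cons 200 (.leaf 176 1405 (.cons 224 (.leaf 295 1597 (.leaf 297 1604 .nil)) .nil)) .nil)) .nil))))))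
noncomputable def t160 : T := .cons 270 (.cons 269 (.leaf 268 1953 (.cons 293 (.leaf 292 2146 (.leaf 294 2154 .nil)) .nil)) (.cons 245 (.leaf 246 1960 (.cons 269 (.leaf 244 1955 (.leaf 268 1953 .nil)) .nil)) (.cons 246 (.leaf 245 1960 (.cons 294 (.leaf 293 2154 (.cons 297 (.leaf 298 2160 (.cons 200 (.leaf 224 1604 (.cons 223 (.leaf 199 1590 (.leaf 318 1781 .nil)) .nil)) .nil)) .nil)) .nil)) .nil))) (.cons 224 (.cons 200 (.leaf 295 1598 (.leaf 297 1604 .nil)) (.cons 295 (.leaf 319 1789 (.cons 223 (.cons 175 (.leaf 199 1404 (.cons 198 (.leaf 222 1591 (.cons 294 (.leaf 318 1782 (.cons 293 (.leaf 270 2154 (.leaf 292 2145 .nil)) .nil)) .nil)) .nil)) (.cons 198 (.leaf 222 1591 (.cons 294 (.leaf 318 1782 (.cons 293 (.leaf 270 2154 (.leaf 292 2145 .nil)) .nil)) .nil)) (.cons 198 (.leaf 222 1591 (.cons 199 (.leaf 175 1404 (.leaf 174 1399 .nil)) .nil)) (.cons 175 (.leaf 199 1404 (.cons 294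 (.leaf 318 1782 (.cons 293 (.leaf 270 2154 (.leaf 292 2145 .nil)) .nil)) .nil)) .nil)))) .nil)) (.cons 200 (.leaf 297 1604 (.leaf 176 1406 .nil)) .nil))) (.cons 245 (.leaf 246 1960 (.cons 270 (.cons 269 (.leaf 244 1955 (.leaf 268 1953 .nil)) (.cons 294 (.leaf 293 2154 (.cons 223 (.leaf 199 1590 (.cons 318 (.leaf 295 1782 (.leaf 342 1973 .nil)) .nil)) .nil)) .nil)) .nil)) (.cons 245 (.leaf 246 1960 (.cons 295 (.cons 223 (.cons 198 (.leaf 222 1591 (.cons 199 (.leaf 175 1404 (.leaf 174 1399 .nil)) .nil)) (.cons 224 (.leaf 200 1597 (.leaf 319 1789 .nil)) .nil)) (.cons 319 (.leaf 343 1981 (.cons 318 (.leaf 342 1974 (.cons 223 (.leaf 294 1782 (.cons 198 (.leaf 222 1591 (.cons 199 (.leaf 175 1404 (.leaf 174 1399 .nil)) .nil)) .nil)) .nil)) .nil)) (.cons 223 (.cons 198 (.leaf 222 1591 (.cons 199 (.leaf 175 1404 (.leaf 174 1399 .nil)) .nil)) (.cons 224 (.leaf 200 1597 (.cons 222 (.leaf 198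 1591 (.cons 221 (.leaf 220 1760 (.leaf 244 1762 .nil)) .nil)) .nil)) (.cons 200 (.leaf 224 1597 (.cons 199 (.leaf 175 1404 (.leaf 176 1405 .nil)) .nil)) .nil))) (.cons 224 (.leaf 200 1598 (.leaf 319 1789 .nil)) .nil)))) .nil)) (.cons 270 (.cons 269 (.leaf 268 1953 (.cons 293 (.leaf 292 2146 (.leaf 294 2154 .nil)) .nil)) (.cons 246 (.leaf 245 1960 (.cons 294 (.leaf 293 2154 (.cons 297 (.leaf 298 2160 (.cons 200 (.leaf 224 1604 (.cons 318 (.leaf 342 1973 (.cons 317 (.leaf 341 1966 (.cons 319 (.leaf 343 1972 (.cons 222 (.leaf 295 1780 (.cons 197 (.leaf 221 1583 (.cons 198 (.leaf 174 1396 (.leaf 173 1391 .nil)) .nil)) .nil)) .nil)) .nil)) .nil)) .nil)) .nil)) .nil)) .nil)) (.cons 245 (.leaf 246 1960 (.cons 269 (.leaf 244 1955 (.leaf 268 1953 .nil)) .nil)) .nil))) (.cons 245 (.leaf 246 1960 (.cons 223 t159 .nil)) .nil)))))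
noncomputable def t161 : T := .cons 225 (.leaf 227 1786 (.cons 223 (.leaf 251 1784 (.cons 202 (.leaf 203 1593 (.cons 201 (.leaf 177 1423 (.leaf 298 1615 .nil)) .nil)) .nil)) .nil)) (.cons 202 (.cons 177 (.leaf 201 1423 (.cons 203 (.leaf 179 1429 (.cons 298 (.leaf 227 1621 (.cons 321 (.leaf 297 1806 (.cons 322 (.leaf 345 1998 (.cons 346 (.leaf 251 2005 (.cons 347 (.leaf 323 2004 (.leaf 371 2196 .nil)) .nil)) .nil)) .nil)) .nil)) .nil)) .nil)) (.cons 177 (.leaf 201 1423 (.cons 178 (.leaf 251 1428 (.leaf 153 1231 .nil)) .nil)) (.cons 203 (.leaf 179 1429 (.cons 227 (.leaf 298 1621 (.cons 251 (.leaf 178 1428 (.cons 204 (.leaf 180 1437 (.cons 205 (.leaf 206 1618 (.cons 229 (.leaf 230 1616 (.cons 228 (.leaf 201 1608 (.cons 181 (.leaf 182 1425 (.cons 157 (.leaf 133 1062 (.leaf 252 1254 .nil)) .nil)) .nil)) .nil)) .nil)) .nil)) .nil)) .nil)) .nil)) (.cons 178 (.leaf 251 1428 (.cons 179 (.leaf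 203 1429 (.leaf 155 1237 .nil)) .nil)) (.cons 177 (.leaf 201 1423 (.cons 178 (.leaf 153 1231 (.cons 179 (.leaf 203 1429 (.leaf 155 1237 .nil)) .nil)) .nil)) .nil))))) (.cons 202 (.cons 178 (.leaf 251 1428 (.cons 179 (.leaf 203 1429 (.leaf 155 1237 .nil)) .nil)) (.cons 201 (.leaf 177 1423 (.cons 179 (.leaf 203 1429 (.cons 225 (.leaf 298 1615 (.cons 223 (.leaf 222 1585 (.leaf 251 1784 .nil)) .nil)) .nil)) .nil)) (.cons 201 (.leaf 177 1423 (.cons 178 (.leaf 251 1428 (.cons 155 (.leaf 179 1237 (.cons 154 (.leaf 131 1045 (.cons 225 (.leaf 298 1615 (.leaf 130 1038 .nil)) .nil)) .nil)) .nil)) .nil)) (.cons 177 (.leaf 201 1423 (.cons 178 (.leaf 153 1231 (.cons 179 (.leaf 203 1429 (.leaf 155 1237 .nil)) .nil)) .nil)) (.cons 201 (.leaf 177 1423 (.cons 178 (.leaf 251 1428 (.cons 225 (.leaf 298 1615 (.cons 203 (.leaf 204 1602 (.leaf 223 1593 .nil)) .nil)) .nil)) .nil)) .nil))))) (.cons 225 (.leaf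 227 1786 (.cons 201 (.leaf 298 1615 (.cons 177 (.leaf 200 1413 (.leaf 153 1228 .nil)) .nil)) .nil)) (.cons 225 (.leaf 227 1786 (.cons 223 (.leaf 251 1784 (.cons 202 (.leaf 203 1593 (.cons 201 (.leaf 177 1423 (.leaf 222 1585 .nil)) .nil)) .nil)) .nil)) (.cons 227 (.leaf 225 1786 (.cons 203 (.leaf 298 1621 (.cons 179 (.leaf 202 1429 (.leaf 251 1430 .nil)) .nil)) .nil)) .nil)))))
noncomputable def t162 : T := .cons 271 (.leaf 295 1598 (.leaf 176 1406 .nil)) (.cons 177 (.leaf 201 1413 (.cons 175 (.leaf 199 1407 (.cons 176 (.leaf 151 1215 (.leaf 153 1221 .nil)) .nil)) .nil)) (.cons 271 (.leaf 295 1598 (.cons 201 (.leaf 177 1413 (.cons 199 (.leaf 175 1407 (.cons 202 (.cons 178 (.leaf 179 1401 (.cons 226 (.leaf 227 1592 (.cons 225 (.leaf 154 1230 (.leaf 198 1584 .nil)) .nil)) .nil)) (.cons 179 (.leaf 178 1401 (.cons 203 (.leaf 180 1409 (.cons 225 (.leaf 204 1602 (.cons 198 (.leaf 197 1576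 (.leaf 226 1584 .nil)) .nil)) .nil)) .nil)) (.cons 179 (.leaf 178 1401 (.cons 203 (.leaf 180 1409 (.cons 204 (.leaf 225 1602 (.cons 228 (.leaf 227 1600 (.leaf 229 1608 .nil)) .nil)) .nil)) .nil)) (.cons 227 (.leaf 226 1592 (.cons 178 (.leaf 179 1401 (.cons 203 (.leaf 251 1431 (.leaf 228 1600 .nil)) .nil)) .nil)) (.cons 227 (.leaf 226 1592 (.cons 203 (.leaf 228 1600 (.cons 251 (.leaf 178 1431 (.leaf 298 1622 .nil)) .nil)) .nil)) (.cons 227 (.leaf 226 1592 (.cons 203 (.leaf 228 1600 (.cons 180 (.leaf 179 1409 (.cons 204 (.leaf 251 1437 (.leaf 225 1602 .nil)) .nil)) .nil)) .nil)) .nil)))))) .nil)) .nil)) .nil)) .nil))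
noncomputable def t163 : T := .cons 225 (.leaf 227 1786 (.cons 223 (.leaf 251 1784 (.cons 199 (.leaf 175 1404 (.leaf 198 1587 .nil)) .nil)) .nil)) (.cons 202 (.cons 177 (.leaf 201 1423 (.cons 203 (.leaf 179 1429 (.cons 298 (.leaf 227 1621 (.cons 321 (.leaf 297 1806 (.cons 322 (.leaf 345 1998 (.cons 346 (.leaf 251 2005 (.cons 347 (.leaf 323 2004 (.leaf 371 2196 .nil)) .nil)) .nil)) .nil)) .nil)) .nil)) .nil)) (.cons 177 (.leaf 201 1423 (.cons 178 (.leaf 251 1428 (.leaf 153 1231 .nil)) .nil)) (.cons 177 (.leaf 201 1423 (.cons 178 (.leaf 153 1231 (.cons 179 (.leaf 203 1429 (.leaf 155 1237 .nil)) .nil)) .nil)) (.cons 203 (.leaf 179 1429 (.cons 227 (.leaf 298 1621 (.cons 251 (.leaf 178 1428 (.cons 204 (.leaf 180 1437 (.cons 205 (.leaf 206 1618 (.cons 229 (.leaf 230 1616 (.cons 228 (.leaf 201 1608 (.cons 181 (.leaf 182 1425 (.cons 157 (.leaf 133 1062 (.leaf 252 1254 .nil)) .nil)) .nil))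 .nil)) .nil)) .nil)) .nil)) .nil)) .nil)) (.cons 178 (.leaf 251 1428 (.cons 179 (.leaf 203 1429 (.leaf 155 1237 .nil)) .nil)) .nil))))) (.cons 202 (.cons 179 (.leaf 203 1429 (.cons 201 (.leaf 177 1423 (.cons 225 (.leaf 298 1615 (.cons 223 (.leaf 222 1585 (.leaf 251 1784 .nil)) .nil)) .nil)) .nil)) (.cons 178 (.leaf 251 1428 (.cons 179 (.leaf 203 1429 (.leaf 155 1237 .nil)) .nil)) (.cons 177 (.leaf 201 1423 (.cons 178 (.leaf 251 1428 (.leaf 153 1231 .nil)) .nil)) (.cons 201 (.leaf 177 1423 (.cons 179 (.leaf 203 1429 (.cons 155 (.leaf 178 1237 (.cons 225 (.leaf 298 1615 (.cons 223 (.leaf 222 1585 (.cons 199 (.leaf 175 1404 (.leaf 198 1587 .nil)) .nil)) .nil)) .nil)) .nil)) .nil)) .nil)))) (.cons 225 (.leaf 227 1786 (.cons 201 (.leaf 298 1615 (.cons 177 (.leaf 153 1228 (.leaf 202 1423 .nil)) .nil)) .nil)) .nil)))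
noncomputable def t164 : T := .cons 249 (.leaf 250 1976 (.cons 200 (.cons 271 (.leaf 295 1598 (.leaf 176 1406 .nil)) (.cons 175 (.leaf 199 1407 (.cons 176 (.leaf 151 1215 (.cons 152 (.leaf 223 1214 (.leaf 225 1220 .nil)) .nil)) .nil)) (.cons 199 (.leaf 175 1407 (.cons 271 (.leaf 295 1598 (.cons 270 (.leaf 269 1961 (.cons 223 (.leaf 294 1590 (.cons 198 (.leaf 174 1399 (.cons 197 (.leaf 196 1568 (.leaf 225 1576 .nil)) .nil)) .nil)) .nil)) .nil)) .nil)) .nil))) .nil)) (.cons 200 (.cons 177 (.leaf 201 1413 (.cons 176 (.leaf 153 1221 (.leaf 271 1406 .nil)) .nil)) (.cons 177 (.leaf 201 1413 (.cons 176 (.leaf 153 1221 (.cons 151 (.leaf 175 1215 (.cons 152 (.leaf 223 1214 (.leaf 127 1023 .nil)) .nil)) .nil)) .nil)) (.cons 271 (.leaf 295 1598 (.cons 199 (.leaf 175 1407 (.cons 201 (.leaf 177 1413 (.cons 198 (.cons 225 (.leaf 197 1576 (.leaf 226 1584 .nil)) (.cons 174 (.leaf 223 1399 (.leaf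 173 1387 .nil)) .nil)) .nil)) .nil)) .nil)) (.cons 271 (.leaf 295 1598 (.leaf 176 1406 .nil)) .nil)))) (.cons 250 (.leaf 249 1976 (.cons 226 t163 .nil)) (.cons 249 (.leaf 250 1976 (.cons 200 t162 .nil)) (.cons 250 (.leaf 249 1976 (.cons 226 t161 .nil)) (.cons 249 (.leaf 250 1976 (.cons 200 (.cons 177 (.leaf 201 1413 (.cons 175 (.leaf 199 1407 (.cons 176 (.leaf 151 1215 (.leaf 153 1221 .nil)) .nil)) .nil)) (.cons 271 (.leaf 295 1598 (.cons 177 (.leaf 201 1413 (.cons 199 (.leaf 175 1407 (.cons 270 (.leaf 269 1961 (.cons 223 (.leaf 294 1590 (.cons 198 (.leaf 174 1399 (.cons 197 (.leaf 196 1568 (.cons 221 (.leaf 222 1768 (.leaf 220 1570 .nil)) .nil)) .nil)) .nil)) .nil)) .nil)) .nil)) .nil)) (.cons 271 (.leaf 295 1598 (.leaf 176 1406 .nil)) .nil))) .nil)) .nil)))))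
noncomputable def t165 : T := .cons 270 (.leaf 269 1962 (.cons 222 (.leaf 221 1771 (.cons 250 (.leaf 223 1779 (.leaf 271 1970 .nil)) .nil)) .nil)) (.cons 222 (.leaf 221 1771 (.cons 223 (.leaf 250 1779 (.cons 175 (.leaf 199 1404 (.cons 225 (.leaf 226 1777 (.cons 201 (.leaf 177 1414 (.cons 224 (.leaf 202 1585 (.cons 198 (.leaf 197 1579 (.cons 174 (.leaf 150 1204 (.leaf 271 1396 .nil)) .nil)) .nil)) .nil)) .nil)) .nil)) .nil)) .nil)) (.cons 270 (.leaf 269 1962 (.cons 226 (.leaf 225 1777 (.cons 250 (.leaf 227 1785 (.leaf 271 1970 .nil)) .nil)) .nil)) (.cons 222 (.leaf 221 1771 (.cons 223 (.leaf 250 1779 (.cons 175 (.leaf 199 1404 (.cons 225 (.leaf 226 1777 (.cons 201 (.leaf 177 1414 (.cons 224 (.leaf 202 1585 (.cons 198 (.leaf 197 1579 (.cons 174 (.leaf 150 1204 (.leaf 151 1205 .nil)) .nil)) .nil)) .nil)) .nil)) .nil)) .nil)) .nil)) (.cons 270 (.leaf 269 1962 (.cons 222 (.leaf 221 1771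 (.cons 225 (.leaf 226 1777 (.cons 201 (.leaf 177 1414 (.cons 223 (.cons 199 (.leaf 175 1404 (.leaf 294 1589 .nil)) (.cons 294 (.leaf 318 1781 (.cons 202 (.leaf 224 1585 (.cons 295 (.leaf 319 1780 (.cons 198 (.leaf 271 1588 (.cons 173 (.leaf 197 1391 (.cons 174 (.leaf 150 1204 (.leaf 149 1199 .nil)) .nil)) .nil)) .nil)) .nil)) .nil)) (.cons 199 (.leaf 175 1404 (.cons 202 (.leaf 200 1586 (.leaf 224 1585 .nil)) .nil)) .nil))) .nil)) .nil)) .nil)) .nil)) .nil))))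
noncomputable def t166 : T := .cons 250 (.leaf 274 1976 (.cons 271 (.leaf 251 1978 (.leaf 270 1970 .nil)) .nil)) (.cons 246 (.cons 225 (.leaf 226 1777 (.cons 177 (.leaf 201 1414 (.cons 245 (.leaf 224 1769 (.cons 269 (.leaf 268 1954 (.leaf 270 1962 .nil)) .nil)) .nil)) .nil)) (.cons 225 (.leaf 226 1777 (.cons 177 (.leaf 201 1414 (.cons 221 (.leaf 222 1771 (.cons 245 (.leaf 220 1763 (.leaf 224 1769 .nil)) .nil)) .nil)) .nil)) (.cons 269 (.leaf 270 1962 (.cons 221 (.leaf 222 1771 (.cons 245 (.leaf 220 1763 (.leaf 268 1954 .nil)) .nil)) .nil)) (.cons 270 (.leaf 269 1962 (.cons 222 (.leaf 221 1771 (.cons 225 (.leaf 226 1777 (.cons 201 (.leaf 177 1414 (.cons 223 (.cons 199 (.leaf 175 1404 (.leaf 294 1589 .nil)) (.cons 294 (.leaf 318 1781 (.cons 202 (.leaf 224 1585 (.cons 295 (.leaf 319 1780 (.cons 198 (.leaf 271 1588 (.cons 173 (.leaf 197 1391 (.cons 174 (.leaf 150 1204 (.leaf 149 1199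 .nil)) .nil)) .nil)) .nil)) .nil)) .nil)) (.cons 199 (.leaf 175 1404 (.cons 202 (.leaf 200 1586 (.leaf 224 1585 .nil)) .nil)) .nil))) .nil)) .nil)) .nil)) .nil)) .nil)))) (.cons 250 (.leaf 274 1976 (.cons 222 (.leaf 223 1779 (.cons 226 (.leaf 227 1785 (.cons 246 (.leaf 221 1771 (.leaf 225 1777 .nil)) .nil)) .nil)) .nil)) .nil))
noncomputable def t167 : T := .leaf 245 1960 (.cons 249 (.cons 225 (.leaf 226 1777 (.cons 201 (.leaf 177 1414 (.cons 178 (.leaf 202 1421 (.cons 200 (.leaf 176 1415 (.cons 224 (.leaf 297 1604 (.cons 199 (.leaf 175 1407 (.cons 198 (.leaf 197 1576 (.cons 174 (.leaf 173 1387 (.cons 271 (.leaf 295 1598 (.leaf 223 1399 .nil)) .nil)) .nil)) .nil)) .nil)) .nil)) .nil)) .nil)) .nil)) (.cons 270 (.leaf 269 1962 (.cons 250 (.leaf 271 1969 (.cons 251 (.leaf 252 1986 (.cons 224 (.leaf 223 1787 (.cons 200 (.leaf 297 1604 (.leaf 176 1412 .nil)) .nil)) .nil)) .nil)) .nil))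 (.cons 225 (.leaf 226 1777 (.cons 201 (.leaf 177 1414 (.cons 178 (.leaf 202 1421 (.cons 200 (.leaf 176 1415 (.cons 297 (.leaf 224 1604 (.cons 221 (.leaf 222 1771 (.cons 269 (.leaf 270 1962 (.cons 321 (.leaf 345 1991 (.cons 322 (.leaf 298 1804 (.leaf 346 1996 .nil)) .nil)) .nil)) .nil)) .nil)) .nil)) .nil)) .nil)) .nil)) (.cons 270 (.leaf 269 1962 (.cons 250 (.leaf 271 1969 (.cons 227 (.leaf 226 1785 (.cons 251 (.leaf 252 1986 (.leaf 228 1793 .nil)) .nil)) .nil)) .nil)) .nil)))) .nil)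
noncomputable def t168 : T := .cons 273 (.leaf 274 1979 (.cons 246 t167 .nil)) (.cons 249 t166 (.cons 246 (.cons 245 (.leaf 273 1960 (.cons 220 (.leaf 221 1763 (.cons 244 (.leaf 271 1952 (.leaf 219 1755 .nil)) .nil)) .nil)) (.cons 249 t165 (.cons 245 (.leaf 273 1960 (.cons 220 (.leaf 221 1763 (.cons 244 (.leaf 219 1755 (.cons 268 (.leaf 269 1954 (.leaf 267 1946 .nil)) .nil)) .nil)) .nil)) (.cons 245 (.leaf 273 1960 (.cons 244 (.leaf 271 1952 (.cons 268 (.leaf 269 1954 (.leaf 267 1946 .nil)) .nil)) .nil)) .nil)))) (.cons 274 (.leaf 273 1979 (.cons 224 t164 .nil)) (.cons 273 (.leaf 274 1979 (.cons 271 t160 .nil)) (.cons 273 (.leaf 274 1979 (.cons 246 (.leaf 245 1960 (.cons 249 t158 .nil)) .nil)) (.cons 273 (.leaf 274 1979 (.cons 246 (.leaf 245 1960 (.cons 249 t157 .nil)) .nil)) (.cons 273 (.leaf 274 1979 (.cons 246 t156 .nil)) (.cons 273 (.leaf 274 1979 (.cons 246 (.leaf 245 1960 (.cons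 249 (.cons 221 (.leaf 222 1771 (.cons 226 (.leaf 225 1777 (.cons 250 (.leaf 227 1785 (.cons 271 (.leaf 251 1978 (.leaf 270 1969 .nil)) .nil)) .nil)) .nil)) (.cons 221 (.leaf 222 1771 (.cons 226 (.leaf 225 1777 (.cons 250 (.leaf 227 1785 (.cons 251 (.leaf 271 1978 (.leaf 252 1986 .nil)) .nil)) .nil)) .nil)) (.cons 222 (.leaf 221 1771 (.cons 225 (.leaf 226 1777 (.cons 201 (.leaf 177 1414 (.cons 202 (.leaf 178 1421 (.cons 223 (.leaf 224 1585 (.cons 199 (.leaf 175 1404 (.cons 270 (.leaf 269 1962 (.leaf 294 1589 .nil)) .nil)) .nil)) .nil)) .nil)) .nil)) .nil)) (.cons 270 (.leaf 269 1962 (.cons 271 (.leaf 250 1969 (.cons 293 (.leaf 294 2154 (.cons 297 (.leaf 298 2160 (.cons 321 (.leaf 345 1991 (.leaf 224 1799 .nil)) .nil)) .nil)) .nil)) .nil)) .nil)))) .nil)) .nil)) (.cons 273 (.leaf 274 1979 (.cons 246 (.leaf 245 1960 (.cons 249 (.cons 225 (.leaf 226 1777 (.cons 201 (.leaf 177 1414 (.cons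 178 (.leaf 202 1421 (.cons 200 (.leaf 176 1415 (.cons 224 (.leaf 297 1604 (.cons 199 (.leaf 175 1407 (.cons 198 (.leaf 197 1576 (.cons 174 (.leaf 173 1387 (.cons 271 (.leaf 295 1598 (.leaf 223 1399 .nil)) .nil)) .nil)) .nil)) .nil)) .nil)) .nil)) .nil)) .nil)) (.cons 222 (.leaf 221 1771 (.cons 250 (.leaf 223 1779 (.cons 251 (.leaf 271 1978 (.leaf 252 1986 .nil)) .nil)) .nil)) (.cons 221 (.leaf 222 1771 (.cons 226 (.leaf 225 1777 (.cons 250 (.leaf 227 1785 (.cons 251 (.leaf 271 1978 (.leaf 252 1986 .nil)) .nil)) .nil)) .nil)) (.cons 221 (.leaf 222 1771 (.cons 225 (.leaf 226 1777 (.cons 201 (.leaf 177 1414 (.cons 178 (.leaf 202 1421 (.cons 200 (.leaf 176 1415 (.cons 297 (.leaf 224 1604 (.cons 321 (.leaf 345 1991 (.cons 322 (.leaf 298 1804 (.leaf 346 1996 .nil)) .nil)) .nil)) .nil)) .nil)) .nil)) .nil)) .nil)) .nil)))) .nil)) .nil)) (.cons 273 (.leaf 274 1979 (.cons 246 (.leaf 245 1960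 (.cons 249 (.cons 222 (.leaf 221 1771 (.cons 223 (.leaf 250 1779 (.cons 199 (.leaf 175 1404 (.cons 270 (.leaf 269 1962 (.leaf 294 1589 .nil)) .nil)) .nil)) .nil)) (.cons 222 (.leaf 221 1771 (.cons 250 (.leaf 223 1779 (.cons 251 (.leaf 271 1978 (.leaf 252 1986 .nil)) .nil)) .nil)) (.cons 270 (.leaf 269 1962 (.cons 271 (.leaf 250 1969 (.cons 293 (.leaf 294 2154 (.cons 297 (.leaf 298 2160 (.cons 321 (.leaf 345 1991 (.leaf 224 1799 .nil)) .nil)) .nil)) .nil)) .nil)) (.cons 270 (.leaf 269 1962 (.cons 222 (.leaf 221 1771 (.cons 271 (.cons 198 (.leaf 174 1396 (.leaf 295 1588 .nil)) (.cons 174 (.leaf 198 1396 (.cons 293 (.leaf 294 2154 (.cons 297 (.leaf 298 2160 (.cons 224 (.leaf 200 1604 (.leaf 321 1799 .nil)) .nil)) .nil)) .nil)) (.cons 293 (.leaf 294 2154 (.cons 295 (.leaf 319 1783 (.cons 224 (.leaf 200 1598 (.cons 297 (.leaf 298 2160 (.leaf 321 1799 .nil)) .nil)) .nil)) .nil)) .nil)))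 .nil)) .nil)) .nil)))) .nil)) .nil)) (.cons 273 (.leaf 274 1979 (.cons 246 (.leaf 245 1960 (.cons 249 t155 .nil)) .nil)) .nil)))))))))))
noncomputable def t169 : T := .cons 199 (.leaf 223 1599 (.cons 225 (.leaf 201 1605 (.cons 319 (.leaf 295 1790 (.cons 320 (.leaf 249 1797 (.leaf 343 1982 .nil)) .nil)) .nil)) .nil)) (.cons 295 (.leaf 319 1790 (.cons 200 (.leaf 271 1598 (.cons 175 (.leaf 199 1407 (.cons 176 (.leaf 151 1215 (.cons 177 (.leaf 201 1413 (.leaf 153 1221 .nil)) .nil)) .nil)) .nil)) .nil)) (.cons 223 (.leaf 199 1599 (.cons 201 (.leaf 225 1605 (.cons 200 (.leaf 177 1413 (.cons 202 (.leaf 203 1594 (.cons 221 (.leaf 222 1577 (.cons 247 (.leaf 320 1791 (.cons 176 (.leaf 271 1406 (.leaf 152 1214 .nil)) .nil)) .nil)) .nil)) .nil)) .nil)) .nil)) (.cons 225 (.leaf 201 1605 (.cons 249 (.leaf 320 1797 (.cons 295 (.leaf 319 1790 (.cons 271 (.leaf 200 1598 (.cons 250 (.leaf 251 1978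 (.cons 247 (.leaf 274 1976 (.leaf 270 1970 .nil)) .nil)) .nil)) .nil)) .nil)) .nil)) (.cons 223 (.leaf 199 1599 (.cons 247 (.leaf 320 1791 (.cons 295 (.leaf 319 1790 (.cons 271 (.leaf 200 1597 (.cons 222 (.leaf 198 1591 (.cons 221 (.leaf 220 1760 (.leaf 249 1768 .nil)) .nil)) .nil)) .nil)) .nil)) .nil)) .nil))))
noncomputable def t170 : T := .cons 224 (.cons 199 (.leaf 223 1599 (.cons 175 (.leaf 200 1407 (.cons 225 (.leaf 201 1605 (.cons 320 (.leaf 249 1797 (.cons 321 (.leaf 297 1796 (.leaf 345 1988 .nil)) .nil)) .nil)) .nil)) .nil)) (.cons 295 (.leaf 319 1790 (.cons 271 (.leaf 200 1598 (.cons 297 (.leaf 321 1796 (.cons 270 (.leaf 269 2152 (.leaf 298 2163 .nil)) .nil)) .nil)) .nil)) (.cons 199 (.leaf 223 1599 (.cons 200 (.leaf 175 1407 (.cons 201 (.leaf 177 1413 (.leaf 225 1605 .nil)) .nil)) .nil)) (.cons 223 (.leaf 199 1599 (.cons 320 (.leaf 247 1791 (.cons 321 (.leaf 297 1796 (.leaf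 345 1988 .nil)) .nil)) .nil)) .nil)))) (.cons 320 (.cons 223 (.leaf 247 1791 (.cons 343 (.leaf 319 1982 (.cons 344 (.leaf 367 2174 (.cons 345 (.leaf 321 1988 (.leaf 369 2180 .nil)) .nil)) .nil)) .nil)) (.cons 343 (.leaf 319 1982 (.cons 225 (.leaf 249 1797 (.cons 344 (.leaf 367 2174 (.cons 345 (.leaf 321 1988 (.leaf 369 2180 .nil)) .nil)) .nil)) .nil)) (.cons 247 (.leaf 223 1791 (.cons 249 (.leaf 225 1797 (.cons 250 (.leaf 274 1976 (.cons 226 (.leaf 227 1785 (.cons 270 (.leaf 271 1970 (.cons 246 (.leaf 269 1962 (.cons 221 (.leaf 222 1771 (.cons 245 (.leaf 220 1763 (.cons 173 (.leaf 197 1388 (.cons 294 (.leaf 318 1775 (.cons 321 (.leaf 345 1988 (.cons 295 (.leaf 293 2344 (.cons 322 (.leaf 297 2352 (.leaf 323 2363 .nil)) .nil)) .nil)) .nil)) .nil)) .nil)) .nil)) .nil)) .nil)) .nil)) .nil)) .nil)) .nil)) (.cons 247 (.leaf 223 1791 (.cons 225 (.leaf 249 1797 (.cons 343 (.leaf 319 1982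 (.cons 344 (.leaf 271 1983 (.leaf 367 2174 .nil)) .nil)) .nil)) .nil)) .nil)))) (.cons 224 (.cons 295 (.leaf 319 1790 (.cons 271 (.leaf 200 1598 (.cons 297 (.leaf 321 1796 (.cons 270 (.leaf 269 2152 (.leaf 298 2163 .nil)) .nil)) .nil)) .nil)) (.cons 199 (.leaf 223 1599 (.cons 200 (.leaf 175 1407 (.cons 201 (.leaf 177 1413 (.leaf 225 1605 .nil)) .nil)) .nil)) (.cons 199 (.leaf 223 1599 (.cons 225 (.leaf 201 1605 (.cons 295 (.leaf 319 1790 (.cons 297 (.leaf 321 1796 (.cons 298 (.leaf 274 2169 (.cons 270 (.leaf 271 2163 (.cons 294 (.leaf 269 2155 (.cons 317 (.leaf 318 2346 (.cons 293 (.leaf 316 2338 (.cons 246 (.leaf 222 1774 (.cons 247 (.leaf 245 1769 (.cons 226 (.leaf 227 1786 (.leaf 249 1777 .nil)) .nil)) .nil)) .nil)) .nil)) .nil)) .nil)) .nil)) .nil)) .nil)) .nil)) .nil)) .nil))) (.cons 320 (.cons 225 (.leaf 249 1797 (.cons 224 (.leaf 201 1605 (.cons 321 (.leaf 297 1796 (.leaf 345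 1988 .nil)) .nil)) .nil)) (.cons 225 (.leaf 249 1797 (.cons 224 (.leaf 201 1605 (.cons 319 (.leaf 295 1790 (.leaf 343 1982 .nil)) .nil)) .nil)) (.cons 319 (.leaf 343 1982 (.cons 224 (.leaf 295 1790 (.cons 321 (.leaf 297 1796 (.leaf 345 1988 .nil)) .nil)) .nil)) (.cons 343 (.leaf 319 1982 (.cons 225 (.leaf 249 1797 (.cons 344 (.leaf 367 2174 (.cons 345 (.leaf 321 1988 (.leaf 369 2180 .nil)) .nil)) .nil)) .nil)) .nil)))) (.cons 224 (.cons 201 (.leaf 225 1605 (.cons 200 (.leaf 177 1413 (.cons 271 (.leaf 295 1598 (.cons 247 (.leaf 176 1406 (.cons 320 (.leaf 223 1791 (.leaf 344 1983 .nil)) .nil)) .nil)) .nil)) .nil)) (.cons 225 (.leaf 201 1605 (.cons 320 (.leaf 249 1797 (.cons 321 (.leaf 297 1796 (.leaf 345 1988 .nil)) .nil)) .nil)) (.cons 223 (.leaf 199 1599 (.cons 320 (.leaf 247 1791 (.cons 321 (.leaf 297 1796 (.leaf 345 1988 .nil)) .nil)) .nil)) (.cons 199 (.leaf 223 1599 (.cons 200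 (.leaf 175 1407 (.cons 177 (.leaf 201 1413 (.cons 176 (.leaf 153 1221 (.cons 271 (.leaf 295 1598 (.leaf 247 1406 .nil)) .nil)) .nil)) .nil)) .nil)) .nil)))) (.cons 320 (.cons 343 (.leaf 319 1982 (.cons 223 (.leaf 247 1791 (.cons 344 (.leaf 367 2174 (.cons 345 (.leaf 321 1988 (.leaf 369 2180 .nil)) .nil)) .nil)) .nil)) (.cons 343 (.leaf 319 1982 (.cons 225 (.leaf 249 1797 (.cons 344 (.leaf 367 2174 (.cons 345 (.leaf 321 1988 (.leaf 369 2180 .nil)) .nil)) .nil)) .nil)) (.cons 223 (.leaf 247 1791 (.cons 224 (.leaf 199 1599 (.cons 225 (.leaf 201 1605 (.leaf 249 1797 .nil)) .nil)) .nil)) .nil))) (.cons 320 (.cons 223 (.leaf 247 1791 (.cons 343 (.leaf 319 1982 (.cons 344 (.leaf 367 2174 (.cons 345 (.leaf 321 1988 (.leaf 369 2180 .nil)) .nil)) .nil)) .nil)) (.cons 223 (.leaf 247 1791 (.cons 224 (.leaf 199 1599 (.cons 321 (.leaf 297 1796 (.leaf 345 1988 .nil)) .nil)) .nil)) (.cons 319 (.leaf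 343 1982 (.cons 224 (.leaf 295 1790 (.cons 321 (.leaf 297 1796 (.leaf 345 1988 .nil)) .nil)) .nil)) (.cons 223 (.leaf 247 1791 (.cons 224 (.leaf 199 1599 (.cons 319 (.leaf 295 1790 (.leaf 343 1982 .nil)) .nil)) .nil)) .nil)))) (.cons 224 t169 .nil)))))))
noncomputable def t171 : T := .cons 224 (.cons 201 (.leaf 225 1605 (.cons 200 (.leaf 177 1413 (.cons 297 (.leaf 273 1604 (.leaf 321 1796 .nil)) .nil)) .nil)) (.cons 297 (.leaf 321 1796 (.cons 199 (.leaf 223 1599 (.cons 200 (.leaf 175 1407 (.leaf 273 1604 .nil)) .nil)) .nil)) (.cons 225 (.leaf 201 1605 (.cons 199 (.leaf 223 1599 (.cons 175 (.leaf 200 1407 (.cons 320 (.leaf 249 1797 (.cons 343 (.leaf 319 1982 (.cons 344 (.leaf 367 2174 (.cons 345 (.leaf 321 1988 (.leaf 369 2180 .nil)) .nil)) .nil)) .nil)) .nil)) .nil)) .nil)) (.cons 225 (.leaf 201 1605 (.cons 199 (.leaf 223 1599 (.cons 200 (.leaf 175 1407 (.cons 197 (.leaf 198 1576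 (.cons 226 (.leaf 227 1595 (.cons 249 (.leaf 320 1797 (.cons 273 (.leaf 297 1604 (.leaf 176 1412 .nil)) .nil)) .nil)) .nil)) .nil)) .nil)) .nil)) (.cons 225 (.leaf 201 1605 (.cons 320 (.leaf 249 1797 (.cons 321 (.leaf 297 1796 (.leaf 345 1988 .nil)) .nil)) .nil)) .nil))))) (.cons 224 (.cons 199 (.leaf 223 1599 (.cons 225 (.leaf 201 1605 (.cons 249 (.leaf 320 1797 (.cons 295 (.leaf 319 1790 (.cons 274 (.leaf 273 2170 (.cons 298 (.leaf 297 2169 (.cons 250 (.leaf 322 1807 (.cons 251 (.leaf 271 1978 (.leaf 252 1795 .nil)) .nil)) .nil)) .nil)) .nil)) .nil)) .nil)) .nil)) (.cons 225 (.leaf 201 1605 (.cons 199 (.leaf 223 1599 (.cons 200 (.leaf 175 1407 (.cons 197 (.leaf 198 1576 (.cons 226 (.leaf 227 1595 (.cons 249 (.leaf 320 1797 (.cons 273 (.leaf 297 1604 (.leaf 176 1412 .nil)) .nil)) .nil)) .nil)) .nil)) .nil)) .nil)) (.cons 295 (.leaf 319 1790 (.cons 200 (.leaf 271 1598 (.cons 175 (.leaf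 199 1407 (.cons 176 (.leaf 151 1215 (.cons 177 (.leaf 201 1413 (.leaf 153 1221 .nil)) .nil)) .nil)) .nil)) .nil)) (.cons 295 (.leaf 319 1790 (.cons 199 (.leaf 223 1599 (.cons 200 (.leaf 175 1407 (.leaf 271 1598 .nil)) .nil)) .nil)) (.cons 295 (.leaf 319 1790 (.cons 200 (.leaf 271 1598 (.cons 201 (.leaf 177 1413 (.leaf 225 1605 .nil)) .nil)) .nil)) .nil))))) (.cons 224 (.cons 199 (.leaf 223 1599 (.cons 225 (.leaf 201 1605 (.cons 295 (.leaf 319 1790 (.cons 273 (.leaf 274 2170 (.cons 293 (.leaf 294 2153 (.cons 320 (.leaf 249 1797 (.cons 345 (.leaf 321 1988 (.cons 344 (.leaf 369 2180 (.cons 367 (.leaf 343 2174 (.cons 368 (.leaf 271 2175 (.leaf 391 2366 .nil)) .nil)) .nil)) .nil)) .nil)) .nil)) .nil)) .nil)) .nil)) .nil)) (.cons 199 (.leaf 223 1599 (.cons 175 (.leaf 200 1407 (.cons 225 (.leaf 201 1605 (.cons 320 (.leaf 249 1797 (.cons 343 (.leaf 319 1982 (.cons 344 (.leaf 367 2174 (.cons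 345 (.leaf 321 1988 (.leaf 369 2180 .nil)) .nil)) .nil)) .nil)) .nil)) .nil)) .nil)) (.cons 295 (.leaf 319 1790 (.cons 199 (.leaf 223 1599 (.cons 200 (.leaf 175 1407 (.leaf 271 1598 .nil)) .nil)) .nil)) (.cons 199 (.leaf 223 1599 (.cons 200 (.leaf 175 1407 (.cons 201 (.leaf 177 1413 (.leaf 225 1605 .nil)) .nil)) .nil)) (.cons 295 (.leaf 319 1790 (.cons 200 (.leaf 271 1598 (.cons 201 (.leaf 177 1413 (.leaf 225 1605 .nil)) .nil)) .nil)) .nil))))) (.cons 224 (.cons 199 (.leaf 223 1599 (.cons 200 (.leaf 175 1407 (.cons 297 (.leaf 273 1604 (.leaf 321 1796 .nil)) .nil)) .nil)) (.cons 225 (.leaf 201 1605 (.cons 199 (.leaf 223 1599 (.cons 200 (.leaf 175 1407 (.cons 197 (.leaf 198 1576 (.cons 226 (.leaf 227 1595 (.cons 249 (.leaf 320 1797 (.cons 176 (.leaf 273 1412 (.leaf 152 1220 .nil)) .nil)) .nil)) .nil)) .nil)) .nil)) .nil)) (.cons 201 (.leaf 225 1605 (.cons 200 (.leaf 177 1413 (.cons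 297 (.leaf 273 1604 (.leaf 321 1796 .nil)) .nil)) .nil)) (.cons 199 (.leaf 223 1599 (.cons 225 (.leaf 201 1605 (.cons 320 (.leaf 249 1797 (.cons 321 (.leaf 297 1796 (.leaf 345 1988 .nil)) .nil)) .nil)) .nil)) .nil)))) (.cons 224 (.cons 199 (.leaf 223 1599 (.cons 200 (.leaf 175 1407 (.cons 295 (.leaf 271 1598 (.leaf 319 1790 .nil)) .nil)) .nil)) (.cons 297 (.leaf 321 1796 (.cons 199 (.leaf 223 1599 (.cons 200 (.leaf 175 1407 (.leaf 273 1604 .nil)) .nil)) .nil)) (.cons 295 (.leaf 319 1790 (.cons 200 (.leaf 271 1598 (.cons 273 (.leaf 274 2170 (.leaf 297 1604 .nil)) .nil)) .nil)) (.cons 199 (.leaf 223 1599 (.cons 295 (.leaf 319 1790 (.cons 273 (.leaf 274 2170 (.cons 293 (.leaf 294 2153 (.cons 321 (.leaf 297 1796 (.cons 320 (.leaf 345 1988 (.cons 322 (.leaf 323 2363 (.cons 344 (.leaf 249 1989 (.cons 367 (.leaf 343 2174 (.cons 368 (.leaf 271 2175 (.leaf 391 2366 .nil)) .nil)) .nil)) .nil))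 .nil)) .nil)) .nil)) .nil)) .nil)) .nil)) .nil)))) .nil))))
noncomputable def t172 : T := .cons 321 (.leaf 345 1988 (.cons 319 (.leaf 343 1982 (.cons 249 (.leaf 225 1797 (.cons 295 (.cons 294 (.leaf 293 2344 (.leaf 322 2355 .nil)) (.cons 273 (.leaf 274 2170 (.leaf 344 1989 .nil)) .nil)) .nil)) .nil)) .nil)) (.cons 343 (.leaf 319 1982 (.cons 344 (.leaf 367 2174 (.cons 345 (.leaf 321 1988 (.leaf 369 2180 .nil)) .nil)) .nil)) (.cons 249 (.leaf 225 1797 (.cons 273 (.leaf 344 1989 (.cons 274 (.leaf 295 2170 (.cons 251 (.leaf 252 1985 (.cons 250 (.leaf 271 1977 (.cons 227 (.leaf 228 1793 (.cons 203 (.leaf 298 1622 (.leaf 179 1430 .nil)) .nil)) .nil)) .nil)) .nil)) .nil)) .nil)) (.cons 321 (.leaf 345 1988 (.cons 319 (.leaf 343 1982 (.cons 249 (.leaf 225 1797 (.cons 295 (.cons 294 (.leaf 293 2344 (.leaf 322 2355 .nil)) (.cons 273 (.leaf 274 2170 (.cons 322 (.leaf 323 2363 (.cons 346 (.leaf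 347 2552 (.leaf 297 1996 .nil)) .nil)) .nil)) (.cons 274 (.leaf 273 2170 (.cons 294 (.leaf 293 2344 (.cons 297 (.leaf 298 2169 (.cons 318 (.leaf 317 2345 (.cons 270 (.leaf 269 2155 (.cons 246 (.leaf 222 1780 (.cons 342 (.leaf 341 2538 (.cons 366 (.leaf 390 2357 (.leaf 271 2165 .nil)) .nil)) .nil)) .nil)) .nil)) .nil)) .nil)) .nil)) .nil))) .nil)) .nil)) .nil)) .nil)))
noncomputable def t173 : T := .cons 224 (.cons 295 (.leaf 319 1790 (.cons 271 (.leaf 200 1598 (.cons 297 (.leaf 321 1796 (.cons 270 (.leaf 269 2152 (.leaf 298 2163 .nil)) .nil)) .nil)) .nil)) (.cons 225 (.leaf 201 1605 (.cons 320 (.leaf 249 1797 (.cons 321 (.leaf 297 1796 (.leaf 345 1988 .nil)) .nil)) .nil)) (.cons 295 (.leaf 319 1790 (.cons 200 (.leaf 271 1598 (.cons 175 (.leaf 199 1407 (.cons 176 (.leaf 151 1215 (.cons 177 (.leaf 201 1413 (.leaf 153 1221 .nil)) .nil)) .nil)) .nil)) .nil)) .nil))) (.cons 320 t172 (.cons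 224 (.cons 199 (.leaf 223 1599 (.cons 200 (.leaf 175 1407 (.cons 295 (.leaf 271 1598 (.leaf 319 1790 .nil)) .nil)) .nil)) (.cons 199 (.leaf 223 1599 (.cons 200 (.leaf 175 1407 (.cons 297 (.leaf 273 1604 (.leaf 321 1796 .nil)) .nil)) .nil)) (.cons 201 (.leaf 225 1605 (.cons 200 (.leaf 177 1413 (.cons 297 (.leaf 273 1604 (.leaf 321 1796 .nil)) .nil)) .nil)) (.cons 199 (.leaf 223 1599 (.cons 201 (.leaf 225 1605 (.cons 295 (.leaf 319 1790 (.cons 274 (.leaf 273 2170 (.cons 297 (.leaf 298 2169 (.leaf 321 1796 .nil)) .nil)) .nil)) .nil)) .nil)) .nil)))) t171))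
noncomputable def t174 : T := .cons 295 (.leaf 274 2170 (.cons 224 (.leaf 319 1790 (.cons 297 (.leaf 200 1604 (.leaf 321 1796 .nil)) .nil)) .nil)) (.cons 224 (.cons 199 (.leaf 223 1599 (.cons 201 (.leaf 225 1605 (.cons 321 (.leaf 297 1796 (.cons 320 (.leaf 345 1988 (.cons 343 (.leaf 319 1982 (.cons 344 (.leaf 249 1989 (.leaf 367 2174 .nil)) .nil)) .nil)) .nil)) .nil)) .nil)) (.cons 199 (.leaf 223 1599 (.cons 175 (.leaf 200 1407 (.cons 225 (.leaf 201 1605 (.cons 320 (.leaf 249 1797 (.cons 343 (.leaf 319 1982 (.cons 344 (.leaf 367 2174 (.cons 345 (.leaf 321 1988 (.leaf 369 2180 .nil)) .nil)) .nil)) .nil)) .nil)) .nil)) .nil)) (.cons 297 (.leaf 200 1604 (.leaf 321 1796 .nil)) (.cons 200 (.leaf 297 1604 (.cons 199 (.leaf 175 1407 (.leaf 223 1599 .nil)) .nil)) .nil)))) (.cons 295 (.leaf 274 2170 (.cons 294 (.leaf 293 2153 (.cons 297 (.cons 321 (.leaf 345 1991 (.leaf 322 2352 .nil)) (.cons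 270 (.leaf 269 2155 (.cons 271 (.leaf 298 2160 (.cons 245 (.leaf 246 1963 (.cons 249 (.leaf 250 1969 (.cons 225 (.leaf 201 1606 (.leaf 320 1797 .nil)) .nil)) .nil)) .nil)) .nil)) .nil)) .nil)) .nil)) (.cons 295 (.leaf 274 2170 (.cons 224 (.leaf 319 1790 (.cons 199 (.leaf 223 1599 (.cons 200 (.leaf 175 1407 (.leaf 271 1598 .nil)) .nil)) .nil)) .nil)) .nil)))
noncomputable def t175 : T := .cons 321 (.leaf 345 1991 (.cons 224 (.leaf 200 1604 (.leaf 296 1796 .nil)) .nil)) (.cons 321 (.leaf 345 1991 (.cons 249 (.cons 250 (.leaf 226 1805 (.cons 270 (.leaf 271 1969 (.cons 320 (.leaf 344 1990 (.cons 225 (.leaf 296 1797 (.cons 322 (.leaf 298 1804 (.leaf 346 1996 .nil)) .nil)) .nil)) .nil)) .nil)) (.cons 250 (.leaf 226 1805 (.cons 251 (.leaf 271 1978 (.leaf 252 1986 .nil)) .nil)) (.cons 320 (.leaf 344 1990 (.cons 225 (.leaf 296 1797 (.cons 322 (.leaf 298 1804 (.leaf 346 1996 .nil)) .nil)) .nil))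 .nil))) .nil)) (.cons 224 (.leaf 200 1604 (.cons 296 (.cons 223 (.leaf 199 1599 (.cons 320 (.leaf 247 1791 (.cons 344 (.leaf 249 1989 (.leaf 368 2181 .nil)) .nil)) .nil)) (.cons 295 (.leaf 319 1790 (.cons 294 (.leaf 293 2153 (.cons 270 (.leaf 269 2155 (.cons 271 (.leaf 298 2160 (.cons 245 (.leaf 246 1963 (.cons 249 (.leaf 250 1969 (.cons 318 (.leaf 317 2346 (.cons 342 (.leaf 366 2165 (.leaf 247 1973 .nil)) .nil)) .nil)) .nil)) .nil)) .nil)) .nil)) .nil)) (.cons 223 (.leaf 199 1599 (.cons 225 (.leaf 201 1605 (.cons 247 (.leaf 320 1791 (.cons 246 (.leaf 245 1960 (.leaf 226 1778 .nil)) .nil)) .nil)) .nil)) (.cons 225 (.leaf 201 1605 (.cons 249 (.leaf 320 1797 (.cons 199 (.leaf 223 1599 (.cons 202 (.leaf 226 1613 (.cons 295 (.leaf 319 1790 (.cons 294 (.leaf 293 2153 (.cons 270 (.leaf 269 2155 (.cons 298 (.leaf 271 2160 (.leaf 322 1804 .nil)) .nil)) .nil)) .nil)) .nil)) .nil)) .nil)) .nil))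 .nil)))) .nil)) (.cons 224 (.leaf 200 1604 (.cons 321 (.leaf 345 1991 (.leaf 249 1799 .nil)) .nil)) .nil)))
noncomputable def t176 : T := .cons 274 (.leaf 247 1979 (.cons 251 (.leaf 252 1985 (.cons 271 (.leaf 250 1977 (.cons 294 (.leaf 295 2162 (.cons 270 (.leaf 293 2154 (.cons 245 (.leaf 246 1963 (.cons 269 (.leaf 244 1955 (.leaf 249 1961 .nil)) .nil)) .nil)) .nil)) .nil)) .nil)) .nil)) (.cons 297 t175 (.cons 296 t174 (.cons 274 (.leaf 247 1979 (.cons 251 (.leaf 252 1985 (.cons 271 (.leaf 250 1977 (.cons 295 (.leaf 296 2170 (.leaf 294 2162 .nil)) .nil)) .nil)) .nil)) (.cons 274 (.leaf 247 1979 (.cons 296 (.leaf 295 2170 (.cons 251 (.leaf 252 1985 (.cons 320 (.cons 321 (.leaf 345 1988 (.cons 343 (.leaf 319 1982 (.cons 344 (.leaf 249 1989 (.leaf 367 2174 .nil)) .nil)) .nil)) (.cons 321 (.leaf 345 1988 (.cons 343 (.leaf 319 1982 (.cons 344 (.leaf 367 2174 (.cons 297 (.leaf 224 1796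 (.leaf 368 2181 .nil)) .nil)) .nil)) .nil)) (.cons 321 (.leaf 345 1988 (.cons 224 (.leaf 297 1796 (.cons 199 (.leaf 223 1599 (.cons 200 (.leaf 175 1407 (.cons 201 (.leaf 177 1413 (.leaf 225 1605 .nil)) .nil)) .nil)) .nil)) .nil)) (.cons 343 (.leaf 319 1982 (.cons 344 (.leaf 249 1989 (.leaf 367 2174 .nil)) .nil)) .nil)))) .nil)) .nil)) .nil)) (.cons 247 (.leaf 274 1979 (.cons 246 (.leaf 245 1960 (.cons 249 (.cons 270 (.leaf 269 1962 (.cons 250 (.leaf 271 1969 (.cons 251 (.leaf 252 1986 (.cons 224 (.leaf 223 1787 (.cons 200 (.leaf 297 1604 (.leaf 176 1412 .nil)) .nil)) .nil)) .nil)) .nil)) (.cons 222 (.leaf 221 1771 (.cons 223 (.leaf 250 1779 (.cons 199 (.leaf 175 1404 (.cons 296 (.leaf 224 1599 (.leaf 271 1596 .nil)) .nil)) .nil)) .nil)) (.cons 225 (.leaf 226 1777 (.cons 201 (.leaf 177 1414 (.leaf 296 1606 .nil)) .nil)) .nil))) .nil)) .nil)) .nil)))))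
noncomputable def top0 : T := .cons 295 t91 t84
noncomputable def top1 : T := .cons 273 t176 (.cons 296 t173 (.cons 296 (t170) (.cons 247 t168 (.cons 247 t154 (.cons 273 t147 (.cons 224 t143 (.cons 273 (t138) (.cons 247 t136 (.cons 247 t131 (.cons 273 t126 (.cons 273 t123 (.cons 273 t120 (.cons 247 t117 (.cons 273 (t110) (.cons 247 (.cons 273 (.leaf 274 1979 (.cons 246 (.leaf 245 1960 (.cons 249 (.cons 270 (.leaf 269 1962 (.cons 250 (.leaf 271 1969 (.cons 227 (.leaf 226 1785 (.cons 251 (.leaf 252 1986 (.leaf 228 1793 .nil)) .nil)) .nil)) .nil)) (.cons 225 (.leaf 226 1777 (.cons 201 (.leaf 177 1414 (.leaf 296 1606 .nil)) .nil)) (.cons 270 (.leaf 269 1962 (.cons 250 (.leaf 271 1969 (.cons 251 (.leaf 252 1986 (.cons 224 (.leaf 223 1787 (.cons 200 (.leaf 297 1604 (.leaf 176 1412 .nil)) .nil)) .nil)) .nil)) .nil)) .nil))) .nil)) .nil)) t106) (.cons 247 t101 (.cons 273 t94 .nil)))))))))))))))))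

end Vale.Agent.P062.PB.N5D2
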