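import Vale.Agent.P062.Checker

namespace Vale.Agent.P062.PB.N5D3

open Vale.Agent.P062

noncomputable def t0 : T := .cons 299 (.leaf 300 2176 (.cons 251 (.leaf 252 1985 (.cons 248 (.leaf 247 1979 (.cons 323 (.cons 226 (.leaf 250 1815 (.cons 227 (.leaf 202 1623 (.cons 322 (.leaf 298 1814 (.leaf 346 2006 .nil)) .nil)) .nil)) (.cons 322 (.leaf 346 2006 (.cons 348 (.leaf 324 2012 (.cons 347 (.leaf 372 2204 (.cons 298 (.leaf 227 1814 (.leaf 371 2199 .nil)) .nil)) .nil)) .nil)) (.cons 250 (.leaf 226 1815 (.leaf 347 2007 .nil)) .nil))) .nil)) .nil)) .nil)) (.cons 299 (.leaf 300 2176 (.cons 251 (.leaf 252 1985 (.cons 296 (.leaf 295 2170 (.cons 323 (.cons 250 (.leaf 226 1815 (.leaf 347 2007 .nil)) (.cons 322 (.leaf 346 2006 (.cons 324 (.leaf 348 2012 (.cons 297 (.leaf 298 2368 (.leaf 321 2371 .nil)) .nil)) .nil)) .nil)) .nil)) .nil)) .nil)) (.cons 248 (.leaf 247 1979 (.cons 296 (.leaf 295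 2170 (.cons 251 (.leaf 252 1985 (.cons 224 (.cons 297 (.leaf 200 1604 (.leaf 321 1796 .nil)) (.cons 225 (.leaf 201 1605 (.cons 199 (.leaf 223 1599 (.cons 200 (.leaf 175 1407 (.cons 249 (.leaf 320 1797 (.leaf 176 1412 .nil)) .nil)) .nil)) .nil)) (.cons 199 (.leaf 223 1599 (.cons 225 (.leaf 201 1605 (.cons 320 (.leaf 249 1797 (.cons 343 (.leaf 319 1982 (.cons 344 (.leaf 367 2174 (.cons 368 (.leaf 297 2181 (.cons 369 (.leaf 345 2180 (.leaf 393 2372 .nil)) .nil)) .nil)) .nil)) .nil)) .nil)) .nil)) .nil))) .nil)) .nil)) .nil)) (.cons 248 (.leaf 247 1979 (.cons 296 (.leaf 295 2170 (.cons 299 (.leaf 300 2176 (.cons 320 (.cons 249 (.leaf 225 1797 (.leaf 344 1989 .nil)) (.cons 319 (.leaf 343 1982 (.cons 321 (.leaf 345 1988 (.cons 297 (.leaf 224 1796 (.leaf 298 2362 .nil)) .nil)) .nil)) .nil)) .nil)) .nil)) .nil)) .nil)))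
noncomputable def t1 : T := .cons 251 (.leaf 252 1985 (.cons 299 (.leaf 300 2176 (.cons 296 (.leaf 295 2170 (.cons 248 (.leaf 247 1979 (.cons 227 (.cons 202 (.leaf 226 1623 (.cons 228 (.leaf 204 1629 (.cons 249 (.leaf 250 1793 (.cons 225 (.leaf 201 1606 (.leaf 320 1797 .nil)) .nil)) .nil)) .nil)) (.cons 298 (.leaf 203 1622 (.leaf 322 1814 .nil)) .nil)) .nil)) .nil)) .nil)) .nil)) (.cons 251 (.leaf 252 1985 (.cons 299 (.leaf 300 2176 (.cons 296 (.leaf 295 2170 (.cons 227 (.cons 202 (.leaf 226 1623 (.cons 203 (.leaf 178 1431 (.leaf 298 1622 .nil)) .nil)) (.cons 202 (.leaf 226 1623 (.cons 203 (.leaf 178 1431 (.cons 204 (.leaf 180 1437 (.leaf 228 1629 .nil)) .nil)) .nil)) (.cons 298 (.leaf 322 1814 (.cons 226 (.leaf 202 1623 (.cons 228 (.leaf 204 1629 (.cons 229 (.cons 250 (.leaf 230 1810 (.leaf 249 1802 .nil)) (.cons 206 (.leaf 205 1617 (.cons 230 (.leaf 207 1625 (.cons 254 (.leaf 253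 1808 (.leaf 255 1816 .nil)) .nil)) .nil)) (.cons 205 (.leaf 206 1617 (.cons 249 (.leaf 250 1802 (.cons 225 (.leaf 201 1612 (.cons 320 (.leaf 344 1989 (.leaf 297 1798 .nil)) .nil)) .nil)) .nil)) .nil))) .nil)) .nil)) .nil)) (.cons 298 (.leaf 203 1622 (.leaf 322 1814 .nil)) .nil)))) .nil)) .nil)) .nil)) (.cons 251 (.leaf 252 1985 (.cons 299 (.leaf 300 2176 (.cons 248 (.leaf 247 1979 (.cons 227 (.cons 298 (.leaf 203 1622 (.leaf 322 1814 .nil)) (.cons 226 (.leaf 202 1623 (.cons 228 (.leaf 204 1629 (.cons 249 (.leaf 250 1793 (.leaf 225 1794 .nil)) .nil)) .nil)) .nil)) .nil)) .nil)) .nil)) (.cons 248 (.leaf 247 1979 (.cons 296 (.leaf 295 2170 (.cons 299 (.leaf 300 2176 (.cons 224 (.cons 201 (.leaf 225 1605 (.cons 200 (.leaf 177 1413 (.leaf 297 1604 .nil)) .nil)) (.cons 201 (.leaf 225 1605 (.cons 199 (.leaf 223 1599 (.cons 200 (.leaf 175 1407 (.leaf 177 1413 .nil)) .nil)) .nil)) (.cons 199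 (.leaf 223 1599 (.cons 225 (.leaf 201 1605 (.cons 297 (.leaf 321 1796 (.cons 320 (.leaf 249 1797 (.cons 343 (.leaf 319 1982 (.cons 344 (.leaf 367 2174 (.leaf 368 2181 .nil)) .nil)) .nil)) .nil)) .nil)) .nil)) (.cons 297 (.leaf 200 1604 (.leaf 321 1796 .nil)) .nil)))) .nil)) .nil)) .nil)) (.cons 248 (.leaf 247 1979 (.cons 296 (.leaf 295 2170 (.cons 251 (.leaf 252 1985 (.cons 224 (.cons 297 (.leaf 200 1604 (.leaf 321 1796 .nil)) (.cons 225 (.leaf 201 1605 (.cons 199 (.leaf 223 1599 (.cons 200 (.leaf 175 1407 (.cons 249 (.leaf 320 1797 (.leaf 176 1412 .nil)) .nil)) .nil)) .nil)) (.cons 199 (.leaf 223 1599 (.cons 225 (.leaf 201 1605 (.cons 320 (.leaf 249 1797 (.cons 343 (.leaf 319 1982 (.cons 344 (.leaf 367 2174 (.cons 368 (.leaf 297 2181 (.cons 369 (.leaf 345 2180 (.leaf 393 2372 .nil)) .nil)) .nil)) .nil)) .nil)) .nil)) .nil)) .nil))) .nil)) .nil)) .nil)) (.cons 251 (.leaf 252 1985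 (.cons 299 (.leaf 300 2176 (.cons 296 (.leaf 295 2170 (.cons 248 (.leaf 247 1979 (.cons 224 (.cons 297 (.leaf 200 1604 (.leaf 321 1796 .nil)) (.cons 223 (.leaf 199 1599 (.cons 225 (.leaf 201 1605 (.cons 226 (.leaf 250 1784 (.cons 202 (.leaf 227 1623 (.leaf 203 1593 .nil)) .nil)) .nil)) .nil)) .nil)) .nil)) .nil)) .nil)) .nil)) (.cons 248 (.leaf 247 1979 (.cons 296 (.leaf 295 2170 (.cons 299 (.leaf 300 2176 (.cons 251 (.leaf 252 1985 (.cons 227 (.cons 202 (.leaf 226 1623 (.cons 228 (.leaf 204 1629 (.cons 249 (.leaf 250 1793 (.cons 298 (.leaf 203 1622 (.leaf 322 1814 .nil)) .nil)) .nil)) .nil)) (.cons 202 (.leaf 226 1623 (.cons 203 (.leaf 178 1431 (.cons 204 (.leaf 180 1437 (.leaf 228 1629 .nil)) .nil)) .nil)) (.cons 202 (.leaf 226 1623 (.cons 228 (.leaf 204 1629 (.cons 249 (.leaf 250 1793 (.cons 298 (.leaf 322 1814 (.cons 320 (.leaf 344 1989 (.cons 319 (.leaf 343 1982 (.leaf 297 2362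 .nil)) .nil)) .nil)) .nil)) .nil)) .nil)) (.cons 298 (.leaf 203 1622 (.leaf 322 1814 .nil)) .nil)))) .nil)) .nil)) .nil)) .nil)) .nil))))))
noncomputable def t2 : T := .cons 248 (.leaf 247 1979 (.cons 296 (.leaf 295 2170 (.cons 299 (.leaf 300 2176 (.cons 251 (.leaf 252 1985 (.cons 224 (.cons 199 (.leaf 223 1599 (.cons 200 (.leaf 175 1407 (.leaf 297 1604 .nil)) .nil)) (.cons 199 (.leaf 223 1599 (.cons 200 (.leaf 175 1407 (.cons 201 (.leaf 177 1413 (.leaf 225 1605 .nil)) .nil)) .nil)) (.cons 199 (.leaf 223 1599 (.cons 225 (.leaf 201 1605 (.cons 249 (.leaf 320 1797 (.cons 297 (.leaf 321 1796 (.cons 226 (.leaf 202 1613 (.cons 227 (.leaf 228 1794 (.cons 203 (.leaf 298 1622 (.leaf 204 1601 .nil)) .nil)) .nil)) .nil)) .nil)) .nil)) .nil)) (.cons 297 (.leaf 200 1604 (.leaf 321 1796 .nil)) .nil)))) .nil)) .nil)) .nil)) .nil)) (.cons 299 (.leaf 300 2176 (.cons 251 (.leaf 252 1985 (.cons 296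 (.leaf 295 2170 (.cons 227 (.cons 298 (.leaf 203 1622 (.leaf 322 1814 .nil)) (.cons 226 (.leaf 202 1623 (.cons 204 (.leaf 228 1629 (.cons 203 (.leaf 180 1437 (.cons 250 (.leaf 323 1815 (.leaf 179 1430 .nil)) .nil)) .nil)) .nil)) (.cons 204 (.leaf 228 1629 (.cons 226 (.leaf 202 1623 (.cons 250 (.leaf 323 1815 (.cons 298 (.leaf 322 1813 (.cons 225 (.leaf 201 1615 (.cons 224 (.leaf 223 1784 (.cons 200 (.leaf 199 1595 (.cons 297 (.leaf 249 1607 (.leaf 321 1806 .nil)) .nil)) .nil)) .nil)) .nil)) .nil)) .nil)) .nil)) .nil))) .nil)) .nil)) .nil)) (.cons 299 (.leaf 300 2176 (.cons 251 (.leaf 252 1985 (.cons 248 (.leaf 247 1979 (.cons 226 (.cons 250 (.leaf 202 1620 (.leaf 323 1815 .nil)) (.cons 227 (.leaf 202 1623 (.cons 203 (.leaf 298 1622 (.cons 204 (.leaf 180 1437 (.leaf 228 1629 .nil)) .nil)) .nil)) (.cons 323 (.leaf 250 1815 (.cons 348 (.leaf 324 2012 (.cons 347 (.leaf 372 2204 (.cons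 298 (.leaf 371 2199 (.cons 227 (.leaf 203 1622 (.leaf 322 1814 .nil)) .nil)) .nil)) .nil)) .nil)) .nil))) .nil)) .nil)) .nil)) (.cons 248 (.leaf 247 1979 (.cons 296 (.leaf 295 2170 (.cons 251 (.leaf 252 1985 (.cons 224 (.cons 297 (.leaf 200 1604 (.leaf 321 1796 .nil)) (.cons 225 (.leaf 201 1605 (.cons 199 (.leaf 223 1599 (.cons 200 (.leaf 175 1407 (.cons 249 (.leaf 320 1797 (.leaf 176 1412 .nil)) .nil)) .nil)) .nil)) (.cons 199 (.leaf 223 1599 (.cons 225 (.leaf 201 1605 (.cons 320 (.leaf 249 1797 (.cons 343 (.leaf 319 1982 (.cons 344 (.leaf 367 2174 (.cons 368 (.leaf 297 2181 (.cons 369 (.leaf 345 2180 (.leaf 393 2372 .nil)) .nil)) .nil)) .nil)) .nil)) .nil)) .nil)) .nil))) .nil)) .nil)) .nil)) (.cons 248 (.leaf 247 1979 (.cons 296 (.leaf 295 2170 (.cons 299 (.leaf 300 2176 (.cons 224 (.cons 201 (.leaf 225 1605 (.cons 200 (.leaf 177 1413 (.leaf 297 1604 .nil)) .nil)) (.cons 201 (.leaf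 225 1605 (.cons 199 (.leaf 223 1599 (.cons 200 (.leaf 175 1407 (.leaf 177 1413 .nil)) .nil)) .nil)) (.cons 199 (.leaf 223 1599 (.cons 225 (.leaf 201 1605 (.cons 297 (.leaf 321 1796 (.cons 320 (.leaf 249 1797 (.cons 343 (.leaf 319 1982 (.cons 344 (.leaf 367 2174 (.leaf 368 2181 .nil)) .nil)) .nil)) .nil)) .nil)) .nil)) (.cons 297 (.leaf 200 1604 (.leaf 321 1796 .nil)) .nil)))) .nil)) .nil)) .nil)) .nil))))
noncomputable def t3 : T := .cons 248 (.leaf 247 1979 (.cons 296 (.leaf 295 2170 (.cons 299 (.leaf 300 2176 (.cons 224 (.cons 201 (.leaf 225 1605 (.cons 200 (.leaf 177 1413 (.leaf 297 1604 .nil)) .nil)) (.cons 201 (.leaf 225 1605 (.cons 199 (.leaf 223 1599 (.cons 200 (.leaf 175 1407 (.leaf 177 1413 .nil)) .nil)) .nil)) (.cons 199 (.leaf 223 1599 (.cons 225 (.leaf 201 1605 (.cons 297 (.leaf 321 1796 (.cons 320 (.leaf 249 1797 (.cons 343 (.leaf 319 1982 (.cons 344 (.leaf 367 2174 (.leaf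 368 2181 .nil)) .nil)) .nil)) .nil)) .nil)) .nil)) (.cons 297 (.leaf 200 1604 (.leaf 321 1796 .nil)) .nil)))) .nil)) .nil)) .nil)) (.cons 299 (.leaf 300 2176 (.cons 251 (.leaf 252 1985 (.cons 296 (.leaf 295 2170 (.cons 226 (.cons 202 (.leaf 227 1623 (.leaf 250 1620 .nil)) (.cons 227 (.leaf 202 1623 (.cons 203 (.leaf 298 1622 (.cons 204 (.leaf 180 1437 (.leaf 228 1629 .nil)) .nil)) .nil)) (.cons 323 (.leaf 250 1815 (.cons 348 (.leaf 324 2012 (.cons 347 (.leaf 372 2204 (.cons 370 (.leaf 346 2198 (.cons 371 (.leaf 298 2199 (.leaf 394 2390 .nil)) .nil)) .nil)) .nil)) .nil)) .nil))) .nil)) .nil)) .nil)) (.cons 299 (.leaf 300 2176 (.cons 251 (.leaf 252 1985 (.cons 248 (.leaf 247 1979 (.cons 226 (.cons 250 (.leaf 202 1620 (.leaf 323 1815 .nil)) (.cons 227 (.leaf 202 1623 (.cons 203 (.leaf 298 1622 (.cons 204 (.leaf 180 1437 (.leaf 228 1629 .nil)) .nil)) .nil)) (.cons 323 (.leaf 250 1815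 (.cons 348 (.leaf 324 2012 (.cons 347 (.leaf 372 2204 (.cons 298 (.leaf 371 2199 (.cons 227 (.leaf 203 1622 (.cons 228 (.leaf 204 1629 (.cons 225 (.leaf 249 1794 (.cons 200 (.leaf 201 1603 (.cons 224 (.leaf 297 1604 (.leaf 199 1595 .nil)) .nil)) .nil)) .nil)) .nil)) .nil)) .nil)) .nil)) .nil)) .nil))) .nil)) .nil)) .nil)) (.cons 248 (.leaf 247 1979 (.cons 296 (.leaf 295 2170 (.cons 251 (.leaf 252 1985 (.cons 224 (.cons 297 (.leaf 200 1604 (.leaf 321 1796 .nil)) (.cons 225 (.leaf 201 1605 (.cons 199 (.leaf 223 1599 (.cons 200 (.leaf 175 1407 (.cons 249 (.leaf 320 1797 (.leaf 176 1412 .nil)) .nil)) .nil)) .nil)) (.cons 199 (.leaf 223 1599 (.cons 225 (.leaf 201 1605 (.cons 320 (.leaf 249 1797 (.cons 343 (.leaf 319 1982 (.cons 344 (.leaf 367 2174 (.cons 368 (.leaf 297 2181 (.cons 369 (.leaf 345 2180 (.leaf 393 2372 .nil)) .nil)) .nil)) .nil)) .nil)) .nil)) .nil)) .nil))) .nil)) .nil))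 .nil)) .nil)))
noncomputable def t4 : T := .cons 251 (.leaf 252 1985 (.cons 299 (.leaf 300 2176 (.cons 296 (.leaf 295 2170 (.cons 227 (.cons 204 (.leaf 228 1629 (.cons 203 (.leaf 180 1437 (.leaf 298 1622 .nil)) .nil)) (.cons 204 (.leaf 228 1629 (.cons 203 (.leaf 180 1437 (.cons 178 (.leaf 202 1431 (.cons 179 (.leaf 250 1430 (.leaf 154 1239 .nil)) .nil)) .nil)) .nil)) (.cons 204 (.leaf 228 1629 (.cons 322 (.leaf 298 1814 (.cons 323 (.leaf 346 2006 (.cons 324 (.leaf 348 2012 (.cons 321 (.leaf 297 2371 (.cons 344 (.leaf 345 2562 (.cons 320 (.leaf 249 1989 (.leaf 343 2554 .nil)) .nil)) .nil)) .nil)) .nil)) .nil)) .nil)) (.cons 298 (.leaf 203 1622 (.leaf 322 1814 .nil)) .nil)))) .nil)) .nil)) .nil)) (.cons 251 (.leaf 252 1985 (.cons 299 (.leaf 300 2176 (.cons 248 (.leaf 247 1979 (.cons 227 (.cons 298 (.leaf 203 1622 (.leaf 322 1814 .nil)) (.cons 204 (.leaf 228 1629 (.cons 203 (.leaf 180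 1437 (.cons 178 (.leaf 202 1431 (.cons 179 (.leaf 250 1430 (.leaf 154 1239 .nil)) .nil)) .nil)) .nil)) (.cons 322 (.leaf 298 1814 (.cons 204 (.leaf 228 1629 (.cons 323 (.leaf 346 2006 (.cons 347 (.leaf 250 2007 (.cons 348 (.leaf 324 2012 (.leaf 372 2204 .nil)) .nil)) .nil)) .nil)) .nil)) .nil))) .nil)) .nil)) .nil)) (.cons 248 (.leaf 247 1979 (.cons 296 (.leaf 295 2170 (.cons 299 (.leaf 300 2176 (.cons 320 (.cons 249 (.leaf 225 1797 (.leaf 344 1989 .nil)) (.cons 319 (.leaf 343 1982 (.cons 321 (.leaf 345 1988 (.cons 297 (.leaf 224 1796 (.leaf 298 2362 .nil)) .nil)) .nil)) .nil)) .nil)) .nil)) .nil)) (.cons 248 (.leaf 247 1979 (.cons 296 (.leaf 295 2170 (.cons 251 (.leaf 252 1985 (.cons 224 (.cons 297 (.leaf 200 1604 (.leaf 321 1796 .nil)) (.cons 225 (.leaf 201 1605 (.cons 199 (.leaf 223 1599 (.cons 200 (.leaf 175 1407 (.cons 249 (.leaf 320 1797 (.leaf 176 1412 .nil)) .nil)) .nil))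 .nil)) (.cons 199 (.leaf 223 1599 (.cons 225 (.leaf 201 1605 (.cons 320 (.leaf 249 1797 (.cons 343 (.leaf 319 1982 (.cons 344 (.leaf 367 2174 (.cons 368 (.leaf 297 2181 (.cons 369 (.leaf 345 2180 (.leaf 393 2372 .nil)) .nil)) .nil)) .nil)) .nil)) .nil)) .nil)) .nil))) .nil)) .nil)) .nil)) .nil)))
noncomputable def t5 : T := .cons 251 (.leaf 252 1985 (.cons 299 (.leaf 300 2176 (.cons 296 (.leaf 295 2170 (.cons 248 (.leaf 247 1979 (.cons 224 (.cons 199 (.leaf 223 1599 (.cons 200 (.leaf 175 1407 (.leaf 297 1604 .nil)) .nil)) (.cons 199 (.leaf 223 1599 (.cons 200 (.leaf 175 1407 (.cons 201 (.leaf 177 1413 (.leaf 225 1605 .nil)) .nil)) .nil)) (.cons 199 (.leaf 223 1599 (.cons 225 (.leaf 201 1605 (.cons 249 (.leaf 320 1797 (.cons 297 (.leaf 321 1796 (.cons 298 (.leaf 322 1804 (.cons 227 (.leaf 203 1622 (.cons 228 (.leaf 204 1629 (.leaf 250 1793 .nil)) .nil)) .nil)) .nil)) .nil)) .nil))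 .nil)) (.cons 297 (.leaf 200 1604 (.leaf 321 1796 .nil)) .nil)))) .nil)) .nil)) .nil)) .nil)) (.cons 251 (.leaf 252 1985 (.cons 299 (.leaf 300 2176 (.cons 296 (.leaf 295 2170 (.cons 323 (.cons 250 (.leaf 226 1815 (.leaf 347 2007 .nil)) (.cons 322 (.leaf 346 2006 (.cons 324 (.leaf 348 2012 (.cons 297 (.leaf 298 2368 (.leaf 321 2371 .nil)) .nil)) .nil)) .nil)) .nil)) .nil)) .nil)) (.cons 251 (.leaf 252 1985 (.cons 299 (.leaf 300 2176 (.cons 248 (.leaf 247 1979 (.cons 323 (.cons 226 (.leaf 250 1815 (.cons 322 (.leaf 346 2006 (.cons 227 (.leaf 298 1814 (.cons 228 (.leaf 204 1629 (.cons 225 (.leaf 249 1794 (.cons 200 (.leaf 201 1603 (.cons 224 (.leaf 297 1604 (.leaf 199 1595 .nil)) .nil)) .nil)) .nil)) .nil)) .nil)) .nil)) (.cons 322 (.leaf 346 2006 (.cons 348 (.leaf 324 2012 (.cons 347 (.leaf 372 2204 (.cons 298 (.leaf 227 1814 (.leaf 371 2199 .nil)) .nil)) .nil)) .nil)) (.cons 250 (.leaf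 226 1815 (.leaf 347 2007 .nil)) .nil))) .nil)) .nil)) .nil)) (.cons 248 (.leaf 247 1979 (.cons 296 (.leaf 295 2170 (.cons 299 (.leaf 300 2176 (.cons 320 (.cons 249 (.leaf 225 1797 (.leaf 344 1989 .nil)) (.cons 319 (.leaf 343 1982 (.cons 321 (.leaf 345 1988 (.cons 297 (.leaf 224 1796 (.leaf 298 2362 .nil)) .nil)) .nil)) .nil)) .nil)) .nil)) .nil)) (.cons 248 (.leaf 247 1979 (.cons 296 (.leaf 295 2170 (.cons 251 (.leaf 252 1985 (.cons 224 (.cons 297 (.leaf 200 1604 (.leaf 321 1796 .nil)) (.cons 225 (.leaf 201 1605 (.cons 199 (.leaf 223 1599 (.cons 200 (.leaf 175 1407 (.cons 249 (.leaf 320 1797 (.leaf 176 1412 .nil)) .nil)) .nil)) .nil)) (.cons 199 (.leaf 223 1599 (.cons 225 (.leaf 201 1605 (.cons 320 (.leaf 249 1797 (.cons 343 (.leaf 319 1982 (.cons 344 (.leaf 367 2174 (.cons 368 (.leaf 297 2181 (.cons 369 (.leaf 345 2180 (.leaf 393 2372 .nil)) .nil)) .nil)) .nil)) .nil)) .nil)) .nil))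 .nil))) .nil)) .nil)) .nil)) (.cons 248 (.leaf 247 1979 (.cons 296 (.leaf 295 2170 (.cons 299 (.leaf 300 2176 (.cons 320 (.cons 249 (.leaf 225 1797 (.leaf 344 1989 .nil)) (.cons 319 (.leaf 343 1982 (.cons 321 (.leaf 345 1988 (.cons 322 (.leaf 298 2361 (.cons 347 (.leaf 346 2552 (.cons 323 (.leaf 250 2007 (.leaf 348 2560 .nil)) .nil)) .nil)) .nil)) .nil)) .nil)) .nil)) .nil)) .nil)) .nil)))))
noncomputable def t6 : T := .cons 251 (.leaf 252 1985 (.cons 299 (.leaf 300 2176 (.cons 296 (.leaf 295 2170 (.cons 323 (.cons 250 (.leaf 226 1815 (.leaf 347 2007 .nil)) (.cons 322 (.leaf 346 2006 (.cons 324 (.leaf 348 2012 (.cons 297 (.leaf 298 2368 (.leaf 321 2371 .nil)) .nil)) .nil)) .nil)) .nil)) .nil)) .nil)) (.cons 248 (.leaf 247 1979 (.cons 296 (.leaf 295 2170 (.cons 299 (.leaf 300 2176 (.cons 320 (.cons 249 (.leaf 225 1797 (.leaf 344 1989 .nil)) (.cons 319 (.leaf 343 1982 (.cons 321 (.leaf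 345 1988 (.cons 297 (.leaf 224 1796 (.leaf 298 2362 .nil)) .nil)) .nil)) .nil)) .nil)) .nil)) .nil)) (.cons 248 (.leaf 247 1979 (.cons 296 (.leaf 295 2170 (.cons 251 (.leaf 252 1985 (.cons 320 (.cons 225 (.leaf 249 1797 (.cons 319 (.leaf 343 1982 (.cons 321 (.leaf 345 1988 (.cons 224 (.leaf 297 1796 (.cons 199 (.leaf 223 1599 (.cons 200 (.leaf 175 1407 (.cons 227 (.leaf 226 1595 (.cons 203 (.leaf 298 1622 (.cons 178 (.leaf 202 1431 (.cons 179 (.leaf 250 1430 (.leaf 154 1239 .nil)) .nil)) .nil)) .nil)) .nil)) .nil)) .nil)) .nil)) .nil)) .nil)) (.cons 345 (.leaf 321 1988 (.cons 343 (.leaf 319 1982 (.cons 344 (.leaf 367 2174 (.leaf 369 2180 .nil)) .nil)) .nil)) (.cons 249 (.leaf 225 1797 (.leaf 344 1989 .nil)) .nil))) .nil)) .nil)) .nil)) (.cons 251 (.leaf 252 1985 (.cons 299 (.leaf 300 2176 (.cons 248 (.leaf 247 1979 (.cons 323 (.cons 226 (.leaf 250 1815 (.cons 227 (.leaf 202 1623 (.cons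 204 (.leaf 228 1629 (.cons 203 (.leaf 180 1437 (.leaf 298 1622 .nil)) .nil)) .nil)) .nil)) (.cons 322 (.leaf 346 2006 (.cons 348 (.leaf 324 2012 (.cons 347 (.leaf 372 2204 (.cons 298 (.leaf 227 1814 (.leaf 371 2199 .nil)) .nil)) .nil)) .nil)) (.cons 226 (.leaf 250 1815 (.cons 227 (.leaf 202 1623 (.cons 204 (.leaf 228 1629 (.cons 203 (.leaf 180 1437 (.cons 205 (.leaf 206 1618 (.cons 224 (.leaf 225 1601 (.cons 200 (.leaf 297 1604 (.cons 175 (.leaf 199 1407 (.cons 176 (.leaf 249 1412 (.leaf 151 1215 .nil)) .nil)) .nil)) .nil)) .nil)) .nil)) .nil)) .nil)) .nil)) (.cons 250 (.leaf 226 1815 (.leaf 347 2007 .nil)) .nil)))) .nil)) .nil)) .nil)) (.cons 251 (.leaf 252 1985 (.cons 299 (.leaf 300 2176 (.cons 296 (.leaf 295 2170 (.cons 248 (.leaf 247 1979 (.cons 227 (.cons 202 (.leaf 226 1623 (.cons 204 (.leaf 228 1629 (.cons 322 (.leaf 298 1814 (.cons 323 (.leaf 346 2006 (.cons 347 (.leaf 250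 2007 (.cons 348 (.leaf 324 2012 (.leaf 372 2204 .nil)) .nil)) .nil)) .nil)) .nil)) .nil)) (.cons 202 (.leaf 226 1623 (.cons 203 (.leaf 178 1431 (.cons 204 (.leaf 180 1437 (.leaf 228 1629 .nil)) .nil)) .nil)) (.cons 298 (.leaf 203 1622 (.leaf 322 1814 .nil)) .nil))) .nil)) .nil)) .nil)) .nil)) (.cons 248 (.leaf 247 1979 (.cons 296 (.leaf 295 2170 (.cons 251 (.leaf 252 1985 (.cons 299 (.leaf 300 2176 (.cons 320 (.cons 225 (.leaf 249 1797 (.cons 321 (.leaf 345 1988 (.cons 224 (.leaf 297 1796 (.cons 199 (.leaf 223 1599 (.cons 200 (.leaf 175 1407 (.cons 197 (.leaf 198 1576 (.cons 226 (.leaf 227 1595 (.cons 250 (.leaf 202 1620 (.leaf 323 1815 .nil)) .nil)) .nil)) .nil)) .nil)) .nil)) .nil)) .nil)) (.cons 345 (.leaf 321 1988 (.cons 319 (.leaf 343 1982 (.cons 344 (.leaf 369 2180 (.cons 347 (.leaf 346 2555 (.cons 323 (.leaf 250 2007 (.cons 348 (.leaf 324 2012 (.leaf 372 2204 .nil)) .nil))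 .nil)) .nil)) .nil)) .nil)) (.cons 249 (.leaf 225 1797 (.leaf 344 1989 .nil)) .nil))) .nil)) .nil)) .nil)) .nil)) .nil)))))
noncomputable def t7 : T := .cons 248 (.leaf 247 1979 (.cons 296 (.leaf 295 2170 (.cons 251 (.leaf 252 1985 (.cons 299 (.leaf 300 2176 (.cons 323 (.cons 324 (.leaf 348 2012 (.cons 346 (.leaf 322 2006 (.cons 347 (.leaf 250 2007 (.leaf 370 2198 .nil)) .nil)) .nil)) (.cons 324 (.leaf 348 2012 (.cons 346 (.leaf 322 2006 (.cons 347 (.leaf 370 2198 (.cons 344 (.leaf 345 2561 (.cons 320 (.leaf 249 1989 (.cons 343 (.leaf 319 1982 (.leaf 367 2174 .nil)) .nil)) .nil)) .nil)) .nil)) .nil)) (.cons 226 (.leaf 250 1815 (.cons 227 (.leaf 202 1623 (.cons 204 (.leaf 228 1629 (.cons 203 (.leaf 180 1437 (.cons 205 (.leaf 206 1618 (.cons 224 (.leaf 225 1601 (.cons 199 (.leaf 223 1599 (.cons 200 (.leaf 175 1407 (.leaf 297 1604 .nil)) .nil)) .nil)) .nil)) .nil)) .nil)) .nil)) .nil))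 .nil))) .nil)) .nil)) .nil)) .nil)) (.cons 296 (.leaf 295 2170 (.cons 251 (.leaf 252 1985 (.cons 299 (.leaf 300 2176 (.cons 323 (.cons 250 (.leaf 226 1815 (.leaf 347 2007 .nil)) (.cons 322 (.leaf 346 2006 (.cons 324 (.leaf 348 2012 (.cons 321 (.leaf 297 2371 (.cons 344 (.leaf 345 2562 (.cons 320 (.leaf 249 1989 (.leaf 343 2554 .nil)) .nil)) .nil)) .nil)) .nil)) .nil)) .nil)) .nil)) .nil)) (.cons 248 (.leaf 247 1979 (.cons 251 (.leaf 252 1985 (.cons 299 (.leaf 300 2176 (.cons 323 (.cons 226 (.leaf 250 1815 (.cons 227 (.leaf 202 1623 (.cons 204 (.leaf 228 1629 (.cons 203 (.leaf 180 1437 (.cons 205 (.leaf 206 1618 (.cons 224 (.leaf 225 1601 (.cons 200 (.leaf 297 1604 (.cons 175 (.leaf 199 1407 (.cons 176 (.leaf 249 1412 (.leaf 151 1215 .nil)) .nil)) .nil)) .nil)) .nil)) .nil)) .nil)) .nil)) .nil)) (.cons 322 (.leaf 346 2006 (.cons 348 (.leaf 324 2012 (.cons 347 (.leaf 372 2204 (.cons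 321 (.leaf 320 2560 (.cons 297 (.leaf 345 1991 (.cons 224 (.leaf 200 1604 (.leaf 249 1799 .nil)) .nil)) .nil)) .nil)) .nil)) .nil)) (.cons 250 (.leaf 226 1815 (.leaf 347 2007 .nil)) .nil))) .nil)) .nil)) .nil)) (.cons 248 (.leaf 247 1979 (.cons 296 (.leaf 295 2170 (.cons 299 (.leaf 300 2176 (.cons 224 (.cons 201 (.leaf 225 1605 (.cons 200 (.leaf 177 1413 (.leaf 297 1604 .nil)) .nil)) (.cons 201 (.leaf 225 1605 (.cons 199 (.leaf 223 1599 (.cons 200 (.leaf 175 1407 (.leaf 177 1413 .nil)) .nil)) .nil)) (.cons 199 (.leaf 223 1599 (.cons 225 (.leaf 201 1605 (.cons 297 (.leaf 321 1796 (.cons 320 (.leaf 249 1797 (.cons 343 (.leaf 319 1982 (.cons 344 (.leaf 367 2174 (.leaf 368 2181 .nil)) .nil)) .nil)) .nil)) .nil)) .nil)) (.cons 297 (.leaf 200 1604 (.leaf 321 1796 .nil)) .nil)))) .nil)) .nil)) .nil)) (.cons 248 (.leaf 247 1979 (.cons 296 (.leaf 295 2170 (.cons 251 (.leaf 252 1985 (.cons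 224 (.cons 297 (.leaf 200 1604 (.leaf 321 1796 .nil)) (.cons 225 (.leaf 201 1605 (.cons 199 (.leaf 223 1599 (.cons 200 (.leaf 175 1407 (.cons 249 (.leaf 320 1797 (.leaf 176 1412 .nil)) .nil)) .nil)) .nil)) (.cons 199 (.leaf 223 1599 (.cons 225 (.leaf 201 1605 (.cons 320 (.leaf 249 1797 (.cons 343 (.leaf 319 1982 (.cons 344 (.leaf 367 2174 (.cons 368 (.leaf 297 2181 (.cons 369 (.leaf 345 2180 (.leaf 393 2372 .nil)) .nil)) .nil)) .nil)) .nil)) .nil)) .nil)) .nil))) .nil)) .nil)) .nil)) (.cons 248 (.leaf 247 1979 (.cons 296 (.leaf 295 2170 (.cons 299 (.leaf 300 2176 (.cons 251 (.leaf 252 1985 (.cons 224 (.cons 297 (.leaf 200 1604 (.leaf 321 1796 .nil)) (.cons 199 (.leaf 223 1599 (.cons 200 (.leaf 175 1407 (.cons 201 (.leaf 177 1413 (.leaf 225 1605 .nil)) .nil)) .nil)) (.cons 199 (.leaf 223 1599 (.cons 321 (.leaf 297 1796 (.cons 320 (.leaf 345 1988 (.cons 343 (.leaf 319 1982 (.cons 344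 (.leaf 367 2174 (.cons 201 (.leaf 225 1605 (.cons 323 (.leaf 322 2554 (.cons 250 (.leaf 226 1815 (.leaf 347 2007 .nil)) .nil)) .nil)) .nil)) .nil)) .nil)) .nil)) .nil)) .nil))) .nil)) .nil)) .nil)) .nil)) (.cons 248 (.leaf 247 1979 (.cons 296 (.leaf 295 2170 (.cons 251 (.leaf 252 1985 (.cons 299 (.leaf 300 2176 (.cons 320 (.cons 249 (.leaf 225 1797 (.leaf 344 1989 .nil)) (.cons 345 (.leaf 321 1988 (.cons 319 (.leaf 343 1982 (.cons 344 (.leaf 369 2180 (.cons 347 (.leaf 346 2555 (.cons 323 (.leaf 250 2007 (.cons 348 (.leaf 324 2012 (.leaf 372 2204 .nil)) .nil)) .nil)) .nil)) .nil)) .nil)) (.cons 225 (.leaf 249 1797 (.cons 224 (.leaf 201 1605 (.cons 199 (.leaf 223 1599 (.cons 200 (.leaf 175 1407 (.cons 197 (.leaf 198 1576 (.cons 226 (.leaf 227 1595 (.cons 250 (.leaf 202 1620 (.leaf 323 1815 .nil)) .nil)) .nil)) .nil)) .nil)) .nil)) .nil)) .nil))) .nil)) .nil)) .nil)) .nil)) (.cons 248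 (.leaf 247 1979 (.cons 296 (.leaf 295 2170 (.cons 251 (.leaf 252 1985 (.cons 299 (.leaf 300 2176 (.cons 224 (.cons 297 (.leaf 200 1604 (.leaf 321 1796 .nil)) (.cons 199 (.leaf 223 1599 (.cons 200 (.leaf 175 1407 (.cons 201 (.leaf 177 1413 (.leaf 225 1605 .nil)) .nil)) .nil)) (.cons 297 (.leaf 321 1796 (.cons 201 (.leaf 225 1605 (.cons 223 (.leaf 199 1599 (.cons 250 (.leaf 249 1787 (.cons 226 (.leaf 202 1620 (.leaf 323 1815 .nil)) .nil)) .nil)) .nil)) .nil)) .nil))) .nil)) .nil)) .nil)) .nil)) .nil)))))))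
noncomputable def t8 : T := .cons 296 (.leaf 295 2170 (.cons 248 (.leaf 247 1979 (.cons 251 (.leaf 252 1985 (.cons 224 (.cons 297 (.leaf 200 1604 (.leaf 321 1796 .nil)) (.cons 225 (.leaf 201 1605 (.cons 199 (.leaf 223 1599 (.cons 200 (.leaf 175 1407 (.cons 249 (.leaf 320 1797 (.leaf 176 1412 .nil)) .nil)) .nil)) .nil)) (.cons 199 (.leaf 223 1599 (.cons 225 (.leaf 201 1605 (.cons 320 (.leaf 249 1797 (.cons 343 (.leaf 319 1982 (.cons 344 (.leaf 367 2174 (.cons 368 (.leaf 297 2181 (.cons 369 (.leaf 345 2180 (.leaf 393 2372 .nil)) .nil)) .nil)) .nil)) .nil)) .nil)) .nil)) .nil))) .nil)) .nil)) .nil)) (.cons 248 (.leaf 247 1979 (.cons 299 (.leaf 300 2176 (.cons 251 (.leaf 252 1985 (.cons 227 (.cons 298 (.leaf 203 1622 (.leaf 322 1814 .nil)) (.cons 202 (.leaf 226 1623 (.cons 203 (.leaf 178 1431 (.cons 204 (.leaf 180 1437 (.leaf 228 1629 .nil)) .nil)) .nil)) (.cons 322 (.leaf 298 1814 (.cons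 202 (.leaf 226 1623 (.cons 204 (.leaf 228 1629 (.cons 323 (.leaf 346 2006 (.cons 348 (.leaf 324 2012 (.cons 347 (.leaf 372 2204 (.cons 321 (.leaf 320 2560 (.cons 297 (.leaf 345 1991 (.cons 224 (.leaf 200 1604 (.leaf 249 1799 .nil)) .nil)) .nil)) .nil)) .nil)) .nil)) .nil)) .nil)) .nil)) .nil))) .nil)) .nil)) .nil)) (.cons 296 (.leaf 295 2170 (.cons 299 (.leaf 300 2176 (.cons 251 (.leaf 252 1985 (.cons 227 (.cons 202 (.leaf 226 1623 (.cons 203 (.leaf 178 1431 (.leaf 298 1622 .nil)) .nil)) (.cons 202 (.leaf 226 1623 (.cons 203 (.leaf 178 1431 (.cons 204 (.leaf 180 1437 (.leaf 228 1629 .nil)) .nil)) .nil)) (.cons 202 (.leaf 226 1623 (.cons 204 (.leaf 228 1629 (.cons 322 (.leaf 298 1814 (.cons 323 (.leaf 346 2006 (.cons 324 (.leaf 348 2012 (.cons 321 (.leaf 297 2371 (.cons 344 (.leaf 345 2562 (.cons 320 (.leaf 249 1989 (.leaf 343 2554 .nil)) .nil)) .nil)) .nil)) .nil)) .nil)) .nil)) .nil))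 (.cons 298 (.leaf 203 1622 (.leaf 322 1814 .nil)) .nil)))) .nil)) .nil)) .nil)) (.cons 296 (.leaf 295 2170 (.cons 248 (.leaf 247 1979 (.cons 299 (.leaf 300 2176 (.cons 224 (.cons 201 (.leaf 225 1605 (.cons 200 (.leaf 177 1413 (.leaf 297 1604 .nil)) .nil)) (.cons 201 (.leaf 225 1605 (.cons 199 (.leaf 223 1599 (.cons 200 (.leaf 175 1407 (.leaf 177 1413 .nil)) .nil)) .nil)) (.cons 199 (.leaf 223 1599 (.cons 225 (.leaf 201 1605 (.cons 297 (.leaf 321 1796 (.cons 320 (.leaf 249 1797 (.cons 343 (.leaf 319 1982 (.cons 344 (.leaf 367 2174 (.leaf 368 2181 .nil)) .nil)) .nil)) .nil)) .nil)) .nil)) (.cons 297 (.leaf 200 1604 (.leaf 321 1796 .nil)) .nil)))) .nil)) .nil)) .nil)) (.cons 251 (.leaf 252 1985 (.cons 299 (.leaf 300 2176 (.cons 296 (.leaf 295 2170 (.cons 248 (.leaf 247 1979 (.cons 227 (.cons 226 (.leaf 202 1623 (.cons 228 (.leaf 204 1629 (.cons 225 (.leaf 249 1794 (.cons 201 (.leaf 224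 1605 (.leaf 200 1603 .nil)) .nil)) .nil)) .nil)) (.cons 298 (.leaf 203 1622 (.leaf 322 1814 .nil)) .nil)) .nil)) .nil)) .nil)) .nil)) (.cons 296 (.leaf 295 2170 (.cons 248 (.leaf 247 1979 (.cons 299 (.leaf 300 2176 (.cons 251 (.leaf 252 1985 (.cons 224 (.cons 199 (.leaf 223 1599 (.cons 201 (.leaf 225 1605 (.cons 321 (.leaf 297 1796 (.cons 320 (.leaf 345 1988 (.cons 319 (.leaf 343 1982 (.cons 200 (.leaf 175 1407 (.leaf 177 1413 .nil)) .nil)) .nil)) .nil)) .nil)) .nil)) (.cons 199 (.leaf 223 1599 (.cons 200 (.leaf 175 1407 (.cons 201 (.leaf 177 1413 (.leaf 225 1605 .nil)) .nil)) .nil)) (.cons 199 (.leaf 223 1599 (.cons 201 (.leaf 225 1605 (.cons 321 (.leaf 297 1796 (.cons 320 (.leaf 345 1988 (.cons 319 (.leaf 343 1982 (.cons 322 (.leaf 298 2361 (.cons 346 (.leaf 323 2006 (.leaf 347 2552 .nil)) .nil)) .nil)) .nil)) .nil)) .nil)) .nil)) (.cons 297 (.leaf 200 1604 (.leaf 321 1796 .nil))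 .nil)))) .nil)) .nil)) .nil)) .nil)) .nil)))))
noncomputable def t9 : T := .cons 251 (.leaf 252 1985 (.cons 299 (.leaf 300 2176 (.cons 296 (.leaf 295 2170 (.cons 227 (.cons 202 (.leaf 226 1623 (.cons 203 (.leaf 178 1431 (.leaf 298 1622 .nil)) .nil)) (.cons 202 (.leaf 226 1623 (.cons 203 (.leaf 178 1431 (.cons 204 (.leaf 180 1437 (.leaf 228 1629 .nil)) .nil)) .nil)) (.cons 298 (.leaf 203 1622 (.leaf 322 1814 .nil)) (.cons 202 (.leaf 226 1623 (.cons 204 (.leaf 228 1629 (.cons 322 (.leaf 298 1814 (.cons 323 (.leaf 346 2006 (.cons 347 (.leaf 250 2007 (.cons 348 (.leaf 324 2012 (.leaf 372 2204 .nil)) .nil)) .nil)) .nil)) .nil)) .nil)) .nil)))) .nil)) .nil)) .nil)) (.cons 248 (.leaf 247 1979 (.cons 296 (.leaf 295 2170 (.cons 299 (.leaf 300 2176 (.cons 224 (.cons 201 (.leaf 225 1605 (.cons 200 (.leaf 177 1413 (.leaf 297 1604 .nil)) .nil)) (.cons 201 (.leaf 225 1605 (.cons 199 (.leaf 223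 1599 (.cons 200 (.leaf 175 1407 (.leaf 177 1413 .nil)) .nil)) .nil)) (.cons 297 (.leaf 321 1796 (.cons 225 (.leaf 201 1605 (.cons 223 (.leaf 199 1599 (.cons 222 (.cons 249 (.leaf 221 1768 (.leaf 250 1776 .nil)) (.cons 197 (.leaf 198 1579 (.cons 221 (.leaf 196 1571 (.cons 245 (.leaf 244 1762 (.leaf 246 1770 .nil)) .nil)) .nil)) (.cons 197 (.leaf 198 1579 (.cons 250 (.leaf 249 1776 (.cons 226 (.leaf 202 1620 (.cons 323 (.leaf 347 2007 (.leaf 298 1812 .nil)) .nil)) .nil)) .nil)) .nil))) .nil)) .nil)) .nil)) (.cons 297 (.leaf 200 1604 (.leaf 321 1796 .nil)) .nil)))) .nil)) .nil)) .nil)) (.cons 248 (.leaf 247 1979 (.cons 296 (.leaf 295 2170 (.cons 251 (.leaf 252 1985 (.cons 224 (.cons 297 (.leaf 200 1604 (.leaf 321 1796 .nil)) (.cons 199 (.leaf 223 1599 (.cons 200 (.leaf 175 1407 (.cons 201 (.leaf 177 1413 (.leaf 225 1605 .nil)) .nil)) .nil)) (.cons 223 (.leaf 199 1599 (.cons 225 (.leaf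 201 1605 (.cons 250 (.leaf 249 1787 (.leaf 226 1784 .nil)) .nil)) .nil)) .nil))) .nil)) .nil)) .nil)) (.cons 251 (.leaf 252 1985 (.cons 299 (.leaf 300 2176 (.cons 248 (.leaf 247 1979 (.cons 227 (.cons 298 (.leaf 203 1622 (.leaf 322 1814 .nil)) (.cons 204 (.leaf 228 1629 (.cons 203 (.leaf 180 1437 (.cons 202 (.leaf 178 1431 (.leaf 226 1623 .nil)) .nil)) .nil)) (.cons 322 (.leaf 298 1814 (.cons 204 (.leaf 228 1629 (.cons 323 (.leaf 346 2006 (.cons 347 (.leaf 250 2007 (.cons 348 (.leaf 324 2012 (.leaf 372 2204 .nil)) .nil)) .nil)) .nil)) .nil)) .nil))) .nil)) .nil)) .nil)) (.cons 248 (.leaf 247 1979 (.cons 296 (.leaf 295 2170 (.cons 299 (.leaf 300 2176 (.cons 251 (.leaf 252 1985 (.cons 227 (.cons 226 (.leaf 202 1623 (.cons 228 (.leaf 204 1629 (.cons 225 (.leaf 249 1794 (.cons 201 (.leaf 224 1605 (.leaf 200 1603 .nil)) .nil)) .nil)) .nil)) (.cons 298 (.leaf 203 1622 (.leaf 322 1814 .nil))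 .nil)) .nil)) .nil)) .nil)) .nil)) (.cons 251 (.leaf 252 1985 (.cons 299 (.leaf 300 2176 (.cons 248 (.leaf 247 1979 (.cons 227 (.cons 298 (.leaf 203 1622 (.leaf 322 1814 .nil)) (.cons 204 (.leaf 228 1629 (.cons 203 (.leaf 180 1437 (.cons 178 (.leaf 202 1431 (.cons 179 (.leaf 250 1430 (.leaf 154 1239 .nil)) .nil)) .nil)) .nil)) (.cons 322 (.leaf 298 1814 (.cons 204 (.leaf 228 1629 (.cons 323 (.leaf 346 2006 (.cons 347 (.leaf 250 2007 (.cons 348 (.leaf 324 2012 (.leaf 372 2204 .nil)) .nil)) .nil)) .nil)) .nil)) .nil))) .nil)) .nil)) .nil)) .nil)))))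
noncomputable def t10 : T := .cons 299 (.leaf 300 2176 (.cons 248 (.leaf 247 1979 (.cons 296 (.leaf 295 2170 (.cons 251 (.leaf 252 1985 (.cons 320 (.cons 249 (.leaf 225 1797 (.leaf 344 1989 .nil)) (.cons 345 (.leaf 321 1988 (.cons 319 (.leaf 343 1982 (.cons 344 (.leaf 369 2180 (.cons 347 (.leaf 346 2555 (.cons 323 (.leaf 250 2007 (.cons 348 (.leaf 324 2012 (.leaf 372 2204 .nil)) .nil)) .nil)) .nil)) .nil)) .nil)) (.cons 225 (.leaf 249 1797 (.cons 319 (.leaf 343 1982 (.cons 298 (.leaf 297 2362 (.cons 227 (.leaf 203 1622 (.leaf 322 1814 .nil)) .nil)) .nil)) .nil)) .nil))) .nil)) .nil)) .nil)) .nil)) (.cons 296 (.leaf 295 2170 (.cons 248 (.leaf 247 1979 (.cons 251 (.leaf 252 1985 (.cons 320 (.cons 249 (.leaf 225 1797 (.leaf 344 1989 .nil)) (.cons 345 (.leaf 321 1988 (.cons 343 (.leaf 319 1982 (.cons 344 (.leaf 367 2174 (.leaf 369 2180 .nil)) .nil)) .nil)) (.cons 249 (.leaf 225 1797 (.cons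 321 (.leaf 345 1988 (.cons 319 (.leaf 343 1982 (.cons 298 (.cons 322 (.leaf 346 2005 (.cons 227 (.leaf 203 1622 (.leaf 250 1813 .nil)) .nil)) (.cons 203 (.leaf 227 1622 (.cons 318 (.leaf 297 2353 (.cons 293 (.leaf 294 2347 (.cons 317 (.leaf 292 2339 (.cons 341 (.leaf 340 2530 (.leaf 342 2538 .nil)) .nil)) .nil)) .nil)) .nil)) (.cons 322 (.leaf 346 2005 (.cons 297 (.leaf 318 2353 (.cons 250 (.leaf 226 1805 (.cons 323 (.leaf 347 2004 (.leaf 324 2371 .nil)) .nil)) .nil)) .nil)) .nil))) .nil)) .nil)) .nil)) .nil))) .nil)) .nil)) .nil)) (.cons 296 (.leaf 295 2170 (.cons 248 (.leaf 247 1979 (.cons 299 (.leaf 300 2176 (.cons 320 (.cons 249 (.leaf 225 1797 (.leaf 344 1989 .nil)) (.cons 319 (.leaf 343 1982 (.cons 321 (.leaf 345 1988 (.cons 322 (.leaf 298 2361 (.cons 347 (.leaf 346 2552 (.cons 323 (.leaf 250 2007 (.leaf 348 2560 .nil)) .nil)) .nil)) .nil)) .nil)) .nil)) .nil)) .nil)) .nil))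 (.cons 251 (.leaf 252 1985 (.cons 299 (.leaf 300 2176 (.cons 248 (.leaf 247 1979 (.cons 227 (.cons 298 (.leaf 203 1622 (.leaf 322 1814 .nil)) (.cons 204 (.leaf 228 1629 (.cons 203 (.leaf 180 1437 (.cons 202 (.leaf 178 1431 (.leaf 226 1623 .nil)) .nil)) .nil)) (.cons 322 (.leaf 298 1814 (.cons 204 (.leaf 228 1629 (.cons 323 (.leaf 346 2006 (.cons 347 (.leaf 250 2007 (.cons 348 (.leaf 324 2012 (.leaf 372 2204 .nil)) .nil)) .nil)) .nil)) .nil)) .nil))) .nil)) .nil)) .nil)) (.cons 251 (.leaf 252 1985 (.cons 299 (.leaf 300 2176 (.cons 296 (.leaf 295 2170 (.cons 227 (.cons 202 (.leaf 226 1623 (.cons 203 (.leaf 178 1431 (.leaf 298 1622 .nil)) .nil)) (.cons 202 (.leaf 226 1623 (.cons 203 (.leaf 178 1431 (.cons 204 (.leaf 180 1437 (.leaf 228 1629 .nil)) .nil)) .nil)) (.cons 202 (.leaf 226 1623 (.cons 204 (.leaf 228 1629 (.cons 322 (.leaf 298 1814 (.cons 323 (.leaf 346 2006 (.cons 324 (.leaf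 348 2012 (.cons 321 (.leaf 297 2371 (.cons 344 (.leaf 345 2562 (.cons 320 (.leaf 249 1989 (.leaf 343 2554 .nil)) .nil)) .nil)) .nil)) .nil)) .nil)) .nil)) .nil)) (.cons 298 (.leaf 203 1622 (.leaf 322 1814 .nil)) .nil)))) .nil)) .nil)) .nil)) (.cons 296 (.leaf 295 2170 (.cons 248 (.leaf 247 1979 (.cons 251 (.leaf 252 1985 (.cons 299 (.leaf 300 2176 (.cons 323 (.cons 250 (.leaf 226 1815 (.leaf 347 2007 .nil)) (.cons 322 (.leaf 346 2006 (.cons 324 (.leaf 348 2012 (.cons 321 (.leaf 297 2371 (.cons 345 (.leaf 320 1988 (.leaf 344 2562 .nil)) .nil)) .nil)) .nil)) .nil)) .nil)) .nil)) .nil)) .nil)) (.cons 299 (.leaf 300 2176 (.cons 251 (.leaf 252 1985 (.cons 296 (.leaf 295 2170 (.cons 248 (.leaf 247 1979 (.cons 320 (.cons 249 (.leaf 225 1797 (.leaf 344 1989 .nil)) (.cons 345 (.leaf 321 1988 (.cons 319 (.leaf 343 1982 (.cons 344 (.leaf 369 2180 (.cons 347 (.leaf 346 2555 (.cons 323 (.leaf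 250 2007 (.cons 348 (.leaf 324 2012 (.leaf 372 2204 .nil)) .nil)) .nil)) .nil)) .nil)) .nil)) (.cons 225 (.leaf 249 1797 (.cons 319 (.leaf 343 1982 (.cons 298 (.leaf 297 2362 (.cons 227 (.leaf 203 1622 (.cons 204 (.leaf 228 1629 (.cons 226 (.leaf 202 1623 (.cons 250 (.leaf 323 1812 (.leaf 201 1615 .nil)) .nil)) .nil)) .nil)) .nil)) .nil)) .nil)) .nil))) .nil)) .nil)) .nil)) .nil)) (.cons 299 (.leaf 300 2176 (.cons 251 (.leaf 252 1985 (.cons 296 (.leaf 295 2170 (.cons 248 (.leaf 247 1979 (.cons 227 (.cons 202 (.leaf 226 1623 (.cons 228 (.leaf 204 1629 (.cons 249 (.leaf 250 1793 (.cons 225 (.leaf 201 1606 (.leaf 320 1797 .nil)) .nil)) .nil)) .nil)) (.cons 298 (.leaf 203 1622 (.leaf 322 1814 .nil)) .nil)) .nil)) .nil)) .nil)) .nil)) .nil)))))))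
noncomputable def t11 : T := .cons 296 (.leaf 295 2170 (.cons 248 (.leaf 247 1979 (.cons 299 (.leaf 300 2176 (.cons 224 (.cons 200 (.leaf 297 1604 (.cons 199 (.leaf 175 1407 (.leaf 223 1599 .nil)) .nil)) (.cons 199 (.leaf 223 1599 (.cons 225 (.leaf 201 1605 (.cons 320 (.leaf 249 1797 (.cons 343 (.leaf 319 1982 (.cons 344 (.leaf 367 2174 (.cons 368 (.leaf 297 2181 (.cons 369 (.leaf 345 2180 (.leaf 393 2372 .nil)) .nil)) .nil)) .nil)) .nil)) .nil)) .nil)) (.cons 200 (.leaf 297 1604 (.cons 201 (.leaf 177 1413 (.leaf 225 1605 .nil)) .nil)) (.cons 225 (.leaf 201 1605 (.cons 199 (.leaf 223 1599 (.cons 200 (.leaf 175 1407 (.cons 249 (.leaf 320 1797 (.leaf 176 1412 .nil)) .nil)) .nil)) .nil)) .nil)))) .nil)) .nil)) .nil)) (.cons 296 (.leaf 295 2170 (.cons 248 (.leaf 247 1979 (.cons 251 (.leaf 252 1985 (.cons 224 (.cons 199 (.leaf 223 1599 (.cons 225 (.leaf 201 1605 (.cons 320 (.leaf 249 1797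 (.cons 200 (.leaf 175 1407 (.leaf 297 1604 .nil)) .nil)) .nil)) .nil)) (.cons 199 (.leaf 223 1599 (.cons 200 (.leaf 175 1407 (.leaf 297 1604 .nil)) .nil)) (.cons 199 (.leaf 223 1599 (.cons 225 (.leaf 201 1605 (.cons 320 (.leaf 249 1797 (.cons 343 (.leaf 319 1982 (.cons 344 (.leaf 367 2174 (.cons 368 (.leaf 297 2181 (.cons 369 (.leaf 345 2180 (.leaf 393 2372 .nil)) .nil)) .nil)) .nil)) .nil)) .nil)) .nil)) (.cons 200 (.leaf 297 1604 (.cons 201 (.leaf 177 1413 (.leaf 225 1605 .nil)) .nil)) (.cons 225 (.leaf 201 1605 (.cons 199 (.leaf 223 1599 (.cons 200 (.leaf 175 1407 (.cons 249 (.leaf 320 1797 (.leaf 176 1412 .nil)) .nil)) .nil)) .nil)) .nil))))) .nil)) .nil)) .nil)) (.cons 251 (.leaf 252 1985 (.cons 299 (.leaf 300 2176 (.cons 248 (.leaf 247 1979 (.cons 227 (.cons 298 (.leaf 203 1622 (.leaf 322 1814 .nil)) (.cons 204 (.leaf 228 1629 (.cons 203 (.leaf 180 1437 (.cons 202 (.leaf 178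 1431 (.leaf 226 1623 .nil)) .nil)) .nil)) (.cons 322 (.leaf 298 1814 (.cons 204 (.leaf 228 1629 (.cons 323 (.leaf 346 2006 (.cons 347 (.leaf 250 2007 (.cons 348 (.leaf 324 2012 (.leaf 372 2204 .nil)) .nil)) .nil)) .nil)) .nil)) .nil))) .nil)) .nil)) .nil)) (.cons 251 (.leaf 252 1985 (.cons 299 (.leaf 300 2176 (.cons 296 (.leaf 295 2170 (.cons 227 (.cons 202 (.leaf 226 1623 (.cons 203 (.leaf 178 1431 (.leaf 298 1622 .nil)) .nil)) (.cons 202 (.leaf 226 1623 (.cons 203 (.leaf 178 1431 (.cons 204 (.leaf 180 1437 (.leaf 228 1629 .nil)) .nil)) .nil)) (.cons 202 (.leaf 226 1623 (.cons 204 (.leaf 228 1629 (.cons 322 (.leaf 298 1814 (.cons 323 (.leaf 346 2006 (.cons 347 (.leaf 250 2007 (.cons 348 (.leaf 324 2012 (.leaf 372 2204 .nil)) .nil)) .nil)) .nil)) .nil)) .nil)) (.cons 298 (.leaf 203 1622 (.leaf 322 1814 .nil)) .nil)))) .nil)) .nil)) .nil)) .nil)))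
noncomputable def t12 : T := .cons 248 (.leaf 247 1979 (.cons 296 (.leaf 295 2170 (.cons 299 (.leaf 300 2176 (.cons 224 (.cons 199 (.leaf 223 1599 (.cons 200 (.leaf 175 1407 (.leaf 297 1604 .nil)) .nil)) (.cons 199 (.leaf 223 1599 (.cons 200 (.leaf 175 1407 (.cons 176 (.leaf 249 1412 (.cons 177 (.leaf 201 1413 (.leaf 153 1221 .nil)) .nil)) .nil)) .nil)) (.cons 199 (.leaf 223 1599 (.cons 321 (.leaf 297 1796 (.cons 320 (.leaf 345 1988 (.cons 319 (.leaf 343 1982 (.cons 322 (.leaf 298 2361 (.cons 347 (.leaf 346 2552 (.cons 323 (.leaf 250 2007 (.leaf 348 2560 .nil)) .nil)) .nil)) .nil)) .nil)) .nil)) .nil)) (.cons 297 (.leaf 200 1604 (.leaf 321 1796 .nil)) .nil)))) .nil)) .nil)) .nil)) (.cons 248 (.leaf 247 1979 (.cons 296 (.leaf 295 2170 (.cons 251 (.leaf 252 1985 (.cons 224 (.cons 297 (.leaf 200 1604 (.leaf 321 1796 .nil)) (.cons 199 (.leaf 223 1599 (.cons 200 (.leaf 175 1407 (.cons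 176 (.leaf 249 1412 (.cons 177 (.leaf 201 1413 (.leaf 153 1221 .nil)) .nil)) .nil)) .nil)) (.cons 199 (.leaf 223 1599 (.cons 321 (.leaf 297 1796 (.cons 320 (.leaf 345 1988 (.cons 344 (.leaf 249 1989 (.cons 343 (.leaf 319 1982 (.leaf 367 2174 .nil)) .nil)) .nil)) .nil)) .nil)) .nil))) .nil)) .nil)) .nil)) (.cons 251 (.leaf 252 1985 (.cons 299 (.leaf 300 2176 (.cons 296 (.leaf 295 2170 (.cons 227 (.cons 202 (.leaf 226 1623 (.cons 203 (.leaf 178 1431 (.leaf 298 1622 .nil)) .nil)) (.cons 202 (.leaf 226 1623 (.cons 203 (.leaf 178 1431 (.cons 204 (.leaf 180 1437 (.leaf 228 1629 .nil)) .nil)) .nil)) (.cons 202 (.leaf 226 1623 (.cons 204 (.leaf 228 1629 (.cons 322 (.leaf 298 1814 (.cons 323 (.leaf 346 2006 (.cons 324 (.leaf 348 2012 (.cons 321 (.leaf 297 2371 (.cons 344 (.leaf 345 2562 (.cons 320 (.leaf 249 1989 (.leaf 343 2554 .nil)) .nil)) .nil)) .nil)) .nil)) .nil)) .nil)) .nil)) (.cons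 298 (.leaf 203 1622 (.leaf 322 1814 .nil)) .nil)))) .nil)) .nil)) .nil)) (.cons 251 (.leaf 252 1985 (.cons 299 (.leaf 300 2176 (.cons 248 (.leaf 247 1979 (.cons 227 (.cons 298 (.leaf 203 1622 (.leaf 322 1814 .nil)) (.cons 204 (.leaf 228 1629 (.cons 203 (.leaf 180 1437 (.cons 202 (.leaf 178 1431 (.leaf 226 1623 .nil)) .nil)) .nil)) (.cons 322 (.leaf 298 1814 (.cons 204 (.leaf 228 1629 (.cons 323 (.leaf 346 2006 (.cons 347 (.leaf 250 2007 (.cons 348 (.leaf 324 2012 (.leaf 372 2204 .nil)) .nil)) .nil)) .nil)) .nil)) .nil))) .nil)) .nil)) .nil)) .nil)))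
noncomputable def t13 : T := .cons 251 (.leaf 252 1985 (.cons 299 (.leaf 300 2176 (.cons 296 (.leaf 295 2170 (.cons 227 (.cons 202 (.leaf 226 1623 (.cons 203 (.leaf 178 1431 (.leaf 298 1622 .nil)) .nil)) (.cons 202 (.leaf 226 1623 (.cons 203 (.leaf 178 1431 (.cons 204 (.leaf 180 1437 (.leaf 228 1629 .nil)) .nil)) .nil)) (.cons 202 (.leaf 226 1623 (.cons 204 (.leaf 228 1629 (.cons 322 (.leaf 298 1814 (.cons 323 (.leaf 346 2006 (.cons 347 (.leaf 250 2007 (.cons 348 (.leaf 324 2012 (.leaf 372 2204 .nil)) .nil)) .nil)) .nil)) .nil)) .nil)) (.cons 298 (.leaf 203 1622 (.leaf 322 1814 .nil)) .nil)))) .nil)) .nil)) .nil)) (.cons 299 (.leaf 300 2176 (.cons 248 (.leaf 247 1979 (.cons 296 (.leaf 295 2170 (.cons 320 (.cons 249 (.leaf 225 1797 (.leaf 344 1989 .nil)) (.cons 319 (.leaf 343 1982 (.cons 321 (.leaf 345 1988 (.cons 322 (.leaf 298 2361 (.cons 347 (.leaf 346 2552 (.cons 323 (.leaf 250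 2007 (.leaf 348 2560 .nil)) .nil)) .nil)) .nil)) .nil)) .nil)) .nil)) .nil)) .nil)) (.cons 251 (.leaf 252 1985 (.cons 248 (.leaf 247 1979 (.cons 296 (.leaf 295 2170 (.cons 320 (.cons 321 (.leaf 345 1988 (.cons 343 (.leaf 319 1982 (.cons 344 (.leaf 249 1989 (.leaf 367 2174 .nil)) .nil)) .nil)) (.cons 321 (.leaf 345 1988 (.cons 343 (.leaf 319 1982 (.cons 344 (.leaf 367 2174 (.cons 322 (.leaf 323 2554 (.cons 298 (.leaf 346 2005 (.cons 227 (.leaf 203 1622 (.leaf 250 1813 .nil)) .nil)) .nil)) .nil)) .nil)) .nil)) (.cons 225 (.leaf 249 1797 (.cons 224 (.leaf 201 1605 (.cons 199 (.leaf 223 1599 (.cons 200 (.leaf 175 1407 (.cons 197 (.leaf 198 1576 (.cons 227 (.leaf 226 1595 (.cons 203 (.leaf 298 1622 (.cons 178 (.leaf 202 1431 (.cons 179 (.leaf 250 1430 (.leaf 154 1239 .nil)) .nil)) .nil)) .nil)) .nil)) .nil)) .nil)) .nil)) .nil)) .nil))) .nil)) .nil)) .nil)) (.cons 251 (.leaf 252 1985 (.cons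 299 (.leaf 300 2176 (.cons 248 (.leaf 247 1979 (.cons 227 (.cons 298 (.leaf 203 1622 (.leaf 322 1814 .nil)) (.cons 204 (.leaf 228 1629 (.cons 203 (.leaf 180 1437 (.cons 202 (.leaf 178 1431 (.leaf 226 1623 .nil)) .nil)) .nil)) (.cons 322 (.leaf 298 1814 (.cons 204 (.leaf 228 1629 (.cons 323 (.leaf 346 2006 (.cons 347 (.leaf 250 2007 (.cons 348 (.leaf 324 2012 (.leaf 372 2204 .nil)) .nil)) .nil)) .nil)) .nil)) .nil))) .nil)) .nil)) .nil)) (.cons 251 (.leaf 252 1985 (.cons 299 (.leaf 300 2176 (.cons 296 (.leaf 295 2170 (.cons 248 (.leaf 247 1979 (.cons 227 (.cons 298 (.leaf 203 1622 (.leaf 322 1814 .nil)) (.cons 226 (.leaf 202 1623 (.cons 228 (.leaf 204 1629 (.cons 225 (.leaf 249 1794 (.cons 201 (.leaf 224 1605 (.leaf 200 1603 .nil)) .nil)) .nil)) .nil)) .nil)) .nil)) .nil)) .nil)) .nil)) (.cons 248 (.leaf 247 1979 (.cons 296 (.leaf 295 2170 (.cons 251 (.leaf 252 1985 (.cons 299 (.leaf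 300 2176 (.cons 320 (.cons 319 (.leaf 343 1982 (.cons 345 (.leaf 321 1988 (.cons 344 (.leaf 249 1989 (.leaf 369 2180 .nil)) .nil)) .nil)) (.cons 319 (.leaf 343 1982 (.cons 345 (.leaf 321 1988 (.cons 344 (.leaf 369 2180 (.cons 347 (.leaf 346 2555 (.cons 323 (.leaf 250 2007 (.cons 348 (.leaf 324 2012 (.leaf 372 2204 .nil)) .nil)) .nil)) .nil)) .nil)) .nil)) (.cons 225 (.leaf 249 1797 (.cons 224 (.leaf 201 1605 (.cons 199 (.leaf 223 1599 (.cons 200 (.leaf 175 1407 (.cons 197 (.leaf 198 1576 (.cons 226 (.leaf 227 1595 (.cons 250 (.leaf 202 1620 (.leaf 323 1815 .nil)) .nil)) .nil)) .nil)) .nil)) .nil)) .nil)) .nil))) .nil)) .nil)) .nil)) .nil)) .nil)))))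
noncomputable def t14 : T := .cons 248 (.leaf 247 1979 (.cons 296 (.leaf 295 2170 (.cons 299 (.leaf 300 2176 (.cons 251 (.leaf 252 1985 (.cons 224 (.cons 223 (.leaf 199 1599 (.cons 225 (.leaf 201 1605 (.cons 226 (.leaf 250 1784 (.cons 202 (.leaf 227 1623 (.leaf 203 1593 .nil)) .nil)) .nil)) .nil)) (.cons 297 (.leaf 200 1604 (.leaf 321 1796 .nil)) .nil)) .nil)) .nil)) .nil)) .nil)) (.cons 251 (.leaf 252 1985 (.cons 296 (.leaf 295 2170 (.cons 248 (.leaf 247 1979 (.cons 224 (.cons 321 (.leaf 297 1796 (.cons 199 (.leaf 223 1599 (.cons 201 (.leaf 225 1605 (.cons 320 (.leaf 345 1988 (.cons 343 (.leaf 319 1982 (.cons 344 (.leaf 367 2174 (.cons 322 (.leaf 323 2554 (.cons 298 (.leaf 346 2005 (.cons 227 (.leaf 203 1622 (.leaf 250 1813 .nil)) .nil)) .nil)) .nil)) .nil)) .nil)) .nil)) .nil)) .nil)) (.cons 201 (.leaf 225 1605 (.cons 199 (.leaf 223 1599 (.cons 200 (.leaf 175 1407 (.leaf 177 1413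 .nil)) .nil)) .nil)) (.cons 297 (.leaf 200 1604 (.leaf 321 1796 .nil)) .nil))) .nil)) .nil)) .nil)) (.cons 299 (.leaf 300 2176 (.cons 296 (.leaf 295 2170 (.cons 248 (.leaf 247 1979 (.cons 224 (.cons 199 (.leaf 223 1599 (.cons 200 (.leaf 175 1407 (.leaf 297 1604 .nil)) .nil)) (.cons 199 (.leaf 223 1599 (.cons 200 (.leaf 175 1407 (.cons 201 (.leaf 177 1413 (.leaf 225 1605 .nil)) .nil)) .nil)) (.cons 199 (.leaf 223 1599 (.cons 321 (.leaf 297 1796 (.cons 320 (.leaf 345 1988 (.cons 319 (.leaf 343 1982 (.cons 322 (.leaf 298 2361 (.cons 347 (.leaf 346 2552 (.cons 323 (.leaf 250 2007 (.leaf 348 2560 .nil)) .nil)) .nil)) .nil)) .nil)) .nil)) .nil)) (.cons 297 (.leaf 200 1604 (.leaf 321 1796 .nil)) .nil)))) .nil)) .nil)) .nil)) (.cons 299 (.leaf 300 2176 (.cons 251 (.leaf 252 1985 (.cons 248 (.leaf 247 1979 (.cons 227 (.cons 298 (.leaf 203 1622 (.leaf 322 1814 .nil)) (.cons 204 (.leaf 228 1629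 (.cons 203 (.leaf 180 1437 (.cons 202 (.leaf 178 1431 (.leaf 226 1623 .nil)) .nil)) .nil)) (.cons 322 (.leaf 298 1814 (.cons 204 (.leaf 228 1629 (.cons 323 (.leaf 346 2006 (.cons 347 (.leaf 250 2007 (.cons 348 (.leaf 324 2012 (.leaf 372 2204 .nil)) .nil)) .nil)) .nil)) .nil)) .nil))) .nil)) .nil)) .nil)) (.cons 299 (.leaf 300 2176 (.cons 251 (.leaf 252 1985 (.cons 296 (.leaf 295 2170 (.cons 323 (.cons 250 (.leaf 226 1815 (.leaf 347 2007 .nil)) (.cons 322 (.leaf 346 2006 (.cons 324 (.leaf 348 2012 (.cons 297 (.leaf 298 2368 (.leaf 321 2371 .nil)) .nil)) .nil)) .nil)) .nil)) .nil)) .nil)) (.cons 296 (.leaf 295 2170 (.cons 248 (.leaf 247 1979 (.cons 299 (.leaf 300 2176 (.cons 251 (.leaf 252 1985 (.cons 224 (.cons 199 (.leaf 223 1599 (.cons 201 (.leaf 225 1605 (.cons 321 (.leaf 297 1796 (.cons 320 (.leaf 345 1988 (.cons 319 (.leaf 343 1982 (.cons 200 (.leaf 175 1407 (.leaf 177 1413 .nil))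 .nil)) .nil)) .nil)) .nil)) .nil)) (.cons 199 (.leaf 223 1599 (.cons 200 (.leaf 175 1407 (.cons 201 (.leaf 177 1413 (.leaf 225 1605 .nil)) .nil)) .nil)) (.cons 199 (.leaf 223 1599 (.cons 201 (.leaf 225 1605 (.cons 321 (.leaf 297 1796 (.cons 320 (.leaf 345 1988 (.cons 319 (.leaf 343 1982 (.cons 322 (.leaf 298 2361 (.cons 346 (.leaf 323 2006 (.leaf 347 2552 .nil)) .nil)) .nil)) .nil)) .nil)) .nil)) .nil)) (.cons 297 (.leaf 200 1604 (.leaf 321 1796 .nil)) .nil)))) .nil)) .nil)) .nil)) .nil)) .nil)))))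
noncomputable def t15 : T := .cons 295 (.leaf 274 2170 (.cons 224 (.leaf 319 1790 (.cons 199 (.leaf 223 1599 (.cons 200 (.leaf 175 1407 (.leaf 297 1604 .nil)) .nil)) .nil)) .nil)) (.cons 224 (.cons 199 (.leaf 223 1599 (.cons 201 (.leaf 225 1605 (.cons 321 (.leaf 297 1796 (.cons 320 (.leaf 345 1988 (.cons 343 (.leaf 319 1982 (.cons 200 (.leaf 175 1407 (.leaf 177 1413 .nil)) .nil)) .nil)) .nil)) .nil)) .nil)) (.cons 199 (.leaf 223 1599 (.cons 175 (.leaf 200 1407 (.cons 225 (.leaf 201 1605 (.cons 320 (.leaf 249 1797 (.cons 343 (.leaf 319 1982 (.cons 344 (.leaf 367 2174 (.cons 345 (.leaf 321 1988 (.leaf 369 2180 .nil)) .nil)) .nil)) .nil)) .nil)) .nil)) .nil)) (.cons 199 (.leaf 223 1599 (.cons 201 (.leaf 225 1605 (.cons 321 (.leaf 297 1796 (.cons 320 (.leaf 345 1988 (.cons 343 (.leaf 319 1982 (.cons 344 (.leaf 249 1989 (.leaf 367 2174 .nil)) .nil)) .nil)) .nil)) .nil)) .nil)) (.cons 199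 (.leaf 223 1599 (.cons 200 (.leaf 175 1407 (.leaf 297 1604 .nil)) .nil)) (.cons 297 (.leaf 200 1604 (.leaf 321 1796 .nil)) .nil))))) (.cons 295 (.leaf 274 2170 (.cons 294 (.leaf 293 2153 (.cons 297 (.cons 321 (.leaf 345 1991 (.leaf 322 2352 .nil)) (.cons 269 (.leaf 270 2155 (.cons 318 (.leaf 317 2346 (.cons 319 (.leaf 298 2354 (.cons 343 (.leaf 320 1982 (.leaf 367 2173 .nil)) .nil)) .nil)) .nil)) .nil)) .nil)) .nil)) (.cons 295 (.leaf 274 2170 (.cons 224 (.leaf 319 1790 (.cons 199 (.leaf 223 1599 (.cons 200 (.leaf 175 1407 (.cons 201 (.leaf 177 1413 (.leaf 225 1605 .nil)) .nil)) .nil)) .nil)) .nil)) (.cons 274 (.leaf 295 2170 (.cons 251 (.leaf 252 1985 (.cons 224 (.cons 199 (.leaf 223 1599 (.cons 200 (.leaf 175 1407 (.leaf 297 1604 .nil)) .nil)) (.cons 199 (.leaf 223 1599 (.cons 200 (.leaf 175 1407 (.cons 201 (.leaf 177 1413 (.leaf 225 1605 .nil)) .nil)) .nil)) (.cons 321 (.leaf 297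 1796 (.cons 199 (.leaf 223 1599 (.cons 201 (.leaf 225 1605 (.cons 320 (.leaf 345 1988 (.cons 344 (.leaf 249 1989 (.cons 343 (.leaf 367 2174 (.cons 322 (.leaf 323 2554 (.cons 298 (.leaf 346 2005 (.cons 227 (.leaf 203 1622 (.leaf 250 1813 .nil)) .nil)) .nil)) .nil)) .nil)) .nil)) .nil)) .nil)) .nil)) (.cons 297 (.leaf 200 1604 (.leaf 321 1796 .nil)) .nil)))) .nil)) .nil)) .nil))))
noncomputable def t16 : T := .cons 200 (.leaf 297 1604 (.cons 175 (.leaf 199 1407 (.cons 201 (.leaf 177 1413 (.cons 296 (.leaf 225 1605 (.cons 319 (.leaf 295 1790 (.cons 320 (.leaf 343 1982 (.cons 223 (.leaf 247 1791 (.cons 202 (.leaf 203 1594 (.cons 221 (.leaf 222 1577 (.cons 344 (.leaf 249 1989 (.cons 345 (.leaf 321 1988 (.leaf 369 2180 .nil)) .nil)) .nil)) .nil)) .nil)) .nil)) .nil)) .nil)) .nil)) .nil)) .nil)) (.cons 296 (.cons 199 (.leaf 223 1599 (.cons 201 (.leaf 225 1605 (.cons 319 (.leaf 295 1790 (.cons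 320 (.leaf 343 1982 (.cons 344 (.leaf 249 1989 (.cons 345 (.leaf 321 1988 (.leaf 369 2180 .nil)) .nil)) .nil)) .nil)) .nil)) .nil)) (.cons 321 (.leaf 297 1796 (.cons 223 (.leaf 199 1599 (.cons 320 (.leaf 247 1791 (.leaf 345 1988 .nil)) .nil)) .nil)) (.cons 225 (.leaf 201 1605 (.cons 319 (.leaf 295 1790 (.cons 320 (.leaf 249 1797 (.leaf 343 1982 .nil)) .nil)) .nil)) (.cons 297 (.leaf 321 1796 (.cons 223 (.leaf 199 1599 (.cons 225 (.leaf 201 1605 (.cons 295 (.leaf 319 1790 (.cons 294 (.leaf 293 2153 (.cons 270 (.leaf 269 2155 (.cons 318 (.leaf 317 2346 (.cons 246 (.leaf 247 1781 (.cons 245 (.leaf 222 1770 (.leaf 221 1775 .nil)) .nil)) .nil)) .nil)) .nil)) .nil)) .nil)) .nil)) .nil)) .nil)))) (.cons 200 (.cons 175 (.leaf 199 1407 (.cons 201 (.leaf 177 1413 (.cons 296 (.leaf 225 1605 (.cons 319 (.leaf 295 1790 (.cons 320 (.leaf 343 1982 (.cons 223 (.leaf 247 1791 (.cons 202 (.leaf 203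 1594 (.cons 221 (.leaf 222 1577 (.cons 344 (.leaf 249 1989 (.cons 345 (.leaf 321 1988 (.leaf 369 2180 .nil)) .nil)) .nil)) .nil)) .nil)) .nil)) .nil)) .nil)) .nil)) .nil)) (.cons 175 (.leaf 199 1407 (.cons 176 (.leaf 249 1412 (.leaf 151 1215 .nil)) .nil)) (.cons 176 (.leaf 249 1412 (.cons 177 (.leaf 201 1413 (.leaf 153 1221 .nil)) .nil)) (.cons 199 (.leaf 175 1407 (.cons 201 (.leaf 177 1413 (.cons 223 (.leaf 296 1599 (.cons 202 (.leaf 203 1594 (.leaf 222 1586 .nil)) .nil)) .nil)) .nil)) .nil)))) (.cons 200 (.leaf 297 1604 (.cons 175 (.leaf 199 1407 (.cons 176 (.leaf 249 1412 (.leaf 151 1215 .nil)) .nil)) .nil)) (.cons 200 (.leaf 297 1604 (.cons 199 (.leaf 175 1407 (.cons 201 (.leaf 177 1413 (.cons 223 (.leaf 296 1599 (.cons 202 (.leaf 203 1594 (.leaf 222 1586 .nil)) .nil)) .nil)) .nil)) .nil)) (.cons 297 (.leaf 200 1604 (.cons 321 (.leaf 296 1796 (.leaf 345 1991 .nil)) .nil)) .nil)))))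
noncomputable def t17 : T := .cons 247 (.leaf 274 1979 (.cons 246 (.leaf 245 1960 (.cons 249 (.cons 225 (.leaf 226 1777 (.cons 201 (.leaf 177 1414 (.leaf 296 1606 .nil)) .nil)) (.cons 222 (.leaf 221 1771 (.cons 223 (.leaf 250 1779 (.cons 199 (.leaf 175 1404 (.cons 270 (.leaf 269 1962 (.leaf 294 1589 .nil)) .nil)) .nil)) .nil)) .nil)) .nil)) .nil)) (.cons 224 t16 (.cons 296 t15 (.cons 247 (.leaf 274 1979 (.cons 246 (.leaf 245 1960 (.cons 249 (.cons 225 (.leaf 226 1777 (.cons 201 (.leaf 177 1414 (.cons 200 (.leaf 176 1415 (.cons 224 (.leaf 297 1604 (.cons 175 (.leaf 199 1407 (.cons 202 (.leaf 178 1421 (.cons 203 (.leaf 204 1602 (.leaf 223 1594 .nil)) .nil)) .nil)) .nil)) .nil)) .nil)) .nil)) (.cons 222 (.leaf 221 1771 (.cons 223 (.leaf 250 1779 (.cons 199 (.leaf 175 1404 (.cons 270 (.leaf 269 1962 (.leaf 294 1589 .nil)) .nil)) .nil)) .nil)) (.cons 225 (.leaf 226 1777 (.cons 201 (.leaf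 177 1414 (.cons 200 (.leaf 176 1415 (.cons 297 (.leaf 224 1604 (.cons 178 (.leaf 202 1421 (.cons 221 (.leaf 222 1771 (.cons 269 (.leaf 270 1962 (.cons 321 (.leaf 345 1991 (.cons 322 (.leaf 298 1804 (.leaf 346 1996 .nil)) .nil)) .nil)) .nil)) .nil)) .nil)) .nil)) .nil)) .nil)) .nil))) .nil)) .nil)) (.cons 274 (.leaf 247 1979 (.cons 296 (.leaf 295 2170 (.cons 251 (.leaf 252 1985 (.cons 224 (.cons 297 (.leaf 200 1604 (.leaf 321 1796 .nil)) (.cons 201 (.leaf 225 1605 (.cons 199 (.leaf 223 1599 (.cons 200 (.leaf 175 1407 (.leaf 177 1413 .nil)) .nil)) .nil)) (.cons 321 (.leaf 297 1796 (.cons 199 (.leaf 223 1599 (.cons 201 (.leaf 225 1605 (.cons 320 (.leaf 345 1988 (.cons 343 (.leaf 319 1982 (.cons 344 (.leaf 367 2174 (.cons 322 (.leaf 323 2554 (.cons 298 (.leaf 346 2005 (.cons 227 (.leaf 203 1622 (.leaf 250 1813 .nil)) .nil)) .nil)) .nil)) .nil)) .nil)) .nil)) .nil)) .nil)) .nil))) .nil))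 .nil)) .nil)) (.cons 274 (.leaf 247 1979 (.cons 296 (.leaf 295 2170 (.cons 251 (.leaf 252 1985 (.cons 224 (.cons 297 (.leaf 200 1604 (.leaf 321 1796 .nil)) (.cons 199 (.leaf 223 1599 (.cons 200 (.leaf 175 1407 (.cons 176 (.leaf 249 1412 (.cons 177 (.leaf 201 1413 (.leaf 153 1221 .nil)) .nil)) .nil)) .nil)) (.cons 321 (.leaf 297 1796 (.cons 199 (.leaf 223 1599 (.cons 320 (.leaf 345 1988 (.cons 344 (.leaf 249 1989 (.cons 343 (.leaf 319 1982 (.leaf 367 2174 .nil)) .nil)) .nil)) .nil)) .nil)) .nil))) .nil)) .nil)) .nil)) (.cons 274 (.leaf 247 1979 (.cons 296 (.leaf 295 2170 (.cons 251 (.leaf 252 1985 (.cons 320 (.cons 319 (.leaf 343 1982 (.cons 321 (.leaf 345 1988 (.cons 297 (.leaf 224 1796 (.cons 318 (.leaf 317 2345 (.leaf 298 2353 .nil)) .nil)) .nil)) .nil)) (.cons 249 (.leaf 225 1797 (.leaf 344 1989 .nil)) .nil)) .nil)) .nil)) .nil)) .nil))))))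
noncomputable def t18 : T := .cons 274 (.leaf 295 2170 (.cons 299 (.leaf 300 2176 (.cons 320 (.cons 249 (.leaf 225 1797 (.leaf 344 1989 .nil)) (.cons 319 (.leaf 343 1982 (.cons 321 (.leaf 345 1988 (.cons 297 (.leaf 224 1796 (.leaf 298 2362 .nil)) .nil)) .nil)) .nil)) .nil)) .nil)) (.cons 224 (.cons 199 (.leaf 223 1599 (.cons 175 (.leaf 200 1407 (.cons 225 (.leaf 201 1605 (.cons 320 (.leaf 249 1797 (.cons 321 (.leaf 297 1796 (.leaf 345 1988 .nil)) .nil)) .nil)) .nil)) .nil)) (.cons 199 (.leaf 223 1599 (.cons 175 (.leaf 200 1407 (.cons 225 (.leaf 201 1605 (.cons 320 (.leaf 249 1797 (.cons 343 (.leaf 319 1982 (.cons 344 (.leaf 367 2174 (.cons 345 (.leaf 321 1988 (.leaf 369 2180 .nil)) .nil)) .nil)) .nil)) .nil)) .nil)) .nil)) (.cons 199 (.leaf 223 1599 (.cons 321 (.leaf 297 1796 (.cons 225 (.leaf 201 1605 (.cons 320 (.leaf 249 1797 (.leaf 345 1988 .nil)) .nil)) .nil)) .nil)) (.cons 199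 (.leaf 223 1599 (.cons 200 (.leaf 175 1407 (.leaf 297 1604 .nil)) .nil)) (.cons 297 (.leaf 200 1604 (.leaf 321 1796 .nil)) .nil))))) (.cons 295 (.leaf 274 2170 (.cons 294 (.leaf 293 2153 (.cons 297 (.cons 321 (.leaf 345 1991 (.leaf 322 2352 .nil)) (.cons 269 (.leaf 270 2155 (.cons 318 (.leaf 317 2346 (.cons 319 (.leaf 298 2354 (.cons 343 (.leaf 320 1982 (.leaf 367 2173 .nil)) .nil)) .nil)) .nil)) .nil)) .nil)) .nil)) (.cons 295 (.leaf 274 2170 (.cons 224 (.leaf 319 1790 (.cons 199 (.leaf 223 1599 (.cons 200 (.leaf 175 1407 (.cons 201 (.leaf 177 1413 (.leaf 225 1605 .nil)) .nil)) .nil)) .nil)) .nil)) (.cons 274 (.leaf 295 2170 (.cons 299 (.leaf 300 2176 (.cons 224 (.cons 297 (.leaf 200 1604 (.leaf 321 1796 .nil)) (.cons 199 (.leaf 223 1599 (.cons 200 (.leaf 175 1407 (.cons 201 (.leaf 177 1413 (.leaf 225 1605 .nil)) .nil)) .nil)) (.cons 199 (.leaf 223 1599 (.cons 201 (.leaf 225 1605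 (.cons 321 (.leaf 297 1796 (.cons 320 (.leaf 345 1988 (.cons 344 (.leaf 249 1989 (.cons 343 (.leaf 367 2174 (.cons 323 (.leaf 322 2554 (.cons 250 (.leaf 347 2007 (.cons 226 (.leaf 202 1620 (.leaf 298 1812 .nil)) .nil)) .nil)) .nil)) .nil)) .nil)) .nil)) .nil)) .nil)) .nil))) .nil)) .nil)) .nil))))
noncomputable def t19 : T := .cons 296 (.cons 321 (.leaf 297 1796 (.cons 223 (.leaf 199 1599 (.cons 320 (.leaf 247 1791 (.leaf 345 1988 .nil)) .nil)) .nil)) (.cons 225 (.leaf 201 1605 (.cons 319 (.leaf 295 1790 (.cons 320 (.leaf 249 1797 (.leaf 343 1982 .nil)) .nil)) .nil)) (.cons 297 (.leaf 200 1604 (.leaf 321 1796 .nil)) .nil))) (.cons 296 (.cons 321 (.leaf 297 1796 (.cons 223 (.leaf 199 1599 (.cons 320 (.leaf 247 1791 (.leaf 345 1988 .nil)) .nil)) .nil)) (.cons 225 (.leaf 201 1605 (.cons 319 (.leaf 295 1790 (.cons 320 (.leaf 249 1797 (.leaf 343 1982 .nil)) .nil)) .nil)) (.cons 297 (.leaf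 321 1796 (.cons 223 (.leaf 199 1599 (.cons 225 (.leaf 201 1605 (.cons 295 (.leaf 319 1790 (.cons 294 (.leaf 293 2153 (.cons 270 (.leaf 269 2155 (.cons 318 (.leaf 317 2346 (.cons 246 (.leaf 247 1781 (.cons 245 (.leaf 222 1770 (.leaf 221 1775 .nil)) .nil)) .nil)) .nil)) .nil)) .nil)) .nil)) .nil)) .nil)) .nil))) (.cons 200 (.cons 175 (.leaf 199 1407 (.cons 201 (.leaf 177 1413 (.cons 296 (.leaf 225 1605 (.cons 319 (.leaf 295 1790 (.cons 320 (.leaf 343 1982 (.cons 223 (.leaf 247 1791 (.cons 202 (.leaf 203 1594 (.cons 221 (.leaf 222 1577 (.cons 344 (.leaf 249 1989 (.cons 345 (.leaf 321 1988 (.leaf 369 2180 .nil)) .nil)) .nil)) .nil)) .nil)) .nil)) .nil)) .nil)) .nil)) .nil)) (.cons 175 (.leaf 199 1407 (.cons 176 (.leaf 249 1412 (.leaf 151 1215 .nil)) .nil)) (.cons 176 (.leaf 249 1412 (.cons 177 (.leaf 201 1413 (.leaf 153 1221 .nil)) .nil)) (.cons 199 (.leaf 175 1407 (.cons 201 (.leaf 177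 1413 (.cons 223 (.leaf 296 1599 (.cons 202 (.leaf 203 1594 (.leaf 222 1586 .nil)) .nil)) .nil)) .nil)) .nil)))) (.cons 200 (.leaf 297 1604 (.cons 175 (.leaf 199 1407 (.cons 176 (.leaf 249 1412 (.leaf 151 1215 .nil)) .nil)) .nil)) (.cons 200 (.leaf 297 1604 (.cons 199 (.leaf 175 1407 (.cons 201 (.leaf 177 1413 (.cons 223 (.leaf 296 1599 (.cons 202 (.leaf 203 1594 (.leaf 222 1586 .nil)) .nil)) .nil)) .nil)) .nil)) (.cons 297 (.leaf 200 1604 (.cons 321 (.leaf 296 1796 (.leaf 345 1991 .nil)) .nil)) .nil)))))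
noncomputable def t20 : T := .cons 274 (.leaf 247 1979 (.cons 296 (.leaf 295 2170 (.cons 299 (.leaf 300 2176 (.cons 320 (.cons 249 (.leaf 225 1797 (.leaf 344 1989 .nil)) (.cons 319 (.leaf 343 1982 (.cons 321 (.leaf 345 1988 (.cons 297 (.leaf 224 1796 (.leaf 298 2362 .nil)) .nil)) .nil)) .nil)) .nil)) .nil)) .nil)) (.cons 224 t19 (.cons 296 t18 (.cons 247 (.leaf 274 1979 (.cons 246 (.leaf 245 1960 (.cons 249 (.cons 221 (.leaf 222 1771 (.cons 225 (.leaf 226 1777 (.cons 201 (.leaf 177 1414 (.cons 200 (.leaf 176 1415 (.cons 297 (.leaf 224 1604 (.cons 269 (.leaf 270 1962 (.cons 321 (.leaf 345 1991 (.cons 322 (.leaf 298 1804 (.leaf 346 1996 .nil)) .nil)) .nil)) .nil)) .nil)) .nil)) .nil)) .nil)) (.cons 222 (.leaf 221 1771 (.cons 223 (.leaf 250 1779 (.cons 199 (.leaf 175 1404 (.cons 270 (.leaf 269 1962 (.leaf 294 1589 .nil)) .nil)) .nil)) .nil)) (.cons 225 (.leaf 226 1777 (.cons 201 (.leaf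 177 1414 (.cons 200 (.leaf 176 1415 (.cons 224 (.leaf 297 1604 (.cons 175 (.leaf 199 1407 (.cons 202 (.leaf 178 1421 (.cons 203 (.leaf 204 1602 (.leaf 223 1594 .nil)) .nil)) .nil)) .nil)) .nil)) .nil)) .nil)) .nil))) .nil)) .nil)) (.cons 274 (.leaf 247 1979 (.cons 296 (.leaf 295 2170 (.cons 299 (.leaf 300 2176 (.cons 320 (.cons 249 (.leaf 225 1797 (.leaf 344 1989 .nil)) (.cons 319 (.leaf 343 1982 (.cons 321 (.leaf 345 1988 (.cons 322 (.leaf 298 2361 (.cons 347 (.leaf 346 2552 (.cons 323 (.leaf 250 2007 (.leaf 348 2560 .nil)) .nil)) .nil)) .nil)) .nil)) .nil)) .nil)) .nil)) .nil)) (.cons 274 (.leaf 247 1979 (.cons 296 (.leaf 295 2170 (.cons 299 (.leaf 300 2176 (.cons 224 (.cons 199 (.leaf 223 1599 (.cons 201 (.leaf 225 1605 (.cons 321 (.leaf 297 1796 (.cons 320 (.leaf 345 1988 (.cons 319 (.leaf 343 1982 (.cons 322 (.leaf 298 2361 (.cons 347 (.leaf 346 2552 (.cons 323 (.leaf 250 2007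 (.leaf 348 2560 .nil)) .nil)) .nil)) .nil)) .nil)) .nil)) .nil)) .nil)) (.cons 199 (.leaf 223 1599 (.cons 200 (.leaf 175 1407 (.cons 201 (.leaf 177 1413 (.leaf 225 1605 .nil)) .nil)) .nil)) (.cons 297 (.leaf 200 1604 (.leaf 321 1796 .nil)) .nil))) .nil)) .nil)) .nil)) (.cons 274 (.leaf 247 1979 (.cons 296 (.leaf 295 2170 (.cons 299 (.leaf 300 2176 (.cons 224 (.cons 199 (.leaf 223 1599 (.cons 225 (.leaf 201 1605 (.cons 320 (.leaf 249 1797 (.cons 343 (.leaf 319 1982 (.cons 200 (.leaf 175 1407 (.leaf 297 1604 .nil)) .nil)) .nil)) .nil)) .nil)) (.cons 225 (.leaf 201 1605 (.cons 199 (.leaf 223 1599 (.cons 320 (.leaf 249 1797 (.cons 343 (.leaf 319 1982 (.cons 344 (.leaf 367 2174 (.cons 368 (.leaf 297 2181 (.cons 369 (.leaf 345 2180 (.leaf 393 2372 .nil)) .nil)) .nil)) .nil)) .nil)) .nil)) .nil)) (.cons 199 (.leaf 223 1599 (.cons 200 (.leaf 175 1407 (.leaf 297 1604 .nil)) .nil)) (.cons 200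 (.leaf 297 1604 (.cons 201 (.leaf 177 1413 (.leaf 225 1605 .nil)) .nil)) (.cons 225 (.leaf 201 1605 (.cons 199 (.leaf 223 1599 (.cons 200 (.leaf 175 1407 (.cons 249 (.leaf 320 1797 (.leaf 176 1412 .nil)) .nil)) .nil)) .nil)) .nil))))) .nil)) .nil)) .nil)) (.cons 274 (.leaf 247 1979 (.cons 296 (.leaf 295 2170 (.cons 299 (.leaf 300 2176 (.cons 224 (.cons 297 (.leaf 200 1604 (.leaf 321 1796 .nil)) (.cons 225 (.leaf 201 1605 (.cons 199 (.leaf 223 1599 (.cons 200 (.leaf 175 1407 (.cons 249 (.leaf 320 1797 (.leaf 176 1412 .nil)) .nil)) .nil)) .nil)) (.cons 199 (.leaf 223 1599 (.cons 225 (.leaf 201 1605 (.cons 297 (.leaf 321 1796 (.cons 320 (.leaf 249 1797 (.cons 343 (.leaf 319 1982 (.cons 344 (.leaf 367 2174 (.leaf 368 2181 .nil)) .nil)) .nil)) .nil)) .nil)) .nil)) .nil))) .nil)) .nil)) .nil)) (.cons 274 (.leaf 247 1979 (.cons 296 (.leaf 295 2170 (.cons 299 (.leaf 300 2176 (.cons 224 (.cons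 297 (.leaf 200 1604 (.leaf 321 1796 .nil)) (.cons 199 (.leaf 223 1599 (.cons 200 (.leaf 175 1407 (.cons 176 (.leaf 249 1412 (.cons 177 (.leaf 201 1413 (.leaf 153 1221 .nil)) .nil)) .nil)) .nil)) (.cons 199 (.leaf 223 1599 (.cons 321 (.leaf 297 1796 (.cons 320 (.leaf 345 1988 (.cons 319 (.leaf 343 1982 (.cons 322 (.leaf 298 2361 (.cons 347 (.leaf 346 2552 (.cons 323 (.leaf 250 2007 (.leaf 348 2560 .nil)) .nil)) .nil)) .nil)) .nil)) .nil)) .nil)) .nil))) .nil)) .nil)) .nil)) .nil))))))))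
noncomputable def t21 : T := .cons 202 (.leaf 226 1623 (.cons 203 (.leaf 178 1431 (.cons 204 (.leaf 180 1437 (.leaf 228 1629 .nil)) .nil)) .nil)) (.cons 204 (.leaf 228 1629 (.cons 180 (.leaf 203 1437 (.cons 322 (.leaf 298 1814 (.cons 323 (.leaf 346 2006 (.cons 348 (.leaf 324 2012 (.cons 347 (.leaf 372 2204 (.cons 274 (.leaf 250 2007 (.cons 248 (.leaf 247 1979 (.cons 321 (.leaf 320 2560 (.cons 297 (.leaf 345 1991 (.cons 224 (.leaf 200 1604 (.leaf 249 1799 .nil)) .nil)) .nil)) .nil)) .nil)) .nil)) .nil)) .nil)) .nil)) .nil)) .nil)) (.cons 202 (.leaf 226 1623 (.cons 178 (.leaf 203 1431 (.cons 322 (.leaf 298 1814 (.cons 323 (.leaf 346 2006 (.cons 348 (.leaf 324 2012 (.cons 347 (.leaf 372 2204 (.cons 274 (.leaf 250 2007 (.cons 248 (.leaf 247 1979 (.cons 321 (.leaf 320 2560 (.cons 297 (.leaf 345 1991 (.cons 224 (.leaf 200 1604 (.leaf 249 1799 .nil)) .nil)) .nil)) .nil)) .nil)) .nil)) .nil))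 .nil)) .nil)) .nil)) .nil)) (.cons 226 (.leaf 202 1623 (.cons 204 (.leaf 228 1629 (.cons 298 (.leaf 322 1814 (.cons 323 (.leaf 250 1815 (.cons 348 (.leaf 324 2012 (.cons 347 (.leaf 372 2204 (.cons 370 (.leaf 346 2198 (.cons 371 (.leaf 274 2199 (.leaf 394 2390 .nil)) .nil)) .nil)) .nil)) .nil)) .nil)) .nil)) .nil)) .nil)))
noncomputable def t22 : T := .cons 300 (.leaf 274 2176 (.cons 227 (.leaf 324 1820 (.cons 298 (.leaf 322 1814 (.leaf 297 2179 .nil)) .nil)) .nil)) (.cons 227 t21 (.cons 227 (.cons 202 (.leaf 226 1623 (.cons 204 (.leaf 228 1629 (.cons 298 (.leaf 322 1814 (.cons 203 (.leaf 178 1431 (.leaf 180 1437 .nil)) .nil)) .nil)) .nil)) (.cons 300 (.leaf 324 1820 (.cons 298 (.leaf 322 1814 (.leaf 297 2179 .nil)) .nil)) (.cons 226 (.leaf 202 1623 (.cons 204 (.leaf 228 1629 (.cons 180 (.leaf 203 1437 (.cons 250 (.leaf 323 1815 (.cons 300 (.leaf 324 1820 (.cons 297 (.leaf 298 2179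 (.cons 249 (.leaf 321 1805 (.cons 248 (.leaf 247 1785 (.cons 224 (.leaf 200 1604 (.leaf 223 1787 .nil)) .nil)) .nil)) .nil)) .nil)) .nil)) .nil)) .nil)) .nil)) (.cons 226 (.leaf 202 1623 (.cons 204 (.leaf 228 1629 (.cons 180 (.leaf 203 1437 (.cons 323 (.leaf 250 1815 (.cons 324 (.leaf 300 1820 (.leaf 348 2012 .nil)) .nil)) .nil)) .nil)) .nil)) .nil)))) (.cons 300 (.leaf 274 2176 (.cons 298 (.leaf 297 2179 (.cons 301 (.cons 322 (.leaf 321 2378 (.cons 277 (.leaf 278 2193 (.cons 302 (.leaf 323 2386 (.cons 326 (.leaf 325 2384 (.leaf 327 2392 .nil)) .nil)) .nil)) .nil)) (.cons 278 (.leaf 277 2193 (.cons 302 (.leaf 279 2201 (.cons 326 (.leaf 325 2384 (.leaf 327 2392 .nil)) .nil)) .nil)) (.cons 322 (.leaf 321 2378 (.cons 323 (.leaf 346 2006 (.leaf 302 2386 .nil)) .nil)) (.cons 277 (.leaf 278 2193 (.cons 322 (.leaf 321 2378 (.cons 346 (.leaf 323 2006 (.leaf 370 2197 .nil)) .nil)) .nil)) .nil))))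 .nil)) .nil)) (.cons 300 (.leaf 274 2176 (.cons 227 (.leaf 324 1820 (.cons 202 (.leaf 226 1623 (.cons 203 (.leaf 178 1431 (.cons 204 (.leaf 180 1437 (.leaf 228 1629 .nil)) .nil)) .nil)) .nil)) .nil)) .nil))))
noncomputable def t23 : T := .cons 227 (.cons 202 (.leaf 226 1623 (.cons 178 (.leaf 203 1431 (.cons 298 (.leaf 322 1814 (.cons 300 (.leaf 324 1820 (.leaf 297 2179 .nil)) .nil)) .nil)) .nil)) (.cons 228 (.leaf 204 1629 (.cons 322 (.leaf 298 1814 (.cons 323 (.leaf 252 1821 (.leaf 346 2006 .nil)) .nil)) .nil)) (.cons 202 (.leaf 226 1623 (.cons 203 (.leaf 178 1431 (.cons 204 (.leaf 180 1437 (.leaf 228 1629 .nil)) .nil)) .nil)) .nil))) (.cons 323 (.cons 346 (.leaf 322 2006 (.cons 228 (.leaf 252 1821 (.cons 226 (.leaf 250 1815 (.cons 347 (.leaf 370 2198 (.cons 348 (.leaf 324 2012 (.leaf 372 2204 .nil)) .nil)) .nil)) .nil)) .nil)) (.cons 250 (.leaf 226 1815 (.cons 252 (.leaf 228 1821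 (.leaf 249 1986 .nil)) .nil)) (.cons 228 (.leaf 252 1821 (.cons 346 (.leaf 322 2006 (.cons 347 (.leaf 370 2198 (.cons 348 (.leaf 324 2012 (.leaf 372 2204 .nil)) .nil)) .nil)) .nil)) (.cons 346 (.leaf 322 2006 (.cons 226 (.leaf 250 1815 (.cons 347 (.leaf 370 2198 (.cons 348 (.leaf 324 2012 (.leaf 372 2204 .nil)) .nil)) .nil)) .nil)) .nil)))) (.cons 227 (.cons 202 (.leaf 226 1623 (.cons 178 (.leaf 203 1431 (.cons 298 (.leaf 322 1814 (.cons 300 (.leaf 324 1820 (.leaf 297 2179 .nil)) .nil)) .nil)) .nil)) (.cons 204 (.leaf 228 1629 (.cons 180 (.leaf 203 1437 (.cons 298 (.leaf 322 1814 (.cons 300 (.leaf 324 1820 (.leaf 297 2179 .nil)) .nil)) .nil)) .nil)) (.cons 202 (.leaf 226 1623 (.cons 203 (.leaf 178 1431 (.cons 204 (.leaf 180 1437 (.leaf 228 1629 .nil)) .nil)) .nil)) (.cons 202 (.leaf 226 1623 (.cons 204 (.leaf 228 1629 (.cons 298 (.leaf 322 1814 (.cons 300 (.leaf 324 1820 (.leaf 297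 2179 .nil)) .nil)) .nil)) .nil)) .nil)))) (.cons 323 (.cons 228 (.leaf 252 1821 (.cons 227 (.leaf 204 1629 (.cons 324 (.leaf 300 1820 (.leaf 348 2012 .nil)) .nil)) .nil)) (.cons 228 (.leaf 252 1821 (.cons 227 (.leaf 204 1629 (.cons 322 (.leaf 298 1814 (.leaf 346 2006 .nil)) .nil)) .nil)) (.cons 322 (.leaf 346 2006 (.cons 227 (.leaf 298 1814 (.cons 324 (.leaf 300 1820 (.leaf 348 2012 .nil)) .nil)) .nil)) (.cons 346 (.leaf 322 2006 (.cons 228 (.leaf 252 1821 (.cons 347 (.leaf 370 2198 (.cons 348 (.leaf 324 2012 (.leaf 372 2204 .nil)) .nil)) .nil)) .nil)) .nil)))) (.cons 227 (.cons 226 (.leaf 202 1623 (.cons 250 (.leaf 323 1815 (.cons 252 (.leaf 249 1986 (.cons 225 (.leaf 224 1792 (.leaf 253 1803 .nil)) .nil)) .nil)) .nil)) (.cons 228 (.leaf 204 1629 (.cons 323 (.leaf 252 1821 (.cons 324 (.leaf 300 1820 (.leaf 348 2012 .nil)) .nil)) .nil)) (.cons 202 (.leaf 226 1623 (.cons 203 (.leaf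 178 1431 (.cons 204 (.leaf 180 1437 (.leaf 228 1629 .nil)) .nil)) .nil)) .nil))) (.cons 323 (.cons 226 (.leaf 250 1815 (.cons 346 (.leaf 322 2006 (.cons 347 (.leaf 370 2198 (.cons 348 (.leaf 324 2012 (.leaf 372 2204 .nil)) .nil)) .nil)) .nil)) (.cons 226 (.leaf 250 1815 (.cons 227 (.leaf 202 1623 (.cons 324 (.leaf 300 1820 (.leaf 348 2012 .nil)) .nil)) .nil)) (.cons 226 (.leaf 250 1815 (.cons 227 (.leaf 202 1623 (.cons 322 (.leaf 298 1814 (.leaf 346 2006 .nil)) .nil)) .nil)) (.cons 322 (.leaf 346 2006 (.cons 227 (.leaf 298 1814 (.cons 324 (.leaf 300 1820 (.leaf 348 2012 .nil)) .nil)) .nil)) .nil)))) (.cons 227 (.cons 228 (.leaf 204 1629 (.cons 322 (.leaf 298 1814 (.cons 323 (.leaf 252 1821 (.leaf 346 2006 .nil)) .nil)) .nil)) (.cons 226 (.leaf 202 1623 (.cons 250 (.leaf 323 1815 (.cons 249 (.leaf 252 1986 (.cons 297 (.leaf 321 1805 (.cons 298 (.leaf 322 1814 (.leaf 300 2179 .nil))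 .nil)) .nil)) .nil)) .nil)) (.cons 226 (.leaf 202 1623 (.cons 250 (.leaf 323 1815 (.cons 252 (.leaf 249 1986 (.cons 225 (.leaf 224 1792 (.leaf 253 1803 .nil)) .nil)) .nil)) .nil)) (.cons 202 (.leaf 226 1623 (.cons 203 (.leaf 178 1431 (.cons 204 (.leaf 180 1437 (.leaf 228 1629 .nil)) .nil)) .nil)) .nil)))) .nil))))))
noncomputable def t24 : T := .cons 274 (.leaf 252 1985 (.cons 299 (.leaf 300 2176 (.cons 248 (.leaf 247 1979 (.cons 227 (.cons 204 (.leaf 228 1629 (.cons 203 (.leaf 180 1437 (.leaf 298 1622 .nil)) .nil)) (.cons 204 (.leaf 228 1629 (.cons 203 (.leaf 180 1437 (.cons 202 (.leaf 178 1431 (.leaf 226 1623 .nil)) .nil)) .nil)) (.cons 204 (.leaf 228 1629 (.cons 322 (.leaf 298 1814 (.cons 323 (.leaf 346 2006 (.cons 347 (.leaf 250 2007 (.cons 348 (.leaf 324 2012 (.leaf 372 2204 .nil)) .nil)) .nil)) .nil)) .nil)) (.cons 298 (.leaf 203 1622 (.leaf 322 1814 .nil)) .nil)))) .nil)) .nil))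 .nil)) (.cons 299 t23 (.cons 299 t22 (.cons 252 (.leaf 274 1985 (.cons 250 (.leaf 249 1986 (.cons 253 (.cons 226 (.leaf 225 1803 (.cons 202 (.leaf 178 1428 (.cons 230 (.leaf 229 1809 (.cons 254 (.leaf 227 1811 (.leaf 231 1817 .nil)) .nil)) .nil)) .nil)) (.cons 230 (.leaf 229 1809 (.cons 254 (.leaf 231 1817 (.cons 278 (.leaf 277 2000 (.leaf 279 2008 .nil)) .nil)) .nil)) (.cons 226 (.leaf 225 1803 (.cons 178 (.leaf 202 1428 (.cons 254 (.leaf 227 1811 (.cons 278 (.leaf 277 2000 (.leaf 279 2008 .nil)) .nil)) .nil)) .nil)) (.cons 226 (.leaf 225 1803 (.cons 202 (.leaf 178 1428 (.cons 229 (.leaf 230 1809 (.cons 277 (.leaf 278 2000 (.cons 204 (.cons 180 (.leaf 228 1444 (.leaf 205 1447 .nil)) (.cons 205 (.leaf 180 1447 (.cons 182 (.leaf 206 1453 (.cons 181 (.leaf 158 1261 (.leaf 203 1425 .nil)) .nil)) .nil)) (.cons 228 (.leaf 301 1639 (.cons 201 (.leaf 227 1611 (.leaf 203 1608 .nil)) .nil))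 .nil))) .nil)) .nil)) .nil)) .nil)) .nil)))) .nil)) .nil)) (.cons 274 (.leaf 252 1985 (.cons 299 (.leaf 300 2176 (.cons 248 (.leaf 247 1979 (.cons 227 (.cons 202 (.leaf 226 1623 (.cons 203 (.leaf 178 1431 (.leaf 298 1622 .nil)) .nil)) (.cons 202 (.leaf 226 1623 (.cons 203 (.leaf 178 1431 (.cons 204 (.leaf 180 1437 (.leaf 228 1629 .nil)) .nil)) .nil)) (.cons 202 (.leaf 226 1623 (.cons 204 (.leaf 228 1629 (.cons 322 (.leaf 298 1814 (.cons 323 (.leaf 346 2006 (.cons 348 (.leaf 324 2012 (.cons 347 (.leaf 372 2204 (.cons 321 (.leaf 320 2560 (.cons 297 (.leaf 345 1991 (.cons 224 (.leaf 200 1604 (.leaf 249 1799 .nil)) .nil)) .nil)) .nil)) .nil)) .nil)) .nil)) .nil)) .nil)) (.cons 298 (.leaf 203 1622 (.leaf 322 1814 .nil)) .nil)))) .nil)) .nil)) .nil)) (.cons 274 (.leaf 252 1985 (.cons 299 (.leaf 300 2176 (.cons 248 (.leaf 247 1979 (.cons 323 (.cons 250 (.leaf 226 1815 (.leaf 347 2007 .nil))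 (.cons 322 (.leaf 346 2006 (.cons 348 (.leaf 324 2012 (.cons 347 (.leaf 372 2204 (.cons 298 (.leaf 371 2199 (.cons 321 (.leaf 320 2560 (.cons 297 (.leaf 345 1991 (.cons 224 (.leaf 200 1604 (.leaf 249 1799 .nil)) .nil)) .nil)) .nil)) .nil)) .nil)) .nil)) (.cons 250 (.leaf 226 1815 (.cons 322 (.leaf 346 2006 (.cons 324 (.leaf 348 2012 (.cons 297 (.cons 321 (.leaf 345 1997 (.cons 224 (.leaf 200 1604 (.leaf 249 1799 .nil)) .nil)) (.cons 200 (.leaf 224 1604 (.cons 325 (.leaf 298 2379 (.cons 302 (.leaf 301 2385 (.cons 326 (.leaf 303 2393 (.cons 350 (.leaf 349 2576 (.leaf 351 2584 .nil)) .nil)) .nil)) .nil)) .nil)) (.cons 321 (.leaf 345 1997 (.cons 298 (.leaf 325 2379 (.cons 249 (.leaf 225 1804 (.cons 320 (.leaf 344 1990 (.leaf 319 2361 .nil)) .nil)) .nil)) .nil)) .nil))) .nil)) .nil)) .nil)) .nil))) .nil)) .nil)) .nil)) (.cons 274 (.leaf 252 1985 (.cons 299 (.leaf 300 2176 (.cons 248 (.leaf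 247 1979 (.cons 227 (.cons 298 (.leaf 203 1622 (.leaf 322 1814 .nil)) (.cons 204 (.leaf 228 1629 (.cons 203 (.leaf 180 1437 (.cons 178 (.leaf 202 1431 (.cons 179 (.leaf 154 1239 (.leaf 250 1430 .nil)) .nil)) .nil)) .nil)) (.cons 322 (.leaf 298 1814 (.cons 204 (.leaf 228 1629 (.cons 323 (.leaf 346 2006 (.cons 347 (.leaf 250 2007 (.cons 348 (.leaf 324 2012 (.leaf 372 2204 .nil)) .nil)) .nil)) .nil)) .nil)) .nil))) .nil)) .nil)) .nil)) .nil))))))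
noncomputable def t25 : T := .cons 226 (.leaf 250 1815 (.cons 227 (.leaf 202 1623 (.cons 204 (.leaf 228 1629 (.cons 203 (.leaf 180 1437 (.cons 205 (.leaf 206 1618 (.cons 225 (.leaf 224 1601 (.cons 274 (.leaf 298 1622 (.cons 296 (.leaf 295 2170 (.cons 249 (.leaf 201 1606 (.cons 320 (.leaf 344 1989 (.leaf 297 1798 .nil)) .nil)) .nil)) .nil)) .nil)) .nil)) .nil)) .nil)) .nil)) .nil)) (.cons 322 (.leaf 346 2006 (.cons 227 (.leaf 298 1814 (.cons 204 (.leaf 228 1629 (.cons 180 (.leaf 203 1437 (.cons 348 (.leaf 324 2012 (.cons 347 (.leaf 372 2204 (.cons 274 (.leaf 250 2007 (.cons 296 (.leaf 295 2170 (.cons 320 (.leaf 321 2560 (.cons 249 (.leaf 344 1989 (.cons 225 (.leaf 201 1606 (.leaf 297 1798 .nil)) .nil)) .nil)) .nil)) .nil)) .nil)) .nil)) .nil)) .nil)) .nil)) .nil)) (.cons 322 (.leaf 346 2006 (.cons 227 (.leaf 298 1814 (.cons 202 (.leaf 226 1623 (.cons 203 (.leaf 178 1431 (.cons 204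 (.leaf 180 1437 (.leaf 228 1629 .nil)) .nil)) .nil)) .nil)) .nil)) (.cons 346 (.leaf 322 2006 (.cons 226 (.leaf 250 1815 (.cons 347 (.leaf 370 2198 (.cons 348 (.leaf 324 2012 (.leaf 372 2204 .nil)) .nil)) .nil)) .nil)) .nil)))
noncomputable def t26 : T := .cons 300 (.leaf 274 2176 (.cons 227 (.leaf 324 1820 (.cons 298 (.leaf 322 1814 (.leaf 297 2179 .nil)) .nil)) .nil)) (.cons 323 t25 (.cons 227 (.cons 202 (.leaf 226 1623 (.cons 203 (.leaf 178 1431 (.cons 298 (.leaf 322 1814 (.cons 204 (.leaf 180 1437 (.leaf 228 1629 .nil)) .nil)) .nil)) .nil)) (.cons 298 (.leaf 322 1814 (.cons 300 (.leaf 324 1820 (.leaf 297 2179 .nil)) .nil)) (.cons 202 (.leaf 226 1623 (.cons 203 (.leaf 178 1431 (.cons 204 (.leaf 180 1437 (.leaf 228 1629 .nil)) .nil)) .nil)) .nil))) (.cons 274 (.leaf 300 2176 (.cons 296 (.leaf 295 2170 (.cons 323 (.cons 250 (.leaf 226 1815 (.leaf 347 2007 .nil)) (.cons 322 (.leaf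 346 2006 (.cons 324 (.leaf 348 2012 (.cons 297 (.leaf 298 2368 (.leaf 321 2371 .nil)) .nil)) .nil)) .nil)) .nil)) .nil)) (.cons 300 (.leaf 274 2176 (.cons 227 (.leaf 324 1820 (.cons 202 (.leaf 226 1623 (.cons 203 (.leaf 178 1431 (.cons 204 (.leaf 180 1437 (.leaf 228 1629 .nil)) .nil)) .nil)) .nil)) .nil)) (.cons 300 (.leaf 274 2176 (.cons 298 (.leaf 297 2179 (.cons 301 (.cons 322 (.leaf 227 1814 (.leaf 321 2378 .nil)) (.cons 278 (.leaf 277 2193 (.cons 302 (.leaf 279 2201 (.cons 326 (.leaf 325 2384 (.leaf 327 2392 .nil)) .nil)) .nil)) .nil)) .nil)) .nil)) .nil)))))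
noncomputable def t27 : T := .cons 227 (.cons 226 (.leaf 202 1623 (.cons 250 (.leaf 323 1815 (.cons 249 (.leaf 252 1986 (.cons 297 (.leaf 321 1805 (.cons 300 (.leaf 324 1820 (.leaf 298 2179 .nil)) .nil)) .nil)) .nil)) .nil)) (.cons 298 (.leaf 322 1814 (.cons 300 (.leaf 324 1820 (.leaf 297 2179 .nil)) .nil)) (.cons 226 (.leaf 202 1623 (.cons 250 (.leaf 323 1815 (.cons 252 (.leaf 249 1986 (.cons 225 (.leaf 224 1792 (.leaf 253 1803 .nil)) .nil)) .nil)) .nil)) .nil))) (.cons 227 (.cons 202 (.leaf 226 1623 (.cons 178 (.leaf 203 1431 (.cons 298 (.leaf 322 1814 (.cons 300 (.leaf 324 1820 (.leaf 297 2179 .nil)) .nil)) .nil)) .nil)) (.cons 204 (.leaf 228 1629 (.cons 180 (.leaf 203 1437 (.cons 298 (.leaf 322 1814 (.cons 300 (.leaf 324 1820 (.leaf 297 2179 .nil)) .nil)) .nil)) .nil)) (.cons 202 (.leaf 226 1623 (.cons 203 (.leaf 178 1431 (.cons 204 (.leaf 180 1437 (.leaf 228 1629 .nil)) .nil))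 .nil)) (.cons 298 (.leaf 322 1814 (.cons 300 (.leaf 324 1820 (.leaf 297 2179 .nil)) .nil)) .nil)))) (.cons 323 (.cons 228 (.leaf 252 1821 (.cons 346 (.leaf 322 2006 (.cons 226 (.leaf 250 1815 (.cons 347 (.leaf 370 2198 (.cons 348 (.leaf 324 2012 (.leaf 372 2204 .nil)) .nil)) .nil)) .nil)) .nil)) (.cons 250 (.leaf 226 1815 (.cons 252 (.leaf 228 1821 (.leaf 249 1986 .nil)) .nil)) (.cons 226 (.leaf 250 1815 (.cons 346 (.leaf 322 2006 (.cons 347 (.leaf 370 2198 (.cons 348 (.leaf 324 2012 (.leaf 372 2204 .nil)) .nil)) .nil)) .nil)) (.cons 228 (.leaf 252 1821 (.cons 346 (.leaf 322 2006 (.cons 347 (.leaf 370 2198 (.cons 348 (.leaf 324 2012 (.leaf 372 2204 .nil)) .nil)) .nil)) .nil)) .nil)))) (.cons 227 (.cons 226 (.leaf 202 1623 (.cons 250 (.leaf 323 1815 (.cons 252 (.leaf 249 1986 (.cons 225 (.leaf 224 1792 (.leaf 253 1803 .nil)) .nil)) .nil)) .nil)) (.cons 228 (.leaf 204 1629 (.cons 323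 (.leaf 252 1821 (.cons 324 (.leaf 300 1820 (.leaf 348 2012 .nil)) .nil)) .nil)) (.cons 202 (.leaf 226 1623 (.cons 203 (.leaf 178 1431 (.cons 204 (.leaf 180 1437 (.leaf 228 1629 .nil)) .nil)) .nil)) .nil))) (.cons 323 (.cons 322 (.leaf 346 2006 (.cons 227 (.leaf 298 1814 (.cons 324 (.leaf 300 1820 (.leaf 348 2012 .nil)) .nil)) .nil)) (.cons 228 (.leaf 252 1821 (.cons 227 (.leaf 204 1629 (.cons 324 (.leaf 300 1820 (.leaf 348 2012 .nil)) .nil)) .nil)) (.cons 228 (.leaf 252 1821 (.cons 227 (.leaf 204 1629 (.cons 322 (.leaf 298 1814 (.leaf 346 2006 .nil)) .nil)) .nil)) (.cons 346 (.leaf 322 2006 (.cons 228 (.leaf 252 1821 (.cons 347 (.leaf 370 2198 (.cons 348 (.leaf 324 2012 (.leaf 372 2204 .nil)) .nil)) .nil)) .nil)) .nil)))) (.cons 227 (.cons 226 (.leaf 202 1623 (.cons 250 (.leaf 323 1815 (.cons 249 (.leaf 252 1986 (.cons 297 (.leaf 321 1805 (.cons 298 (.leaf 322 1814 (.leaf 300 2179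 .nil)) .nil)) .nil)) .nil)) .nil)) (.cons 228 (.leaf 204 1629 (.cons 322 (.leaf 298 1814 (.cons 323 (.leaf 252 1821 (.leaf 346 2006 .nil)) .nil)) .nil)) (.cons 202 (.leaf 226 1623 (.cons 203 (.leaf 178 1431 (.cons 204 (.leaf 180 1437 (.leaf 228 1629 .nil)) .nil)) .nil)) .nil))) .nil)))))
noncomputable def t28 : T := .cons 274 (.leaf 252 1985 (.cons 299 (.leaf 300 2176 (.cons 296 (.leaf 295 2170 (.cons 227 (.cons 204 (.leaf 228 1629 (.cons 203 (.leaf 180 1437 (.leaf 298 1622 .nil)) .nil)) (.cons 204 (.leaf 228 1629 (.cons 203 (.leaf 180 1437 (.cons 178 (.leaf 202 1431 (.cons 179 (.leaf 154 1239 (.leaf 250 1430 .nil)) .nil)) .nil)) .nil)) (.cons 204 (.leaf 228 1629 (.cons 322 (.leaf 298 1814 (.cons 323 (.leaf 346 2006 (.cons 324 (.leaf 348 2012 (.cons 321 (.leaf 297 2371 (.cons 344 (.leaf 345 2562 (.cons 320 (.leaf 249 1989 (.leaf 343 2554 .nil)) .nil)) .nil)) .nil)) .nil)) .nil)) .nil))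 (.cons 298 (.leaf 203 1622 (.leaf 322 1814 .nil)) .nil)))) .nil)) .nil)) .nil)) (.cons 299 t27 (.cons 299 t26 (.cons 252 (.leaf 274 1985 (.cons 250 (.leaf 249 1986 (.cons 253 (.cons 230 (.leaf 229 1809 (.cons 254 (.leaf 231 1817 (.cons 278 (.leaf 277 2000 (.leaf 279 2008 .nil)) .nil)) .nil)) (.cons 226 (.leaf 225 1803 (.cons 178 (.leaf 202 1428 (.cons 254 (.leaf 227 1811 (.cons 278 (.leaf 277 2000 (.leaf 279 2008 .nil)) .nil)) .nil)) .nil)) (.cons 226 (.leaf 225 1803 (.cons 178 (.leaf 202 1428 (.cons 230 (.leaf 229 1809 (.cons 254 (.leaf 227 1811 (.leaf 231 1817 .nil)) .nil)) .nil)) .nil)) (.cons 226 (.leaf 225 1803 (.cons 202 (.leaf 178 1428 (.cons 229 (.leaf 230 1809 (.cons 277 (.leaf 278 2000 (.cons 204 (.cons 180 (.leaf 228 1444 (.leaf 205 1447 .nil)) (.cons 205 (.leaf 180 1447 (.cons 182 (.leaf 206 1453 (.cons 181 (.leaf 158 1261 (.leaf 203 1425 .nil)) .nil)) .nil)) (.cons 228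 (.leaf 301 1639 (.cons 201 (.leaf 227 1611 (.leaf 203 1608 .nil)) .nil)) .nil))) .nil)) .nil)) .nil)) .nil)) .nil)))) .nil)) .nil)) (.cons 274 (.leaf 252 1985 (.cons 299 (.leaf 300 2176 (.cons 296 (.leaf 295 2170 (.cons 227 (.cons 204 (.leaf 228 1629 (.cons 322 (.leaf 298 1814 (.cons 323 (.leaf 346 2006 (.cons 324 (.leaf 348 2012 (.cons 321 (.leaf 297 2371 (.cons 344 (.leaf 345 2562 (.cons 320 (.leaf 249 1989 (.leaf 343 2554 .nil)) .nil)) .nil)) .nil)) .nil)) .nil)) .nil)) (.cons 202 (.leaf 226 1623 (.cons 203 (.leaf 178 1431 (.cons 204 (.leaf 180 1437 (.leaf 228 1629 .nil)) .nil)) .nil)) (.cons 298 (.leaf 203 1622 (.leaf 322 1814 .nil)) .nil))) .nil)) .nil)) .nil)) (.cons 274 (.leaf 252 1985 (.cons 299 (.leaf 300 2176 (.cons 296 (.leaf 295 2170 (.cons 323 (.cons 250 (.leaf 226 1815 (.leaf 347 2007 .nil)) (.cons 322 (.leaf 346 2006 (.cons 324 (.leaf 348 2012 (.cons 297 (.leaf 298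 2368 (.leaf 321 2371 .nil)) .nil)) .nil)) .nil)) .nil)) .nil)) .nil)) .nil)))))
noncomputable def t29 : T := .cons 225 (.leaf 201 1605 (.cons 319 (.leaf 295 1790 (.cons 320 (.leaf 249 1797 (.leaf 343 1982 .nil)) .nil)) .nil)) (.cons 223 (.leaf 199 1599 (.cons 319 (.leaf 295 1790 (.cons 320 (.leaf 247 1791 (.leaf 343 1982 .nil)) .nil)) .nil)) (.cons 225 (.leaf 201 1605 (.cons 223 (.leaf 199 1599 (.cons 295 (.leaf 319 1790 (.cons 294 (.leaf 293 2153 (.cons 226 (.cons 202 (.leaf 203 1593 (.cons 251 (.leaf 250 1784 (.cons 227 (.leaf 299 1623 (.leaf 247 1786 .nil)) .nil)) .nil)) (.cons 202 (.leaf 203 1593 (.cons 251 (.leaf 250 1784 (.cons 227 (.leaf 299 1623 (.leaf 252 1792 .nil)) .nil)) .nil)) (.cons 202 (.leaf 203 1593 (.cons 246 (.leaf 247 1778 (.cons 222 (.leaf 245 1770 (.cons 197 (.leaf 198 1579 (.cons 221 (.leaf 196 1571 (.leaf 249 1768 .nil)) .nil)) .nil)) .nil)) .nil)) (.cons 247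 (.leaf 246 1778 (.leaf 227 1786 .nil)) .nil)))) .nil)) .nil)) .nil)) .nil)) (.cons 225 (.leaf 201 1605 (.cons 199 (.leaf 223 1599 (.cons 200 (.leaf 175 1407 (.cons 249 (.leaf 320 1797 (.leaf 176 1412 .nil)) .nil)) .nil)) .nil)) .nil)))
noncomputable def t30 : T := .cons 296 (.cons 199 (.leaf 223 1599 (.cons 175 (.leaf 200 1407 (.cons 319 (.leaf 295 1790 (.cons 320 (.leaf 343 1982 (.cons 344 (.leaf 249 1989 (.cons 345 (.leaf 321 1988 (.leaf 369 2180 .nil)) .nil)) .nil)) .nil)) .nil)) .nil)) (.cons 225 (.leaf 201 1605 (.cons 319 (.leaf 295 1790 (.cons 320 (.leaf 249 1797 (.leaf 343 1982 .nil)) .nil)) .nil)) (.cons 297 (.leaf 200 1604 (.leaf 321 1796 .nil)) .nil))) (.cons 296 t29 (.cons 296 (.cons 199 (.leaf 223 1599 (.cons 201 (.leaf 225 1605 (.cons 319 (.leaf 295 1790 (.cons 320 (.leaf 343 1982 (.cons 344 (.leaf 249 1989 (.cons 345 (.leaf 321 1988 (.leaf 369 2180 .nil)) .nil)) .nil))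 .nil)) .nil)) .nil)) (.cons 225 (.leaf 201 1605 (.cons 319 (.leaf 295 1790 (.cons 320 (.leaf 249 1797 (.leaf 343 1982 .nil)) .nil)) .nil)) (.cons 321 (.leaf 297 1796 (.cons 223 (.leaf 199 1599 (.cons 320 (.leaf 247 1791 (.leaf 345 1988 .nil)) .nil)) .nil)) (.cons 297 (.leaf 321 1796 (.cons 223 (.leaf 199 1599 (.cons 225 (.leaf 201 1605 (.cons 295 (.leaf 319 1790 (.cons 294 (.leaf 293 2153 (.cons 270 (.leaf 269 2155 (.cons 318 (.leaf 317 2346 (.cons 246 (.leaf 247 1781 (.cons 245 (.leaf 222 1770 (.leaf 221 1775 .nil)) .nil)) .nil)) .nil)) .nil)) .nil)) .nil)) .nil)) .nil)) .nil)))) (.cons 200 (.leaf 297 1604 (.cons 175 (.leaf 199 1407 (.cons 176 (.leaf 249 1412 (.leaf 151 1215 .nil)) .nil)) .nil)) (.cons 297 (.leaf 200 1604 (.cons 321 (.leaf 296 1796 (.leaf 345 1991 .nil)) .nil)) .nil))))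
noncomputable def t31 : T := .cons 297 (.leaf 200 1604 (.cons 321 (.leaf 296 1796 (.leaf 345 1991 .nil)) .nil)) (.cons 296 (.cons 201 (.leaf 225 1605 (.cons 177 (.leaf 200 1413 (.cons 319 (.leaf 295 1790 (.cons 320 (.leaf 343 1982 (.cons 344 (.leaf 249 1989 (.cons 345 (.leaf 321 1988 (.leaf 369 2180 .nil)) .nil)) .nil)) .nil)) .nil)) .nil)) (.cons 199 (.leaf 223 1599 (.cons 319 (.leaf 295 1790 (.cons 320 (.leaf 343 1982 (.cons 344 (.leaf 249 1989 (.cons 345 (.leaf 321 1988 (.leaf 369 2180 .nil)) .nil)) .nil)) .nil)) .nil)) (.cons 201 (.leaf 225 1605 (.cons 200 (.leaf 177 1413 (.cons 176 (.leaf 249 1412 (.cons 223 (.leaf 199 1599 (.cons 152 (.leaf 247 1214 (.cons 127 (.leaf 151 1023 (.cons 128 (.leaf 103 831 (.cons 129 (.leaf 153 1029 (.leaf 105 837 .nil)) .nil)) .nil)) .nil)) .nil)) .nil)) .nil)) .nil)) (.cons 201 (.leaf 225 1605 (.cons 177 (.leaf 200 1413 (.cons 223 (.leaf 199 1599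 (.cons 320 (.leaf 247 1791 (.cons 343 (.leaf 319 1982 (.cons 344 (.leaf 367 2174 (.cons 345 (.leaf 321 1988 (.leaf 369 2180 .nil)) .nil)) .nil)) .nil)) .nil)) .nil)) .nil)) .nil)))) (.cons 296 (.cons 199 (.leaf 223 1599 (.cons 201 (.leaf 225 1605 (.cons 319 (.leaf 295 1790 (.cons 320 (.leaf 343 1982 (.cons 344 (.leaf 249 1989 (.cons 345 (.leaf 321 1988 (.leaf 369 2180 .nil)) .nil)) .nil)) .nil)) .nil)) .nil)) (.cons 321 (.leaf 297 1796 (.cons 223 (.leaf 199 1599 (.cons 320 (.leaf 247 1791 (.leaf 345 1988 .nil)) .nil)) .nil)) (.cons 225 (.leaf 201 1605 (.cons 223 (.leaf 199 1599 (.cons 295 (.leaf 319 1790 (.cons 247 (.leaf 320 1791 (.cons 246 (.leaf 245 1960 (.leaf 226 1778 .nil)) .nil)) .nil)) .nil)) .nil)) (.cons 297 (.leaf 321 1796 (.cons 223 (.leaf 199 1599 (.cons 225 (.leaf 201 1605 (.cons 295 (.leaf 319 1790 (.cons 294 (.leaf 293 2153 (.cons 270 (.leaf 269 2155 (.cons 318 (.leaf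 317 2346 (.cons 246 (.leaf 247 1781 (.cons 245 (.leaf 222 1770 (.leaf 221 1775 .nil)) .nil)) .nil)) .nil)) .nil)) .nil)) .nil)) .nil)) .nil)) (.cons 321 (.leaf 297 1796 (.cons 319 (.leaf 295 1790 (.cons 320 (.leaf 343 1982 (.leaf 345 1988 .nil)) .nil)) .nil)) .nil))))) (.cons 200 (.leaf 297 1604 (.cons 176 (.leaf 249 1412 (.cons 153 (.leaf 177 1221 (.cons 152 (.leaf 129 1029 (.cons 127 (.leaf 151 1023 (.cons 128 (.leaf 103 831 (.cons 223 (.leaf 247 1214 (.leaf 199 1022 .nil)) .nil)) .nil)) .nil)) .nil)) .nil)) .nil)) .nil)))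
noncomputable def t32 : T := .cons 296 (.cons 199 (.leaf 223 1599 (.cons 225 (.leaf 201 1605 (.cons 297 (.leaf 200 1604 (.leaf 321 1796 .nil)) .nil)) .nil)) (.cons 225 (.leaf 201 1605 (.cons 223 (.leaf 199 1599 (.cons 295 (.leaf 319 1790 (.cons 247 (.leaf 320 1791 (.cons 246 (.leaf 245 1960 (.leaf 226 1778 .nil)) .nil)) .nil)) .nil)) .nil)) (.cons 297 (.leaf 200 1604 (.leaf 321 1796 .nil)) .nil))) (.cons 296 (.cons 225 (.leaf 201 1605 (.cons 223 (.leaf 199 1599 (.cons 295 (.leaf 319 1790 (.cons 247 (.leaf 320 1791 (.cons 246 (.leaf 245 1960 (.leaf 226 1778 .nil)) .nil)) .nil)) .nil)) .nil)) (.cons 223 (.leaf 199 1599 (.cons 319 (.leaf 295 1790 (.cons 320 (.leaf 247 1791 (.leaf 343 1982 .nil)) .nil)) .nil)) (.cons 225 (.leaf 201 1605 (.cons 319 (.leaf 295 1790 (.cons 320 (.leaf 249 1797 (.leaf 343 1982 .nil)) .nil)) .nil)) (.cons 201 (.leaf 225 1605 (.cons 199 (.leaf 223 1599 (.cons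 200 (.leaf 175 1407 (.leaf 177 1413 .nil)) .nil)) .nil)) .nil)))) (.cons 296 (.cons 223 (.leaf 199 1599 (.cons 320 (.leaf 247 1791 (.cons 249 (.leaf 225 1797 (.leaf 344 1989 .nil)) .nil)) .nil)) (.cons 223 (.leaf 199 1599 (.cons 319 (.leaf 295 1790 (.cons 320 (.leaf 247 1791 (.leaf 343 1982 .nil)) .nil)) .nil)) (.cons 225 (.leaf 201 1605 (.cons 319 (.leaf 295 1790 (.cons 320 (.leaf 249 1797 (.leaf 343 1982 .nil)) .nil)) .nil)) (.cons 297 (.leaf 321 1796 (.cons 223 (.leaf 199 1599 (.cons 225 (.leaf 201 1605 (.cons 295 (.leaf 319 1790 (.cons 294 (.leaf 293 2153 (.cons 270 (.leaf 269 2155 (.cons 318 (.leaf 317 2346 (.cons 246 (.leaf 247 1781 (.cons 245 (.leaf 222 1770 (.leaf 221 1775 .nil)) .nil)) .nil)) .nil)) .nil)) .nil)) .nil)) .nil)) .nil)) .nil)))) (.cons 297 (.leaf 200 1604 (.cons 321 (.leaf 345 1991 (.leaf 249 1799 .nil)) .nil)) .nil)))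
noncomputable def t33 : T := .cons 296 (.leaf 201 1605 (.cons 295 (.leaf 319 1790 (.cons 223 (.leaf 199 1599 (.cons 294 (.leaf 293 2153 (.cons 270 (.leaf 269 2155 (.cons 318 (.leaf 317 2346 (.cons 246 (.leaf 247 1781 (.cons 245 (.leaf 222 1770 (.leaf 221 1775 .nil)) .nil)) .nil)) .nil)) .nil)) .nil)) .nil)) .nil)) (.cons 226 (.cons 202 (.leaf 249 1613 (.cons 227 (.leaf 247 1786 (.cons 251 (.leaf 299 1623 (.leaf 252 1792 .nil)) .nil)) .nil)) (.cons 247 (.leaf 227 1786 (.cons 246 (.leaf 245 1960 (.leaf 223 1778 .nil)) .nil)) (.cons 202 (.leaf 249 1613 (.cons 223 (.leaf 203 1593 (.cons 199 (.leaf 296 1599 (.leaf 198 1587 .nil)) .nil)) .nil)) .nil))) (.cons 226 (.cons 247 (.leaf 227 1786 (.cons 202 (.leaf 249 1613 (.cons 223 (.leaf 203 1593 (.leaf 246 1778 .nil)) .nil)) .nil)) (.cons 247 (.leaf 227 1786 (.cons 246 (.leaf 245 1960 (.leaf 223 1778 .nil)) .nil)) (.cons 202 (.leaf 249 1613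 (.cons 203 (.leaf 223 1593 (.cons 204 (.leaf 201 1602 (.leaf 205 1610 .nil)) .nil)) .nil)) (.cons 227 (.leaf 247 1786 (.cons 203 (.leaf 204 1601 (.cons 251 (.leaf 252 1792 (.cons 202 (.leaf 178 1431 (.leaf 299 1623 .nil)) .nil)) .nil)) .nil)) .nil)))) (.cons 201 (.leaf 296 1605 (.cons 177 (.leaf 249 1414 (.leaf 153 1222 .nil)) .nil)) .nil)))
noncomputable def t34 : T := .cons 296 (.leaf 201 1606 (.cons 320 (.leaf 248 1797 (.leaf 344 1989 .nil)) .nil)) (.cons 201 (.cons 177 (.leaf 248 1414 (.cons 152 (.leaf 176 1223 (.cons 153 (.leaf 128 1031 (.cons 154 (.leaf 130 1037 (.leaf 178 1229 .nil)) .nil)) .nil)) .nil)) (.cons 202 (.leaf 178 1421 (.cons 203 (.leaf 204 1602 (.cons 223 (.leaf 222 1585 (.leaf 226 1593 .nil)) .nil)) .nil)) (.cons 177 (.leaf 248 1414 (.cons 152 (.leaf 176 1223 (.cons 153 (.leaf 128 1031 (.cons 130 (.leaf 154 1037 (.cons 106 (.leaf 129 845 (.cons 226 (.leaf 250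 1228 (.cons 202 (.leaf 297 1613 (.cons 203 (.leaf 204 1602 (.leaf 223 1593 .nil)) .nil)) .nil)) .nil)) .nil)) .nil)) .nil)) .nil)) .nil))) (.cons 297 (.cons 296 (.leaf 320 1798 (.cons 321 (.leaf 248 1796 (.cons 226 (.leaf 202 1613 (.leaf 250 1805 .nil)) .nil)) .nil)) (.cons 296 (.leaf 320 1798 (.cons 226 (.leaf 202 1613 (.cons 298 (.leaf 322 1804 (.cons 299 (.leaf 300 2179 (.cons 323 (.leaf 324 2368 (.cons 251 (.leaf 250 1815 (.cons 252 (.leaf 228 1821 (.leaf 227 1792 .nil)) .nil)) .nil)) .nil)) .nil)) .nil)) .nil)) (.cons 321 (.leaf 248 1799 (.cons 322 (.leaf 298 1804 (.leaf 346 1996 .nil)) .nil)) .nil))) (.cons 296 (.leaf 201 1606 (.cons 320 (.leaf 344 1989 (.leaf 297 1798 .nil)) .nil)) .nil)))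
noncomputable def t35 : T := .cons 297 (.leaf 200 1607 (.cons 202 (.leaf 226 1613 (.cons 321 (.leaf 248 1799 (.cons 322 (.leaf 298 1804 (.leaf 346 1996 .nil)) .nil)) .nil)) .nil)) (.cons 201 (.cons 177 (.leaf 248 1414 (.cons 152 (.leaf 176 1223 (.cons 153 (.leaf 128 1031 (.cons 154 (.leaf 130 1037 (.leaf 178 1229 .nil)) .nil)) .nil)) .nil)) (.cons 202 (.leaf 178 1421 (.cons 203 (.leaf 204 1602 (.cons 223 (.leaf 200 1594 (.leaf 222 1585 .nil)) .nil)) .nil)) (.cons 177 (.leaf 248 1414 (.cons 152 (.leaf 176 1223 (.cons 153 (.leaf 128 1031 (.cons 130 (.leaf 154 1037 (.cons 129 (.leaf 200 1030 (.leaf 106 845 .nil)) .nil)) .nil)) .nil)) .nil)) .nil))) (.cons 201 (.cons 177 (.leaf 248 1414 (.cons 152 (.leaf 176 1223 (.cons 153 (.leaf 128 1031 (.cons 154 (.leaf 130 1037 (.leaf 178 1229 .nil)) .nil)) .nil)) .nil)) (.cons 202 (.leaf 178 1421 (.cons 203 (.leaf 204 1602 (.cons 223 (.leaf 222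 1585 (.leaf 226 1593 .nil)) .nil)) .nil)) (.cons 177 (.leaf 248 1414 (.cons 152 (.leaf 176 1223 (.cons 153 (.leaf 128 1031 (.cons 130 (.leaf 154 1037 (.cons 106 (.leaf 129 845 (.cons 226 (.leaf 250 1228 (.cons 202 (.leaf 297 1613 (.cons 203 (.leaf 204 1602 (.leaf 223 1593 .nil)) .nil)) .nil)) .nil)) .nil)) .nil)) .nil)) .nil)) .nil))) (.cons 297 (.leaf 200 1607 (.cons 226 (.leaf 202 1613 (.cons 321 (.leaf 250 1805 (.cons 344 (.leaf 320 1990 (.cons 322 (.leaf 298 1804 (.leaf 346 1996 .nil)) .nil)) .nil)) .nil)) .nil)) (.cons 200 (.leaf 297 1607 (.cons 176 (.leaf 201 1415 (.leaf 248 1412 .nil)) .nil)) .nil))))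
noncomputable def t36 : T := .cons 248 (.leaf 296 1605 (.cons 177 (.leaf 200 1413 (.leaf 249 1414 .nil)) .nil)) (.cons 248 (.leaf 296 1605 (.cons 177 (.leaf 200 1413 (.leaf 153 1222 .nil)) .nil)) (.cons 202 (.cons 222 (.leaf 223 1585 (.cons 249 (.leaf 178 1421 (.cons 177 (.leaf 248 1414 (.cons 152 (.leaf 176 1223 (.cons 153 (.leaf 128 1031 (.cons 226 (.leaf 250 1228 (.leaf 129 1036 .nil)) .nil)) .nil)) .nil)) .nil)) .nil)) (.cons 203 (.leaf 204 1602 (.cons 223 (.leaf 200 1594 (.leaf 222 1585 .nil)) .nil)) (.cons 178 (.leaf 249 1421 (.cons 154 (.leaf 130 1038 (.cons 203 (.leaf 204 1602 (.cons 251 (.leaf 227 1431 (.cons 226 (.leaf 250 1428 (.cons 153 (.leaf 129 1039 (.cons 177 (.leaf 248 1222 (.cons 128 (.leaf 152 1031 (.cons 155 (.leaf 131 1045 (.cons 176 (.leaf 175 1400 (.leaf 156 1218 .nil)) .nil)) .nil)) .nil)) .nil)) .nil)) .nil)) .nil)) .nil)) .nil)) .nil))) (.cons 249 (.leaf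 296 1606 (.cons 176 (.leaf 200 1415 (.cons 177 (.leaf 152 1223 (.cons 178 (.leaf 202 1421 (.leaf 154 1229 .nil)) .nil)) .nil)) .nil)) (.cons 296 (.leaf 248 1605 (.leaf 249 1606 .nil)) .nil))))
noncomputable def t37 : T := .cons 200 (.leaf 248 1604 (.leaf 249 1607 .nil)) (.cons 248 (.leaf 200 1604 (.cons 321 (.leaf 296 1796 (.leaf 345 1991 .nil)) .nil)) (.cons 249 (.leaf 200 1607 (.cons 296 (.leaf 320 1798 (.cons 226 (.leaf 202 1613 (.cons 298 (.leaf 322 1804 (.cons 299 (.leaf 300 2179 (.cons 323 (.leaf 324 2368 (.cons 251 (.leaf 250 1815 (.cons 252 (.leaf 228 1821 (.leaf 227 1792 .nil)) .nil)) .nil)) .nil)) .nil)) .nil)) .nil)) .nil)) (.cons 249 (.cons 202 (.leaf 226 1613 (.cons 321 (.leaf 248 1799 (.cons 322 (.leaf 298 1804 (.leaf 346 1996 .nil)) .nil)) .nil)) (.cons 296 (.leaf 320 1798 (.cons 226 (.leaf 202 1613 (.cons 298 (.leaf 322 1804 (.cons 299 (.leaf 300 2179 (.cons 323 (.leaf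 324 2368 (.cons 251 (.leaf 250 1815 (.cons 252 (.leaf 228 1821 (.leaf 227 1792 .nil)) .nil)) .nil)) .nil)) .nil)) .nil)) .nil)) (.cons 296 (.leaf 320 1798 (.cons 321 (.leaf 248 1796 (.cons 322 (.leaf 298 1804 (.leaf 346 1996 .nil)) .nil)) .nil)) (.cons 202 (.leaf 226 1613 (.cons 320 (.leaf 296 1798 (.cons 321 (.leaf 248 1799 (.leaf 344 1990 .nil)) .nil)) .nil)) .nil)))) .nil)))
noncomputable def t38 : T := .cons 200 (.leaf 297 1604 (.cons 176 (.cons 151 (.leaf 175 1215 (.cons 152 (.leaf 127 1023 (.cons 153 (.leaf 129 1029 (.leaf 177 1221 .nil)) .nil)) .nil)) (.cons 201 (.leaf 296 1605 (.cons 151 (.leaf 175 1215 (.cons 152 (.leaf 127 1023 (.leaf 128 1028 .nil)) .nil)) .nil)) (.cons 201 (.leaf 177 1413 (.leaf 296 1605 .nil)) .nil))) .nil)) (.cons 200 (.leaf 297 1604 (.cons 176 (.cons 151 (.leaf 175 1215 (.cons 152 (.leaf 127 1023 (.cons 153 (.leaf 129 1029 (.leaf 177 1221 .nil)) .nil))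 .nil)) (.cons 151 (.leaf 175 1215 (.cons 152 (.leaf 127 1023 (.cons 128 (.leaf 201 1028 (.cons 129 (.leaf 153 1029 (.leaf 105 837 .nil)) .nil)) .nil)) .nil)) (.cons 201 (.leaf 177 1413 (.cons 151 (.leaf 175 1215 (.cons 152 (.leaf 127 1023 (.leaf 128 1028 .nil)) .nil)) .nil)) (.cons 177 (.leaf 201 1413 (.leaf 153 1221 .nil)) .nil)))) .nil)) (.cons 297 (.leaf 200 1604 (.cons 321 (.leaf 296 1796 (.leaf 345 1991 .nil)) .nil)) (.cons 201 (.leaf 296 1605 (.cons 177 (.leaf 200 1413 (.leaf 153 1222 .nil)) .nil)) (.cons 296 (.leaf 201 1605 (.cons 319 (.leaf 295 1790 (.cons 320 (.leaf 343 1982 (.cons 321 (.leaf 297 1796 (.leaf 345 1988 .nil)) .nil)) .nil)) .nil)) .nil))))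
noncomputable def t39 : T := .cons 249 (.cons 201 (.leaf 296 1606 (.cons 176 (.leaf 200 1415 (.cons 177 (.leaf 248 1414 (.leaf 152 1223 .nil)) .nil)) .nil)) (.cons 297 (.leaf 200 1607 (.cons 202 (.leaf 226 1613 (.cons 321 (.leaf 248 1799 (.cons 322 (.leaf 298 1804 (.leaf 346 1996 .nil)) .nil)) .nil)) .nil)) (.cons 296 (.leaf 201 1606 (.cons 320 (.leaf 344 1989 (.leaf 297 1798 .nil)) .nil)) .nil))) (.cons 248 t38 (.cons 249 (.cons 201 (.leaf 296 1606 (.cons 176 (.leaf 200 1415 (.cons 177 (.leaf 152 1223 (.cons 178 (.leaf 202 1421 (.leaf 154 1229 .nil)) .nil)) .nil)) .nil)) (.cons 297 (.leaf 200 1607 (.cons 296 (.leaf 320 1798 (.cons 226 (.leaf 202 1613 (.cons 298 (.leaf 322 1804 (.cons 299 (.leaf 300 2179 (.cons 323 (.leaf 324 2368 (.cons 251 (.leaf 250 1815 (.cons 252 (.leaf 228 1821 (.leaf 227 1792 .nil)) .nil)) .nil)) .nil)) .nil)) .nil)) .nil)) .nil)) (.cons 200 (.leaf 297 1607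 (.cons 176 (.leaf 201 1415 (.leaf 152 1220 .nil)) .nil)) (.cons 296 (.leaf 201 1606 (.cons 320 (.leaf 344 1989 (.leaf 297 1798 .nil)) .nil)) .nil)))) (.cons 297 t37 (.cons 201 t36 (.cons 249 t35 (.cons 249 t34 .nil))))))
noncomputable def t40 : T := .cons 225 (.leaf 201 1605 (.cons 223 (.leaf 199 1599 (.cons 295 (.leaf 319 1790 (.cons 247 (.leaf 320 1791 (.cons 246 (.leaf 245 1960 (.leaf 226 1778 .nil)) .nil)) .nil)) .nil)) .nil)) (.cons 223 (.leaf 199 1599 (.cons 319 (.leaf 295 1790 (.cons 320 (.leaf 247 1791 (.leaf 343 1982 .nil)) .nil)) .nil)) (.cons 225 (.leaf 201 1605 (.cons 319 (.leaf 295 1790 (.cons 320 (.leaf 249 1797 (.leaf 343 1982 .nil)) .nil)) .nil)) (.cons 225 (.leaf 201 1605 (.cons 223 (.leaf 199 1599 (.cons 247 (.leaf 320 1791 (.cons 246 (.leaf 245 1960 (.leaf 226 1778 .nil)) .nil)) .nil)) .nil)) (.cons 225 (.leaf 201 1605 (.cons 223 (.leaf 199 1599 (.cons 295 (.leaf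 319 1790 (.cons 294 (.leaf 293 2153 (.cons 226 (.cons 202 (.leaf 203 1593 (.cons 251 (.leaf 250 1784 (.cons 227 (.leaf 299 1623 (.leaf 247 1786 .nil)) .nil)) .nil)) (.cons 202 (.leaf 203 1593 (.cons 251 (.leaf 250 1784 (.cons 227 (.leaf 299 1623 (.leaf 252 1792 .nil)) .nil)) .nil)) (.cons 202 (.leaf 203 1593 (.cons 246 (.leaf 247 1778 (.cons 222 (.leaf 245 1770 (.cons 197 (.leaf 198 1579 (.cons 221 (.leaf 196 1571 (.leaf 249 1768 .nil)) .nil)) .nil)) .nil)) .nil)) (.cons 247 (.leaf 246 1778 (.leaf 227 1786 .nil)) .nil)))) .nil)) .nil)) .nil)) .nil)) .nil))))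
noncomputable def t41 : T := .cons 248 (.leaf 200 1604 (.cons 321 (.leaf 296 1796 (.leaf 345 1991 .nil)) .nil)) (.cons 249 (.cons 202 (.leaf 226 1613 (.cons 321 (.leaf 248 1799 (.cons 322 (.leaf 298 1804 (.leaf 346 1996 .nil)) .nil)) .nil)) (.cons 296 (.leaf 320 1798 (.cons 226 (.leaf 202 1613 (.cons 298 (.leaf 322 1804 (.cons 299 (.leaf 300 2179 (.cons 323 (.leaf 324 2368 (.cons 251 (.leaf 250 1815 (.cons 252 (.leaf 228 1821 (.leaf 227 1792 .nil)) .nil)) .nil)) .nil)) .nil)) .nil)) .nil)) (.cons 296 (.leaf 320 1798 (.cons 321 (.leaf 248 1796 (.cons 322 (.leaf 298 1804 (.leaf 346 1996 .nil)) .nil)) .nil)) (.cons 202 (.leaf 226 1613 (.cons 320 (.leaf 296 1798 (.cons 321 (.leaf 248 1799 (.leaf 344 1990 .nil)) .nil)) .nil)) .nil)))) (.cons 249 (.leaf 200 1607 (.cons 296 (.leaf 320 1798 (.cons 226 (.leaf 202 1613 (.cons 298 (.leaf 322 1804 (.cons 299 (.leaf 300 2179 (.cons 323 (.leaf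 324 2368 (.cons 251 (.leaf 250 1815 (.cons 252 (.leaf 228 1821 (.leaf 227 1792 .nil)) .nil)) .nil)) .nil)) .nil)) .nil)) .nil)) .nil)) (.cons 200 (.leaf 248 1604 (.leaf 249 1607 .nil)) .nil)))
noncomputable def t42 : T := .cons 200 (.leaf 176 1415 (.cons 178 (.leaf 202 1421 (.cons 177 (.leaf 248 1413 (.leaf 154 1229 .nil)) .nil)) .nil)) (.cons 200 (.leaf 176 1415 (.cons 202 (.leaf 178 1421 (.cons 203 (.leaf 204 1602 (.cons 227 (.leaf 228 1600 (.cons 199 (.leaf 226 1592 (.cons 175 (.leaf 248 1407 (.leaf 174 1395 .nil)) .nil)) .nil)) .nil)) .nil)) .nil)) (.cons 177 (.leaf 248 1414 (.cons 152 (.leaf 176 1223 (.cons 153 (.leaf 128 1031 (.cons 154 (.leaf 130 1037 (.leaf 178 1229 .nil)) .nil)) .nil)) .nil)) (.cons 200 (.leaf 176 1415 (.cons 178 (.leaf 202 1421 (.cons 177 (.leaf 154 1229 (.cons 153 (.leaf 129 1030 (.cons 128 (.leaf 152 1031 (.cons 179 (.leaf 180 1410 (.cons 199 (.leaf 198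 1393 (.cons 226 (.leaf 227 1595 (.leaf 250 1228 .nil)) .nil)) .nil)) .nil)) .nil)) .nil)) .nil)) .nil)) (.cons 177 (.leaf 248 1414 (.cons 178 (.leaf 202 1421 (.leaf 154 1229 .nil)) .nil)) (.cons 200 (.leaf 176 1415 (.cons 177 (.leaf 248 1413 (.cons 153 (.leaf 129 1030 (.cons 128 (.leaf 152 1031 (.cons 226 (.leaf 250 1228 (.cons 199 (.leaf 227 1595 (.leaf 198 1584 .nil)) .nil)) .nil)) .nil)) .nil)) .nil)) .nil)))))
noncomputable def t43 : T := .cons 200 (.cons 297 (.leaf 248 1604 (.leaf 249 1607 .nil)) (.cons 249 (.leaf 297 1607 (.cons 176 (.leaf 201 1415 (.leaf 152 1220 .nil)) .nil)) (.cons 248 (.leaf 297 1604 (.cons 199 (.leaf 175 1407 (.cons 198 (.leaf 197 1576 (.cons 201 (.leaf 177 1413 (.leaf 296 1605 .nil)) .nil)) .nil)) .nil)) (.cons 248 (.cons 175 (.leaf 199 1407 (.cons 176 (.leaf 249 1412 (.leaf 151 1215 .nil)) .nil)) (.cons 201 (.leaf 177 1413 (.leaf 296 1605 .nil)) .nil))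 .nil)))) (.cons 248 (.cons 297 (.leaf 200 1604 (.cons 321 (.leaf 296 1796 (.leaf 345 1991 .nil)) .nil)) (.cons 296 (.leaf 201 1605 (.cons 319 (.leaf 295 1790 (.cons 320 (.leaf 343 1982 (.cons 321 (.leaf 297 1796 (.leaf 345 1988 .nil)) .nil)) .nil)) .nil)) (.cons 200 (.leaf 297 1604 (.cons 175 (.leaf 199 1407 (.cons 176 (.leaf 151 1215 (.cons 177 (.leaf 201 1413 (.leaf 153 1221 .nil)) .nil)) .nil)) .nil)) (.cons 201 (.leaf 296 1605 (.cons 177 (.leaf 200 1413 (.leaf 153 1222 .nil)) .nil)) .nil)))) (.cons 249 (.cons 296 (.leaf 201 1606 (.cons 320 (.leaf 344 1989 (.leaf 297 1798 .nil)) .nil)) (.cons 201 (.leaf 296 1606 (.cons 176 (.leaf 200 1415 (.cons 177 (.leaf 152 1223 (.cons 178 (.leaf 202 1421 (.leaf 154 1229 .nil)) .nil)) .nil)) .nil)) (.cons 297 (.leaf 200 1607 (.cons 226 (.leaf 202 1613 (.cons 296 (.leaf 320 1798 (.cons 298 (.leaf 322 1804 (.cons 299 (.leaf 300 2179 (.cons 323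 (.leaf 324 2368 (.cons 251 (.leaf 250 1815 (.cons 252 (.leaf 228 1821 (.leaf 227 1792 .nil)) .nil)) .nil)) .nil)) .nil)) .nil)) .nil)) .nil)) (.cons 200 (.leaf 297 1607 (.cons 176 (.leaf 201 1415 (.leaf 152 1220 .nil)) .nil)) .nil)))) (.cons 296 (.cons 201 (.leaf 248 1605 (.leaf 249 1606 .nil)) (.cons 320 (.cons 249 (.leaf 248 1797 (.leaf 344 1989 .nil)) (.cons 248 (.cons 319 (.leaf 295 1790 (.leaf 343 1982 .nil)) (.cons 321 (.leaf 297 1796 (.leaf 345 1988 .nil)) .nil)) (.cons 249 (.leaf 344 1989 (.leaf 297 1798 .nil)) .nil))) (.cons 249 (.leaf 201 1606 (.cons 320 (.leaf 344 1989 (.leaf 297 1798 .nil)) .nil)) (.cons 248 (.leaf 201 1605 (.cons 319 (.leaf 295 1790 (.cons 320 (.leaf 343 1982 (.cons 321 (.leaf 297 1796 (.leaf 345 1988 .nil)) .nil)) .nil)) .nil)) .nil)))) (.cons 201 (.cons 296 (.leaf 248 1605 (.leaf 249 1606 .nil)) (.cons 249 t42 (.cons 248 (.leaf 296 1605 (.cons 177 (.leaf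 200 1413 (.leaf 153 1222 .nil)) .nil)) (.cons 249 (.leaf 296 1606 (.cons 176 (.leaf 200 1415 (.cons 177 (.leaf 152 1223 (.cons 178 (.leaf 202 1421 (.leaf 154 1229 .nil)) .nil)) .nil)) .nil)) .nil)))) (.cons 297 t41 (.cons 200 (.cons 248 (.leaf 297 1604 (.cons 175 (.leaf 199 1407 (.cons 176 (.leaf 249 1412 (.leaf 151 1215 .nil)) .nil)) .nil)) (.cons 248 (.cons 175 (.leaf 199 1407 (.cons 176 (.leaf 249 1412 (.leaf 151 1215 .nil)) .nil)) (.cons 201 (.leaf 177 1413 (.cons 199 (.leaf 175 1407 (.cons 198 (.leaf 197 1576 (.leaf 226 1584 .nil)) .nil)) .nil)) (.cons 176 (.leaf 249 1412 (.cons 151 (.leaf 175 1215 (.cons 152 (.leaf 127 1023 (.cons 153 (.leaf 129 1029 (.leaf 177 1221 .nil)) .nil)) .nil)) .nil)) (.cons 201 (.leaf 177 1413 (.cons 249 (.leaf 176 1412 (.cons 202 (.leaf 178 1421 (.cons 203 (.leaf 204 1602 (.cons 179 (.leaf 180 1409 (.cons 227 (.leaf 228 1600 (.cons 226 (.leaf 199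 1592 (.leaf 247 1786 .nil)) .nil)) .nil)) .nil)) .nil)) .nil)) .nil)) .nil)))) (.cons 249 (.leaf 297 1607 (.cons 176 (.leaf 201 1415 (.leaf 152 1220 .nil)) .nil)) (.cons 248 (.leaf 297 1604 (.cons 201 (.leaf 177 1413 (.cons 199 (.leaf 175 1407 (.cons 198 (.leaf 197 1576 (.leaf 226 1584 .nil)) .nil)) .nil)) .nil)) .nil)))) .nil))))))
noncomputable def t44 : T := .cons 200 (.leaf 297 1604 (.cons 199 (.leaf 175 1407 (.cons 176 (.leaf 249 1412 (.cons 223 (.leaf 296 1599 (.cons 152 (.leaf 247 1214 (.leaf 128 1022 .nil)) .nil)) .nil)) .nil)) .nil)) (.cons 296 (.cons 295 (.leaf 319 1790 (.cons 294 (.leaf 293 2153 (.cons 200 (.cons 176 (.leaf 249 1412 (.cons 151 (.leaf 175 1215 (.cons 152 (.leaf 127 1023 (.cons 153 (.leaf 129 1029 (.leaf 177 1221 .nil)) .nil)) .nil)) .nil)) (.cons 199 (.leaf 175 1407 (.leaf 223 1599 .nil)) (.cons 176 (.leaf 249 1412 (.cons 153 (.leaf 177 1221 (.cons 152 (.leaf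 129 1029 (.cons 223 (.leaf 199 1599 (.leaf 247 1214 .nil)) .nil)) .nil)) .nil)) .nil))) .nil)) .nil)) (.cons 319 (.leaf 295 1790 (.cons 320 (.leaf 343 1982 (.cons 249 (.leaf 225 1797 (.leaf 344 1989 .nil)) .nil)) .nil)) (.cons 223 (.leaf 199 1599 (.cons 320 (.leaf 247 1791 (.cons 249 (.leaf 225 1797 (.leaf 344 1989 .nil)) .nil)) .nil)) (.cons 223 (.leaf 199 1599 (.cons 319 (.leaf 295 1790 (.cons 320 (.leaf 247 1791 (.leaf 343 1982 .nil)) .nil)) .nil)) .nil)))) (.cons 296 (.cons 223 (.leaf 199 1599 (.cons 320 (.leaf 247 1791 (.cons 249 (.leaf 225 1797 (.leaf 344 1989 .nil)) .nil)) .nil)) (.cons 321 (.leaf 297 1796 (.cons 319 (.leaf 295 1790 (.cons 320 (.leaf 343 1982 (.leaf 345 1988 .nil)) .nil)) .nil)) (.cons 223 (.leaf 199 1599 (.cons 295 (.leaf 319 1790 (.cons 294 (.leaf 293 2153 (.cons 297 (.leaf 321 1796 (.cons 270 (.leaf 269 2155 (.cons 318 (.leaf 317 2346 (.cons 246 (.leaf 247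 1781 (.cons 221 (.leaf 245 1775 (.cons 222 (.leaf 249 1768 (.leaf 197 1583 .nil)) .nil)) .nil)) .nil)) .nil)) .nil)) .nil)) .nil)) .nil)) .nil))) (.cons 200 (.leaf 297 1604 (.cons 175 (.leaf 199 1407 (.cons 176 (.leaf 249 1412 (.leaf 151 1215 .nil)) .nil)) .nil)) (.cons 297 (.leaf 200 1604 (.cons 321 (.leaf 296 1796 (.leaf 345 1991 .nil)) .nil)) .nil))))
noncomputable def t45 : T := .cons 223 (.leaf 199 1599 (.cons 297 (.leaf 321 1796 (.cons 295 (.leaf 319 1790 (.cons 294 (.leaf 293 2153 (.cons 270 (.leaf 269 2155 (.cons 318 (.leaf 317 2346 (.cons 246 (.leaf 247 1781 (.cons 221 (.leaf 245 1775 (.cons 222 (.leaf 249 1768 (.leaf 197 1583 .nil)) .nil)) .nil)) .nil)) .nil)) .nil)) .nil)) .nil)) .nil)) (.cons 223 (.leaf 199 1599 (.cons 247 (.leaf 320 1791 (.cons 246 (.leaf 245 1960 (.cons 295 (.leaf 319 1790 (.cons 294 (.leaf 293 2153 (.cons 270 (.leaf 318 1781 (.cons 249 (.leaf 269 1962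 (.cons 222 (.leaf 221 1768 (.leaf 250 1779 .nil)) .nil)) .nil)) .nil)) .nil)) .nil)) .nil)) .nil)) (.cons 321 (.leaf 297 1796 (.cons 319 (.leaf 295 1790 (.cons 320 (.leaf 343 1982 (.leaf 345 1988 .nil)) .nil)) .nil)) (.cons 321 (.leaf 297 1796 (.cons 199 (.leaf 223 1599 (.cons 320 (.leaf 345 1988 (.cons 343 (.leaf 319 1982 (.cons 344 (.leaf 249 1989 (.leaf 367 2174 .nil)) .nil)) .nil)) .nil)) .nil)) (.cons 321 (.leaf 297 1796 (.cons 223 (.leaf 199 1599 (.cons 320 (.leaf 247 1791 (.leaf 345 1988 .nil)) .nil)) .nil)) .nil))))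
noncomputable def t46 : T := .cons 296 (.cons 223 (.leaf 199 1599 (.cons 297 (.leaf 200 1604 (.leaf 321 1796 .nil)) .nil)) (.cons 223 (.leaf 199 1599 (.cons 247 (.leaf 320 1791 (.cons 246 (.leaf 245 1960 (.cons 295 (.leaf 319 1790 (.cons 294 (.leaf 293 2153 (.cons 270 (.leaf 318 1781 (.cons 249 (.leaf 269 1962 (.cons 222 (.leaf 221 1768 (.leaf 250 1779 .nil)) .nil)) .nil)) .nil)) .nil)) .nil)) .nil)) .nil)) (.cons 297 (.leaf 200 1604 (.leaf 321 1796 .nil)) .nil))) (.cons 296 t45 (.cons 200 (.cons 176 (.leaf 249 1412 (.cons 153 (.leaf 177 1221 (.cons 152 (.leaf 129 1029 (.cons 127 (.leaf 151 1023 (.cons 128 (.leaf 103 831 (.cons 223 (.leaf 247 1214 (.leaf 199 1022 .nil)) .nil)) .nil)) .nil)) .nil)) .nil)) (.cons 177 (.leaf 201 1413 (.cons 199 (.leaf 175 1407 (.cons 296 (.leaf 223 1599 (.cons 319 (.leaf 295 1790 (.cons 320 (.leaf 343 1982 (.cons 344 (.leaf 249 1989 (.cons 345 (.leaf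 321 1988 (.leaf 369 2180 .nil)) .nil)) .nil)) .nil)) .nil)) .nil)) .nil)) (.cons 176 (.leaf 249 1412 (.cons 177 (.leaf 201 1413 (.leaf 153 1221 .nil)) .nil)) (.cons 199 (.leaf 175 1407 (.cons 176 (.leaf 249 1412 (.cons 223 (.leaf 296 1599 (.cons 152 (.leaf 247 1214 (.leaf 128 1022 .nil)) .nil)) .nil)) .nil)) (.cons 175 (.leaf 199 1407 (.cons 176 (.leaf 151 1215 (.cons 177 (.leaf 201 1413 (.leaf 153 1221 .nil)) .nil)) .nil)) .nil))))) (.cons 200 (.leaf 297 1604 (.cons 176 (.leaf 249 1412 (.cons 153 (.leaf 177 1221 (.cons 152 (.leaf 129 1029 (.cons 127 (.leaf 151 1023 (.cons 128 (.leaf 103 831 (.cons 223 (.leaf 247 1214 (.leaf 199 1022 .nil)) .nil)) .nil)) .nil)) .nil)) .nil)) .nil)) (.cons 200 (.leaf 297 1604 (.cons 175 (.leaf 199 1407 (.cons 176 (.leaf 151 1215 (.cons 177 (.leaf 201 1413 (.leaf 153 1221 .nil)) .nil)) .nil)) .nil)) (.cons 297 (.leaf 200 1604 (.cons 321 (.leaf 296 1796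 (.leaf 345 1991 .nil)) .nil)) .nil)))))
noncomputable def t47 : T := .cons 248 (.leaf 297 1604 (.cons 176 (.leaf 249 1412 (.cons 151 (.leaf 175 1215 (.cons 152 (.leaf 127 1023 (.cons 153 (.leaf 129 1029 (.leaf 177 1221 .nil)) .nil)) .nil)) .nil)) .nil)) (.cons 248 (.cons 176 (.leaf 249 1412 (.cons 151 (.leaf 175 1215 (.cons 152 (.leaf 127 1023 (.cons 153 (.leaf 129 1029 (.leaf 177 1221 .nil)) .nil)) .nil)) .nil)) (.cons 199 (.leaf 175 1407 (.cons 198 (.leaf 197 1576 (.cons 226 (.leaf 223 1587 (.leaf 227 1595 .nil)) .nil)) .nil)) (.cons 176 (.leaf 249 1412 (.cons 153 (.leaf 177 1221 (.cons 152 (.leaf 129 1029 (.cons 127 (.leaf 151 1023 (.cons 128 (.leaf 103 831 (.cons 223 (.leaf 247 1214 (.leaf 199 1022 .nil)) .nil)) .nil)) .nil)) .nil)) .nil)) .nil))) (.cons 249 (.leaf 297 1607 (.cons 176 (.leaf 152 1220 (.cons 226 (.cons 227 (.leaf 199 1595 (.cons 203 (.leaf 204 1601 (.cons 251 (.leaf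 252 1792 (.cons 202 (.leaf 178 1431 (.leaf 299 1623 .nil)) .nil)) .nil)) .nil)) (.cons 223 (.cons 250 (.leaf 222 1776 (.leaf 251 1784 .nil)) (.cons 198 (.leaf 199 1587 (.cons 202 (.leaf 203 1593 (.cons 154 (.leaf 178 1230 (.cons 222 (.leaf 197 1579 (.cons 246 (.leaf 245 1770 (.leaf 247 1778 .nil)) .nil)) .nil)) .nil)) .nil)) (.cons 198 (.leaf 199 1587 (.cons 202 (.leaf 203 1593 (.cons 178 (.leaf 250 1422 (.leaf 154 1230 .nil)) .nil)) .nil)) .nil))) (.cons 250 (.cons 202 (.leaf 178 1422 (.cons 223 (.leaf 203 1593 (.leaf 222 1776 .nil)) .nil)) (.cons 251 (.leaf 252 1986 (.cons 202 (.leaf 178 1428 (.cons 299 (.leaf 227 1623 (.leaf 323 1815 .nil)) .nil)) .nil)) (.cons 251 (.leaf 252 1986 (.leaf 223 1784 .nil)) .nil))) (.cons 199 (.leaf 227 1595 (.cons 198 (.leaf 197 1576 (.leaf 223 1587 .nil)) .nil)) .nil)))) .nil)) .nil)) (.cons 248 (.leaf 297 1604 (.cons 199 (.leaf 175 1407 (.cons 198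 (.leaf 197 1576 (.cons 226 (.leaf 223 1587 (.leaf 227 1595 .nil)) .nil)) .nil)) .nil)) .nil)))
noncomputable def t48 : T := .cons 248 (.leaf 297 1604 (.cons 199 (.leaf 175 1407 (.cons 198 (.leaf 197 1576 (.cons 201 (.leaf 177 1413 (.cons 173 (.leaf 174 1387 (.cons 222 (.leaf 221 1578 (.cons 202 (.leaf 223 1585 (.cons 178 (.leaf 249 1421 (.leaf 179 1401 .nil)) .nil)) .nil)) .nil)) .nil)) .nil)) .nil)) .nil)) (.cons 248 (.cons 199 (.leaf 175 1407 (.cons 198 (.leaf 197 1576 (.cons 201 (.leaf 177 1413 (.cons 173 (.leaf 174 1387 (.cons 222 (.leaf 221 1578 (.cons 202 (.leaf 223 1585 (.cons 178 (.leaf 249 1421 (.leaf 179 1401 .nil)) .nil)) .nil)) .nil)) .nil)) .nil)) .nil)) (.cons 175 (.leaf 199 1407 (.cons 176 (.leaf 249 1412 (.leaf 151 1215 .nil)) .nil)) (.cons 199 (.leaf 175 1407 (.cons 198 (.leaf 197 1576 (.cons 201 (.leaf 177 1413 (.cons 173 (.leaf 174 1387 (.cons 222 (.leaf 221 1578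 (.cons 202 (.leaf 223 1585 (.cons 178 (.leaf 179 1401 (.cons 203 (.leaf 204 1602 (.cons 227 (.leaf 251 1431 (.leaf 228 1600 .nil)) .nil)) .nil)) .nil)) .nil)) .nil)) .nil)) .nil)) .nil)) (.cons 176 (.leaf 249 1412 (.cons 177 (.leaf 201 1413 (.leaf 153 1221 .nil)) .nil)) .nil)))) (.cons 249 (.leaf 297 1607 (.cons 176 (.leaf 201 1415 (.leaf 152 1220 .nil)) .nil)) (.cons 248 (.leaf 297 1604 (.cons 199 (.leaf 175 1407 (.cons 198 (.leaf 197 1576 (.cons 201 (.leaf 177 1413 (.cons 173 (.leaf 174 1387 (.cons 222 (.leaf 221 1578 (.cons 202 (.leaf 223 1585 (.cons 178 (.leaf 179 1401 (.cons 203 (.leaf 204 1602 (.cons 227 (.leaf 251 1431 (.leaf 228 1600 .nil)) .nil)) .nil)) .nil)) .nil)) .nil)) .nil)) .nil)) .nil)) .nil)) (.cons 297 (.leaf 248 1604 (.leaf 249 1607 .nil)) .nil))))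
noncomputable def t49 : T := .cons 223 (.cons 202 (.leaf 203 1593 (.cons 201 (.leaf 222 1585 (.cons 178 (.leaf 249 1421 (.cons 250 (.leaf 251 1784 (.cons 153 (.leaf 177 1228 (.cons 154 (.leaf 130 1038 (.leaf 129 1039 .nil)) .nil)) .nil)) .nil)) .nil)) .nil)) (.cons 198 (.leaf 199 1587 (.cons 222 (.leaf 197 1579 (.cons 246 (.leaf 245 1770 (.leaf 247 1778 .nil)) .nil)) .nil)) (.cons 198 (.leaf 199 1587 (.cons 202 (.leaf 203 1593 (.cons 246 (.leaf 247 1778 (.cons 250 (.leaf 251 1784 (.cons 178 (.leaf 249 1422 (.cons 153 (.leaf 177 1231 (.cons 154 (.leaf 129 1039 (.cons 155 (.leaf 131 1045 (.leaf 179 1237 .nil)) .nil)) .nil)) .nil)) .nil)) .nil)) .nil)) .nil)) .nil))) (.cons 227 (.cons 199 (.leaf 200 1595 (.cons 203 (.leaf 204 1601 (.cons 251 (.leaf 252 1792 (.cons 202 (.leaf 178 1431 (.leaf 299 1623 .nil)) .nil)) .nil)) .nil)) (.cons 199 (.leaf 200 1595 (.cons 203 (.leaf 204 1601 (.cons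 248 (.leaf 247 1786 (.cons 228 (.leaf 249 1794 (.cons 253 (.leaf 252 1800 (.cons 229 (.leaf 254 1808 (.cons 202 (.leaf 201 1611 (.leaf 230 1619 .nil)) .nil)) .nil)) .nil)) .nil)) .nil)) .nil)) (.cons 251 (.leaf 252 1792 (.cons 202 (.leaf 299 1623 (.cons 178 (.leaf 203 1431 (.leaf 250 1428 .nil)) .nil)) .nil)) (.cons 199 (.leaf 200 1595 (.cons 204 (.leaf 203 1601 (.cons 228 (.leaf 205 1609 (.cons 248 (.leaf 247 1786 (.leaf 249 1794 .nil)) .nil)) .nil)) .nil)) (.cons 251 (.leaf 252 1792 (.cons 202 (.leaf 299 1623 (.cons 178 (.leaf 250 1428 (.leaf 154 1236 .nil)) .nil)) .nil)) .nil))))) (.cons 223 (.cons 198 (.leaf 199 1587 (.cons 203 (.leaf 202 1593 (.cons 227 (.leaf 204 1601 (.cons 247 (.leaf 246 1778 (.leaf 248 1786 .nil)) .nil)) .nil)) .nil)) (.cons 202 (.leaf 203 1593 (.cons 201 (.leaf 222 1585 (.cons 178 (.leaf 249 1421 (.cons 130 (.leaf 154 1038 (.cons 247 (.leaf 246 1778 (.cons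 227 (.leaf 248 1786 (.cons 228 (.leaf 200 1603 (.leaf 229 1611 .nil)) .nil)) .nil)) .nil)) .nil)) .nil)) .nil)) (.cons 199 (.leaf 198 1587 (.cons 200 (.leaf 227 1595 (.cons 175 (.leaf 248 1407 (.cons 127 (.leaf 151 1020 (.cons 246 (.leaf 247 1778 (.cons 222 (.leaf 245 1770 (.cons 221 (.leaf 201 1577 (.leaf 220 1569 .nil)) .nil)) .nil)) .nil)) .nil)) .nil)) .nil)) (.cons 198 (.leaf 199 1587 (.cons 202 (.leaf 203 1593 (.cons 222 (.leaf 197 1579 (.leaf 201 1585 .nil)) .nil)) .nil)) .nil)))) (.cons 227 (.cons 203 (.leaf 204 1601 (.cons 247 (.leaf 248 1786 (.cons 223 (.leaf 246 1778 (.cons 251 (.leaf 250 1784 (.leaf 252 1792 .nil)) .nil)) .nil)) .nil)) (.cons 248 (.leaf 247 1786 (.cons 199 (.leaf 200 1595 (.cons 198 (.leaf 223 1587 (.cons 228 (.leaf 249 1794 (.cons 205 (.leaf 204 1609 (.cons 229 (.leaf 206 1617 (.cons 253 (.leaf 252 1800 (.leaf 254 1808 .nil)) .nil)) .nil)) .nil)) .nil))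 .nil)) .nil)) (.cons 251 (.leaf 252 1792 (.cons 199 (.leaf 200 1595 (.cons 223 (.leaf 198 1587 (.leaf 250 1784 .nil)) .nil)) .nil)) (.cons 248 (.leaf 247 1786 (.cons 199 (.leaf 200 1595 (.cons 198 (.leaf 223 1587 (.cons 204 (.leaf 203 1601 (.cons 228 (.leaf 205 1609 (.leaf 249 1794 .nil)) .nil)) .nil)) .nil)) .nil)) (.cons 248 (.leaf 247 1786 (.cons 199 (.leaf 200 1595 (.cons 203 (.leaf 204 1601 (.cons 228 (.leaf 249 1794 (.cons 252 (.leaf 251 1792 (.leaf 253 1800 .nil)) .nil)) .nil)) .nil)) .nil)) .nil))))) (.cons 227 (.cons 203 (.leaf 204 1601 (.cons 247 (.leaf 248 1786 (.cons 223 (.leaf 202 1593 (.leaf 246 1778 .nil)) .nil)) .nil)) (.cons 247 (.leaf 248 1786 (.cons 223 (.leaf 246 1778 (.cons 251 (.leaf 250 1784 (.leaf 252 1792 .nil)) .nil)) .nil)) (.cons 203 (.leaf 204 1601 (.cons 202 (.leaf 223 1593 (.cons 251 (.leaf 178 1431 (.leaf 299 1623 .nil)) .nil)) .nil)) (.cons 203 (.leaf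 204 1601 (.cons 247 (.leaf 248 1786 (.cons 251 (.leaf 252 1792 (.cons 202 (.leaf 178 1431 (.leaf 299 1623 .nil)) .nil)) .nil)) .nil)) .nil)))) (.cons 227 (.cons 199 (.leaf 200 1595 (.cons 198 (.leaf 223 1587 (.cons 251 (.leaf 252 1792 (.cons 202 (.leaf 299 1623 (.cons 178 (.leaf 250 1428 (.leaf 154 1236 .nil)) .nil)) .nil)) .nil)) .nil)) (.cons 248 (.leaf 247 1786 (.cons 199 (.leaf 200 1595 (.cons 198 (.leaf 223 1587 (.cons 228 (.leaf 249 1794 (.cons 205 (.leaf 204 1609 (.cons 229 (.leaf 206 1617 (.cons 253 (.leaf 252 1800 (.leaf 254 1808 .nil)) .nil)) .nil)) .nil)) .nil)) .nil)) .nil)) (.cons 251 (.leaf 252 1792 (.cons 202 (.leaf 299 1623 (.cons 178 (.leaf 250 1428 (.leaf 154 1236 .nil)) .nil)) .nil)) (.cons 248 (.leaf 247 1786 (.cons 199 (.leaf 200 1595 (.cons 198 (.leaf 223 1587 (.cons 228 (.leaf 249 1794 (.cons 205 (.leaf 204 1609 (.cons 229 (.leaf 206 1617 (.cons 202 (.leaf 201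 1611 (.cons 251 (.leaf 299 1623 (.cons 178 (.leaf 250 1428 (.leaf 154 1236 .nil)) .nil)) .nil)) .nil)) .nil)) .nil)) .nil)) .nil)) .nil)) .nil)))) .nil)))))
noncomputable def t50 : T := .cons 226 (.cons 251 (.leaf 250 1784 (.cons 198 (.leaf 199 1587 (.cons 227 (.leaf 252 1792 (.cons 204 (.leaf 203 1601 (.cons 228 (.leaf 299 1629 (.leaf 205 1609 .nil)) .nil)) .nil)) .nil)) .nil)) (.cons 198 (.leaf 199 1587 (.cons 222 (.leaf 197 1579 (.cons 246 (.leaf 245 1770 (.leaf 247 1778 .nil)) .nil)) .nil)) (.cons 250 (.leaf 222 1776 (.leaf 251 1784 .nil)) .nil))) (.cons 226 (.cons 251 (.leaf 250 1784 (.cons 198 (.leaf 199 1587 (.cons 227 (.leaf 252 1792 (.cons 204 (.leaf 203 1601 (.cons 228 (.leaf 299 1629 (.leaf 205 1609 .nil)) .nil)) .nil)) .nil)) .nil)) (.cons 202 (.leaf 203 1593 (.cons 178 (.leaf 201 1421 (.leaf 250 1422 .nil)) .nil)) (.cons 202 (.leaf 203 1593 (.cons 178 (.leaf 201 1421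 (.leaf 154 1230 .nil)) .nil)) (.cons 250 (.leaf 251 1784 (.cons 178 (.leaf 202 1422 (.cons 199 (.leaf 198 1587 (.cons 200 (.leaf 227 1595 (.cons 176 (.leaf 201 1415 (.leaf 152 1220 .nil)) .nil)) .nil)) .nil)) .nil)) .nil)))) (.cons 201 (.cons 200 (.leaf 176 1415 (.cons 222 (.leaf 221 1577 (.leaf 202 1585 .nil)) .nil)) (.cons 200 (.leaf 176 1415 (.cons 222 (.leaf 221 1577 (.cons 197 (.leaf 198 1579 (.cons 246 (.leaf 245 1770 (.cons 226 (.leaf 247 1778 (.cons 227 (.leaf 199 1595 (.leaf 228 1603 .nil)) .nil)) .nil)) .nil)) .nil)) .nil)) (.cons 202 (.leaf 178 1421 (.leaf 222 1585 .nil)) (.cons 176 (.leaf 200 1415 (.cons 152 (.leaf 177 1223 (.cons 202 (.leaf 178 1421 (.cons 203 (.leaf 204 1602 (.leaf 226 1593 .nil)) .nil)) .nil)) .nil)) .nil)))) (.cons 222 (.leaf 250 1776 (.cons 197 (.leaf 198 1579 (.cons 201 (.leaf 202 1585 (.cons 200 (.leaf 176 1415 (.leaf 221 1577 .nil)) .nil)) .nil))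 .nil)) (.cons 250 (.leaf 222 1776 (.cons 251 (.leaf 252 1986 (.leaf 226 1784 .nil)) .nil)) .nil))))
noncomputable def t51 : T := .cons 202 (.leaf 297 1613 (.cons 178 (.leaf 201 1421 (.leaf 250 1422 .nil)) .nil)) (.cons 223 (.cons 202 (.leaf 203 1593 (.cons 222 (.leaf 201 1585 (.leaf 250 1776 .nil)) .nil)) (.cons 198 (.leaf 199 1587 (.cons 222 (.leaf 197 1579 (.cons 246 (.leaf 245 1770 (.leaf 247 1778 .nil)) .nil)) .nil)) (.cons 202 (.leaf 203 1593 (.cons 178 (.leaf 201 1421 (.leaf 250 1422 .nil)) .nil)) .nil))) (.cons 223 (.cons 250 (.leaf 222 1776 (.leaf 251 1784 .nil)) (.cons 198 (.leaf 199 1587 (.cons 222 (.leaf 197 1579 (.cons 246 (.leaf 245 1770 (.leaf 247 1778 .nil)) .nil)) .nil)) (.cons 198 (.leaf 199 1587 (.cons 200 (.leaf 297 1607 (.cons 176 (.leaf 201 1415 (.leaf 152 1220 .nil)) .nil)) .nil)) .nil))) (.cons 202 (.leaf 297 1613 (.cons 178 (.leaf 201 1421 (.leaf 154 1230 .nil))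 .nil)) (.cons 223 (.cons 198 (.leaf 199 1587 (.cons 222 (.leaf 197 1579 (.leaf 250 1776 .nil)) .nil)) (.cons 198 (.leaf 199 1587 (.cons 222 (.leaf 197 1579 (.cons 246 (.leaf 245 1770 (.leaf 247 1778 .nil)) .nil)) .nil)) (.cons 202 (.leaf 297 1613 (.leaf 203 1593 .nil)) .nil))) .nil))))
noncomputable def t52 : T := .cons 226 t51 (.cons 226 (.cons 223 (.cons 198 (.leaf 199 1587 (.cons 222 (.leaf 197 1579 (.leaf 250 1776 .nil)) .nil)) (.cons 198 (.leaf 199 1587 (.cons 222 (.leaf 197 1579 (.cons 246 (.leaf 245 1770 (.leaf 247 1778 .nil)) .nil)) .nil)) (.cons 202 (.leaf 297 1613 (.leaf 203 1593 .nil)) .nil))) (.cons 223 (.cons 198 (.leaf 199 1587 (.cons 222 (.leaf 197 1579 (.leaf 250 1776 .nil)) .nil)) (.cons 198 (.leaf 199 1587 (.cons 222 (.leaf 197 1579 (.cons 246 (.leaf 245 1770 (.leaf 247 1778 .nil)) .nil)) .nil)) (.cons 251 (.leaf 250 1784 (.cons 198 (.leaf 199 1587 (.cons 227 (.leaf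 252 1792 (.cons 204 (.leaf 203 1601 (.cons 228 (.leaf 299 1629 (.leaf 205 1609 .nil)) .nil)) .nil)) .nil)) .nil)) (.cons 250 (.leaf 222 1776 (.leaf 251 1784 .nil)) .nil)))) (.cons 202 (.leaf 297 1613 (.cons 178 (.leaf 201 1421 (.leaf 154 1230 .nil)) .nil)) .nil))) (.cons 223 t50 (.cons 200 (.leaf 297 1607 (.cons 176 (.leaf 201 1415 (.leaf 152 1220 .nil)) .nil)) (.cons 297 (.leaf 200 1607 (.cons 226 (.leaf 202 1613 (.cons 321 (.leaf 250 1805 (.cons 344 (.leaf 320 1990 (.cons 322 (.leaf 298 1804 (.leaf 346 1996 .nil)) .nil)) .nil)) .nil)) .nil)) .nil))))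
noncomputable def t53 : T := .cons 227 (.leaf 247 1786 (.cons 203 (.leaf 204 1601 (.cons 251 (.leaf 252 1792 (.cons 202 (.leaf 178 1431 (.leaf 299 1623 .nil)) .nil)) .nil)) .nil)) (.cons 223 (.cons 198 (.leaf 199 1587 (.cons 202 (.leaf 203 1593 (.cons 222 (.leaf 197 1579 (.leaf 201 1585 .nil)) .nil)) .nil)) (.cons 202 (.leaf 203 1593 (.cons 201 (.leaf 222 1585 (.cons 177 (.leaf 200 1413 (.leaf 153 1222 .nil)) .nil)) .nil)) (.cons 198 (.leaf 199 1587 (.cons 222 (.leaf 197 1579 (.cons 246 (.leaf 245 1770 (.leaf 247 1778 .nil)) .nil)) .nil)) (.cons 199 (.leaf 198 1587 (.cons 175 (.leaf 200 1407 (.leaf 247 1404 .nil)) .nil)) .nil)))) (.cons 199 (.cons 198 (.leaf 223 1587 (.cons 200 (.leaf 175 1407 (.leaf 197 1576 .nil)) .nil)) (.cons 223 (.leaf 198 1587 (.cons 151 (.leaf 175 1212 (.cons 202 (.leaf 203 1593 (.cons 201 (.leaf 222 1585 (.cons 153 (.leaf 177 1222 (.cons 251 (.leaf 250 1784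 (.cons 227 (.leaf 299 1623 (.leaf 252 1792 .nil)) .nil)) .nil)) .nil)) .nil)) .nil)) .nil)) (.cons 200 (.leaf 175 1407 (.leaf 227 1595 .nil)) (.cons 198 (.leaf 223 1587 (.cons 200 (.leaf 197 1576 (.leaf 227 1595 .nil)) .nil)) .nil)))) (.cons 227 (.leaf 247 1786 (.cons 199 (.leaf 200 1595 (.cons 198 (.leaf 223 1587 (.cons 204 (.leaf 203 1601 (.cons 228 (.leaf 205 1609 (.cons 251 (.leaf 299 1629 (.leaf 252 1792 .nil)) .nil)) .nil)) .nil)) .nil)) .nil)) (.cons 247 (.leaf 227 1786 (.cons 246 (.leaf 245 1960 (.leaf 223 1778 .nil)) .nil)) .nil))))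
noncomputable def t54 : T := .cons 223 (.cons 202 (.leaf 203 1593 (.cons 201 (.leaf 222 1585 (.cons 153 (.leaf 177 1222 (.cons 251 (.leaf 250 1784 (.cons 227 (.leaf 299 1623 (.leaf 247 1786 .nil)) .nil)) .nil)) .nil)) .nil)) (.cons 202 (.leaf 203 1593 (.cons 201 (.leaf 222 1585 (.cons 153 (.leaf 177 1222 (.cons 251 (.leaf 250 1784 (.cons 227 (.leaf 299 1623 (.leaf 252 1792 .nil)) .nil)) .nil)) .nil)) .nil)) (.cons 198 (.leaf 199 1587 (.cons 202 (.leaf 203 1593 (.cons 222 (.leaf 197 1579 (.leaf 201 1585 .nil)) .nil)) .nil)) (.cons 247 (.leaf 246 1778 (.leaf 227 1786 .nil)) .nil)))) (.cons 223 (.cons 198 (.leaf 199 1587 (.cons 202 (.leaf 203 1593 (.cons 222 (.leaf 197 1579 (.leaf 201 1585 .nil)) .nil)) .nil)) (.cons 246 (.leaf 247 1778 (.cons 202 (.leaf 203 1593 (.cons 222 (.leaf 201 1585 (.leaf 245 1770 .nil)) .nil)) .nil)) (.cons 247 (.leaf 246 1778 (.cons 199 (.leaf 175 1404 (.leaf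 198 1587 .nil)) .nil)) .nil))) (.cons 223 (.cons 198 (.leaf 199 1587 (.cons 202 (.leaf 203 1593 (.cons 222 (.leaf 197 1579 (.leaf 201 1585 .nil)) .nil)) .nil)) (.cons 251 (.leaf 250 1784 (.cons 198 (.leaf 199 1587 (.cons 197 (.leaf 222 1579 (.cons 227 (.leaf 252 1792 (.cons 204 (.leaf 203 1601 (.cons 228 (.leaf 299 1629 (.leaf 205 1609 .nil)) .nil)) .nil)) .nil)) .nil)) .nil)) (.cons 251 (.leaf 250 1784 (.cons 198 (.leaf 199 1587 (.cons 197 (.leaf 222 1579 (.cons 227 (.leaf 252 1792 (.cons 299 (.leaf 202 1623 (.cons 204 (.leaf 228 1629 (.cons 298 (.leaf 322 1814 (.cons 300 (.leaf 324 1820 (.leaf 297 2179 .nil)) .nil)) .nil)) .nil)) .nil)) .nil)) .nil)) .nil)) (.cons 251 (.leaf 250 1784 (.cons 202 (.leaf 203 1593 (.cons 227 (.leaf 299 1623 (.leaf 252 1792 .nil)) .nil)) .nil)) .nil)))) (.cons 227 (.leaf 247 1786 (.cons 203 (.leaf 204 1601 (.cons 251 (.leaf 252 1792 (.cons 202 (.leaf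 178 1431 (.leaf 299 1623 .nil)) .nil)) .nil)) .nil)) (.cons 247 (.leaf 227 1786 (.cons 246 (.leaf 245 1960 (.leaf 223 1778 .nil)) .nil)) .nil))))
noncomputable def t55 : T := .cons 200 (.leaf 297 1604 (.cons 177 (.leaf 201 1413 (.cons 153 (.leaf 176 1221 (.cons 199 (.leaf 175 1407 (.cons 198 (.leaf 197 1576 (.cons 226 (.leaf 223 1587 (.leaf 227 1595 .nil)) .nil)) .nil)) .nil)) .nil)) .nil)) (.cons 226 t54 (.cons 226 t53 (.cons 200 (.leaf 297 1604 (.cons 175 (.leaf 199 1407 (.cons 176 (.leaf 151 1215 (.cons 177 (.leaf 201 1413 (.leaf 153 1221 .nil)) .nil)) .nil)) .nil)) (.cons 200 (.leaf 297 1604 (.cons 199 (.leaf 175 1407 (.cons 198 (.leaf 197 1576 (.cons 226 (.leaf 223 1587 (.leaf 227 1595 .nil)) .nil)) .nil)) .nil)) (.cons 200 (.leaf 297 1604 (.cons 176 (.cons 151 (.leaf 175 1215 (.cons 152 (.leaf 127 1023 (.cons 153 (.leaf 129 1029 (.leaf 177 1221 .nil)) .nil)) .nil)) (.cons 151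 (.leaf 175 1215 (.cons 152 (.leaf 127 1023 (.cons 128 (.leaf 201 1028 (.cons 129 (.leaf 153 1029 (.leaf 105 837 .nil)) .nil)) .nil)) .nil)) (.cons 151 (.leaf 175 1215 (.cons 152 (.leaf 127 1023 (.cons 201 (.leaf 177 1413 (.leaf 128 1028 .nil)) .nil)) .nil)) (.cons 177 (.leaf 201 1413 (.leaf 153 1221 .nil)) .nil)))) .nil)) (.cons 200 (.leaf 297 1604 (.cons 177 (.leaf 201 1413 (.cons 153 (.leaf 176 1221 (.cons 226 (.cons 227 (.leaf 199 1595 (.leaf 247 1786 .nil)) (.cons 223 (.cons 198 (.leaf 199 1587 (.cons 197 (.leaf 222 1579 (.cons 202 (.leaf 203 1593 (.cons 250 (.leaf 251 1784 (.leaf 178 1231 .nil)) .nil)) .nil)) .nil)) (.cons 202 (.leaf 203 1593 (.cons 250 (.leaf 251 1784 (.leaf 178 1231 .nil)) .nil)) (.cons 198 (.leaf 199 1587 (.cons 222 (.leaf 197 1579 (.cons 246 (.leaf 245 1770 (.leaf 247 1778 .nil)) .nil)) .nil)) .nil))) (.cons 227 (.leaf 199 1595 (.cons 203 (.leaf 204 1601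 (.cons 202 (.leaf 223 1593 (.cons 251 (.leaf 178 1431 (.leaf 299 1623 .nil)) .nil)) .nil)) .nil)) (.cons 247 (.leaf 227 1786 (.cons 246 (.leaf 245 1960 (.leaf 223 1778 .nil)) .nil)) .nil)))) .nil)) .nil)) .nil)) .nil))))))
noncomputable def t56 : T := .cons 227 (.cons 204 (.leaf 203 1601 (.cons 228 (.leaf 205 1609 (.cons 248 (.leaf 247 1786 (.leaf 249 1794 .nil)) .nil)) .nil)) (.cons 203 (.leaf 204 1601 (.cons 251 (.leaf 252 1792 (.cons 250 (.leaf 223 1784 (.cons 155 (.leaf 179 1238 (.cons 299 (.leaf 323 1815 (.cons 298 (.leaf 322 1814 (.cons 300 (.leaf 324 1820 (.leaf 297 2179 .nil)) .nil)) .nil)) .nil)) .nil)) .nil)) .nil)) (.cons 247 (.leaf 248 1786 (.cons 223 (.leaf 246 1778 (.cons 251 (.leaf 250 1784 (.leaf 252 1792 .nil)) .nil)) .nil)) .nil))) (.cons 223 (.cons 202 (.leaf 203 1593 (.cons 201 (.leaf 222 1585 (.cons 251 (.leaf 250 1784 (.cons 227 (.leaf 299 1623 (.leaf 252 1792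 .nil)) .nil)) .nil)) .nil)) (.cons 247 (.leaf 246 1778 (.cons 198 (.leaf 199 1587 (.cons 227 (.leaf 248 1786 (.cons 251 (.leaf 250 1784 (.leaf 252 1792 .nil)) .nil)) .nil)) .nil)) (.cons 247 (.leaf 246 1778 (.cons 198 (.leaf 199 1587 (.cons 197 (.leaf 222 1579 (.cons 203 (.leaf 202 1593 (.cons 227 (.leaf 204 1601 (.leaf 248 1786 .nil)) .nil)) .nil)) .nil)) .nil)) (.cons 202 (.leaf 203 1593 (.cons 198 (.leaf 199 1587 (.cons 222 (.leaf 197 1579 (.leaf 201 1585 .nil)) .nil)) .nil)) .nil)))) (.cons 223 (.cons 247 (.leaf 246 1778 (.cons 198 (.leaf 199 1587 (.cons 222 (.leaf 197 1579 (.cons 150 (.leaf 174 1204 (.cons 201 (.leaf 202 1585 (.cons 248 (.leaf 227 1786 (.cons 249 (.leaf 177 1414 (.leaf 221 1768 .nil)) .nil)) .nil)) .nil)) .nil)) .nil)) .nil)) (.cons 247 (.leaf 246 1778 (.cons 198 (.leaf 199 1587 (.cons 222 (.leaf 197 1579 (.cons 150 (.leaf 174 1204 (.cons 248 (.leaf 227 1786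 (.cons 249 (.leaf 221 1768 (.leaf 250 1776 .nil)) .nil)) .nil)) .nil)) .nil)) .nil)) (.cons 202 (.leaf 203 1593 (.cons 201 (.leaf 222 1585 (.cons 249 (.leaf 178 1421 (.leaf 297 1613 .nil)) .nil)) .nil)) (.cons 202 (.leaf 203 1593 (.cons 198 (.leaf 199 1587 (.cons 249 (.leaf 297 1613 (.cons 178 (.leaf 201 1421 (.leaf 250 1422 .nil)) .nil)) .nil)) .nil)) (.cons 202 (.leaf 203 1593 (.cons 198 (.leaf 199 1587 (.cons 222 (.leaf 197 1579 (.leaf 201 1585 .nil)) .nil)) .nil)) .nil))))) (.cons 227 (.cons 247 (.leaf 248 1786 (.cons 223 (.leaf 246 1778 (.cons 198 (.leaf 199 1587 (.cons 197 (.leaf 222 1579 (.cons 202 (.leaf 203 1593 (.cons 251 (.leaf 299 1623 (.leaf 252 1792 .nil)) .nil)) .nil)) .nil)) .nil)) .nil)) (.cons 248 (.leaf 247 1786 (.cons 203 (.leaf 204 1601 (.cons 249 (.leaf 228 1794 (.cons 297 (.leaf 202 1613 (.leaf 321 1799 .nil)) .nil)) .nil)) .nil)) (.cons 248 (.leaf 247 1786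 (.cons 228 (.leaf 249 1794 (.cons 252 (.leaf 251 1792 (.leaf 253 1800 .nil)) .nil)) .nil)) (.cons 203 (.leaf 204 1601 (.cons 251 (.leaf 252 1792 (.cons 202 (.leaf 178 1431 (.leaf 299 1623 .nil)) .nil)) .nil)) .nil)))) (.cons 223 (.cons 246 (.leaf 247 1778 (.cons 222 (.leaf 245 1770 (.cons 250 (.leaf 249 1776 (.leaf 251 1784 .nil)) .nil)) .nil)) (.cons 247 (.leaf 246 1778 (.cons 198 (.leaf 199 1587 (.cons 197 (.leaf 222 1579 (.cons 227 (.leaf 248 1786 (.cons 251 (.leaf 252 1792 (.cons 202 (.leaf 299 1623 (.cons 178 (.leaf 154 1236 (.cons 249 (.leaf 201 1421 (.leaf 297 1613 .nil)) .nil)) .nil)) .nil)) .nil)) .nil)) .nil)) .nil)) (.cons 247 (.leaf 246 1778 (.cons 198 (.leaf 199 1587 (.cons 222 (.leaf 197 1579 (.cons 150 (.leaf 174 1204 (.cons 201 (.leaf 202 1585 (.cons 248 (.leaf 227 1786 (.cons 249 (.leaf 177 1414 (.leaf 221 1768 .nil)) .nil)) .nil)) .nil)) .nil)) .nil)) .nil)) (.cons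 250 (.leaf 251 1784 (.cons 198 (.leaf 199 1587 (.cons 222 (.leaf 197 1579 (.leaf 249 1776 .nil)) .nil)) .nil)) (.cons 251 (.leaf 250 1784 (.cons 198 (.leaf 199 1587 (.cons 227 (.leaf 252 1792 (.cons 247 (.leaf 246 1778 (.leaf 248 1786 .nil)) .nil)) .nil)) .nil)) .nil))))) (.cons 223 (.cons 198 (.leaf 199 1587 (.cons 202 (.leaf 203 1593 (.cons 222 (.leaf 197 1579 (.leaf 201 1585 .nil)) .nil)) .nil)) (.cons 250 (.leaf 251 1784 (.cons 198 (.leaf 199 1587 (.cons 222 (.leaf 197 1579 (.leaf 249 1776 .nil)) .nil)) .nil)) (.cons 202 (.leaf 203 1593 (.cons 201 (.leaf 222 1585 (.cons 249 (.leaf 178 1421 (.leaf 297 1613 .nil)) .nil)) .nil)) (.cons 251 (.leaf 250 1784 (.cons 202 (.leaf 203 1593 (.cons 227 (.leaf 299 1623 (.leaf 252 1792 .nil)) .nil)) .nil)) .nil)))) .nil)))))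
noncomputable def t57 : T := .cons 227 (.cons 203 (.leaf 204 1601 (.cons 251 (.leaf 252 1792 (.cons 250 (.leaf 223 1784 (.cons 155 (.leaf 179 1238 (.cons 202 (.leaf 178 1428 (.leaf 299 1623 .nil)) .nil)) .nil)) .nil)) .nil)) (.cons 248 (.leaf 247 1786 (.cons 203 (.leaf 204 1601 (.cons 249 (.leaf 228 1794 (.cons 297 (.leaf 202 1613 (.leaf 321 1799 .nil)) .nil)) .nil)) .nil)) (.cons 251 (.leaf 252 1792 (.cons 202 (.leaf 299 1623 (.cons 178 (.leaf 250 1428 (.leaf 154 1236 .nil)) .nil)) .nil)) (.cons 203 (.leaf 204 1601 (.cons 248 (.leaf 247 1786 (.cons 228 (.leaf 249 1794 (.cons 252 (.leaf 251 1792 (.leaf 253 1800 .nil)) .nil)) .nil)) .nil)) .nil)))) (.cons 227 (.cons 203 (.leaf 204 1601 (.cons 251 (.leaf 252 1792 (.cons 202 (.leaf 178 1431 (.leaf 299 1623 .nil)) .nil)) .nil)) (.cons 248 (.leaf 247 1786 (.cons 203 (.leaf 204 1601 (.cons 249 (.leaf 228 1794 (.cons 297 (.leaf 202 1613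 (.leaf 321 1799 .nil)) .nil)) .nil)) .nil)) (.cons 251 (.leaf 252 1792 (.cons 202 (.leaf 299 1623 (.cons 178 (.leaf 203 1431 (.leaf 250 1428 .nil)) .nil)) .nil)) (.cons 251 (.leaf 252 1792 (.cons 202 (.leaf 299 1623 (.cons 178 (.leaf 250 1428 (.leaf 154 1236 .nil)) .nil)) .nil)) (.cons 203 (.leaf 204 1601 (.cons 248 (.leaf 247 1786 (.cons 228 (.leaf 249 1794 (.cons 252 (.leaf 251 1792 (.leaf 253 1800 .nil)) .nil)) .nil)) .nil)) .nil))))) (.cons 223 (.cons 198 (.leaf 199 1587 (.cons 222 (.leaf 197 1579 (.cons 246 (.leaf 245 1770 (.leaf 247 1778 .nil)) .nil)) .nil)) (.cons 198 (.leaf 199 1587 (.cons 197 (.leaf 222 1579 (.cons 202 (.leaf 203 1593 (.cons 250 (.leaf 251 1784 (.cons 178 (.leaf 249 1422 (.cons 153 (.leaf 177 1231 (.cons 154 (.leaf 129 1039 (.cons 155 (.leaf 131 1045 (.leaf 179 1237 .nil)) .nil)) .nil)) .nil)) .nil)) .nil)) .nil)) .nil)) (.cons 202 (.leaf 203 1593 (.cons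 201 (.leaf 222 1585 (.cons 249 (.leaf 178 1421 (.leaf 297 1613 .nil)) .nil)) .nil)) (.cons 198 (.leaf 199 1587 (.cons 202 (.leaf 203 1593 (.cons 246 (.leaf 247 1778 (.cons 249 (.leaf 297 1613 (.cons 250 (.leaf 178 1422 (.leaf 251 1784 .nil)) .nil)) .nil)) .nil)) .nil)) .nil)))) t56))
noncomputable def t58 : T := .cons 200 (.leaf 297 1607 (.cons 176 (.leaf 201 1415 (.leaf 248 1412 .nil)) .nil)) (.cons 201 (.cons 177 (.leaf 248 1414 (.cons 152 (.leaf 176 1223 (.cons 153 (.leaf 128 1031 (.cons 154 (.leaf 130 1037 (.leaf 178 1229 .nil)) .nil)) .nil)) .nil)) (.cons 202 (.leaf 178 1421 (.cons 203 (.leaf 204 1602 (.cons 223 (.leaf 222 1585 (.leaf 226 1593 .nil)) .nil)) .nil)) (.cons 177 (.leaf 248 1414 (.cons 152 (.leaf 176 1223 (.cons 153 (.leaf 128 1031 (.cons 130 (.leaf 154 1037 (.cons 106 (.leaf 129 845 (.cons 226 (.leaf 250 1228 (.cons 202 (.leaf 297 1613 (.cons 203 (.leaf 204 1602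 (.leaf 223 1593 .nil)) .nil)) .nil)) .nil)) .nil)) .nil)) .nil)) .nil)) .nil))) (.cons 201 (.cons 177 (.leaf 248 1414 (.cons 152 (.leaf 176 1223 (.cons 153 (.leaf 128 1031 (.cons 154 (.leaf 130 1037 (.leaf 178 1229 .nil)) .nil)) .nil)) .nil)) (.cons 202 (.leaf 178 1421 (.cons 203 (.leaf 204 1602 (.cons 223 (.leaf 200 1594 (.leaf 222 1585 .nil)) .nil)) .nil)) (.cons 177 (.leaf 248 1414 (.cons 152 (.leaf 176 1223 (.cons 153 (.leaf 128 1031 (.cons 130 (.leaf 154 1037 (.cons 129 (.leaf 200 1030 (.leaf 106 845 .nil)) .nil)) .nil)) .nil)) .nil)) .nil))) (.cons 200 (.leaf 297 1607 (.cons 176 (.leaf 201 1415 (.leaf 152 1220 .nil)) .nil)) (.cons 297 (.leaf 200 1607 (.cons 226 (.leaf 202 1613 (.cons 321 (.leaf 248 1799 (.leaf 250 1805 .nil)) .nil)) .nil)) .nil))))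
noncomputable def t59 : T := .cons 249 t58 (.cons 226 t57 (.cons 248 t55 (.cons 249 t52 (.cons 226 (.cons 227 (.cons 203 (.leaf 204 1601 (.cons 202 (.leaf 223 1593 (.cons 251 (.leaf 178 1431 (.leaf 299 1623 .nil)) .nil)) .nil)) (.cons 199 (.leaf 200 1595 (.cons 198 (.leaf 223 1587 (.cons 204 (.leaf 203 1601 (.cons 228 (.leaf 205 1609 (.cons 249 (.leaf 248 1794 (.cons 229 (.leaf 250 1802 (.cons 253 (.leaf 252 1800 (.leaf 254 1808 .nil)) .nil)) .nil)) .nil)) .nil)) .nil)) .nil)) (.cons 251 (.leaf 252 1792 (.cons 202 (.leaf 299 1623 (.cons 178 (.leaf 250 1428 (.leaf 154 1236 .nil)) .nil)) .nil)) .nil))) t49) (.cons 200 t48 (.cons 200 (.cons 248 (.leaf 297 1604 (.cons 199 (.leaf 175 1407 (.cons 198 (.leaf 197 1576 (.cons 201 (.leaf 177 1413 (.leaf 226 1584 .nil)) .nil)) .nil)) .nil)) (.cons 248 (.cons 199 (.leaf 175 1407 (.cons 198 (.leaf 197 1576 (.cons 201 (.leaf 177 1413 (.leaf 226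 1584 .nil)) .nil)) .nil)) (.cons 175 (.leaf 199 1407 (.cons 176 (.leaf 249 1412 (.leaf 151 1215 .nil)) .nil)) (.cons 176 (.leaf 249 1412 (.cons 177 (.leaf 201 1413 (.leaf 153 1221 .nil)) .nil)) .nil))) (.cons 249 (.leaf 297 1607 (.cons 176 (.leaf 201 1415 (.leaf 152 1220 .nil)) .nil)) (.cons 297 (.leaf 248 1604 (.leaf 249 1607 .nil)) .nil)))) (.cons 200 t47 (.cons 200 (.cons 249 (.leaf 297 1607 (.cons 176 (.leaf 201 1415 (.leaf 248 1412 .nil)) .nil)) (.cons 176 (.cons 152 (.leaf 249 1220 (.cons 127 (.leaf 151 1023 (.cons 128 (.leaf 201 1028 (.leaf 103 831 .nil)) .nil)) .nil)) (.cons 152 (.cons 127 (.leaf 151 1023 (.cons 128 (.leaf 201 1028 (.leaf 103 831 .nil)) .nil)) (.cons 151 (.leaf 127 1023 (.cons 153 (.leaf 129 1029 (.cons 175 (.leaf 248 1215 (.cons 154 (.leaf 155 1210 (.leaf 174 1202 .nil)) .nil)) .nil)) .nil)) (.cons 128 (.leaf 201 1028 (.cons 129 (.leaf 153 1029 (.leaf 105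 837 .nil)) .nil)) .nil))) (.cons 249 (.leaf 201 1415 (.leaf 248 1412 .nil)) (.cons 249 (.leaf 248 1412 (.leaf 152 1220 .nil)) .nil)))) (.cons 248 (.leaf 297 1604 (.cons 199 (.leaf 175 1407 (.cons 198 (.leaf 197 1576 (.cons 226 (.leaf 223 1587 (.leaf 227 1595 .nil)) .nil)) .nil)) .nil)) (.cons 249 (.leaf 297 1607 (.cons 176 (.leaf 201 1415 (.leaf 152 1220 .nil)) .nil)) .nil)))) .nil))))))))
noncomputable def t60 : T := .cons 296 (.leaf 225 1605 (.cons 223 (.leaf 199 1599 (.cons 319 (.leaf 295 1790 (.cons 320 (.leaf 247 1791 (.leaf 343 1982 .nil)) .nil)) .nil)) .nil)) (.cons 200 (.leaf 177 1413 (.cons 199 (.leaf 175 1407 (.cons 198 (.cons 225 (.leaf 197 1576 (.leaf 226 1584 .nil)) (.cons 222 (.leaf 221 1578 (.cons 173 (.leaf 174 1387 (.cons 172 (.leaf 197 1379 (.cons 202 (.leaf 223 1586 (.cons 179 (.leaf 178 1401 (.cons 203 (.leaf 180 1409 (.cons 227 (.leaf 226 1592 (.leaf 228 1600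 .nil)) .nil)) .nil)) .nil)) .nil)) .nil)) .nil)) (.cons 226 (.leaf 225 1584 (.cons 173 (.leaf 174 1387 (.cons 202 (.leaf 227 1592 (.cons 222 (.leaf 221 1578 (.leaf 223 1586 .nil)) .nil)) .nil)) .nil)) (.cons 197 (.leaf 225 1576 (.cons 173 (.leaf 174 1387 (.leaf 172 1379 .nil)) .nil)) .nil)))) .nil)) .nil)) (.cons 200 (.leaf 177 1413 (.cons 199 (.leaf 175 1407 (.cons 223 (.leaf 296 1599 (.cons 202 (.leaf 203 1594 (.leaf 222 1586 .nil)) .nil)) .nil)) .nil)) (.cons 225 (.leaf 296 1605 (.cons 177 (.leaf 200 1413 (.leaf 153 1222 .nil)) .nil)) .nil)))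
noncomputable def t61 : T := .cons 297 (.leaf 200 1604 (.cons 321 (.leaf 296 1796 (.leaf 345 1991 .nil)) .nil)) (.cons 296 (.cons 201 (.leaf 225 1605 (.cons 223 (.leaf 199 1599 (.cons 320 (.leaf 247 1791 (.cons 319 (.leaf 295 1790 (.leaf 343 1982 .nil)) .nil)) .nil)) .nil)) (.cons 201 (.leaf 225 1605 (.cons 319 (.leaf 295 1790 (.cons 320 (.leaf 343 1982 (.cons 321 (.leaf 297 1796 (.leaf 345 1988 .nil)) .nil)) .nil)) .nil)) (.cons 201 (.leaf 225 1605 (.cons 223 (.leaf 199 1599 (.cons 320 (.leaf 247 1791 (.cons 321 (.leaf 297 1796 (.leaf 345 1988 .nil)) .nil)) .nil)) .nil)) (.cons 321 (.leaf 297 1796 (.cons 199 (.leaf 223 1599 (.cons 319 (.leaf 295 1790 (.cons 320 (.leaf 343 1982 (.leaf 345 1988 .nil)) .nil)) .nil)) .nil)) (.cons 223 (.leaf 199 1599 (.cons 225 (.leaf 201 1605 (.cons 295 (.leaf 319 1790 (.cons 294 (.leaf 293 2153 (.cons 297 (.leaf 321 1796 (.cons 270 (.leaf 269 2155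 (.cons 318 (.leaf 317 2346 (.cons 246 (.leaf 247 1781 (.cons 245 (.leaf 222 1770 (.leaf 221 1775 .nil)) .nil)) .nil)) .nil)) .nil)) .nil)) .nil)) .nil)) .nil)) .nil))))) (.cons 201 t60 (.cons 200 (.leaf 297 1604 (.cons 175 (.leaf 199 1407 (.cons 176 (.leaf 151 1215 (.cons 177 (.leaf 201 1413 (.leaf 153 1221 .nil)) .nil)) .nil)) .nil)) .nil)))
noncomputable def t62 : T := .cons 296 (.leaf 225 1605 (.cons 319 (.leaf 295 1790 (.cons 320 (.leaf 343 1982 (.cons 200 (.leaf 177 1413 (.cons 223 (.leaf 247 1791 (.cons 202 (.leaf 203 1594 (.cons 221 (.leaf 222 1577 (.cons 344 (.leaf 249 1989 (.cons 345 (.leaf 321 1988 (.leaf 369 2180 .nil)) .nil)) .nil)) .nil)) .nil)) .nil)) .nil)) .nil)) .nil)) (.cons 200 (.leaf 177 1413 (.cons 249 (.leaf 176 1412 (.cons 250 (.cons 251 (.leaf 252 1986 (.leaf 223 1787 .nil)) (.cons 202 (.cons 178 (.leaf 226 1422 (.cons 203 (.leaf 223 1594 (.cons 180 (.leaf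 179 1409 (.cons 204 (.leaf 181 1417 (.cons 228 (.leaf 227 1600 (.leaf 229 1608 .nil)) .nil)) .nil)) .nil)) .nil)) (.cons 226 (.leaf 178 1422 (.cons 227 (.leaf 247 1785 (.cons 228 (.leaf 203 1600 (.leaf 229 1802 .nil)) .nil)) .nil)) (.cons 226 (.leaf 178 1422 (.cons 247 (.leaf 227 1785 (.cons 222 (.leaf 223 1779 (.cons 246 (.leaf 245 1960 (.leaf 221 1771 .nil)) .nil)) .nil)) .nil)) (.cons 223 (.leaf 203 1594 (.cons 222 (.leaf 221 1768 (.leaf 247 1779 .nil)) .nil)) .nil)))) (.cons 251 (.leaf 252 1986 (.cons 227 (.leaf 228 1793 (.cons 226 (.leaf 247 1785 (.cons 202 (.leaf 178 1428 (.leaf 299 1623 .nil)) .nil)) .nil)) .nil)) .nil))) .nil)) .nil)) (.cons 296 (.leaf 225 1605 (.cons 319 (.leaf 295 1790 (.cons 320 (.leaf 343 1982 (.cons 344 (.leaf 249 1989 (.cons 345 (.leaf 321 1988 (.leaf 369 2180 .nil)) .nil)) .nil)) .nil)) .nil)) (.cons 225 (.leaf 296 1605 (.cons 177 (.leaf 200 1413 (.leaf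 153 1222 .nil)) .nil)) .nil)))
noncomputable def t63 : T := .cons 225 (.leaf 296 1605 (.cons 177 (.leaf 200 1413 (.leaf 153 1222 .nil)) .nil)) (.cons 296 (.leaf 225 1605 (.cons 223 (.leaf 199 1599 (.cons 319 (.leaf 295 1790 (.cons 320 (.leaf 247 1791 (.leaf 343 1982 .nil)) .nil)) .nil)) .nil)) (.cons 200 (.leaf 177 1413 (.cons 199 (.leaf 175 1407 (.cons 198 (.cons 222 (.leaf 221 1578 (.cons 173 (.leaf 174 1387 (.cons 172 (.leaf 197 1379 (.cons 202 (.leaf 223 1586 (.cons 179 (.leaf 178 1401 (.cons 203 (.leaf 180 1409 (.cons 227 (.leaf 226 1592 (.leaf 228 1600 .nil)) .nil)) .nil)) .nil)) .nil)) .nil)) .nil)) (.cons 226 (.leaf 225 1584 (.cons 173 (.leaf 174 1387 (.cons 202 (.leaf 227 1592 (.cons 222 (.leaf 221 1578 (.leaf 223 1586 .nil)) .nil)) .nil)) .nil)) (.cons 197 (.leaf 225 1576 (.cons 173 (.leaf 174 1387 (.leaf 172 1379 .nil)) .nil)) (.cons 225 (.leaf 197 1576 (.leaf 226 1584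 .nil)) .nil)))) .nil)) .nil)) (.cons 200 (.leaf 177 1413 (.cons 199 (.leaf 175 1407 (.cons 223 (.leaf 296 1599 (.cons 202 (.leaf 203 1594 (.leaf 222 1586 .nil)) .nil)) .nil)) .nil)) .nil)))
noncomputable def t64 : T := .cons 225 (.leaf 201 1605 (.cons 223 (.leaf 199 1599 (.cons 295 (.leaf 319 1790 (.cons 247 (.leaf 320 1791 (.cons 246 (.leaf 245 1960 (.leaf 226 1778 .nil)) .nil)) .nil)) .nil)) .nil)) (.cons 223 (.leaf 199 1599 (.cons 319 (.leaf 295 1790 (.cons 320 (.leaf 247 1791 (.leaf 343 1982 .nil)) .nil)) .nil)) (.cons 225 (.leaf 201 1605 (.cons 319 (.leaf 295 1790 (.cons 320 (.leaf 249 1797 (.leaf 343 1982 .nil)) .nil)) .nil)) (.cons 225 (.leaf 201 1605 (.cons 223 (.leaf 199 1599 (.cons 295 (.leaf 319 1790 (.cons 294 (.leaf 293 2153 (.cons 226 (.cons 202 (.leaf 203 1593 (.cons 251 (.leaf 250 1784 (.cons 227 (.leaf 299 1623 (.leaf 247 1786 .nil)) .nil)) .nil)) (.cons 202 (.leaf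 203 1593 (.cons 251 (.leaf 250 1784 (.cons 227 (.leaf 299 1623 (.leaf 252 1792 .nil)) .nil)) .nil)) (.cons 202 (.leaf 203 1593 (.cons 246 (.leaf 247 1778 (.cons 222 (.leaf 245 1770 (.cons 197 (.leaf 198 1579 (.cons 221 (.leaf 196 1571 (.leaf 249 1768 .nil)) .nil)) .nil)) .nil)) .nil)) (.cons 247 (.leaf 246 1778 (.leaf 227 1786 .nil)) .nil)))) .nil)) .nil)) .nil)) .nil)) (.cons 225 (.leaf 201 1605 (.cons 223 (.leaf 199 1599 (.cons 247 (.leaf 320 1791 (.cons 246 (.leaf 245 1960 (.leaf 226 1778 .nil)) .nil)) .nil)) .nil)) .nil))))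
noncomputable def t65 : T := .cons 201 (.leaf 177 1413 (.cons 199 (.leaf 175 1407 (.cons 198 (.cons 173 (.leaf 174 1387 (.cons 221 (.leaf 222 1578 (.cons 226 (.leaf 225 1584 (.cons 202 (.leaf 227 1592 (.cons 178 (.leaf 179 1401 (.cons 197 (.leaf 172 1379 (.leaf 220 1570 .nil)) .nil)) .nil)) .nil)) .nil)) .nil)) (.cons 222 (.leaf 221 1578 (.cons 173 (.leaf 174 1387 (.cons 172 (.leaf 197 1379 (.cons 202 (.leaf 223 1586 (.cons 179 (.leaf 178 1401 (.cons 203 (.leaf 180 1409 (.cons 227 (.leaf 226 1592 (.leaf 228 1600 .nil)) .nil)) .nil)) .nil)) .nil)) .nil)) .nil)) (.cons 173 (.leaf 174 1387 (.cons 221 (.leaf 222 1578 (.cons 226 (.leaf 225 1584 (.cons 202 (.leaf 227 1592 (.cons 178 (.leaf 179 1401 (.cons 250 (.leaf 251 1428 (.leaf 249 1422 .nil)) .nil)) .nil)) .nil)) .nil)) .nil)) (.cons 225 (.leaf 197 1576 (.leaf 226 1584 .nil)) (.cons 197 (.leaf 225 1576 (.cons 173 (.leaf 172 1379 (.leaf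 174 1387 .nil)) .nil)) .nil))))) .nil)) .nil)) (.cons 176 (.leaf 249 1412 (.cons 153 (.leaf 177 1221 (.cons 152 (.leaf 129 1029 (.cons 127 (.leaf 151 1023 (.cons 128 (.leaf 103 831 (.cons 223 (.leaf 247 1214 (.leaf 199 1022 .nil)) .nil)) .nil)) .nil)) .nil)) .nil)) (.cons 176 (.leaf 249 1412 (.cons 175 (.leaf 199 1407 (.leaf 151 1215 .nil)) .nil)) (.cons 176 (.leaf 249 1412 (.cons 177 (.leaf 201 1413 (.leaf 153 1221 .nil)) .nil)) (.cons 175 (.leaf 199 1407 (.cons 176 (.leaf 151 1215 (.cons 177 (.leaf 201 1413 (.leaf 153 1221 .nil)) .nil)) .nil)) .nil))))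
noncomputable def t66 : T := .cons 296 (.cons 319 (.leaf 295 1790 (.cons 320 (.leaf 343 1982 (.cons 249 (.leaf 225 1797 (.leaf 344 1989 .nil)) .nil)) .nil)) (.cons 295 (.leaf 319 1790 (.cons 294 (.leaf 293 2153 (.cons 200 (.cons 199 (.leaf 175 1407 (.leaf 223 1599 .nil)) (.cons 176 (.leaf 249 1412 (.cons 151 (.leaf 175 1215 (.cons 152 (.leaf 127 1023 (.cons 177 (.leaf 201 1413 (.leaf 153 1221 .nil)) .nil)) .nil)) .nil)) (.cons 223 (.leaf 199 1599 (.cons 176 (.leaf 249 1412 (.cons 177 (.leaf 201 1413 (.leaf 153 1221 .nil)) .nil)) .nil)) .nil))) .nil)) .nil)) (.cons 223 (.leaf 199 1599 (.cons 319 (.leaf 295 1790 (.cons 320 (.leaf 247 1791 (.leaf 343 1982 .nil)) .nil)) .nil)) (.cons 223 (.leaf 199 1599 (.cons 320 (.leaf 247 1791 (.cons 249 (.leaf 225 1797 (.leaf 344 1989 .nil)) .nil)) .nil)) .nil)))) (.cons 200 t65 (.cons 296 t64 (.cons 200 (.cons 175 (.leaf 199 1407 (.cons 176 (.leaf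 249 1412 (.leaf 151 1215 .nil)) .nil)) (.cons 177 (.leaf 201 1413 (.cons 199 (.leaf 175 1407 (.cons 296 (.leaf 223 1599 (.cons 319 (.leaf 295 1790 (.cons 320 (.leaf 343 1982 (.cons 344 (.leaf 249 1989 (.cons 345 (.leaf 321 1988 (.leaf 369 2180 .nil)) .nil)) .nil)) .nil)) .nil)) .nil)) .nil)) (.cons 176 (.leaf 249 1412 (.cons 177 (.leaf 201 1413 (.leaf 153 1221 .nil)) .nil)) (.cons 199 (.leaf 175 1407 (.cons 177 (.leaf 201 1413 (.cons 176 (.leaf 153 1221 (.cons 178 (.leaf 179 1402 (.cons 197 (.leaf 198 1385 (.cons 223 (.leaf 296 1599 (.cons 152 (.leaf 247 1214 (.leaf 128 1022 .nil)) .nil)) .nil)) .nil)) .nil)) .nil)) .nil)) .nil)))) (.cons 296 (.cons 223 (.leaf 199 1599 (.cons 320 (.leaf 247 1791 (.cons 249 (.leaf 225 1797 (.leaf 344 1989 .nil)) .nil)) .nil)) (.cons 319 (.leaf 295 1790 (.cons 320 (.leaf 343 1982 (.cons 249 (.leaf 225 1797 (.leaf 344 1989 .nil)) .nil)) .nil)) (.cons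 295 (.leaf 319 1790 (.cons 294 (.leaf 293 2153 (.cons 200 (.cons 199 (.leaf 175 1407 (.leaf 223 1599 .nil)) (.cons 176 (.leaf 249 1412 (.cons 151 (.leaf 175 1215 (.cons 152 (.leaf 127 1023 (.cons 153 (.leaf 129 1029 (.leaf 177 1221 .nil)) .nil)) .nil)) .nil)) (.cons 176 (.leaf 249 1412 (.cons 153 (.leaf 177 1221 (.cons 152 (.leaf 129 1029 (.cons 223 (.leaf 199 1599 (.leaf 247 1214 .nil)) .nil)) .nil)) .nil)) .nil))) .nil)) .nil)) (.cons 223 (.leaf 199 1599 (.cons 319 (.leaf 295 1790 (.cons 320 (.leaf 247 1791 (.leaf 343 1982 .nil)) .nil)) .nil)) .nil)))) (.cons 201 t63 (.cons 200 (.cons 175 (.leaf 199 1407 (.cons 201 (.leaf 177 1413 (.cons 296 (.leaf 225 1605 (.cons 319 (.leaf 295 1790 (.cons 320 (.leaf 343 1982 (.cons 344 (.leaf 249 1989 (.cons 345 (.leaf 321 1988 (.leaf 369 2180 .nil)) .nil)) .nil)) .nil)) .nil)) .nil)) .nil)) (.cons 176 (.leaf 249 1412 (.cons 175 (.leaf 199 1407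 (.leaf 151 1215 .nil)) .nil)) (.cons 175 (.leaf 199 1407 (.cons 176 (.leaf 151 1215 (.cons 177 (.leaf 201 1413 (.leaf 153 1221 .nil)) .nil)) .nil)) (.cons 176 (.leaf 249 1412 (.cons 177 (.leaf 201 1413 (.leaf 153 1221 .nil)) .nil)) .nil)))) (.cons 201 t62 .nil)))))))
noncomputable def t67 : T := .cons 249 (.leaf 296 1606 (.cons 177 (.leaf 248 1414 (.cons 152 (.leaf 176 1223 (.cons 153 (.leaf 128 1031 (.cons 154 (.leaf 130 1037 (.leaf 178 1229 .nil)) .nil)) .nil)) .nil)) .nil)) (.cons 249 (.cons 177 (.leaf 248 1414 (.cons 152 (.leaf 176 1223 (.cons 153 (.leaf 128 1031 (.cons 154 (.leaf 130 1037 (.leaf 178 1229 .nil)) .nil)) .nil)) .nil)) (.cons 202 (.leaf 178 1421 (.cons 203 (.leaf 204 1602 (.cons 223 (.leaf 222 1585 (.leaf 226 1593 .nil)) .nil)) .nil)) (.cons 177 (.leaf 248 1414 (.cons 152 (.leaf 176 1223 (.cons 153 (.leaf 128 1031 (.cons 130 (.leaf 154 1037 (.cons 129 (.leaf 106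 845 (.cons 226 (.leaf 250 1228 (.leaf 202 1036 .nil)) .nil)) .nil)) .nil)) .nil)) .nil)) .nil))) (.cons 248 (.leaf 296 1605 (.cons 177 (.leaf 153 1222 (.cons 223 (.cons 222 (.leaf 202 1585 (.cons 197 (.leaf 198 1579 (.cons 221 (.leaf 196 1571 (.cons 245 (.leaf 244 1762 (.leaf 246 1770 .nil)) .nil)) .nil)) .nil)) (.cons 226 (.cons 199 (.leaf 198 1587 (.cons 175 (.leaf 247 1404 (.leaf 151 1212 .nil)) .nil)) (.cons 251 (.leaf 250 1784 (.cons 198 (.leaf 199 1587 (.cons 222 (.leaf 197 1579 (.cons 227 (.leaf 252 1792 (.cons 204 (.leaf 203 1601 (.cons 228 (.leaf 299 1629 (.leaf 205 1609 .nil)) .nil)) .nil)) .nil)) .nil)) .nil)) (.cons 247 (.leaf 246 1778 (.leaf 227 1786 .nil)) .nil))) (.cons 226 (.cons 247 (.leaf 246 1778 (.leaf 227 1786 .nil)) (.cons 203 (.leaf 202 1593 (.cons 198 (.leaf 199 1587 (.cons 227 (.leaf 204 1601 (.cons 251 (.leaf 250 1784 (.leaf 252 1792 .nil)) .nil)) .nil))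 .nil)) (.cons 247 (.leaf 246 1778 (.cons 199 (.leaf 175 1404 (.leaf 198 1587 .nil)) .nil)) .nil))) (.cons 202 (.leaf 222 1585 (.cons 203 (.leaf 204 1602 (.leaf 226 1593 .nil)) .nil)) .nil)))) .nil)) .nil)) (.cons 249 (.leaf 296 1606 (.cons 202 (.leaf 178 1421 (.cons 203 (.leaf 204 1602 (.cons 223 (.leaf 222 1585 (.leaf 226 1593 .nil)) .nil)) .nil)) .nil)) .nil)))
noncomputable def t68 : T := .cons 223 (.cons 198 (.leaf 199 1587 (.cons 197 (.leaf 222 1579 (.cons 251 (.leaf 250 1784 (.cons 227 (.leaf 252 1792 (.cons 204 (.leaf 203 1601 (.cons 228 (.leaf 299 1629 (.leaf 205 1609 .nil)) .nil)) .nil)) .nil)) .nil)) .nil)) (.cons 198 (.leaf 199 1587 (.cons 222 (.leaf 197 1579 (.cons 246 (.leaf 245 1770 (.leaf 247 1778 .nil)) .nil)) .nil)) (.cons 202 (.leaf 203 1593 (.cons 246 (.leaf 247 1778 (.cons 251 (.leaf 250 1784 (.cons 227 (.leaf 299 1623 (.leaf 252 1792 .nil)) .nil)) .nil)) .nil))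 .nil))) (.cons 223 (.cons 198 (.leaf 199 1587 (.cons 202 (.leaf 203 1593 (.cons 222 (.leaf 197 1579 (.cons 246 (.leaf 245 1770 (.leaf 247 1778 .nil)) .nil)) .nil)) .nil)) (.cons 202 (.leaf 203 1593 (.cons 198 (.leaf 199 1587 (.cons 222 (.leaf 197 1579 (.cons 245 (.leaf 246 1770 (.cons 221 (.leaf 244 1762 (.cons 249 (.leaf 297 1613 (.leaf 248 1768 .nil)) .nil)) .nil)) .nil)) .nil)) .nil)) (.cons 199 (.leaf 198 1587 (.cons 202 (.leaf 203 1593 (.cons 248 (.leaf 296 1599 (.cons 175 (.leaf 247 1404 (.leaf 151 1212 .nil)) .nil)) .nil)) .nil)) (.cons 247 (.leaf 246 1778 (.cons 202 (.leaf 203 1593 (.cons 227 (.leaf 248 1786 (.cons 249 (.leaf 297 1613 (.cons 178 (.leaf 250 1422 (.leaf 154 1230 .nil)) .nil)) .nil)) .nil)) .nil)) (.cons 247 (.leaf 246 1778 (.cons 198 (.leaf 199 1587 (.cons 222 (.leaf 197 1579 (.cons 150 (.leaf 174 1204 (.cons 248 (.leaf 227 1786 (.cons 249 (.leaf 221 1768 (.leaf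 250 1776 .nil)) .nil)) .nil)) .nil)) .nil)) .nil)) .nil))))) (.cons 223 (.cons 246 (.leaf 247 1778 (.cons 222 (.leaf 245 1770 (.cons 250 (.leaf 249 1776 (.leaf 251 1784 .nil)) .nil)) .nil)) (.cons 250 (.leaf 251 1784 (.cons 198 (.leaf 199 1587 (.cons 222 (.leaf 197 1579 (.leaf 249 1776 .nil)) .nil)) .nil)) (.cons 247 (.leaf 246 1778 (.cons 198 (.leaf 199 1587 (.cons 222 (.leaf 197 1579 (.cons 150 (.leaf 174 1204 (.cons 248 (.leaf 227 1786 (.cons 249 (.leaf 221 1768 (.leaf 250 1776 .nil)) .nil)) .nil)) .nil)) .nil)) .nil)) (.cons 247 (.leaf 246 1778 (.cons 198 (.leaf 199 1587 (.cons 197 (.leaf 222 1579 (.cons 227 (.leaf 248 1786 (.cons 204 (.leaf 203 1601 (.cons 228 (.leaf 205 1609 (.cons 251 (.leaf 299 1629 (.leaf 252 1792 .nil)) .nil)) .nil)) .nil)) .nil)) .nil)) .nil)) (.cons 247 (.leaf 246 1778 (.cons 198 (.leaf 199 1587 (.cons 227 (.leaf 248 1786 (.cons 251 (.leaf 250 1784 (.leaf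 252 1792 .nil)) .nil)) .nil)) .nil)) .nil))))) (.cons 227 (.cons 248 (.leaf 247 1786 (.cons 203 (.leaf 204 1601 (.cons 249 (.leaf 228 1794 (.cons 297 (.leaf 202 1613 (.leaf 321 1799 .nil)) .nil)) .nil)) .nil)) (.cons 251 (.leaf 252 1792 (.cons 202 (.leaf 299 1623 (.cons 178 (.leaf 203 1431 (.leaf 154 1236 .nil)) .nil)) .nil)) (.cons 247 (.leaf 248 1786 (.cons 223 (.leaf 246 1778 (.cons 198 (.leaf 199 1587 (.cons 197 (.leaf 222 1579 (.cons 251 (.leaf 252 1792 (.cons 299 (.leaf 202 1623 (.cons 204 (.leaf 228 1629 (.cons 298 (.leaf 322 1814 (.cons 300 (.leaf 324 1820 (.leaf 297 2179 .nil)) .nil)) .nil)) .nil)) .nil)) .nil)) .nil)) .nil)) .nil)) (.cons 248 (.leaf 247 1786 (.cons 203 (.leaf 204 1601 (.cons 228 (.leaf 249 1794 (.cons 252 (.leaf 251 1792 (.leaf 253 1800 .nil)) .nil)) .nil)) .nil)) .nil)))) (.cons 223 (.cons 198 (.leaf 199 1587 (.cons 202 (.leaf 203 1593 (.cons 222 (.leaf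 197 1579 (.cons 245 (.leaf 246 1770 (.cons 221 (.leaf 244 1762 (.cons 249 (.leaf 297 1613 (.leaf 248 1768 .nil)) .nil)) .nil)) .nil)) .nil)) .nil)) (.cons 250 (.leaf 251 1784 (.cons 198 (.leaf 199 1587 (.cons 222 (.leaf 197 1579 (.leaf 249 1776 .nil)) .nil)) .nil)) (.cons 202 (.leaf 203 1593 (.cons 249 (.leaf 297 1613 (.cons 178 (.leaf 250 1422 (.leaf 154 1230 .nil)) .nil)) .nil)) (.cons 198 (.leaf 199 1587 (.cons 197 (.leaf 222 1579 (.cons 251 (.leaf 250 1784 (.cons 227 (.leaf 252 1792 (.cons 204 (.leaf 203 1601 (.cons 228 (.leaf 299 1629 (.leaf 205 1609 .nil)) .nil)) .nil)) .nil)) .nil)) .nil)) .nil)))) (.cons 223 (.cons 198 (.leaf 199 1587 (.cons 246 (.leaf 247 1778 (.cons 251 (.leaf 250 1784 (.cons 227 (.leaf 252 1792 (.cons 299 (.leaf 202 1623 (.cons 204 (.leaf 228 1629 (.cons 298 (.leaf 322 1814 (.cons 300 (.leaf 324 1820 (.leaf 297 2179 .nil)) .nil)) .nil)) .nil)) .nil)) .nil))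 .nil)) .nil)) (.cons 198 (.leaf 199 1587 (.cons 222 (.leaf 197 1579 (.cons 246 (.leaf 245 1770 (.leaf 247 1778 .nil)) .nil)) .nil)) (.cons 250 (.leaf 251 1784 (.cons 198 (.leaf 199 1587 (.cons 222 (.leaf 197 1579 (.leaf 249 1776 .nil)) .nil)) .nil)) (.cons 246 (.leaf 247 1778 (.cons 222 (.leaf 245 1770 (.cons 250 (.leaf 249 1776 (.leaf 251 1784 .nil)) .nil)) .nil)) .nil)))) .nil)))))
noncomputable def t69 : T := .cons 198 (.leaf 199 1587 (.cons 202 (.leaf 203 1593 (.cons 222 (.leaf 197 1579 (.cons 246 (.leaf 245 1770 (.leaf 247 1778 .nil)) .nil)) .nil)) .nil)) (.cons 198 (.leaf 199 1587 (.cons 202 (.leaf 203 1593 (.cons 222 (.leaf 197 1579 (.cons 245 (.leaf 246 1770 (.cons 221 (.leaf 244 1762 (.cons 249 (.leaf 297 1613 (.leaf 248 1768 .nil)) .nil)) .nil)) .nil)) .nil)) .nil)) (.cons 247 (.leaf 246 1778 (.cons 198 (.leaf 199 1587 (.cons 197 (.leaf 222 1579 (.cons 227 (.leaf 248 1786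 (.cons 204 (.leaf 203 1601 (.cons 228 (.leaf 205 1609 (.cons 251 (.leaf 299 1629 (.leaf 250 1784 .nil)) .nil)) .nil)) .nil)) .nil)) .nil)) .nil)) (.cons 202 (.leaf 203 1593 (.cons 249 (.leaf 297 1613 (.cons 178 (.leaf 250 1422 (.leaf 154 1230 .nil)) .nil)) .nil)) (.cons 198 (.leaf 199 1587 (.cons 197 (.leaf 222 1579 (.cons 251 (.leaf 250 1784 (.cons 227 (.leaf 252 1792 (.cons 299 (.leaf 202 1623 (.cons 204 (.leaf 228 1629 (.cons 298 (.leaf 322 1814 (.cons 300 (.leaf 324 1820 (.leaf 297 2179 .nil)) .nil)) .nil)) .nil)) .nil)) .nil)) .nil)) .nil)) .nil))))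
noncomputable def t70 : T := .cons 223 t69 (.cons 227 (.cons 247 (.leaf 248 1786 (.cons 251 (.leaf 252 1792 (.cons 202 (.leaf 299 1623 (.cons 178 (.leaf 203 1431 (.leaf 250 1428 .nil)) .nil)) .nil)) .nil)) (.cons 248 (.leaf 247 1786 (.cons 203 (.leaf 204 1601 (.cons 249 (.leaf 228 1794 (.cons 297 (.leaf 202 1613 (.leaf 321 1799 .nil)) .nil)) .nil)) .nil)) (.cons 251 (.leaf 252 1792 (.cons 202 (.leaf 299 1623 (.cons 178 (.leaf 203 1431 (.leaf 250 1428 .nil)) .nil)) .nil)) (.cons 251 (.leaf 252 1792 (.cons 202 (.leaf 299 1623 (.cons 178 (.leaf 250 1428 (.leaf 154 1236 .nil)) .nil)) .nil)) (.cons 248 (.leaf 247 1786 (.cons 203 (.leaf 204 1601 (.cons 228 (.leaf 249 1794 (.cons 252 (.leaf 251 1792 (.leaf 253 1800 .nil)) .nil)) .nil)) .nil)) .nil))))) (.cons 223 (.cons 198 (.leaf 199 1587 (.cons 202 (.leaf 203 1593 (.cons 222 (.leaf 197 1579 (.cons 246 (.leaf 245 1770 (.leaf 247 1778 .nil))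 .nil)) .nil)) .nil)) (.cons 250 (.leaf 251 1784 (.cons 198 (.leaf 199 1587 (.cons 222 (.leaf 197 1579 (.leaf 249 1776 .nil)) .nil)) .nil)) (.cons 250 (.leaf 251 1784 (.cons 222 (.leaf 249 1776 (.cons 246 (.leaf 245 1770 (.leaf 247 1778 .nil)) .nil)) .nil)) (.cons 202 (.leaf 203 1593 (.cons 249 (.leaf 297 1613 (.cons 178 (.leaf 250 1422 (.leaf 154 1230 .nil)) .nil)) .nil)) .nil)))) t68))
noncomputable def t71 : T := .cons 297 (.cons 320 (.leaf 296 1798 (.cons 321 (.leaf 344 1990 (.cons 226 (.leaf 202 1613 (.leaf 250 1805 .nil)) .nil)) .nil)) (.cons 226 (.leaf 202 1613 (.cons 321 (.leaf 250 1805 (.cons 344 (.leaf 320 1990 (.cons 322 (.leaf 298 1804 (.leaf 346 1996 .nil)) .nil)) .nil)) .nil)) (.cons 320 (.leaf 296 1798 (.cons 321 (.leaf 344 1990 (.cons 322 (.leaf 298 1804 (.leaf 346 1996 .nil)) .nil)) .nil)) (.cons 226 (.leaf 202 1613 (.cons 250 (.leaf 321 1805 (.cons 251 (.leaf 252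 1986 (.leaf 223 1784 .nil)) .nil)) .nil)) (.cons 226 (.leaf 202 1613 (.cons 296 (.leaf 201 1606 (.leaf 320 1798 .nil)) .nil)) .nil))))) (.cons 226 (.cons 223 (.cons 250 (.leaf 222 1776 (.leaf 251 1784 .nil)) (.cons 198 (.leaf 199 1587 (.cons 222 (.leaf 197 1579 (.cons 246 (.leaf 245 1770 (.leaf 247 1778 .nil)) .nil)) .nil)) (.cons 251 (.leaf 250 1784 (.cons 198 (.leaf 199 1587 (.cons 227 (.leaf 252 1792 (.cons 204 (.leaf 203 1601 (.cons 228 (.leaf 299 1629 (.leaf 205 1609 .nil)) .nil)) .nil)) .nil)) .nil)) .nil))) (.cons 202 (.leaf 297 1613 (.cons 178 (.leaf 201 1421 (.leaf 154 1230 .nil)) .nil)) .nil)) (.cons 297 (.cons 320 (.leaf 296 1798 (.cons 321 (.leaf 344 1990 (.cons 226 (.leaf 202 1613 (.leaf 250 1805 .nil)) .nil)) .nil)) (.cons 320 (.leaf 296 1798 (.cons 321 (.leaf 344 1990 (.cons 322 (.leaf 298 1804 (.leaf 346 1996 .nil)) .nil)) .nil)) (.cons 226 (.leaf 202 1613 (.cons 250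 (.leaf 321 1805 (.cons 251 (.leaf 252 1986 (.leaf 223 1784 .nil)) .nil)) .nil)) (.cons 226 (.leaf 202 1613 (.cons 296 (.leaf 320 1798 (.cons 298 (.leaf 322 1804 (.cons 299 (.leaf 300 2179 (.cons 323 (.leaf 324 2368 (.cons 251 (.leaf 250 1815 (.cons 252 (.leaf 228 1821 (.leaf 227 1792 .nil)) .nil)) .nil)) .nil)) .nil)) .nil)) .nil)) .nil)))) (.cons 201 (.leaf 296 1606 (.cons 202 (.leaf 178 1421 (.cons 203 (.leaf 204 1602 (.cons 223 (.leaf 222 1585 (.leaf 226 1593 .nil)) .nil)) .nil)) .nil)) (.cons 296 (.leaf 201 1606 (.cons 320 (.leaf 344 1989 (.leaf 297 1798 .nil)) .nil)) .nil))))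
noncomputable def t72 : T := .cons 246 (.leaf 247 1778 (.cons 222 (.leaf 245 1770 (.cons 250 (.leaf 249 1776 (.leaf 251 1784 .nil)) .nil)) .nil)) (.cons 247 (.leaf 246 1778 (.cons 198 (.leaf 199 1587 (.cons 197 (.leaf 222 1579 (.cons 227 (.leaf 248 1786 (.cons 251 (.leaf 252 1792 (.cons 202 (.leaf 299 1623 (.cons 178 (.leaf 154 1236 (.cons 249 (.leaf 201 1421 (.leaf 297 1613 .nil)) .nil)) .nil)) .nil)) .nil)) .nil)) .nil)) .nil)) (.cons 247 (.leaf 246 1778 (.cons 198 (.leaf 199 1587 (.cons 222 (.leaf 197 1579 (.cons 150 (.leaf 174 1204 (.cons 201 (.leaf 202 1585 (.cons 248 (.leaf 227 1786 (.cons 249 (.leaf 177 1414 (.leaf 221 1768 .nil)) .nil)) .nil)) .nil)) .nil)) .nil)) .nil)) (.cons 250 (.leaf 251 1784 (.cons 198 (.leaf 199 1587 (.cons 222 (.leaf 197 1579 (.leaf 249 1776 .nil)) .nil)) .nil)) (.cons 251 (.leaf 250 1784 (.cons 198 (.leaf 199 1587 (.cons 197 (.leaf 222 1579 (.cons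 227 (.leaf 252 1792 (.cons 299 (.leaf 202 1623 (.cons 204 (.leaf 228 1629 (.cons 298 (.leaf 322 1814 (.cons 300 (.leaf 324 1820 (.leaf 297 2179 .nil)) .nil)) .nil)) .nil)) .nil)) .nil)) .nil)) .nil)) (.cons 251 (.leaf 250 1784 (.cons 198 (.leaf 199 1587 (.cons 227 (.leaf 252 1792 (.cons 247 (.leaf 246 1778 (.leaf 248 1786 .nil)) .nil)) .nil)) .nil)) .nil)))))
noncomputable def t73 : T := .cons 227 (.cons 203 (.leaf 204 1601 (.cons 251 (.leaf 252 1792 (.cons 250 (.leaf 223 1784 (.cons 155 (.leaf 179 1238 (.cons 202 (.leaf 178 1428 (.leaf 299 1623 .nil)) .nil)) .nil)) .nil)) .nil)) (.cons 203 (.leaf 204 1601 (.cons 248 (.leaf 247 1786 (.cons 249 (.leaf 228 1794 (.cons 297 (.leaf 202 1613 (.leaf 321 1799 .nil)) .nil)) .nil)) .nil)) (.cons 247 (.leaf 248 1786 (.cons 223 (.leaf 246 1778 (.cons 198 (.leaf 199 1587 (.cons 197 (.leaf 222 1579 (.cons 251 (.leaf 250 1784 (.leaf 252 1792 .nil))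 .nil)) .nil)) .nil)) .nil)) .nil))) (.cons 227 (.cons 247 (.leaf 248 1786 (.cons 251 (.leaf 252 1792 (.cons 202 (.leaf 299 1623 (.cons 178 (.leaf 203 1431 (.leaf 250 1428 .nil)) .nil)) .nil)) .nil)) (.cons 248 (.leaf 247 1786 (.cons 203 (.leaf 204 1601 (.cons 249 (.leaf 228 1794 (.cons 297 (.leaf 202 1613 (.leaf 321 1799 .nil)) .nil)) .nil)) .nil)) (.cons 251 (.leaf 252 1792 (.cons 202 (.leaf 299 1623 (.cons 178 (.leaf 203 1431 (.leaf 250 1428 .nil)) .nil)) .nil)) (.cons 247 (.leaf 248 1786 (.cons 251 (.leaf 252 1792 (.cons 202 (.leaf 299 1623 (.cons 178 (.leaf 250 1428 (.leaf 154 1236 .nil)) .nil)) .nil)) .nil)) (.cons 248 (.leaf 247 1786 (.cons 203 (.leaf 204 1601 (.cons 228 (.leaf 249 1794 (.cons 252 (.leaf 251 1792 (.leaf 253 1800 .nil)) .nil)) .nil)) .nil)) .nil))))) (.cons 223 (.cons 202 (.leaf 203 1593 (.cons 246 (.leaf 247 1778 (.cons 222 (.leaf 201 1585 (.leaf 245 1770 .nil))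 .nil)) .nil)) (.cons 198 (.leaf 199 1587 (.cons 222 (.leaf 197 1579 (.cons 246 (.leaf 245 1770 (.leaf 247 1778 .nil)) .nil)) .nil)) (.cons 202 (.leaf 203 1593 (.cons 249 (.leaf 297 1613 (.cons 222 (.leaf 201 1585 (.leaf 250 1776 .nil)) .nil)) .nil)) (.cons 202 (.leaf 203 1593 (.cons 249 (.leaf 297 1613 (.cons 178 (.leaf 201 1421 (.leaf 250 1422 .nil)) .nil)) .nil)) .nil)))) (.cons 227 (.cons 247 (.leaf 248 1786 (.cons 223 (.leaf 246 1778 (.cons 251 (.leaf 250 1784 (.leaf 252 1792 .nil)) .nil)) .nil)) (.cons 204 (.leaf 203 1601 (.cons 228 (.leaf 205 1609 (.cons 248 (.leaf 247 1786 (.leaf 249 1794 .nil)) .nil)) .nil)) (.cons 203 (.leaf 204 1601 (.cons 251 (.leaf 252 1792 (.cons 250 (.leaf 223 1784 (.cons 155 (.leaf 179 1238 (.cons 299 (.leaf 323 1815 (.cons 298 (.leaf 322 1814 (.cons 300 (.leaf 324 1820 (.leaf 297 2179 .nil)) .nil)) .nil)) .nil)) .nil)) .nil)) .nil)) .nil))) (.cons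 223 (.cons 202 (.leaf 203 1593 (.cons 246 (.leaf 247 1778 (.cons 251 (.leaf 250 1784 (.cons 227 (.leaf 299 1623 (.leaf 252 1792 .nil)) .nil)) .nil)) .nil)) (.cons 198 (.leaf 199 1587 (.cons 222 (.leaf 197 1579 (.cons 246 (.leaf 245 1770 (.leaf 247 1778 .nil)) .nil)) .nil)) (.cons 251 (.leaf 250 1784 (.cons 202 (.leaf 203 1593 (.cons 227 (.leaf 299 1623 (.leaf 252 1792 .nil)) .nil)) .nil)) .nil))) (.cons 227 (.cons 247 (.leaf 248 1786 (.cons 223 (.leaf 246 1778 (.cons 198 (.leaf 199 1587 (.cons 197 (.leaf 222 1579 (.cons 202 (.leaf 203 1593 (.cons 251 (.leaf 299 1623 (.leaf 252 1792 .nil)) .nil)) .nil)) .nil)) .nil)) .nil)) (.cons 248 (.leaf 247 1786 (.cons 203 (.leaf 204 1601 (.cons 249 (.leaf 228 1794 (.cons 297 (.leaf 202 1613 (.leaf 321 1799 .nil)) .nil)) .nil)) .nil)) (.cons 247 (.leaf 248 1786 (.cons 223 (.leaf 246 1778 (.cons 198 (.leaf 199 1587 (.cons 197 (.leaf 222 1579 (.cons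 251 (.leaf 252 1792 (.cons 202 (.leaf 299 1623 (.cons 178 (.leaf 154 1236 (.cons 249 (.leaf 201 1421 (.leaf 297 1613 .nil)) .nil)) .nil)) .nil)) .nil)) .nil)) .nil)) .nil)) (.cons 203 (.leaf 204 1601 (.cons 202 (.leaf 223 1593 (.cons 251 (.leaf 178 1431 (.leaf 299 1623 .nil)) .nil)) .nil)) (.cons 248 (.leaf 247 1786 (.cons 203 (.leaf 204 1601 (.cons 228 (.leaf 249 1794 (.cons 252 (.leaf 251 1792 (.leaf 253 1800 .nil)) .nil)) .nil)) .nil)) .nil))))) (.cons 223 t72 (.cons 223 (.cons 198 (.leaf 199 1587 (.cons 197 (.leaf 222 1579 (.cons 202 (.leaf 203 1593 (.cons 249 (.leaf 297 1613 (.cons 178 (.leaf 201 1421 (.leaf 250 1422 .nil)) .nil)) .nil)) .nil)) .nil)) (.cons 250 (.leaf 251 1784 (.cons 198 (.leaf 199 1587 (.cons 222 (.leaf 197 1579 (.leaf 249 1776 .nil)) .nil)) .nil)) (.cons 202 (.leaf 203 1593 (.cons 198 (.leaf 199 1587 (.cons 222 (.leaf 197 1579 (.leaf 201 1585 .nil)) .nil))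 .nil)) (.cons 202 (.leaf 203 1593 (.cons 249 (.leaf 297 1613 (.cons 222 (.leaf 201 1585 (.leaf 250 1776 .nil)) .nil)) .nil)) (.cons 202 (.leaf 203 1593 (.cons 249 (.leaf 297 1613 (.cons 178 (.leaf 201 1421 (.leaf 250 1422 .nil)) .nil)) .nil)) .nil))))) .nil)))))))
noncomputable def t74 : T := .cons 223 (.cons 202 (.leaf 203 1593 (.cons 222 (.leaf 201 1585 (.cons 246 (.leaf 245 1770 (.leaf 247 1778 .nil)) .nil)) .nil)) (.cons 198 (.leaf 199 1587 (.cons 202 (.leaf 203 1593 (.cons 222 (.leaf 197 1579 (.leaf 201 1585 .nil)) .nil)) .nil)) (.cons 198 (.leaf 199 1587 (.cons 222 (.leaf 197 1579 (.cons 246 (.leaf 245 1770 (.leaf 247 1778 .nil)) .nil)) .nil)) (.cons 198 (.leaf 199 1587 (.cons 202 (.leaf 203 1593 (.cons 251 (.leaf 250 1784 (.cons 227 (.leaf 299 1623 (.leaf 247 1786 .nil)) .nil)) .nil)) .nil)) .nil)))) (.cons 223 (.cons 198 (.leaf 199 1587 (.cons 222 (.leaf 197 1579 (.cons 246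 (.leaf 245 1770 (.leaf 247 1778 .nil)) .nil)) .nil)) (.cons 199 (.leaf 198 1587 (.cons 175 (.leaf 247 1404 (.leaf 151 1212 .nil)) .nil)) (.cons 202 (.leaf 203 1593 (.cons 198 (.leaf 199 1587 (.cons 222 (.leaf 197 1579 (.leaf 201 1585 .nil)) .nil)) .nil)) (.cons 246 (.leaf 247 1778 (.cons 202 (.leaf 203 1593 (.cons 222 (.leaf 201 1585 (.leaf 245 1770 .nil)) .nil)) .nil)) .nil)))) (.cons 223 (.cons 198 (.leaf 199 1587 (.cons 197 (.leaf 222 1579 (.cons 251 (.leaf 250 1784 (.cons 227 (.leaf 252 1792 (.cons 204 (.leaf 203 1601 (.cons 228 (.leaf 299 1629 (.leaf 205 1609 .nil)) .nil)) .nil)) .nil)) .nil)) .nil)) (.cons 202 (.leaf 203 1593 (.cons 198 (.leaf 199 1587 (.cons 222 (.leaf 197 1579 (.leaf 201 1585 .nil)) .nil)) .nil)) (.cons 198 (.leaf 199 1587 (.cons 197 (.leaf 222 1579 (.cons 251 (.leaf 250 1784 (.cons 227 (.leaf 252 1792 (.cons 299 (.leaf 202 1623 (.cons 204 (.leaf 228 1629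 (.cons 298 (.leaf 322 1814 (.cons 300 (.leaf 324 1820 (.leaf 297 2179 .nil)) .nil)) .nil)) .nil)) .nil)) .nil)) .nil)) .nil)) (.cons 202 (.leaf 203 1593 (.cons 201 (.leaf 222 1585 (.cons 153 (.leaf 177 1222 (.cons 251 (.leaf 250 1784 (.cons 227 (.leaf 299 1623 (.leaf 252 1792 .nil)) .nil)) .nil)) .nil)) .nil)) (.cons 251 (.leaf 250 1784 (.cons 198 (.leaf 199 1587 (.cons 202 (.leaf 203 1593 (.cons 227 (.leaf 299 1623 (.leaf 252 1792 .nil)) .nil)) .nil)) .nil)) .nil))))) (.cons 227 (.leaf 247 1786 (.cons 203 (.leaf 204 1601 (.cons 251 (.leaf 252 1792 (.cons 202 (.leaf 178 1431 (.leaf 299 1623 .nil)) .nil)) .nil)) .nil)) (.cons 247 (.leaf 227 1786 (.cons 246 (.leaf 245 1960 (.leaf 223 1778 .nil)) .nil)) .nil))))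
noncomputable def t75 : T := .cons 296 (.leaf 201 1605 (.cons 319 (.leaf 295 1790 (.cons 320 (.leaf 343 1982 (.cons 321 (.leaf 297 1796 (.leaf 345 1988 .nil)) .nil)) .nil)) .nil)) (.cons 226 t74 (.cons 296 (.cons 319 (.leaf 295 1790 (.cons 320 (.leaf 343 1982 (.cons 321 (.leaf 297 1796 (.leaf 345 1988 .nil)) .nil)) .nil)) (.cons 223 (.leaf 199 1599 (.cons 295 (.leaf 319 1790 (.cons 247 (.leaf 320 1791 (.cons 246 (.leaf 245 1960 (.leaf 226 1778 .nil)) .nil)) .nil)) .nil)) (.cons 223 (.leaf 199 1599 (.cons 247 (.leaf 320 1791 (.cons 246 (.leaf 245 1960 (.leaf 226 1778 .nil)) .nil)) .nil)) (.cons 223 (.leaf 199 1599 (.cons 295 (.leaf 319 1790 (.cons 294 (.leaf 293 2153 (.cons 297 (.leaf 321 1796 (.cons 270 (.leaf 269 2155 (.cons 318 (.leaf 317 2346 (.cons 246 (.leaf 247 1781 (.cons 245 (.leaf 222 1770 (.leaf 221 1775 .nil)) .nil)) .nil)) .nil)) .nil)) .nil)) .nil)) .nil)) .nil)))) (.cons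 296 (.leaf 201 1605 (.cons 223 (.leaf 199 1599 (.cons 295 (.leaf 319 1790 (.cons 247 (.leaf 320 1791 (.cons 246 (.leaf 245 1960 (.leaf 226 1778 .nil)) .nil)) .nil)) .nil)) .nil)) .nil)))
noncomputable def t76 : T := .cons 202 (.leaf 222 1585 (.cons 203 (.leaf 204 1602 (.leaf 226 1593 .nil)) .nil)) (.cons 226 (.cons 199 (.leaf 198 1587 (.cons 175 (.leaf 247 1404 (.leaf 151 1212 .nil)) .nil)) (.cons 198 (.leaf 199 1587 (.cons 222 (.leaf 197 1579 (.cons 245 (.leaf 246 1770 (.cons 221 (.leaf 244 1762 (.cons 251 (.leaf 250 1784 (.cons 227 (.leaf 252 1792 (.cons 204 (.leaf 203 1601 (.cons 228 (.leaf 299 1629 (.leaf 205 1609 .nil)) .nil)) .nil)) .nil)) .nil)) .nil)) .nil)) .nil)) (.cons 247 (.leaf 246 1778 (.leaf 227 1786 .nil)) .nil))) (.cons 226 (.cons 198 (.leaf 199 1587 (.cons 202 (.leaf 203 1593 (.cons 251 (.leaf 250 1784 (.cons 227 (.leaf 299 1623 (.leaf 247 1786 .nil)) .nil)) .nil))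 .nil)) (.cons 198 (.leaf 199 1587 (.cons 202 (.leaf 203 1593 (.cons 251 (.leaf 250 1784 (.cons 227 (.leaf 299 1623 (.leaf 252 1792 .nil)) .nil)) .nil)) .nil)) (.cons 199 (.leaf 198 1587 (.cons 175 (.leaf 247 1404 (.leaf 151 1212 .nil)) .nil)) (.cons 247 (.leaf 246 1778 (.leaf 227 1786 .nil)) .nil)))) (.cons 222 (.leaf 202 1585 (.cons 197 (.leaf 198 1579 (.cons 221 (.leaf 196 1571 (.cons 245 (.leaf 244 1762 (.leaf 246 1770 .nil)) .nil)) .nil)) .nil)) .nil)))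
noncomputable def t77 : T := .cons 249 (.leaf 296 1606 (.cons 177 (.leaf 248 1414 (.cons 152 (.leaf 176 1223 (.cons 153 (.leaf 128 1031 (.cons 154 (.leaf 130 1037 (.leaf 178 1229 .nil)) .nil)) .nil)) .nil)) .nil)) (.cons 249 (.cons 177 (.leaf 248 1414 (.cons 152 (.leaf 176 1223 (.cons 153 (.leaf 128 1031 (.cons 154 (.leaf 130 1037 (.leaf 178 1229 .nil)) .nil)) .nil)) .nil)) (.cons 202 (.leaf 178 1421 (.cons 203 (.leaf 204 1602 (.cons 223 (.leaf 222 1585 (.leaf 226 1593 .nil)) .nil)) .nil)) (.cons 177 (.leaf 248 1414 (.cons 152 (.leaf 176 1223 (.cons 153 (.leaf 128 1031 (.cons 130 (.leaf 154 1037 (.cons 106 (.leaf 129 845 (.cons 226 (.leaf 250 1228 (.cons 202 (.leaf 297 1613 (.cons 203 (.leaf 204 1602 (.leaf 223 1593 .nil)) .nil)) .nil)) .nil)) .nil)) .nil)) .nil)) .nil)) .nil))) (.cons 248 (.leaf 296 1605 (.cons 177 (.leaf 153 1222 (.cons 223 t76 .nil)) .nil)) (.cons 249 (.leaf 296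 1606 (.cons 202 (.leaf 178 1421 (.cons 203 (.leaf 204 1602 (.cons 223 (.leaf 222 1585 (.leaf 226 1593 .nil)) .nil)) .nil)) .nil)) .nil)))
noncomputable def t78 : T := .leaf 177 1223 (.cons 223 (.cons 226 (.cons 198 (.leaf 199 1587 (.cons 222 (.leaf 197 1579 (.leaf 202 1585 .nil)) .nil)) (.cons 198 (.leaf 199 1587 (.cons 202 (.leaf 203 1593 (.cons 251 (.leaf 250 1784 (.cons 227 (.leaf 299 1623 (.leaf 252 1792 .nil)) .nil)) .nil)) .nil)) (.cons 199 (.leaf 198 1587 (.cons 247 (.leaf 246 1778 (.leaf 175 1213 .nil)) .nil)) (.cons 202 (.leaf 222 1585 (.leaf 203 1593 .nil)) .nil)))) (.cons 226 (.cons 198 (.leaf 199 1587 (.cons 202 (.leaf 203 1593 (.cons 251 (.leaf 250 1784 (.cons 227 (.leaf 299 1623 (.leaf 252 1792 .nil)) .nil)) .nil)) .nil)) (.cons 199 (.leaf 198 1587 (.cons 247 (.leaf 246 1778 (.leaf 175 1213 .nil)) .nil)) (.cons 202 (.leaf 203 1593 (.cons 251 (.leaf 250 1784 (.cons 227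 (.leaf 299 1623 (.leaf 252 1792 .nil)) .nil)) .nil)) .nil))) (.cons 222 (.leaf 202 1585 (.cons 197 (.leaf 198 1579 (.cons 221 (.leaf 196 1571 (.cons 245 (.leaf 244 1762 (.leaf 246 1770 .nil)) .nil)) .nil)) .nil)) (.cons 250 (.leaf 222 1776 (.cons 251 (.leaf 252 1986 (.leaf 226 1784 .nil)) .nil)) .nil)))) .nil)
noncomputable def t79 : T := .cons 201 (.leaf 202 1585 (.cons 197 (.leaf 198 1579 (.cons 246 (.leaf 245 1770 (.cons 226 (.leaf 247 1778 (.cons 249 (.leaf 296 1606 (.cons 200 (.leaf 176 1415 (.leaf 221 1577 .nil)) .nil)) .nil)) .nil)) .nil)) .nil)) (.cons 198 (.leaf 197 1579 (.cons 199 (.leaf 226 1587 (.cons 245 (.leaf 246 1770 (.cons 221 (.leaf 244 1762 (.cons 220 (.leaf 200 1569 (.leaf 219 1561 .nil)) .nil)) .nil)) .nil)) .nil)) (.cons 201 (.leaf 202 1585 (.cons 200 (.leaf 221 1577 (.cons 246 (.leaf 245 1770 (.cons 226 (.leaf 247 1778 (.cons 227 (.leaf 199 1595 (.leaf 228 1603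 .nil)) .nil)) .nil)) .nil)) .nil)) (.cons 201 (.leaf 202 1585 (.cons 197 (.leaf 198 1579 (.cons 221 (.leaf 196 1571 (.leaf 200 1577 .nil)) .nil)) .nil)) (.cons 201 (.leaf 202 1585 (.cons 197 (.leaf 198 1579 (.cons 246 (.leaf 245 1770 (.cons 226 (.leaf 247 1778 (.cons 249 (.leaf 296 1606 (.cons 200 (.leaf 176 1415 (.cons 227 (.leaf 199 1595 (.leaf 228 1603 .nil)) .nil)) .nil)) .nil)) .nil)) .nil)) .nil)) (.cons 246 (.leaf 245 1770 (.cons 197 (.leaf 198 1579 (.cons 196 (.leaf 221 1571 (.cons 202 (.leaf 201 1585 (.cons 226 (.leaf 203 1593 (.leaf 247 1778 .nil)) .nil)) .nil)) .nil)) .nil)) .nil)))))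
noncomputable def t80 : T := .cons 198 (.leaf 199 1587 (.cons 202 (.leaf 203 1593 (.cons 250 (.leaf 251 1784 (.cons 222 (.leaf 197 1579 (.leaf 201 1585 .nil)) .nil)) .nil)) .nil)) (.cons 198 (.leaf 199 1587 (.cons 197 (.leaf 222 1579 (.cons 251 (.leaf 250 1784 (.cons 227 (.leaf 252 1792 (.cons 204 (.leaf 203 1601 (.cons 228 (.leaf 299 1629 (.leaf 205 1609 .nil)) .nil)) .nil)) .nil)) .nil)) .nil)) (.cons 202 (.leaf 203 1593 (.cons 201 (.leaf 222 1585 (.cons 249 (.leaf 296 1606 (.leaf 178 1421 .nil)) .nil)) .nil)) (.cons 198 (.leaf 199 1587 (.cons 197 (.leaf 222 1579 (.cons 251 (.leaf 250 1784 (.cons 227 (.leaf 252 1792 (.cons 202 (.leaf 299 1623 (.cons 178 (.leaf 154 1236 (.cons 201 (.leaf 249 1421 (.cons 228 (.leaf 200 1603 (.leaf 229 1611 .nil)) .nil)) .nil)) .nil)) .nil)) .nil)) .nil)) .nil)) (.cons 198 (.leaf 199 1587 (.cons 202 (.leaf 203 1593 (.cons 250 (.leaf 251 1784 (.cons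 178 (.leaf 249 1422 (.cons 153 (.leaf 177 1231 (.cons 154 (.leaf 129 1039 (.cons 155 (.leaf 131 1045 (.leaf 179 1237 .nil)) .nil)) .nil)) .nil)) .nil)) .nil)) .nil)) .nil))))
noncomputable def t81 : T := .cons 202 (.leaf 203 1593 (.cons 246 (.leaf 247 1778 (.cons 251 (.leaf 250 1784 (.cons 227 (.leaf 299 1623 (.leaf 252 1792 .nil)) .nil)) .nil)) .nil)) (.cons 199 (.leaf 198 1587 (.cons 200 (.leaf 227 1595 (.cons 202 (.leaf 203 1593 (.cons 247 (.leaf 246 1778 (.cons 176 (.leaf 152 1214 (.cons 201 (.leaf 249 1415 (.cons 175 (.leaf 174 1395 (.cons 151 (.leaf 127 1020 (.cons 150 (.leaf 126 1015 (.cons 178 (.leaf 179 1401 (.leaf 177 1203 .nil)) .nil)) .nil)) .nil)) .nil)) .nil)) .nil)) .nil)) .nil)) .nil)) (.cons 251 (.leaf 250 1784 (.cons 198 (.leaf 199 1587 (.cons 227 (.leaf 252 1792 (.cons 204 (.leaf 203 1601 (.cons 228 (.leaf 299 1629 (.leaf 205 1609 .nil)) .nil)) .nil)) .nil)) .nil))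 (.cons 251 (.leaf 250 1784 (.cons 198 (.leaf 199 1587 (.cons 227 (.leaf 252 1792 (.cons 202 (.leaf 299 1623 (.cons 178 (.leaf 154 1236 (.cons 201 (.leaf 249 1421 (.cons 228 (.leaf 200 1603 (.leaf 229 1611 .nil)) .nil)) .nil)) .nil)) .nil)) .nil)) .nil)) (.cons 202 (.leaf 203 1593 (.cons 198 (.leaf 199 1587 (.cons 250 (.leaf 251 1784 (.cons 178 (.leaf 249 1422 (.cons 153 (.leaf 177 1231 (.cons 154 (.leaf 129 1039 (.cons 155 (.leaf 131 1045 (.leaf 179 1237 .nil)) .nil)) .nil)) .nil)) .nil)) .nil)) .nil)) .nil))))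
noncomputable def t82 : T := .cons 222 (.cons 197 (.leaf 198 1579 (.cons 221 (.leaf 196 1571 (.cons 245 (.leaf 244 1762 (.leaf 246 1770 .nil)) .nil)) .nil)) (.cons 201 (.leaf 202 1585 (.cons 249 (.leaf 296 1606 (.leaf 250 1776 .nil)) .nil)) .nil)) (.cons 226 t81 (.cons 226 (.cons 198 (.leaf 199 1587 (.cons 197 (.leaf 222 1579 (.cons 246 (.leaf 247 1778 (.cons 251 (.leaf 250 1784 (.cons 227 (.leaf 252 1792 (.cons 204 (.leaf 203 1601 (.cons 228 (.leaf 299 1629 (.leaf 205 1609 .nil)) .nil)) .nil)) .nil)) .nil)) .nil)) .nil)) (.cons 199 (.leaf 198 1587 (.cons 203 (.leaf 202 1593 (.cons 227 (.leaf 200 1595 (.leaf 204 1601 .nil)) .nil)) .nil)) (.cons 251 (.leaf 250 1784 (.cons 202 (.leaf 203 1593 (.cons 227 (.leaf 299 1623 (.leaf 252 1792 .nil)) .nil)) .nil)) (.cons 251 (.leaf 250 1784 (.cons 198 (.leaf 199 1587 (.cons 197 (.leaf 222 1579 (.cons 227 (.leaf 252 1792 (.cons 246 (.leaf 247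 1778 (.cons 299 (.leaf 202 1623 (.cons 204 (.leaf 228 1629 (.cons 322 (.leaf 298 1814 (.cons 323 (.leaf 346 2006 (.cons 324 (.leaf 300 1820 (.leaf 348 2012 .nil)) .nil)) .nil)) .nil)) .nil)) .nil)) .nil)) .nil)) .nil)) .nil)) (.cons 250 (.leaf 251 1784 (.cons 198 (.leaf 199 1587 (.cons 222 (.leaf 197 1579 (.leaf 249 1776 .nil)) .nil)) .nil)) .nil))))) (.cons 226 (.cons 198 (.leaf 199 1587 (.cons 197 (.leaf 222 1579 (.cons 246 (.leaf 247 1778 (.cons 251 (.leaf 250 1784 (.cons 227 (.leaf 252 1792 (.cons 204 (.leaf 203 1601 (.cons 228 (.leaf 299 1629 (.leaf 205 1609 .nil)) .nil)) .nil)) .nil)) .nil)) .nil)) .nil)) (.cons 202 (.leaf 203 1593 (.cons 246 (.leaf 247 1778 (.cons 251 (.leaf 250 1784 (.cons 227 (.leaf 299 1623 (.leaf 252 1792 .nil)) .nil)) .nil)) .nil)) (.cons 198 (.leaf 199 1587 (.cons 202 (.leaf 203 1593 (.cons 222 (.leaf 197 1579 (.leaf 201 1585 .nil)) .nil)) .nil)) (.cons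 198 (.leaf 199 1587 (.cons 197 (.leaf 222 1579 (.cons 246 (.leaf 247 1778 (.cons 251 (.leaf 250 1784 (.cons 227 (.leaf 252 1792 (.cons 299 (.leaf 202 1623 (.cons 204 (.leaf 228 1629 (.cons 322 (.leaf 298 1814 (.cons 323 (.leaf 346 2006 (.cons 324 (.leaf 300 1820 (.leaf 348 2012 .nil)) .nil)) .nil)) .nil)) .nil)) .nil)) .nil)) .nil)) .nil)) .nil)) .nil)))) (.cons 222 (.cons 197 (.leaf 198 1579 (.cons 221 (.leaf 196 1571 (.cons 245 (.leaf 244 1762 (.leaf 246 1770 .nil)) .nil)) .nil)) (.cons 249 (.leaf 250 1776 (.cons 201 (.leaf 296 1606 (.cons 200 (.leaf 176 1415 (.leaf 221 1577 .nil)) .nil)) .nil)) (.cons 197 (.leaf 198 1579 (.cons 246 (.leaf 245 1770 (.cons 226 (.leaf 247 1778 (.cons 250 (.leaf 249 1776 (.leaf 251 1784 .nil)) .nil)) .nil)) .nil)) .nil))) (.cons 226 (.cons 202 (.leaf 203 1593 (.cons 201 (.leaf 222 1585 (.cons 251 (.leaf 250 1784 (.cons 227 (.leaf 299 1623 (.leaf 252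 1792 .nil)) .nil)) .nil)) .nil)) (.cons 246 (.leaf 247 1778 (.cons 222 (.leaf 245 1770 (.cons 250 (.leaf 249 1776 (.leaf 251 1784 .nil)) .nil)) .nil)) (.cons 202 (.leaf 203 1593 (.cons 201 (.leaf 222 1585 (.cons 249 (.leaf 296 1606 (.leaf 178 1421 .nil)) .nil)) .nil)) (.cons 202 (.leaf 203 1593 (.cons 246 (.leaf 247 1778 (.cons 251 (.leaf 250 1784 (.cons 227 (.leaf 299 1623 (.leaf 252 1792 .nil)) .nil)) .nil)) .nil)) .nil)))) (.cons 226 t80 (.cons 222 t79 .nil)))))))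
noncomputable def t83 : T := .cons 201 (.leaf 296 1606 (.cons 202 (.leaf 178 1421 (.cons 203 (.leaf 204 1602 (.cons 223 (.leaf 222 1585 (.leaf 226 1593 .nil)) .nil)) .nil)) .nil)) (.cons 226 (.cons 223 (.cons 250 (.leaf 222 1776 (.leaf 251 1784 .nil)) (.cons 198 (.leaf 199 1587 (.cons 222 (.leaf 197 1579 (.cons 246 (.leaf 245 1770 (.leaf 247 1778 .nil)) .nil)) .nil)) (.cons 198 (.leaf 199 1587 (.cons 202 (.leaf 297 1613 (.leaf 203 1593 .nil)) .nil)) .nil))) (.cons 223 (.cons 250 (.leaf 222 1776 (.leaf 251 1784 .nil)) (.cons 198 (.leaf 199 1587 (.cons 222 (.leaf 197 1579 (.cons 246 (.leaf 245 1770 (.leaf 247 1778 .nil)) .nil)) .nil)) (.cons 251 (.leaf 250 1784 (.cons 198 (.leaf 199 1587 (.cons 227 (.leaf 252 1792 (.cons 204 (.leaf 203 1601 (.cons 228 (.leaf 299 1629 (.leaf 205 1609 .nil)) .nil)) .nil)) .nil)) .nil)) .nil))) (.cons 202 (.leaf 297 1613 (.cons 178 (.leaf 201 1421 (.leaf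 154 1230 .nil)) .nil)) .nil))) (.cons 297 (.cons 320 (.leaf 296 1798 (.cons 321 (.leaf 344 1990 (.cons 226 (.leaf 202 1613 (.leaf 250 1805 .nil)) .nil)) .nil)) (.cons 320 (.leaf 296 1798 (.cons 321 (.leaf 344 1990 (.cons 322 (.leaf 298 1804 (.leaf 346 1996 .nil)) .nil)) .nil)) (.cons 226 (.leaf 202 1613 (.cons 250 (.leaf 321 1805 (.cons 251 (.leaf 252 1986 (.leaf 223 1784 .nil)) .nil)) .nil)) (.cons 226 (.leaf 202 1613 (.cons 296 (.leaf 320 1798 (.cons 298 (.leaf 322 1804 (.cons 299 (.leaf 300 2179 (.cons 323 (.leaf 324 2368 (.cons 251 (.leaf 250 1815 (.cons 252 (.leaf 228 1821 (.leaf 227 1792 .nil)) .nil)) .nil)) .nil)) .nil)) .nil)) .nil)) .nil)))) (.cons 296 (.leaf 201 1606 (.cons 320 (.leaf 344 1989 (.leaf 297 1798 .nil)) .nil)) .nil)))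
noncomputable def t84 : T := .cons 200 (.leaf 199 1595 (.cons 249 (.leaf 297 1607 (.cons 176 (.leaf 152 1220 (.cons 228 (.cons 204 (.leaf 203 1601 (.leaf 205 1609 .nil)) (.cons 229 (.leaf 250 1802 (.cons 206 (.leaf 205 1617 (.cons 230 (.leaf 207 1625 (.cons 254 (.leaf 253 1808 (.leaf 255 1816 .nil)) .nil)) .nil)) .nil)) (.cons 203 (.leaf 204 1601 (.cons 229 (.leaf 250 1802 (.cons 202 (.leaf 230 1619 (.cons 178 (.leaf 251 1431 (.leaf 154 1230 .nil)) .nil)) .nil)) .nil)) .nil))) .nil)) .nil)) .nil)) (.cons 200 (.leaf 199 1595 (.cons 204 (.leaf 203 1601 (.cons 228 (.leaf 205 1609 (.cons 249 (.leaf 297 1607 (.cons 152 (.leaf 176 1220 (.cons 229 (.leaf 250 1802 (.cons 253 (.leaf 252 1800 (.leaf 254 1808 .nil)) .nil)) .nil)) .nil)) .nil)) .nil)) .nil)) (.cons 251 (.leaf 252 1792 (.cons 202 (.leaf 299 1623 (.cons 178 (.leaf 203 1431 (.leaf 250 1428 .nil)) .nil)) .nil)) (.cons 251 (.leaf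 252 1792 (.cons 199 (.leaf 200 1595 (.cons 202 (.leaf 299 1623 (.cons 178 (.leaf 250 1428 (.leaf 154 1236 .nil)) .nil)) .nil)) .nil)) (.cons 251 (.leaf 252 1792 (.cons 202 (.leaf 299 1623 (.cons 178 (.leaf 203 1431 (.leaf 154 1236 .nil)) .nil)) .nil)) .nil))))
noncomputable def t85 : T := .cons 227 t84 (.cons 223 (.cons 202 (.leaf 203 1593 (.cons 246 (.leaf 247 1778 (.cons 222 (.leaf 245 1770 (.cons 249 (.leaf 297 1613 (.leaf 250 1776 .nil)) .nil)) .nil)) .nil)) (.cons 198 (.leaf 199 1587 (.cons 202 (.leaf 203 1593 (.cons 222 (.leaf 197 1579 (.cons 246 (.leaf 245 1770 (.leaf 247 1778 .nil)) .nil)) .nil)) .nil)) (.cons 250 (.leaf 251 1784 (.cons 198 (.leaf 199 1587 (.cons 222 (.leaf 197 1579 (.leaf 249 1776 .nil)) .nil)) .nil)) (.cons 198 (.leaf 199 1587 (.cons 202 (.leaf 203 1593 (.cons 246 (.leaf 247 1778 (.cons 249 (.leaf 297 1613 (.cons 250 (.leaf 178 1422 (.leaf 251 1784 .nil))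 .nil)) .nil)) .nil)) .nil)) .nil)))) (.cons 223 (.cons 198 (.leaf 199 1587 (.cons 202 (.leaf 203 1593 (.cons 222 (.leaf 197 1579 (.cons 246 (.leaf 245 1770 (.leaf 247 1778 .nil)) .nil)) .nil)) .nil)) (.cons 202 (.leaf 203 1593 (.cons 246 (.leaf 247 1778 (.cons 222 (.leaf 245 1770 (.cons 249 (.leaf 297 1613 (.leaf 250 1776 .nil)) .nil)) .nil)) .nil)) (.cons 199 (.leaf 198 1587 (.cons 200 (.leaf 227 1595 (.cons 246 (.leaf 247 1778 (.cons 222 (.leaf 245 1770 (.cons 249 (.leaf 297 1607 (.leaf 250 1776 .nil)) .nil)) .nil)) .nil)) .nil)) (.cons 202 (.leaf 203 1593 (.cons 198 (.leaf 199 1587 (.cons 197 (.leaf 222 1579 (.cons 249 (.leaf 297 1613 (.cons 178 (.leaf 250 1422 (.leaf 154 1230 .nil)) .nil)) .nil)) .nil)) .nil)) (.cons 202 (.leaf 203 1593 (.cons 198 (.leaf 199 1587 (.cons 246 (.leaf 247 1778 (.cons 249 (.leaf 297 1613 (.cons 178 (.leaf 250 1422 (.leaf 154 1230 .nil)) .nil)) .nil))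 .nil)) .nil)) .nil))))) (.cons 223 (.cons 198 (.leaf 199 1587 (.cons 197 (.leaf 222 1579 (.cons 251 (.leaf 250 1784 (.cons 227 (.leaf 252 1792 (.cons 204 (.leaf 203 1601 (.cons 228 (.leaf 299 1629 (.leaf 205 1609 .nil)) .nil)) .nil)) .nil)) .nil)) .nil)) (.cons 199 (.leaf 198 1587 (.cons 200 (.leaf 227 1595 (.cons 246 (.leaf 247 1778 (.cons 222 (.leaf 245 1770 (.cons 249 (.leaf 297 1607 (.leaf 250 1776 .nil)) .nil)) .nil)) .nil)) .nil)) (.cons 250 (.leaf 251 1784 (.cons 222 (.leaf 249 1776 (.cons 246 (.leaf 245 1770 (.leaf 247 1778 .nil)) .nil)) .nil)) (.cons 199 (.leaf 198 1587 (.cons 227 (.leaf 200 1595 (.cons 204 (.leaf 203 1601 (.cons 228 (.leaf 205 1609 (.cons 251 (.leaf 299 1629 (.leaf 252 1792 .nil)) .nil)) .nil)) .nil)) .nil)) .nil)))) (.cons 223 (.cons 250 (.leaf 251 1784 (.cons 198 (.leaf 199 1587 (.cons 222 (.leaf 197 1579 (.leaf 249 1776 .nil)) .nil)) .nil)) (.cons 198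 (.leaf 199 1587 (.cons 222 (.leaf 197 1579 (.cons 246 (.leaf 245 1770 (.leaf 247 1778 .nil)) .nil)) .nil)) (.cons 250 (.leaf 251 1784 (.cons 222 (.leaf 249 1776 (.cons 246 (.leaf 245 1770 (.leaf 247 1778 .nil)) .nil)) .nil)) (.cons 199 (.leaf 198 1587 (.cons 227 (.leaf 200 1595 (.cons 251 (.leaf 250 1784 (.leaf 252 1792 .nil)) .nil)) .nil)) .nil)))) (.cons 227 (.cons 199 (.leaf 200 1595 (.cons 203 (.leaf 204 1601 (.cons 251 (.leaf 252 1792 (.cons 202 (.leaf 178 1431 (.leaf 299 1623 .nil)) .nil)) .nil)) .nil)) (.cons 199 (.leaf 200 1595 (.cons 203 (.leaf 204 1601 (.cons 223 (.leaf 198 1587 (.leaf 202 1593 .nil)) .nil)) .nil)) (.cons 199 (.leaf 200 1595 (.cons 198 (.leaf 223 1587 (.cons 251 (.leaf 252 1792 (.cons 299 (.leaf 202 1623 (.cons 204 (.leaf 228 1629 (.cons 298 (.leaf 322 1814 (.cons 300 (.leaf 324 1820 (.leaf 297 2179 .nil)) .nil)) .nil)) .nil)) .nil)) .nil)) .nil)) (.cons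 251 (.leaf 252 1792 (.cons 202 (.leaf 299 1623 (.cons 178 (.leaf 203 1431 (.leaf 154 1236 .nil)) .nil)) .nil)) (.cons 199 (.leaf 200 1595 (.cons 198 (.leaf 223 1587 (.cons 204 (.leaf 203 1601 (.cons 228 (.leaf 205 1609 (.cons 251 (.leaf 299 1629 (.leaf 252 1792 .nil)) .nil)) .nil)) .nil)) .nil)) .nil))))) (.cons 251 (.cons 227 (.leaf 252 1792 (.cons 202 (.leaf 299 1623 (.cons 178 (.leaf 203 1431 (.leaf 250 1428 .nil)) .nil)) .nil)) (.cons 227 (.leaf 252 1792 (.cons 202 (.leaf 299 1623 (.cons 178 (.leaf 203 1431 (.leaf 154 1236 .nil)) .nil)) .nil)) (.cons 250 (.leaf 223 1784 (.cons 252 (.leaf 249 1986 (.leaf 253 1803 .nil)) .nil)) (.cons 250 (.leaf 223 1784 (.cons 202 (.leaf 178 1428 (.cons 299 (.leaf 227 1623 (.leaf 323 1815 .nil)) .nil)) .nil)) .nil)))) .nil))))))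
noncomputable def t86 : T := .cons 226 (.cons 227 (.cons 199 (.leaf 200 1595 (.cons 203 (.leaf 204 1601 (.cons 251 (.leaf 252 1792 (.cons 223 (.leaf 198 1587 (.leaf 202 1593 .nil)) .nil)) .nil)) .nil)) (.cons 199 (.leaf 200 1595 (.cons 203 (.leaf 204 1601 (.cons 223 (.leaf 198 1587 (.leaf 202 1593 .nil)) .nil)) .nil)) (.cons 199 (.leaf 200 1595 (.cons 198 (.leaf 223 1587 (.cons 251 (.leaf 252 1792 (.cons 299 (.leaf 202 1623 (.cons 204 (.leaf 228 1629 (.cons 298 (.leaf 322 1814 (.cons 300 (.leaf 324 1820 (.leaf 297 2179 .nil)) .nil)) .nil)) .nil)) .nil)) .nil)) .nil)) (.cons 251 (.leaf 252 1792 (.cons 202 (.leaf 299 1623 (.cons 178 (.leaf 203 1431 (.leaf 250 1428 .nil)) .nil)) .nil)) (.cons 199 (.leaf 200 1595 (.cons 198 (.leaf 223 1587 (.cons 204 (.leaf 203 1601 (.cons 228 (.leaf 205 1609 (.cons 251 (.leaf 299 1629 (.leaf 252 1792 .nil)) .nil)) .nil)) .nil)) .nil)) .nil))))) t85)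 (.cons 249 (.cons 297 (.leaf 200 1607 (.cons 320 (.leaf 296 1798 (.cons 321 (.leaf 344 1990 (.cons 322 (.leaf 298 1804 (.leaf 346 1996 .nil)) .nil)) .nil)) .nil)) (.cons 201 (.leaf 296 1606 (.cons 176 (.leaf 200 1415 (.cons 177 (.leaf 152 1223 (.cons 178 (.leaf 202 1421 (.leaf 154 1229 .nil)) .nil)) .nil)) .nil)) (.cons 296 (.leaf 201 1606 (.cons 320 (.leaf 344 1989 (.leaf 297 1798 .nil)) .nil)) (.cons 200 (.leaf 297 1607 (.cons 176 (.leaf 201 1415 (.leaf 152 1220 .nil)) .nil)) .nil)))) (.cons 249 t83 (.cons 223 t82 (.cons 249 (.cons 200 (.leaf 297 1607 (.cons 176 (.leaf 201 1415 (.leaf 152 1220 .nil)) .nil)) (.cons 201 (.leaf 296 1606 (.cons 177 (.cons 154 (.leaf 178 1229 (.cons 153 (.leaf 130 1037 (.cons 176 (.leaf 200 1415 (.leaf 152 1223 .nil)) .nil)) .nil)) (.cons 154 (.leaf 178 1229 (.cons 153 (.leaf 130 1037 (.cons 250 (.leaf 226 1228 (.cons 251 (.leaf 252 1986 (.cons 128 (.leaf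 152 1031 (.cons 129 (.leaf 200 1030 (.leaf 104 839 .nil)) .nil)) .nil)) .nil)) .nil)) .nil)) (.cons 152 (.leaf 176 1223 (.cons 153 (.leaf 128 1031 (.cons 154 (.leaf 130 1037 (.leaf 178 1229 .nil)) .nil)) .nil)) (.cons 154 (.leaf 178 1229 (.cons 153 (.leaf 130 1037 (.cons 200 (.leaf 176 1415 (.leaf 129 1030 .nil)) .nil)) .nil)) (.cons 176 (.leaf 200 1415 (.leaf 152 1223 .nil)) .nil))))) .nil)) (.cons 296 (.leaf 201 1606 (.cons 320 (.leaf 344 1989 (.leaf 297 1798 .nil)) .nil)) (.cons 297 (.leaf 200 1607 (.cons 320 (.leaf 296 1798 (.cons 321 (.leaf 344 1990 (.cons 322 (.leaf 298 1804 (.leaf 346 1996 .nil)) .nil)) .nil)) .nil)) .nil)))) (.cons 249 (.cons 201 (.leaf 296 1606 (.cons 176 (.leaf 200 1415 (.cons 152 (.leaf 177 1223 (.cons 223 (.cons 222 (.leaf 202 1585 (.leaf 250 1776 .nil)) (.cons 226 (.cons 198 (.leaf 199 1587 (.cons 202 (.leaf 297 1613 (.leaf 203 1593 .nil)) .nil)) (.cons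 199 (.leaf 198 1587 (.cons 247 (.leaf 246 1778 (.leaf 175 1213 .nil)) .nil)) (.cons 202 (.leaf 297 1613 (.leaf 203 1593 .nil)) .nil))) (.cons 250 (.leaf 222 1776 (.cons 251 (.leaf 252 1986 (.leaf 226 1784 .nil)) .nil)) .nil))) .nil)) .nil)) .nil)) (.cons 201 (.leaf 296 1606 (.cons 176 (.leaf 200 1415 (.cons 152 t78 .nil)) .nil)) (.cons 296 (.leaf 201 1606 (.cons 320 (.leaf 344 1989 (.leaf 297 1798 .nil)) .nil)) (.cons 297 (.leaf 200 1607 (.cons 226 (.leaf 202 1613 (.cons 321 (.leaf 250 1805 (.cons 344 (.leaf 320 1990 (.cons 322 (.leaf 298 1804 (.leaf 346 1996 .nil)) .nil)) .nil)) .nil)) .nil)) .nil)))) (.cons 249 (.cons 201 (.leaf 296 1606 (.cons 176 (.leaf 200 1415 (.cons 152 (.leaf 177 1223 (.cons 223 (.cons 222 (.leaf 202 1585 (.leaf 250 1776 .nil)) (.cons 250 (.leaf 222 1776 (.cons 251 (.leaf 252 1986 (.leaf 226 1784 .nil)) .nil)) (.cons 226 (.cons 198 (.leaf 199 1587 (.cons 202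 (.leaf 178 1421 (.leaf 297 1613 .nil)) .nil)) (.cons 199 (.leaf 198 1587 (.cons 247 (.leaf 246 1778 (.leaf 175 1213 .nil)) .nil)) (.cons 202 (.leaf 178 1421 (.leaf 297 1613 .nil)) .nil))) .nil))) .nil)) .nil)) .nil)) (.cons 297 (.leaf 200 1607 (.cons 226 (.leaf 202 1613 (.cons 250 (.leaf 321 1805 (.cons 251 (.leaf 252 1986 (.leaf 223 1784 .nil)) .nil)) .nil)) .nil)) (.cons 201 (.leaf 296 1606 (.cons 202 (.leaf 178 1421 (.cons 203 (.leaf 204 1602 (.cons 223 (.leaf 222 1585 (.leaf 226 1593 .nil)) .nil)) .nil)) .nil)) (.cons 201 (.leaf 296 1606 (.cons 200 (.leaf 176 1415 (.leaf 297 1607 .nil)) .nil)) .nil)))) .nil))))))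
noncomputable def t87 : T := .cons 202 (.leaf 203 1593 (.cons 250 (.leaf 251 1784 (.cons 199 (.leaf 198 1587 (.cons 178 (.cons 153 (.leaf 177 1231 (.cons 154 (.leaf 129 1039 (.cons 155 (.leaf 131 1045 (.leaf 179 1237 .nil)) .nil)) .nil)) (.cons 155 (.leaf 179 1237 (.cons 131 (.leaf 154 1045 (.cons 222 (.leaf 201 1585 (.cons 246 (.leaf 245 1770 (.leaf 247 1778 .nil)) .nil)) .nil)) .nil)) (.cons 153 (.leaf 177 1231 (.cons 154 (.leaf 129 1039 (.cons 130 (.leaf 201 1038 (.cons 131 (.leaf 155 1045 (.leaf 107 853 .nil)) .nil)) .nil)) .nil)) (.cons 153 (.leaf 177 1231 (.cons 154 (.leaf 129 1039 (.cons 130 (.leaf 201 1038 (.cons 131 (.leaf 107 853 (.cons 152 (.leaf 151 1017 (.cons 247 (.leaf 246 1778 (.cons 176 (.leaf 200 1214 (.leaf 175 1213 .nil)) .nil)) .nil)) .nil)) .nil)) .nil)) .nil)) (.cons 153 (.leaf 177 1231 (.cons 155 (.leaf 179 1237 (.cons 222 (.leaf 201 1585 (.cons 246 (.leaf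 245 1770 (.leaf 247 1778 .nil)) .nil)) .nil)) .nil)) .nil))))) .nil)) .nil)) .nil)) (.cons 198 (.leaf 199 1587 (.cons 222 (.leaf 197 1579 (.cons 246 (.leaf 245 1770 (.leaf 247 1778 .nil)) .nil)) .nil)) (.cons 202 (.leaf 203 1593 (.cons 222 (.leaf 201 1585 (.cons 246 (.leaf 245 1770 (.leaf 247 1778 .nil)) .nil)) .nil)) (.cons 202 (.leaf 203 1593 (.cons 198 (.leaf 199 1587 (.cons 222 (.leaf 197 1579 (.leaf 201 1585 .nil)) .nil)) .nil)) (.cons 202 (.leaf 203 1593 (.cons 250 (.leaf 251 1784 (.cons 199 (.leaf 198 1587 (.cons 178 (.cons 153 (.leaf 177 1231 (.cons 154 (.leaf 129 1039 (.cons 155 (.leaf 131 1045 (.leaf 179 1237 .nil)) .nil)) .nil)) (.cons 179 (.leaf 155 1237 (.cons 200 (.leaf 201 1401 (.cons 176 (.leaf 177 1402 (.cons 152 (.leaf 247 1214 (.leaf 128 1022 .nil)) .nil)) .nil)) .nil)) (.cons 155 (.leaf 179 1237 (.cons 154 (.leaf 131 1045 (.cons 129 (.leaf 153 1039 (.cons 130 (.leaf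 201 1038 (.leaf 105 847 .nil)) .nil)) .nil)) .nil)) (.cons 153 (.leaf 177 1231 (.cons 154 (.leaf 129 1039 (.cons 130 (.leaf 201 1038 (.cons 131 (.leaf 155 1045 (.leaf 107 853 .nil)) .nil)) .nil)) .nil)) (.cons 153 (.leaf 177 1231 (.cons 154 (.leaf 129 1039 (.cons 130 (.leaf 201 1038 (.cons 131 (.leaf 107 853 (.cons 152 (.leaf 151 1017 (.cons 247 (.leaf 246 1778 (.cons 176 (.leaf 200 1214 (.leaf 175 1213 .nil)) .nil)) .nil)) .nil)) .nil)) .nil)) .nil)) .nil))))) .nil)) .nil)) .nil)) .nil))))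
noncomputable def t88 : T := .cons 223 (.cons 198 (.leaf 199 1587 (.cons 246 (.leaf 247 1778 (.cons 251 (.leaf 250 1784 (.cons 227 (.leaf 252 1792 (.cons 299 (.leaf 202 1623 (.cons 204 (.leaf 228 1629 (.leaf 203 1601 .nil)) .nil)) .nil)) .nil)) .nil)) .nil)) (.cons 198 (.leaf 199 1587 (.cons 222 (.leaf 197 1579 (.cons 246 (.leaf 245 1770 (.leaf 247 1778 .nil)) .nil)) .nil)) (.cons 202 (.leaf 203 1593 (.cons 201 (.leaf 222 1585 (.cons 251 (.leaf 250 1784 (.cons 227 (.leaf 299 1623 (.leaf 252 1792 .nil)) .nil)) .nil)) .nil)) .nil))) (.cons 227 (.cons 199 (.leaf 200 1595 (.cons 203 (.leaf 204 1601 (.cons 251 (.leaf 252 1792 (.cons 202 (.leaf 178 1431 (.leaf 299 1623 .nil)) .nil)) .nil)) .nil)) (.cons 200 (.leaf 199 1595 (.cons 204 (.leaf 203 1601 (.cons 228 (.leaf 201 1603 (.leaf 205 1609 .nil)) .nil)) .nil)) (.cons 199 (.leaf 200 1595 (.cons 251 (.leaf 252 1792 (.cons 202 (.leaf 299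 1623 (.cons 178 (.leaf 203 1431 (.leaf 250 1428 .nil)) .nil)) .nil)) .nil)) (.cons 199 (.leaf 200 1595 (.cons 251 (.leaf 252 1792 (.cons 202 (.leaf 299 1623 (.cons 178 (.leaf 250 1428 (.leaf 154 1236 .nil)) .nil)) .nil)) .nil)) (.cons 251 (.leaf 252 1792 (.cons 202 (.leaf 299 1623 (.cons 178 (.leaf 203 1431 (.leaf 250 1428 .nil)) .nil)) .nil)) .nil))))) (.cons 223 t87 (.cons 223 (.cons 202 (.leaf 203 1593 (.cons 222 (.leaf 201 1585 (.cons 246 (.leaf 245 1770 (.leaf 247 1778 .nil)) .nil)) .nil)) (.cons 199 (.leaf 198 1587 (.cons 200 (.leaf 227 1595 (.cons 246 (.leaf 247 1778 (.cons 222 (.leaf 245 1770 (.cons 221 (.leaf 201 1577 (.leaf 220 1569 .nil)) .nil)) .nil)) .nil)) .nil)) (.cons 199 (.leaf 198 1587 (.cons 203 (.leaf 202 1593 (.cons 227 (.leaf 200 1595 (.leaf 204 1601 .nil)) .nil)) .nil)) .nil))) (.cons 227 (.cons 203 (.leaf 204 1601 (.cons 251 (.leaf 252 1792 (.cons 250 (.leaf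 223 1784 (.cons 155 (.leaf 179 1238 (.cons 299 (.leaf 323 1815 (.cons 298 (.leaf 322 1814 (.cons 300 (.leaf 324 1820 (.leaf 297 2179 .nil)) .nil)) .nil)) .nil)) .nil)) .nil)) .nil)) (.cons 200 (.leaf 199 1595 (.cons 204 (.leaf 203 1601 (.cons 228 (.leaf 201 1603 (.leaf 205 1609 .nil)) .nil)) .nil)) (.cons 199 (.leaf 200 1595 (.cons 223 (.leaf 198 1587 (.cons 251 (.leaf 250 1784 (.leaf 252 1792 .nil)) .nil)) .nil)) .nil))) (.cons 223 (.cons 198 (.leaf 199 1587 (.cons 246 (.leaf 247 1778 (.cons 251 (.leaf 250 1784 (.cons 227 (.leaf 252 1792 (.cons 299 (.leaf 202 1623 (.cons 204 (.leaf 228 1629 (.cons 298 (.leaf 322 1814 (.cons 300 (.leaf 324 1820 (.leaf 297 2179 .nil)) .nil)) .nil)) .nil)) .nil)) .nil)) .nil)) .nil)) (.cons 251 (.leaf 250 1784 (.cons 227 (.leaf 252 1792 (.cons 202 (.leaf 299 1623 (.cons 154 (.leaf 178 1236 (.cons 201 (.leaf 222 1585 (.cons 228 (.leaf 200 1603 (.leaf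 229 1611 .nil)) .nil)) .nil)) .nil)) .nil)) .nil)) (.cons 198 (.leaf 199 1587 (.cons 222 (.leaf 197 1579 (.cons 246 (.leaf 245 1770 (.leaf 247 1778 .nil)) .nil)) .nil)) .nil))) (.cons 223 (.cons 202 (.leaf 203 1593 (.cons 246 (.leaf 247 1778 (.cons 251 (.leaf 250 1784 (.cons 227 (.leaf 299 1623 (.leaf 252 1792 .nil)) .nil)) .nil)) .nil)) (.cons 246 (.leaf 247 1778 (.cons 222 (.leaf 245 1770 (.cons 197 (.leaf 198 1579 (.cons 196 (.leaf 221 1571 (.cons 251 (.leaf 250 1784 (.cons 227 (.leaf 252 1792 (.cons 204 (.leaf 203 1601 (.cons 228 (.leaf 299 1629 (.leaf 205 1609 .nil)) .nil)) .nil)) .nil)) .nil)) .nil)) .nil)) .nil)) (.cons 202 (.leaf 203 1593 (.cons 222 (.leaf 201 1585 (.cons 246 (.leaf 245 1770 (.leaf 247 1778 .nil)) .nil)) .nil)) (.cons 251 (.leaf 250 1784 (.cons 227 (.leaf 252 1792 (.cons 202 (.leaf 299 1623 (.cons 154 (.leaf 178 1236 (.cons 201 (.leaf 222 1585 (.cons 228 (.leaf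 200 1603 (.leaf 229 1611 .nil)) .nil)) .nil)) .nil)) .nil)) .nil)) .nil)))) (.cons 223 (.cons 198 (.leaf 199 1587 (.cons 246 (.leaf 247 1778 (.cons 251 (.leaf 250 1784 (.cons 227 (.leaf 252 1792 (.cons 299 (.leaf 202 1623 (.cons 204 (.leaf 228 1629 (.leaf 203 1601 .nil)) .nil)) .nil)) .nil)) .nil)) .nil)) (.cons 198 (.leaf 199 1587 (.cons 222 (.leaf 197 1579 (.cons 246 (.leaf 245 1770 (.leaf 247 1778 .nil)) .nil)) .nil)) (.cons 251 (.leaf 250 1784 (.cons 202 (.leaf 203 1593 (.cons 227 (.leaf 299 1623 (.leaf 252 1792 .nil)) .nil)) .nil)) .nil))) .nil)))))))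
noncomputable def t89 : T := .cons 200 (.leaf 297 1604 (.cons 175 (.leaf 199 1407 (.cons 201 (.leaf 177 1413 (.cons 296 (.leaf 225 1605 (.cons 319 (.leaf 295 1790 (.cons 320 (.leaf 343 1982 (.cons 223 (.leaf 247 1791 (.cons 202 (.leaf 203 1594 (.cons 221 (.leaf 222 1577 (.cons 344 (.leaf 249 1989 (.cons 345 (.leaf 321 1988 (.leaf 369 2180 .nil)) .nil)) .nil)) .nil)) .nil)) .nil)) .nil)) .nil)) .nil)) .nil)) .nil)) (.cons 296 (.cons 199 (.leaf 223 1599 (.cons 225 (.leaf 201 1605 (.cons 297 (.leaf 321 1796 (.cons 320 (.leaf 249 1797 (.cons 343 (.leaf 319 1982 (.cons 344 (.leaf 367 2174 (.leaf 368 2181 .nil)) .nil)) .nil)) .nil)) .nil)) .nil)) (.cons 321 (.leaf 297 1796 (.cons 199 (.leaf 223 1599 (.cons 320 (.leaf 345 1988 (.cons 319 (.leaf 295 1790 (.leaf 343 1982 .nil)) .nil)) .nil)) .nil)) (.cons 225 (.leaf 201 1605 (.cons 319 (.leaf 295 1790 (.cons 320 (.leaf 249 1797 (.leaf 343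 1982 .nil)) .nil)) .nil)) (.cons 297 (.leaf 321 1796 (.cons 223 (.leaf 199 1599 (.cons 225 (.leaf 201 1605 (.cons 295 (.leaf 319 1790 (.cons 294 (.leaf 293 2153 (.cons 270 (.leaf 269 2155 (.cons 318 (.leaf 317 2346 (.cons 246 (.leaf 247 1781 (.cons 245 (.leaf 222 1770 (.leaf 221 1775 .nil)) .nil)) .nil)) .nil)) .nil)) .nil)) .nil)) .nil)) .nil)) (.cons 321 (.leaf 297 1796 (.cons 199 (.leaf 223 1599 (.cons 225 (.leaf 201 1605 (.cons 320 (.leaf 249 1797 (.leaf 345 1988 .nil)) .nil)) .nil)) .nil)) .nil))))) (.cons 296 (.cons 199 (.leaf 223 1599 (.cons 175 (.leaf 200 1407 (.cons 319 (.leaf 295 1790 (.cons 320 (.leaf 343 1982 (.cons 344 (.leaf 249 1989 (.cons 345 (.leaf 321 1988 (.leaf 369 2180 .nil)) .nil)) .nil)) .nil)) .nil)) .nil)) (.cons 225 (.leaf 201 1605 (.cons 319 (.leaf 295 1790 (.cons 320 (.leaf 249 1797 (.leaf 343 1982 .nil)) .nil)) .nil)) (.cons 199 (.leaf 223 1599 (.cons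 200 (.leaf 175 1407 (.cons 201 (.leaf 177 1413 (.leaf 225 1605 .nil)) .nil)) .nil)) .nil))) (.cons 200 (.leaf 297 1604 (.cons 175 (.leaf 199 1407 (.cons 176 (.leaf 249 1412 (.leaf 151 1215 .nil)) .nil)) .nil)) (.cons 200 (.leaf 297 1604 (.cons 175 (.leaf 199 1407 (.cons 176 (.leaf 151 1215 (.cons 177 (.leaf 201 1413 (.leaf 153 1221 .nil)) .nil)) .nil)) .nil)) (.cons 297 (.leaf 200 1604 (.cons 321 (.leaf 296 1796 (.leaf 345 1991 .nil)) .nil)) .nil)))))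
noncomputable def t90 : T := .cons 248 t89 (.cons 225 (.cons 249 (.cons 297 (.leaf 200 1607 (.cons 320 (.leaf 296 1798 (.cons 321 (.leaf 344 1990 (.cons 226 (.leaf 202 1613 (.leaf 250 1805 .nil)) .nil)) .nil)) .nil)) (.cons 201 (.leaf 296 1606 (.cons 176 (.leaf 200 1415 (.cons 152 (.leaf 177 1223 (.cons 223 (.cons 222 (.leaf 202 1585 (.leaf 250 1776 .nil)) (.cons 250 (.leaf 222 1776 (.cons 251 (.leaf 252 1986 (.leaf 226 1784 .nil)) .nil)) (.cons 202 (.leaf 178 1421 (.cons 203 (.leaf 204 1602 (.leaf 226 1593 .nil)) .nil)) .nil))) .nil)) .nil)) .nil)) (.cons 296 (.leaf 201 1606 (.cons 320 (.leaf 344 1989 (.leaf 297 1798 .nil)) .nil)) (.cons 297 (.leaf 200 1607 (.cons 226 (.leaf 202 1613 (.cons 321 (.leaf 250 1805 (.cons 344 (.leaf 320 1990 (.cons 322 (.leaf 298 1804 (.leaf 346 1996 .nil)) .nil)) .nil)) .nil)) .nil)) .nil)))) (.cons 226 (t88) t86)) (.cons 225 (.cons 201 t77 (.cons 248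 t75 (.cons 226 (t73) (.cons 249 t71 (.cons 226 t70 (.cons 296 (.cons 248 (.leaf 201 1605 (.cons 319 (.leaf 295 1790 (.cons 320 (.leaf 249 1797 (.leaf 343 1982 .nil)) .nil)) .nil)) (.cons 320 (.cons 249 (.leaf 248 1797 (.leaf 344 1989 .nil)) (.cons 248 (.cons 319 (.leaf 295 1790 (.leaf 343 1982 .nil)) (.cons 321 (.leaf 297 1796 (.leaf 345 1988 .nil)) .nil)) (.cons 249 (.leaf 344 1989 (.leaf 297 1798 .nil)) .nil))) (.cons 249 (.leaf 201 1606 (.cons 320 (.leaf 344 1989 (.leaf 297 1798 .nil)) .nil)) (.cons 248 (.leaf 201 1605 (.cons 319 (.leaf 295 1790 (.cons 320 (.leaf 343 1982 (.cons 321 (.leaf 297 1796 (.leaf 345 1988 .nil)) .nil)) .nil)) .nil)) (.cons 201 (.leaf 248 1605 (.leaf 249 1606 .nil)) .nil))))) (.cons 201 t67 .nil))))))) (.cons 248 t66 (.cons 248 t61 (.cons 225 t59 (.cons 248 t46 (.cons 248 t44 (.cons 225 t43 (.cons 248 (.cons 296 (.cons 201 (.leaf 225 1605 (.cons 200 (.leaf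 177 1413 (.leaf 297 1604 .nil)) .nil)) (.cons 200 (.leaf 297 1604 (.cons 199 (.leaf 175 1407 (.leaf 223 1599 .nil)) .nil)) (.cons 225 (.leaf 201 1605 (.cons 223 (.leaf 199 1599 (.cons 295 (.leaf 319 1790 (.cons 247 (.leaf 320 1791 (.cons 246 (.leaf 245 1960 (.leaf 226 1778 .nil)) .nil)) .nil)) .nil)) .nil)) .nil))) (.cons 296 t40 (.cons 200 (.leaf 297 1604 (.cons 175 (.leaf 199 1407 (.cons 176 (.leaf 249 1412 (.leaf 151 1215 .nil)) .nil)) .nil)) (.cons 200 (.leaf 297 1604 (.cons 176 (.leaf 249 1412 (.cons 177 (.leaf 201 1413 (.leaf 153 1221 .nil)) .nil)) .nil)) .nil)))) (.cons 225 t39 (.cons 248 (.cons 200 (.leaf 297 1604 (.cons 175 (.leaf 199 1407 (.cons 176 (.leaf 249 1412 (.leaf 151 1215 .nil)) .nil)) .nil)) (.cons 297 (.cons 321 (.leaf 296 1796 (.leaf 345 1991 .nil)) (.cons 225 t33 (.cons 321 (.leaf 345 1991 (.leaf 249 1799 .nil)) .nil))) (.cons 200 (.cons 175 (.leaf 199 1407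 (.cons 176 (.leaf 249 1412 (.leaf 151 1215 .nil)) .nil)) (.cons 199 (.leaf 175 1407 (.cons 201 (.leaf 177 1413 (.cons 223 (.leaf 296 1599 (.cons 202 (.leaf 203 1594 (.leaf 222 1586 .nil)) .nil)) .nil)) .nil)) (.cons 176 (.leaf 249 1412 (.cons 177 (.leaf 201 1413 (.leaf 153 1221 .nil)) .nil)) .nil))) (.cons 200 (.leaf 297 1604 (.cons 199 (.leaf 175 1407 (.cons 201 (.leaf 177 1413 (.cons 223 (.leaf 296 1599 (.cons 202 (.leaf 203 1594 (.leaf 222 1586 .nil)) .nil)) .nil)) .nil)) .nil)) (.cons 297 (.leaf 200 1604 (.cons 321 (.leaf 296 1796 (.leaf 345 1991 .nil)) .nil)) .nil))))) (.cons 248 t32 (.cons 248 t31 (.cons 248 t30 .nil))))))))))))))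
noncomputable def t91 : T := .cons 248 (.leaf 247 1979 (.cons 296 (.leaf 295 2170 (.cons 251 (.leaf 252 1985 (.cons 299 (.leaf 300 2176 (.cons 224 (.cons 223 (.leaf 199 1599 (.cons 225 (.leaf 201 1605 (.cons 226 (.leaf 250 1784 (.cons 202 (.leaf 227 1623 (.leaf 203 1593 .nil)) .nil)) .nil)) .nil)) (.cons 297 (.leaf 200 1604 (.leaf 321 1796 .nil)) .nil)) .nil)) .nil)) .nil)) .nil)) (.cons 251 (.leaf 252 1985 (.cons 299 (.leaf 300 2176 (.cons 296 (.leaf 295 2170 (.cons 323 (.cons 250 (.leaf 226 1815 (.leaf 347 2007 .nil)) (.cons 322 (.leaf 346 2006 (.cons 324 (.leaf 348 2012 (.cons 297 (.leaf 298 2368 (.leaf 321 2371 .nil)) .nil)) .nil)) .nil)) .nil)) .nil)) .nil)) (.cons 248 (.leaf 247 1979 (.cons 296 (.leaf 295 2170 (.cons 299 (.leaf 300 2176 (.cons 224 (.cons 199 (.leaf 223 1599 (.cons 225 (.leaf 201 1605 (.cons 297 (.leaf 200 1604 (.leaf 321 1796 .nil)) .nil)) .nil)) (.cons 199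 (.leaf 223 1599 (.cons 200 (.leaf 175 1407 (.cons 201 (.leaf 177 1413 (.leaf 225 1605 .nil)) .nil)) .nil)) (.cons 199 (.leaf 223 1599 (.cons 225 (.leaf 201 1605 (.cons 297 (.leaf 321 1796 (.cons 320 (.leaf 249 1797 (.cons 343 (.leaf 319 1982 (.cons 344 (.leaf 367 2174 (.leaf 368 2181 .nil)) .nil)) .nil)) .nil)) .nil)) .nil)) (.cons 297 (.leaf 200 1604 (.leaf 321 1796 .nil)) .nil)))) .nil)) .nil)) .nil)) (.cons 251 (.leaf 252 1985 (.cons 299 (.leaf 300 2176 (.cons 248 (.leaf 247 1979 (.cons 323 (.cons 250 (.leaf 226 1815 (.leaf 347 2007 .nil)) (.cons 322 (.leaf 346 2006 (.cons 348 (.leaf 324 2012 (.cons 347 (.leaf 372 2204 (.cons 298 (.leaf 227 1814 (.leaf 371 2199 .nil)) .nil)) .nil)) .nil)) (.cons 250 (.leaf 226 1815 (.cons 322 (.leaf 346 2006 (.cons 324 (.leaf 348 2012 (.cons 297 (.cons 321 (.leaf 345 1997 (.cons 224 (.leaf 200 1604 (.leaf 249 1799 .nil)) .nil)) (.cons 200 (.leaf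 224 1604 (.cons 325 (.leaf 298 2379 (.cons 302 (.leaf 301 2385 (.cons 326 (.leaf 303 2393 (.cons 350 (.leaf 349 2576 (.leaf 351 2584 .nil)) .nil)) .nil)) .nil)) .nil)) (.cons 321 (.leaf 345 1997 (.cons 298 (.leaf 227 1813 (.leaf 325 2379 .nil)) .nil)) .nil))) .nil)) .nil)) .nil)) .nil))) .nil)) .nil)) .nil)) (.cons 248 (.leaf 247 1979 (.cons 296 (.leaf 295 2170 (.cons 251 (.leaf 252 1985 (.cons 320 (.cons 319 (.leaf 343 1982 (.cons 321 (.leaf 345 1988 (.cons 297 (.leaf 224 1796 (.cons 318 (.leaf 317 2345 (.leaf 298 2353 .nil)) .nil)) .nil)) .nil)) (.cons 249 (.leaf 225 1797 (.leaf 344 1989 .nil)) .nil)) .nil)) .nil)) .nil)) (.cons 251 (.leaf 252 1985 (.cons 299 (.leaf 300 2176 (.cons 248 (.leaf 247 1979 (.cons 296 (.leaf 295 2170 (.cons 320 (.cons 225 (.leaf 249 1797 (.cons 201 (.leaf 224 1605 (.cons 319 (.leaf 343 1982 (.cons 321 (.leaf 345 1988 (.cons 322 (.leaf 298 2361 (.cons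 346 (.leaf 323 2006 (.leaf 347 2552 .nil)) .nil)) .nil)) .nil)) .nil)) .nil)) (.cons 319 (.leaf 343 1982 (.cons 345 (.leaf 321 1988 (.cons 344 (.leaf 369 2180 (.cons 347 (.leaf 346 2555 (.cons 323 (.leaf 250 2007 (.cons 348 (.leaf 324 2012 (.leaf 372 2204 .nil)) .nil)) .nil)) .nil)) .nil)) .nil)) (.cons 249 (.leaf 225 1797 (.leaf 344 1989 .nil)) .nil))) .nil)) .nil)) .nil)) .nil)) (.cons 251 (.leaf 252 1985 (.cons 299 (.leaf 300 2176 (.cons 248 (.leaf 247 1979 (.cons 227 (.cons 298 (.leaf 203 1622 (.leaf 322 1814 .nil)) (.cons 226 (.leaf 202 1623 (.cons 228 (.leaf 204 1629 (.cons 249 (.leaf 250 1793 (.leaf 225 1794 .nil)) .nil)) .nil)) .nil)) .nil)) .nil)) .nil)) .nil))))))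
noncomputable def t92 : T := .cons 296 (.leaf 295 2170 (.cons 251 (.leaf 252 1985 (.cons 299 (.leaf 300 2176 (.cons 227 (.cons 298 (.leaf 203 1622 (.leaf 322 1814 .nil)) (.cons 204 (.leaf 228 1629 (.cons 203 (.leaf 180 1437 (.cons 178 (.leaf 202 1431 (.cons 179 (.leaf 250 1430 (.leaf 154 1239 .nil)) .nil)) .nil)) .nil)) (.cons 204 (.leaf 228 1629 (.cons 322 (.leaf 298 1814 (.cons 323 (.leaf 346 2006 (.cons 324 (.leaf 348 2012 (.cons 321 (.leaf 297 2371 (.cons 344 (.leaf 345 2562 (.cons 320 (.leaf 249 1989 (.leaf 343 2554 .nil)) .nil)) .nil)) .nil)) .nil)) .nil)) .nil)) .nil))) .nil)) .nil)) .nil)) (.cons 299 (.leaf 300 2176 (.cons 271 (.leaf 298 2168 (.cons 294 (.leaf 295 2162 (.cons 270 (.leaf 293 2154 (.cons 245 (.leaf 246 1963 (.cons 269 (.leaf 244 1955 (.cons 249 (.leaf 248 1961 (.leaf 250 1969 .nil)) .nil)) .nil)) .nil)) .nil)) .nil)) .nil)) (.cons 251 (.leaf 252 1985 (.cons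 271 (.leaf 250 1977 (.cons 295 (.leaf 296 2170 (.leaf 294 2162 .nil)) .nil)) .nil)) (.cons 251 (.leaf 252 1985 (.cons 250 (.leaf 271 1977 (.cons 299 (.leaf 300 2176 (.cons 323 (.leaf 347 2007 (.cons 322 (.leaf 346 2006 (.cons 227 (.leaf 298 1813 (.cons 203 (.leaf 179 1430 (.cons 204 (.leaf 180 1437 (.leaf 228 1629 .nil)) .nil)) .nil)) .nil)) .nil)) .nil)) .nil)) .nil)) (.cons 299 (.leaf 300 2176 (.cons 271 (.leaf 298 2168 (.cons 295 (.leaf 296 2170 (.leaf 294 2162 .nil)) .nil)) .nil)) .nil))))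
noncomputable def t93 : T := .cons 299 (.leaf 300 2176 (.cons 271 (.leaf 298 2168 (.cons 294 (.leaf 295 2162 (.cons 270 (.leaf 293 2154 (.cons 245 (.leaf 246 1963 (.cons 269 (.leaf 244 1955 (.cons 249 (.leaf 248 1961 (.leaf 250 1969 .nil)) .nil)) .nil)) .nil)) .nil)) .nil)) .nil)) (.cons 251 (.leaf 252 1985 (.cons 271 (.leaf 250 1977 (.cons 295 (.leaf 296 2170 (.leaf 294 2162 .nil)) .nil)) .nil)) (.cons 299 (.leaf 300 2176 (.cons 251 (.leaf 252 1985 (.cons 298 (.leaf 271 2168 (.cons 227 (.leaf 203 1622 (.leaf 322 1814 .nil)) .nil)) .nil)) .nil)) (.cons 296 (.leaf 295 2170 (.cons 299 (.leaf 300 2176 (.cons 251 (.leaf 252 1985 (.cons 227 (.cons 298 (.leaf 203 1622 (.leaf 322 1814 .nil)) (.cons 202 (.leaf 226 1623 (.cons 203 (.leaf 178 1431 (.cons 204 (.leaf 180 1437 (.leaf 228 1629 .nil)) .nil)) .nil)) (.cons 204 (.leaf 228 1629 (.cons 226 (.leaf 202 1623 (.cons 250 (.leaf 323 1815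 (.cons 298 (.leaf 322 1813 (.cons 225 (.leaf 201 1615 (.cons 297 (.leaf 321 1806 (.cons 320 (.leaf 249 1798 (.leaf 319 2362 .nil)) .nil)) .nil)) .nil)) .nil)) .nil)) .nil)) .nil))) .nil)) .nil)) .nil)) .nil)))
noncomputable def t94 : T := .leaf 300 2176 (.cons 251 (.leaf 252 1985 (.cons 323 (.cons 324 (.leaf 348 2012 (.cons 298 (.leaf 297 2368 (.cons 227 (.leaf 203 1622 (.cons 226 (.leaf 202 1623 (.leaf 250 1812 .nil)) .nil)) .nil)) .nil)) (.cons 324 (.leaf 348 2012 (.cons 298 (.leaf 297 2368 (.cons 227 (.leaf 203 1622 (.cons 226 (.leaf 202 1623 (.cons 228 (.leaf 204 1629 (.cons 347 (.leaf 371 2199 (.cons 346 (.leaf 370 2198 (.cons 344 (.leaf 345 2561 (.cons 249 (.leaf 320 1989 (.cons 225 (.leaf 201 1612 (.leaf 248 1794 .nil)) .nil)) .nil)) .nil)) .nil)) .nil)) .nil)) .nil)) .nil)) .nil)) (.cons 324 (.leaf 348 2012 (.cons 297 (.leaf 298 2368 (.cons 347 (.leaf 250 2007 (.cons 346 (.leaf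 370 2198 (.cons 325 (.leaf 326 2578 (.cons 344 (.leaf 345 2561 (.cons 320 (.leaf 249 1989 (.leaf 368 2181 .nil)) .nil)) .nil)) .nil)) .nil)) .nil)) .nil)) (.cons 226 (.leaf 250 1815 (.cons 227 (.leaf 202 1623 (.cons 203 (.leaf 298 1622 (.cons 204 (.leaf 180 1437 (.leaf 228 1629 .nil)) .nil)) .nil)) .nil)) (.cons 250 (.leaf 226 1815 (.leaf 347 2007 .nil)) .nil))))) .nil)) .nil)
noncomputable def t95 : T := .leaf 293 2153 (.cons 297 (.cons 321 (.leaf 322 2352 (.cons 269 (.leaf 270 2155 (.cons 317 (.leaf 318 2346 (.cons 345 (.leaf 248 1991 (.leaf 369 2183 .nil)) .nil)) .nil)) .nil)) (.cons 270 (.leaf 269 2155 (.cons 318 (.leaf 317 2346 (.cons 319 (.cons 224 (.leaf 248 1790 (.cons 246 (.leaf 222 1780 (.leaf 343 1972 .nil)) .nil)) (.cons 224 (.leaf 248 1790 (.cons 246 (.leaf 222 1780 (.cons 245 (.leaf 271 1963 (.leaf 221 1775 .nil)) .nil)) .nil)) (.cons 343 (.leaf 367 2173 (.cons 248 (.leaf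 224 1790 (.leaf 271 1981 .nil)) .nil)) (.cons 343 (.leaf 367 2173 (.leaf 246 1972 .nil)) .nil)))) .nil)) .nil)) (.cons 321 (.leaf 322 2352 (.cons 248 (.leaf 224 1796 (.leaf 345 1991 .nil)) .nil)) (.cons 321 (.leaf 322 2352 (.cons 269 (.leaf 270 2155 (.cons 317 (.leaf 318 2346 (.cons 345 (.leaf 369 2183 (.cons 344 (.leaf 368 2182 (.cons 320 (.leaf 249 1989 (.cons 343 (.leaf 367 2174 (.cons 346 (.leaf 370 2188 (.cons 347 (.leaf 348 2563 (.leaf 319 2555 .nil)) .nil)) .nil)) .nil)) .nil)) .nil)) .nil)) .nil)) .nil)) .nil)))) .nil)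
noncomputable def t96 : T := .cons 319 (.leaf 343 1982 (.cons 321 (.leaf 345 1988 (.cons 322 (.cons 299 (.leaf 298 2361 (.cons 323 (.leaf 295 2363 (.leaf 300 2369 .nil)) .nil)) (.cons 299 (.leaf 298 2361 (.cons 323 (.leaf 300 2369 (.cons 297 (.leaf 224 1796 (.leaf 346 1996 .nil)) .nil)) .nil)) (.cons 346 (.leaf 297 1996 (.leaf 347 2552 .nil)) .nil))) .nil)) .nil)) (.cons 319 (.leaf 343 1982 (.cons 224 (.leaf 295 1790 (.cons 200 (.leaf 297 1604 (.leaf 176 1412 .nil)) .nil)) .nil)) (.cons 321 (.leaf 345 1988 (.cons 224 (.leaf 297 1796 (.cons 199 (.leaf 223 1599 (.cons 200 (.leaf 175 1407 (.leaf 176 1412 .nil)) .nil)) .nil)) .nil)) (.cons 321 (.leaf 345 1988 (.cons 319 (.leaf 343 1982 (.cons 322 (.cons 299 (.leaf 298 2361 (.cons 323 (.leaf 295 2363 (.leaf 300 2369 .nil)) .nil)) (.cons 299 (.leaf 298 2361 (.cons 323 (.leaf 300 2369 (.cons 346 (.leaf 251 2006 (.leaf 297 1996 .nil)) .nil))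 .nil)) (.cons 346 (.leaf 297 1996 (.leaf 347 2552 .nil)) .nil))) .nil)) .nil)) (.cons 319 (.leaf 343 1982 (.cons 224 (.leaf 295 1790 (.cons 199 (.leaf 223 1599 (.cons 200 (.leaf 175 1407 (.leaf 176 1412 .nil)) .nil)) .nil)) .nil)) .nil))))
noncomputable def t97 : T := .cons 225 (.leaf 201 1606 (.cons 297 (.leaf 320 1798 (.cons 202 (.leaf 226 1613 (.cons 298 (.leaf 322 1804 (.cons 271 (.leaf 270 2160 (.leaf 299 2171 .nil)) .nil)) .nil)) .nil)) .nil)) (.cons 225 (.leaf 201 1606 (.cons 297 (.cons 202 (.leaf 226 1613 (.cons 298 (.leaf 322 1804 (.cons 271 (.leaf 270 2160 (.leaf 299 2171 .nil)) .nil)) .nil)) (.cons 224 (.leaf 200 1607 (.cons 248 (.leaf 321 1796 (.cons 202 (.leaf 226 1613 (.cons 223 (.leaf 199 1599 (.cons 222 (.leaf 221 1768 (.cons 198 (.leaf 197 1579 (.cons 295 (.leaf 319 1790 (.cons 246 (.leaf 245 1770 (.cons 270 (.leaf 271 1588 (.cons 269 (.leaf 294 2155 (.leaf 293 1582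 .nil)) .nil)) .nil)) .nil)) .nil)) .nil)) .nil)) .nil)) .nil)) .nil)) (.cons 200 (.leaf 224 1607 (.cons 298 (.leaf 322 1804 (.cons 271 (.leaf 270 2160 (.leaf 299 2171 .nil)) .nil)) .nil)) (.cons 200 (.leaf 224 1607 (.cons 202 (.leaf 226 1613 (.cons 322 (.leaf 298 1804 (.cons 321 (.leaf 346 1996 (.cons 345 (.leaf 248 1991 (.leaf 369 2183 .nil)) .nil)) .nil)) .nil)) .nil)) .nil)))) .nil)) (.cons 320 (.leaf 344 1989 (.cons 248 t96 .nil)) (.cons 320 (.leaf 344 1989 (.cons 225 (.leaf 201 1606 (.leaf 248 1797 .nil)) .nil)) .nil)))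
noncomputable def t98 : T := .cons 226 (.leaf 227 1595 (.cons 274 (.leaf 300 2176 (.cons 298 (.leaf 271 2168 (.cons 319 (.leaf 343 1982 (.leaf 322 2361 .nil)) .nil)) .nil)) .nil)) (.cons 319 (.leaf 343 1982 (.cons 298 (.leaf 322 2361 (.cons 274 (.leaf 271 2168 (.cons 227 (.leaf 226 1595 (.cons 251 (.leaf 203 1622 (.leaf 252 1985 .nil)) .nil)) .nil)) .nil)) .nil)) (.cons 319 (.leaf 343 1982 (.cons 322 (.leaf 298 2361 (.cons 226 (.leaf 227 1595 (.cons 323 (.leaf 300 2369 (.cons 346 (.leaf 251 2006 (.leaf 347 2552 .nil)) .nil)) .nil)) .nil)) .nil)) (.cons 274 (.leaf 300 2176 (.cons 227 (.leaf 226 1595 (.cons 251 (.leaf 252 1985 (.cons 298 (.leaf 203 1622 (.leaf 322 1814 .nil)) .nil)) .nil)) .nil)) (.cons 274 (.leaf 300 2176 (.cons 251 (.leaf 252 1985 (.cons 298 (.leaf 271 2168 (.cons 319 (.leaf 343 1982 (.leaf 322 2361 .nil)) .nil)) .nil)) .nil)) (.cons 274 (.leaf 300 2176 (.cons 227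 (.leaf 226 1595 (.cons 251 (.leaf 252 1985 (.cons 298 (.leaf 203 1622 (.leaf 271 2168 .nil)) .nil)) .nil)) .nil)) (.cons 300 (.leaf 274 2176 (.cons 227 (.leaf 226 1595 (.cons 251 (.leaf 324 1820 (.cons 323 (.leaf 322 2369 (.cons 228 (.leaf 204 1629 (.leaf 252 1821 .nil)) .nil)) .nil)) .nil)) .nil)) .nil))))))
noncomputable def t99 : T := .cons 225 (.leaf 249 1797 (.cons 224 (.leaf 201 1605 (.cons 199 (.leaf 223 1599 (.cons 200 (.leaf 175 1407 (.leaf 297 1604 .nil)) .nil)) .nil)) .nil)) (.cons 321 (.leaf 345 1988 (.cons 224 (.leaf 297 1796 (.cons 199 (.leaf 223 1599 (.cons 200 (.leaf 175 1407 (.cons 176 (.leaf 249 1412 (.cons 177 (.leaf 201 1413 (.leaf 153 1221 .nil)) .nil)) .nil)) .nil)) .nil)) .nil)) (.cons 321 (.leaf 345 1988 (.cons 224 (.leaf 297 1796 (.cons 199 (.leaf 223 1599 (.cons 200 (.leaf 175 1407 (.cons 201 (.leaf 177 1413 (.leaf 225 1605 .nil)) .nil)) .nil)) .nil)) .nil))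 (.cons 225 (.leaf 249 1797 (.cons 224 (.leaf 201 1605 (.cons 199 (.leaf 223 1599 (.cons 200 (.leaf 175 1407 (.cons 198 (.leaf 197 1576 (.cons 321 (.leaf 345 1988 (.cons 299 t98 .nil)) .nil)) .nil)) .nil)) .nil)) .nil)) (.cons 249 (.leaf 225 1797 (.cons 321 (.leaf 345 1988 (.cons 319 (.leaf 343 1982 (.cons 318 (.cons 293 (.leaf 294 2347 (.cons 317 (.leaf 297 2345 (.leaf 292 2339 .nil)) .nil)) (.cons 293 (.leaf 294 2347 (.cons 317 (.leaf 292 2339 (.cons 341 (.leaf 340 2530 (.leaf 342 2538 .nil)) .nil)) .nil)) (.cons 293 (.leaf 294 2347 (.cons 298 (.leaf 297 2353 (.cons 299 (.leaf 322 2361 (.cons 274 (.leaf 300 2176 (.leaf 271 2168 .nil)) .nil)) .nil)) .nil)) (.cons 297 (.leaf 317 2345 (.leaf 298 2353 .nil)) .nil)))) .nil)) .nil)) .nil)) .nil))))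
noncomputable def t100 : T := .cons 274 (.leaf 295 2170 (.cons 251 (.leaf 252 1985 (.cons 299 (.leaf 300 2176 (.cons 298 (.leaf 271 2168 (.cons 227 (.leaf 203 1622 (.leaf 322 1814 .nil)) .nil)) .nil)) .nil)) .nil)) (.cons 320 (.cons 344 (.leaf 249 1989 (.cons 368 (.leaf 297 2181 (.cons 367 (.leaf 343 2174 (.leaf 391 2366 .nil)) .nil)) .nil)) (.cons 248 t99 (.cons 344 (.cons 368 (.leaf 297 2181 (.cons 367 (.leaf 343 2174 (.leaf 391 2366 .nil)) .nil)) (.cons 343 (.leaf 367 2174 (.cons 345 (.leaf 369 2180 (.cons 342 (.cons 321 (.leaf 248 1988 (.leaf 341 2537 .nil)) (.cons 317 (.leaf 318 2539 (.cons 341 (.leaf 316 2531 (.cons 365 (.leaf 364 2722 (.leaf 366 2730 .nil)) .nil)) .nil)) (.cons 317 (.leaf 318 2539 (.cons 321 (.leaf 248 1988 (.leaf 322 2545 .nil)) .nil)) .nil))) .nil)) .nil)) (.cons 368 (.leaf 297 2181 (.cons 369 (.leaf 345 2180 (.leaf 393 2372 .nil)) .nil)) .nil))) (.cons 344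 (.leaf 249 1989 (.cons 343 (.leaf 367 2174 (.cons 345 (.leaf 369 2180 (.cons 321 (.leaf 248 1988 (.cons 322 (.leaf 323 2554 (.leaf 342 2545 .nil)) .nil)) .nil)) .nil)) .nil)) (.cons 249 (.leaf 344 1989 (.cons 225 (.leaf 201 1606 (.leaf 248 1797 .nil)) .nil)) .nil))))) (.cons 249 t97 (.cons 295 (.leaf 274 2170 (.cons 294 (.leaf 293 2153 (.cons 297 (.cons 270 (.leaf 269 2155 (.cons 318 (.leaf 317 2346 (.cons 319 (.leaf 298 2354 (.cons 224 (.leaf 248 1790 (.cons 246 (.leaf 222 1780 (.leaf 343 1972 .nil)) .nil)) .nil)) .nil)) .nil)) (.cons 321 (.leaf 322 2352 (.cons 248 (.leaf 224 1796 (.leaf 345 1991 .nil)) .nil)) (.cons 270 (.leaf 269 2155 (.cons 271 (.leaf 298 2160 (.cons 246 (.leaf 245 1963 (.cons 222 (.leaf 198 1588 (.leaf 319 1780 .nil)) .nil)) .nil)) .nil)) .nil))) .nil)) .nil)) (.cons 295 (.leaf 274 2170 (.cons 294 (.leaf 293 2153 (.cons 297 (.cons 269 (.leaf 270 2155 (.cons 318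 (.leaf 317 2346 (.cons 298 (.leaf 319 2354 (.cons 299 (.leaf 300 2179 (.cons 323 (.leaf 322 2360 (.leaf 324 2368 .nil)) .nil)) .nil)) .nil)) .nil)) (.cons 269 (.leaf 270 2155 (.cons 318 (.leaf 317 2346 (.cons 319 (.leaf 298 2354 (.cons 248 (.leaf 224 1790 (.cons 343 (.leaf 320 1982 (.leaf 367 2173 .nil)) .nil)) .nil)) .nil)) .nil)) (.cons 321 (.leaf 322 2352 (.cons 248 (.leaf 224 1796 (.leaf 345 1991 .nil)) .nil)) .nil))) .nil)) .nil)) (.cons 295 (.leaf 274 2170 (.cons 294 t95 .nil)) (.cons 274 (.leaf 295 2170 (.cons 299 (.leaf 300 2176 (.cons 298 (.leaf 271 2168 (.cons 251 (.leaf 252 1985 (.cons 227 (.leaf 203 1622 (.cons 226 (.leaf 202 1623 (.cons 228 (.leaf 204 1629 (.cons 320 (.cons 249 (.leaf 344 1989 (.cons 225 (.leaf 201 1612 (.leaf 248 1794 .nil)) .nil)) (.cons 319 (.leaf 297 2362 (.cons 343 (.leaf 248 1982 (.cons 367 (.leaf 344 2174 (.leaf 391 2365 .nil)) .nil)) .nil)) (.cons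 297 (.leaf 319 2362 (.cons 225 (.leaf 249 1798 (.cons 200 (.leaf 201 1603 (.cons 224 (.leaf 248 1604 (.leaf 199 1595 .nil)) .nil)) .nil)) .nil)) (.cons 249 (.leaf 344 1989 (.cons 225 (.leaf 201 1612 (.leaf 297 1798 .nil)) .nil)) .nil)))) .nil)) .nil)) .nil)) .nil)) .nil)) .nil)) .nil)) .nil))))))
noncomputable def t101 : T := .cons 321 (.leaf 345 1988 (.cons 224 (.leaf 297 1796 (.cons 199 (.leaf 223 1599 (.cons 200 (.leaf 175 1407 (.cons 249 (.leaf 225 1797 (.leaf 176 1412 .nil)) .nil)) .nil)) .nil)) .nil)) (.cons 321 (.leaf 345 1988 (.cons 224 (.leaf 297 1796 (.cons 199 (.leaf 223 1599 (.cons 200 (.leaf 175 1407 (.cons 201 (.leaf 177 1413 (.leaf 225 1605 .nil)) .nil)) .nil)) .nil)) .nil)) (.cons 321 (.leaf 345 1988 (.cons 224 (.leaf 297 1796 (.cons 199 (.leaf 223 1599 (.cons 200 (.leaf 175 1407 (.cons 176 (.leaf 249 1412 (.cons 177 (.leaf 201 1413 (.leaf 153 1221 .nil)) .nil)) .nil))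 .nil)) .nil)) .nil)) (.cons 225 (.leaf 249 1797 (.cons 224 (.leaf 201 1605 (.cons 199 (.leaf 223 1599 (.cons 200 (.leaf 175 1407 (.leaf 297 1604 .nil)) .nil)) .nil)) .nil)) (.cons 249 (.leaf 225 1797 (.cons 321 (.leaf 345 1988 (.cons 319 (.leaf 343 1982 (.cons 250 (.cons 270 (.leaf 271 1969 (.cons 297 (.leaf 226 1805 (.cons 318 (.leaf 317 2345 (.cons 293 (.leaf 294 2347 (.cons 322 (.leaf 346 1996 (.cons 323 (.leaf 324 2371 (.cons 299 (.leaf 300 2369 (.cons 347 (.leaf 274 2007 (.leaf 348 2560 .nil)) .nil)) .nil)) .nil)) .nil)) .nil)) .nil)) .nil)) (.cons 226 (.leaf 297 1805 (.cons 178 (.leaf 202 1422 (.cons 251 (.leaf 252 1986 (.cons 299 (.leaf 323 1815 (.cons 227 (.leaf 228 1793 (.cons 300 (.leaf 324 1820 (.leaf 274 2176 .nil)) .nil)) .nil)) .nil)) .nil)) .nil)) (.cons 251 (.leaf 271 1978 (.leaf 252 1986 .nil)) .nil))) .nil)) .nil)) .nil)) (.cons 319 (.leaf 343 1982 (.cons 321 (.leaf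 345 1988 (.cons 224 (.cons 225 (.leaf 201 1605 (.leaf 249 1797 .nil)) (.cons 199 (.leaf 223 1599 (.cons 200 (.leaf 175 1407 (.cons 176 (.leaf 249 1412 (.cons 177 (.leaf 201 1413 (.leaf 153 1221 .nil)) .nil)) .nil)) .nil)) (.cons 199 (.leaf 223 1599 (.cons 200 (.leaf 175 1407 (.cons 201 (.leaf 177 1413 (.leaf 225 1605 .nil)) .nil)) .nil)) (.cons 249 (.leaf 225 1797 (.cons 199 (.leaf 223 1599 (.cons 200 (.leaf 175 1407 (.leaf 176 1412 .nil)) .nil)) .nil)) .nil)))) .nil)) .nil)) .nil)))))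
noncomputable def t102 : T := .cons 321 (.leaf 345 1988 (.cons 224 (.leaf 297 1796 (.cons 319 (.leaf 295 1790 (.leaf 343 1982 .nil)) .nil)) .nil)) (.cons 319 (.leaf 343 1982 (.cons 224 (.leaf 295 1790 (.cons 200 (.leaf 297 1604 (.leaf 176 1412 .nil)) .nil)) .nil)) (.cons 321 (.leaf 345 1988 (.cons 319 (.leaf 343 1982 (.cons 250 (.cons 270 (.leaf 271 1969 (.cons 297 (.leaf 226 1805 (.cons 317 (.leaf 318 2345 (.cons 322 (.leaf 346 1996 (.cons 295 (.leaf 294 2352 (.leaf 323 2363 .nil)) .nil)) .nil)) .nil)) .nil)) (.cons 297 (.leaf 226 1805 (.cons 251 (.leaf 252 1986 (.cons 227 (.leaf 228 1793 (.cons 318 (.leaf 317 2345 (.cons 293 (.leaf 294 2347 (.cons 322 (.leaf 346 1996 (.cons 323 (.leaf 295 2363 (.leaf 324 2371 .nil)) .nil)) .nil)) .nil)) .nil)) .nil)) .nil)) (.cons 251 (.leaf 271 1978 (.leaf 252 1986 .nil)) .nil))) .nil)) .nil)) (.cons 321 (.leaf 345 1988 (.cons 224 (.leaf 297 1796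 (.cons 199 (.leaf 223 1599 (.cons 200 (.leaf 175 1407 (.leaf 176 1412 .nil)) .nil)) .nil)) .nil)) (.cons 319 (.leaf 343 1982 (.cons 224 (.leaf 295 1790 (.cons 199 (.leaf 223 1599 (.cons 200 (.leaf 175 1407 (.leaf 176 1412 .nil)) .nil)) .nil)) .nil)) .nil))))
noncomputable def t103 : T := .cons 224 (.leaf 200 1607 (.cons 248 (.leaf 321 1796 (.cons 223 (.leaf 199 1599 (.cons 250 (.leaf 222 1776 (.leaf 251 1787 .nil)) .nil)) .nil)) .nil)) (.cons 226 (.leaf 202 1613 (.cons 321 (.leaf 250 1805 (.cons 345 (.leaf 248 1991 (.leaf 369 2183 .nil)) .nil)) .nil)) (.cons 224 (.leaf 200 1607 (.cons 226 (.leaf 202 1613 (.cons 250 (.cons 251 (.leaf 252 1986 (.leaf 223 1784 .nil)) (.cons 223 (.leaf 222 1776 (.cons 199 (.leaf 248 1599 (.leaf 198 1587 .nil)) .nil)) (.cons 251 (.leaf 252 1986 (.cons 271 (.leaf 248 1978 (.leaf 270 1969 .nil)) .nil)) .nil))) .nil)) .nil)) (.cons 226 (.leaf 202 1613 (.cons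 200 (.leaf 224 1607 (.cons 321 (.leaf 250 1805 (.cons 345 (.leaf 369 2183 (.cons 346 (.leaf 322 1996 (.leaf 370 2188 .nil)) .nil)) .nil)) .nil)) .nil)) (.cons 224 (.leaf 200 1607 (.cons 248 (.leaf 321 1796 (.cons 202 (.leaf 226 1613 (.cons 223 (.leaf 199 1599 (.cons 222 (.leaf 221 1768 (.cons 198 (.leaf 197 1579 (.cons 295 (.leaf 319 1790 (.cons 246 (.leaf 245 1770 (.cons 270 (.leaf 271 1588 (.cons 269 (.leaf 294 2155 (.leaf 293 1582 .nil)) .nil)) .nil)) .nil)) .nil)) .nil)) .nil)) .nil)) .nil)) .nil)) .nil))))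
noncomputable def t104 : T := .cons 295 (.leaf 274 2170 (.cons 294 t95 .nil)) (.cons 249 (.cons 225 (.leaf 201 1606 (.cons 320 (.leaf 248 1797 (.leaf 344 1989 .nil)) .nil)) (.cons 225 (.leaf 201 1606 (.cons 297 t103 .nil)) (.cons 320 (.leaf 344 1989 (.cons 248 t102 .nil)) (.cons 320 (.leaf 344 1989 (.cons 225 (.leaf 201 1606 (.leaf 297 1798 .nil)) .nil)) .nil)))) (.cons 320 (.cons 249 (.leaf 344 1989 (.cons 225 (.leaf 201 1606 (.leaf 248 1797 .nil)) .nil)) (.cons 248 t101 (.cons 344 (.cons 368 (.leaf 297 2181 (.cons 367 (.leaf 343 2174 (.leaf 391 2366 .nil)) .nil)) (.cons 343 (.leaf 367 2174 (.cons 345 (.leaf 369 2180 (.cons 321 (.leaf 248 1988 (.cons 322 (.leaf 323 2554 (.leaf 342 2545 .nil)) .nil)) .nil)) .nil)) (.cons 368 (.leaf 297 2181 (.cons 369 (.leaf 345 2180 (.leaf 393 2372 .nil)) .nil)) .nil))) (.cons 344 (.leaf 249 1989 (.cons 368 (.leaf 297 2181 (.cons 367 (.leaf 343 2174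 (.leaf 391 2366 .nil)) .nil)) .nil)) .nil)))) (.cons 274 (.leaf 295 2170 (.cons 251 (.leaf 252 1985 (.cons 250 (.leaf 271 1977 (.cons 299 (.leaf 300 2176 (.cons 226 (.leaf 202 1620 (.leaf 323 1815 .nil)) .nil)) .nil)) .nil)) .nil)) (.cons 274 (.leaf 295 2170 (.cons 251 (.leaf 252 1985 (.cons 299 (.leaf 300 2176 (.cons 323 (.cons 250 (.leaf 226 1815 (.leaf 347 2007 .nil)) (.cons 322 (.leaf 346 2006 (.cons 324 (.leaf 348 2012 (.cons 321 (.leaf 297 2371 (.cons 344 (.leaf 345 2562 (.cons 320 (.leaf 249 1989 (.leaf 343 2554 .nil)) .nil)) .nil)) .nil)) .nil)) .nil)) .nil)) .nil)) .nil)) .nil))))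
noncomputable def t105 : T := .cons 251 (.leaf 252 1985 (.cons 271 (.leaf 250 1977 (.cons 295 (.leaf 296 2170 (.leaf 294 2162 .nil)) .nil)) .nil)) (.cons 299 (.leaf 300 2176 (.cons 271 (.leaf 298 2168 (.cons 295 (.leaf 296 2170 (.leaf 294 2162 .nil)) .nil)) .nil)) (.cons 251 (.leaf 252 1985 (.cons 299 (.leaf 300 2176 (.cons 298 (.leaf 271 2168 (.cons 227 (.leaf 203 1622 (.leaf 322 1814 .nil)) .nil)) .nil)) .nil)) (.cons 251 (.leaf 252 1985 (.cons 299 (.leaf 300 2176 (.cons 227 (.cons 322 (.leaf 298 1814 (.cons 202 (.leaf 226 1623 (.cons 204 (.leaf 228 1629 (.cons 323 (.leaf 346 2006 (.cons 347 (.leaf 250 2007 (.cons 348 (.leaf 324 2012 (.leaf 372 2204 .nil)) .nil)) .nil)) .nil)) .nil)) .nil)) (.cons 226 (.leaf 202 1623 (.cons 204 (.leaf 228 1629 (.cons 180 (.leaf 203 1437 (.cons 295 (.leaf 296 2170 (.cons 323 (.leaf 250 1815 (.cons 346 (.leaf 322 2006 (.cons 347 (.leaf 370 2198 (.cons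 348 (.leaf 324 2012 (.leaf 372 2204 .nil)) .nil)) .nil)) .nil)) .nil)) .nil)) .nil)) .nil)) (.cons 298 (.leaf 203 1622 (.leaf 322 1814 .nil)) (.cons 203 (.leaf 298 1622 (.cons 202 (.leaf 178 1431 (.leaf 226 1623 .nil)) .nil)) .nil)))) .nil)) .nil)) .nil)))
noncomputable def t106 : T := .cons 251 (.leaf 252 1985 (.cons 250 (.leaf 271 1977 (.cons 298 (.cons 322 (.leaf 346 2005 (.leaf 227 1813 .nil)) (.cons 227 (.leaf 203 1622 (.cons 226 (.cons 225 (.leaf 201 1615 (.cons 224 (.leaf 223 1784 (.cons 200 (.leaf 199 1595 (.cons 297 (.leaf 248 1604 (.leaf 249 1607 .nil)) .nil)) .nil)) .nil)) (.cons 202 (.leaf 178 1428 (.leaf 299 1620 .nil)) .nil)) .nil)) (.cons 322 (.leaf 346 2005 (.cons 225 (.leaf 249 1807 (.cons 226 (.leaf 201 1615 (.cons 202 (.leaf 178 1428 (.leaf 299 1620 .nil)) .nil)) .nil)) .nil)) .nil))) .nil)) .nil)) (.cons 299 (.leaf 300 2176 (.cons 298 (.leaf 271 2168 (.cons 250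 (.cons 226 (.leaf 202 1620 (.leaf 323 1812 .nil)) (.cons 323 (.leaf 347 2007 (.cons 322 (.cons 249 (.leaf 346 1999 (.leaf 225 1807 .nil)) (.cons 249 (.leaf 225 1807 (.cons 321 (.leaf 345 1998 (.cons 320 (.leaf 319 2361 (.cons 344 (.leaf 296 1989 (.leaf 297 1990 .nil)) .nil)) .nil)) .nil)) (.cons 345 (.leaf 321 1998 (.cons 346 (.leaf 370 2197 (.leaf 369 2190 .nil)) .nil)) .nil))) .nil)) (.cons 226 (.leaf 202 1620 (.cons 201 (.leaf 225 1615 (.cons 203 (.leaf 227 1621 (.cons 321 (.leaf 297 1806 (.cons 322 (.leaf 345 1998 (.cons 346 (.leaf 370 2197 (.leaf 249 1999 .nil)) .nil)) .nil)) .nil)) .nil)) .nil)) .nil))) .nil)) .nil)) (.cons 251 (.leaf 252 1985 (.cons 250 (.leaf 271 1977 (.cons 298 (.cons 322 (.leaf 346 2005 (.leaf 227 1813 .nil)) (.cons 227 (.leaf 203 1622 (.cons 226 (.cons 225 (.leaf 201 1615 (.cons 224 (.leaf 223 1784 (.cons 200 (.leaf 199 1595 (.cons 297 (.leaf 248 1604 (.leaf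 249 1607 .nil)) .nil)) .nil)) .nil)) (.cons 202 (.leaf 178 1428 (.cons 201 (.leaf 177 1423 (.leaf 225 1615 .nil)) .nil)) (.cons 202 (.leaf 178 1428 (.leaf 297 1614 .nil)) .nil))) .nil)) (.cons 322 (.leaf 346 2005 (.cons 225 (.leaf 249 1807 (.cons 226 (.leaf 201 1615 (.cons 202 (.leaf 178 1428 (.leaf 297 1614 .nil)) .nil)) .nil)) .nil)) .nil))) .nil)) .nil)) (.cons 299 (.leaf 300 2176 (.cons 251 (.leaf 252 1985 (.cons 298 (.leaf 271 2168 (.cons 227 (.leaf 203 1622 (.leaf 322 1814 .nil)) .nil)) .nil)) .nil)) (.cons 251 (.leaf 252 1985 (.cons 250 (.leaf 271 1977 (.cons 299 (.leaf 300 2176 (.cons 226 (.leaf 202 1620 (.leaf 323 1815 .nil)) .nil)) .nil)) .nil)) (.cons 251 (.leaf 252 1985 (.cons 299 (.leaf 300 2176 (.cons 227 (.cons 203 (.leaf 298 1622 (.cons 202 (.leaf 178 1431 (.leaf 226 1623 .nil)) .nil)) (.cons 226 (.leaf 202 1623 (.cons 204 (.leaf 228 1629 (.cons 180 (.leaf 203 1437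 (.cons 323 (.leaf 250 1815 (.cons 346 (.leaf 322 2006 (.cons 347 (.leaf 370 2198 (.cons 348 (.leaf 324 2012 (.leaf 372 2204 .nil)) .nil)) .nil)) .nil)) .nil)) .nil)) .nil)) (.cons 322 (.leaf 298 1814 (.cons 202 (.leaf 226 1623 (.cons 204 (.leaf 228 1629 (.cons 323 (.leaf 346 2006 (.cons 347 (.leaf 250 2007 (.cons 348 (.leaf 324 2012 (.leaf 372 2204 .nil)) .nil)) .nil)) .nil)) .nil)) .nil)) (.cons 298 (.leaf 203 1622 (.leaf 322 1814 .nil)) .nil)))) .nil)) .nil)) .nil)))))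
noncomputable def t107 : T := .cons 251 (.leaf 252 1985 (.cons 299 (.leaf 300 2176 (.cons 227 (.cons 203 (.leaf 298 1622 (.cons 202 (.leaf 178 1431 (.leaf 226 1623 .nil)) .nil)) (.cons 226 (.leaf 202 1623 (.cons 204 (.leaf 228 1629 (.cons 180 (.leaf 203 1437 (.cons 323 (.leaf 250 1815 (.cons 346 (.leaf 322 2006 (.cons 347 (.leaf 370 2198 (.cons 348 (.leaf 324 2012 (.leaf 372 2204 .nil)) .nil)) .nil)) .nil)) .nil)) .nil)) .nil)) (.cons 322 (.leaf 298 1814 (.cons 202 (.leaf 226 1623 (.cons 204 (.leaf 228 1629 (.cons 323 (.leaf 346 2006 (.cons 347 (.leaf 250 2007 (.cons 348 (.leaf 324 2012 (.leaf 372 2204 .nil)) .nil)) .nil)) .nil)) .nil)) .nil)) (.cons 298 (.leaf 203 1622 (.leaf 322 1814 .nil)) .nil)))) .nil)) .nil)) (.cons 296 (.leaf 295 2170 (.cons 251 (.leaf 252 1985 (.cons 299 (.leaf 300 2176 (.cons 323 (.cons 250 (.leaf 226 1815 (.leaf 347 2007 .nil)) (.cons 322 (.leaf 346 2006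 (.cons 324 (.leaf 348 2012 (.cons 321 (.leaf 297 2371 (.cons 344 (.leaf 345 2562 (.cons 320 (.leaf 249 1989 (.leaf 343 2554 .nil)) .nil)) .nil)) .nil)) .nil)) .nil)) .nil)) .nil)) .nil)) (.cons 296 (.leaf 295 2170 (.cons 299 (.leaf 300 2176 (.cons 251 (.leaf 252 1985 (.cons 227 (.cons 202 (.leaf 226 1623 (.cons 203 (.leaf 178 1431 (.leaf 298 1622 .nil)) .nil)) (.cons 202 (.leaf 226 1623 (.cons 203 (.leaf 178 1431 (.cons 204 (.leaf 180 1437 (.leaf 228 1629 .nil)) .nil)) .nil)) (.cons 202 (.leaf 226 1623 (.cons 204 (.leaf 228 1629 (.cons 322 (.leaf 298 1814 (.cons 323 (.leaf 346 2006 (.cons 348 (.leaf 324 2012 (.cons 347 (.leaf 372 2204 (.cons 320 (.leaf 321 2560 (.cons 249 (.leaf 344 1989 (.cons 225 (.leaf 201 1606 (.leaf 248 1797 .nil)) .nil)) .nil)) .nil)) .nil)) .nil)) .nil)) .nil)) .nil)) (.cons 298 (.leaf 203 1622 (.leaf 322 1814 .nil)) .nil)))) .nil)) .nil)) .nil)) (.cons 296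 (.leaf 295 2170 (.cons 299 (.leaf 300 2176 (.cons 251 (.leaf 252 1985 (.cons 226 (.cons 227 (.leaf 202 1623 (.cons 204 (.leaf 228 1629 (.cons 203 (.leaf 180 1437 (.leaf 298 1622 .nil)) .nil)) .nil)) (.cons 323 (.leaf 250 1815 (.cons 348 (.leaf 324 2012 (.cons 347 (.leaf 372 2204 (.cons 370 (.leaf 346 2198 (.cons 371 (.leaf 298 2199 (.leaf 394 2390 .nil)) .nil)) .nil)) .nil)) .nil)) (.cons 227 (.leaf 202 1623 (.cons 204 (.leaf 228 1629 (.cons 203 (.leaf 180 1437 (.cons 250 (.leaf 323 1815 (.leaf 179 1430 .nil)) .nil)) .nil)) .nil)) .nil))) .nil)) .nil)) .nil)) (.cons 296 (.leaf 295 2170 (.cons 251 (.leaf 252 1985 (.cons 299 (.leaf 300 2176 (.cons 227 (.cons 204 (.leaf 228 1629 (.cons 203 (.leaf 180 1437 (.leaf 298 1622 .nil)) .nil)) (.cons 204 (.leaf 228 1629 (.cons 203 (.leaf 180 1437 (.cons 178 (.leaf 202 1431 (.cons 179 (.leaf 250 1430 (.leaf 154 1239 .nil)) .nil)) .nil)) .nil))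 (.cons 204 (.leaf 228 1629 (.cons 322 (.leaf 298 1814 (.cons 323 (.leaf 346 2006 (.cons 324 (.leaf 348 2012 (.cons 321 (.leaf 297 2371 (.cons 344 (.leaf 345 2562 (.cons 320 (.leaf 249 1989 (.leaf 343 2554 .nil)) .nil)) .nil)) .nil)) .nil)) .nil)) .nil)) (.cons 298 (.leaf 203 1622 (.leaf 322 1814 .nil)) .nil)))) .nil)) .nil)) .nil)) (.cons 296 (.leaf 295 2170 (.cons 299 (.leaf 300 2176 (.cons 251 (.leaf 252 1985 (.cons 227 (.cons 204 (.leaf 228 1629 (.cons 226 (.leaf 202 1623 (.cons 250 (.leaf 323 1815 (.cons 298 (.leaf 203 1621 (.leaf 322 1813 .nil)) .nil)) .nil)) .nil)) (.cons 204 (.leaf 228 1629 (.cons 203 (.leaf 180 1437 (.cons 178 (.leaf 202 1431 (.cons 179 (.leaf 250 1430 (.leaf 154 1239 .nil)) .nil)) .nil)) .nil)) (.cons 204 (.leaf 228 1629 (.cons 226 (.leaf 202 1623 (.cons 250 (.leaf 323 1815 (.cons 298 (.leaf 322 1813 (.cons 225 (.leaf 201 1615 (.cons 297 (.leaf 321 1806 (.cons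 320 (.leaf 249 1798 (.leaf 319 2362 .nil)) .nil)) .nil)) .nil)) .nil)) .nil)) .nil)) (.cons 298 (.leaf 203 1622 (.leaf 322 1814 .nil)) .nil)))) .nil)) .nil)) .nil)) (.cons 296 (.leaf 295 2170 (.cons 251 (.leaf 252 1985 (.cons 299 (.leaf 300 2176 (.cons 227 (.cons 298 (.leaf 203 1622 (.leaf 322 1814 .nil)) (.cons 202 (.leaf 226 1623 (.cons 203 (.leaf 178 1431 (.cons 204 (.leaf 180 1437 (.leaf 228 1629 .nil)) .nil)) .nil)) (.cons 298 (.leaf 322 1814 (.cons 226 (.leaf 202 1623 (.cons 228 (.leaf 204 1629 (.cons 229 (.cons 250 (.leaf 230 1810 (.leaf 249 1802 .nil)) (.cons 206 (.leaf 205 1617 (.cons 230 (.leaf 207 1625 (.cons 254 (.leaf 253 1808 (.leaf 255 1816 .nil)) .nil)) .nil)) (.cons 205 (.leaf 206 1617 (.cons 249 (.leaf 250 1802 (.cons 225 (.leaf 201 1612 (.leaf 248 1794 .nil)) .nil)) .nil)) .nil))) .nil)) .nil)) .nil)) .nil))) .nil)) .nil)) .nil)) .nil))))))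
noncomputable def t108 : T := .cons 249 (.leaf 344 1989 (.cons 225 (.leaf 201 1612 (.leaf 248 1797 .nil)) .nil)) (.cons 344 (.cons 297 (.leaf 368 2181 (.cons 345 (.leaf 369 2180 (.cons 321 (.leaf 248 1988 (.cons 343 (.leaf 367 2174 (.leaf 323 2554 .nil)) .nil)) .nil)) .nil)) (.cons 368 (.leaf 297 2181 (.cons 369 (.leaf 345 2180 (.leaf 393 2372 .nil)) .nil)) (.cons 343 (.leaf 367 2174 (.cons 248 (.leaf 319 1982 (.cons 297 (.leaf 368 2181 (.cons 224 (.leaf 200 1604 (.leaf 321 1796 .nil)) .nil)) .nil)) .nil)) (.cons 343 (.leaf 367 2174 (.cons 248 (.leaf 319 1982 (.cons 321 (.leaf 345 1988 (.leaf 323 2554 .nil)) .nil)) .nil)) .nil)))) (.cons 248 (.cons 319 (.leaf 343 1982 (.cons 321 (.leaf 345 1988 (.cons 297 (.leaf 224 1796 (.leaf 318 2353 .nil)) .nil)) .nil)) (.cons 225 (.leaf 249 1797 (.cons 224 (.leaf 201 1605 (.cons 200 (.leaf 297 1604 (.cons 199 (.leaf 175 1407 (.leaf 223 1599 .nil))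 .nil)) .nil)) .nil)) (.cons 225 (.leaf 249 1797 (.cons 224 (.leaf 201 1605 (.cons 199 (.leaf 223 1599 (.cons 200 (.leaf 175 1407 (.leaf 226 1595 .nil)) .nil)) .nil)) .nil)) (.cons 319 (.leaf 343 1982 (.cons 321 (.leaf 345 1988 (.cons 318 (.leaf 297 2353 (.cons 225 (.leaf 249 1797 (.cons 293 (.leaf 294 2347 (.cons 317 (.leaf 292 2339 (.cons 341 (.leaf 340 2530 (.leaf 342 2538 .nil)) .nil)) .nil)) .nil)) .nil)) .nil)) .nil)) .nil)))) (.cons 249 (.leaf 344 1989 (.cons 225 (.leaf 201 1612 (.leaf 297 1804 .nil)) .nil)) .nil)))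
noncomputable def t109 : T := .cons 345 (.leaf 250 1998 (.cons 320 (.leaf 248 1988 (.cons 369 (.leaf 297 2189 (.leaf 344 2180 .nil)) .nil)) .nil)) (.cons 297 (.cons 224 (.leaf 248 1796 (.cons 225 (.leaf 249 1804 (.cons 250 (.leaf 226 1806 (.cons 323 (.leaf 347 2004 (.leaf 324 2371 .nil)) .nil)) .nil)) .nil)) (.cons 224 (.leaf 248 1796 (.cons 250 (.leaf 226 1806 (.cons 323 (.leaf 347 2004 (.leaf 324 2371 .nil)) .nil)) .nil)) (.cons 248 (.leaf 224 1796 (.cons 249 (.leaf 225 1804 (.cons 320 (.leaf 344 1989 (.cons 319 (.leaf 343 1982 (.leaf 318 2353 .nil)) .nil)) .nil)) .nil)) (.cons 249 (.leaf 225 1804 (.cons 226 (.leaf 250 1805 (.cons 320 (.leaf 344 1989 (.cons 319 (.leaf 318 2353 (.cons 343 (.leaf 248 1982 (.leaf 342 2546 .nil)) .nil)) .nil)) .nil)) .nil)) (.cons 249 (.leaf 225 1804 (.cons 250 (.leaf 226 1805 (.cons 320 (.leaf 344 1989 (.cons 323 (.leaf 347 2004 (.leaf 324 2371 .nil))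 .nil)) .nil)) .nil)) .nil))))) (.cons 345 (.leaf 250 1998 (.cons 320 (.leaf 248 1988 (.cons 369 (.leaf 344 2180 (.leaf 393 2381 .nil)) .nil)) .nil)) (.cons 297 (.cons 345 (.leaf 248 1991 (.leaf 369 2189 .nil)) (.cons 249 (.leaf 225 1804 (.cons 248 (.leaf 224 1796 (.cons 320 (.leaf 344 1989 (.cons 319 (.leaf 343 1982 (.leaf 318 2353 .nil)) .nil)) .nil)) .nil)) (.cons 345 (.leaf 369 2189 (.cons 225 (.leaf 249 1804 (.cons 323 (.leaf 324 2371 (.cons 344 (.leaf 368 2182 (.cons 343 (.leaf 320 2554 (.leaf 342 2545 .nil)) .nil)) .nil)) .nil)) .nil)) .nil))) (.cons 345 (.leaf 250 1998 (.cons 297 (.leaf 248 1991 (.leaf 369 2189 .nil)) .nil)) (.cons 345 (.leaf 250 1998 (.cons 369 (.leaf 297 2189 (.leaf 393 2381 .nil)) .nil)) .nil)))))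
noncomputable def t110 : T := .cons 248 (.cons 225 (.leaf 249 1797 (.cons 201 (.leaf 224 1605 (.cons 226 (.leaf 250 1615 (.cons 200 (.leaf 228 1603 (.cons 199 (.leaf 202 1592 (.leaf 198 1584 .nil)) .nil)) .nil)) .nil)) .nil)) (.cons 319 (.leaf 343 1982 (.cons 321 (.leaf 345 1988 (.cons 297 (.leaf 224 1796 (.leaf 318 2353 .nil)) .nil)) .nil)) (.cons 225 (.leaf 249 1797 (.cons 319 (.leaf 343 1982 (.cons 321 (.leaf 345 1988 (.cons 318 (.leaf 297 2353 (.cons 293 (.leaf 294 2347 (.cons 317 (.leaf 292 2339 (.cons 341 (.leaf 340 2530 (.leaf 342 2538 .nil)) .nil)) .nil)) .nil)) .nil)) .nil)) .nil)) .nil))) (.cons 344 (.cons 297 (.leaf 368 2181 (.cons 343 (.leaf 367 2174 (.cons 345 (.leaf 369 2180 (.cons 321 (.leaf 248 1988 (.leaf 250 1997 .nil)) .nil)) .nil)) .nil)) (.cons 368 (.leaf 297 2181 (.cons 367 (.leaf 343 2174 (.leaf 391 2366 .nil)) .nil)) (.cons 345 (.leaf 369 2180 (.cons 248 (.leaf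 321 1988 (.cons 343 (.leaf 319 1982 (.leaf 367 2174 .nil)) .nil)) .nil)) (.cons 368 (.leaf 297 2181 (.cons 369 (.leaf 345 2180 (.leaf 393 2372 .nil)) .nil)) .nil)))) (.cons 249 (.leaf 344 1989 (.cons 225 (.leaf 201 1612 (.leaf 248 1797 .nil)) .nil)) (.cons 344 (.leaf 249 1989 (.cons 368 (.leaf 297 2181 (.cons 367 (.leaf 343 2174 (.leaf 391 2366 .nil)) .nil)) .nil)) .nil)))
noncomputable def t111 : T := .cons 319 (.leaf 343 1982 (.cons 321 (.leaf 345 1988 (.cons 224 (.leaf 297 1796 (.cons 225 (.leaf 201 1605 (.leaf 249 1797 .nil)) .nil)) .nil)) .nil)) (.cons 321 (.leaf 345 1988 (.cons 224 (.leaf 297 1796 (.cons 199 (.leaf 223 1599 (.cons 319 (.leaf 343 1982 (.cons 200 (.leaf 175 1407 (.cons 176 (.leaf 249 1412 (.cons 177 (.leaf 201 1413 (.leaf 153 1221 .nil)) .nil)) .nil)) .nil)) .nil)) .nil)) .nil)) (.cons 225 (.leaf 249 1797 (.cons 224 (.leaf 201 1605 (.cons 199 (.leaf 223 1599 (.cons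 200 (.leaf 175 1407 (.leaf 297 1604 .nil)) .nil)) .nil)) .nil)) (.cons 321 (.leaf 345 1988 (.cons 224 (.leaf 297 1796 (.cons 199 (.leaf 223 1599 (.cons 319 (.leaf 343 1982 (.cons 200 (.leaf 175 1407 (.cons 201 (.leaf 177 1413 (.leaf 225 1605 .nil)) .nil)) .nil)) .nil)) .nil)) .nil)) (.cons 225 (.leaf 249 1797 (.cons 201 (.leaf 224 1605 (.cons 319 (.leaf 343 1982 (.cons 321 (.leaf 345 1988 (.cons 322 (.leaf 298 2361 (.cons 347 (.leaf 346 2552 (.cons 323 (.leaf 250 2007 (.leaf 348 2560 .nil)) .nil)) .nil)) .nil)) .nil)) .nil)) .nil)) (.cons 249 (.leaf 225 1797 (.cons 319 (.leaf 343 1982 (.cons 321 (.leaf 345 1988 (.cons 322 (.leaf 298 2361 (.cons 346 (.leaf 297 1996 (.leaf 347 2552 .nil)) .nil)) .nil)) .nil)) .nil)) .nil)))))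
noncomputable def t112 : T := .cons 296 (.leaf 295 2170 (.cons 299 (.leaf 300 2176 (.cons 251 (.leaf 252 1985 (.cons 226 (.cons 227 (.leaf 202 1623 (.cons 204 (.leaf 228 1629 (.cons 250 (.leaf 323 1815 (.cons 298 (.leaf 203 1621 (.leaf 322 1813 .nil)) .nil)) .nil)) .nil)) (.cons 227 (.leaf 202 1623 (.cons 204 (.leaf 228 1629 (.cons 203 (.leaf 180 1437 (.leaf 298 1622 .nil)) .nil)) .nil)) (.cons 323 (.leaf 250 1815 (.cons 348 (.leaf 324 2012 (.cons 347 (.leaf 372 2204 (.cons 370 (.leaf 346 2198 (.cons 371 (.leaf 298 2199 (.leaf 394 2390 .nil)) .nil)) .nil)) .nil)) .nil)) (.cons 227 (.leaf 202 1623 (.cons 204 (.leaf 228 1629 (.cons 203 (.leaf 180 1437 (.cons 250 (.leaf 323 1815 (.leaf 179 1430 .nil)) .nil)) .nil)) .nil)) .nil)))) .nil)) .nil)) .nil)) (.cons 296 (.leaf 295 2170 (.cons 299 (.leaf 300 2176 (.cons 320 (.cons 344 (.leaf 249 1989 (.cons 297 (.leaf 368 2181 (.cons 298 (.leaf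 319 2362 (.cons 323 (.leaf 324 2368 (.cons 250 (.leaf 347 2007 (.leaf 226 1812 .nil)) .nil)) .nil)) .nil)) .nil)) (.cons 248 t111 (.cons 344 (.cons 297 (.leaf 368 2181 (.cons 298 (.leaf 319 2362 (.cons 323 (.leaf 324 2368 (.cons 250 (.leaf 347 2007 (.leaf 226 1812 .nil)) .nil)) .nil)) .nil)) (.cons 343 (.leaf 367 2174 (.cons 248 (.leaf 319 1982 (.cons 345 (.leaf 321 1988 (.leaf 369 2180 .nil)) .nil)) .nil)) (.cons 297 (.leaf 368 2181 (.cons 343 (.leaf 367 2174 (.cons 345 (.leaf 369 2180 (.cons 321 (.leaf 248 1988 (.leaf 250 1997 .nil)) .nil)) .nil)) .nil)) .nil))) (.cons 249 (.leaf 344 1989 (.cons 225 (.leaf 201 1606 (.leaf 248 1797 .nil)) .nil)) .nil)))) .nil)) .nil)) (.cons 296 (.leaf 295 2170 (.cons 251 (.leaf 252 1985 (.cons 298 (.cons 322 (.leaf 346 2005 (.cons 227 (.leaf 203 1622 (.leaf 250 1813 .nil)) .nil)) (.cons 227 (.leaf 203 1622 (.cons 320 t110 .nil)) (.cons 322 (.leaf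 346 2005 (.cons 321 t109 .nil)) (.cons 322 (.leaf 346 2005 (.cons 227 (.leaf 203 1622 (.cons 320 t108 .nil)) .nil)) .nil)))) .nil)) .nil)) t107))
noncomputable def t113 : T := .cons 299 (.leaf 300 2176 (.cons 251 (.leaf 252 1985 (.cons 298 (.leaf 271 2168 (.cons 227 (.leaf 203 1622 (.leaf 322 1814 .nil)) .nil)) .nil)) .nil)) (.cons 299 (.leaf 300 2176 (.cons 271 (.leaf 298 2168 (.cons 294 (.leaf 295 2162 (.cons 270 (.leaf 293 2154 (.cons 245 (.leaf 246 1963 (.cons 269 (.leaf 244 1955 (.cons 249 (.leaf 248 1961 (.leaf 250 1969 .nil)) .nil)) .nil)) .nil)) .nil)) .nil)) .nil)) (.cons 251 (.leaf 252 1985 (.cons 271 (.leaf 250 1977 (.cons 295 (.leaf 296 2170 (.leaf 294 2162 .nil)) .nil)) .nil)) (.cons 251 (.leaf 252 1985 (.cons 299 (.leaf 300 2176 (.cons 227 (.cons 298 (.leaf 203 1622 (.leaf 322 1814 .nil)) (.cons 226 (.leaf 202 1623 (.cons 204 (.leaf 228 1629 (.cons 180 (.leaf 203 1437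 (.cons 295 (.leaf 296 2170 (.cons 323 (.leaf 250 1815 (.cons 346 (.leaf 322 2006 (.cons 347 (.leaf 370 2198 (.cons 348 (.leaf 324 2012 (.leaf 372 2204 .nil)) .nil)) .nil)) .nil)) .nil)) .nil)) .nil)) .nil)) (.cons 322 (.leaf 298 1814 (.cons 202 (.leaf 226 1623 (.cons 204 (.leaf 228 1629 (.cons 323 (.leaf 346 2006 (.cons 347 (.leaf 250 2007 (.cons 348 (.leaf 324 2012 (.leaf 372 2204 .nil)) .nil)) .nil)) .nil)) .nil)) .nil)) (.cons 203 (.leaf 298 1622 (.cons 202 (.leaf 178 1431 (.leaf 226 1623 .nil)) .nil)) .nil)))) .nil)) .nil)) .nil)))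
noncomputable def t114 : T := .cons 249 (.leaf 250 1969 (.cons 297 (.leaf 298 2160 (.cons 246 (.leaf 245 1963 (.cons 225 (.cons 296 (.leaf 201 1606 (.leaf 269 2152 .nil)) (.cons 200 (.leaf 224 1607 (.cons 201 (.leaf 176 1415 (.cons 202 (.leaf 178 1421 (.leaf 226 1613 .nil)) .nil)) .nil)) (.cons 200 (.leaf 224 1607 (.cons 296 (.leaf 269 2152 (.leaf 320 1798 .nil)) .nil)) .nil))) .nil)) .nil)) .nil)) (.cons 245 (.leaf 246 1963 (.cons 269 (.leaf 244 1955 (.cons 297 (.leaf 296 2152 (.leaf 298 2160 .nil)) .nil)) .nil)) (.cons 249 (.leaf 250 1969 (.cons 245 (.leaf 246 1963 (.cons 269 (.leaf 244 1955 (.leaf 248 1961 .nil)) .nil)) .nil)) (.cons 249 (.leaf 250 1969 (.cons 248 (.leaf 269 1961 (.cons 297 (.leaf 298 2160 (.cons 224 (.leaf 200 1604 (.leaf 321 1799 .nil)) .nil)) .nil)) .nil)) (.cons 249 (.leaf 250 1969 (.cons 297 (.leaf 298 2160 (.cons 246 (.leaf 245 1963 (.cons 225 (.cons 296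 (.leaf 201 1606 (.leaf 320 1798 .nil)) (.cons 200 (.leaf 224 1607 (.cons 201 (.leaf 176 1415 (.cons 202 (.leaf 178 1421 (.leaf 226 1613 .nil)) .nil)) .nil)) (.cons 200 (.leaf 224 1607 (.cons 320 (.leaf 296 1798 (.cons 202 (.leaf 226 1613 (.cons 321 (.leaf 344 1990 (.cons 345 (.leaf 248 1991 (.cons 346 (.leaf 322 1996 (.leaf 370 2188 .nil)) .nil)) .nil)) .nil)) .nil)) .nil)) .nil))) .nil)) .nil)) .nil)) .nil))))
noncomputable def t115 : T := .cons 249 (.leaf 250 1969 (.cons 297 (.leaf 298 2160 (.cons 246 (.leaf 245 1963 (.cons 294 (.leaf 293 2154 (.cons 225 (.cons 296 (.leaf 201 1606 (.leaf 269 2152 .nil)) (.cons 200 (.leaf 224 1607 (.cons 201 (.leaf 176 1415 (.cons 202 (.leaf 178 1421 (.leaf 226 1613 .nil)) .nil)) .nil)) (.cons 200 (.leaf 224 1607 (.cons 202 (.leaf 226 1613 (.cons 320 (.leaf 296 1798 (.cons 321 (.leaf 344 1990 (.cons 345 (.leaf 248 1991 (.cons 346 (.leaf 322 1996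 (.leaf 370 2188 .nil)) .nil)) .nil)) .nil)) .nil)) .nil)) .nil))) .nil)) .nil)) .nil)) .nil)) (.cons 245 (.leaf 246 1963 (.cons 269 (.leaf 244 1955 (.cons 293 (.leaf 292 2146 (.leaf 294 2154 .nil)) .nil)) .nil)) (.cons 249 (.leaf 250 1969 (.cons 248 (.leaf 269 1961 (.cons 293 (.leaf 294 2154 (.cons 297 (.leaf 298 2160 (.cons 224 (.leaf 200 1604 (.leaf 321 1799 .nil)) .nil)) .nil)) .nil)) .nil)) (.cons 249 (.leaf 250 1969 (.cons 297 (.leaf 298 2160 (.cons 246 (.leaf 245 1963 (.cons 225 (.cons 296 (.leaf 201 1606 (.leaf 269 2152 .nil)) (.cons 200 (.leaf 224 1607 (.cons 201 (.leaf 176 1415 (.cons 202 (.leaf 178 1421 (.leaf 226 1613 .nil)) .nil)) .nil)) (.cons 200 (.leaf 224 1607 (.cons 296 (.leaf 269 2152 (.leaf 320 1798 .nil)) .nil)) .nil))) .nil)) .nil)) .nil)) (.cons 249 (.leaf 250 1969 (.cons 297 (.leaf 298 2160 (.cons 246 (.leaf 245 1963 (.cons 294 (.leaf 293 2154 (.cons 225 (.cons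 296 (.leaf 201 1606 (.leaf 320 1798 .nil)) (.cons 200 (.leaf 224 1607 (.cons 201 (.leaf 176 1415 (.cons 202 (.leaf 178 1421 (.leaf 226 1613 .nil)) .nil)) .nil)) (.cons 200 (.leaf 224 1607 (.cons 202 (.leaf 226 1613 (.cons 320 (.leaf 296 1798 (.cons 321 (.leaf 344 1990 (.cons 345 (.leaf 248 1991 (.cons 346 (.leaf 322 1996 (.leaf 370 2188 .nil)) .nil)) .nil)) .nil)) .nil)) .nil)) .nil))) .nil)) .nil)) .nil)) .nil)) .nil))))
noncomputable def t116 : T := .cons 249 (.leaf 250 1969 (.cons 297 (.leaf 298 2160 (.cons 246 (.leaf 245 1963 (.cons 294 (.leaf 293 2154 (.cons 222 (.cons 295 (.leaf 198 1588 (.leaf 319 1780 .nil)) (.cons 197 (.leaf 221 1583 (.cons 198 (.leaf 173 1391 (.cons 199 (.leaf 175 1397 (.leaf 223 1589 .nil)) .nil)) .nil)) (.cons 197 (.leaf 221 1583 (.cons 319 (.leaf 295 1780 (.cons 318 (.leaf 343 1972 (.cons 317 (.leaf 341 1966 (.cons 320 (.leaf 296 2345 (.cons 344 (.leaf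 321 1990 (.leaf 345 2536 .nil)) .nil)) .nil)) .nil)) .nil)) .nil)) .nil))) .nil)) .nil)) .nil)) .nil)) (.cons 245 (.leaf 246 1963 (.cons 269 (.leaf 244 1955 (.cons 293 (.leaf 292 2146 (.leaf 294 2154 .nil)) .nil)) .nil)) (.cons 249 (.leaf 250 1969 (.cons 297 (.leaf 298 2160 (.cons 246 (.leaf 245 1963 (.cons 225 (.cons 296 (.leaf 201 1606 (.leaf 269 2152 .nil)) (.cons 200 (.leaf 224 1607 (.cons 201 (.leaf 176 1415 (.cons 202 (.leaf 178 1421 (.leaf 226 1613 .nil)) .nil)) .nil)) (.cons 200 (.leaf 224 1607 (.cons 296 (.leaf 269 2152 (.leaf 320 1798 .nil)) .nil)) .nil))) .nil)) .nil)) .nil)) (.cons 249 (.leaf 250 1969 (.cons 248 (.leaf 269 1961 (.cons 293 (.leaf 294 2154 (.cons 297 (.leaf 298 2160 (.cons 224 (.leaf 200 1604 (.leaf 321 1799 .nil)) .nil)) .nil)) .nil)) .nil)) .nil)))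
noncomputable def t117 : T := .cons 249 (.leaf 250 1969 (.cons 297 (.leaf 298 2160 (.cons 246 (.leaf 245 1963 (.cons 294 (.leaf 293 2154 (.cons 222 (.cons 295 (.leaf 274 2162 (.leaf 198 1588 .nil)) (.cons 197 (.leaf 221 1583 (.cons 198 (.leaf 173 1391 (.cons 199 (.leaf 175 1397 (.leaf 223 1589 .nil)) .nil)) .nil)) (.cons 197 (.leaf 221 1583 (.cons 319 (.leaf 295 1780 (.cons 318 (.leaf 343 1972 (.cons 317 (.leaf 341 1966 (.cons 320 (.leaf 296 2345 (.cons 344 (.leaf 321 1990 (.leaf 345 2536 .nil)) .nil)) .nil)) .nil)) .nil)) .nil)) .nil))) .nil)) .nil)) .nil)) .nil)) (.cons 245 (.leaf 246 1963 (.cons 269 (.leaf 244 1955 (.cons 293 (.leaf 292 2146 (.leaf 294 2154 .nil)) .nil)) .nil)) (.cons 249 (.leaf 250 1969 (.cons 297 (.leaf 298 2160 (.cons 246 (.leaf 245 1963 (.cons 225 (.cons 296 (.leaf 201 1606 (.leaf 269 2152 .nil)) (.cons 200 (.leaf 224 1607 (.cons 201 (.leaf 176 1415 (.cons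 202 (.leaf 178 1421 (.leaf 226 1613 .nil)) .nil)) .nil)) (.cons 200 (.leaf 224 1607 (.cons 296 (.leaf 269 2152 (.leaf 320 1798 .nil)) .nil)) .nil))) .nil)) .nil)) .nil)) (.cons 249 (.leaf 250 1969 (.cons 248 (.leaf 269 1961 (.cons 293 (.leaf 294 2154 (.cons 297 (.leaf 298 2160 (.cons 224 (.leaf 200 1604 (.leaf 321 1799 .nil)) .nil)) .nil)) .nil)) .nil)) .nil)))
noncomputable def t118 : T := .cons 270 t117 (.cons 274 (.cons 251 (.leaf 252 1985 (.leaf 250 1977 .nil)) (.cons 295 (.leaf 296 2170 (.leaf 294 2162 .nil)) .nil)) (.cons 270 t116 (.cons 270 t115 (.cons 270 (.cons 245 (.leaf 246 1963 (.cons 250 (.leaf 249 1969 (.cons 269 (.leaf 244 1955 (.cons 293 (.leaf 292 2146 (.leaf 294 2154 .nil)) .nil)) .nil)) .nil)) (.cons 249 (.leaf 250 1969 (.cons 248 (.leaf 269 1961 (.cons 297 (.leaf 298 2160 (.cons 224 (.leaf 200 1604 (.leaf 321 1799 .nil)) .nil)) .nil)) .nil)) (.cons 245 (.leaf 246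 1963 (.cons 269 (.leaf 244 1955 (.cons 293 (.leaf 292 2146 (.leaf 294 2154 .nil)) .nil)) .nil)) (.cons 245 (.leaf 246 1963 (.cons 250 (.leaf 249 1969 (.cons 274 (.leaf 251 1977 (.cons 294 (.leaf 293 2154 (.leaf 295 2162 .nil)) .nil)) .nil)) .nil)) .nil)))) (.cons 270 (.cons 245 (.leaf 246 1963 (.cons 269 (.leaf 244 1955 (.cons 293 (.leaf 292 2146 (.leaf 294 2154 .nil)) .nil)) .nil)) (.cons 245 (.leaf 246 1963 (.cons 269 (.leaf 244 1955 (.cons 297 (.leaf 296 2152 (.leaf 298 2160 .nil)) .nil)) .nil)) (.cons 293 (.leaf 294 2154 (.cons 269 (.leaf 292 2146 (.cons 297 (.leaf 296 2152 (.leaf 298 2160 .nil)) .nil)) .nil)) (.cons 246 (.leaf 245 1963 (.cons 294 (.leaf 293 2154 (.cons 295 (.leaf 274 2162 (.cons 222 (.leaf 198 1588 (.leaf 319 1780 .nil)) .nil)) .nil)) .nil)) .nil)))) (.cons 270 t114 .nil))))))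
noncomputable def t119 : T := .cons 297 (.leaf 298 2160 (.cons 249 (.leaf 250 1969 (.cons 246 (.leaf 245 1963 (.cons 294 (.leaf 293 2154 (.cons 225 (.cons 296 (.leaf 201 1606 (.leaf 269 2152 .nil)) (.cons 200 (.leaf 224 1607 (.cons 201 (.leaf 176 1415 (.cons 202 (.leaf 178 1421 (.leaf 226 1613 .nil)) .nil)) .nil)) (.cons 200 (.leaf 224 1607 (.cons 202 (.leaf 226 1613 (.cons 320 (.leaf 296 1798 (.cons 321 (.leaf 344 1990 (.cons 345 (.leaf 248 1991 (.cons 346 (.leaf 322 1996 (.leaf 370 2188 .nil)) .nil)) .nil)) .nil)) .nil)) .nil)) .nil))) .nil)) .nil)) .nil)) .nil)) (.cons 249 (.leaf 250 1969 (.cons 269 (.leaf 248 1961 (.cons 293 (.leaf 292 2146 (.leaf 294 2154 .nil)) .nil)) .nil)) (.cons 297 (.leaf 298 2160 (.cons 245 (.leaf 246 1963 (.cons 269 (.leaf 244 1955 (.leaf 296 2152 .nil)) .nil)) .nil)) (.cons 297 (.leaf 298 2160 (.cons 249 (.leaf 250 1969 (.cons 246 (.leaf 245 1963 (.cons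 294 (.leaf 293 2154 (.cons 225 (.cons 296 (.leaf 201 1606 (.leaf 320 1798 .nil)) (.cons 200 (.leaf 224 1607 (.cons 201 (.leaf 176 1415 (.cons 202 (.leaf 178 1421 (.leaf 226 1613 .nil)) .nil)) .nil)) (.cons 200 (.leaf 224 1607 (.cons 202 (.leaf 226 1613 (.cons 320 (.leaf 296 1798 (.cons 321 (.leaf 344 1990 (.cons 345 (.leaf 248 1991 (.cons 346 (.leaf 322 1996 (.leaf 370 2188 .nil)) .nil)) .nil)) .nil)) .nil)) .nil)) .nil))) .nil)) .nil)) .nil)) .nil)) .nil)))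
noncomputable def t120 : T := .cons 270 (.cons 245 (.leaf 246 1963 (.cons 269 (.leaf 244 1955 (.cons 293 (.leaf 292 2146 (.leaf 294 2154 .nil)) .nil)) .nil)) (.cons 245 (.leaf 246 1963 (.cons 269 (.leaf 244 1955 (.cons 297 (.leaf 296 2152 (.leaf 298 2160 .nil)) .nil)) .nil)) (.cons 249 (.leaf 250 1969 (.cons 248 (.leaf 269 1961 (.cons 293 (.leaf 294 2154 (.cons 297 (.leaf 298 2160 (.cons 224 (.leaf 200 1604 (.leaf 321 1799 .nil)) .nil)) .nil)) .nil)) .nil)) (.cons 245 (.leaf 246 1963 (.cons 249 (.leaf 250 1969 (.cons 294 (.leaf 293 2154 (.cons 274 (.leaf 295 2162 (.cons 298 (.leaf 297 2160 (.leaf 299 2168 .nil)) .nil)) .nil)) .nil)) .nil)) .nil)))) (.cons 274 (.cons 299 (.leaf 300 2176 (.leaf 298 2168 .nil)) (.cons 295 (.leaf 296 2170 (.leaf 294 2162 .nil)) .nil)) (.cons 270 (.cons 293 (.leaf 294 2154 (.cons 245 (.leaf 246 1963 (.cons 269 (.leaf 244 1955 (.leaf 292 2146 .nil)) .nil))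 .nil)) (.cons 297 (.leaf 298 2160 (.cons 245 (.leaf 246 1963 (.cons 269 (.leaf 244 1955 (.leaf 296 2152 .nil)) .nil)) .nil)) (.cons 297 (.leaf 298 2160 (.cons 249 (.leaf 250 1969 (.cons 269 (.leaf 248 1961 (.leaf 296 2152 .nil)) .nil)) .nil)) (.cons 297 (.leaf 298 2160 (.cons 249 (.leaf 250 1969 (.cons 246 (.leaf 245 1963 (.cons 294 (.leaf 293 2154 (.cons 222 (.cons 295 (.leaf 198 1588 (.leaf 319 1780 .nil)) (.cons 197 (.leaf 221 1583 (.cons 198 (.leaf 173 1391 (.cons 199 (.leaf 175 1397 (.leaf 223 1589 .nil)) .nil)) .nil)) (.cons 197 (.leaf 221 1583 (.cons 319 (.leaf 295 1780 (.cons 318 (.leaf 343 1972 (.cons 317 (.leaf 341 1966 (.cons 320 (.leaf 296 2345 (.cons 344 (.leaf 321 1990 (.leaf 345 2536 .nil)) .nil)) .nil)) .nil)) .nil)) .nil)) .nil))) .nil)) .nil)) .nil)) .nil)) .nil)))) (.cons 270 t119 (.cons 270 (.cons 245 (.leaf 246 1963 (.cons 249 (.leaf 250 1969 (.cons 269 (.leaf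 244 1955 (.leaf 248 1961 .nil)) .nil)) .nil)) (.cons 294 (.leaf 293 2154 (.cons 249 (.leaf 250 1969 (.cons 248 (.leaf 269 1961 (.cons 274 (.leaf 295 2162 (.cons 298 (.leaf 297 2160 (.leaf 299 2168 .nil)) .nil)) .nil)) .nil)) .nil)) (.cons 245 (.leaf 246 1963 (.cons 244 (.leaf 269 1955 (.cons 294 (.leaf 293 2154 (.cons 274 (.leaf 295 2162 (.cons 298 (.leaf 297 2160 (.leaf 299 2168 .nil)) .nil)) .nil)) .nil)) .nil)) (.cons 245 (.leaf 246 1963 (.cons 249 (.leaf 250 1969 (.cons 294 (.leaf 293 2154 (.cons 274 (.leaf 295 2162 (.cons 298 (.leaf 297 2160 (.leaf 299 2168 .nil)) .nil)) .nil)) .nil)) .nil)) .nil)))) (.cons 270 (.cons 249 (.leaf 250 1969 (.cons 269 (.leaf 248 1961 (.cons 293 (.leaf 292 2146 (.leaf 294 2154 .nil)) .nil)) .nil)) (.cons 249 (.leaf 250 1969 (.cons 245 (.leaf 246 1963 (.cons 269 (.leaf 244 1955 (.leaf 248 1961 .nil)) .nil)) .nil)) (.cons 246 (.leaf 245 1963 (.cons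 294 (.leaf 293 2154 (.cons 295 (.leaf 274 2162 (.cons 222 (.leaf 198 1588 (.leaf 319 1780 .nil)) .nil)) .nil)) .nil)) .nil))) (.cons 270 (.cons 245 (.leaf 246 1963 (.cons 269 (.leaf 244 1955 (.cons 297 (.leaf 296 2152 (.leaf 298 2160 .nil)) .nil)) .nil)) (.cons 249 (.leaf 250 1969 (.cons 245 (.leaf 246 1963 (.cons 269 (.leaf 244 1955 (.leaf 248 1961 .nil)) .nil)) .nil)) (.cons 249 (.leaf 250 1969 (.cons 248 (.leaf 269 1961 (.cons 297 (.leaf 298 2160 (.cons 224 (.leaf 200 1604 (.leaf 321 1799 .nil)) .nil)) .nil)) .nil)) (.cons 245 (.leaf 246 1963 (.cons 249 (.leaf 250 1969 (.cons 298 (.leaf 297 2160 (.cons 274 (.leaf 299 2168 (.cons 225 (.leaf 201 1612 (.cons 296 (.leaf 295 2170 (.cons 320 (.leaf 248 1797 (.leaf 344 1989 .nil)) .nil)) .nil)) .nil)) .nil)) .nil)) .nil)) .nil)))) .nil))))))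
noncomputable def t121 : T := .cons 299 (.leaf 300 2176 (.cons 271 (.leaf 298 2168 (.cons 294 (.leaf 295 2162 (.cons 270 (.leaf 293 2154 (.cons 245 (.leaf 246 1963 (.cons 269 (.leaf 244 1955 (.cons 249 (.leaf 248 1961 (.leaf 250 1969 .nil)) .nil)) .nil)) .nil)) .nil)) .nil)) .nil)) (.cons 251 (.leaf 252 1985 (.cons 250 (.leaf 271 1977 (.cons 298 (.cons 322 (.leaf 346 2005 (.leaf 227 1813 .nil)) (.cons 227 (.leaf 203 1622 (.cons 226 (.cons 202 (.leaf 178 1428 (.leaf 297 1614 .nil)) (.cons 225 (.leaf 201 1615 (.cons 224 (.leaf 223 1784 (.cons 200 (.leaf 199 1595 (.cons 297 (.leaf 248 1604 (.leaf 249 1607 .nil)) .nil)) .nil)) .nil)) (.cons 202 (.leaf 178 1428 (.cons 201 (.leaf 177 1423 (.leaf 225 1615 .nil)) .nil)) .nil))) .nil)) (.cons 322 (.leaf 346 2005 (.cons 225 (.leaf 249 1807 (.cons 226 (.leaf 201 1615 (.cons 202 (.leaf 178 1428 (.leaf 297 1614 .nil)) .nil)) .nil)) .nil)) .nil)))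 .nil)) .nil)) (.cons 251 (.leaf 252 1985 (.cons 299 (.leaf 300 2176 (.cons 227 (.cons 298 (.leaf 203 1622 (.leaf 322 1814 .nil)) (.cons 202 (.leaf 226 1623 (.cons 203 (.leaf 178 1431 (.cons 204 (.leaf 180 1437 (.leaf 228 1629 .nil)) .nil)) .nil)) (.cons 202 (.leaf 226 1623 (.cons 204 (.leaf 228 1629 (.cons 322 (.leaf 298 1814 (.cons 323 (.leaf 346 2006 (.cons 347 (.leaf 250 2007 (.cons 348 (.leaf 324 2012 (.leaf 372 2204 .nil)) .nil)) .nil)) .nil)) .nil)) .nil)) .nil))) .nil)) .nil)) (.cons 299 (.leaf 300 2176 (.cons 251 (.leaf 252 1985 (.cons 298 (.leaf 271 2168 (.cons 227 (.leaf 203 1622 (.leaf 322 1814 .nil)) .nil)) .nil)) .nil)) (.cons 251 (.leaf 252 1985 (.cons 250 (.leaf 271 1977 (.cons 299 (.leaf 300 2176 (.cons 226 (.leaf 202 1620 (.leaf 323 1815 .nil)) .nil)) .nil)) .nil)) .nil))))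
noncomputable def t122 : T := .cons 226 (.cons 202 (.leaf 178 1428 (.cons 225 (.leaf 297 1613 (.cons 201 (.leaf 296 1606 (.cons 153 (.leaf 177 1228 (.cons 200 (.leaf 176 1415 (.cons 199 (.leaf 198 1584 (.leaf 227 1592 .nil)) .nil)) .nil)) .nil)) .nil)) .nil)) (.cons 297 (.leaf 321 1805 (.cons 299 (.leaf 323 1815 (.cons 300 (.leaf 298 2179 (.cons 271 (.leaf 248 1978 (.leaf 270 1969 .nil)) .nil)) .nil)) .nil)) (.cons 202 (.leaf 178 1428 (.cons 299 (.leaf 227 1623 (.leaf 323 1815 .nil)) .nil)) .nil))) (.cons 226 (.cons 202 (.leaf 178 1428 (.cons 225 (.leaf 297 1613 (.cons 201 (.leaf 296 1606 (.cons 153 (.leaf 177 1228 (.cons 200 (.leaf 176 1415 (.cons 199 (.leaf 198 1584 (.leaf 227 1592 .nil)) .nil)) .nil)) .nil)) .nil)) .nil)) (.cons 297 (.leaf 321 1805 (.cons 299 (.leaf 323 1815 (.cons 300 (.leaf 298 2179 (.cons 227 (.leaf 324 1820 (.cons 228 (.leaf 204 1629 (.leaf 248 1793 .nil))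 .nil)) .nil)) .nil)) .nil)) (.cons 202 (.leaf 178 1428 (.cons 299 (.leaf 227 1623 (.leaf 323 1815 .nil)) .nil)) (.cons 202 (.leaf 178 1428 (.cons 225 (.leaf 297 1613 (.cons 201 (.leaf 296 1606 (.cons 177 (.leaf 248 1414 (.leaf 153 1228 .nil)) .nil)) .nil)) .nil)) .nil)))) (.cons 271 (.leaf 270 1969 (.cons 226 (.cons 297 (.leaf 321 1805 (.cons 225 (.leaf 202 1613 (.cons 296 (.leaf 201 1606 (.leaf 320 1798 .nil)) .nil)) .nil)) (.cons 297 (.leaf 321 1805 (.cons 225 (.cons 296 (.leaf 201 1606 (.leaf 320 1798 .nil)) (.cons 224 (.leaf 200 1607 (.leaf 223 1784 .nil)) .nil)) .nil)) (.cons 202 (.leaf 178 1428 (.cons 299 (.leaf 227 1623 (.leaf 323 1815 .nil)) .nil)) .nil))) .nil)) (.cons 271 (.leaf 248 1978 (.leaf 270 1969 .nil)) .nil)))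
noncomputable def t123 : T := .cons 201 (.leaf 296 1606 (.cons 177 (.leaf 248 1414 (.cons 178 (.leaf 202 1421 (.leaf 154 1229 .nil)) .nil)) .nil)) (.cons 297 (.cons 320 (.leaf 296 1798 (.cons 224 (.leaf 200 1607 (.cons 321 (.leaf 248 1799 (.leaf 344 1990 .nil)) .nil)) .nil)) (.cons 224 (.leaf 200 1607 (.cons 226 (.leaf 202 1613 (.cons 227 (.leaf 252 1792 (.cons 204 (.leaf 203 1601 (.cons 228 (.leaf 299 1629 (.leaf 248 1794 .nil)) .nil)) .nil)) .nil)) .nil)) (.cons 226 (.leaf 202 1613 (.cons 321 (.cons 344 (.leaf 320 1990 (.cons 345 (.leaf 248 1991 (.leaf 368 2182 .nil)) .nil)) (.cons 345 (.leaf 248 1991 (.cons 344 (.leaf 368 2182 (.cons 369 (.leaf 296 2183 (.cons 370 (.leaf 346 2188 (.leaf 394 2380 .nil)) .nil)) .nil)) .nil)) (.cons 320 (.leaf 296 1798 (.leaf 344 1990 .nil)) (.cons 296 (.leaf 320 1798 (.cons 345 (.leaf 248 1991 (.leaf 369 2183 .nil)) .nil)) .nil)))) .nil)) (.cons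 224 (.leaf 200 1607 (.cons 226 (.leaf 202 1613 (.cons 227 (.leaf 252 1792 (.cons 204 (.leaf 203 1601 (.cons 228 (.leaf 299 1629 (.leaf 205 1609 .nil)) .nil)) .nil)) .nil)) .nil)) .nil)))) (.cons 201 (.cons 177 (.leaf 248 1414 (.cons 178 (.leaf 202 1421 (.leaf 154 1229 .nil)) .nil)) (.cons 202 (.leaf 178 1421 (.cons 200 (.leaf 176 1415 (.cons 224 (.leaf 297 1607 (.cons 203 (.leaf 204 1602 (.leaf 223 1594 .nil)) .nil)) .nil)) .nil)) (.cons 176 (.leaf 200 1415 (.cons 177 (.leaf 248 1414 (.leaf 152 1223 .nil)) .nil)) .nil))) (.cons 296 (.leaf 201 1606 (.cons 320 (.leaf 344 1989 (.leaf 297 1798 .nil)) .nil)) .nil)))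
noncomputable def t124 : T := .cons 250 (.leaf 252 1986 (.cons 226 (.cons 202 (.leaf 178 1428 (.cons 225 (.leaf 297 1613 (.cons 201 (.leaf 296 1606 (.cons 153 (.leaf 177 1228 (.cons 200 (.leaf 176 1415 (.cons 199 (.leaf 198 1584 (.leaf 227 1592 .nil)) .nil)) .nil)) .nil)) .nil)) .nil)) (.cons 297 (.leaf 321 1805 (.cons 299 (.leaf 323 1815 (.cons 300 (.leaf 298 2179 (.cons 271 (.leaf 248 1978 (.leaf 270 1969 .nil)) .nil)) .nil)) .nil)) (.cons 202 (.leaf 178 1428 (.cons 299 (.leaf 227 1623 (.leaf 323 1815 .nil)) .nil)) .nil))) .nil)) (.cons 225 t123 (.cons 250 t122 (.cons 250 (.leaf 252 1986 (.cons 271 (.leaf 270 1969 (.cons 226 (.cons 297 (.leaf 321 1805 (.cons 225 (.leaf 202 1613 (.cons 296 (.leaf 201 1606 (.leaf 320 1798 .nil)) .nil)) .nil)) (.cons 297 (.leaf 321 1805 (.cons 225 (.cons 296 (.leaf 201 1606 (.leaf 320 1798 .nil)) (.cons 224 (.leaf 200 1607 (.leaf 223 1784 .nil)) .nil))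 .nil)) (.cons 202 (.leaf 178 1428 (.cons 299 (.leaf 227 1623 (.leaf 323 1815 .nil)) .nil)) .nil))) .nil)) .nil)) (.cons 250 (.leaf 252 1986 (.cons 271 (.leaf 248 1978 (.leaf 270 1969 .nil)) .nil)) .nil))))
noncomputable def t125 : T := .cons 320 (.leaf 344 1989 (.cons 248 (.leaf 225 1797 (.cons 271 (.leaf 250 1978 (.cons 270 (.leaf 269 1961 (.cons 246 (.leaf 245 1963 (.cons 294 (.leaf 293 2154 (.cons 319 (.leaf 343 1982 (.cons 222 (.leaf 295 1780 (.cons 197 (.leaf 221 1583 (.cons 198 (.leaf 173 1391 (.cons 199 (.leaf 175 1397 (.leaf 223 1589 .nil)) .nil)) .nil)) .nil)) .nil)) .nil)) .nil)) .nil)) .nil)) .nil)) .nil)) (.cons 225 (.leaf 201 1606 (.cons 297 (.cons 224 (.leaf 200 1607 (.cons 248 (.leaf 321 1796 (.cons 223 (.leaf 199 1599 (.leaf 250 1787 .nil)) .nil)) .nil)) (.cons 226 (.leaf 202 1613 (.cons 250 (.leaf 321 1805 (.cons 271 (.leaf 248 1978 (.leaf 270 1969 .nil)) .nil)) .nil))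 (.cons 224 (.leaf 200 1607 (.cons 226 (.leaf 202 1613 (.cons 223 (.leaf 250 1784 (.cons 199 (.leaf 248 1599 (.leaf 198 1587 .nil)) .nil)) .nil)) .nil)) (.cons 200 (.leaf 224 1607 (.cons 226 (.leaf 202 1613 (.cons 321 (.leaf 250 1805 (.cons 345 (.leaf 369 2183 (.cons 346 (.leaf 322 1996 (.leaf 370 2188 .nil)) .nil)) .nil)) .nil)) .nil)) (.cons 224 (.leaf 200 1607 (.cons 248 (.leaf 321 1796 (.cons 223 (.leaf 199 1599 (.cons 222 (.leaf 221 1768 (.cons 198 (.leaf 197 1579 (.cons 295 (.leaf 319 1790 (.cons 246 (.leaf 245 1770 (.cons 270 (.leaf 271 1588 (.cons 269 (.leaf 294 2155 (.leaf 293 1582 .nil)) .nil)) .nil)) .nil)) .nil)) .nil)) .nil)) .nil)) .nil)) .nil))))) .nil)) (.cons 320 (.leaf 344 1989 (.cons 248 (.cons 271 (.leaf 250 1978 (.cons 270 (.leaf 269 1961 (.cons 246 (.leaf 245 1963 (.cons 294 (.leaf 293 2154 (.cons 319 (.leaf 343 1982 (.cons 222 (.leaf 295 1780 (.cons 197 (.leaf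 221 1583 (.cons 198 (.leaf 173 1391 (.cons 199 (.leaf 175 1397 (.leaf 223 1589 .nil)) .nil)) .nil)) .nil)) .nil)) .nil)) .nil)) .nil)) .nil)) (.cons 319 (.leaf 343 1982 (.cons 321 (.leaf 345 1988 (.cons 224 (.leaf 295 1790 (.leaf 297 1796 .nil)) .nil)) .nil)) (.cons 250 (.leaf 271 1978 (.cons 224 (.leaf 223 1787 (.cons 200 (.leaf 297 1604 (.leaf 176 1412 .nil)) .nil)) .nil)) .nil))) .nil)) (.cons 320 (.leaf 344 1989 (.cons 225 (.leaf 201 1606 (.leaf 297 1798 .nil)) .nil)) .nil)))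
noncomputable def t126 : T := .cons 201 (.leaf 296 1606 (.cons 177 (.leaf 248 1414 (.cons 178 (.leaf 202 1421 (.leaf 154 1229 .nil)) .nil)) .nil)) (.cons 297 (.cons 202 (.leaf 226 1613 (.cons 320 (.leaf 296 1798 (.cons 321 (.leaf 344 1990 (.cons 345 (.leaf 248 1991 (.cons 346 (.leaf 322 1996 (.leaf 370 2188 .nil)) .nil)) .nil)) .nil)) .nil)) (.cons 202 (.leaf 226 1613 (.cons 224 (.leaf 200 1607 (.cons 321 (.leaf 248 1799 (.cons 344 (.leaf 320 1990 (.cons 345 (.leaf 368 2182 (.cons 346 (.leaf 322 1996 (.leaf 370 2188 .nil)) .nil)) .nil)) .nil)) .nil)) .nil)) (.cons 224 (.leaf 200 1607 (.cons 226 (.leaf 202 1613 (.cons 227 (.leaf 252 1792 (.cons 204 (.leaf 203 1601 (.cons 228 (.leaf 299 1629 (.leaf 248 1794 .nil)) .nil)) .nil)) .nil)) .nil)) (.cons 200 (.leaf 224 1607 (.cons 320 (.leaf 296 1798 (.cons 321 (.leaf 344 1990 (.cons 345 (.leaf 248 1991 (.cons 346 (.leaf 322 1996 (.leaf 370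 2188 .nil)) .nil)) .nil)) .nil)) .nil)) (.cons 224 (.leaf 200 1607 (.cons 226 (.leaf 202 1613 (.cons 227 (.leaf 252 1792 (.cons 204 (.leaf 203 1601 (.cons 228 (.leaf 299 1629 (.leaf 205 1609 .nil)) .nil)) .nil)) .nil)) .nil)) .nil))))) (.cons 201 (.cons 177 (.leaf 248 1414 (.cons 178 (.leaf 202 1421 (.leaf 154 1229 .nil)) .nil)) (.cons 202 (.leaf 178 1421 (.cons 200 (.leaf 176 1415 (.cons 224 (.leaf 297 1607 (.cons 203 (.leaf 204 1602 (.leaf 223 1594 .nil)) .nil)) .nil)) .nil)) (.cons 176 (.leaf 200 1415 (.cons 177 (.leaf 248 1414 (.leaf 152 1223 .nil)) .nil)) .nil))) (.cons 296 (.leaf 201 1606 (.cons 320 (.leaf 344 1989 (.leaf 297 1798 .nil)) .nil)) .nil)))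
noncomputable def t127 : T := .cons 225 (.leaf 201 1606 (.cons 297 (.leaf 320 1798 (.cons 224 (.leaf 200 1607 (.cons 226 (.leaf 202 1613 (.cons 223 (.leaf 250 1784 (.cons 199 (.leaf 248 1599 (.leaf 198 1587 .nil)) .nil)) .nil)) .nil)) .nil)) .nil)) (.cons 320 (.leaf 344 1989 (.cons 248 (.cons 250 (.leaf 271 1978 (.cons 224 (.leaf 223 1787 (.cons 319 (.leaf 295 1790 (.leaf 343 1982 .nil)) .nil)) .nil)) (.cons 319 (.leaf 343 1982 (.cons 224 (.leaf 295 1790 (.cons 200 (.leaf 297 1604 (.leaf 176 1412 .nil)) .nil)) .nil)) (.cons 250 (.leaf 271 1978 (.cons 224 (.leaf 223 1787 (.cons 200 (.leaf 297 1604 (.leaf 176 1412 .nil)) .nil)) .nil)) (.cons 271 (.leaf 250 1978 (.cons 270 (.leaf 269 1961 (.cons 246 (.leaf 245 1963 (.cons 294 (.leaf 293 2154 (.cons 319 (.leaf 343 1982 (.cons 222 (.leaf 295 1780 (.cons 197 (.leaf 221 1583 (.cons 198 (.leaf 173 1391 (.cons 199 (.leaf 175 1397 (.leaf 223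 1589 .nil)) .nil)) .nil)) .nil)) .nil)) .nil)) .nil)) .nil)) .nil)) .nil)))) .nil)) (.cons 225 (.leaf 201 1606 (.cons 297 (.cons 224 (.leaf 200 1607 (.cons 226 (.leaf 202 1613 (.cons 223 (.leaf 250 1784 (.cons 199 (.leaf 248 1599 (.leaf 198 1587 .nil)) .nil)) .nil)) .nil)) (.cons 298 (.leaf 322 1804 (.cons 271 (.leaf 270 2160 (.leaf 299 2171 .nil)) .nil)) .nil)) .nil)) (.cons 225 (.leaf 201 1606 (.cons 320 (.leaf 344 1989 (.leaf 297 1798 .nil)) .nil)) (.cons 320 (.leaf 344 1989 (.cons 248 (.leaf 225 1797 (.cons 271 (.leaf 250 1978 (.cons 270 (.leaf 269 1961 (.cons 246 (.leaf 245 1963 (.cons 294 (.leaf 293 2154 (.cons 319 (.leaf 343 1982 (.cons 222 (.leaf 295 1780 (.cons 197 (.leaf 221 1583 (.cons 198 (.leaf 173 1391 (.cons 199 (.leaf 175 1397 (.leaf 223 1589 .nil)) .nil)) .nil)) .nil)) .nil)) .nil)) .nil)) .nil)) .nil)) .nil)) .nil)) .nil))))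
noncomputable def t128 : T := .cons 202 (.leaf 226 1613 (.cons 296 (.leaf 320 1798 (.cons 298 (.leaf 322 1804 (.cons 271 (.leaf 270 2160 (.leaf 299 2171 .nil)) .nil)) .nil)) .nil)) (.cons 298 (.leaf 322 1804 (.cons 224 (.leaf 200 1607 (.cons 226 (.leaf 202 1613 (.cons 227 (.leaf 252 1792 (.cons 204 (.leaf 203 1601 (.cons 228 (.leaf 299 1629 (.leaf 248 1794 .nil)) .nil)) .nil)) .nil)) .nil)) .nil)) (.cons 296 (.leaf 320 1798 (.cons 224 (.leaf 200 1607 (.cons 226 (.leaf 202 1613 (.cons 227 (.leaf 252 1792 (.cons 204 (.leaf 203 1601 (.cons 228 (.leaf 299 1629 (.leaf 248 1794 .nil)) .nil)) .nil)) .nil)) .nil)) .nil)) (.cons 200 (.leaf 224 1607 (.cons 298 (.leaf 322 1804 (.cons 271 (.leaf 270 2160 (.cons 299 (.leaf 296 2171 (.leaf 300 2179 .nil)) .nil)) .nil)) .nil)) (.cons 296 (.leaf 320 1798 (.cons 224 (.leaf 200 1607 (.cons 226 (.leaf 202 1613 (.cons 227 (.leaf 252 1792 (.cons 203 (.leaf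 204 1601 (.cons 248 (.leaf 228 1794 (.cons 199 (.leaf 223 1599 (.cons 295 (.leaf 319 1790 (.cons 294 (.leaf 293 2153 (.cons 270 (.leaf 269 2155 (.cons 298 (.leaf 271 2160 (.leaf 322 1804 .nil)) .nil)) .nil)) .nil)) .nil)) .nil)) .nil)) .nil)) .nil)) .nil)) .nil)) .nil))))
noncomputable def t129 : T := .cons 250 (.leaf 252 1986 (.cons 271 (.leaf 248 1978 (.leaf 270 1969 .nil)) .nil)) (.cons 225 (.cons 296 (.leaf 201 1606 (.cons 320 (.leaf 248 1797 (.leaf 344 1989 .nil)) .nil)) (.cons 297 t128 (.cons 201 (.cons 177 (.leaf 248 1414 (.cons 178 (.leaf 202 1421 (.leaf 154 1229 .nil)) .nil)) (.cons 202 (.leaf 178 1421 (.cons 200 (.leaf 176 1415 (.cons 224 (.leaf 297 1607 (.cons 203 (.leaf 204 1602 (.leaf 223 1594 .nil)) .nil)) .nil)) .nil)) (.cons 176 (.leaf 200 1415 (.cons 177 (.leaf 248 1414 (.leaf 152 1223 .nil)) .nil)) .nil))) (.cons 201 (.leaf 296 1606 (.cons 202 (.leaf 178 1421 (.cons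 200 (.leaf 176 1415 (.cons 224 (.leaf 297 1607 (.cons 203 (.leaf 204 1602 (.leaf 223 1594 .nil)) .nil)) .nil)) .nil)) .nil)) .nil)))) (.cons 296 t127 (.cons 250 (.leaf 252 1986 (.cons 226 (.cons 299 (.leaf 323 1815 (.cons 227 (.leaf 202 1623 (.cons 298 (.leaf 322 1814 (.cons 228 (.leaf 204 1629 (.leaf 248 1793 .nil)) .nil)) .nil)) .nil)) (.cons 299 (.leaf 323 1815 (.cons 227 (.cons 298 (.leaf 322 1814 (.cons 228 (.leaf 204 1629 (.leaf 248 1793 .nil)) .nil)) (.cons 298 (.leaf 322 1814 (.cons 300 (.leaf 324 1820 (.leaf 297 2179 .nil)) .nil)) (.cons 228 (.leaf 204 1629 (.leaf 248 1793 .nil)) .nil))) .nil)) (.cons 202 (.leaf 178 1428 (.cons 225 (.leaf 297 1613 (.cons 201 (.leaf 296 1606 (.cons 153 (.leaf 177 1228 (.cons 200 (.leaf 176 1415 (.cons 199 (.leaf 198 1584 (.leaf 227 1592 .nil)) .nil)) .nil)) .nil)) .nil)) .nil)) (.cons 202 (.leaf 178 1428 (.cons 225 (.leaf 297 1613 (.cons 201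 (.leaf 296 1606 (.cons 177 (.leaf 248 1414 (.leaf 153 1228 .nil)) .nil)) .nil)) .nil)) .nil)))) .nil)) (.cons 250 (.leaf 252 1986 (.cons 271 (.leaf 270 1969 (.cons 226 (.cons 299 (.leaf 323 1815 (.cons 227 (.leaf 202 1623 (.cons 228 (.leaf 204 1629 (.leaf 229 1802 .nil)) .nil)) .nil)) (.cons 299 (.leaf 323 1815 (.cons 227 (.cons 228 (.leaf 204 1629 (.leaf 229 1802 .nil)) (.cons 298 (.leaf 322 1814 (.cons 297 (.leaf 296 2171 (.leaf 300 2179 .nil)) .nil)) .nil)) .nil)) (.cons 202 (.leaf 178 1428 (.cons 225 (.leaf 297 1613 (.cons 201 (.leaf 296 1606 (.cons 153 (.leaf 177 1228 (.cons 200 (.leaf 176 1415 (.cons 199 (.leaf 198 1584 (.leaf 227 1592 .nil)) .nil)) .nil)) .nil)) .nil)) .nil)) (.cons 202 (.leaf 178 1428 (.cons 225 (.leaf 297 1613 (.cons 201 (.leaf 296 1606 (.cons 153 (.leaf 177 1228 (.cons 200 (.leaf 176 1415 (.cons 199 (.leaf 198 1584 (.cons 223 (.leaf 224 1784 (.leaf 222 1586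 .nil)) .nil)) .nil)) .nil)) .nil)) .nil)) .nil)) .nil)))) .nil)) .nil)) .nil))))
noncomputable def t130 : T := .cons 228 (.leaf 252 1821 (.cons 346 (.leaf 322 2006 (.cons 226 (.leaf 250 1815 (.cons 347 (.leaf 370 2198 (.cons 348 (.leaf 324 2012 (.leaf 372 2204 .nil)) .nil)) .nil)) .nil)) .nil)) (.cons 250 (.leaf 226 1815 (.cons 252 (.leaf 228 1821 (.leaf 249 1986 .nil)) .nil)) (.cons 228 (.leaf 252 1821 (.cons 346 (.leaf 322 2006 (.cons 347 (.leaf 370 2198 (.cons 348 (.leaf 324 2012 (.leaf 372 2204 .nil)) .nil)) .nil)) .nil)) (.cons 346 (.leaf 322 2006 (.cons 347 (.leaf 370 2198 (.cons 372 (.leaf 348 2204 (.cons 371 (.leaf 396 2396 (.cons 345 (.leaf 344 2752 (.cons 250 (.leaf 226 1815 (.cons 297 (.cons 321 (.leaf 248 1991 (.cons 369 (.leaf 296 2183 (.cons 392 (.leaf 368 2374 (.cons 393 (.leaf 416 2566 (.cons 394 (.leaf 395 2945 (.leaf 418 2572 .nil)) .nil)) .nil)) .nil)) .nil)) (.cons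 298 (.leaf 300 2179 (.cons 271 (.leaf 270 2160 (.leaf 296 2171 .nil)) .nil)) (.cons 248 (.leaf 321 1991 (.cons 200 (.leaf 224 1604 (.cons 271 (.leaf 249 1978 (.cons 298 (.leaf 270 2160 (.leaf 300 2179 .nil)) .nil)) .nil)) .nil)) .nil))) .nil)) .nil)) .nil)) .nil)) .nil)) .nil)) .nil)))
noncomputable def t131 : T := .cons 323 (.cons 322 (.leaf 346 2006 (.cons 227 (.leaf 298 1814 (.cons 228 (.leaf 204 1629 (.leaf 252 1821 .nil)) .nil)) .nil)) (.cons 324 (.leaf 348 2012 (.cons 226 (.leaf 250 1815 (.cons 227 (.leaf 202 1623 (.leaf 300 1820 .nil)) .nil)) .nil)) (.cons 226 (.leaf 250 1815 (.cons 346 (.leaf 322 2006 (.cons 347 (.leaf 370 2198 (.cons 348 (.leaf 324 2012 (.leaf 372 2204 .nil)) .nil)) .nil)) .nil)) .nil))) (.cons 227 (.cons 298 (.leaf 322 1814 (.cons 300 (.leaf 324 1820 (.leaf 297 2179 .nil)) .nil)) (.cons 202 (.leaf 226 1623 (.cons 203 (.leaf 178 1431 (.cons 204 (.leaf 180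 1437 (.leaf 228 1629 .nil)) .nil)) .nil)) .nil)) (.cons 323 t130 (.cons 323 (.cons 228 (.leaf 252 1821 (.cons 346 (.leaf 322 2006 (.cons 226 (.leaf 250 1815 (.cons 347 (.leaf 370 2198 (.cons 227 (.leaf 202 1623 (.leaf 204 1629 .nil)) .nil)) .nil)) .nil)) .nil)) (.cons 228 (.leaf 252 1821 (.cons 346 (.leaf 322 2006 (.cons 347 (.leaf 370 2198 (.cons 348 (.leaf 324 2012 (.leaf 372 2204 .nil)) .nil)) .nil)) .nil)) (.cons 250 (.leaf 226 1815 (.cons 252 (.leaf 228 1821 (.leaf 249 1986 .nil)) .nil)) (.cons 346 (.leaf 322 2006 (.cons 226 (.leaf 250 1815 (.cons 347 (.leaf 370 2198 (.cons 348 (.leaf 324 2012 (.leaf 372 2204 .nil)) .nil)) .nil)) .nil)) .nil)))) (.cons 227 (.cons 202 (.leaf 226 1623 (.cons 203 (.leaf 178 1431 (.cons 204 (.leaf 180 1437 (.leaf 228 1629 .nil)) .nil)) .nil)) (.cons 226 (.leaf 202 1623 (.cons 250 (.leaf 323 1815 (.cons 249 (.leaf 252 1986 (.cons 297 (.leaf 321 1805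 (.cons 300 (.leaf 324 1820 (.leaf 298 2179 .nil)) .nil)) .nil)) .nil)) .nil)) (.cons 228 (.leaf 204 1629 (.cons 323 (.leaf 252 1821 (.cons 324 (.leaf 300 1820 (.leaf 348 2012 .nil)) .nil)) .nil)) .nil))) (.cons 227 (.cons 202 (.leaf 226 1623 (.cons 178 (.leaf 203 1431 (.cons 298 (.leaf 322 1814 (.cons 297 (.leaf 300 2179 (.cons 271 (.leaf 270 2160 (.leaf 296 2171 .nil)) .nil)) .nil)) .nil)) .nil)) (.cons 204 (.leaf 228 1629 (.cons 180 (.leaf 203 1437 (.cons 298 (.leaf 322 1814 (.cons 297 (.leaf 300 2179 (.cons 271 (.leaf 270 2160 (.leaf 296 2171 .nil)) .nil)) .nil)) .nil)) .nil)) (.cons 228 (.leaf 204 1629 (.cons 226 (.leaf 202 1623 (.cons 323 (.leaf 250 1815 (.leaf 252 1821 .nil)) .nil)) .nil)) .nil))) (.cons 323 (.cons 226 (.leaf 250 1815 (.cons 346 (.leaf 322 2006 (.cons 347 (.leaf 370 2198 (.cons 348 (.leaf 324 2012 (.leaf 372 2204 .nil)) .nil)) .nil)) .nil)) (.cons 226 (.leaf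 250 1815 (.cons 227 (.leaf 202 1623 (.cons 324 (.leaf 300 1820 (.leaf 348 2012 .nil)) .nil)) .nil)) (.cons 226 (.leaf 250 1815 (.cons 227 (.leaf 202 1623 (.cons 322 (.leaf 298 1814 (.leaf 346 2006 .nil)) .nil)) .nil)) (.cons 322 (.leaf 346 2006 (.cons 324 (.leaf 348 2012 (.cons 227 (.leaf 298 1814 (.leaf 300 1820 .nil)) .nil)) .nil)) .nil)))) (.cons 323 (.cons 228 (.leaf 252 1821 (.cons 227 (.leaf 204 1629 (.cons 324 (.leaf 300 1820 (.leaf 348 2012 .nil)) .nil)) .nil)) (.cons 228 (.leaf 252 1821 (.cons 227 (.leaf 204 1629 (.cons 322 (.leaf 298 1814 (.leaf 346 2006 .nil)) .nil)) .nil)) (.cons 322 (.leaf 346 2006 (.cons 324 (.leaf 348 2012 (.cons 227 (.leaf 298 1814 (.leaf 300 1820 .nil)) .nil)) .nil)) (.cons 228 (.leaf 252 1821 (.cons 346 (.leaf 322 2006 (.cons 347 (.leaf 370 2198 (.cons 348 (.leaf 324 2012 (.leaf 372 2204 .nil)) .nil)) .nil)) .nil)) .nil)))) .nil)))))))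
noncomputable def t132 : T := .cons 321 (.leaf 226 1805 (.cons 320 (.leaf 344 1990 (.cons 296 (.leaf 225 1798 (.cons 322 (.leaf 346 1996 (.cons 295 (.leaf 294 2352 (.leaf 323 2363 .nil)) .nil)) .nil)) .nil)) .nil)) (.cons 225 (.cons 296 (.leaf 201 1606 (.leaf 320 1798 .nil)) (.cons 224 (.leaf 200 1607 (.cons 223 (.leaf 226 1784 (.leaf 222 1776 .nil)) .nil)) .nil)) (.cons 298 (.cons 225 (.leaf 322 1804 (.cons 296 (.leaf 201 1606 (.leaf 299 2171 .nil)) .nil)) (.cons 225 (.leaf 322 1804 (.cons 296 (.leaf 201 1606 (.leaf 320 1798 .nil)) .nil)) (.cons 299 (.leaf 300 2179 (.cons 322 (.leaf 227 1814 (.leaf 225 1804 .nil)) .nil)) (.cons 299 (.leaf 296 2171 (.leaf 300 2179 .nil)) .nil)))) (.cons 321 (.leaf 226 1805 (.cons 320 (.leaf 344 1990 (.cons 322 (.leaf 346 1996 (.cons 298 (.leaf 225 1804 (.cons 299 (.leaf 227 1814 (.leaf 300 2370 .nil)) .nil)) .nil)) .nil)) .nil)) (.cons 321 (.leaf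 226 1805 (.cons 320 (.leaf 344 1990 (.cons 346 (.leaf 322 1996 (.cons 345 (.leaf 370 2188 (.cons 296 (.leaf 369 2183 (.cons 299 (.leaf 298 2171 (.cons 348 (.leaf 347 2563 (.cons 324 (.leaf 323 2012 (.cons 300 (.leaf 227 1820 (.leaf 372 2207 .nil)) .nil)) .nil)) .nil)) .nil)) .nil)) .nil)) .nil)) .nil)) (.cons 321 (.leaf 226 1805 (.cons 322 (.leaf 346 1996 (.cons 298 (.leaf 225 1804 (.cons 299 (.leaf 227 1814 (.leaf 296 2171 .nil)) .nil)) .nil)) .nil)) .nil)))))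
noncomputable def t133 : T := .cons 320 (.leaf 344 1989 (.cons 225 (.leaf 201 1606 (.leaf 248 1797 .nil)) .nil)) (.cons 225 (.leaf 201 1606 (.cons 297 (.cons 298 (.leaf 322 1804 (.cons 271 (.leaf 270 2160 (.leaf 299 2171 .nil)) .nil)) (.cons 224 (.leaf 200 1607 (.cons 248 (.leaf 321 1796 (.cons 223 (.leaf 199 1599 (.cons 222 (.leaf 221 1768 (.cons 198 (.leaf 197 1579 (.cons 295 (.leaf 319 1790 (.cons 246 (.leaf 245 1770 (.cons 270 (.leaf 271 1588 (.cons 269 (.leaf 294 2155 (.leaf 293 1582 .nil)) .nil)) .nil)) .nil)) .nil)) .nil)) .nil)) .nil)) .nil)) (.cons 200 (.leaf 224 1607 (.cons 322 (.leaf 298 1804 (.cons 321 (.leaf 346 1996 (.cons 345 (.leaf 248 1991 (.leaf 369 2183 .nil)) .nil)) .nil)) .nil)) .nil))) .nil)) (.cons 320 (.leaf 344 1989 (.cons 248 (.cons 319 (.leaf 343 1982 (.cons 321 (.leaf 345 1988 (.cons 322 (.cons 346 (.leaf 297 1996 (.leaf 347 2552 .nil)) (.cons 295 (.leaf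 224 1790 (.leaf 323 2363 .nil)) .nil)) .nil)) .nil)) (.cons 319 (.leaf 343 1982 (.cons 224 (.leaf 295 1790 (.cons 200 (.leaf 297 1604 (.leaf 176 1412 .nil)) .nil)) .nil)) (.cons 321 (.leaf 345 1988 (.cons 224 (.leaf 297 1796 (.cons 199 (.leaf 223 1599 (.cons 200 (.leaf 175 1407 (.leaf 176 1412 .nil)) .nil)) .nil)) .nil)) (.cons 321 (.leaf 345 1988 (.cons 319 (.leaf 343 1982 (.cons 322 (.cons 346 (.leaf 297 1996 (.leaf 347 2552 .nil)) (.cons 295 (.leaf 323 2363 (.leaf 294 2355 .nil)) .nil)) .nil)) .nil)) (.cons 319 (.leaf 343 1982 (.cons 224 (.leaf 295 1790 (.cons 199 (.leaf 223 1599 (.cons 200 (.leaf 175 1407 (.leaf 176 1412 .nil)) .nil)) .nil)) .nil)) .nil))))) .nil)) (.cons 320 (.leaf 344 1989 (.cons 225 (.leaf 201 1606 (.leaf 297 1798 .nil)) .nil)) .nil)))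
noncomputable def t134 : T := .cons 296 (.cons 225 (.leaf 201 1606 (.cons 320 (.leaf 248 1797 (.leaf 344 1989 .nil)) .nil)) (.cons 225 (.leaf 201 1606 (.cons 297 (.cons 298 (.leaf 322 1804 (.cons 271 (.leaf 270 2160 (.leaf 299 2171 .nil)) .nil)) (.cons 224 (.leaf 200 1607 (.cons 248 (.leaf 321 1796 (.cons 223 (.leaf 199 1599 (.leaf 250 1787 .nil)) .nil)) .nil)) .nil)) .nil)) (.cons 320 (.leaf 344 1989 (.cons 250 (.leaf 252 1986 (.cons 271 (.leaf 248 1978 (.leaf 270 1969 .nil)) .nil)) .nil)) (.cons 320 (.leaf 344 1989 (.cons 225 (.leaf 201 1606 (.leaf 297 1798 .nil)) .nil)) .nil)))) (.cons 296 t133 (.cons 250 (.leaf 252 1986 (.cons 271 (.leaf 270 1969 (.cons 297 t132 .nil)) .nil)) (.cons 250 (.leaf 252 1986 (.cons 271 (.leaf 248 1978 (.leaf 270 1969 .nil)) .nil)) (.cons 250 (.leaf 252 1986 (.cons 248 (.cons 227 (.leaf 228 1793 (.cons 299 (.cons 298 (.leaf 322 1814 (.cons 300 (.leaf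 324 1820 (.leaf 297 2179 .nil)) .nil)) (.cons 323 (.leaf 226 1815 (.cons 324 (.leaf 300 1820 (.leaf 348 2012 .nil)) .nil)) (.cons 224 (.leaf 223 1787 (.cons 200 (.leaf 297 1604 (.leaf 176 1412 .nil)) .nil)) .nil))) .nil)) (.cons 227 (.leaf 228 1793 (.cons 299 (.cons 298 (.leaf 322 1814 (.cons 300 (.leaf 324 1820 (.leaf 297 2179 .nil)) .nil)) (.cons 323 (.leaf 226 1815 (.cons 324 (.leaf 300 1820 (.leaf 348 2012 .nil)) .nil)) (.cons 323 (.leaf 226 1815 (.cons 322 (.leaf 298 1814 (.leaf 346 2006 .nil)) .nil)) .nil))) .nil)) (.cons 224 (.leaf 223 1787 (.cons 200 (.leaf 176 1412 (.cons 175 (.leaf 199 1407 (.cons 201 (.leaf 177 1413 (.cons 296 (.leaf 225 1605 (.cons 320 (.leaf 344 1989 (.cons 319 (.leaf 295 1790 (.leaf 343 1982 .nil)) .nil)) .nil)) .nil)) .nil)) .nil)) .nil)) .nil))) .nil)) .nil))))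
noncomputable def t135 : T := .cons 201 (.leaf 296 1606 (.cons 177 (.leaf 248 1414 (.cons 178 (.leaf 202 1421 (.leaf 154 1229 .nil)) .nil)) .nil)) (.cons 297 (.cons 224 (.leaf 200 1607 (.cons 298 (.leaf 322 1804 (.cons 296 (.leaf 320 1798 (.cons 299 (.leaf 300 2179 (.cons 323 (.leaf 228 1821 (.leaf 324 2368 .nil)) .nil)) .nil)) .nil)) .nil)) (.cons 200 (.leaf 224 1607 (.cons 298 (.leaf 322 1804 (.cons 299 (.leaf 300 2179 (.cons 228 (.leaf 323 1821 (.cons 204 (.leaf 180 1438 (.leaf 227 1629 .nil)) .nil)) .nil)) .nil)) .nil)) (.cons 296 (.leaf 320 1798 (.cons 298 (.leaf 322 1804 (.cons 299 (.leaf 300 2179 (.cons 323 (.leaf 228 1821 (.leaf 324 2368 .nil)) .nil)) .nil)) .nil)) (.cons 224 (.leaf 200 1607 (.cons 320 (.leaf 296 1798 (.cons 321 (.leaf 248 1799 (.leaf 344 1990 .nil)) .nil)) .nil)) .nil)))) (.cons 201 (.cons 177 (.leaf 248 1414 (.cons 178 (.leaf 202 1421 (.leaf 154 1229 .nil))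 .nil)) (.cons 178 (.leaf 202 1421 (.cons 200 (.leaf 176 1415 (.cons 297 (.leaf 224 1607 (.cons 298 (.leaf 322 1804 (.cons 299 (.leaf 300 2179 (.cons 228 (.leaf 323 1821 (.cons 204 (.leaf 180 1438 (.leaf 227 1629 .nil)) .nil)) .nil)) .nil)) .nil)) .nil)) .nil)) (.cons 176 (.leaf 200 1415 (.cons 177 (.leaf 248 1414 (.leaf 152 1223 .nil)) .nil)) .nil))) (.cons 201 (.leaf 296 1606 (.cons 178 (.leaf 202 1421 (.cons 200 (.leaf 176 1415 (.cons 297 (.leaf 224 1607 (.cons 298 (.leaf 322 1804 (.cons 299 (.leaf 300 2179 (.cons 228 (.leaf 323 1821 (.cons 204 (.leaf 180 1438 (.leaf 227 1629 .nil)) .nil)) .nil)) .nil)) .nil)) .nil)) .nil)) .nil)) .nil)))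
noncomputable def t136 : T := .cons 300 (.leaf 324 1820 (.cons 298 (.leaf 322 1814 (.leaf 297 2179 .nil)) .nil)) (.cons 300 (.leaf 324 1820 (.cons 203 (.cons 204 (.leaf 180 1437 (.leaf 228 1629 .nil)) (.cons 178 (.leaf 202 1431 (.cons 179 (.leaf 154 1239 (.cons 155 (.leaf 228 1244 (.cons 156 (.leaf 180 1245 (.leaf 132 1053 .nil)) .nil)) .nil)) .nil)) (.cons 178 (.leaf 202 1431 (.cons 179 (.leaf 154 1239 (.cons 180 (.leaf 204 1437 (.leaf 156 1245 .nil)) .nil)) .nil)) (.cons 178 (.leaf 202 1431 (.cons 179 (.leaf 154 1239 (.cons 228 (.leaf 204 1629 (.leaf 155 1244 .nil)) .nil)) .nil)) .nil)))) .nil)) (.cons 298 (.leaf 322 1814 (.cons 203 (.cons 204 (.leaf 180 1437 (.leaf 228 1629 .nil)) (.cons 178 (.leaf 202 1431 (.cons 179 (.leaf 154 1239 (.cons 155 (.leaf 228 1244 (.cons 156 (.leaf 180 1245 (.leaf 132 1053 .nil)) .nil)) .nil)) .nil)) (.cons 178 (.leaf 202 1431 (.cons 179 (.leaf 154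 1239 (.cons 180 (.leaf 204 1437 (.leaf 156 1245 .nil)) .nil)) .nil)) (.cons 178 (.leaf 202 1431 (.cons 179 (.leaf 154 1239 (.cons 228 (.leaf 204 1629 (.leaf 155 1244 .nil)) .nil)) .nil)) .nil)))) .nil)) .nil))
noncomputable def t137 : T := .cons 297 (.cons 200 (.leaf 224 1607 (.cons 322 (.leaf 298 1804 (.cons 321 (.leaf 346 1996 (.cons 344 (.leaf 320 1990 (.cons 345 (.leaf 248 1991 (.leaf 368 2182 .nil)) .nil)) .nil)) .nil)) .nil)) (.cons 200 (.leaf 224 1607 (.cons 298 (.leaf 322 1804 (.cons 271 (.leaf 270 2160 (.cons 299 (.leaf 296 2171 (.leaf 300 2179 .nil)) .nil)) .nil)) .nil)) (.cons 296 (.leaf 201 1606 (.leaf 320 1798 .nil)) .nil))) (.cons 297 (.cons 200 (.leaf 224 1607 (.cons 322 (.leaf 298 1804 (.cons 321 (.leaf 346 1996 (.cons 344 (.leaf 320 1990 (.cons 345 (.leaf 248 1991 (.leaf 368 2182 .nil)) .nil)) .nil)) .nil)) .nil)) (.cons 200 (.leaf 224 1607 (.cons 298 (.leaf 322 1804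 (.cons 271 (.leaf 270 2160 (.cons 299 (.leaf 296 2171 (.leaf 300 2179 .nil)) .nil)) .nil)) .nil)) (.cons 320 (.leaf 296 1798 (.cons 224 (.leaf 200 1607 (.cons 321 (.leaf 248 1799 (.leaf 344 1990 .nil)) .nil)) .nil)) (.cons 296 (.leaf 320 1798 (.cons 298 (.leaf 322 1804 (.cons 271 (.leaf 270 2160 (.leaf 299 2171 .nil)) .nil)) .nil)) .nil)))) (.cons 201 (.cons 177 (.leaf 248 1414 (.cons 178 (.leaf 202 1421 (.leaf 154 1229 .nil)) .nil)) (.cons 202 (.leaf 178 1421 (.cons 200 (.leaf 176 1415 (.cons 224 (.leaf 297 1607 (.cons 203 (.leaf 204 1602 (.leaf 223 1594 .nil)) .nil)) .nil)) .nil)) (.cons 176 (.leaf 200 1415 (.cons 177 (.leaf 248 1414 (.leaf 152 1223 .nil)) .nil)) .nil))) (.cons 201 (.leaf 296 1606 (.cons 177 (.leaf 248 1414 (.cons 178 (.leaf 202 1421 (.leaf 154 1229 .nil)) .nil)) .nil)) (.cons 201 (.leaf 296 1606 (.cons 202 (.leaf 178 1421 (.cons 200 (.leaf 176 1415 (.cons 224 (.leaf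 297 1607 (.cons 203 (.leaf 204 1602 (.leaf 223 1594 .nil)) .nil)) .nil)) .nil)) .nil)) .nil))))
noncomputable def t138 : T := .cons 297 (.cons 224 (.leaf 200 1607 (.cons 298 (.leaf 322 1804 (.cons 296 (.leaf 201 1606 (.leaf 320 1798 .nil)) .nil)) .nil)) (.cons 200 (.leaf 224 1607 (.cons 322 (.leaf 298 1804 (.cons 321 (.leaf 346 1996 (.cons 344 (.leaf 320 1990 (.cons 345 (.leaf 248 1991 (.leaf 368 2182 .nil)) .nil)) .nil)) .nil)) .nil)) (.cons 200 (.leaf 224 1607 (.cons 298 (.leaf 322 1804 (.cons 270 (.leaf 271 2160 (.cons 201 (.leaf 296 1606 (.leaf 176 1415 .nil)) .nil)) .nil)) .nil)) (.cons 296 (.leaf 201 1606 (.leaf 320 1798 .nil)) .nil)))) (.cons 297 (.cons 224 (.leaf 200 1607 (.cons 298 (.leaf 322 1804 (.cons 296 (.leaf 320 1798 (.cons 299 (.leaf 271 2171 (.leaf 300 2179 .nil)) .nil)) .nil)) .nil)) (.cons 200 (.leaf 224 1607 (.cons 322 (.leaf 298 1804 (.cons 321 (.leaf 346 1996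 (.cons 344 (.leaf 320 1990 (.cons 345 (.leaf 248 1991 (.leaf 368 2182 .nil)) .nil)) .nil)) .nil)) .nil)) (.cons 200 (.leaf 224 1607 (.cons 298 (.leaf 322 1804 (.cons 270 (.leaf 271 2160 (.cons 299 (.leaf 300 2179 (.cons 323 (.leaf 228 1821 (.cons 324 (.leaf 348 2012 (.leaf 296 2368 .nil)) .nil)) .nil)) .nil)) .nil)) .nil)) (.cons 224 (.leaf 200 1607 (.cons 320 (.leaf 296 1798 (.cons 321 (.leaf 248 1799 (.leaf 344 1990 .nil)) .nil)) .nil)) (.cons 296 (.leaf 320 1798 (.cons 298 (.leaf 322 1804 (.cons 299 (.leaf 271 2171 (.leaf 300 2179 .nil)) .nil)) .nil)) .nil))))) (.cons 201 (.cons 177 (.leaf 248 1414 (.cons 178 (.leaf 202 1421 (.leaf 154 1229 .nil)) .nil)) (.cons 178 (.leaf 202 1421 (.cons 200 (.leaf 176 1415 (.cons 297 (.leaf 224 1607 (.cons 298 (.leaf 322 1804 (.cons 299 (.leaf 300 2179 (.cons 228 (.leaf 323 1821 (.cons 204 (.leaf 180 1438 (.leaf 227 1629 .nil)) .nil)) .nil)) .nil))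 .nil)) .nil)) .nil)) (.cons 176 (.leaf 200 1415 (.cons 177 (.leaf 248 1414 (.leaf 152 1223 .nil)) .nil)) .nil))) (.cons 201 (.leaf 296 1606 (.cons 177 (.leaf 248 1414 (.cons 178 (.leaf 202 1421 (.leaf 154 1229 .nil)) .nil)) .nil)) (.cons 201 (.leaf 296 1606 (.cons 178 (.leaf 202 1421 (.cons 200 (.leaf 176 1415 (.cons 297 (.leaf 224 1607 (.cons 298 (.leaf 322 1804 (.cons 299 (.leaf 300 2179 (.cons 228 (.leaf 323 1821 (.cons 204 (.leaf 180 1438 (.leaf 227 1629 .nil)) .nil)) .nil)) .nil)) .nil)) .nil)) .nil)) .nil)) .nil))))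
noncomputable def t139 : T := .cons 227 (.cons 228 (.leaf 204 1629 (.cons 323 (.leaf 252 1821 (.cons 324 (.leaf 300 1820 (.leaf 348 2012 .nil)) .nil)) .nil)) (.cons 226 (.leaf 202 1623 (.cons 250 (.leaf 323 1815 (.cons 298 (.leaf 322 1814 (.cons 300 (.leaf 324 1820 (.leaf 297 2179 .nil)) .nil)) .nil)) .nil)) (.cons 202 (.leaf 226 1623 (.cons 203 (.leaf 178 1431 (.cons 204 (.leaf 180 1437 (.leaf 228 1629 .nil)) .nil)) .nil)) .nil))) (.cons 227 (.cons 204 (.leaf 228 1629 (.cons 202 (.leaf 226 1623 (.cons 298 (.leaf 322 1814 (.cons 203 (.leaf 178 1431 (.leaf 180 1437 .nil)) .nil)) .nil)) .nil)) (.cons 204 (.leaf 228 1629 (.cons 180 (.leaf 203 1437 (.cons 298 (.leaf 322 1814 (.cons 300 (.leaf 324 1820 (.leaf 297 2179 .nil)) .nil)) .nil)) .nil)) (.cons 202 (.leaf 226 1623 (.cons 203 (.leaf 178 1431 (.cons 204 (.leaf 180 1437 (.leaf 228 1629 .nil)) .nil)) .nil)) (.cons 202 (.leaf 226 1623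 (.cons 178 (.leaf 203 1431 (.cons 298 (.leaf 322 1814 (.cons 300 (.leaf 324 1820 (.leaf 297 2179 .nil)) .nil)) .nil)) .nil)) (.cons 202 (.leaf 226 1623 (.cons 204 (.leaf 228 1629 (.cons 298 (.leaf 322 1814 (.cons 300 (.leaf 324 1820 (.leaf 297 2179 .nil)) .nil)) .nil)) .nil)) .nil))))) (.cons 323 (.cons 250 (.leaf 226 1815 (.cons 346 (.leaf 322 2006 (.cons 228 (.leaf 252 1821 (.cons 347 (.leaf 370 2198 (.cons 348 (.leaf 324 2012 (.leaf 372 2204 .nil)) .nil)) .nil)) .nil)) .nil)) (.cons 250 (.leaf 226 1815 (.cons 252 (.leaf 228 1821 (.leaf 249 1986 .nil)) .nil)) (.cons 228 (.leaf 252 1821 (.cons 346 (.leaf 322 2006 (.cons 347 (.leaf 370 2198 (.cons 348 (.leaf 324 2012 (.leaf 372 2204 .nil)) .nil)) .nil)) .nil)) (.cons 226 (.leaf 250 1815 (.cons 346 (.leaf 322 2006 (.cons 347 (.leaf 370 2198 (.cons 348 (.leaf 324 2012 (.leaf 372 2204 .nil)) .nil)) .nil)) .nil)) .nil)))) (.cons 227 (.cons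 202 (.leaf 226 1623 (.cons 203 (.leaf 178 1431 (.cons 204 (.leaf 180 1437 (.leaf 228 1629 .nil)) .nil)) .nil)) (.cons 228 (.leaf 204 1629 (.cons 323 (.leaf 252 1821 (.cons 324 (.leaf 300 1820 (.leaf 348 2012 .nil)) .nil)) .nil)) (.cons 226 (.leaf 202 1623 (.cons 250 (.leaf 323 1815 (.cons 249 (.leaf 252 1986 (.cons 297 (.leaf 321 1805 (.cons 300 (.leaf 324 1820 (.leaf 298 2179 .nil)) .nil)) .nil)) .nil)) .nil)) .nil))) (.cons 323 (.cons 228 (.leaf 252 1821 (.cons 227 (.leaf 204 1629 (.cons 324 (.leaf 300 1820 (.leaf 348 2012 .nil)) .nil)) .nil)) (.cons 228 (.leaf 252 1821 (.cons 227 (.leaf 204 1629 (.cons 322 (.leaf 298 1814 (.leaf 346 2006 .nil)) .nil)) .nil)) (.cons 322 (.leaf 346 2006 (.cons 324 (.leaf 348 2012 (.cons 227 (.leaf 298 1814 (.leaf 300 1820 .nil)) .nil)) .nil)) (.cons 346 (.leaf 322 2006 (.cons 228 (.leaf 252 1821 (.cons 347 (.leaf 370 2198 (.cons 348 (.leaf 324 2012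 (.leaf 372 2204 .nil)) .nil)) .nil)) .nil)) .nil)))) (.cons 227 (.cons 202 (.leaf 226 1623 (.cons 178 (.leaf 203 1431 (.cons 298 (.leaf 322 1814 (.cons 297 (.leaf 300 2179 (.cons 271 (.leaf 270 2160 (.leaf 296 2171 .nil)) .nil)) .nil)) .nil)) .nil)) (.cons 228 (.leaf 204 1629 (.cons 252 (.leaf 323 1821 (.cons 249 (.leaf 250 1986 (.cons 298 (.leaf 322 1814 (.cons 297 (.leaf 300 2179 (.cons 271 (.leaf 270 2160 (.leaf 296 2171 .nil)) .nil)) .nil)) .nil)) .nil)) .nil)) (.cons 226 (.leaf 202 1623 (.cons 204 (.leaf 228 1629 (.cons 180 (.leaf 203 1437 (.cons 250 (.leaf 323 1815 (.cons 252 (.leaf 249 1986 (.cons 225 (.leaf 224 1792 (.leaf 253 1803 .nil)) .nil)) .nil)) .nil)) .nil)) .nil)) .nil))) (.cons 323 (.cons 226 (.leaf 250 1815 (.cons 346 (.leaf 322 2006 (.cons 347 (.leaf 370 2198 (.cons 348 (.leaf 324 2012 (.leaf 372 2204 .nil)) .nil)) .nil)) .nil)) (.cons 226 (.leaf 250 1815 (.cons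 227 (.leaf 202 1623 (.cons 324 (.leaf 300 1820 (.leaf 348 2012 .nil)) .nil)) .nil)) (.cons 226 (.leaf 250 1815 (.cons 227 (.leaf 202 1623 (.cons 322 (.leaf 298 1814 (.leaf 346 2006 .nil)) .nil)) .nil)) (.cons 322 (.leaf 346 2006 (.cons 324 (.leaf 348 2012 (.cons 227 (.leaf 298 1814 (.leaf 300 1820 .nil)) .nil)) .nil)) .nil)))) .nil))))))
noncomputable def t140 : T := .leaf 252 1986 (.cons 225 (.cons 297 (.cons 202 (.leaf 226 1613 (.cons 224 (.leaf 200 1607 (.cons 223 (.leaf 248 1787 (.leaf 222 1776 .nil)) .nil)) .nil)) (.cons 200 (.leaf 224 1607 (.cons 320 (.leaf 296 1798 (.cons 321 (.leaf 344 1990 (.cons 322 (.leaf 298 1804 (.leaf 346 1996 .nil)) .nil)) .nil)) .nil)) (.cons 226 (.leaf 202 1613 (.leaf 321 1805 .nil)) .nil))) (.cons 202 (.cons 201 (.leaf 178 1421 (.cons 176 (.leaf 200 1415 (.cons 177 (.leaf 248 1414 (.leaf 152 1223 .nil)) .nil)) .nil)) (.cons 297 (.leaf 226 1613 (.cons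 224 (.leaf 200 1607 (.cons 223 (.leaf 248 1787 (.leaf 222 1776 .nil)) .nil)) .nil)) (.cons 226 (.leaf 178 1428 (.leaf 297 1613 .nil)) .nil))) (.cons 201 (.leaf 296 1606 (.cons 176 (.leaf 200 1415 (.cons 177 (.leaf 248 1414 (.leaf 152 1223 .nil)) .nil)) .nil)) (.cons 201 (.leaf 296 1606 (.cons 176 (.leaf 200 1415 (.cons 177 (.leaf 152 1223 (.cons 178 (.leaf 202 1421 (.leaf 154 1229 .nil)) .nil)) .nil)) .nil)) (.cons 296 (.leaf 201 1606 (.cons 320 (.leaf 248 1797 (.leaf 344 1989 .nil)) .nil)) .nil))))) .nil)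
noncomputable def t141 : T := .cons 227 (.leaf 228 1793 (.cons 202 (.cons 203 (.leaf 178 1431 (.cons 180 (.leaf 204 1437 (.cons 156 (.leaf 179 1245 (.cons 223 (.leaf 224 1787 (.cons 299 (.leaf 226 1623 (.cons 322 (.leaf 298 1814 (.cons 323 (.leaf 346 2006 (.cons 324 (.leaf 300 1820 (.leaf 348 2012 .nil)) .nil)) .nil)) .nil)) .nil)) .nil)) .nil)) .nil)) (.cons 299 (.leaf 226 1623 (.cons 224 (.leaf 223 1787 (.cons 200 (.leaf 176 1412 (.cons 201 (.leaf 177 1413 (.cons 225 (.leaf 296 1605 (.cons 175 (.leaf 199 1407 (.cons 322 (.leaf 298 1814 (.cons 323 (.leaf 346 2006 (.cons 324 (.leaf 300 1820 (.leaf 348 2012 .nil)) .nil)) .nil)) .nil)) .nil)) .nil)) .nil)) .nil)) .nil)) (.cons 203 (.leaf 178 1431 (.cons 180 (.leaf 204 1437 (.cons 179 (.leaf 156 1245 (.cons 181 (.leaf 182 1426 (.cons 201 (.leaf 200 1409 (.cons 225 (.leaf 177 1414 (.leaf 296 1606 .nil)) .nil)) .nil)) .nil)) .nil)) .nil))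 .nil))) .nil)) (.cons 227 (.leaf 228 1793 (.cons 202 (.cons 203 (.leaf 178 1431 (.cons 180 (.leaf 204 1437 (.cons 179 (.leaf 156 1245 (.cons 181 (.leaf 182 1426 (.cons 201 (.leaf 200 1409 (.cons 225 (.leaf 177 1414 (.leaf 296 1606 .nil)) .nil)) .nil)) .nil)) .nil)) .nil)) (.cons 299 (.leaf 226 1623 (.cons 300 (.leaf 324 1820 (.cons 322 (.leaf 298 1814 (.cons 323 (.leaf 346 2006 (.cons 320 (.leaf 321 2369 (.cons 296 (.leaf 225 1797 (.leaf 344 1989 .nil)) .nil)) .nil)) .nil)) .nil)) .nil)) (.cons 178 (.leaf 203 1431 (.leaf 226 1428 .nil)) .nil))) .nil)) (.cons 224 (.leaf 223 1787 (.cons 200 (.leaf 176 1412 (.cons 175 (.leaf 199 1407 (.cons 201 (.leaf 177 1413 (.cons 296 (.leaf 225 1605 (.cons 320 (.leaf 344 1989 (.cons 319 (.leaf 295 1790 (.leaf 343 1982 .nil)) .nil)) .nil)) .nil)) .nil)) .nil)) .nil)) (.cons 224 (.leaf 223 1787 (.cons 200 (.leaf 176 1412 (.cons 199 (.leaf 175 1407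 (.cons 201 (.leaf 177 1413 (.cons 227 (.leaf 228 1793 (.cons 202 (.leaf 226 1592 (.cons 178 (.leaf 203 1431 (.leaf 179 1401 .nil)) .nil)) .nil)) .nil)) .nil)) .nil)) .nil)) (.cons 224 (.leaf 223 1787 (.cons 200 (.leaf 176 1412 (.cons 199 (.leaf 175 1407 (.cons 227 (.leaf 228 1793 (.cons 226 (.leaf 225 1595 (.cons 202 (.leaf 178 1428 (.leaf 299 1623 .nil)) .nil)) .nil)) .nil)) .nil)) .nil)) (.cons 227 (.leaf 228 1793 (.cons 224 (.leaf 223 1787 (.cons 203 (.cons 178 (.leaf 202 1431 (.cons 179 (.leaf 154 1239 (.cons 180 (.leaf 204 1437 (.leaf 156 1245 .nil)) .nil)) .nil)) (.cons 204 (.leaf 180 1437 (.cons 225 (.leaf 226 1601 (.cons 201 (.leaf 177 1414 (.leaf 296 1605 .nil)) .nil)) .nil)) (.cons 178 (.leaf 202 1431 (.cons 179 (.leaf 154 1239 (.cons 155 (.leaf 226 1238 (.cons 156 (.leaf 180 1245 (.leaf 132 1053 .nil)) .nil)) .nil)) .nil)) (.cons 202 (.leaf 178 1431 (.cons 226 (.leaf 299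 1623 (.cons 155 (.leaf 179 1238 (.cons 225 (.leaf 204 1601 (.cons 201 (.leaf 177 1414 (.leaf 296 1605 .nil)) .nil)) .nil)) .nil)) .nil)) .nil)))) .nil)) .nil)) .nil)))))
noncomputable def t142 : T := .cons 297 (.cons 200 (.leaf 224 1607 (.cons 296 (.leaf 201 1606 (.leaf 320 1798 .nil)) .nil)) (.cons 224 (.leaf 200 1607 (.cons 202 (.leaf 226 1613 (.cons 321 (.leaf 248 1799 (.cons 322 (.leaf 298 1804 (.leaf 346 1996 .nil)) .nil)) .nil)) .nil)) (.cons 296 (.leaf 201 1606 (.leaf 320 1798 .nil)) .nil))) (.cons 297 (.cons 200 (.leaf 224 1607 (.cons 296 (.leaf 320 1798 (.cons 322 (.leaf 298 1804 (.cons 321 (.leaf 346 1996 (.cons 345 (.leaf 248 1991 (.leaf 369 2183 .nil)) .nil)) .nil)) .nil)) .nil)) (.cons 320 (.leaf 296 1798 (.cons 202 (.leaf 226 1613 (.cons 321 (.leaf 344 1990 (.cons 322 (.leaf 298 1804 (.leaf 346 1996 .nil)) .nil)) .nil)) .nil)) (.cons 224 (.leaf 200 1607 (.cons 202 (.leaf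 226 1613 (.cons 321 (.leaf 248 1799 (.cons 322 (.leaf 298 1804 (.leaf 346 1996 .nil)) .nil)) .nil)) .nil)) (.cons 296 (.leaf 320 1798 (.cons 200 (.leaf 224 1607 (.cons 226 (.leaf 202 1613 (.cons 298 (.leaf 322 1804 (.cons 299 (.leaf 300 2179 (.cons 323 (.leaf 250 1815 (.leaf 324 2368 .nil)) .nil)) .nil)) .nil)) .nil)) .nil)) (.cons 320 (.leaf 296 1798 (.cons 224 (.leaf 200 1607 (.cons 321 (.leaf 248 1799 (.leaf 344 1990 .nil)) .nil)) .nil)) .nil))))) (.cons 201 (.cons 177 (.leaf 248 1414 (.cons 178 (.leaf 202 1421 (.leaf 154 1229 .nil)) .nil)) (.cons 176 (.leaf 200 1415 (.cons 177 (.leaf 248 1414 (.leaf 152 1223 .nil)) .nil)) (.cons 202 (.leaf 178 1421 (.cons 200 (.leaf 176 1415 (.cons 224 (.leaf 297 1607 (.cons 203 (.leaf 204 1602 (.leaf 223 1594 .nil)) .nil)) .nil)) .nil)) .nil))) (.cons 296 (.leaf 201 1606 (.cons 320 (.leaf 248 1797 (.leaf 344 1989 .nil)) .nil)) (.cons 201 (.leaf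 296 1606 (.cons 202 (.leaf 178 1421 (.cons 200 (.leaf 176 1415 (.cons 224 (.leaf 297 1607 (.cons 203 (.leaf 204 1602 (.leaf 223 1594 .nil)) .nil)) .nil)) .nil)) .nil)) .nil))))
noncomputable def t143 : T := .cons 201 (.leaf 296 1606 (.cons 177 (.leaf 248 1414 (.cons 178 (.leaf 202 1421 (.leaf 154 1229 .nil)) .nil)) .nil)) (.cons 297 (.cons 200 (.leaf 224 1607 (.cons 202 (.leaf 226 1613 (.cons 320 (.leaf 296 1798 (.cons 321 (.leaf 344 1990 (.cons 345 (.leaf 248 1991 (.cons 346 (.leaf 322 1996 (.leaf 370 2188 .nil)) .nil)) .nil)) .nil)) .nil)) .nil)) (.cons 224 (.leaf 200 1607 (.cons 202 (.leaf 226 1613 (.cons 321 (.leaf 248 1799 (.cons 322 (.leaf 298 1804 (.leaf 346 1996 .nil)) .nil)) .nil)) .nil)) (.cons 320 (.leaf 296 1798 (.cons 202 (.leaf 226 1613 (.cons 321 (.leaf 344 1990 (.cons 322 (.leaf 298 1804 (.leaf 346 1996 .nil)) .nil)) .nil)) .nil)) (.cons 320 (.leaf 296 1798 (.cons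 224 (.leaf 200 1607 (.cons 321 (.leaf 248 1799 (.leaf 344 1990 .nil)) .nil)) .nil)) (.cons 296 (.leaf 320 1798 (.cons 200 (.leaf 224 1607 (.cons 226 (.leaf 202 1613 (.cons 298 (.leaf 322 1804 (.cons 299 (.leaf 300 2179 (.cons 323 (.leaf 324 2368 (.cons 228 (.leaf 252 1821 (.cons 227 (.leaf 204 1629 (.leaf 248 1794 .nil)) .nil)) .nil)) .nil)) .nil)) .nil)) .nil)) .nil)) .nil))))) (.cons 297 (.cons 200 (.leaf 224 1607 (.cons 176 (.leaf 201 1415 (.cons 322 (.leaf 298 1804 (.cons 321 (.leaf 346 1996 (.cons 345 (.leaf 248 1991 (.cons 344 (.leaf 320 1990 (.leaf 368 2182 .nil)) .nil)) .nil)) .nil)) .nil)) .nil)) (.cons 202 (.leaf 226 1613 (.cons 178 (.leaf 201 1421 (.cons 322 (.leaf 298 1804 (.cons 321 (.leaf 346 1996 (.cons 344 (.leaf 320 1990 (.cons 345 (.leaf 248 1991 (.leaf 368 2182 .nil)) .nil)) .nil)) .nil)) .nil)) .nil)) (.cons 200 (.leaf 224 1607 (.cons 201 (.leaf 176 1415 (.cons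 202 (.leaf 178 1421 (.leaf 226 1613 .nil)) .nil)) .nil)) (.cons 224 (.leaf 200 1607 (.cons 202 (.leaf 226 1613 (.cons 321 (.leaf 248 1799 (.cons 322 (.leaf 298 1804 (.leaf 346 1996 .nil)) .nil)) .nil)) .nil)) .nil)))) (.cons 201 (.leaf 296 1606 (.cons 202 (.leaf 178 1421 (.cons 200 (.leaf 176 1415 (.cons 224 (.leaf 297 1607 (.cons 203 (.leaf 204 1602 (.leaf 223 1594 .nil)) .nil)) .nil)) .nil)) .nil)) (.cons 296 (.leaf 201 1606 (.cons 320 (.leaf 248 1797 (.leaf 344 1989 .nil)) .nil)) .nil))))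
noncomputable def t144 : T := .cons 250 (.leaf 252 1986 (.cons 226 (.cons 202 (.leaf 178 1428 (.cons 225 (.leaf 297 1613 (.cons 201 (.leaf 296 1606 (.cons 153 (.leaf 177 1228 (.cons 200 (.leaf 176 1415 (.cons 199 (.leaf 198 1584 (.leaf 227 1592 .nil)) .nil)) .nil)) .nil)) .nil)) .nil)) (.cons 297 (.leaf 321 1805 (.cons 299 (.leaf 323 1815 (.cons 300 (.leaf 298 2179 (.cons 227 (.leaf 324 1820 (.cons 228 (.leaf 204 1629 (.leaf 248 1793 .nil)) .nil)) .nil)) .nil)) .nil)) (.cons 202 (.leaf 178 1428 (.cons 299 (.leaf 227 1623 (.leaf 323 1815 .nil)) .nil)) (.cons 202 (.leaf 178 1428 (.cons 225 (.leaf 297 1613 (.cons 201 (.leaf 296 1606 (.cons 177 (.leaf 248 1414 (.leaf 153 1228 .nil)) .nil)) .nil)) .nil)) .nil)))) .nil)) (.cons 225 t143 (.cons 225 t142 (.cons 250 (.leaf 252 1986 (.cons 248 (.cons 227 (.leaf 228 1793 (.cons 299 (.cons 226 (.leaf 202 1623 (.leaf 323 1815 .nil)) (.cons 224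 (.leaf 223 1787 (.cons 200 (.leaf 297 1604 (.leaf 176 1412 .nil)) .nil)) .nil)) .nil)) (.cons 227 (.leaf 228 1793 (.cons 299 (.cons 226 (.leaf 202 1623 (.leaf 323 1815 .nil)) (.cons 322 (.leaf 298 1814 (.cons 323 (.leaf 346 2006 (.cons 324 (.leaf 300 1820 (.leaf 348 2012 .nil)) .nil)) .nil)) (.cons 226 (.leaf 202 1623 (.cons 297 (.leaf 321 1805 (.cons 298 (.leaf 322 1814 (.leaf 300 2179 .nil)) .nil)) .nil)) .nil))) .nil)) (.cons 224 (.leaf 223 1787 (.cons 200 (.leaf 297 1604 (.leaf 176 1412 .nil)) .nil)) (.cons 224 (.leaf 223 1787 (.cons 200 (.leaf 176 1412 (.cons 199 (.leaf 175 1407 (.cons 201 (.leaf 177 1413 (.cons 227 (.leaf 228 1793 (.cons 202 (.leaf 226 1592 (.cons 178 (.leaf 203 1431 (.leaf 179 1401 .nil)) .nil)) .nil)) .nil)) .nil)) .nil)) .nil)) .nil)))) .nil)) (.cons 250 (.leaf 252 1986 (.cons 248 t141 .nil)) (.cons 250 t140 (.cons 250 (.leaf 252 1986 (.cons 226 (.cons 178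 (.leaf 202 1428 (.cons 297 (.leaf 321 1805 (.cons 299 (.leaf 323 1815 (.cons 298 (.leaf 300 2179 (.cons 225 (.leaf 322 1804 (.cons 224 (.leaf 200 1607 (.leaf 223 1784 .nil)) .nil)) .nil)) .nil)) .nil)) .nil)) (.cons 297 (.leaf 321 1805 (.cons 299 (.leaf 323 1815 (.cons 300 (.leaf 298 2179 (.cons 227 (.leaf 324 1820 (.cons 228 (.leaf 204 1629 (.leaf 229 1802 .nil)) .nil)) .nil)) .nil)) .nil)) (.cons 202 (.leaf 178 1428 (.cons 299 (.leaf 227 1623 (.leaf 323 1815 .nil)) .nil)) (.cons 202 (.leaf 178 1428 (.cons 225 (.leaf 297 1613 (.cons 201 (.leaf 296 1606 (.cons 153 (.leaf 177 1228 (.cons 200 (.leaf 176 1415 (.cons 199 (.leaf 198 1584 (.leaf 227 1592 .nil)) .nil)) .nil)) .nil)) .nil)) .nil)) .nil)))) .nil)) (.cons 250 (.leaf 252 1986 (.cons 226 (.cons 202 (.leaf 178 1428 (.cons 299 (.leaf 227 1623 (.leaf 323 1815 .nil)) .nil)) (.cons 297 (.leaf 321 1805 (.cons 299 (.leaf 323 1815 (.cons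 300 (.leaf 298 2179 (.cons 227 (.leaf 324 1820 (.cons 228 (.leaf 204 1629 (.leaf 248 1793 .nil)) .nil)) .nil)) .nil)) .nil)) (.cons 202 (.leaf 178 1428 (.cons 297 (.leaf 225 1613 (.leaf 321 1805 .nil)) .nil)) .nil))) .nil)) (.cons 252 (.leaf 250 1986 (.cons 225 t135 .nil)) (.cons 250 (.leaf 252 1986 (.cons 248 (.cons 227 (.leaf 228 1793 (.cons 299 (.cons 224 (.leaf 223 1787 (.cons 200 (.leaf 297 1604 (.leaf 176 1412 .nil)) .nil)) (.cons 322 (.leaf 298 1814 (.cons 323 (.leaf 226 1815 (.leaf 346 2006 .nil)) .nil)) .nil)) .nil)) (.cons 227 (.leaf 228 1793 (.cons 299 (.cons 322 (.leaf 298 1814 (.cons 323 (.leaf 226 1815 (.leaf 346 2006 .nil)) .nil)) (.cons 298 (.leaf 322 1814 (.cons 300 (.leaf 324 1820 (.leaf 297 2179 .nil)) .nil)) (.cons 323 (.leaf 226 1815 (.cons 324 (.leaf 300 1820 (.leaf 348 2012 .nil)) .nil)) .nil))) .nil)) (.cons 224 (.leaf 223 1787 (.cons 200 (.leaf 176 1412 (.cons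 175 (.leaf 199 1407 (.cons 201 (.leaf 177 1413 (.cons 296 (.leaf 225 1605 (.cons 320 (.leaf 344 1989 (.cons 319 (.leaf 295 1790 (.leaf 343 1982 .nil)) .nil)) .nil)) .nil)) .nil)) .nil)) .nil)) .nil))) .nil)) (.cons 250 (.leaf 252 1986 (.cons 226 (.cons 202 (.leaf 178 1428 (.cons 225 (.leaf 297 1613 (.cons 201 (.leaf 296 1606 (.cons 153 (.leaf 177 1228 (.cons 200 (.leaf 176 1415 (.cons 199 (.leaf 198 1584 (.leaf 227 1592 .nil)) .nil)) .nil)) .nil)) .nil)) .nil)) (.cons 297 (.leaf 321 1805 (.cons 299 (.leaf 323 1815 (.cons 224 (.cons 248 (.leaf 200 1604 (.leaf 223 1787 .nil)) (.cons 225 (.leaf 200 1607 (.leaf 223 1784 .nil)) (.cons 223 (.leaf 225 1784 (.leaf 248 1787 .nil)) (.cons 200 (.leaf 248 1604 (.leaf 225 1607 .nil)) .nil)))) .nil)) .nil)) (.cons 202 (.leaf 178 1428 (.cons 299 (.leaf 227 1623 (.leaf 323 1815 .nil)) .nil)) .nil))) .nil)) .nil))))))))))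
noncomputable def t145 : T := .cons 227 (.cons 228 (.leaf 204 1629 (.cons 229 (.leaf 230 1810 (.cons 298 (.leaf 322 1814 (.cons 300 (.leaf 324 1820 (.leaf 297 2179 .nil)) .nil)) .nil)) .nil)) (.cons 226 (.leaf 202 1623 (.leaf 323 1815 .nil)) .nil)) (.cons 227 (.cons 202 (.leaf 226 1623 (.cons 178 (.leaf 203 1431 (.cons 298 (.leaf 322 1814 (.cons 300 (.leaf 324 1820 (.leaf 297 2179 .nil)) .nil)) .nil)) .nil)) (.cons 228 (.leaf 204 1629 (.cons 229 (.leaf 230 1810 (.cons 298 (.leaf 322 1814 (.cons 300 (.leaf 324 1820 (.leaf 297 2179 .nil)) .nil)) .nil)) .nil)) (.cons 202 (.leaf 226 1623 (.cons 203 (.leaf 178 1431 (.cons 204 (.leaf 180 1437 (.leaf 228 1629 .nil)) .nil)) .nil)) .nil))) (.cons 227 (.cons 228 (.leaf 204 1629 (.cons 229 (.leaf 230 1810 (.cons 298 (.leaf 322 1814 (.cons 300 (.leaf 324 1820 (.leaf 297 2179 .nil)) .nil)) .nil)) .nil)) (.cons 298 (.leaf 322 1814 (.cons 300 (.leaf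 324 1820 (.leaf 297 2179 .nil)) .nil)) (.cons 228 (.leaf 204 1629 (.cons 229 (.leaf 230 1810 (.cons 323 (.leaf 252 1821 (.cons 324 (.leaf 300 1820 (.leaf 348 2012 .nil)) .nil)) .nil)) .nil)) (.cons 228 (.leaf 204 1629 (.cons 229 (.leaf 230 1810 (.cons 322 (.leaf 298 1814 (.cons 323 (.leaf 252 1821 (.leaf 346 2006 .nil)) .nil)) .nil)) .nil)) .nil)))) (.cons 323 (.leaf 226 1815 (.cons 346 (.leaf 322 2006 (.cons 228 (.leaf 252 1821 (.cons 347 (.leaf 370 2198 (.cons 348 (.leaf 324 2012 (.leaf 372 2204 .nil)) .nil)) .nil)) .nil)) .nil)) (.cons 323 (.leaf 226 1815 (.cons 346 (.leaf 322 2006 (.cons 347 (.leaf 370 2198 (.cons 348 (.leaf 324 2012 (.leaf 372 2204 .nil)) .nil)) .nil)) .nil)) (.cons 226 (.leaf 323 1815 (.cons 202 (.leaf 178 1428 (.leaf 227 1623 .nil)) .nil)) .nil)))))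
noncomputable def t146 : T := .cons 300 (.leaf 324 1820 (.cons 201 (.cons 225 (.leaf 296 1606 (.cons 176 (.leaf 200 1415 (.cons 177 (.leaf 152 1223 (.cons 178 (.leaf 202 1421 (.leaf 154 1229 .nil)) .nil)) .nil)) .nil)) (.cons 225 (.leaf 296 1606 (.cons 176 (.leaf 200 1415 (.cons 177 (.leaf 152 1223 (.cons 153 (.leaf 226 1228 (.cons 154 (.leaf 178 1229 (.leaf 130 1037 .nil)) .nil)) .nil)) .nil)) .nil)) (.cons 226 (.leaf 202 1623 (.leaf 323 1815 .nil)) .nil))) .nil)) (.cons 322 (.leaf 298 1814 (.cons 323 (.leaf 346 2006 (.cons 324 (.leaf 300 1820 (.leaf 348 2012 .nil)) .nil)) .nil)) (.cons 300 (.leaf 324 1820 (.cons 201 (.cons 225 (.leaf 296 1606 (.cons 176 (.leaf 200 1415 (.cons 177 (.leaf 152 1223 (.cons 178 (.leaf 202 1421 (.leaf 154 1229 .nil)) .nil)) .nil)) .nil)) (.cons 225 (.leaf 296 1606 (.cons 176 (.leaf 200 1415 (.cons 177 (.leaf 152 1223 (.cons 153 (.leaf 226 1228 (.cons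 154 (.leaf 178 1229 (.leaf 130 1037 .nil)) .nil)) .nil)) .nil)) .nil)) (.cons 202 (.leaf 226 1623 (.cons 203 (.leaf 178 1431 (.cons 200 (.leaf 228 1600 (.cons 175 (.leaf 176 1403 (.cons 179 (.leaf 180 1409 (.cons 199 (.leaf 174 1395 (.cons 223 (.leaf 222 1586 (.leaf 224 1594 .nil)) .nil)) .nil)) .nil)) .nil)) .nil)) .nil)) (.cons 226 (.leaf 202 1623 (.cons 225 (.leaf 296 1606 (.cons 153 (.leaf 177 1228 (.cons 200 (.leaf 176 1415 (.leaf 228 1603 .nil)) .nil)) .nil)) .nil)) (.cons 202 (.leaf 226 1623 (.cons 178 (.leaf 203 1431 (.leaf 225 1421 .nil)) .nil)) .nil))))) .nil)) (.cons 226 (.leaf 202 1623 (.leaf 323 1815 .nil)) .nil)))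
noncomputable def t147 : T := .cons 225 (.leaf 296 1606 (.cons 176 (.leaf 200 1415 (.cons 177 (.leaf 152 1223 (.cons 178 (.leaf 202 1421 (.leaf 154 1229 .nil)) .nil)) .nil)) .nil)) (.cons 271 (.leaf 270 1969 (.cons 203 (.cons 178 (.leaf 202 1431 (.cons 179 (.leaf 154 1239 (.cons 180 (.leaf 204 1437 (.leaf 156 1245 .nil)) .nil)) .nil)) (.cons 204 (.leaf 180 1437 (.cons 299 (.leaf 228 1629 (.cons 322 (.leaf 298 1814 (.cons 323 (.leaf 346 2006 (.cons 324 (.leaf 300 1820 (.leaf 348 2012 .nil)) .nil)) .nil)) .nil)) .nil)) (.cons 202 (.leaf 178 1431 (.cons 200 (.leaf 228 1600 (.cons 175 (.leaf 176 1403 (.cons 179 (.leaf 180 1409 (.cons 199 (.leaf 174 1395 (.cons 223 (.leaf 222 1586 (.leaf 224 1594 .nil)) .nil)) .nil)) .nil)) .nil)) .nil)) (.cons 202 (.leaf 178 1431 (.cons 200 (.leaf 228 1600 (.cons 175 (.leaf 176 1403 (.cons 199 (.leaf 174 1395 (.cons 223 (.leaf 222 1586 (.leaf 224 1594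 .nil)) .nil)) .nil)) .nil)) .nil)) .nil)))) .nil)) (.cons 225 (.leaf 296 1606 (.cons 176 (.leaf 200 1415 (.cons 177 (.leaf 152 1223 (.cons 271 (.leaf 270 1969 (.cons 204 (.cons 203 (.leaf 180 1437 (.leaf 202 1411 .nil)) (.cons 299 (.leaf 228 1629 (.cons 322 (.leaf 298 1814 (.cons 323 (.leaf 346 2006 (.cons 324 (.leaf 300 1820 (.leaf 348 2012 .nil)) .nil)) .nil)) .nil)) .nil)) .nil)) .nil)) .nil)) .nil)) (.cons 225 (.leaf 296 1606 (.cons 176 (.leaf 200 1415 (.cons 177 (.leaf 152 1223 (.cons 178 (.leaf 154 1229 (.cons 271 (.leaf 270 1969 (.cons 299 (.cons 204 (.leaf 228 1629 (.cons 203 (.leaf 180 1437 (.leaf 179 1408 .nil)) .nil)) (.cons 322 (.leaf 298 1814 (.cons 323 (.leaf 346 2006 (.cons 324 (.leaf 300 1820 (.leaf 348 2012 .nil)) .nil)) .nil)) .nil)) .nil)) .nil)) .nil)) .nil)) .nil)) (.cons 225 (.leaf 296 1606 (.cons 178 (.leaf 202 1421 (.cons 154 (.leaf 177 1229 (.cons 203 (.leaf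 179 1239 (.cons 204 (.leaf 180 1437 (.cons 299 (.leaf 228 1629 (.cons 270 (.leaf 271 1969 (.cons 322 (.leaf 298 1814 (.cons 323 (.leaf 346 2006 (.cons 324 (.leaf 300 1820 (.leaf 348 2012 .nil)) .nil)) .nil)) .nil)) .nil)) .nil)) .nil)) .nil)) .nil)) .nil)) .nil))))
noncomputable def t148 : T := .cons 299 (.cons 226 (.leaf 202 1623 (.leaf 323 1815 .nil)) (.cons 204 (.leaf 228 1629 (.cons 180 (.leaf 203 1437 (.cons 322 (.leaf 298 1814 (.cons 323 (.leaf 346 2006 (.cons 324 (.leaf 300 1820 (.leaf 348 2012 .nil)) .nil)) .nil)) .nil)) .nil)) (.cons 202 (.leaf 226 1623 (.cons 203 (.leaf 178 1431 (.cons 204 (.leaf 180 1437 (.leaf 228 1629 .nil)) .nil)) .nil)) .nil))) (.cons 201 t147 (.cons 271 (.leaf 270 1969 (.cons 203 (.cons 178 (.leaf 202 1431 (.cons 179 (.leaf 154 1239 (.cons 180 (.leaf 204 1437 (.leaf 156 1245 .nil)) .nil)) .nil)) (.cons 204 (.leaf 180 1437 (.cons 225 (.cons 226 (.leaf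 224 1601 (.cons 205 (.leaf 206 1618 (.leaf 228 1609 .nil)) .nil)) (.cons 201 (.leaf 296 1606 (.cons 176 (.leaf 200 1415 (.cons 177 (.leaf 152 1223 (.leaf 202 1411 .nil)) .nil)) .nil)) .nil)) .nil)) (.cons 180 (.leaf 204 1437 (.cons 179 (.leaf 156 1245 (.cons 154 (.leaf 178 1239 (.cons 155 (.leaf 226 1238 (.leaf 130 1047 .nil)) .nil)) .nil)) .nil)) (.cons 178 (.leaf 202 1431 (.cons 179 (.leaf 154 1239 (.cons 226 (.leaf 155 1238 (.cons 228 (.leaf 229 1802 (.cons 225 (.cons 201 (.leaf 296 1606 (.leaf 200 1603 .nil)) (.cons 204 (.leaf 224 1601 (.leaf 205 1609 .nil)) .nil)) .nil)) .nil)) .nil)) .nil)) (.cons 178 (.leaf 202 1431 (.cons 179 (.leaf 154 1239 (.cons 155 (.leaf 226 1238 (.cons 156 (.leaf 180 1245 (.leaf 132 1053 .nil)) .nil)) .nil)) .nil)) .nil))))) .nil)) (.cons 271 (.leaf 270 1969 (.cons 299 (.cons 204 (.leaf 228 1629 (.cons 322 (.leaf 298 1814 (.cons 180 (.leaf 203 1437 (.cons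 323 (.leaf 226 1815 (.leaf 346 2006 .nil)) .nil)) .nil)) .nil)) (.cons 228 (.leaf 204 1629 (.cons 229 (.leaf 230 1810 (.leaf 226 1802 .nil)) .nil)) (.cons 298 (.leaf 322 1814 (.cons 323 (.leaf 226 1815 (.cons 324 (.leaf 300 1820 (.leaf 348 2012 .nil)) .nil)) .nil)) (.cons 204 (.leaf 228 1629 (.cons 322 (.leaf 298 1814 (.cons 180 (.leaf 203 1437 (.cons 323 (.leaf 346 2006 (.cons 324 (.leaf 300 1820 (.leaf 348 2012 .nil)) .nil)) .nil)) .nil)) .nil)) .nil)))) .nil)) (.cons 271 (.leaf 270 1969 (.cons 203 (.cons 178 (.leaf 202 1431 (.cons 179 (.leaf 154 1239 (.cons 180 (.leaf 204 1437 (.leaf 156 1245 .nil)) .nil)) .nil)) (.cons 180 (.leaf 204 1437 (.cons 179 (.leaf 156 1245 (.cons 154 (.leaf 178 1239 (.cons 155 (.leaf 226 1238 (.leaf 130 1047 .nil)) .nil)) .nil)) .nil)) (.cons 180 (.leaf 204 1437 (.cons 179 (.leaf 156 1245 (.cons 226 (.leaf 155 1238 (.cons 299 (.leaf 202 1623 (.leaf 323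 1815 .nil)) .nil)) .nil)) .nil)) (.cons 202 (.leaf 178 1431 (.cons 299 (.leaf 226 1623 (.cons 322 (.leaf 298 1814 (.cons 323 (.leaf 346 2006 (.cons 324 (.leaf 300 1820 (.leaf 348 2012 .nil)) .nil)) .nil)) .nil)) .nil)) .nil)))) .nil)) (.cons 271 (.leaf 270 1969 (.cons 299 (.cons 204 (.leaf 228 1629 (.cons 322 (.leaf 298 1814 (.cons 323 (.leaf 226 1815 (.leaf 346 2006 .nil)) .nil)) .nil)) (.cons 204 (.leaf 228 1629 (.cons 322 (.leaf 298 1814 (.cons 323 (.leaf 346 2006 (.cons 324 (.leaf 300 1820 (.leaf 348 2012 .nil)) .nil)) .nil)) .nil)) (.cons 228 (.leaf 204 1629 (.cons 229 (.leaf 230 1810 (.leaf 226 1802 .nil)) .nil)) (.cons 298 (.leaf 322 1814 (.cons 323 (.leaf 226 1815 (.cons 324 (.leaf 300 1820 (.leaf 348 2012 .nil)) .nil)) .nil)) .nil)))) .nil)) (.cons 271 (.leaf 270 1969 (.cons 299 t146 .nil)) .nil))))))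
noncomputable def t149 : T := .cons 200 (.leaf 176 1412 (.cons 201 (.leaf 177 1413 (.cons 225 (.leaf 296 1605 (.cons 202 (.leaf 178 1421 (.cons 223 (.leaf 250 1787 (.leaf 203 1594 .nil)) .nil)) .nil)) .nil)) .nil)) (.cons 223 (.leaf 250 1787 (.cons 221 (.leaf 222 1768 (.cons 296 (.leaf 199 1599 (.cons 319 (.leaf 295 1790 (.cons 320 (.leaf 225 1797 (.leaf 343 1982 .nil)) .nil)) .nil)) .nil)) .nil)) (.cons 200 (.leaf 176 1412 (.cons 175 (.leaf 199 1407 (.cons 201 (.leaf 177 1413 (.cons 225 (.leaf 296 1605 (.cons 202 (.leaf 178 1421 (.cons 203 (.leaf 204 1602 (.cons 227 (.leaf 228 1600 (.cons 299 (.leaf 226 1623 (.cons 322 (.leaf 298 1814 (.cons 323 (.leaf 346 2006 (.cons 324 (.leaf 300 1820 (.leaf 348 2012 .nil)) .nil)) .nil)) .nil)) .nil)) .nil)) .nil)) .nil)) .nil)) .nil)) .nil)) (.cons 200 (.leaf 176 1412 (.cons 175 (.leaf 199 1407 (.cons 201 (.leaf 177 1413 (.cons 223 (.leaf 250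 1787 (.cons 222 (.leaf 221 1768 (.cons 202 (.leaf 203 1594 (.leaf 225 1585 .nil)) .nil)) .nil)) .nil)) .nil)) .nil)) (.cons 223 (.leaf 250 1787 (.cons 221 (.leaf 222 1768 (.cons 296 (.leaf 199 1599 (.cons 319 (.leaf 295 1790 (.cons 320 (.leaf 343 1982 (.leaf 344 1989 .nil)) .nil)) .nil)) .nil)) .nil)) .nil))))
noncomputable def t150 : T := .cons 271 (.leaf 250 1978 (.cons 270 (.leaf 269 1961 (.cons 294 (.leaf 293 2154 (.cons 246 (.leaf 245 1963 (.cons 222 (.cons 295 (.leaf 198 1588 (.leaf 319 1780 .nil)) (.cons 197 (.leaf 221 1583 (.cons 198 (.leaf 173 1391 (.cons 199 (.leaf 175 1397 (.leaf 223 1589 .nil)) .nil)) .nil)) (.cons 197 (.leaf 221 1583 (.cons 319 (.leaf 295 1780 (.cons 318 (.leaf 343 1972 (.cons 341 (.leaf 317 1966 (.cons 342 (.leaf 365 2158 (.cons 320 (.leaf 321 2538 (.cons 296 (.leaf 225 1797 (.leaf 344 1989 .nil)) .nil)) .nil)) .nil)) .nil)) .nil)) .nil)) .nil))) .nil))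 .nil)) .nil)) .nil)) (.cons 296 (.cons 320 (.leaf 225 1797 (.leaf 344 1989 .nil)) (.cons 320 (.leaf 344 1989 (.cons 319 (.leaf 343 1982 (.cons 224 (.leaf 295 1790 (.cons 199 (.leaf 223 1599 (.cons 200 (.leaf 175 1407 (.leaf 176 1412 .nil)) .nil)) .nil)) .nil)) .nil)) (.cons 225 (.leaf 201 1606 (.cons 224 (.cons 199 (.leaf 223 1599 (.cons 200 (.leaf 175 1407 (.leaf 176 1412 .nil)) .nil)) (.cons 223 (.leaf 199 1599 (.cons 222 (.leaf 221 1768 (.cons 198 (.leaf 197 1579 (.cons 246 (.leaf 245 1770 (.cons 295 (.leaf 319 1790 (.cons 270 (.leaf 271 1588 (.cons 293 (.leaf 294 2153 (.leaf 269 1582 .nil)) .nil)) .nil)) .nil)) .nil)) .nil)) .nil)) (.cons 200 (.leaf 176 1412 (.cons 295 (.leaf 271 1598 (.leaf 319 1790 .nil)) .nil)) .nil))) .nil)) .nil))) (.cons 224 t149 (.cons 250 (.leaf 271 1978 (.cons 224 (.leaf 223 1787 (.cons 200 (.leaf 176 1412 (.cons 199 (.leaf 175 1407 (.cons 201 (.leaf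 177 1413 (.cons 227 (.leaf 228 1793 (.cons 202 (.leaf 226 1592 (.cons 178 (.leaf 203 1431 (.leaf 225 1421 .nil)) .nil)) .nil)) .nil)) .nil)) .nil)) .nil)) .nil)) (.cons 250 (.leaf 271 1978 (.cons 224 (.leaf 223 1787 (.cons 200 (.leaf 176 1412 (.cons 199 (.leaf 175 1407 (.cons 201 (.leaf 177 1413 (.cons 227 (.leaf 228 1793 (.cons 202 (.leaf 226 1592 (.cons 178 (.leaf 203 1431 (.leaf 179 1401 .nil)) .nil)) .nil)) .nil)) .nil)) .nil)) .nil)) .nil)) (.cons 271 (.leaf 250 1978 (.cons 270 (.leaf 269 1961 (.cons 294 (.leaf 293 2154 (.cons 246 (.leaf 245 1963 (.cons 319 (.cons 295 (.leaf 343 1981 (.leaf 222 1780 .nil)) (.cons 318 (.leaf 343 1972 (.cons 341 (.leaf 317 1966 (.cons 342 (.leaf 365 2158 (.cons 320 (.leaf 321 2538 (.cons 296 (.leaf 225 1797 (.leaf 344 1989 .nil)) .nil)) .nil)) .nil)) .nil)) (.cons 295 (.leaf 222 1780 (.cons 224 (.leaf 200 1598 (.leaf 296 1790 .nil)) .nil)) .nil)))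 .nil)) .nil)) .nil)) .nil)) .nil)))))
noncomputable def t151 : T := .cons 204 (.leaf 228 1629 (.cons 203 (.leaf 180 1437 (.cons 300 (.leaf 324 1820 (.cons 322 (.leaf 298 1814 (.cons 323 (.leaf 346 2006 (.cons 320 (.leaf 321 2369 (.cons 296 (.leaf 344 1989 (.cons 225 (.leaf 201 1606 (.leaf 248 1797 .nil)) .nil)) .nil)) .nil)) .nil)) .nil)) .nil)) .nil)) (.cons 322 (.leaf 298 1814 (.cons 300 (.leaf 324 1820 (.cons 323 (.leaf 346 2006 (.cons 301 (.leaf 302 2386 (.cons 320 (.leaf 321 2369 (.cons 296 (.leaf 344 1989 (.cons 225 (.leaf 201 1606 (.leaf 248 1797 .nil)) .nil)) .nil)) .nil)) .nil)) .nil)) .nil)) (.cons 204 (.leaf 228 1629 (.cons 203 (.leaf 180 1437 (.cons 202 (.leaf 178 1431 (.cons 300 (.leaf 324 1820 (.cons 201 (.cons 176 (.leaf 177 1411 (.cons 200 (.leaf 225 1415 (.leaf 175 1403 .nil)) .nil)) (.cons 176 (.leaf 177 1411 (.cons 200 (.leaf 175 1403 (.cons 224 (.leaf 248 1412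 (.leaf 223 1594 .nil)) .nil)) .nil)) (.cons 225 (.leaf 296 1606 (.leaf 224 1602 .nil)) .nil))) .nil)) .nil)) .nil)) .nil)) (.cons 228 (.leaf 204 1629 (.cons 322 (.leaf 298 1814 (.cons 323 (.leaf 252 1821 (.leaf 346 2006 .nil)) .nil)) .nil)) .nil)))
noncomputable def t152 : T := .cons 202 (.leaf 226 1623 (.cons 203 (.leaf 178 1431 (.cons 322 (.leaf 298 1814 (.cons 323 (.leaf 346 2006 (.cons 228 (.leaf 252 1821 (.cons 201 (.leaf 200 1600 (.cons 296 (.leaf 225 1606 (.cons 320 (.leaf 344 1989 (.cons 321 (.leaf 300 2369 (.leaf 295 2363 .nil)) .nil)) .nil)) .nil)) .nil)) .nil)) .nil)) .nil)) .nil)) (.cons 322 (.leaf 298 1814 (.cons 300 (.leaf 324 1820 (.cons 323 (.leaf 346 2006 (.cons 228 (.leaf 252 1821 (.cons 301 (.leaf 302 2386 (.cons 320 (.leaf 321 2369 (.cons 296 (.leaf 344 1989 (.cons 225 (.leaf 201 1606 (.leaf 248 1797 .nil)) .nil)) .nil)) .nil)) .nil)) .nil)) .nil)) .nil)) (.cons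 324 (.leaf 300 1820 (.cons 226 (.leaf 202 1623 (.cons 323 (.leaf 348 2012 (.cons 228 (.leaf 252 1821 (.cons 225 (.leaf 248 1794 (.cons 201 (.leaf 296 1606 (.leaf 200 1603 .nil)) .nil)) .nil)) .nil)) .nil)) .nil)) (.cons 202 (.leaf 226 1623 (.cons 178 (.leaf 203 1431 (.cons 225 (.leaf 201 1421 (.cons 322 (.leaf 298 1814 (.cons 323 (.leaf 346 2006 (.cons 348 (.leaf 324 2012 (.cons 347 (.leaf 372 2204 (.cons 228 (.leaf 252 1821 (.cons 320 (.leaf 321 2560 (.cons 296 (.leaf 248 1797 (.leaf 344 1989 .nil)) .nil)) .nil)) .nil)) .nil)) .nil)) .nil)) .nil)) .nil)) .nil)) (.cons 202 (.leaf 226 1623 (.cons 300 (.leaf 324 1820 (.cons 298 (.leaf 322 1814 (.cons 201 (.cons 225 (.leaf 296 1606 (.leaf 178 1421 .nil)) (.cons 203 (.leaf 178 1431 (.cons 200 (.leaf 228 1600 (.cons 175 (.leaf 176 1403 (.cons 199 (.leaf 174 1395 (.cons 223 (.leaf 222 1586 (.leaf 224 1594 .nil)) .nil)) .nil)) .nil)) .nil))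 (.cons 225 (.leaf 296 1606 (.cons 176 (.leaf 200 1415 (.cons 177 (.leaf 248 1414 (.leaf 152 1223 .nil)) .nil)) .nil)) .nil))) .nil)) .nil)) .nil)) (.cons 202 (.leaf 226 1623 (.cons 178 (.leaf 203 1431 (.cons 322 (.leaf 298 1814 (.cons 323 (.leaf 346 2006 (.cons 324 (.leaf 300 1820 (.leaf 348 2012 .nil)) .nil)) .nil)) .nil)) .nil)) .nil)))))
noncomputable def t153 : T := .cons 202 (.leaf 178 1431 (.cons 180 (.leaf 204 1437 (.cons 179 (.leaf 156 1245 (.cons 181 (.leaf 182 1426 (.cons 201 (.leaf 200 1409 (.cons 225 (.leaf 296 1606 (.cons 177 (.leaf 248 1414 (.cons 152 (.leaf 176 1223 (.cons 153 (.leaf 128 1031 (.cons 154 (.leaf 155 1216 (.leaf 130 1037 .nil)) .nil)) .nil)) .nil)) .nil)) .nil)) .nil)) .nil)) .nil)) .nil)) (.cons 204 (.leaf 180 1437 (.cons 225 (.cons 201 (.leaf 296 1606 (.cons 224 (.leaf 226 1601 (.leaf 202 1602 .nil)) .nil)) (.cons 201 (.leaf 296 1606 (.cons 176 (.leaf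 200 1415 (.cons 177 (.leaf 248 1414 (.leaf 152 1223 .nil)) .nil)) .nil)) (.cons 226 (.leaf 224 1601 (.cons 205 (.leaf 206 1618 (.leaf 228 1609 .nil)) .nil)) .nil))) .nil)) (.cons 202 (.leaf 178 1431 (.cons 201 (.cons 200 (.leaf 228 1600 (.cons 175 (.leaf 176 1403 (.cons 199 (.leaf 226 1592 (.leaf 174 1395 .nil)) .nil)) .nil)) (.cons 225 (.leaf 296 1606 (.cons 204 (.leaf 224 1602 (.cons 177 (.leaf 248 1414 (.leaf 176 1411 .nil)) .nil)) .nil)) (.cons 200 (.leaf 228 1600 (.cons 199 (.leaf 226 1592 (.cons 223 (.leaf 224 1594 (.leaf 222 1586 .nil)) .nil)) .nil)) .nil))) .nil)) (.cons 178 (.leaf 202 1431 (.cons 179 (.leaf 154 1239 (.cons 156 (.leaf 180 1245 (.cons 155 (.leaf 132 1053 (.cons 176 (.leaf 177 1217 (.cons 252 (.leaf 228 1244 (.cons 225 (.cons 201 (.leaf 296 1606 (.leaf 200 1415 .nil)) (.cons 224 (.leaf 226 1792 (.cons 200 (.leaf 248 1412 (.leaf 152 1220 .nil)) .nil)) (.cons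 157 (.leaf 158 1234 (.cons 296 (.leaf 201 1606 (.cons 320 (.leaf 248 1797 (.leaf 344 1989 .nil)) .nil)) .nil)) .nil))) .nil)) .nil)) .nil)) .nil)) .nil)) .nil)) (.cons 204 (.leaf 180 1437 (.cons 225 (.cons 201 (.leaf 296 1606 (.cons 176 (.leaf 200 1415 (.cons 177 (.leaf 248 1414 (.leaf 152 1223 .nil)) .nil)) .nil)) (.cons 226 (.leaf 224 1601 (.cons 205 (.leaf 206 1618 (.leaf 228 1609 .nil)) .nil)) .nil)) .nil)) (.cons 180 (.leaf 204 1437 (.cons 178 (.leaf 202 1431 (.cons 179 (.leaf 154 1239 (.leaf 156 1245 .nil)) .nil)) .nil)) .nil)))))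
noncomputable def t154 : T := .cons 299 (.cons 228 (.leaf 204 1629 (.cons 323 (.leaf 252 1821 (.cons 324 (.leaf 300 1820 (.leaf 348 2012 .nil)) .nil)) .nil)) (.cons 202 (.leaf 226 1623 (.cons 178 (.leaf 203 1431 (.cons 322 (.leaf 298 1814 (.cons 323 (.leaf 346 2006 (.cons 324 (.leaf 300 1820 (.leaf 348 2012 .nil)) .nil)) .nil)) .nil)) .nil)) (.cons 228 (.leaf 204 1629 (.cons 322 (.leaf 298 1814 (.cons 323 (.leaf 252 1821 (.leaf 346 2006 .nil)) .nil)) .nil)) (.cons 202 (.leaf 226 1623 (.cons 203 (.leaf 178 1431 (.cons 180 (.leaf 204 1437 (.cons 179 (.leaf 156 1245 (.cons 181 (.leaf 182 1426 (.cons 201 (.leaf 200 1409 (.cons 225 (.leaf 296 1606 (.cons 177 (.leaf 248 1414 (.cons 152 (.leaf 176 1223 (.cons 153 (.leaf 128 1031 (.cons 154 (.leaf 155 1216 (.leaf 130 1037 .nil)) .nil)) .nil)) .nil)) .nil)) .nil)) .nil)) .nil)) .nil)) .nil)) .nil)) .nil)))) (.cons 203 t153 (.cons 299 (.cons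 226 (.leaf 202 1623 (.cons 228 (.leaf 204 1629 (.cons 225 (.leaf 248 1794 (.cons 201 (.leaf 296 1606 (.leaf 200 1603 .nil)) .nil)) .nil)) .nil)) (.cons 202 (.leaf 226 1623 (.cons 300 (.leaf 324 1820 (.cons 322 (.leaf 298 1814 (.cons 323 (.leaf 346 2006 (.cons 301 (.leaf 302 2386 (.cons 320 (.leaf 321 2369 (.cons 296 (.leaf 344 1989 (.cons 225 (.leaf 201 1606 (.leaf 248 1797 .nil)) .nil)) .nil)) .nil)) .nil)) .nil)) .nil)) .nil)) (.cons 228 (.leaf 204 1629 (.cons 323 (.leaf 252 1821 (.cons 324 (.leaf 300 1820 (.leaf 348 2012 .nil)) .nil)) .nil)) .nil))) (.cons 299 t152 (.cons 299 (.cons 202 (.leaf 226 1623 (.cons 203 (.leaf 178 1431 (.cons 204 (.leaf 180 1437 (.leaf 228 1629 .nil)) .nil)) .nil)) (.cons 322 (.leaf 298 1814 (.cons 202 (.leaf 226 1623 (.cons 178 (.leaf 203 1431 (.cons 323 (.leaf 346 2006 (.cons 324 (.leaf 300 1820 (.leaf 348 2012 .nil)) .nil)) .nil)) .nil)) .nil)) (.cons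 228 (.leaf 204 1629 (.cons 323 (.leaf 252 1821 (.cons 324 (.leaf 300 1820 (.leaf 348 2012 .nil)) .nil)) .nil)) .nil))) (.cons 299 (.cons 228 (.leaf 204 1629 (.cons 323 (.leaf 252 1821 (.cons 324 (.leaf 300 1820 (.leaf 348 2012 .nil)) .nil)) .nil)) (.cons 322 (.leaf 298 1814 (.cons 300 (.leaf 324 1820 (.cons 323 (.leaf 346 2006 (.cons 301 (.leaf 302 2386 (.cons 320 (.leaf 321 2369 (.cons 296 (.leaf 344 1989 (.cons 225 (.leaf 201 1606 (.leaf 248 1797 .nil)) .nil)) .nil)) .nil)) .nil)) .nil)) .nil)) (.cons 228 (.leaf 204 1629 (.cons 322 (.leaf 298 1814 (.cons 323 (.leaf 252 1821 (.leaf 346 2006 .nil)) .nil)) .nil)) (.cons 228 (.leaf 204 1629 (.cons 300 (.leaf 324 1820 (.cons 298 (.leaf 322 1814 (.cons 225 (.cons 201 (.leaf 296 1606 (.cons 200 (.leaf 176 1415 (.leaf 226 1603 .nil)) .nil)) (.cons 226 (.leaf 248 1794 (.cons 252 (.leaf 224 1792 (.leaf 253 1800 .nil)) .nil)) (.cons 201 (.leaf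 296 1606 (.cons 176 (.leaf 200 1415 (.cons 177 (.leaf 248 1414 (.leaf 152 1223 .nil)) .nil)) .nil)) .nil))) .nil)) .nil)) .nil)) .nil)))) (.cons 299 (.cons 202 (.leaf 226 1623 (.cons 178 (.leaf 203 1431 (.cons 322 (.leaf 298 1814 (.cons 323 (.leaf 346 2006 (.cons 324 (.leaf 300 1820 (.leaf 348 2012 .nil)) .nil)) .nil)) .nil)) .nil)) (.cons 322 (.leaf 298 1814 (.cons 300 (.leaf 324 1820 (.cons 323 (.leaf 346 2006 (.cons 301 (.leaf 302 2386 (.cons 320 (.leaf 321 2369 (.cons 296 (.leaf 344 1989 (.cons 225 (.leaf 201 1606 (.leaf 248 1797 .nil)) .nil)) .nil)) .nil)) .nil)) .nil)) .nil)) (.cons 202 (.leaf 226 1623 (.cons 203 (.leaf 178 1431 (.cons 180 (.leaf 204 1437 (.cons 179 (.leaf 156 1245 (.cons 181 (.leaf 182 1426 (.cons 201 (.leaf 200 1409 (.cons 225 (.leaf 296 1606 (.cons 177 (.leaf 248 1414 (.cons 152 (.leaf 176 1223 (.cons 153 (.leaf 128 1031 (.cons 154 (.leaf 155 1216 (.leaf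 130 1037 .nil)) .nil)) .nil)) .nil)) .nil)) .nil)) .nil)) .nil)) .nil)) .nil)) .nil)) .nil))) (.cons 299 t151 .nil)))))))
noncomputable def t155 : T := .cons 204 (.leaf 228 1629 (.cons 202 (.leaf 226 1623 (.cons 298 (.leaf 322 1814 (.cons 203 (.leaf 178 1431 (.leaf 180 1437 .nil)) .nil)) .nil)) .nil)) (.cons 204 (.leaf 228 1629 (.cons 180 (.leaf 203 1437 (.cons 298 (.leaf 322 1814 (.cons 297 (.leaf 300 2179 (.cons 271 (.leaf 270 2160 (.leaf 296 2171 .nil)) .nil)) .nil)) .nil)) .nil)) (.cons 226 (.leaf 202 1623 (.cons 204 (.leaf 228 1629 (.cons 203 (.leaf 180 1437 (.cons 205 (.leaf 206 1618 (.cons 225 (.leaf 224 1601 (.cons 250 (.leaf 323 1815 (.cons 179 (.leaf 155 1238 (.cons 178 (.leaf 154 1239 (.cons 177 (.leaf 176 1408 (.cons 201 (.leaf 153 1228 (.cons 249 (.leaf 248 1414 (.leaf 296 1606 .nil)) .nil)) .nil)) .nil)) .nil)) .nil)) .nil)) .nil)) .nil)) .nil)) .nil)) (.cons 202 (.leaf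 226 1623 (.cons 178 (.leaf 203 1431 (.cons 298 (.leaf 322 1814 (.cons 297 (.leaf 300 2179 (.cons 271 (.leaf 270 2160 (.leaf 296 2171 .nil)) .nil)) .nil)) .nil)) .nil)) (.cons 202 (.leaf 226 1623 (.cons 204 (.leaf 228 1629 (.cons 298 (.leaf 322 1814 (.cons 297 (.leaf 300 2179 (.cons 271 (.leaf 270 2160 (.leaf 296 2171 .nil)) .nil)) .nil)) .nil)) .nil)) .nil))))
noncomputable def t156 : T := .cons 227 (.leaf 202 1623 (.cons 204 (.leaf 228 1629 (.cons 203 (.leaf 180 1437 (.cons 205 (.leaf 206 1618 (.cons 224 (.leaf 225 1601 (.cons 300 (.leaf 324 1820 (.cons 297 (.leaf 298 2179 (.cons 248 (.leaf 200 1604 (.cons 321 (.leaf 296 1796 (.leaf 345 1991 .nil)) .nil)) .nil)) .nil)) .nil)) .nil)) .nil)) .nil)) .nil)) (.cons 250 (.leaf 323 1815 (.cons 202 (.leaf 178 1428 (.cons 249 (.cons 297 (.leaf 225 1613 (.leaf 321 1805 .nil)) (.cons 271 (.leaf 248 1978 (.leaf 270 1969 .nil)) .nil)) .nil))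 .nil)) (.cons 323 (.leaf 250 1815 (.cons 348 (.leaf 324 2012 (.cons 347 (.leaf 372 2204 (.cons 346 (.leaf 370 2198 (.cons 345 (.cons 321 (.leaf 320 2563 (.cons 297 (.leaf 248 1991 (.cons 369 (.leaf 296 2183 (.leaf 368 2754 .nil)) .nil)) .nil)) (.cons 368 (.leaf 369 2754 (.cons 344 (.leaf 367 2746 (.cons 297 (.leaf 321 2182 (.cons 298 (.leaf 300 2179 (.cons 271 (.leaf 270 2160 (.leaf 296 2171 .nil)) .nil)) .nil)) .nil)) .nil)) (.cons 368 (.leaf 369 2754 (.cons 344 (.leaf 367 2746 (.cons 320 (.leaf 319 2555 (.cons 296 (.leaf 249 1989 (.leaf 297 2181 .nil)) .nil)) .nil)) .nil)) (.cons 320 (.leaf 321 2563 (.cons 344 (.leaf 319 2555 (.cons 296 (.leaf 249 1989 (.leaf 369 2180 .nil)) .nil)) .nil)) (.cons 320 (.leaf 321 2563 (.cons 344 (.leaf 319 2555 (.cons 296 (.leaf 249 1989 (.cons 367 (.leaf 343 2174 (.leaf 368 2746 .nil)) .nil)) .nil)) .nil)) (.cons 321 (.leaf 320 2563 (.cons 297 (.leaf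 248 1991 (.cons 368 (.leaf 344 2182 (.leaf 369 2754 .nil)) .nil)) .nil)) .nil)))))) .nil)) .nil)) .nil)) .nil)) (.cons 227 (.leaf 202 1623 (.cons 204 (.leaf 228 1629 (.cons 180 (.leaf 203 1437 (.cons 323 (.leaf 250 1815 (.cons 324 (.leaf 300 1820 (.leaf 348 2012 .nil)) .nil)) .nil)) .nil)) .nil)) .nil)))
noncomputable def t157 : T := .cons 323 (.leaf 348 2012 (.cons 300 (.leaf 227 1820 (.cons 322 (.leaf 346 2006 (.cons 301 (.leaf 302 2386 (.leaf 321 2377 .nil)) .nil)) .nil)) .nil)) (.cons 227 (.leaf 300 1820 (.cons 202 (.leaf 226 1623 (.cons 203 (.leaf 178 1431 (.cons 204 (.leaf 180 1437 (.leaf 228 1629 .nil)) .nil)) .nil)) .nil)) (.cons 323 (.leaf 348 2012 (.cons 322 (.leaf 346 2006 (.cons 250 (.leaf 226 1815 (.cons 321 (.cons 297 (.leaf 296 2371 (.cons 300 (.leaf 320 2369 (.leaf 301 2377 .nil)) .nil)) (.cons 297 (.leaf 296 2371 (.cons 345 (.leaf 248 1991 (.leaf 344 2562 .nil)) .nil))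 (.cons 300 (.leaf 320 2369 (.leaf 301 2377 .nil)) .nil))) .nil)) .nil)) .nil)) (.cons 323 (.leaf 348 2012 (.cons 322 (.leaf 346 2006 (.cons 250 (.leaf 226 1815 (.cons 321 (.cons 297 (.leaf 296 2371 (.cons 345 (.leaf 248 1991 (.leaf 344 2562 .nil)) .nil)) (.cons 344 (.leaf 345 2562 (.cons 320 (.leaf 343 2554 (.cons 249 (.leaf 297 1990 (.cons 271 (.leaf 248 1978 (.leaf 270 1969 .nil)) .nil)) .nil)) .nil)) (.cons 344 (.leaf 345 2562 (.cons 320 (.leaf 343 2554 (.cons 296 (.leaf 249 1989 (.leaf 295 2363 .nil)) .nil)) .nil)) (.cons 296 (.leaf 297 2371 (.cons 320 (.leaf 295 2363 (.cons 248 (.leaf 345 1988 (.cons 249 (.leaf 225 1797 (.leaf 271 1978 .nil)) .nil)) .nil)) .nil)) (.cons 296 (.leaf 297 2371 (.cons 320 (.leaf 295 2363 (.cons 344 (.leaf 249 1989 (.leaf 343 2554 .nil)) .nil)) .nil)) .nil))))) .nil)) .nil)) .nil)) .nil)))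
noncomputable def t158 : T := .cons 298 (.leaf 300 2179 (.cons 271 (.leaf 270 2160 (.leaf 296 2171 .nil)) .nil)) (.cons 248 (.cons 224 (.leaf 200 1604 (.cons 249 (.leaf 271 1978 (.leaf 321 1799 .nil)) .nil)) (.cons 249 (.leaf 271 1978 (.cons 345 (.leaf 321 1991 (.cons 344 (.leaf 324 2561 (.cons 320 (.leaf 296 1989 (.leaf 319 2555 .nil)) .nil)) .nil)) .nil)) (.cons 200 (.leaf 224 1604 (.cons 345 (.leaf 321 1991 (.cons 344 (.leaf 324 2561 (.cons 319 (.leaf 320 2555 (.cons 343 (.leaf 318 2547 (.cons 367 (.leaf 366 2738 (.leaf 368 2746 .nil)) .nil)) .nil)) .nil)) .nil)) .nil)) (.cons 224 (.leaf 200 1604 (.cons 249 (.leaf 271 1978 (.leaf 223 1787 .nil)) .nil)) .nil)))) (.cons 298 (.leaf 300 2179 (.cons 296 (.leaf 324 2368 (.cons 320 (.leaf 319 2362 (.cons 249 (.leaf 344 1989 (.leaf 225 1798 .nil)) .nil)) .nil)) .nil)) (.cons 298 (.leaf 300 2179 (.cons 271 (.leaf 270 2160 (.cons 248 (.leaf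 249 1978 (.cons 200 (.leaf 224 1604 (.cons 345 (.leaf 321 1991 (.cons 344 (.leaf 324 2561 (.cons 319 (.leaf 320 2555 (.cons 343 (.leaf 295 1981 (.leaf 318 2547 .nil)) .nil)) .nil)) .nil)) .nil)) .nil)) .nil)) .nil)) .nil)))
noncomputable def t159 : T := .cons 248 (.cons 224 (.leaf 200 1604 (.cons 249 (.leaf 271 1978 (.leaf 321 1799 .nil)) .nil)) (.cons 224 (.leaf 200 1604 (.cons 321 (.leaf 296 1796 (.leaf 345 1991 .nil)) .nil)) (.cons 249 (.leaf 271 1978 (.cons 321 (.leaf 345 1991 (.cons 320 (.leaf 344 1990 (.leaf 322 2560 .nil)) .nil)) .nil)) (.cons 224 (.leaf 200 1604 (.cons 249 (.leaf 271 1978 (.leaf 223 1787 .nil)) .nil)) .nil)))) (.cons 298 (.leaf 300 2179 (.cons 296 (.cons 322 (.leaf 295 2360 (.cons 225 (.leaf 249 1804 (.cons 320 (.leaf 319 2362 (.leaf 321 2560 .nil)) .nil)) .nil)) (.cons 295 (.leaf 322 2360 (.cons 294 (.leaf 293 2153 (.cons 318 (.leaf 317 2346 (.leaf 319 2354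 .nil)) .nil)) .nil)) (.cons 320 (.leaf 319 2362 (.cons 249 (.leaf 344 1989 (.leaf 225 1798 .nil)) .nil)) (.cons 322 (.leaf 295 2360 (.cons 225 (.leaf 249 1804 (.cons 320 (.leaf 321 2560 (.cons 368 (.leaf 344 2181 (.cons 371 (.leaf 395 2391 (.cons 370 (.leaf 394 2390 (.leaf 369 2753 .nil)) .nil)) .nil)) .nil)) .nil)) .nil)) .nil)))) .nil)) (.cons 298 (.leaf 300 2179 (.cons 271 (.leaf 270 2160 (.cons 321 (.cons 249 (.leaf 248 1978 (.cons 320 (.leaf 344 1990 (.leaf 322 2560 .nil)) .nil)) (.cons 320 (.leaf 322 2560 (.cons 344 (.leaf 249 1990 (.cons 368 (.leaf 345 2182 (.leaf 392 2373 .nil)) .nil)) .nil)) (.cons 248 (.leaf 249 1978 (.leaf 345 1991 .nil)) (.cons 320 (.leaf 322 2560 (.cons 345 (.leaf 248 1991 (.cons 368 (.leaf 344 2182 (.cons 369 (.leaf 392 2374 (.cons 370 (.leaf 371 2753 (.leaf 394 2380 .nil)) .nil)) .nil)) .nil)) .nil)) .nil)))) .nil)) .nil)) (.cons 298 (.leaf 300 2179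 (.cons 271 (.leaf 270 2160 (.leaf 296 2171 .nil)) .nil)) .nil)))
noncomputable def t160 : T := .cons 346 (.leaf 322 2006 (.cons 347 (.leaf 370 2198 (.cons 250 (.leaf 226 1815 (.cons 297 (.cons 298 (.leaf 300 2179 (.cons 271 (.leaf 270 2160 (.leaf 296 2171 .nil)) .nil)) (.cons 348 (.leaf 324 2012 (.leaf 372 2204 .nil)) .nil)) .nil)) .nil)) .nil)) (.cons 348 (.leaf 324 2012 (.cons 347 (.leaf 372 2204 (.cons 250 (.leaf 226 1815 (.cons 297 t159 .nil)) .nil)) .nil)) (.cons 348 (.leaf 324 2012 (.cons 347 (.leaf 372 2204 (.cons 346 (.leaf 370 2198 (.cons 250 (.leaf 226 1815 (.cons 345 (.cons 320 (.leaf 321 2563 (.cons 344 (.leaf 319 2555 (.cons 296 (.leaf 249 1989 (.leaf 369 2180 .nil)) .nil)) .nil)) (.cons 368 (.leaf 369 2754 (.cons 344 (.leaf 367 2746 (.cons 297 (.leaf 321 2182 (.cons 298 (.leaf 300 2179 (.cons 271 (.leaf 270 2160 (.leaf 296 2171 .nil)) .nil)) .nil)) .nil)) .nil)) (.cons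 368 (.leaf 369 2754 (.cons 344 (.leaf 367 2746 (.cons 320 (.leaf 319 2555 (.cons 296 (.leaf 249 1989 (.leaf 297 2181 .nil)) .nil)) .nil)) .nil)) (.cons 320 (.leaf 321 2563 (.cons 344 (.leaf 319 2555 (.cons 249 (.leaf 296 1989 (.cons 271 (.leaf 248 1978 (.leaf 270 1969 .nil)) .nil)) .nil)) .nil)) (.cons 321 (.leaf 320 2563 (.cons 297 (.leaf 248 1991 (.cons 369 (.leaf 296 2183 (.leaf 368 2754 .nil)) .nil)) .nil)) (.cons 321 (.leaf 320 2563 (.cons 297 (.leaf 248 1991 (.cons 368 (.leaf 344 2182 (.leaf 369 2754 .nil)) .nil)) .nil)) .nil)))))) .nil)) .nil)) .nil)) .nil)) (.cons 346 (.leaf 322 2006 (.cons 347 (.leaf 370 2198 (.cons 250 (.leaf 226 1815 (.cons 297 t158 .nil)) .nil)) .nil)) (.cons 346 (.leaf 322 2006 (.cons 347 (.leaf 370 2198 (.cons 372 (.leaf 348 2204 (.cons 371 (.leaf 396 2396 (.cons 345 (.leaf 344 2752 (.cons 250 (.leaf 226 1815 (.cons 297 (.cons 298 (.leaf 300 2179 (.cons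 271 (.leaf 270 2160 (.leaf 296 2171 .nil)) .nil)) (.cons 248 (.leaf 321 1991 (.cons 224 (.leaf 200 1604 (.cons 249 (.leaf 271 1978 (.leaf 223 1787 .nil)) .nil)) .nil)) (.cons 321 (.leaf 248 1991 (.cons 369 (.leaf 296 2183 (.cons 392 (.leaf 368 2374 (.cons 393 (.leaf 416 2566 (.cons 394 (.leaf 395 2945 (.leaf 418 2572 .nil)) .nil)) .nil)) .nil)) .nil)) .nil))) .nil)) .nil)) .nil)) .nil)) .nil)) .nil)) (.cons 348 (.leaf 324 2012 (.cons 347 (.leaf 372 2204 (.cons 346 (.leaf 322 2006 (.leaf 370 2198 .nil)) .nil)) .nil)) (.cons 322 (.leaf 346 2006 (.cons 324 (.leaf 348 2012 (.cons 250 (.leaf 226 1815 (.cons 297 (.cons 296 (.leaf 298 2368 (.leaf 321 2371 .nil)) (.cons 321 (.leaf 296 2371 (.cons 300 (.leaf 320 2369 (.leaf 301 2377 .nil)) .nil)) (.cons 298 (.leaf 300 2179 (.leaf 325 2379 .nil)) .nil))) .nil)) .nil)) .nil)) .nil))))))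
noncomputable def t161 : T := .cons 227 (.cons 202 (.leaf 226 1623 (.cons 204 (.leaf 228 1629 (.cons 322 (.leaf 298 1814 (.cons 203 (.leaf 178 1431 (.leaf 180 1437 .nil)) .nil)) .nil)) .nil)) (.cons 204 (.leaf 228 1629 (.cons 180 (.leaf 203 1437 (.cons 322 (.leaf 298 1814 (.cons 323 (.leaf 346 2006 (.cons 324 (.leaf 300 1820 (.leaf 348 2012 .nil)) .nil)) .nil)) .nil)) .nil)) (.cons 202 (.leaf 226 1623 (.cons 203 (.leaf 178 1431 (.cons 204 (.leaf 180 1437 (.leaf 228 1629 .nil)) .nil)) .nil)) (.cons 298 (.leaf 322 1814 (.cons 300 (.leaf 324 1820 (.leaf 297 2179 .nil)) .nil)) .nil)))) (.cons 323 t160 (.cons 227 (.cons 298 (.leaf 322 1814 (.cons 300 (.leaf 324 1820 (.leaf 297 2179 .nil)) .nil)) (.cons 202 (.leaf 226 1623 (.cons 203 (.leaf 178 1431 (.cons 204 (.leaf 180 1437 (.leaf 228 1629 .nil)) .nil)) .nil)) .nil)) (.cons 324 t157 (.cons 227 (.cons 202 (.leaf 226 1623 (.cons 204 (.leaf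 228 1629 (.cons 322 (.leaf 298 1814 (.cons 203 (.leaf 178 1431 (.leaf 180 1437 .nil)) .nil)) .nil)) .nil)) (.cons 204 (.leaf 228 1629 (.cons 180 (.leaf 203 1437 (.cons 322 (.leaf 298 1814 (.cons 323 (.leaf 346 2006 (.cons 324 (.leaf 300 1820 (.leaf 348 2012 .nil)) .nil)) .nil)) .nil)) .nil)) (.cons 202 (.leaf 226 1623 (.cons 178 (.leaf 203 1431 (.cons 322 (.leaf 298 1814 (.cons 323 (.leaf 346 2006 (.cons 324 (.leaf 300 1820 (.leaf 348 2012 .nil)) .nil)) .nil)) .nil)) .nil)) (.cons 202 (.leaf 226 1623 (.cons 203 (.leaf 178 1431 (.cons 204 (.leaf 180 1437 (.leaf 228 1629 .nil)) .nil)) .nil)) (.cons 226 (.leaf 202 1623 (.cons 204 (.leaf 228 1629 (.cons 298 (.leaf 322 1814 (.cons 323 (.leaf 250 1815 (.cons 324 (.leaf 300 1820 (.leaf 348 2012 .nil)) .nil)) .nil)) .nil)) .nil)) .nil))))) (.cons 226 t156 (.cons 226 (.cons 202 (.leaf 227 1623 (.cons 250 (.leaf 178 1428 (.leaf 323 1815 .nil))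 .nil)) (.cons 323 (.leaf 250 1815 (.cons 346 (.leaf 322 2006 (.cons 347 (.leaf 370 2198 (.cons 348 (.leaf 324 2012 (.leaf 372 2204 .nil)) .nil)) .nil)) .nil)) (.cons 227 (.leaf 202 1623 (.cons 204 (.leaf 228 1629 (.cons 203 (.leaf 180 1437 (.cons 224 (.leaf 225 1601 (.cons 205 (.leaf 206 1618 (.cons 298 (.leaf 322 1814 (.cons 297 (.cons 271 (.leaf 270 2160 (.leaf 296 2171 .nil)) (.cons 248 (.leaf 200 1604 (.cons 321 (.leaf 296 1796 (.leaf 345 1991 .nil)) .nil)) (.cons 248 (.leaf 200 1604 (.cons 321 (.leaf 345 1991 (.leaf 249 1799 .nil)) .nil)) .nil))) .nil)) .nil)) .nil)) .nil)) .nil)) .nil)) .nil))) (.cons 227 t155 (.cons 298 (.cons 297 (.leaf 300 2179 (.cons 271 (.leaf 270 2160 (.leaf 296 2171 .nil)) .nil)) (.cons 322 (.leaf 227 1814 (.cons 346 (.leaf 323 2006 (.leaf 370 2197 .nil)) .nil)) .nil)) .nil))))))))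
noncomputable def t162 : T := .cons 200 (.leaf 224 1607 (.cons 296 (.leaf 320 1798 (.cons 202 (.leaf 226 1613 (.cons 322 (.leaf 298 1804 (.cons 321 (.leaf 346 1996 (.cons 345 (.leaf 248 1991 (.leaf 369 2183 .nil)) .nil)) .nil)) .nil)) .nil)) .nil)) (.cons 224 (.leaf 200 1607 (.cons 202 (.leaf 226 1613 (.cons 321 (.leaf 248 1799 (.cons 322 (.leaf 298 1804 (.leaf 346 1996 .nil)) .nil)) .nil)) .nil)) (.cons 202 (.leaf 226 1613 (.cons 320 (.leaf 296 1798 (.cons 321 (.leaf 344 1990 (.cons 322 (.leaf 298 1804 (.leaf 346 1996 .nil)) .nil)) .nil)) .nil)) (.cons 202 (.leaf 226 1613 (.cons 224 (.leaf 200 1607 (.cons 320 (.leaf 296 1798 (.cons 321 (.leaf 248 1799 (.leaf 344 1990 .nil)) .nil)) .nil)) .nil)) (.cons 296 (.leaf 320 1798 (.cons 200 (.leaf 224 1607 (.cons 202 (.leaf 226 1613 (.cons 298 (.leaf 322 1804 (.cons 271 (.leaf 270 2160 (.leaf 299 2171 .nil)) .nil)) .nil)) .nil)) .nil)) (.cons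 200 (.leaf 224 1607 (.cons 296 (.leaf 320 1798 (.cons 322 (.leaf 298 1804 (.cons 321 (.leaf 346 1996 (.cons 345 (.leaf 248 1991 (.leaf 369 2183 .nil)) .nil)) .nil)) .nil)) .nil)) .nil)))))
noncomputable def t163 : T := .cons 201 (.leaf 296 1606 (.cons 177 (.leaf 248 1414 (.cons 178 (.leaf 202 1421 (.leaf 154 1229 .nil)) .nil)) .nil)) (.cons 297 t162 (.cons 297 (.cons 202 (.leaf 226 1613 (.cons 178 (.leaf 201 1421 (.cons 322 (.leaf 298 1804 (.cons 321 (.leaf 346 1996 (.cons 344 (.leaf 320 1990 (.cons 345 (.leaf 248 1991 (.leaf 368 2182 .nil)) .nil)) .nil)) .nil)) .nil)) .nil)) (.cons 200 (.leaf 224 1607 (.cons 201 (.leaf 176 1415 (.cons 202 (.leaf 178 1421 (.leaf 226 1613 .nil)) .nil)) .nil)) (.cons 200 (.leaf 224 1607 (.cons 176 (.leaf 201 1415 (.cons 322 (.leaf 298 1804 (.cons 321 (.leaf 346 1996 (.cons 345 (.leaf 248 1991 (.cons 344 (.leaf 320 1990 (.leaf 368 2182 .nil)) .nil))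 .nil)) .nil)) .nil)) .nil)) (.cons 224 (.leaf 200 1607 (.cons 202 (.leaf 226 1613 (.cons 321 (.leaf 248 1799 (.cons 322 (.leaf 298 1804 (.leaf 346 1996 .nil)) .nil)) .nil)) .nil)) .nil)))) (.cons 201 (.leaf 296 1606 (.cons 202 (.leaf 178 1421 (.cons 200 (.leaf 176 1415 (.cons 224 (.leaf 297 1607 (.cons 203 (.leaf 204 1602 (.leaf 223 1594 .nil)) .nil)) .nil)) .nil)) .nil)) (.cons 296 (.leaf 201 1606 (.cons 320 (.leaf 248 1797 (.leaf 344 1989 .nil)) .nil)) .nil))))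
noncomputable def t164 : T := .cons 250 (.leaf 252 1986 (.cons 271 (.leaf 248 1978 (.leaf 270 1969 .nil)) .nil)) (.cons 225 t163 (.cons 250 (.leaf 252 1986 (.cons 271 (.leaf 270 1969 (.cons 225 (.cons 224 (.cons 223 (.leaf 226 1784 (.leaf 222 1776 .nil)) (.cons 200 (.leaf 297 1607 (.cons 176 (.leaf 201 1415 (.leaf 152 1220 .nil)) .nil)) .nil)) (.cons 297 (.cons 200 (.leaf 224 1607 (.cons 296 (.leaf 320 1798 (.cons 298 (.leaf 299 2171 (.leaf 322 1804 .nil)) .nil)) .nil)) (.cons 226 (.leaf 202 1613 (.leaf 321 1805 .nil)) .nil)) (.cons 201 (.leaf 296 1606 (.cons 176 (.leaf 200 1415 (.cons 177 (.leaf 152 1223 (.cons 178 (.leaf 202 1421 (.leaf 154 1229 .nil)) .nil)) .nil)) .nil)) (.cons 296 (.leaf 201 1606 (.cons 320 (.leaf 344 1989 (.leaf 297 1798 .nil)) .nil)) .nil)))) .nil)) .nil)) (.cons 250 (.leaf 252 1986 (.cons 225 (.cons 224 (.cons 223 (.leaf 226 1784 (.leaf 248 1787 .nil)) (.cons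 200 (.leaf 297 1607 (.cons 176 (.leaf 201 1415 (.leaf 248 1412 .nil)) .nil)) (.cons 223 (.leaf 226 1784 (.leaf 222 1776 .nil)) .nil))) (.cons 297 (.cons 202 (.leaf 226 1613 (.cons 224 (.leaf 200 1607 (.cons 223 (.leaf 248 1787 (.leaf 222 1776 .nil)) .nil)) .nil)) (.cons 200 (.leaf 224 1607 (.cons 320 (.leaf 296 1798 (.cons 321 (.leaf 344 1990 (.cons 322 (.leaf 298 1804 (.leaf 346 1996 .nil)) .nil)) .nil)) .nil)) (.cons 226 (.leaf 202 1613 (.leaf 321 1805 .nil)) .nil))) (.cons 201 (.leaf 296 1606 (.cons 176 (.leaf 200 1415 (.cons 177 (.leaf 248 1414 (.leaf 152 1223 .nil)) .nil)) .nil)) (.cons 224 (.cons 223 (.leaf 226 1784 (.leaf 222 1776 .nil)) (.cons 200 (.leaf 297 1607 (.cons 176 (.leaf 201 1415 (.leaf 152 1220 .nil)) .nil)) .nil)) (.cons 296 (.leaf 201 1606 (.cons 320 (.leaf 248 1797 (.leaf 344 1989 .nil)) .nil)) .nil))))) .nil)) .nil)))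
noncomputable def t165 : T := .leaf 202 1623 (.cons 225 (.cons 200 (.leaf 201 1603 (.cons 224 (.leaf 199 1595 (.cons 248 (.leaf 297 1604 (.leaf 249 1794 .nil)) .nil)) .nil)) (.cons 200 (.leaf 201 1603 (.cons 224 (.leaf 199 1595 (.cons 297 (.leaf 248 1604 (.cons 298 (.leaf 322 1814 (.cons 271 (.leaf 270 2160 (.leaf 296 2171 .nil)) .nil)) .nil)) .nil)) .nil)) (.cons 249 (.leaf 248 1794 (.cons 296 (.leaf 201 1606 (.cons 320 (.leaf 344 1989 (.leaf 297 1798 .nil)) .nil)) .nil)) (.cons 322 (.leaf 298 1814 (.cons 248 (.leaf 249 1794 (.cons 323 (.leaf 346 2006 (.cons 348 (.leaf 324 2012 (.cons 347 (.leaf 372 2204 (.cons 321 (.leaf 320 2560 (.cons 297 (.leaf 345 1991 (.cons 224 (.leaf 200 1604 (.leaf 296 1796 .nil)) .nil)) .nil)) .nil)) .nil)) .nil)) .nil)) .nil)) (.cons 200 (.leaf 201 1603 (.cons 224 (.leaf 199 1595 (.cons 297 (.leaf 249 1607 (.cons 298 (.leaf 322 1814 (.cons 271 (.leaf 270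 2160 (.leaf 296 2171 .nil)) .nil)) .nil)) .nil)) .nil)) (.cons 201 (.leaf 200 1603 (.cons 249 (.leaf 296 1606 (.leaf 248 1794 .nil)) .nil)) .nil)))))) .nil)
noncomputable def t166 : T := .cons 227 (.leaf 204 1629 (.cons 226 (.leaf 202 1623 (.cons 298 (.leaf 322 1814 (.cons 225 (.cons 200 (.leaf 201 1603 (.cons 224 (.leaf 252 1792 (.leaf 199 1595 .nil)) .nil)) (.cons 200 (.leaf 201 1603 (.cons 224 (.leaf 199 1595 (.cons 297 (.leaf 248 1604 (.leaf 249 1607 .nil)) .nil)) .nil)) (.cons 249 (.leaf 248 1794 (.cons 296 (.leaf 201 1606 (.cons 297 (.leaf 271 2171 (.leaf 320 1798 .nil)) .nil)) .nil)) (.cons 252 (.leaf 323 1821 (.leaf 224 1792 .nil)) .nil)))) .nil)) .nil)) .nil)) (.cons 323 (.leaf 252 1821 (.cons 346 (.leaf 322 2006 (.cons 347 (.leaf 370 2198 (.cons 348 (.leaf 324 2012 (.leaf 372 2204 .nil)) .nil)) .nil)) .nil)) (.cons 227 (.leaf 204 1629 (.cons 226 (.leaf 202 1623 (.cons 298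 (.leaf 322 1814 (.cons 225 (.cons 200 (.leaf 201 1603 (.cons 224 (.leaf 252 1792 (.leaf 199 1595 .nil)) .nil)) (.cons 200 (.leaf 201 1603 (.cons 224 (.leaf 199 1595 (.cons 297 (.leaf 248 1604 (.leaf 249 1607 .nil)) .nil)) .nil)) (.cons 249 (.leaf 248 1794 (.cons 296 (.leaf 201 1606 (.cons 297 (.leaf 271 2171 (.leaf 320 1798 .nil)) .nil)) .nil)) (.cons 252 (.leaf 224 1792 (.leaf 253 1800 .nil)) .nil)))) .nil)) .nil)) .nil)) (.cons 227 (.leaf 204 1629 (.cons 226 t165 .nil)) (.cons 227 (.leaf 204 1629 (.cons 226 (.leaf 202 1623 (.cons 252 (.leaf 323 1821 (.cons 225 (.leaf 224 1792 (.leaf 253 1800 .nil)) .nil)) .nil)) .nil)) .nil))))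
noncomputable def t167 : T := .cons 227 (.leaf 204 1629 (.cons 323 (.leaf 252 1821 (.cons 324 (.leaf 300 1820 (.leaf 348 2012 .nil)) .nil)) .nil)) (.cons 323 (.leaf 252 1821 (.cons 348 (.leaf 324 2012 (.cons 347 (.leaf 372 2204 (.cons 346 (.leaf 370 2198 (.cons 345 (.cons 320 (.leaf 321 2563 (.cons 344 (.leaf 319 2555 (.cons 296 (.leaf 249 1989 (.leaf 369 2180 .nil)) .nil)) .nil)) (.cons 368 (.leaf 369 2754 (.cons 344 (.leaf 367 2746 (.cons 297 (.leaf 321 2182 (.cons 298 (.leaf 300 2179 (.cons 271 (.leaf 270 2160 (.leaf 296 2171 .nil)) .nil)) .nil)) .nil)) .nil)) (.cons 368 (.leaf 369 2754 (.cons 344 (.leaf 367 2746 (.cons 320 (.leaf 319 2555 (.cons 296 (.leaf 249 1989 (.leaf 297 2181 .nil)) .nil)) .nil)) .nil)) (.cons 320 (.leaf 321 2563 (.cons 344 (.leaf 319 2555 (.cons 296 (.leaf 249 1989 (.cons 367 (.leaf 343 2174 (.leaf 368 2746 .nil)) .nil)) .nil)) .nil)) (.cons 321 (.leaf 320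 2563 (.cons 297 (.leaf 248 1991 (.cons 369 (.leaf 296 2183 (.leaf 368 2754 .nil)) .nil)) .nil)) (.cons 321 (.leaf 320 2563 (.cons 297 (.leaf 248 1991 (.cons 368 (.leaf 344 2182 (.leaf 369 2754 .nil)) .nil)) .nil)) .nil)))))) .nil)) .nil)) .nil)) .nil)) (.cons 227 (.leaf 204 1629 (.cons 300 (.leaf 324 1820 (.cons 297 (.leaf 298 2179 (.cons 226 (.leaf 202 1623 (.cons 225 (.cons 249 (.leaf 248 1794 (.cons 296 (.leaf 201 1606 (.leaf 320 1798 .nil)) .nil)) (.cons 200 (.leaf 201 1603 (.cons 224 (.leaf 248 1604 (.leaf 199 1595 .nil)) .nil)) (.cons 200 (.leaf 201 1603 (.cons 224 (.leaf 249 1607 (.leaf 199 1595 .nil)) .nil)) (.cons 248 (.leaf 249 1794 (.cons 224 (.leaf 200 1604 (.cons 321 (.leaf 296 1796 (.leaf 345 1991 .nil)) .nil)) .nil)) .nil)))) .nil)) .nil)) .nil)) .nil)) (.cons 204 (.leaf 227 1629 (.cons 252 (.leaf 180 1438 (.leaf 323 1821 .nil)) .nil)) .nil)))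
noncomputable def t168 : T := .cons 224 (.leaf 297 1604 (.cons 175 (.leaf 199 1407 (.cons 176 (.leaf 249 1412 (.leaf 151 1215 .nil)) .nil)) .nil)) (.cons 322 (.leaf 346 2006 (.cons 321 (.cons 344 (.leaf 345 2562 (.cons 320 (.leaf 343 2554 (.cons 296 (.leaf 249 1989 (.leaf 297 2371 .nil)) .nil)) .nil)) (.cons 296 (.leaf 297 2371 (.cons 320 (.leaf 295 2363 (.cons 249 (.leaf 225 1797 (.leaf 344 1989 .nil)) .nil)) .nil)) (.cons 344 (.leaf 345 2562 (.cons 320 (.leaf 343 2554 (.cons 296 (.leaf 249 1989 (.leaf 295 2363 .nil)) .nil)) .nil)) (.cons 345 (.leaf 297 1991 (.leaf 344 2562 .nil)) (.cons 297 (.leaf 345 1991 (.leaf 296 2371 .nil)) .nil))))) .nil)) (.cons 224 (.cons 249 (.leaf 176 1412 (.cons 295 (.leaf 271 1598 (.cons 296 (.leaf 319 1790 (.cons 320 (.leaf 225 1797 (.leaf 344 1989 .nil)) .nil)) .nil)) .nil)) (.cons 199 (.leaf 175 1407 (.cons 229 (.leaf 230 1619 (.cons 295 (.leaf 271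 1598 (.cons 296 (.leaf 223 1599 (.leaf 319 1790 .nil)) .nil)) .nil)) .nil)) (.cons 176 (.leaf 249 1412 (.cons 151 (.leaf 175 1215 (.cons 152 (.leaf 127 1023 (.cons 153 (.leaf 129 1029 (.leaf 177 1221 .nil)) .nil)) .nil)) .nil)) .nil))) (.cons 224 (.leaf 297 1604 (.cons 199 (.leaf 175 1407 (.cons 229 (.leaf 230 1619 (.cons 295 (.leaf 271 1598 (.cons 296 (.leaf 223 1599 (.leaf 319 1790 .nil)) .nil)) .nil)) .nil)) .nil)) .nil)))
noncomputable def t169 : T := .cons 200 (.leaf 201 1409 (.cons 224 (.leaf 297 1604 (.cons 249 (.leaf 176 1412 (.cons 295 (.leaf 271 1598 (.cons 296 (.leaf 319 1790 (.cons 320 (.leaf 225 1797 (.leaf 344 1989 .nil)) .nil)) .nil)) .nil)) .nil)) .nil)) (.cons 323 (.leaf 348 2012 (.cons 322 (.leaf 346 2006 (.cons 321 (.cons 297 (.leaf 345 1991 (.leaf 296 2371 .nil)) (.cons 344 (.leaf 345 2562 (.cons 320 (.leaf 343 2554 (.cons 296 (.leaf 249 1989 (.leaf 295 2363 .nil))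 .nil)) .nil)) (.cons 296 (.leaf 297 2371 (.cons 320 (.leaf 295 2363 (.cons 249 (.leaf 225 1797 (.leaf 344 1989 .nil)) .nil)) .nil)) (.cons 345 (.leaf 297 1991 (.leaf 344 2562 .nil)) .nil)))) .nil)) .nil)) (.cons 200 (.leaf 201 1409 (.cons 224 (.cons 249 (.leaf 176 1412 (.cons 295 (.leaf 271 1598 (.cons 296 (.leaf 319 1790 (.cons 320 (.leaf 225 1797 (.leaf 344 1989 .nil)) .nil)) .nil)) .nil)) (.cons 181 (.leaf 182 1426 (.cons 199 (.leaf 175 1407 (.cons 295 (.leaf 271 1598 (.cons 296 (.leaf 223 1599 (.leaf 319 1790 .nil)) .nil)) .nil)) .nil)) (.cons 176 (.leaf 249 1412 (.cons 151 (.leaf 175 1215 (.cons 152 (.leaf 127 1023 (.cons 153 (.leaf 177 1221 (.leaf 129 1029 .nil)) .nil)) .nil)) .nil)) .nil))) .nil)) (.cons 200 (.leaf 201 1409 (.cons 224 (.leaf 297 1604 (.cons 176 (.leaf 249 1412 (.cons 151 (.leaf 175 1215 (.cons 152 (.leaf 127 1023 (.cons 153 (.leaf 177 1221 (.leaf 129 1029 .nil))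 .nil)) .nil)) .nil)) .nil)) .nil)) (.cons 200 (.leaf 201 1409 (.cons 181 (.leaf 182 1426 (.cons 224 (.leaf 297 1604 (.cons 199 (.leaf 175 1407 (.cons 295 (.leaf 271 1598 (.cons 296 (.leaf 223 1599 (.leaf 319 1790 .nil)) .nil)) .nil)) .nil)) .nil)) .nil)) .nil))))
noncomputable def t170 : T := .cons 320 (.leaf 321 2563 (.cons 344 (.leaf 319 2555 (.cons 296 (.leaf 249 1989 (.leaf 369 2180 .nil)) .nil)) .nil)) (.cons 368 (.leaf 369 2754 (.cons 344 (.leaf 367 2746 (.cons 297 (.leaf 321 2182 (.cons 298 (.leaf 300 2179 (.cons 271 (.leaf 270 2160 (.leaf 296 2171 .nil)) .nil)) .nil)) .nil)) .nil)) (.cons 368 (.leaf 369 2754 (.cons 344 (.leaf 367 2746 (.cons 297 (.cons 298 (.leaf 300 2179 (.cons 271 (.leaf 270 2160 (.leaf 296 2171 .nil)) .nil)) (.cons 298 (.leaf 300 2179 (.cons 271 (.leaf 270 2160 (.cons 319 (.leaf 320 2555 (.cons 343 (.leaf 318 2547 (.leaf 295 2172 .nil)) .nil)) .nil)) .nil))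 (.cons 320 (.leaf 296 2181 (.leaf 319 2555 .nil)) .nil))) .nil)) .nil)) (.cons 320 (.leaf 321 2563 (.cons 344 (.leaf 319 2555 (.cons 296 (.leaf 249 1989 (.cons 367 (.leaf 343 2174 (.leaf 368 2746 .nil)) .nil)) .nil)) .nil)) (.cons 321 (.leaf 320 2563 (.cons 297 (.leaf 248 1991 (.cons 369 (.leaf 296 2183 (.leaf 368 2754 .nil)) .nil)) .nil)) (.cons 321 (.leaf 320 2563 (.cons 297 (.leaf 248 1991 (.cons 368 (.leaf 344 2182 (.leaf 369 2754 .nil)) .nil)) .nil)) .nil)))))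
noncomputable def t171 : T := .cons 298 (.leaf 300 2179 (.cons 296 (.leaf 271 2171 (.leaf 324 2368 .nil)) .nil)) (.cons 345 (.cons 347 (.leaf 370 2198 (.cons 248 (.leaf 321 1991 (.cons 344 (.leaf 324 2561 (.cons 319 (.leaf 320 2555 (.cons 343 (.leaf 318 2547 (.cons 367 (.leaf 366 2738 (.leaf 368 2746 .nil)) .nil)) .nil)) .nil)) .nil)) .nil)) (.cons 347 (.leaf 370 2198 (.cons 344 (.leaf 324 2561 (.cons 319 (.leaf 320 2555 (.cons 343 (.leaf 318 2547 (.cons 367 (.leaf 366 2738 (.leaf 368 2746 .nil)) .nil)) .nil)) .nil)) .nil)) (.cons 321 (.leaf 248 1991 (.cons 296 (.leaf 369 2183 (.cons 344 (.leaf 368 2182 (.cons 320 (.leaf 249 1989 (.cons 319 (.leaf 318 2544 (.leaf 347 2555 .nil)) .nil)) .nil)) .nil)) .nil)) (.cons 321 (.leaf 248 1991 (.leaf 370 2188 .nil)) .nil)))) (.cons 298 (.leaf 300 2179 (.cons 271 (.leaf 270 2160 (.cons 345 (.cons 370 (.leaf 347 2198 (.leaf 321 2188 .nil)) (.cons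 347 (.leaf 370 2198 (.cons 344 (.leaf 324 2561 (.cons 319 (.leaf 320 2555 (.cons 343 (.leaf 318 2547 (.cons 295 (.leaf 248 1981 (.leaf 368 2172 .nil)) .nil)) .nil)) .nil)) .nil)) (.cons 321 (.leaf 248 1991 (.cons 344 (.leaf 368 2182 (.cons 320 (.leaf 249 1990 (.cons 319 (.leaf 318 2544 (.leaf 347 2555 .nil)) .nil)) .nil)) .nil)) (.cons 321 (.leaf 248 1991 (.leaf 370 2188 .nil)) .nil)))) .nil)) .nil)) (.cons 298 (.leaf 300 2179 (.cons 271 (.leaf 270 2160 (.leaf 296 2171 .nil)) .nil)) .nil)))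
noncomputable def t172 : T := .cons 348 (.leaf 324 2012 (.cons 347 (.leaf 372 2204 (.cons 346 (.leaf 322 2006 (.leaf 370 2198 .nil)) .nil)) .nil)) (.cons 324 (.leaf 348 2012 (.cons 252 (.leaf 228 1821 (.cons 297 (.cons 298 (.leaf 300 2179 (.leaf 296 2368 .nil)) (.cons 321 (.cons 248 (.leaf 345 1991 (.cons 224 (.leaf 200 1604 (.leaf 296 1796 .nil)) .nil)) (.cons 248 (.leaf 345 1991 (.cons 224 (.leaf 200 1604 (.leaf 249 1799 .nil)) .nil)) (.cons 322 (.leaf 296 2371 (.cons 300 (.leaf 320 2369 (.leaf 301 2377 .nil)) .nil)) .nil))) (.cons 298 (.leaf 300 2179 (.cons 325 (.leaf 326 2387 (.leaf 322 2379 .nil)) .nil)) (.cons 298 (.leaf 296 2368 (.cons 325 (.leaf 326 2387 (.leaf 322 2379 .nil)) .nil)) .nil)))) .nil)) .nil)) (.cons 348 (.leaf 324 2012 (.cons 347 (.leaf 372 2204 (.cons 346 (.leaf 370 2198 (.cons 252 (.leaf 228 1821 (.cons 345 t170 .nil)) .nil)) .nil)) .nil)) (.cons 346 (.leaf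 322 2006 (.cons 252 (.leaf 228 1821 (.cons 297 t171 .nil)) .nil)) (.cons 346 (.leaf 322 2006 (.cons 347 (.leaf 370 2198 (.cons 348 (.leaf 372 2204 (.cons 252 (.leaf 228 1821 (.cons 345 t170 .nil)) .nil)) .nil)) .nil)) .nil))))
noncomputable def t173 : T := .cons 227 (.leaf 204 1629 (.cons 300 (.leaf 324 1820 (.cons 297 (.leaf 298 2179 (.cons 226 (.leaf 202 1623 (.cons 225 (.cons 248 (.leaf 249 1794 (.cons 224 (.leaf 200 1604 (.leaf 252 1792 .nil)) .nil)) (.cons 248 (.leaf 249 1794 (.cons 224 (.leaf 200 1604 (.cons 321 (.leaf 296 1796 (.leaf 345 1991 .nil)) .nil)) .nil)) (.cons 200 (.leaf 201 1603 (.cons 224 (.leaf 248 1604 (.leaf 252 1792 .nil)) .nil)) (.cons 249 (.leaf 248 1794 (.cons 296 (.leaf 201 1606 (.leaf 320 1798 .nil)) .nil)) (.cons 252 (.leaf 323 1821 (.leaf 224 1792 .nil)) .nil))))) .nil)) .nil)) .nil)) .nil)) (.cons 323 (.leaf 252 1821 (.cons 346 (.leaf 322 2006 (.cons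 347 (.leaf 370 2198 (.cons 348 (.leaf 324 2012 (.leaf 372 2204 .nil)) .nil)) .nil)) .nil)) (.cons 227 (.leaf 204 1629 (.cons 300 (.leaf 324 1820 (.cons 297 (.leaf 298 2179 (.cons 226 (.leaf 202 1623 (.cons 225 (.cons 248 (.leaf 249 1794 (.cons 224 (.leaf 200 1604 (.leaf 252 1792 .nil)) .nil)) (.cons 248 (.leaf 249 1794 (.cons 224 (.leaf 200 1604 (.cons 321 (.leaf 296 1796 (.leaf 345 1991 .nil)) .nil)) .nil)) (.cons 252 (.leaf 224 1792 (.leaf 253 1800 .nil)) (.cons 249 (.leaf 248 1794 (.cons 296 (.leaf 201 1606 (.leaf 320 1798 .nil)) .nil)) .nil)))) .nil)) .nil)) .nil)) .nil)) (.cons 227 (.leaf 204 1629 (.cons 300 (.leaf 324 1820 (.cons 297 (.leaf 298 2179 (.cons 226 (.leaf 202 1623 (.cons 225 (.cons 248 (.leaf 249 1794 (.cons 224 (.leaf 200 1604 (.cons 321 (.leaf 296 1796 (.leaf 345 1991 .nil)) .nil)) .nil)) (.cons 200 (.leaf 201 1603 (.cons 224 (.leaf 248 1604 (.leaf 199 1595 .nil))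 .nil)) (.cons 249 (.leaf 248 1794 (.cons 296 (.leaf 201 1606 (.leaf 320 1798 .nil)) .nil)) (.cons 200 (.leaf 201 1603 (.cons 224 (.leaf 249 1607 (.leaf 199 1595 .nil)) .nil)) .nil)))) .nil)) .nil)) .nil)) .nil)) (.cons 227 (.leaf 204 1629 (.cons 226 (.leaf 202 1623 (.cons 298 (.leaf 322 1814 (.cons 225 (.cons 200 (.leaf 201 1603 (.cons 224 (.leaf 252 1792 (.leaf 199 1595 .nil)) .nil)) (.cons 200 (.leaf 201 1603 (.cons 224 (.leaf 199 1595 (.cons 297 (.leaf 248 1604 (.leaf 300 2179 .nil)) .nil)) .nil)) (.cons 249 (.leaf 248 1794 (.cons 296 (.leaf 201 1606 (.cons 297 (.leaf 271 2171 (.leaf 300 2179 .nil)) .nil)) .nil)) (.cons 252 (.leaf 323 1821 (.leaf 224 1792 .nil)) .nil)))) .nil)) .nil)) .nil)) .nil))))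
noncomputable def t174 : T := .cons 228 t173 (.cons 323 t172 (.cons 227 (.cons 202 (.leaf 226 1623 (.cons 178 (.leaf 203 1431 (.cons 298 (.leaf 322 1814 (.cons 300 (.leaf 324 1820 (.leaf 297 2179 .nil)) .nil)) .nil)) .nil)) (.cons 204 (.leaf 228 1629 (.cons 202 (.leaf 226 1623 (.cons 203 (.leaf 178 1431 (.leaf 180 1437 .nil)) .nil)) .nil)) (.cons 204 (.leaf 228 1629 (.cons 180 (.leaf 203 1437 (.cons 298 (.leaf 322 1814 (.cons 300 (.leaf 324 1820 (.leaf 297 2179 .nil)) .nil)) .nil)) .nil)) (.cons 202 (.leaf 226 1623 (.cons 204 (.leaf 228 1629 (.cons 298 (.leaf 322 1814 (.cons 300 (.leaf 324 1820 (.leaf 297 2179 .nil)) .nil)) .nil)) .nil)) .nil)))) (.cons 227 (.cons 228 (.leaf 204 1629 (.cons 323 (.leaf 252 1821 (.cons 324 (.leaf 300 1820 (.leaf 348 2012 .nil)) .nil)) .nil)) (.cons 202 (.leaf 226 1623 (.cons 203 (.leaf 178 1431 (.cons 180 (.leaf 204 1437 (.cons 179 (.leaf 156 1245 (.cons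 324 (.leaf 300 1820 (.cons 248 t169 .nil)) .nil)) .nil)) .nil)) .nil)) (.cons 202 (.leaf 226 1623 (.cons 324 (.leaf 300 1820 (.cons 323 (.leaf 348 2012 (.cons 203 (.leaf 178 1431 (.cons 228 (.leaf 252 1821 (.cons 200 (.leaf 201 1600 (.cons 248 t168 .nil)) .nil)) .nil)) .nil)) .nil)) .nil)) (.cons 228 (.leaf 204 1629 (.cons 226 (.leaf 202 1623 (.cons 252 (.leaf 323 1821 (.cons 225 (.leaf 224 1792 (.leaf 253 1800 .nil)) .nil)) .nil)) .nil)) (.cons 204 (.leaf 228 1629 (.cons 202 (.leaf 226 1623 (.cons 203 (.leaf 178 1431 (.leaf 180 1437 .nil)) .nil)) .nil)) .nil))))) (.cons 227 (.cons 202 (.leaf 226 1623 (.cons 178 (.leaf 203 1431 (.cons 228 (.leaf 204 1629 (.cons 323 (.leaf 252 1821 (.cons 324 (.leaf 300 1820 (.leaf 348 2012 .nil)) .nil)) .nil)) .nil)) .nil)) (.cons 202 (.leaf 226 1623 (.cons 178 (.leaf 203 1431 (.cons 322 (.leaf 298 1814 (.cons 323 (.leaf 346 2006 (.cons 324 (.leaf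 300 1820 (.leaf 348 2012 .nil)) .nil)) .nil)) .nil)) .nil)) (.cons 228 (.leaf 204 1629 (.cons 323 (.leaf 252 1821 (.cons 324 (.leaf 300 1820 (.leaf 348 2012 .nil)) .nil)) .nil)) (.cons 204 (.leaf 228 1629 (.cons 202 (.leaf 226 1623 (.cons 203 (.leaf 178 1431 (.leaf 180 1437 .nil)) .nil)) .nil)) .nil)))) (.cons 228 t167 (.cons 228 t166 (.cons 227 (.cons 204 (.leaf 228 1629 (.cons 202 (.leaf 226 1623 (.cons 298 (.leaf 322 1814 (.cons 203 (.leaf 178 1431 (.leaf 180 1437 .nil)) .nil)) .nil)) .nil)) (.cons 202 (.leaf 226 1623 (.cons 178 (.leaf 203 1431 (.cons 298 (.leaf 322 1814 (.cons 297 (.leaf 300 2179 (.cons 271 (.leaf 270 2160 (.leaf 296 2171 .nil)) .nil)) .nil)) .nil)) .nil)) (.cons 228 (.leaf 204 1629 (.cons 226 (.leaf 202 1623 (.cons 252 (.leaf 323 1821 (.cons 225 (.leaf 224 1792 (.leaf 253 1800 .nil)) .nil)) .nil)) .nil)) (.cons 204 (.leaf 228 1629 (.cons 180 (.leaf 203 1437 (.cons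 298 (.leaf 322 1814 (.cons 297 (.leaf 300 2179 (.cons 271 (.leaf 270 2160 (.leaf 296 2171 .nil)) .nil)) .nil)) .nil)) .nil)) .nil)))) (.cons 298 (.cons 297 (.leaf 300 2179 (.cons 271 (.leaf 270 2160 (.leaf 296 2171 .nil)) .nil)) (.cons 322 (.leaf 227 1814 (.cons 346 (.leaf 323 2006 (.leaf 370 2197 .nil)) .nil)) .nil)) .nil))))))))
noncomputable def t175 : T := .cons 225 (.leaf 201 1606 (.cons 297 (.leaf 320 1798 (.cons 224 (.leaf 200 1607 (.cons 248 (.leaf 321 1796 (.cons 223 (.leaf 199 1599 (.leaf 250 1787 .nil)) .nil)) .nil)) .nil)) .nil)) (.cons 320 (.leaf 344 1989 (.cons 248 (.cons 250 (.leaf 271 1978 (.cons 224 (.leaf 223 1787 (.cons 319 (.leaf 295 1790 (.leaf 343 1982 .nil)) .nil)) .nil)) (.cons 271 (.leaf 250 1978 (.cons 270 (.leaf 269 1961 (.cons 246 (.leaf 245 1963 (.cons 294 (.leaf 293 2154 (.cons 319 (.leaf 343 1982 (.cons 222 (.leaf 295 1780 (.cons 197 (.leaf 221 1583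 (.cons 198 (.leaf 173 1391 (.cons 199 (.leaf 175 1397 (.leaf 223 1589 .nil)) .nil)) .nil)) .nil)) .nil)) .nil)) .nil)) .nil)) .nil)) (.cons 321 (.leaf 345 1988 (.cons 224 (.leaf 297 1796 (.cons 319 (.leaf 295 1790 (.leaf 343 1982 .nil)) .nil)) .nil)) (.cons 321 (.leaf 345 1988 (.cons 224 (.leaf 297 1796 (.cons 199 (.leaf 223 1599 (.cons 200 (.leaf 175 1407 (.leaf 176 1412 .nil)) .nil)) .nil)) .nil)) .nil)))) .nil)) (.cons 225 (.leaf 201 1606 (.cons 297 (.cons 224 (.leaf 200 1607 (.cons 248 (.leaf 321 1796 (.cons 223 (.leaf 199 1599 (.leaf 250 1787 .nil)) .nil)) .nil)) (.cons 226 (.leaf 202 1613 (.cons 250 (.leaf 321 1805 (.cons 271 (.leaf 248 1978 (.leaf 270 1969 .nil)) .nil)) .nil)) (.cons 224 (.leaf 200 1607 (.cons 226 (.leaf 202 1613 (.cons 223 (.leaf 250 1784 (.cons 199 (.leaf 248 1599 (.leaf 198 1587 .nil)) .nil)) .nil)) .nil)) (.cons 226 (.leaf 202 1613 (.cons 200 (.leaf 224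 1607 (.cons 321 (.leaf 250 1805 (.cons 322 (.leaf 298 1804 (.leaf 346 1996 .nil)) .nil)) .nil)) .nil)) (.cons 224 (.leaf 200 1607 (.cons 248 (.leaf 321 1796 (.cons 223 (.leaf 199 1599 (.cons 222 (.leaf 221 1768 (.cons 198 (.leaf 197 1579 (.cons 295 (.leaf 319 1790 (.cons 246 (.leaf 245 1770 (.cons 270 (.leaf 271 1588 (.cons 269 (.leaf 294 2155 (.leaf 293 1582 .nil)) .nil)) .nil)) .nil)) .nil)) .nil)) .nil)) .nil)) .nil)) .nil))))) .nil)) (.cons 225 (.leaf 201 1606 (.cons 320 (.leaf 344 1989 (.leaf 297 1798 .nil)) .nil)) (.cons 225 (.leaf 201 1606 (.cons 320 (.leaf 248 1797 (.leaf 344 1989 .nil)) .nil)) .nil))))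
noncomputable def t176 : T := .cons 200 (.leaf 224 1607 (.cons 202 (.leaf 226 1613 (.cons 320 (.leaf 296 1798 (.cons 321 (.leaf 344 1990 (.cons 345 (.leaf 248 1991 (.cons 346 (.leaf 322 1996 (.leaf 370 2188 .nil)) .nil)) .nil)) .nil)) .nil)) .nil)) (.cons 224 (.leaf 200 1607 (.cons 202 (.leaf 226 1613 (.cons 321 (.leaf 248 1799 (.cons 322 (.leaf 298 1804 (.leaf 346 1996 .nil)) .nil)) .nil)) .nil)) (.cons 320 (.leaf 296 1798 (.cons 202 (.leaf 226 1613 (.cons 321 (.leaf 344 1990 (.cons 322 (.leaf 298 1804 (.leaf 346 1996 .nil)) .nil)) .nil)) .nil)) (.cons 320 (.leaf 296 1798 (.cons 224 (.leaf 200 1607 (.cons 321 (.leaf 248 1799 (.leaf 344 1990 .nil)) .nil)) .nil)) (.cons 296 (.leaf 320 1798 (.cons 224 (.leaf 200 1607 (.cons 226 (.leaf 202 1613 (.cons 227 (.leaf 252 1792 (.cons 203 (.leaf 204 1601 (.cons 248 (.leaf 228 1794 (.cons 199 (.leaf 223 1599 (.cons 295 (.leaf 319 1790 (.cons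 294 (.leaf 293 2153 (.cons 270 (.leaf 269 2155 (.cons 298 (.leaf 271 2160 (.leaf 322 1804 .nil)) .nil)) .nil)) .nil)) .nil)) .nil)) .nil)) .nil)) .nil)) .nil)) .nil)) .nil))))
noncomputable def t177 : T := .cons 297 (.cons 200 (.leaf 224 1607 (.cons 202 (.leaf 226 1613 (.cons 320 (.leaf 296 1798 (.cons 321 (.leaf 344 1990 (.cons 345 (.leaf 248 1991 (.cons 346 (.leaf 322 1996 (.leaf 370 2188 .nil)) .nil)) .nil)) .nil)) .nil)) .nil)) (.cons 224 (.leaf 200 1607 (.cons 202 (.leaf 226 1613 (.cons 178 (.leaf 201 1421 (.cons 203 (.leaf 227 1431 (.cons 321 (.leaf 248 1799 (.cons 322 (.leaf 298 1804 (.leaf 346 1996 .nil)) .nil)) .nil)) .nil)) .nil)) .nil)) (.cons 296 (.leaf 201 1606 (.leaf 320 1798 .nil)) .nil))) (.cons 297 t176 (.cons 201 (.cons 176 (.leaf 200 1415 (.cons 177 (.leaf 248 1414 (.leaf 152 1223 .nil)) .nil)) (.cons 177 (.leaf 248 1414 (.cons 178 (.leaf 202 1421 (.leaf 154 1229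 .nil)) .nil)) (.cons 176 (.leaf 200 1415 (.cons 202 (.leaf 178 1421 (.cons 297 (.leaf 226 1613 (.cons 322 (.leaf 298 1804 (.cons 321 (.leaf 346 1996 (.cons 248 (.leaf 345 1991 (.leaf 224 1799 .nil)) .nil)) .nil)) .nil)) .nil)) .nil)) (.cons 202 (.leaf 178 1421 (.cons 200 (.leaf 176 1415 (.cons 224 (.leaf 297 1607 (.cons 203 (.leaf 204 1602 (.leaf 223 1594 .nil)) .nil)) .nil)) .nil)) .nil)))) (.cons 201 (.leaf 296 1606 (.cons 177 (.leaf 248 1414 (.cons 178 (.leaf 202 1421 (.leaf 154 1229 .nil)) .nil)) .nil)) (.cons 296 (.leaf 201 1606 (.cons 320 (.leaf 344 1989 (.leaf 297 1798 .nil)) .nil)) .nil))))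
noncomputable def t178 : T := .cons 296 (.cons 225 (.leaf 201 1606 (.cons 297 (.leaf 320 1798 (.cons 226 (.leaf 202 1613 (.cons 250 (.leaf 252 1986 (.leaf 321 1805 .nil)) .nil)) .nil)) .nil)) (.cons 320 (.leaf 344 1989 (.cons 248 (.cons 250 (.leaf 271 1978 (.leaf 252 1986 .nil)) (.cons 321 (.leaf 345 1988 (.cons 224 (.leaf 297 1796 (.cons 319 (.leaf 295 1790 (.leaf 343 1982 .nil)) .nil)) .nil)) .nil)) .nil)) (.cons 225 (.leaf 201 1606 (.cons 297 (.cons 226 (.leaf 202 1613 (.cons 250 (.leaf 252 1986 (.leaf 321 1805 .nil)) .nil)) (.cons 224 (.leaf 200 1607 (.cons 248 (.leaf 321 1796 (.cons 223 (.leaf 199 1599 (.cons 222 (.leaf 221 1768 (.cons 198 (.leaf 197 1579 (.cons 295 (.leaf 319 1790 (.cons 246 (.leaf 245 1770 (.cons 270 (.leaf 271 1588 (.cons 269 (.leaf 294 2155 (.leaf 293 1582 .nil)) .nil)) .nil)) .nil)) .nil)) .nil)) .nil)) .nil)) .nil)) (.cons 250 (.leaf 252 1986 (.cons 271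 (.leaf 248 1978 (.leaf 270 1969 .nil)) .nil)) .nil))) .nil)) (.cons 320 (.leaf 344 1989 (.cons 225 (.leaf 201 1606 (.leaf 248 1797 .nil)) .nil)) .nil)))) (.cons 225 t177 (.cons 296 t175 (.cons 250 (.leaf 252 1986 (.cons 271 (.leaf 248 1978 (.leaf 270 1969 .nil)) .nil)) (.cons 250 (.leaf 252 1986 (.cons 271 (.leaf 270 1969 (.cons 225 (.cons 224 (.cons 223 (.leaf 226 1784 (.leaf 222 1776 .nil)) (.cons 200 (.leaf 297 1607 (.cons 176 (.leaf 201 1415 (.leaf 152 1220 .nil)) .nil)) .nil)) (.cons 297 (.cons 200 (.leaf 224 1607 (.cons 320 (.leaf 296 1798 (.cons 321 (.leaf 226 1805 (.leaf 344 1990 .nil)) .nil)) .nil)) (.cons 200 (.leaf 224 1607 (.cons 320 (.leaf 296 1798 (.cons 321 (.leaf 344 1990 (.cons 322 (.leaf 298 1804 (.leaf 346 1996 .nil)) .nil)) .nil)) .nil)) (.cons 224 (.leaf 200 1607 (.cons 223 (.leaf 226 1784 (.leaf 222 1776 .nil)) .nil)) (.cons 226 (.leaf 202 1613 (.leaf 321 1805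 .nil)) .nil)))) (.cons 296 (.leaf 201 1606 (.cons 320 (.leaf 344 1989 (.leaf 297 1798 .nil)) .nil)) (.cons 201 (.leaf 296 1606 (.cons 176 (.leaf 200 1415 (.cons 177 (.leaf 152 1223 (.cons 153 (.leaf 226 1228 (.cons 154 (.leaf 178 1229 (.leaf 130 1037 .nil)) .nil)) .nil)) .nil)) .nil)) .nil)))) .nil)) .nil)) (.cons 250 (.leaf 252 1986 (.cons 225 (.cons 201 (.leaf 296 1606 (.cons 176 (.leaf 200 1415 (.cons 177 (.leaf 248 1414 (.leaf 152 1223 .nil)) .nil)) .nil)) (.cons 297 (.cons 202 (.leaf 226 1613 (.cons 224 (.leaf 200 1607 (.cons 223 (.leaf 248 1787 (.leaf 222 1776 .nil)) .nil)) .nil)) (.cons 200 (.leaf 224 1607 (.cons 320 (.leaf 296 1798 (.cons 321 (.leaf 344 1990 (.cons 322 (.leaf 298 1804 (.leaf 346 1996 .nil)) .nil)) .nil)) .nil)) (.cons 226 (.leaf 202 1613 (.leaf 321 1805 .nil)) .nil))) (.cons 224 (.cons 223 (.leaf 226 1784 (.leaf 248 1787 .nil)) (.cons 200 (.leaf 297 1607 (.cons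 176 (.leaf 201 1415 (.leaf 248 1412 .nil)) .nil)) (.cons 223 (.leaf 226 1784 (.leaf 222 1776 .nil)) .nil))) (.cons 224 (.cons 223 (.leaf 226 1784 (.leaf 222 1776 .nil)) (.cons 200 (.leaf 297 1607 (.cons 176 (.leaf 201 1415 (.leaf 152 1220 .nil)) .nil)) .nil)) (.cons 296 (.leaf 201 1606 (.cons 320 (.leaf 248 1797 (.leaf 344 1989 .nil)) .nil)) .nil))))) .nil)) .nil)))))
noncomputable def t179 : T := .cons 321 (.leaf 320 2563 (.cons 297 (.leaf 248 1991 (.cons 369 (.leaf 296 2183 (.leaf 368 2754 .nil)) .nil)) .nil)) (.cons 368 (.leaf 369 2754 (.cons 344 (.leaf 367 2746 (.cons 297 (.leaf 321 2182 (.cons 298 (.leaf 300 2179 (.cons 271 (.leaf 270 2160 (.leaf 296 2171 .nil)) .nil)) .nil)) .nil)) .nil)) (.cons 368 (.leaf 369 2754 (.cons 344 (.leaf 367 2746 (.cons 297 (.cons 298 (.leaf 300 2179 (.cons 271 (.leaf 270 2160 (.leaf 296 2171 .nil)) .nil)) (.cons 298 (.leaf 300 2179 (.cons 271 (.leaf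 270 2160 (.cons 319 (.leaf 320 2555 (.cons 343 (.leaf 318 2547 (.leaf 295 2172 .nil)) .nil)) .nil)) .nil)) (.cons 320 (.leaf 296 2181 (.leaf 319 2555 .nil)) .nil))) .nil)) .nil)) (.cons 321 (.leaf 320 2563 (.cons 226 (.leaf 250 1815 (.cons 297 (.leaf 248 1991 (.cons 296 (.leaf 369 2183 (.cons 298 (.leaf 271 2171 (.leaf 300 2179 .nil)) .nil)) .nil)) .nil)) .nil)) (.cons 321 (.leaf 320 2563 (.cons 226 (.leaf 250 1815 (.cons 297 (.leaf 248 1991 (.cons 298 (.leaf 300 2179 (.cons 271 (.leaf 270 2160 (.leaf 296 2171 .nil)) .nil)) .nil)) .nil)) .nil)) (.cons 320 (.leaf 321 2563 (.cons 344 (.leaf 319 2555 (.cons 368 (.leaf 369 2754 (.leaf 367 2746 .nil)) .nil)) .nil)) .nil)))))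
noncomputable def t180 : T := .cons 298 (.leaf 300 2179 (.cons 271 (.leaf 270 2160 (.leaf 296 2171 .nil)) .nil)) (.cons 252 (.leaf 228 1821 (.cons 250 (.leaf 226 1815 (.cons 345 (.cons 347 (.leaf 370 2198 (.cons 248 (.leaf 321 1991 (.cons 344 (.leaf 324 2561 (.cons 319 (.leaf 320 2555 (.cons 200 (.leaf 224 1604 (.cons 343 (.leaf 318 2547 (.cons 367 (.leaf 366 2738 (.leaf 368 2746 .nil)) .nil)) .nil)) .nil)) .nil)) .nil)) .nil)) (.cons 347 (.leaf 370 2198 (.cons 344 (.leaf 324 2561 (.cons 319 (.leaf 320 2555 (.cons 343 (.leaf 318 2547 (.cons 367 (.leaf 366 2738 (.leaf 368 2746 .nil)) .nil)) .nil)) .nil)) .nil)) (.cons 321 (.leaf 248 1991 (.cons 344 (.leaf 368 2182 (.cons 347 (.leaf 324 2561 (.cons 296 (.leaf 369 2183 (.cons 319 (.leaf 320 2555 (.cons 343 (.leaf 318 2547 (.cons 367 (.leaf 295 2173 (.leaf 366 2738 .nil)) .nil)) .nil)) .nil)) .nil)) .nil)) .nil)) (.cons 321 (.leaf 248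 1991 (.leaf 370 2188 .nil)) .nil)))) .nil)) .nil)) (.cons 298 (.leaf 300 2179 (.cons 271 (.leaf 270 2160 (.cons 345 (.cons 370 (.leaf 347 2198 (.leaf 321 2188 .nil)) (.cons 226 (.leaf 250 1815 (.cons 347 (.leaf 370 2198 (.cons 344 (.leaf 324 2561 (.cons 228 (.leaf 252 1821 (.cons 319 (.leaf 320 2555 (.cons 343 (.leaf 318 2547 (.cons 295 (.leaf 248 1981 (.leaf 368 2172 .nil)) .nil)) .nil)) .nil)) .nil)) .nil)) .nil)) (.cons 321 (.leaf 248 1991 (.cons 344 (.leaf 368 2182 (.cons 347 (.leaf 324 2561 (.cons 319 (.leaf 320 2555 (.cons 343 (.leaf 318 2547 (.cons 366 (.leaf 367 2738 (.cons 342 (.leaf 295 2166 (.leaf 365 2730 .nil)) .nil)) .nil)) .nil)) .nil)) .nil)) .nil)) (.cons 321 (.leaf 248 1991 (.leaf 370 2188 .nil)) .nil)))) .nil)) .nil)) .nil))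
noncomputable def t181 : T := .cons 348 (.leaf 324 2012 (.cons 347 (.leaf 372 2204 (.cons 346 (.leaf 322 2006 (.leaf 370 2198 .nil)) .nil)) .nil)) (.cons 324 (.leaf 348 2012 (.cons 252 (.leaf 228 1821 (.cons 250 (.leaf 226 1815 (.cons 297 (.cons 298 (.leaf 300 2179 (.leaf 296 2368 .nil)) (.cons 321 (.cons 322 (.leaf 296 2371 (.cons 300 (.leaf 320 2369 (.leaf 301 2377 .nil)) .nil)) (.cons 248 (.leaf 345 1991 (.cons 224 (.leaf 200 1604 (.leaf 296 1796 .nil)) .nil)) (.cons 345 (.leaf 248 1991 (.cons 344 (.leaf 368 2182 (.leaf 322 2562 .nil)) .nil)) .nil))) (.cons 298 (.leaf 300 2179 (.cons 325 (.leaf 326 2387 (.leaf 322 2379 .nil)) .nil)) (.cons 298 (.leaf 296 2368 (.cons 325 (.leaf 326 2387 (.leaf 322 2379 .nil)) .nil)) .nil)))) .nil)) .nil)) .nil)) (.cons 346 (.leaf 322 2006 (.cons 297 t180 .nil)) (.cons 348 (.leaf 324 2012 (.cons 347 (.leaf 372 2204 (.cons 346 (.leaf 370 2198 (.cons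 252 (.leaf 228 1821 (.cons 345 t179 .nil)) .nil)) .nil)) .nil)) (.cons 252 (.leaf 228 1821 (.cons 250 (.leaf 226 1815 (.cons 347 (.cons 322 (.leaf 346 2006 (.cons 372 (.leaf 348 2204 (.cons 371 (.leaf 396 2396 (.cons 298 (.leaf 395 2391 (.cons 297 (.leaf 300 2179 (.cons 296 (.leaf 271 2171 (.leaf 295 2360 .nil)) .nil)) .nil)) .nil)) .nil)) .nil)) (.cons 372 (.leaf 348 2204 (.cons 371 (.leaf 396 2396 (.cons 394 (.leaf 370 2390 (.cons 395 (.leaf 418 2582 (.cons 298 (.leaf 322 2391 (.cons 297 (.leaf 300 2179 (.cons 271 (.leaf 270 2160 (.leaf 296 2171 .nil)) .nil)) .nil)) .nil)) .nil)) .nil)) .nil)) (.cons 370 (.leaf 346 2198 (.cons 371 (.leaf 394 2390 (.cons 372 (.leaf 348 2204 (.leaf 396 2396 .nil)) .nil)) .nil)) (.cons 346 (.leaf 322 2006 (.leaf 370 2198 .nil)) .nil)))) .nil)) .nil)) .nil))))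
noncomputable def t182 : T := .cons 227 (.cons 226 (.leaf 202 1623 (.cons 323 (.leaf 250 1815 (.cons 324 (.leaf 300 1820 (.leaf 348 2012 .nil)) .nil)) .nil)) (.cons 228 (.leaf 204 1629 (.cons 323 (.leaf 252 1821 (.cons 324 (.leaf 300 1820 (.leaf 348 2012 .nil)) .nil)) .nil)) (.cons 226 (.leaf 202 1623 (.cons 204 (.leaf 228 1629 (.cons 180 (.leaf 203 1437 (.cons 322 (.leaf 298 1814 (.cons 323 (.leaf 250 1815 (.leaf 346 2006 .nil)) .nil)) .nil)) .nil)) .nil)) (.cons 298 (.leaf 322 1814 (.cons 300 (.leaf 324 1820 (.leaf 297 2179 .nil)) .nil)) .nil)))) (.cons 227 (.cons 202 (.leaf 226 1623 (.cons 178 (.leaf 203 1431 (.cons 298 (.leaf 322 1814 (.cons 300 (.leaf 324 1820 (.leaf 297 2179 .nil)) .nil)) .nil)) .nil)) (.cons 202 (.leaf 226 1623 (.cons 203 (.leaf 178 1431 (.cons 204 (.leaf 180 1437 (.leaf 228 1629 .nil)) .nil)) .nil)) (.cons 298 (.leaf 322 1814 (.cons 300 (.leaf 324 1820 (.leaf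 297 2179 .nil)) .nil)) .nil))) (.cons 323 t181 (.cons 323 (.cons 228 (.leaf 252 1821 (.cons 226 (.leaf 250 1815 (.cons 346 (.leaf 322 2006 (.cons 347 (.leaf 370 2198 (.cons 227 (.leaf 202 1623 (.leaf 204 1629 .nil)) .nil)) .nil)) .nil)) .nil)) (.cons 228 (.leaf 252 1821 (.cons 226 (.leaf 250 1815 (.cons 227 (.leaf 202 1623 (.leaf 204 1629 .nil)) .nil)) .nil)) (.cons 228 (.leaf 252 1821 (.cons 227 (.leaf 204 1629 (.cons 324 (.leaf 300 1820 (.leaf 348 2012 .nil)) .nil)) .nil)) (.cons 226 (.leaf 250 1815 (.cons 346 (.leaf 322 2006 (.cons 347 (.leaf 370 2198 (.cons 348 (.leaf 324 2012 (.leaf 372 2204 .nil)) .nil)) .nil)) .nil)) .nil)))) (.cons 227 (.cons 202 (.leaf 226 1623 (.cons 203 (.leaf 178 1431 (.cons 204 (.leaf 180 1437 (.leaf 228 1629 .nil)) .nil)) .nil)) (.cons 228 (.leaf 204 1629 (.cons 323 (.leaf 252 1821 (.cons 324 (.leaf 300 1820 (.leaf 348 2012 .nil)) .nil)) .nil)) (.cons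 226 (.leaf 202 1623 (.cons 323 (.leaf 250 1815 (.cons 324 (.leaf 300 1820 (.leaf 348 2012 .nil)) .nil)) .nil)) .nil))) (.cons 323 (.cons 228 (.leaf 252 1821 (.cons 226 (.leaf 250 1815 (.cons 346 (.leaf 322 2006 (.cons 347 (.leaf 370 2198 (.cons 227 (.leaf 202 1623 (.leaf 204 1629 .nil)) .nil)) .nil)) .nil)) .nil)) (.cons 226 (.leaf 250 1815 (.cons 227 (.leaf 202 1623 (.cons 228 (.leaf 204 1629 (.leaf 252 1821 .nil)) .nil)) .nil)) (.cons 228 (.leaf 252 1821 (.cons 227 (.leaf 204 1629 (.cons 322 (.leaf 298 1814 (.leaf 346 2006 .nil)) .nil)) .nil)) (.cons 322 (.leaf 346 2006 (.cons 226 (.leaf 250 1815 (.cons 227 (.leaf 202 1623 (.leaf 298 1814 .nil)) .nil)) .nil)) (.cons 346 (.leaf 322 2006 (.cons 226 (.leaf 250 1815 (.cons 347 (.leaf 370 2198 (.cons 348 (.leaf 324 2012 (.leaf 372 2204 .nil)) .nil)) .nil)) .nil)) .nil))))) (.cons 227 (.cons 204 (.leaf 228 1629 (.cons 202 (.leaf 226 1623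 (.cons 298 (.leaf 322 1814 (.cons 203 (.leaf 178 1431 (.leaf 180 1437 .nil)) .nil)) .nil)) .nil)) (.cons 204 (.leaf 228 1629 (.cons 180 (.leaf 203 1437 (.cons 298 (.leaf 322 1814 (.cons 297 (.leaf 300 2179 (.cons 271 (.leaf 270 2160 (.leaf 296 2171 .nil)) .nil)) .nil)) .nil)) .nil)) (.cons 202 (.leaf 226 1623 (.cons 178 (.leaf 203 1431 (.cons 298 (.leaf 322 1814 (.cons 297 (.leaf 300 2179 (.cons 271 (.leaf 270 2160 (.leaf 296 2171 .nil)) .nil)) .nil)) .nil)) .nil)) (.cons 226 (.leaf 202 1623 (.cons 228 (.leaf 204 1629 (.cons 252 (.leaf 323 1821 (.cons 225 (.leaf 224 1792 (.leaf 253 1800 .nil)) .nil)) .nil)) .nil)) .nil)))) (.cons 323 (.cons 228 (.leaf 252 1821 (.cons 346 (.leaf 322 2006 (.cons 347 (.leaf 370 2198 (.cons 348 (.leaf 324 2012 (.leaf 372 2204 .nil)) .nil)) .nil)) .nil)) (.cons 228 (.leaf 252 1821 (.cons 227 (.leaf 204 1629 (.cons 324 (.leaf 300 1820 (.leaf 348 2012 .nil))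 .nil)) .nil)) (.cons 322 (.leaf 346 2006 (.cons 227 (.leaf 298 1814 (.cons 228 (.leaf 204 1629 (.leaf 252 1821 .nil)) .nil)) .nil)) (.cons 322 (.leaf 346 2006 (.cons 324 (.leaf 348 2012 (.cons 227 (.leaf 298 1814 (.leaf 300 1820 .nil)) .nil)) .nil)) .nil)))) (.cons 323 (.cons 226 (.leaf 250 1815 (.cons 227 (.leaf 202 1623 (.cons 324 (.leaf 300 1820 (.leaf 348 2012 .nil)) .nil)) .nil)) (.cons 226 (.leaf 250 1815 (.cons 227 (.leaf 202 1623 (.cons 322 (.leaf 298 1814 (.leaf 346 2006 .nil)) .nil)) .nil)) (.cons 322 (.leaf 346 2006 (.cons 324 (.leaf 348 2012 (.cons 227 (.leaf 298 1814 (.leaf 300 1820 .nil)) .nil)) .nil)) (.cons 226 (.leaf 250 1815 (.cons 346 (.leaf 322 2006 (.cons 347 (.leaf 370 2198 (.cons 348 (.leaf 324 2012 (.leaf 372 2204 .nil)) .nil)) .nil)) .nil)) .nil)))) .nil))))))))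
noncomputable def t183 : T := .cons 271 (.leaf 248 1978 (.leaf 270 1969 .nil)) (.cons 226 (.cons 202 (.leaf 178 1428 (.cons 297 (.leaf 225 1613 (.leaf 321 1805 .nil)) .nil)) (.cons 297 (.leaf 321 1805 (.cons 299 (.leaf 323 1815 (.cons 300 (.leaf 298 2179 (.cons 227 (.leaf 324 1820 (.cons 228 (.leaf 204 1629 (.leaf 248 1793 .nil)) .nil)) .nil)) .nil)) .nil)) (.cons 202 (.leaf 178 1428 (.cons 299 (.leaf 227 1623 (.leaf 323 1815 .nil)) .nil)) .nil))) (.cons 271 (.leaf 270 1969 (.cons 226 (.cons 202 (.leaf 178 1428 (.cons 225 (.leaf 297 1613 (.cons 299 (.leaf 227 1623 (.leaf 323 1815 .nil)) .nil)) .nil)) (.cons 297 (.leaf 321 1805 (.cons 225 (.cons 296 (.leaf 201 1606 (.leaf 320 1798 .nil)) (.cons 298 (.leaf 322 1804 (.cons 299 (.leaf 323 1815 (.leaf 300 2179 .nil)) .nil)) .nil)) .nil)) (.cons 202 (.leaf 178 1428 (.cons 299 (.leaf 227 1623 (.leaf 323 1815 .nil)) .nil)) (.cons 202 (.leaf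 178 1428 (.cons 225 (.leaf 297 1613 (.cons 201 (.leaf 296 1606 (.cons 153 (.leaf 177 1228 (.cons 200 (.leaf 176 1415 (.cons 199 (.leaf 198 1584 (.leaf 227 1592 .nil)) .nil)) .nil)) .nil)) .nil)) .nil)) .nil)))) .nil)) .nil))
noncomputable def t184 : T := .cons 201 (.leaf 296 1606 (.cons 176 (.leaf 200 1415 (.cons 202 (.leaf 178 1421 (.cons 226 (.leaf 297 1613 (.cons 227 (.leaf 299 1623 (.cons 228 (.leaf 248 1794 (.leaf 229 1611 .nil)) .nil)) .nil)) .nil)) .nil)) .nil)) (.cons 297 (.cons 224 (.leaf 200 1607 (.cons 226 (.leaf 202 1613 (.cons 227 (.leaf 252 1792 (.cons 204 (.leaf 203 1601 (.cons 228 (.leaf 299 1629 (.leaf 248 1794 .nil)) .nil)) .nil)) .nil)) .nil)) (.cons 320 (.leaf 296 1798 (.cons 202 (.leaf 226 1613 (.cons 321 (.leaf 344 1990 (.cons 322 (.leaf 298 1804 (.leaf 346 1996 .nil)) .nil)) .nil)) .nil)) (.cons 320 (.leaf 296 1798 (.cons 224 (.leaf 200 1607 (.cons 321 (.leaf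 248 1799 (.leaf 344 1990 .nil)) .nil)) .nil)) .nil))) (.cons 201 (.cons 176 (.leaf 200 1415 (.cons 202 (.leaf 178 1421 (.cons 226 (.leaf 297 1613 (.cons 227 (.leaf 299 1623 (.cons 228 (.leaf 248 1794 (.leaf 229 1611 .nil)) .nil)) .nil)) .nil)) .nil)) (.cons 177 (.leaf 248 1414 (.cons 178 (.leaf 202 1421 (.leaf 154 1229 .nil)) .nil)) (.cons 176 (.leaf 200 1415 (.cons 177 (.leaf 248 1414 (.leaf 152 1223 .nil)) .nil)) (.cons 176 (.leaf 200 1415 (.cons 177 (.leaf 152 1223 (.cons 178 (.leaf 202 1421 (.leaf 154 1229 .nil)) .nil)) .nil)) .nil)))) (.cons 201 (.leaf 296 1606 (.cons 176 (.leaf 200 1415 (.cons 177 (.leaf 248 1414 (.leaf 152 1223 .nil)) .nil)) .nil)) (.cons 296 (.leaf 201 1606 (.cons 320 (.leaf 344 1989 (.leaf 297 1798 .nil)) .nil)) .nil))))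
noncomputable def t185 : T := .cons 249 (.cons 250 (.leaf 252 1986 (.cons 271 (.leaf 248 1978 (.leaf 270 1969 .nil)) .nil)) (.cons 225 t184 (.cons 250 t183 (.cons 250 (.leaf 252 1986 (.cons 271 (.leaf 270 1969 (.cons 226 (.cons 202 (.leaf 178 1428 (.cons 225 (.leaf 297 1613 (.cons 299 (.leaf 227 1623 (.leaf 323 1815 .nil)) .nil)) .nil)) (.cons 297 (.leaf 321 1805 (.cons 225 (.cons 296 (.leaf 201 1606 (.leaf 320 1798 .nil)) (.cons 298 (.leaf 322 1804 (.cons 299 (.leaf 323 1815 (.leaf 300 2179 .nil)) .nil)) .nil)) .nil)) (.cons 202 (.leaf 178 1428 (.cons 299 (.leaf 227 1623 (.leaf 323 1815 .nil)) .nil)) (.cons 202 (.leaf 178 1428 (.cons 225 (.leaf 297 1613 (.cons 201 (.leaf 296 1606 (.cons 153 (.leaf 177 1228 (.cons 200 (.leaf 176 1415 (.cons 199 (.leaf 198 1584 (.leaf 227 1592 .nil)) .nil)) .nil)) .nil)) .nil)) .nil)) .nil)))) .nil)) .nil)) .nil)))) (.cons 299 (t182) (.cons 249 t178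 (.cons 299 t174 (.cons 249 t164 (.cons 299 t161 (.cons 249 (.cons 250 (.leaf 252 1986 (.cons 227 (.cons 299 (.cons 226 (.leaf 202 1623 (.leaf 323 1815 .nil)) (.cons 204 (.leaf 228 1629 (.cons 180 (.leaf 203 1437 (.cons 322 (.leaf 298 1814 (.cons 271 (.leaf 248 1978 (.leaf 270 1969 .nil)) .nil)) .nil)) .nil)) .nil)) (.cons 299 (.cons 226 (.leaf 202 1623 (.leaf 323 1815 .nil)) (.cons 204 (.leaf 228 1629 (.cons 180 (.leaf 203 1437 (.cons 322 (.leaf 298 1814 (.cons 323 (.leaf 346 2006 (.cons 324 (.leaf 300 1820 (.leaf 348 2012 .nil)) .nil)) .nil)) .nil)) .nil)) (.cons 202 (.leaf 226 1623 (.cons 203 (.leaf 178 1431 (.cons 204 (.leaf 180 1437 (.leaf 228 1629 .nil)) .nil)) .nil)) .nil))) (.cons 271 (.leaf 248 1978 (.leaf 270 1969 .nil)) .nil))) .nil)) (.cons 227 t154 (.cons 248 t150 (.cons 250 (.leaf 252 1986 (.cons 227 t148 .nil)) (.cons 250 (.leaf 252 1986 (.cons 271 (.leaf 248 1978 (.leaf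 270 1969 .nil)) .nil)) .nil))))) (.cons 250 (.cons 249 (.leaf 252 1986 (.cons 271 (.leaf 248 1978 (.leaf 270 1969 .nil)) .nil)) (.cons 299 t145 (.cons 226 (.cons 202 (.leaf 178 1428 (.cons 299 (.leaf 227 1623 (.leaf 323 1815 .nil)) .nil)) (.cons 299 (.leaf 323 1815 (.cons 227 (.cons 228 (.leaf 204 1629 (.cons 229 (.leaf 230 1810 (.leaf 249 1802 .nil)) .nil)) (.cons 298 (.leaf 322 1814 (.cons 300 (.leaf 324 1820 (.leaf 297 2179 .nil)) .nil)) .nil)) .nil)) (.cons 202 (.leaf 178 1428 (.cons 249 (.cons 297 (.leaf 225 1613 (.leaf 321 1805 .nil)) (.cons 271 (.leaf 248 1978 (.leaf 270 1969 .nil)) .nil)) .nil)) .nil))) .nil))) (.cons 249 (t144) (.cons 299 t139 (.cons 249 (.cons 252 (.leaf 250 1986 (.cons 225 t138 .nil)) (.cons 225 t137 (.cons 252 (.leaf 250 1986 (.cons 299 (.cons 298 (.cons 227 (.leaf 322 1814 (.cons 300 (.leaf 324 1820 (.leaf 297 2179 .nil)) .nil)) (.cons 322 (.leaf 227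 1814 (.cons 346 (.leaf 323 2006 (.leaf 370 2197 .nil)) .nil)) (.cons 297 (.leaf 300 2179 (.cons 271 (.leaf 270 2160 (.leaf 296 2171 .nil)) .nil)) .nil))) (.cons 227 t136 (.cons 323 (.leaf 228 1821 (.cons 346 (.leaf 322 2006 (.cons 347 (.leaf 370 2198 (.cons 348 (.leaf 324 2012 (.leaf 372 2204 .nil)) .nil)) .nil)) .nil)) (.cons 228 (.leaf 323 1821 (.cons 204 (.leaf 180 1438 (.leaf 227 1629 .nil)) .nil)) .nil)))) .nil)) (.cons 250 (.leaf 252 1986 (.cons 271 (.leaf 248 1978 (.leaf 270 1969 .nil)) .nil)) (.cons 252 (.leaf 250 1986 (.cons 225 t135 .nil)) .nil))))) (.cons 249 t134 (.cons 299 t131 (.cons 249 t129 (.cons 249 (.cons 250 (.leaf 252 1986 (.cons 271 (.leaf 248 1978 (.leaf 270 1969 .nil)) .nil)) (.cons 225 t126 (.cons 296 t125 (.cons 250 (.leaf 252 1986 (.cons 271 (.leaf 270 1969 (.cons 226 (.cons 202 (.leaf 178 1428 (.cons 225 (.leaf 297 1613 (.cons 299 (.leaf 227 1623 (.leaf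 323 1815 .nil)) .nil)) .nil)) (.cons 297 (.leaf 321 1805 (.cons 225 (.cons 296 (.leaf 201 1606 (.leaf 320 1798 .nil)) (.cons 224 (.leaf 200 1607 (.leaf 223 1784 .nil)) .nil)) .nil)) (.cons 202 (.leaf 178 1428 (.cons 299 (.leaf 227 1623 (.leaf 323 1815 .nil)) .nil)) .nil))) .nil)) .nil)) .nil)))) (.cons 249 t124 .nil)))))))))))))))
noncomputable def t186 : T := .cons 296 (.leaf 295 2170 (.cons 299 (.leaf 300 2176 (.cons 298 (.leaf 271 2168 (.cons 251 (.leaf 252 1985 (.cons 227 (.leaf 203 1622 (.leaf 322 1814 .nil)) .nil)) .nil)) .nil)) .nil)) (.cons 299 (.leaf 300 2176 (.cons 271 (.leaf 298 2168 (.cons 294 (.leaf 295 2162 (.cons 270 (.leaf 293 2154 (.cons 245 (.leaf 246 1963 (.cons 269 (.leaf 244 1955 (.cons 249 (.leaf 248 1961 (.leaf 250 1969 .nil)) .nil)) .nil)) .nil)) .nil)) .nil)) .nil)) (.cons 251 (.leaf 252 1985 (.cons 271 (.leaf 250 1977 (.cons 295 (.leaf 296 2170 (.leaf 294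 2162 .nil)) .nil)) .nil)) (.cons 251 (.leaf 252 1985 (.cons 250 (.leaf 271 1977 (.cons 298 (.cons 322 (.leaf 346 2005 (.leaf 227 1813 .nil)) (.cons 227 (.leaf 203 1622 (.cons 226 (.cons 299 (.leaf 202 1620 (.leaf 323 1812 .nil)) (.cons 202 (.leaf 178 1428 (.leaf 297 1614 .nil)) (.cons 299 (.leaf 323 1812 (.leaf 300 2176 .nil)) .nil))) .nil)) (.cons 322 (.leaf 346 2005 (.cons 225 (.leaf 249 1807 (.cons 226 (.leaf 201 1615 (.cons 202 (.leaf 178 1428 (.leaf 299 1620 .nil)) .nil)) .nil)) .nil)) .nil))) .nil)) .nil)) (.cons 251 (.leaf 252 1985 (.cons 299 (.leaf 300 2176 (.cons 296 (.leaf 295 2170 (.cons 227 (.cons 204 (.leaf 228 1629 (.cons 202 (.leaf 226 1623 (.cons 322 (.leaf 298 1814 (.cons 323 (.leaf 346 2006 (.cons 203 (.leaf 178 1431 (.leaf 180 1437 .nil)) .nil)) .nil)) .nil)) .nil)) (.cons 204 (.leaf 228 1629 (.cons 202 (.leaf 226 1623 (.cons 203 (.leaf 178 1431 (.leaf 180 1437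 .nil)) .nil)) .nil)) (.cons 204 (.leaf 228 1629 (.cons 322 (.leaf 298 1814 (.cons 323 (.leaf 346 2006 (.cons 324 (.leaf 348 2012 (.cons 321 (.leaf 297 2371 (.cons 344 (.leaf 345 2562 (.cons 320 (.leaf 249 1989 (.leaf 343 2554 .nil)) .nil)) .nil)) .nil)) .nil)) .nil)) .nil)) (.cons 298 (.leaf 203 1622 (.leaf 322 1814 .nil)) .nil)))) .nil)) .nil)) .nil)) .nil))))
noncomputable def top0 : T := .cons 274 t91 (.cons 224 t90 (.cons 251 t28 (.cons 251 t24 (.cons 248 (t20) (.cons 248 t17 (.cons 274 t14 (.cons 274 t13 (.cons 274 t12 (.cons 274 t11 (.cons 274 (t10) (.cons 274 t9 (.cons 274 t8 (.cons 274 (t7) (.cons 274 t6 (.cons 274 t5 (.cons 274 t4 (.cons 274 t3 (.cons 274 t2 (.cons 274 t1 (.cons 274 t0 .nil))))))))))))))))))))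
noncomputable def top1 : T := .cons 274 t186 (.cons 251 (t185) (.cons 274 t121 (.cons 271 t120 (.cons 271 t118 (.cons 274 t113 (.cons 274 t112 (.cons 274 t106 (.cons 274 t105 (.cons 296 t104 (.cons 296 t100 (.cons 274 (.cons 296 (.leaf 295 2170 (.cons 251 (.leaf 252 1985 (.cons 299 (.leaf 300 2176 (.cons 323 (.cons 250 (.leaf 226 1815 (.leaf 347 2007 .nil)) (.cons 322 (.leaf 346 2006 (.cons 324 (.leaf 348 2012 (.cons 321 (.leaf 297 2371 (.cons 344 (.leaf 345 2562 (.cons 320 (.leaf 249 1989 (.leaf 343 2554 .nil)) .nil)) .nil)) .nil)) .nil)) .nil)) .nil)) .nil)) .nil)) (.cons 299 (.leaf 300 2176 (.cons 271 (.leaf 298 2168 (.cons 294 (.leaf 295 2162 (.cons 270 (.leaf 293 2154 (.cons 245 (.leaf 246 1963 (.cons 269 (.leaf 244 1955 (.cons 249 (.leaf 248 1961 (.leaf 250 1969 .nil)) .nil)) .nil)) .nil)) .nil)) .nil)) .nil)) (.cons 251 (.leaf 252 1985 (.cons 271 (.leaf 250 1977 (.cons 295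 (.leaf 296 2170 (.leaf 294 2162 .nil)) .nil)) .nil)) (.cons 251 (.leaf 252 1985 (.cons 250 (.leaf 271 1977 (.cons 299 (.leaf 300 2176 (.cons 323 (.leaf 226 1815 (.leaf 347 2007 .nil)) .nil)) .nil)) .nil)) (.cons 299 (.leaf 300 2176 (.cons 271 (.leaf 298 2168 (.cons 295 (.leaf 296 2170 (.leaf 294 2162 .nil)) .nil)) .nil)) .nil))))) (.cons 274 (.cons 299 (.leaf 300 2176 (.cons 271 (.leaf 298 2168 (.cons 294 (.leaf 295 2162 (.cons 270 (.leaf 293 2154 (.cons 245 (.leaf 246 1963 (.cons 269 (.leaf 244 1955 (.cons 249 (.leaf 248 1961 (.leaf 250 1969 .nil)) .nil)) .nil)) .nil)) .nil)) .nil)) .nil)) (.cons 251 (.leaf 252 1985 (.cons 271 (.leaf 250 1977 (.cons 295 (.leaf 296 2170 (.leaf 294 2162 .nil)) .nil)) .nil)) (.cons 299 (.leaf 300 2176 (.cons 251 (.leaf 252 1985 (.cons 271 (.leaf 250 1977 (.leaf 298 2168 .nil)) .nil)) .nil)) (.cons 296 (.leaf 295 2170 (.cons 299 t94 .nil)) (.cons 299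 (.leaf 300 2176 (.cons 271 (.leaf 298 2168 (.cons 295 (.leaf 296 2170 (.leaf 294 2162 .nil)) .nil)) .nil)) .nil))))) (.cons 274 t93 (.cons 274 t92 .nil))))))))))))))

end Vale.Agent.P062.PB.N5D3
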