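import Vale.Agent.P062.Checker

namespace Vale.Agent.P062.PB.N5D4

open Vale.Agent.P062

noncomputable def t0 : T := .cons 251 (.leaf 252 1985 (.cons 247 (.leaf 248 1979 (.cons 271 (.leaf 246 1971 (.leaf 250 1977 .nil)) .nil)) .nil)) (.cons 299 (.leaf 300 2176 (.cons 247 (.leaf 248 1979 (.cons 271 (.leaf 246 1971 (.leaf 298 2168 .nil)) .nil)) .nil)) (.cons 299 (.leaf 300 2176 (.cons 251 (.leaf 252 1985 (.cons 271 (.leaf 250 1977 (.leaf 298 2168 .nil)) .nil)) .nil)) (.cons 248 (.leaf 247 1979 (.cons 299 (.leaf 300 2176 (.cons 251 (.leaf 252 1985 (.cons 227 (.cons 204 (.leaf 228 1629 (.cons 226 (.leaf 202 1623 (.cons 203 (.leaf 180 1437 (.leaf 298 1622 .nil)) .nil)) .nil)) (.cons 203 (.leaf 298 1622 (.cons 204 (.leaf 180 1437 (.leaf 228 1629 .nil)) .nil)) (.cons 204 (.leaf 228 1629 (.cons 226 (.leaf 202 1623 (.cons 323 (.leaf 250 1815 (.cons 348 (.leaf 324 2012 (.cons 347 (.leaf 372 2204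 (.cons 370 (.leaf 346 2198 (.cons 371 (.leaf 298 2199 (.leaf 394 2390 .nil)) .nil)) .nil)) .nil)) .nil)) .nil)) .nil)) (.cons 202 (.leaf 226 1623 (.cons 203 (.leaf 178 1431 (.leaf 298 1622 .nil)) .nil)) (.cons 226 (.leaf 202 1623 (.cons 204 (.leaf 228 1629 (.cons 203 (.leaf 180 1437 (.cons 205 (.leaf 206 1618 (.cons 224 (.leaf 225 1601 (.cons 200 (.leaf 297 1604 (.cons 175 (.leaf 199 1407 (.cons 176 (.leaf 249 1412 (.leaf 151 1215 .nil)) .nil)) .nil)) .nil)) .nil)) .nil)) .nil)) .nil)) .nil))))) .nil)) .nil)) .nil)) .nil)))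
noncomputable def t1 : T := .cons 299 (.leaf 300 2176 (.cons 247 (.leaf 248 1979 (.cons 271 (.leaf 246 1971 (.leaf 298 2168 .nil)) .nil)) .nil)) (.cons 251 (.leaf 252 1985 (.cons 247 (.leaf 248 1979 (.cons 271 (.leaf 246 1971 (.leaf 250 1977 .nil)) .nil)) .nil)) (.cons 299 (.leaf 300 2176 (.cons 251 (.leaf 252 1985 (.cons 298 (.leaf 271 2168 (.cons 227 (.leaf 203 1622 (.leaf 322 1814 .nil)) .nil)) .nil)) .nil)) (.cons 248 (.leaf 247 1979 (.cons 299 (.leaf 300 2176 (.cons 251 (.leaf 252 1985 (.cons 227 (.cons 298 (.leaf 203 1622 (.leaf 322 1814 .nil)) (.cons 226 (.leaf 202 1623 (.cons 204 (.leaf 228 1629 (.cons 203 (.leaf 180 1437 (.cons 205 (.leaf 206 1618 (.cons 224 (.leaf 225 1601 (.cons 200 (.leaf 297 1604 (.cons 175 (.leaf 199 1407 (.cons 176 (.leaf 249 1412 (.leaf 151 1215 .nil)) .nil)) .nil)) .nil)) .nil)) .nil)) .nil)) .nil)) (.cons 204 (.leaf 228 1629 (.cons 226 (.leaf 202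 1623 (.cons 250 (.leaf 323 1815 (.cons 298 (.leaf 322 1813 (.cons 297 (.leaf 321 1806 (.cons 225 (.leaf 201 1615 (.cons 224 (.leaf 200 1604 (.leaf 223 1784 .nil)) .nil)) .nil)) .nil)) .nil)) .nil)) .nil)) .nil))) .nil)) .nil)) .nil)) .nil)))
noncomputable def t2 : T := .cons 251 (.leaf 252 1985 (.cons 250 (.leaf 271 1977 (.cons 299 (.leaf 300 2176 (.cons 323 (.leaf 347 2007 (.cons 322 (.leaf 346 2006 (.cons 298 (.leaf 227 1813 (.cons 225 (.leaf 249 1807 (.cons 247 (.leaf 248 1979 (.cons 321 (.leaf 345 1998 (.cons 320 (.leaf 319 2361 (.cons 324 (.leaf 348 2012 (.cons 297 (.leaf 296 2368 (.leaf 325 2379 .nil)) .nil)) .nil)) .nil)) .nil)) .nil)) .nil)) .nil)) .nil)) .nil)) .nil)) .nil)) (.cons 299 (.leaf 300 2176 (.cons 247 (.leaf 248 1979 (.cons 271 (.leaf 246 1971 (.leaf 298 2168 .nil)) .nil)) .nil)) (.cons 251 (.leaf 252 1985 (.cons 247 (.leaf 248 1979 (.cons 271 (.leaf 246 1971 (.leaf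 250 1977 .nil)) .nil)) .nil)) (.cons 251 (.leaf 252 1985 (.cons 250 (.leaf 271 1977 (.cons 299 (.leaf 300 2176 (.cons 323 (.leaf 347 2007 (.cons 322 (.leaf 346 2006 (.cons 298 (.leaf 227 1813 (.cons 225 (.leaf 249 1807 (.cons 321 (.leaf 345 1998 (.cons 319 (.leaf 320 2361 (.cons 324 (.leaf 348 2012 (.cons 297 (.leaf 296 2368 (.leaf 325 2379 .nil)) .nil)) .nil)) .nil)) .nil)) .nil)) .nil)) .nil)) .nil)) .nil)) .nil)) (.cons 248 (.leaf 247 1979 (.cons 251 (.leaf 252 1985 (.cons 299 (.leaf 300 2176 (.cons 227 (.cons 204 (.leaf 228 1629 (.cons 322 (.leaf 298 1814 (.cons 323 (.leaf 346 2006 (.cons 347 (.leaf 250 2007 (.cons 348 (.leaf 324 2012 (.leaf 372 2204 .nil)) .nil)) .nil)) .nil)) .nil)) (.cons 204 (.leaf 228 1629 (.cons 203 (.leaf 180 1437 (.cons 178 (.leaf 202 1431 (.cons 179 (.leaf 250 1430 (.leaf 154 1239 .nil)) .nil)) .nil)) .nil)) (.cons 298 (.leaf 203 1622 (.leaf 322 1814 .nil))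 .nil))) .nil)) .nil)) .nil)) .nil))))
noncomputable def t3 : T := .cons 248 (.leaf 247 1979 (.cons 251 (.leaf 252 1985 (.cons 299 (.leaf 300 2176 (.cons 323 (.cons 226 (.leaf 250 1815 (.cons 348 (.leaf 324 2012 (.cons 347 (.leaf 372 2204 (.cons 370 (.leaf 346 2198 (.cons 371 (.leaf 298 2199 (.leaf 394 2390 .nil)) .nil)) .nil)) .nil)) .nil)) (.cons 298 (.leaf 271 2168 (.cons 322 (.leaf 227 1814 (.leaf 346 2005 .nil)) .nil)) (.cons 250 (.leaf 226 1815 (.leaf 347 2007 .nil)) .nil))) .nil)) .nil)) .nil)) (.cons 299 (.leaf 300 2176 (.cons 247 (.leaf 248 1979 (.cons 271 (.leaf 246 1971 (.leaf 298 2168 .nil)) .nil)) .nil)) (.cons 251 (.leaf 252 1985 (.cons 247 (.leaf 248 1979 (.cons 271 (.leaf 246 1971 (.leaf 250 1977 .nil)) .nil)) .nil)) (.cons 251 (.leaf 252 1985 (.cons 250 (.leaf 271 1977 (.cons 299 (.leaf 300 2176 (.cons 323 (.leaf 226 1815 (.leaf 347 2007 .nil)) .nil)) .nil)) .nil))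 (.cons 248 (.leaf 247 1979 (.cons 251 (.leaf 252 1985 (.cons 299 (.leaf 300 2176 (.cons 323 (.cons 226 (.leaf 250 1815 (.cons 348 (.leaf 324 2012 (.cons 347 (.leaf 372 2204 (.cons 370 (.leaf 346 2198 (.cons 371 (.leaf 298 2199 (.leaf 394 2390 .nil)) .nil)) .nil)) .nil)) .nil)) (.cons 322 (.leaf 346 2006 (.cons 348 (.leaf 324 2012 (.cons 347 (.leaf 372 2204 (.cons 298 (.leaf 227 1814 (.leaf 371 2199 .nil)) .nil)) .nil)) .nil)) (.cons 322 (.leaf 346 2006 (.cons 226 (.leaf 250 1815 (.cons 227 (.leaf 298 1814 (.cons 228 (.leaf 204 1629 (.cons 225 (.leaf 249 1794 (.cons 200 (.leaf 201 1603 (.cons 224 (.leaf 297 1604 (.leaf 199 1595 .nil)) .nil)) .nil)) .nil)) .nil)) .nil)) .nil)) (.cons 250 (.leaf 226 1815 (.leaf 347 2007 .nil)) .nil)))) .nil)) .nil)) .nil)) .nil))))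
noncomputable def t4 : T := .cons 321 (.leaf 345 1991 (.cons 249 (.leaf 224 1799 (.cons 320 (.leaf 344 1990 (.cons 225 (.leaf 296 1797 (.cons 201 (.leaf 177 1414 (.cons 202 (.leaf 178 1421 (.leaf 226 1613 .nil)) .nil)) .nil)) .nil)) .nil)) .nil)) (.cons 321 (.leaf 345 1991 (.cons 249 (.cons 320 (.leaf 344 1990 (.cons 225 (.leaf 296 1797 (.cons 201 (.leaf 177 1414 (.cons 202 (.leaf 178 1421 (.leaf 226 1613 .nil)) .nil)) .nil)) .nil)) (.cons 250 (.leaf 226 1805 (.cons 251 (.leaf 271 1978 (.leaf 252 1986 .nil)) .nil)) (.cons 320 (.leaf 344 1990 (.cons 296 (.leaf 225 1797 (.cons 247 (.leaf 223 1791 (.cons 245 (.leaf 246 1960 (.cons 319 (.leaf 343 1982 (.cons 318 (.leaf 317 2345 (.cons 294 (.leaf 293 2347 (.cons 322 (.leaf 346 1996 (.cons 323 (.leaf 324 2371 (.cons 342 (.leaf 341 2538 (.cons 270 (.leaf 271 1973 (.leaf 269 1967 .nil)) .nil)) .nil)) .nil)) .nil)) .nil)) .nil)) .nil)) .nil))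 .nil)) .nil)) .nil))) .nil)) (.cons 224 (.leaf 200 1604 (.cons 296 (.cons 225 (.leaf 201 1605 (.cons 249 (.leaf 320 1797 (.cons 226 (.leaf 202 1613 (.cons 227 (.leaf 247 1786 (.leaf 228 1794 .nil)) .nil)) .nil)) .nil)) (.cons 223 (.leaf 199 1599 (.cons 320 (.leaf 247 1791 (.cons 344 (.leaf 249 1989 (.leaf 368 2181 .nil)) .nil)) .nil)) (.cons 225 (.leaf 201 1605 (.cons 223 (.leaf 199 1599 (.cons 226 (.cons 202 (.leaf 249 1613 (.leaf 203 1593 .nil)) (.cons 247 (.leaf 227 1786 (.leaf 246 1778 .nil)) .nil)) .nil)) .nil)) (.cons 223 (.leaf 199 1599 (.cons 201 (.leaf 225 1605 (.cons 320 (.leaf 247 1791 (.cons 343 (.leaf 319 1982 (.cons 344 (.leaf 367 2174 (.leaf 368 2181 .nil)) .nil)) .nil)) .nil)) .nil)) (.cons 225 (.leaf 201 1605 (.cons 249 (.leaf 320 1797 (.cons 202 (.leaf 226 1613 (.cons 223 (.leaf 199 1599 (.cons 222 (.leaf 221 1768 (.leaf 250 1776 .nil)) .nil)) .nil)) .nil)) .nil))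 .nil))))) .nil)) (.cons 224 (.leaf 200 1604 (.cons 321 (.leaf 296 1796 (.leaf 345 1991 .nil)) .nil)) (.cons 321 (.leaf 345 1991 (.cons 224 (.leaf 200 1604 (.leaf 249 1799 .nil)) .nil)) .nil))))
noncomputable def t5 : T := .leaf 297 1796 (.cons 320 (.leaf 345 1988 (.cons 343 (.leaf 319 1982 (.cons 344 (.leaf 367 2174 (.cons 342 (.leaf 341 2537 (.cons 225 (.leaf 201 1605 (.cons 251 (.cons 252 (.leaf 274 1985 (.cons 227 (.leaf 226 1792 (.cons 323 (.leaf 322 2554 (.cons 299 (.leaf 228 1821 (.cons 324 (.leaf 300 1820 (.leaf 348 2012 .nil)) .nil)) .nil)) .nil)) .nil)) (.cons 223 (.leaf 199 1599 (.cons 250 (.leaf 226 1784 (.cons 274 (.leaf 271 1977 (.cons 299 (.leaf 300 2176 (.cons 323 (.leaf 347 2007 (.leaf 322 2554 .nil)) .nil)) .nil)) .nil)) .nil)) (.cons 223 (.leaf 199 1599 (.cons 226 (.leaf 250 1784 (.cons 202 (.leaf 203 1593 (.cons 227 (.leaf 299 1623 (.leaf 252 1792 .nil)) .nil)) .nil))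 .nil)) (.cons 274 (.leaf 252 1985 (.cons 199 (.leaf 223 1599 (.cons 250 (.leaf 271 1977 (.cons 299 (.leaf 300 2176 (.cons 323 (.leaf 347 2007 (.leaf 322 2554 .nil)) .nil)) .nil)) .nil)) .nil)) (.cons 223 (.leaf 199 1599 (.cons 226 (.leaf 250 1784 (.cons 252 (.leaf 274 1985 (.leaf 227 1792 .nil)) .nil)) .nil)) .nil))))) .nil)) .nil)) .nil)) .nil)) .nil)) .nil)
noncomputable def t6 : T := .cons 297 (.leaf 321 1796 (.cons 225 (.leaf 201 1605 (.cons 249 (.leaf 320 1797 (.cons 202 (.leaf 226 1613 (.cons 223 (.leaf 199 1599 (.cons 222 (.leaf 221 1768 (.leaf 250 1776 .nil)) .nil)) .nil)) .nil)) .nil)) .nil)) (.cons 225 (.leaf 201 1605 (.cons 199 (.leaf 223 1599 (.cons 320 (.leaf 249 1797 (.cons 343 (.leaf 319 1982 (.cons 344 (.leaf 367 2174 (.cons 368 (.leaf 297 2181 (.cons 369 (.leaf 345 2180 (.leaf 393 2372 .nil)) .nil)) .nil)) .nil)) .nil)) .nil)) .nil)) (.cons 321 (.leaf 297 1796 (.cons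 199 (.leaf 223 1599 (.cons 320 (.leaf 345 1988 (.cons 343 (.leaf 319 1982 (.cons 344 (.leaf 249 1989 (.leaf 367 2174 .nil)) .nil)) .nil)) .nil)) .nil)) (.cons 225 (.leaf 201 1605 (.cons 320 (.leaf 249 1797 (.cons 343 (.leaf 319 1982 (.cons 199 (.leaf 223 1599 (.cons 344 (.leaf 367 2174 (.cons 345 (.leaf 321 1988 (.leaf 369 2180 .nil)) .nil)) .nil)) .nil)) .nil)) .nil)) (.cons 321 t5 (.cons 297 (.leaf 321 1796 (.cons 225 (.leaf 201 1605 (.cons 223 (.leaf 199 1599 (.cons 222 (.cons 197 (.leaf 198 1579 (.cons 221 (.leaf 249 1768 (.leaf 196 1571 .nil)) .nil)) (.cons 197 (.leaf 198 1579 (.cons 221 (.leaf 196 1571 (.cons 245 (.leaf 244 1762 (.leaf 246 1770 .nil)) .nil)) .nil)) (.cons 197 (.leaf 198 1579 (.cons 245 (.leaf 246 1770 (.cons 250 (.leaf 249 1776 (.cons 226 (.leaf 251 1784 (.cons 202 (.leaf 274 1614 (.leaf 203 1593 .nil)) .nil)) .nil)) .nil)) .nil)) (.cons 249 (.leaf 221 1768 (.leaf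 250 1776 .nil)) .nil)))) .nil)) .nil)) .nil)) (.cons 225 (.leaf 201 1605 (.cons 320 (.leaf 249 1797 (.cons 321 (.leaf 297 1796 (.leaf 345 1988 .nil)) .nil)) .nil)) .nil))))))
noncomputable def t7 : T := .cons 274 (.leaf 247 1979 (.cons 251 (.leaf 252 1985 (.cons 250 (.leaf 271 1977 (.cons 299 (.leaf 300 2176 (.cons 323 (.leaf 226 1815 (.leaf 347 2007 .nil)) .nil)) .nil)) .nil)) .nil)) (.cons 224 (.cons 200 (.leaf 297 1604 (.cons 201 (.leaf 177 1413 (.cons 199 (.leaf 175 1407 (.cons 296 (.leaf 223 1599 (.leaf 225 1605 .nil)) .nil)) .nil)) .nil)) (.cons 296 t6 (.cons 200 (.cons 201 (.leaf 177 1413 (.cons 199 (.leaf 175 1407 (.cons 296 (.leaf 223 1599 (.leaf 225 1605 .nil)) .nil)) .nil)) (.cons 175 (.leaf 199 1407 (.cons 176 (.leaf 249 1412 (.leaf 151 1215 .nil)) .nil)) (.cons 176 (.leaf 249 1412 (.cons 151 (.leaf 175 1215 (.cons 177 (.leaf 201 1413 (.leaf 153 1221 .nil)) .nil)) .nil))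 (.cons 176 (.leaf 249 1412 (.cons 177 (.leaf 201 1413 (.leaf 153 1221 .nil)) .nil)) .nil)))) (.cons 200 (.leaf 297 1604 (.cons 175 (.leaf 199 1407 (.cons 176 (.leaf 249 1412 (.leaf 151 1215 .nil)) .nil)) .nil)) (.cons 297 (.leaf 200 1604 (.cons 321 (.leaf 296 1796 (.leaf 345 1991 .nil)) .nil)) .nil))))) (.cons 297 t4 (.cons 247 (.leaf 274 1979 (.cons 246 (.leaf 245 1960 (.cons 249 (.cons 225 (.leaf 226 1777 (.cons 201 (.leaf 177 1414 (.leaf 296 1606 .nil)) .nil)) (.cons 270 (.leaf 269 1962 (.cons 222 (.leaf 221 1771 (.cons 223 (.leaf 250 1779 (.cons 199 (.leaf 175 1404 (.leaf 294 1589 .nil)) .nil)) .nil)) .nil)) .nil)) .nil)) .nil)) (.cons 247 (.leaf 274 1979 (.cons 246 (.leaf 245 1960 (.cons 249 (.cons 225 (.leaf 226 1777 (.cons 201 (.leaf 177 1414 (.leaf 296 1606 .nil)) .nil)) (.cons 270 (.leaf 269 1962 (.cons 222 (.leaf 221 1771 (.cons 223 (.cons 199 (.leaf 175 1404 (.leaf 294 1589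 .nil)) (.cons 294 (.leaf 318 1781 (.cons 293 (.leaf 271 2154 (.leaf 317 1774 .nil)) .nil)) (.cons 199 (.leaf 175 1404 (.cons 296 (.leaf 224 1599 (.leaf 271 1596 .nil)) .nil)) .nil))) .nil)) .nil)) (.cons 225 (.leaf 226 1777 (.cons 201 (.leaf 177 1414 (.cons 176 (.leaf 200 1415 (.cons 202 (.leaf 178 1421 (.cons 222 (.leaf 221 1771 (.cons 223 (.leaf 224 1585 (.cons 270 (.leaf 269 1962 (.cons 199 (.leaf 175 1404 (.leaf 294 1589 .nil)) .nil)) .nil)) .nil)) .nil)) .nil)) .nil)) .nil)) .nil))) .nil)) .nil)) (.cons 274 (.leaf 247 1979 (.cons 251 (.leaf 252 1985 (.cons 250 (.leaf 271 1977 (.cons 299 (.leaf 300 2176 (.cons 323 (.leaf 347 2007 (.cons 322 (.leaf 346 2006 (.cons 324 (.leaf 348 2012 (.cons 224 (.cons 223 (.leaf 249 1787 (.cons 199 (.leaf 296 1599 (.cons 175 (.leaf 200 1407 (.leaf 151 1212 .nil)) .nil)) .nil)) (.cons 200 (.leaf 297 1604 (.cons 175 (.leaf 199 1407 (.cons 176 (.leaf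 151 1215 (.cons 177 (.leaf 201 1413 (.leaf 153 1221 .nil)) .nil)) .nil)) .nil)) (.cons 223 (.leaf 249 1787 (.cons 296 (.leaf 199 1599 (.cons 321 (.leaf 297 2371 (.cons 345 (.leaf 320 1988 (.leaf 344 2562 .nil)) .nil)) .nil)) .nil)) (.cons 297 (.leaf 200 1604 (.cons 321 (.leaf 296 2371 (.leaf 345 1997 .nil)) .nil)) .nil)))) .nil)) .nil)) .nil)) .nil)) .nil)) .nil)) .nil)) .nil)))))
noncomputable def t8 : T := .cons 223 (.leaf 199 1599 (.cons 225 (.leaf 201 1605 (.cons 320 (.leaf 249 1797 (.cons 343 (.leaf 319 1982 (.cons 344 (.leaf 367 2174 (.cons 321 (.leaf 297 1796 (.leaf 345 1988 .nil)) .nil)) .nil)) .nil)) .nil)) .nil)) (.cons 225 (.leaf 201 1605 (.cons 320 (.leaf 249 1797 (.cons 343 (.leaf 319 1982 (.cons 199 (.leaf 223 1599 (.cons 344 (.leaf 367 2174 (.cons 345 (.leaf 321 1988 (.leaf 369 2180 .nil)) .nil)) .nil)) .nil)) .nil)) .nil)) (.cons 225 (.leaf 201 1605 (.cons 199 (.leaf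 223 1599 (.cons 320 (.leaf 249 1797 (.cons 343 (.leaf 319 1982 (.cons 344 (.leaf 367 2174 (.cons 368 (.leaf 297 2181 (.cons 369 (.leaf 345 2180 (.leaf 393 2372 .nil)) .nil)) .nil)) .nil)) .nil)) .nil)) .nil)) (.cons 321 (.leaf 297 1796 (.cons 199 (.leaf 223 1599 (.cons 320 (.leaf 345 1988 (.cons 343 (.leaf 319 1982 (.cons 344 (.leaf 249 1989 (.leaf 367 2174 .nil)) .nil)) .nil)) .nil)) .nil)) (.cons 297 (.leaf 321 1796 (.cons 225 (.leaf 201 1605 (.cons 223 (.leaf 199 1599 (.cons 298 (.cons 271 (.leaf 270 2160 (.leaf 299 2171 .nil)) (.cons 249 (.leaf 322 1804 (.cons 221 (.leaf 222 1768 (.cons 226 (.leaf 202 1613 (.cons 227 (.leaf 228 1794 (.cons 203 (.leaf 204 1601 (.cons 251 (.leaf 274 1622 (.leaf 252 1792 .nil)) .nil)) .nil)) .nil)) .nil)) .nil)) .nil)) .nil)) .nil)) .nil)) (.cons 223 (.leaf 199 1599 (.cons 225 (.leaf 201 1605 (.cons 320 (.cons 343 (.leaf 319 1982 (.cons 344 (.leaf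 367 2174 (.cons 321 (.leaf 297 1796 (.leaf 345 1988 .nil)) .nil)) .nil)) (.cons 343 (.leaf 319 1982 (.cons 344 (.leaf 367 2174 (.cons 368 (.leaf 297 2181 (.cons 369 (.leaf 345 2180 (.leaf 393 2372 .nil)) .nil)) .nil)) .nil)) (.cons 343 (.leaf 319 1982 (.cons 344 (.leaf 367 2174 (.cons 345 (.leaf 321 1988 (.leaf 369 2180 .nil)) .nil)) .nil)) (.cons 297 (.leaf 321 1796 (.cons 343 (.leaf 319 1982 (.cons 344 (.leaf 367 2174 (.leaf 368 2181 .nil)) .nil)) .nil)) (.cons 321 (.leaf 297 1796 (.leaf 345 1988 .nil)) .nil))))) .nil)) .nil)) (.cons 297 (.leaf 321 1796 (.cons 225 (.leaf 201 1605 (.cons 249 (.leaf 320 1797 (.cons 202 (.leaf 226 1613 (.cons 298 (.leaf 322 1804 (.cons 271 (.leaf 270 2160 (.leaf 299 2171 .nil)) .nil)) .nil)) .nil)) .nil)) .nil)) .nil))))))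
noncomputable def t9 : T := .cons 224 (.leaf 200 1604 (.cons 321 (.leaf 296 1796 (.leaf 345 1991 .nil)) .nil)) (.cons 321 (.leaf 345 1991 (.cons 249 (.cons 320 (.leaf 344 1990 (.cons 322 (.leaf 346 1996 (.cons 225 (.leaf 296 1797 (.leaf 298 1804 .nil)) .nil)) .nil)) (.cons 322 (.leaf 346 1996 (.cons 225 (.leaf 298 1804 (.cons 201 (.leaf 177 1414 (.leaf 296 1606 .nil)) .nil)) .nil)) (.cons 320 (.leaf 344 1990 (.cons 322 (.leaf 346 1996 (.cons 298 (.cons 299 (.leaf 300 2370 (.leaf 319 2361 .nil)) (.cons 270 (.leaf 271 2160 (.cons 319 (.leaf 318 2353 (.cons 343 (.leaf 296 1982 (.leaf 342 2546 .nil)) .nil)) .nil)) (.cons 299 (.leaf 300 2370 (.cons 271 (.leaf 270 2160 (.leaf 296 2171 .nil)) .nil)) .nil))) .nil)) .nil)) (.cons 320 (.leaf 344 1990 (.cons 225 (.leaf 296 1797 (.cons 201 (.leaf 177 1414 (.cons 202 (.leaf 178 1421 (.leaf 226 1613 .nil)) .nil)) .nil)) .nil)) (.cons 322 (.leaf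 346 1996 (.cons 225 (.leaf 298 1804 (.cons 201 (.leaf 177 1414 (.cons 202 (.leaf 178 1421 (.leaf 226 1613 .nil)) .nil)) .nil)) .nil)) .nil))))) .nil)) (.cons 224 (.leaf 200 1604 (.cons 296 (.cons 225 (.leaf 201 1605 (.cons 249 (.leaf 320 1797 (.cons 202 (.leaf 226 1613 (.cons 298 (.leaf 322 1804 (.cons 271 (.leaf 270 2160 (.leaf 299 2171 .nil)) .nil)) .nil)) .nil)) .nil)) (.cons 223 (.leaf 199 1599 (.cons 320 (.leaf 247 1791 (.cons 344 (.leaf 249 1989 (.leaf 368 2181 .nil)) .nil)) .nil)) (.cons 225 (.leaf 201 1605 (.cons 223 (.leaf 199 1599 (.cons 226 (.cons 202 (.leaf 249 1613 (.leaf 203 1593 .nil)) (.cons 247 (.leaf 227 1786 (.leaf 246 1778 .nil)) .nil)) .nil)) .nil)) (.cons 223 (.leaf 199 1599 (.cons 201 (.leaf 225 1605 (.cons 320 (.leaf 247 1791 (.cons 343 (.leaf 319 1982 (.cons 344 (.leaf 367 2174 (.leaf 368 2181 .nil)) .nil)) .nil)) .nil)) .nil)) .nil)))) .nil)) (.cons 224 (.leaf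 200 1604 (.cons 321 (.leaf 345 1991 (.leaf 249 1799 .nil)) .nil)) .nil)))
noncomputable def t10 : T := .cons 200 (.leaf 297 1604 (.cons 175 (.leaf 199 1407 (.cons 176 (.leaf 249 1412 (.leaf 151 1215 .nil)) .nil)) .nil)) (.cons 296 (.cons 321 (.leaf 297 1796 (.cons 199 (.leaf 223 1599 (.cons 320 (.leaf 345 1988 (.cons 343 (.leaf 319 1982 (.cons 344 (.leaf 249 1989 (.leaf 367 2174 .nil)) .nil)) .nil)) .nil)) .nil)) (.cons 247 (.leaf 274 1979 (.cons 223 (.leaf 199 1599 (.leaf 320 1791 .nil)) .nil)) (.cons 297 (.leaf 321 1796 (.cons 199 (.leaf 223 1599 (.cons 201 (.leaf 225 1605 (.cons 274 (.leaf 247 1979 (.cons 251 (.leaf 252 1985 (.cons 299 (.leaf 300 2176 (.cons 298 (.leaf 271 2168 (.cons 227 (.leaf 203 1622 (.leaf 322 1814 .nil)) .nil)) .nil)) .nil)) .nil)) .nil)) .nil)) .nil)) (.cons 297 (.leaf 321 1796 (.cons 225 (.leaf 201 1605 (.cons 249 (.leaf 320 1797 (.cons 202 (.leaf 226 1613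 (.cons 298 (.leaf 322 1804 (.cons 271 (.leaf 270 2160 (.leaf 299 2171 .nil)) .nil)) .nil)) .nil)) .nil)) .nil)) .nil)))) (.cons 274 (.leaf 247 1979 (.cons 251 (.leaf 252 1985 (.cons 200 (.cons 201 (.leaf 177 1413 (.cons 175 (.leaf 199 1407 (.cons 225 (.leaf 296 1605 (.cons 249 (.leaf 176 1412 (.leaf 298 1612 .nil)) .nil)) .nil)) .nil)) (.cons 176 (.leaf 249 1412 (.cons 175 (.leaf 199 1407 (.leaf 151 1215 .nil)) .nil)) (.cons 201 (.leaf 177 1413 (.cons 175 (.leaf 199 1407 (.cons 225 (.leaf 296 1605 (.cons 249 (.leaf 298 1612 (.cons 202 (.leaf 178 1421 (.cons 223 (.leaf 203 1594 (.leaf 222 1585 .nil)) .nil)) .nil)) .nil)) .nil)) .nil)) (.cons 176 (.leaf 249 1412 (.cons 177 (.leaf 201 1413 (.leaf 153 1221 .nil)) .nil)) (.cons 299 (.leaf 300 2176 (.cons 175 (.leaf 199 1407 (.cons 151 (.leaf 176 1215 (.cons 177 (.leaf 201 1413 (.cons 298 (.leaf 271 2168 (.cons 227 (.leaf 203 1622 (.leaf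 322 1814 .nil)) .nil)) .nil)) .nil)) .nil)) .nil)) .nil))))) .nil)) .nil)) (.cons 274 (.leaf 247 1979 (.cons 200 (.leaf 297 1604 (.cons 175 (.leaf 199 1407 (.cons 176 (.leaf 151 1215 (.cons 177 (.leaf 201 1413 (.leaf 153 1221 .nil)) .nil)) .nil)) .nil)) .nil)) (.cons 274 (.leaf 247 1979 (.cons 251 (.leaf 252 1985 (.cons 297 (.leaf 200 1604 (.cons 321 (.leaf 296 1796 (.leaf 345 1991 .nil)) .nil)) .nil)) .nil)) .nil))))
noncomputable def t11 : T := .cons 224 t10 (.cons 297 t9 (.cons 224 (.cons 200 (.leaf 297 1604 (.cons 175 (.leaf 199 1407 (.cons 176 (.leaf 249 1412 (.leaf 151 1215 .nil)) .nil)) .nil)) (.cons 296 t8 (.cons 200 (.cons 175 (.leaf 199 1407 (.cons 176 (.leaf 249 1412 (.leaf 151 1215 .nil)) .nil)) (.cons 201 (.leaf 177 1413 (.cons 199 (.leaf 175 1407 (.cons 296 (.leaf 223 1599 (.leaf 225 1605 .nil)) .nil)) .nil)) (.cons 176 (.leaf 249 1412 (.cons 151 (.leaf 175 1215 (.cons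 177 (.leaf 201 1413 (.leaf 153 1221 .nil)) .nil)) .nil)) (.cons 176 (.leaf 249 1412 (.cons 177 (.leaf 201 1413 (.leaf 153 1221 .nil)) .nil)) .nil)))) (.cons 200 (.leaf 297 1604 (.cons 201 (.leaf 177 1413 (.cons 199 (.leaf 175 1407 (.cons 296 (.leaf 223 1599 (.leaf 225 1605 .nil)) .nil)) .nil)) .nil)) (.cons 297 (.leaf 200 1604 (.cons 321 (.leaf 296 1796 (.leaf 345 1991 .nil)) .nil)) .nil))))) (.cons 274 (.leaf 247 1979 (.cons 251 (.leaf 252 1985 (.cons 299 (.leaf 300 2176 (.cons 298 (.leaf 271 2168 (.cons 227 (.leaf 203 1622 (.leaf 322 1814 .nil)) .nil)) .nil)) .nil)) .nil)) (.cons 247 (.leaf 274 1979 (.cons 246 (.leaf 245 1960 (.cons 249 (.cons 225 (.leaf 226 1777 (.cons 201 (.leaf 177 1414 (.leaf 296 1606 .nil)) .nil)) (.cons 270 (.leaf 269 1962 (.cons 222 (.leaf 221 1771 (.cons 223 (.cons 199 (.leaf 175 1404 (.leaf 294 1589 .nil)) (.cons 294 (.leaf 318 1781 (.cons 293 (.leaf 271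 2154 (.leaf 317 1774 .nil)) .nil)) (.cons 199 (.leaf 175 1404 (.cons 296 (.leaf 224 1599 (.leaf 271 1596 .nil)) .nil)) .nil))) .nil)) .nil)) (.cons 225 (.leaf 226 1777 (.cons 201 (.leaf 177 1414 (.cons 176 (.leaf 200 1415 (.cons 202 (.leaf 178 1421 (.cons 222 (.leaf 221 1771 (.cons 223 (.leaf 224 1585 (.cons 270 (.leaf 269 1962 (.cons 199 (.leaf 175 1404 (.leaf 294 1589 .nil)) .nil)) .nil)) .nil)) .nil)) .nil)) .nil)) .nil)) .nil))) .nil)) .nil)) (.cons 274 (.leaf 247 1979 (.cons 299 (.leaf 300 2176 (.cons 251 (.leaf 252 1985 (.cons 227 (.cons 202 (.leaf 226 1623 (.cons 203 (.leaf 178 1431 (.leaf 298 1622 .nil)) .nil)) (.cons 202 (.leaf 226 1623 (.cons 203 (.leaf 178 1431 (.cons 204 (.leaf 180 1437 (.leaf 228 1629 .nil)) .nil)) .nil)) (.cons 202 (.leaf 226 1623 (.cons 204 (.leaf 228 1629 (.cons 322 (.leaf 298 1814 (.cons 323 (.leaf 346 2006 (.cons 348 (.leaf 324 2012 (.cons 347 (.leaf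 372 2204 (.cons 321 (.leaf 320 2560 (.cons 297 (.leaf 345 1991 (.cons 224 (.leaf 200 1604 (.leaf 296 1796 .nil)) .nil)) .nil)) .nil)) .nil)) .nil)) .nil)) .nil)) .nil)) (.cons 298 (.leaf 203 1622 (.leaf 322 1814 .nil)) .nil)))) .nil)) .nil)) .nil)) .nil)))))
noncomputable def t12 : T := .cons 299 (.leaf 300 2176 (.cons 251 (.leaf 252 1985 (.cons 298 (.leaf 271 2168 (.cons 227 (.leaf 203 1622 (.leaf 322 1814 .nil)) .nil)) .nil)) .nil)) (.cons 299 (.leaf 300 2176 (.cons 298 (.leaf 271 2168 (.cons 250 (.cons 226 (.leaf 202 1620 (.leaf 323 1812 .nil)) (.cons 323 (.leaf 347 2007 (.cons 322 (.cons 249 (.leaf 346 1999 (.leaf 225 1807 .nil)) (.cons 249 (.leaf 225 1807 (.cons 321 (.leaf 345 1998 (.cons 320 (.leaf 319 2361 (.cons 344 (.leaf 296 1989 (.leaf 297 1990 .nil)) .nil)) .nil)) .nil)) (.cons 345 (.leaf 321 1998 (.cons 346 (.leaf 370 2197 (.leaf 369 2190 .nil)) .nil)) .nil))) .nil)) (.cons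 226 (.leaf 202 1620 (.cons 201 (.leaf 225 1615 (.cons 203 (.leaf 227 1621 (.cons 321 (.leaf 297 1806 (.cons 322 (.leaf 345 1998 (.cons 346 (.leaf 370 2197 (.leaf 249 1999 .nil)) .nil)) .nil)) .nil)) .nil)) .nil)) .nil))) .nil)) .nil)) (.cons 251 (.leaf 252 1985 (.cons 250 (.leaf 271 1977 (.cons 298 (.cons 322 (.leaf 346 2005 (.leaf 227 1813 .nil)) (.cons 227 (.leaf 203 1622 (.cons 226 (.cons 225 (.leaf 201 1615 (.cons 224 (.leaf 223 1784 (.cons 200 (.leaf 199 1595 (.cons 297 (.leaf 248 1604 (.leaf 249 1607 .nil)) .nil)) .nil)) .nil)) (.cons 202 (.leaf 178 1428 (.cons 201 (.leaf 177 1423 (.leaf 225 1615 .nil)) .nil)) (.cons 202 (.leaf 178 1428 (.leaf 297 1614 .nil)) .nil))) .nil)) (.cons 322 (.leaf 346 2005 (.cons 225 (.leaf 249 1807 (.cons 226 (.leaf 201 1615 (.cons 202 (.leaf 178 1428 (.leaf 297 1614 .nil)) .nil)) .nil)) .nil)) .nil))) .nil)) .nil)) (.cons 251 (.leaf 252 1985 (.cons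 250 (.leaf 271 1977 (.cons 299 (.leaf 300 2176 (.cons 226 (.leaf 202 1620 (.leaf 323 1815 .nil)) .nil)) .nil)) .nil)) (.cons 251 (.leaf 252 1985 (.cons 299 (.leaf 300 2176 (.cons 227 (.cons 203 (.leaf 298 1622 (.cons 202 (.leaf 178 1431 (.leaf 226 1623 .nil)) .nil)) (.cons 226 (.leaf 202 1623 (.cons 204 (.leaf 228 1629 (.cons 180 (.leaf 203 1437 (.cons 323 (.leaf 250 1815 (.cons 346 (.leaf 322 2006 (.cons 347 (.leaf 370 2198 (.cons 348 (.leaf 324 2012 (.leaf 372 2204 .nil)) .nil)) .nil)) .nil)) .nil)) .nil)) .nil)) (.cons 322 (.leaf 298 1814 (.cons 202 (.leaf 226 1623 (.cons 323 (.leaf 346 2006 (.cons 204 (.leaf 228 1629 (.cons 347 (.leaf 250 2007 (.cons 348 (.leaf 324 2012 (.leaf 372 2204 .nil)) .nil)) .nil)) .nil)) .nil)) .nil)) (.cons 298 (.leaf 203 1622 (.leaf 322 1814 .nil)) .nil)))) .nil)) .nil)) .nil))))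
noncomputable def t13 : T := .cons 251 (.leaf 252 1985 (.cons 299 (.leaf 300 2176 (.cons 227 (.cons 203 (.leaf 298 1622 (.cons 202 (.leaf 178 1431 (.leaf 226 1623 .nil)) .nil)) (.cons 226 (.leaf 202 1623 (.cons 204 (.leaf 228 1629 (.cons 180 (.leaf 203 1437 (.cons 323 (.leaf 250 1815 (.cons 346 (.leaf 322 2006 (.cons 347 (.leaf 370 2198 (.cons 348 (.leaf 324 2012 (.leaf 372 2204 .nil)) .nil)) .nil)) .nil)) .nil)) .nil)) .nil)) (.cons 322 (.leaf 298 1814 (.cons 202 (.leaf 226 1623 (.cons 323 (.leaf 346 2006 (.cons 204 (.leaf 228 1629 (.cons 347 (.leaf 250 2007 (.cons 348 (.leaf 324 2012 (.leaf 372 2204 .nil)) .nil)) .nil)) .nil)) .nil)) .nil)) (.cons 298 (.leaf 203 1622 (.leaf 322 1814 .nil)) .nil)))) .nil)) .nil)) (.cons 248 (.leaf 247 1979 (.cons 299 (.leaf 300 2176 (.cons 251 (.leaf 252 1985 (.cons 227 (.cons 202 (.leaf 226 1623 (.cons 203 (.leaf 178 1431 (.leaf 298 1622 .nil)) .nil))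 (.cons 202 (.leaf 226 1623 (.cons 203 (.leaf 178 1431 (.cons 204 (.leaf 180 1437 (.leaf 228 1629 .nil)) .nil)) .nil)) (.cons 322 (.leaf 298 1814 (.cons 202 (.leaf 226 1623 (.cons 204 (.leaf 228 1629 (.cons 323 (.leaf 346 2006 (.cons 348 (.leaf 324 2012 (.cons 347 (.leaf 372 2204 (.cons 321 (.leaf 320 2560 (.cons 297 (.leaf 345 1991 (.cons 224 (.leaf 200 1604 (.leaf 296 1796 .nil)) .nil)) .nil)) .nil)) .nil)) .nil)) .nil)) .nil)) .nil)) (.cons 298 (.leaf 203 1622 (.leaf 322 1814 .nil)) .nil)))) .nil)) .nil)) .nil)) (.cons 248 (.leaf 247 1979 (.cons 251 (.leaf 252 1985 (.cons 299 (.leaf 300 2176 (.cons 323 (.cons 250 (.leaf 226 1815 (.leaf 347 2007 .nil)) (.cons 346 (.leaf 322 2006 (.cons 347 (.leaf 370 2198 (.cons 348 (.leaf 324 2012 (.leaf 372 2204 .nil)) .nil)) .nil)) (.cons 226 (.leaf 250 1815 (.cons 227 (.leaf 202 1623 (.cons 204 (.leaf 228 1629 (.cons 203 (.leaf 180 1437 (.cons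 205 (.leaf 206 1618 (.cons 224 (.leaf 225 1601 (.cons 200 (.leaf 297 1604 (.cons 175 (.leaf 199 1407 (.cons 176 (.leaf 249 1412 (.leaf 151 1215 .nil)) .nil)) .nil)) .nil)) .nil)) .nil)) .nil)) .nil)) .nil)) .nil))) .nil)) .nil)) .nil)) (.cons 248 (.leaf 247 1979 (.cons 251 (.leaf 252 1985 (.cons 299 (.leaf 300 2176 (.cons 227 (.cons 204 (.leaf 228 1629 (.cons 322 (.leaf 298 1814 (.cons 323 (.leaf 346 2006 (.cons 347 (.leaf 250 2007 (.cons 348 (.leaf 324 2012 (.leaf 372 2204 .nil)) .nil)) .nil)) .nil)) .nil)) (.cons 204 (.leaf 228 1629 (.cons 203 (.leaf 180 1437 (.cons 178 (.leaf 202 1431 (.cons 179 (.leaf 250 1430 (.leaf 154 1239 .nil)) .nil)) .nil)) .nil)) (.cons 298 (.leaf 203 1622 (.leaf 322 1814 .nil)) .nil))) .nil)) .nil)) .nil)) (.cons 248 (.leaf 247 1979 (.cons 299 (.leaf 300 2176 (.cons 251 (.leaf 252 1985 (.cons 226 (.cons 250 (.leaf 202 1620 (.leaf 323 1815 .nil)) (.cons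 227 (.leaf 202 1623 (.cons 204 (.leaf 228 1629 (.cons 203 (.leaf 180 1437 (.leaf 298 1622 .nil)) .nil)) .nil)) (.cons 323 (.leaf 250 1815 (.cons 348 (.leaf 324 2012 (.cons 347 (.leaf 372 2204 (.cons 370 (.leaf 346 2198 (.cons 371 (.leaf 298 2199 (.leaf 394 2390 .nil)) .nil)) .nil)) .nil)) .nil)) .nil))) .nil)) .nil)) .nil)) (.cons 248 (.leaf 247 1979 (.cons 299 (.leaf 300 2176 (.cons 251 (.leaf 252 1985 (.cons 323 (.cons 250 (.leaf 226 1815 (.leaf 347 2007 .nil)) (.cons 346 (.leaf 322 2006 (.cons 347 (.leaf 370 2198 (.cons 348 (.leaf 324 2012 (.leaf 372 2204 .nil)) .nil)) .nil)) (.cons 250 (.leaf 226 1815 (.cons 322 (.leaf 346 2006 (.cons 324 (.leaf 348 2012 (.cons 297 (.cons 321 (.leaf 345 1997 (.leaf 296 2371 .nil)) (.cons 200 (.leaf 224 1604 (.cons 325 (.leaf 298 2379 (.cons 302 (.leaf 301 2385 (.cons 326 (.leaf 303 2393 (.cons 350 (.leaf 349 2576 (.leaf 351 2584 .nil)) .nil)) .nil))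 .nil)) .nil)) .nil)) .nil)) .nil)) .nil)) .nil))) .nil)) .nil)) .nil)) (.cons 248 (.leaf 247 1979 (.cons 251 (.leaf 252 1985 (.cons 299 (.leaf 300 2176 (.cons 227 (.cons 298 (.leaf 203 1622 (.leaf 322 1814 .nil)) (.cons 226 (.leaf 202 1623 (.cons 204 (.leaf 228 1629 (.cons 203 (.leaf 180 1437 (.cons 205 (.leaf 206 1618 (.cons 224 (.leaf 225 1601 (.cons 200 (.leaf 297 1604 (.cons 175 (.leaf 199 1407 (.cons 176 (.leaf 249 1412 (.leaf 151 1215 .nil)) .nil)) .nil)) .nil)) .nil)) .nil)) .nil)) .nil)) (.cons 226 (.leaf 202 1623 (.cons 228 (.leaf 204 1629 (.cons 225 (.leaf 249 1794 (.cons 200 (.leaf 201 1603 (.cons 224 (.leaf 297 1604 (.leaf 199 1595 .nil)) .nil)) .nil)) .nil)) .nil)) .nil))) .nil)) .nil)) .nil)) .nil))))))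
noncomputable def t14 : T := .cons 199 (.leaf 223 1599 (.cons 201 (.leaf 225 1605 (.cons 321 (.leaf 297 1796 (.cons 320 (.leaf 345 1988 (.cons 343 (.leaf 319 1982 (.cons 344 (.leaf 249 1989 (.leaf 367 2174 .nil)) .nil)) .nil)) .nil)) .nil)) .nil)) (.cons 223 (.leaf 199 1599 (.cons 225 (.leaf 201 1605 (.cons 250 (.leaf 249 1787 (.leaf 226 1784 .nil)) .nil)) .nil)) (.cons 199 (.leaf 223 1599 (.cons 321 (.leaf 297 1796 (.cons 320 (.leaf 345 1988 (.cons 343 (.leaf 319 1982 (.cons 344 (.leaf 249 1989 (.leaf 367 2174 .nil)) .nil)) .nil)) .nil)) .nil)) (.cons 199 (.leaf 223 1599 (.cons 201 (.leaf 225 1605 (.cons 321 (.leaf 297 1796 (.cons 320 (.leaf 345 1988 (.cons 343 (.leaf 319 1982 (.cons 344 (.leaf 367 2174 (.cons 322 (.leaf 323 2554 (.cons 298 (.leaf 346 2005 (.cons 227 (.leaf 203 1622 (.leaf 250 1813 .nil)) .nil)) .nil)) .nil)) .nil)) .nil)) .nil)) .nil)) .nil)) (.cons 321 (.leaf 297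 1796 (.cons 201 (.leaf 225 1605 (.cons 320 (.leaf 345 1988 (.cons 343 (.leaf 319 1982 (.cons 344 (.leaf 249 1989 (.leaf 367 2174 .nil)) .nil)) .nil)) .nil)) .nil)) .nil))))
noncomputable def t15 : T := .cons 200 (.leaf 297 1604 (.cons 175 (.leaf 199 1407 (.cons 201 (.leaf 177 1413 (.cons 225 (.leaf 296 1605 (.cons 249 (.leaf 176 1412 (.leaf 298 1612 .nil)) .nil)) .nil)) .nil)) .nil)) (.cons 296 t14 (.cons 200 (.cons 175 (.leaf 199 1407 (.cons 201 (.leaf 177 1413 (.cons 225 (.leaf 296 1605 (.cons 249 (.leaf 176 1412 (.leaf 298 1612 .nil)) .nil)) .nil)) .nil)) (.cons 176 (.leaf 249 1412 (.cons 175 (.leaf 199 1407 (.leaf 151 1215 .nil)) .nil)) (.cons 201 (.leaf 177 1413 (.cons 175 (.leaf 199 1407 (.cons 225 (.leaf 296 1605 (.cons 249 (.leaf 298 1612 (.cons 202 (.leaf 178 1421 (.cons 223 (.leaf 250 1787 (.leaf 203 1594 .nil)) .nil)) .nil)) .nil)) .nil)) .nil)) (.cons 201 (.leaf 177 1413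 (.cons 175 (.leaf 199 1407 (.cons 176 (.leaf 151 1215 (.cons 173 (.leaf 174 1384 (.cons 203 (.leaf 202 1403 (.cons 225 (.leaf 296 1605 (.cons 152 (.leaf 128 1028 (.cons 153 (.leaf 129 1029 (.cons 227 (.leaf 298 1622 (.cons 204 (.leaf 180 1437 (.leaf 226 1601 .nil)) .nil)) .nil)) .nil)) .nil)) .nil)) .nil)) .nil)) .nil)) .nil)) (.cons 176 (.leaf 249 1412 (.cons 177 (.leaf 201 1413 (.leaf 153 1221 .nil)) .nil)) .nil))))) (.cons 200 (.leaf 297 1604 (.cons 201 (.leaf 177 1413 (.cons 175 (.leaf 199 1407 (.cons 176 (.leaf 151 1215 (.cons 173 (.leaf 174 1384 (.cons 203 (.leaf 202 1403 (.cons 225 (.leaf 296 1605 (.cons 152 (.leaf 128 1028 (.cons 153 (.leaf 129 1029 (.cons 227 (.leaf 298 1622 (.cons 204 (.leaf 180 1437 (.leaf 226 1601 .nil)) .nil)) .nil)) .nil)) .nil)) .nil)) .nil)) .nil)) .nil)) .nil)) .nil)) (.cons 200 (.leaf 297 1604 (.cons 176 (.leaf 249 1412 (.cons 177 (.leaf 201 1413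 (.leaf 153 1221 .nil)) .nil)) .nil)) (.cons 297 (.leaf 200 1604 (.cons 321 (.leaf 296 1796 (.leaf 345 1991 .nil)) .nil)) .nil)))))
noncomputable def t16 : T := .cons 199 (.leaf 223 1599 (.cons 225 (.leaf 201 1605 (.cons 297 (.leaf 321 1796 (.cons 320 (.leaf 249 1797 (.cons 343 (.leaf 319 1982 (.cons 344 (.leaf 367 2174 (.leaf 368 2181 .nil)) .nil)) .nil)) .nil)) .nil)) .nil)) (.cons 223 (.leaf 199 1599 (.cons 225 (.leaf 201 1605 (.cons 249 (.leaf 320 1797 (.leaf 222 1776 .nil)) .nil)) .nil)) (.cons 199 (.leaf 223 1599 (.cons 321 (.leaf 297 1796 (.cons 320 (.leaf 345 1988 (.cons 343 (.leaf 319 1982 (.cons 344 (.leaf 249 1989 (.leaf 367 2174 .nil)) .nil)) .nil)) .nil)) .nil)) (.cons 199 (.leaf 223 1599 (.cons 321 (.leaf 297 1796 (.cons 320 (.leaf 345 1988 (.cons 343 (.leaf 319 1982 (.cons 344 (.leaf 367 2174 (.leaf 322 2554 .nil)) .nil)) .nil)) .nil)) .nil)) (.cons 223 (.leaf 199 1599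 (.cons 225 (.leaf 201 1605 (.cons 222 (.leaf 249 1776 (.cons 197 (.leaf 198 1579 (.cons 221 (.leaf 196 1571 (.cons 245 (.leaf 244 1762 (.leaf 246 1770 .nil)) .nil)) .nil)) .nil)) .nil)) .nil)) (.cons 201 (.leaf 225 1605 (.cons 321 (.leaf 297 1796 (.cons 320 (.leaf 345 1988 (.cons 343 (.leaf 319 1982 (.cons 344 (.leaf 249 1989 (.leaf 367 2174 .nil)) .nil)) .nil)) .nil)) .nil)) .nil)))))
noncomputable def t17 : T := .cons 249 (.cons 201 (.leaf 177 1420 (.leaf 296 1606 .nil)) (.cons 296 (.leaf 320 1797 (.cons 297 (.leaf 321 1805 (.cons 224 (.leaf 200 1604 (.cons 223 (.leaf 199 1599 (.leaf 222 1776 .nil)) .nil)) .nil)) .nil)) (.cons 201 (.leaf 177 1420 (.leaf 298 1612 .nil)) .nil))) (.cons 249 (.cons 296 (.leaf 320 1797 (.cons 297 (.leaf 321 1805 (.cons 224 (.leaf 200 1604 (.cons 223 (.leaf 199 1599 (.leaf 222 1776 .nil)) .nil)) .nil)) .nil)) (.cons 227 (.leaf 228 1794 (.cons 298 (.leaf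 203 1621 (.leaf 322 1807 .nil)) .nil)) .nil)) (.cons 201 (.leaf 298 1615 (.cons 153 (.leaf 177 1228 (.cons 224 (.leaf 296 1605 (.cons 200 (.leaf 297 1604 (.cons 199 (.leaf 175 1407 (.leaf 198 1584 .nil)) .nil)) .nil)) .nil)) .nil)) (.cons 249 (.cons 201 (.leaf 177 1420 (.leaf 296 1606 .nil)) (.cons 297 (.leaf 321 1805 (.cons 224 (.leaf 200 1604 (.cons 296 (.leaf 320 1797 (.cons 223 (.leaf 199 1599 (.leaf 222 1776 .nil)) .nil)) .nil)) .nil)) (.cons 201 (.leaf 177 1420 (.cons 200 (.leaf 176 1415 (.cons 297 (.leaf 224 1604 (.leaf 321 1805 .nil)) .nil)) .nil)) .nil))) (.cons 201 (.leaf 298 1615 (.cons 177 (.leaf 249 1420 (.leaf 153 1228 .nil)) .nil)) .nil))))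
noncomputable def t18 : T := .cons 296 (.cons 201 (.leaf 225 1605 (.cons 297 (.leaf 200 1604 (.leaf 321 1796 .nil)) .nil)) (.cons 223 (.leaf 199 1599 (.cons 225 (.leaf 201 1605 (.cons 249 (.leaf 320 1797 (.leaf 222 1776 .nil)) .nil)) .nil)) (.cons 199 (.leaf 223 1599 (.cons 321 (.leaf 297 1796 (.cons 320 (.leaf 345 1988 (.cons 343 (.leaf 319 1982 (.cons 344 (.leaf 249 1989 (.leaf 367 2174 .nil)) .nil)) .nil)) .nil)) .nil)) .nil))) (.cons 200 (.cons 175 (.leaf 199 1407 (.cons 201 (.leaf 177 1413 (.cons 225 (.leaf 296 1605 (.cons 249 (.leaf 176 1412 (.leaf 298 1612 .nil)) .nil)) .nil)) .nil)) (.cons 175 (.leaf 199 1407 (.cons 176 (.leaf 249 1412 (.leaf 151 1215 .nil)) .nil)) (.cons 175 (.leaf 199 1407 (.cons 201 (.leaf 177 1413 (.cons 225 (.leaf 296 1605 (.cons 249 (.leaf 298 1612 (.cons 202 (.leaf 178 1421 (.cons 223 (.leaf 222 1776 (.leaf 203 1594 .nil)) .nil)) .nil)) .nil)) .nil))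 .nil)) (.cons 175 (.leaf 199 1407 (.cons 176 (.leaf 151 1215 (.cons 177 (.leaf 201 1413 (.leaf 153 1221 .nil)) .nil)) .nil)) (.cons 176 (.leaf 249 1412 (.cons 177 (.leaf 201 1413 (.leaf 153 1221 .nil)) .nil)) .nil))))) (.cons 296 (.cons 201 (.leaf 225 1605 (.cons 297 (.leaf 321 1796 (.cons 298 (.leaf 324 2368 (.cons 320 (.leaf 319 2362 (.cons 344 (.leaf 249 1989 (.leaf 368 2181 .nil)) .nil)) .nil)) .nil)) .nil)) (.cons 223 (.leaf 199 1599 (.cons 225 (.leaf 201 1605 (.cons 249 (.leaf 320 1797 (.leaf 222 1776 .nil)) .nil)) .nil)) (.cons 199 (.leaf 223 1599 (.cons 321 (.leaf 297 1796 (.cons 320 (.leaf 345 1988 (.cons 343 (.leaf 319 1982 (.cons 344 (.leaf 249 1989 (.leaf 367 2174 .nil)) .nil)) .nil)) .nil)) .nil)) (.cons 199 (.leaf 223 1599 (.cons 321 (.leaf 297 1796 (.cons 320 (.leaf 345 1988 (.cons 343 (.leaf 319 1982 (.cons 344 (.leaf 367 2174 (.leaf 322 2554 .nil)) .nil)) .nil)) .nil))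 .nil)) (.cons 223 (.leaf 199 1599 (.cons 225 (.leaf 201 1605 (.cons 222 (.leaf 249 1776 (.cons 197 (.leaf 198 1579 (.cons 221 (.leaf 196 1571 (.cons 245 (.leaf 244 1762 (.leaf 246 1770 .nil)) .nil)) .nil)) .nil)) .nil)) .nil)) .nil))))) (.cons 297 (.leaf 200 1604 (.cons 321 (.leaf 296 1796 (.leaf 345 1997 .nil)) .nil)) (.cons 200 (.leaf 297 1604 (.cons 175 (.leaf 199 1407 (.cons 176 (.leaf 249 1412 (.leaf 151 1215 .nil)) .nil)) .nil)) .nil))))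
noncomputable def t19 : T := .cons 226 (.leaf 202 1620 (.cons 323 (.leaf 347 2007 (.leaf 298 1812 .nil)) .nil)) (.cons 323 (.leaf 347 2007 (.cons 224 t18 .nil)) (.cons 226 (.leaf 202 1620 (.cons 225 t17 .nil)) (.cons 323 (.leaf 347 2007 (.cons 298 (.leaf 226 1812 (.cons 297 (.cons 200 (.leaf 224 1604 (.cons 324 (.leaf 296 2368 (.cons 321 (.leaf 345 1997 (.cons 325 (.leaf 326 2387 (.leaf 322 2379 .nil)) .nil)) .nil)) .nil)) (.cons 200 (.leaf 224 1604 (.cons 324 (.leaf 296 2368 (.cons 325 (.leaf 326 2387 (.leaf 322 2379 .nil)) .nil)) .nil)) (.cons 321 (.leaf 345 1997 (.cons 224 (.leaf 200 1604 (.leaf 296 1796 .nil)) .nil)) (.cons 321 (.leaf 345 1997 (.cons 224 (.leaf 200 1604 (.leaf 249 1799 .nil)) .nil)) (.cons 321 (.leaf 345 1997 (.cons 296 (.leaf 324 2368 (.cons 320 (.leaf 319 2362 (.cons 344 (.leaf 249 1989 (.leaf 368 2181 .nil)) .nil)) .nil)) .nil)) .nil))))) .nil)) .nil)) (.cons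 226 (.leaf 202 1620 (.cons 323 (.leaf 347 2007 (.cons 224 (.cons 297 (.leaf 200 1604 (.cons 321 (.leaf 296 1796 (.leaf 345 1997 .nil)) .nil)) (.cons 200 (.cons 175 (.leaf 199 1407 (.cons 176 (.leaf 249 1412 (.leaf 151 1215 .nil)) .nil)) (.cons 176 (.leaf 249 1412 (.cons 177 (.leaf 201 1413 (.leaf 153 1221 .nil)) .nil)) (.cons 177 (.leaf 201 1413 (.cons 199 (.leaf 175 1407 (.cons 223 (.leaf 296 1599 (.cons 225 (.leaf 198 1587 (.leaf 227 1595 .nil)) .nil)) .nil)) .nil)) .nil))) (.cons 296 t16 (.cons 297 (.leaf 200 1604 (.cons 321 (.leaf 345 1997 (.leaf 249 1805 .nil)) .nil)) .nil)))) .nil)) .nil)) .nil))))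
noncomputable def t20 : T := .cons 248 (.leaf 247 1979 (.cons 251 (.leaf 252 1985 (.cons 299 (.leaf 300 2176 (.cons 323 (.cons 322 (.leaf 346 2006 (.cons 348 (.leaf 324 2012 (.cons 347 (.leaf 250 2007 (.leaf 372 2204 .nil)) .nil)) .nil)) (.cons 322 (.leaf 346 2006 (.cons 348 (.leaf 324 2012 (.cons 347 (.leaf 372 2204 (.cons 298 (.leaf 227 1814 (.leaf 371 2199 .nil)) .nil)) .nil)) .nil)) (.cons 250 (.leaf 226 1815 (.cons 322 (.leaf 346 2006 (.cons 324 (.leaf 348 2012 (.cons 297 (.cons 321 (.leaf 345 1997 (.leaf 296 2371 .nil)) (.cons 200 (.leaf 224 1604 (.cons 325 (.leaf 298 2379 (.cons 302 (.leaf 301 2385 (.cons 326 (.leaf 303 2393 (.cons 350 (.leaf 349 2576 (.leaf 351 2584 .nil)) .nil)) .nil)) .nil)) .nil)) .nil)) .nil)) .nil)) .nil)) (.cons 250 (.leaf 226 1815 (.leaf 347 2007 .nil)) .nil)))) .nil)) .nil)) .nil)) (.cons 248 (.leaf 247 1979 (.cons 299 (.leaf 300 2176 (.cons 250 t19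 .nil)) .nil)) (.cons 248 (.leaf 247 1979 (.cons 251 (.leaf 252 1985 (.cons 224 t15 .nil)) .nil)) t13))
noncomputable def t21 : T := .cons 270 (.cons 249 (.leaf 250 1969 (.cons 269 (.leaf 248 1961 (.cons 293 (.leaf 292 2146 (.leaf 294 2154 .nil)) .nil)) .nil)) (.cons 246 (.leaf 245 1963 (.cons 247 (.leaf 274 1971 (.cons 294 (.leaf 293 2154 (.cons 223 (.leaf 199 1590 (.leaf 318 1781 .nil)) .nil)) .nil)) .nil)) (.cons 249 (.leaf 250 1969 (.cons 248 (.leaf 269 1961 (.cons 247 (.leaf 274 1979 (.cons 297 (.leaf 298 2160 (.cons 224 (.leaf 200 1604 (.leaf 321 1799 .nil)) .nil)) .nil)) .nil)) .nil)) .nil))) (.cons 274 (.cons 251 (.leaf 252 1985 (.leaf 250 1977 .nil)) (.cons 247 (.leaf 248 1979 (.leaf 246 1971 .nil)) .nil)) (.cons 270 (.cons 249 (.leaf 250 1969 (.cons 269 (.leaf 248 1961 (.cons 293 (.leaf 292 2146 (.leaf 294 2154 .nil)) .nil)) .nil)) (.cons 245 (.leaf 246 1963 (.cons 269 (.leaf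 244 1955 (.cons 293 (.leaf 292 2146 (.leaf 294 2154 .nil)) .nil)) .nil)) (.cons 245 (.leaf 246 1963 (.cons 269 (.leaf 244 1955 (.cons 297 (.leaf 296 2152 (.leaf 298 2160 .nil)) .nil)) .nil)) (.cons 249 (.leaf 250 1969 (.cons 297 (.leaf 298 2160 (.cons 294 (.leaf 293 2154 (.cons 225 (.cons 296 (.leaf 201 1606 (.leaf 320 1798 .nil)) (.cons 200 (.leaf 224 1607 (.cons 201 (.leaf 176 1415 (.cons 202 (.leaf 178 1421 (.leaf 226 1613 .nil)) .nil)) .nil)) (.cons 200 (.leaf 224 1607 (.cons 202 (.leaf 226 1613 (.cons 320 (.leaf 296 1798 (.cons 321 (.leaf 344 1990 (.cons 345 (.leaf 248 1991 (.cons 346 (.leaf 322 1996 (.leaf 370 2188 .nil)) .nil)) .nil)) .nil)) .nil)) .nil)) .nil))) .nil)) .nil)) .nil)) .nil)))) (.cons 270 (.cons 246 (.leaf 245 1963 (.cons 247 (.leaf 274 1971 (.cons 249 (.leaf 250 1969 (.cons 294 (.leaf 293 2154 (.cons 223 (.leaf 199 1590 (.leaf 318 1781 .nil)) .nil)) .nil)) .nil))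 .nil)) (.cons 249 (.leaf 250 1969 (.cons 293 (.leaf 294 2154 (.cons 269 (.leaf 292 2146 (.cons 297 (.leaf 296 2152 (.leaf 298 2160 .nil)) .nil)) .nil)) .nil)) (.cons 246 (.leaf 245 1963 (.cons 247 (.leaf 274 1971 (.cons 249 (.leaf 250 1969 (.cons 297 (.leaf 298 2160 (.cons 296 (.leaf 269 2152 (.cons 320 (.leaf 344 1989 (.leaf 225 1798 .nil)) .nil)) .nil)) .nil)) .nil)) .nil)) (.cons 245 (.leaf 246 1963 (.cons 269 (.leaf 244 1955 (.cons 293 (.leaf 292 2146 (.leaf 294 2154 .nil)) .nil)) .nil)) .nil)))) (.cons 270 (.cons 245 (.leaf 246 1963 (.cons 269 (.leaf 244 1955 (.cons 293 (.leaf 292 2146 (.leaf 294 2154 .nil)) .nil)) .nil)) (.cons 293 (.leaf 294 2154 (.cons 269 (.leaf 292 2146 (.cons 297 (.leaf 296 2152 (.leaf 298 2160 .nil)) .nil)) .nil)) (.cons 245 (.leaf 246 1963 (.cons 269 (.leaf 244 1955 (.cons 297 (.leaf 296 2152 (.leaf 298 2160 .nil)) .nil)) .nil)) (.cons 246 (.leaf 245 1963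 (.cons 247 (.leaf 274 1971 (.cons 294 (.leaf 293 2154 (.cons 223 (.leaf 199 1590 (.leaf 318 1781 .nil)) .nil)) .nil)) .nil)) .nil)))) (.cons 270 (.cons 249 (.leaf 250 1969 (.cons 269 (.leaf 248 1961 (.cons 293 (.leaf 292 2146 (.leaf 294 2154 .nil)) .nil)) .nil)) (.cons 297 (.leaf 298 2160 (.cons 269 (.leaf 296 2152 (.cons 293 (.leaf 292 2146 (.leaf 294 2154 .nil)) .nil)) .nil)) (.cons 249 (.leaf 250 1969 (.cons 248 (.leaf 269 1961 (.cons 247 (.leaf 274 1979 (.cons 297 (.leaf 298 2160 (.cons 224 (.leaf 200 1604 (.leaf 321 1799 .nil)) .nil)) .nil)) .nil)) .nil)) (.cons 250 (.leaf 249 1969 (.cons 274 (.leaf 251 1977 (.cons 248 (.leaf 247 1979 (.cons 293 (.leaf 294 2154 (.cons 297 (.leaf 298 2160 (.cons 321 (.leaf 345 1997 (.cons 224 (.leaf 200 1604 (.leaf 296 1796 .nil)) .nil)) .nil)) .nil)) .nil)) .nil)) .nil)) .nil)))) .nil)))))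
noncomputable def t22 : T := .cons 297 (.leaf 298 2160 (.cons 249 (.leaf 250 1969 (.cons 294 (.leaf 293 2154 (.cons 225 (.cons 296 (.leaf 201 1606 (.leaf 269 2152 .nil)) (.cons 200 (.leaf 224 1607 (.cons 201 (.leaf 176 1415 (.cons 202 (.leaf 178 1421 (.leaf 226 1613 .nil)) .nil)) .nil)) (.cons 200 (.leaf 224 1607 (.cons 202 (.leaf 226 1613 (.cons 320 (.leaf 296 1798 (.cons 321 (.leaf 344 1990 (.cons 345 (.leaf 248 1991 (.cons 346 (.leaf 322 1996 (.leaf 370 2188 .nil)) .nil)) .nil)) .nil)) .nil)) .nil)) .nil))) .nil)) .nil)) .nil)) (.cons 249 (.leaf 250 1969 (.cons 269 (.leaf 248 1961 (.cons 293 (.leaf 292 2146 (.leaf 294 2154 .nil)) .nil)) .nil)) (.cons 297 (.leaf 298 2160 (.cons 269 (.leaf 296 2152 (.cons 293 (.leaf 292 2146 (.leaf 294 2154 .nil)) .nil)) .nil)) (.cons 297 (.leaf 298 2160 (.cons 249 (.leaf 250 1969 (.cons 269 (.leaf 248 1961 (.leaf 296 2152 .nil)) .nil)) .nil)) (.cons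 297 (.leaf 298 2160 (.cons 249 (.leaf 250 1969 (.cons 294 (.leaf 293 2154 (.cons 225 (.cons 296 (.leaf 201 1606 (.leaf 320 1798 .nil)) (.cons 200 (.leaf 224 1607 (.cons 201 (.leaf 176 1415 (.cons 202 (.leaf 178 1421 (.leaf 226 1613 .nil)) .nil)) .nil)) (.cons 200 (.leaf 224 1607 (.cons 202 (.leaf 226 1613 (.cons 320 (.leaf 296 1798 (.cons 321 (.leaf 344 1990 (.cons 345 (.leaf 248 1991 (.cons 346 (.leaf 322 1996 (.leaf 370 2188 .nil)) .nil)) .nil)) .nil)) .nil)) .nil)) .nil))) .nil)) .nil)) .nil)) .nil))))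
noncomputable def t23 : T := .cons 297 (.leaf 298 2160 (.cons 249 (.leaf 250 1969 (.cons 294 (.leaf 293 2154 (.cons 225 (.cons 296 (.leaf 201 1606 (.leaf 269 2152 .nil)) (.cons 200 (.leaf 224 1607 (.cons 201 (.leaf 176 1415 (.cons 202 (.leaf 178 1421 (.leaf 226 1613 .nil)) .nil)) .nil)) (.cons 200 (.leaf 224 1607 (.cons 202 (.leaf 226 1613 (.cons 320 (.leaf 296 1798 (.cons 321 (.leaf 344 1990 (.cons 345 (.leaf 248 1991 (.cons 346 (.leaf 322 1996 (.leaf 370 2188 .nil)) .nil)) .nil)) .nil)) .nil)) .nil)) .nil))) .nil)) .nil)) .nil)) (.cons 249 (.leaf 250 1969 (.cons 269 (.leaf 248 1961 (.cons 293 (.leaf 292 2146 (.leaf 294 2154 .nil)) .nil)) .nil)) (.cons 297 (.leaf 298 2160 (.cons 269 (.leaf 296 2152 (.cons 293 (.leaf 292 2146 (.leaf 294 2154 .nil)) .nil)) .nil)) (.cons 297 (.leaf 298 2160 (.cons 249 (.leaf 250 1969 (.cons 269 (.leaf 248 1961 (.leaf 296 2152 .nil)) .nil)) .nil)) (.cons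 297 (.leaf 298 2160 (.cons 246 (.leaf 245 1963 (.cons 294 (.leaf 293 2154 (.cons 318 (.cons 247 (.leaf 342 1973 (.leaf 223 1781 .nil)) (.cons 317 (.leaf 341 1966 (.cons 319 (.leaf 343 1972 (.cons 320 (.leaf 296 2345 (.cons 345 (.leaf 344 2536 (.cons 321 (.leaf 248 1991 (.leaf 346 2544 .nil)) .nil)) .nil)) .nil)) .nil)) .nil)) .nil)) .nil)) .nil)) .nil))))
noncomputable def t24 : T := .cons 297 (.leaf 298 2160 (.cons 249 (.leaf 250 1969 (.cons 294 (.leaf 293 2154 (.cons 225 (.cons 296 (.leaf 201 1606 (.leaf 269 2152 .nil)) (.cons 200 (.leaf 224 1607 (.cons 201 (.leaf 176 1415 (.cons 202 (.leaf 178 1421 (.leaf 226 1613 .nil)) .nil)) .nil)) (.cons 200 (.leaf 224 1607 (.cons 202 (.leaf 226 1613 (.cons 320 (.leaf 296 1798 (.cons 321 (.leaf 344 1990 (.cons 345 (.leaf 248 1991 (.cons 346 (.leaf 322 1996 (.leaf 370 2188 .nil)) .nil)) .nil)) .nil)) .nil)) .nil)) .nil))) .nil)) .nil)) .nil))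 (.cons 246 (.leaf 245 1963 (.cons 247 (.leaf 274 1971 (.cons 249 (.leaf 250 1969 (.cons 248 (.leaf 269 1961 (.cons 222 (.leaf 221 1771 (.cons 294 (.leaf 293 2154 (.cons 198 (.leaf 174 1396 (.cons 223 (.leaf 199 1589 (.leaf 318 1781 .nil)) .nil)) .nil)) .nil)) .nil)) .nil)) .nil)) .nil)) (.cons 297 (.leaf 298 2160 (.cons 269 (.leaf 296 2152 (.cons 293 (.leaf 292 2146 (.leaf 294 2154 .nil)) .nil)) .nil)) (.cons 297 (.leaf 298 2160 (.cons 249 (.leaf 250 1969 (.cons 269 (.leaf 248 1961 (.leaf 296 2152 .nil)) .nil)) .nil)) (.cons 246 (.leaf 245 1963 (.cons 247 (.leaf 274 1971 (.cons 249 (.leaf 250 1969 (.cons 294 (.leaf 293 2154 (.cons 223 (.leaf 199 1590 (.leaf 318 1781 .nil)) .nil)) .nil)) .nil)) .nil)) .nil))))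
noncomputable def t25 : T := .cons 270 t24 (.cons 274 (.cons 299 (.leaf 300 2176 (.leaf 298 2168 .nil)) (.cons 247 (.leaf 248 1979 (.leaf 246 1971 .nil)) .nil)) (.cons 270 t23 (.cons 270 t22 (.cons 270 (.cons 246 (.leaf 245 1963 (.cons 247 (.leaf 274 1971 (.cons 249 (.leaf 250 1969 (.cons 294 (.leaf 293 2154 (.cons 223 (.leaf 199 1590 (.leaf 318 1781 .nil)) .nil)) .nil)) .nil)) .nil)) (.cons 297 (.leaf 298 2160 (.cons 249 (.leaf 250 1969 (.cons 269 (.leaf 296 2152 (.cons 293 (.leaf 292 2146 (.leaf 294 2154 .nil)) .nil)) .nil)) .nil)) (.cons 245 (.leaf 246 1963 (.cons 269 (.leaf 244 1955 (.cons 297 (.leaf 296 2152 (.leaf 298 2160 .nil)) .nil)) .nil)) .nil))) (.cons 270 (.cons 245 (.leaf 246 1963 (.cons 269 (.leaf 244 1955 (.cons 293 (.leaf 292 2146 (.leaf 294 2154 .nil)) .nil)) .nil)) (.cons 249 (.leaf 250 1969 (.cons 269 (.leaf 248 1961 (.cons 293 (.leaf 292 2146 (.leaf 294 2154 .nil))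 .nil)) .nil)) (.cons 245 (.leaf 246 1963 (.cons 249 (.leaf 250 1969 (.cons 269 (.leaf 244 1955 (.leaf 248 1961 .nil)) .nil)) .nil)) (.cons 246 (.leaf 245 1963 (.cons 247 (.leaf 274 1971 (.cons 249 (.leaf 250 1969 (.cons 294 (.leaf 293 2154 (.cons 223 (.leaf 199 1590 (.leaf 318 1781 .nil)) .nil)) .nil)) .nil)) .nil)) .nil)))) .nil)))))
noncomputable def t26 : T := .cons 251 (.leaf 252 1985 (.cons 271 (.leaf 250 1977 (.cons 246 (.leaf 247 1971 (.cons 299 (.leaf 300 2176 (.leaf 298 2168 .nil)) .nil)) .nil)) .nil)) (.cons 251 (.leaf 252 1985 (.cons 271 (.leaf 250 1977 (.cons 246 (.leaf 247 1971 (.cons 270 (.leaf 245 1963 (.cons 293 (.leaf 294 2154 (.cons 269 (.leaf 292 2146 (.cons 297 (.leaf 296 2152 (.leaf 298 2160 .nil)) .nil)) .nil)) .nil)) .nil)) .nil)) .nil)) (.cons 299 (.leaf 300 2176 (.cons 298 (.leaf 271 2168 (.cons 250 (.cons 226 (.leaf 202 1620 (.leaf 323 1812 .nil)) (.cons 323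 (.leaf 347 2007 (.cons 322 (.cons 249 (.leaf 346 1999 (.leaf 225 1807 .nil)) (.cons 249 (.leaf 225 1807 (.cons 321 (.leaf 345 1998 (.cons 320 (.leaf 319 2361 (.cons 344 (.leaf 296 1989 (.leaf 297 1990 .nil)) .nil)) .nil)) .nil)) (.cons 345 (.leaf 321 1998 (.cons 346 (.leaf 370 2197 (.leaf 369 2190 .nil)) .nil)) .nil))) .nil)) (.cons 226 (.leaf 202 1620 (.cons 201 (.leaf 225 1615 (.cons 203 (.leaf 227 1621 (.cons 321 (.leaf 297 1806 (.cons 322 (.leaf 345 1998 (.cons 346 (.leaf 370 2197 (.leaf 249 1999 .nil)) .nil)) .nil)) .nil)) .nil)) .nil)) .nil))) .nil)) .nil)) (.cons 251 (.leaf 252 1985 (.cons 299 (.leaf 300 2176 (.cons 227 (.cons 298 (.leaf 203 1622 (.leaf 322 1814 .nil)) (.cons 226 (.leaf 202 1623 (.cons 204 (.leaf 228 1629 (.cons 180 (.leaf 203 1437 (.cons 323 (.leaf 250 1815 (.cons 346 (.leaf 322 2006 (.cons 347 (.leaf 370 2198 (.cons 348 (.leaf 324 2012 (.leaf 372 2204 .nil))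 .nil)) .nil)) .nil)) .nil)) .nil)) .nil)) (.cons 322 (.leaf 298 1814 (.cons 202 (.leaf 226 1623 (.cons 323 (.leaf 346 2006 (.cons 204 (.leaf 228 1629 (.cons 347 (.leaf 250 2007 (.cons 348 (.leaf 324 2012 (.leaf 372 2204 .nil)) .nil)) .nil)) .nil)) .nil)) .nil)) (.cons 203 (.leaf 298 1622 (.cons 202 (.leaf 178 1431 (.leaf 226 1623 .nil)) .nil)) .nil)))) .nil)) .nil)) (.cons 251 (.leaf 252 1985 (.cons 250 (.leaf 271 1977 (.cons 299 (.leaf 300 2176 (.cons 226 (.leaf 202 1620 (.leaf 323 1815 .nil)) .nil)) .nil)) .nil)) (.cons 299 (.leaf 300 2176 (.cons 251 (.leaf 252 1985 (.cons 298 (.leaf 271 2168 (.cons 227 (.leaf 203 1622 (.leaf 322 1814 .nil)) .nil)) .nil)) .nil)) .nil)))))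
noncomputable def t27 : T := .cons 297 (.cons 320 (.leaf 296 1798 (.cons 224 (.leaf 200 1607 (.cons 321 (.leaf 248 1799 (.leaf 344 1990 .nil)) .nil)) .nil)) (.cons 224 (.leaf 200 1607 (.cons 226 (.leaf 202 1613 (.cons 227 (.leaf 252 1792 (.cons 248 (.leaf 321 1799 (.leaf 228 1794 .nil)) .nil)) .nil)) .nil)) (.cons 202 (.leaf 226 1613 (.cons 296 (.leaf 201 1606 (.leaf 320 1798 .nil)) .nil)) .nil))) (.cons 297 (.cons 320 (.leaf 296 1798 (.cons 224 (.leaf 200 1607 (.cons 321 (.leaf 248 1799 (.leaf 344 1990 .nil)) .nil)) .nil)) (.cons 224 (.leaf 200 1607 (.cons 226 (.leaf 202 1613 (.cons 227 (.leaf 252 1792 (.cons 248 (.leaf 321 1799 (.leaf 228 1794 .nil)) .nil)) .nil)) .nil)) (.cons 202 (.leaf 226 1613 (.cons 296 (.leaf 320 1798 (.cons 298 (.leaf 322 1804 (.cons 271 (.leaf 270 2160 (.leaf 299 2171 .nil)) .nil)) .nil)) .nil)) .nil))) (.cons 201 (.cons 177 (.leaf 248 1414 (.cons 178 (.leaf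 202 1421 (.leaf 154 1229 .nil)) .nil)) (.cons 202 (.leaf 178 1421 (.cons 200 (.leaf 176 1415 (.cons 224 (.leaf 297 1607 (.cons 203 (.leaf 204 1602 (.leaf 223 1594 .nil)) .nil)) .nil)) .nil)) (.cons 176 (.leaf 200 1415 (.cons 177 (.leaf 248 1414 (.leaf 152 1223 .nil)) .nil)) .nil))) (.cons 201 (.leaf 296 1606 (.cons 177 (.leaf 248 1414 (.cons 178 (.leaf 202 1421 (.leaf 154 1229 .nil)) .nil)) .nil)) (.cons 201 (.leaf 296 1606 (.cons 202 (.leaf 178 1421 (.cons 200 (.leaf 176 1415 (.cons 224 (.leaf 297 1607 (.cons 203 (.leaf 204 1602 (.leaf 223 1594 .nil)) .nil)) .nil)) .nil)) .nil)) (.cons 296 (.leaf 201 1606 (.cons 320 (.leaf 248 1797 (.leaf 344 1989 .nil)) .nil)) .nil)))))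
noncomputable def t28 : T := .cons 250 (.leaf 252 1986 (.cons 271 (.leaf 248 1978 (.leaf 270 1969 .nil)) .nil)) (.cons 225 t27 (.cons 250 (.cons 271 (.leaf 248 1978 (.leaf 270 1969 .nil)) (.cons 226 (.cons 202 (.leaf 178 1428 (.cons 299 (.leaf 227 1623 (.leaf 323 1815 .nil)) .nil)) (.cons 297 (.leaf 321 1805 (.cons 299 (.leaf 323 1815 (.cons 298 (.leaf 300 2179 (.cons 225 (.leaf 322 1804 (.cons 224 (.leaf 200 1607 (.leaf 223 1784 .nil)) .nil)) .nil)) .nil)) .nil)) (.cons 202 (.leaf 178 1428 (.cons 297 (.leaf 225 1613 (.leaf 321 1805 .nil)) .nil)) .nil))) .nil)) (.cons 250 (.leaf 252 1986 (.cons 271 (.leaf 270 1969 (.cons 226 (.cons 297 (.leaf 321 1805 (.cons 299 (.leaf 323 1815 (.cons 298 (.leaf 296 2171 (.leaf 300 2179 .nil)) .nil)) .nil)) (.cons 297 (.leaf 321 1805 (.cons 225 (.leaf 202 1613 (.cons 296 (.leaf 201 1606 (.leaf 320 1798 .nil)) .nil)) .nil)) (.cons 202 (.leaf 178 1428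 (.cons 299 (.leaf 227 1623 (.leaf 323 1815 .nil)) .nil)) .nil))) .nil)) .nil)) (.cons 250 (.leaf 252 1986 (.cons 226 (.cons 202 (.leaf 178 1428 (.cons 299 (.leaf 227 1623 (.leaf 323 1815 .nil)) .nil)) (.cons 297 (.leaf 321 1805 (.cons 299 (.leaf 323 1815 (.cons 298 (.leaf 300 2179 (.cons 225 (.leaf 322 1804 (.cons 224 (.leaf 200 1607 (.leaf 223 1784 .nil)) .nil)) .nil)) .nil)) .nil)) (.cons 202 (.leaf 178 1428 (.cons 297 (.leaf 225 1613 (.leaf 321 1805 .nil)) .nil)) .nil))) .nil)) .nil))))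
noncomputable def t29 : T := .cons 201 (.leaf 296 1606 (.cons 177 (.leaf 248 1414 (.cons 178 (.leaf 202 1421 (.leaf 154 1229 .nil)) .nil)) .nil)) (.cons 297 (.cons 320 (.leaf 296 1798 (.cons 224 (.leaf 200 1607 (.cons 321 (.leaf 248 1799 (.leaf 344 1990 .nil)) .nil)) .nil)) (.cons 224 (.leaf 200 1607 (.cons 226 (.leaf 202 1613 (.cons 227 (.leaf 252 1792 (.cons 248 (.leaf 321 1799 (.leaf 228 1794 .nil)) .nil)) .nil)) .nil)) (.cons 226 (.leaf 202 1613 (.cons 321 (.cons 296 (.leaf 320 1798 (.cons 345 (.leaf 248 1991 (.leaf 369 2183 .nil)) .nil)) (.cons 345 (.leaf 248 1991 (.cons 344 (.leaf 368 2182 (.cons 369 (.leaf 296 2183 (.cons 370 (.leaf 346 2188 (.leaf 394 2380 .nil)) .nil)) .nil)) .nil)) (.cons 345 (.leaf 248 1991 (.cons 344 (.leaf 320 1990 (.leaf 368 2182 .nil)) .nil)) (.cons 320 (.leaf 296 1798 (.leaf 344 1990 .nil)) .nil)))) .nil)) (.cons 224 (.leaf 200 1607 (.cons 226 (.leaf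 202 1613 (.cons 227 (.leaf 252 1792 (.cons 204 (.leaf 203 1601 (.cons 228 (.leaf 299 1629 (.leaf 205 1609 .nil)) .nil)) .nil)) .nil)) .nil)) .nil)))) (.cons 201 (.cons 177 (.leaf 248 1414 (.cons 178 (.leaf 202 1421 (.leaf 154 1229 .nil)) .nil)) (.cons 202 (.leaf 178 1421 (.cons 200 (.leaf 176 1415 (.cons 224 (.leaf 297 1607 (.cons 203 (.leaf 204 1602 (.leaf 223 1594 .nil)) .nil)) .nil)) .nil)) (.cons 176 (.leaf 200 1415 (.cons 177 (.leaf 248 1414 (.leaf 152 1223 .nil)) .nil)) .nil))) (.cons 296 (.leaf 201 1606 (.cons 320 (.leaf 344 1989 (.leaf 297 1798 .nil)) .nil)) .nil)))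
noncomputable def t30 : T := .cons 250 (.leaf 252 1986 (.cons 271 (.leaf 248 1978 (.leaf 270 1969 .nil)) .nil)) (.cons 225 t29 (.cons 250 (.cons 271 (.leaf 248 1978 (.leaf 270 1969 .nil)) (.cons 226 (.cons 202 (.leaf 178 1428 (.cons 299 (.leaf 227 1623 (.leaf 323 1815 .nil)) .nil)) (.cons 297 (.leaf 321 1805 (.cons 299 (.leaf 323 1815 (.cons 300 (.leaf 298 2179 (.cons 227 (.leaf 324 1820 (.cons 248 (.leaf 228 1793 (.leaf 247 1785 .nil)) .nil)) .nil)) .nil)) .nil)) (.cons 202 (.leaf 178 1428 (.cons 297 (.leaf 225 1613 (.leaf 321 1805 .nil)) .nil)) .nil))) (.cons 271 (.leaf 270 1969 (.cons 226 (.cons 297 (.leaf 321 1805 (.cons 225 (.leaf 202 1613 (.cons 296 (.leaf 201 1606 (.leaf 320 1798 .nil)) .nil)) .nil)) (.cons 297 (.leaf 321 1805 (.cons 225 (.cons 296 (.leaf 201 1606 (.leaf 320 1798 .nil)) (.cons 224 (.leaf 200 1607 (.leaf 223 1784 .nil)) .nil)) .nil)) (.cons 202 (.leaf 178 1428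 (.cons 299 (.leaf 227 1623 (.leaf 323 1815 .nil)) .nil)) .nil))) .nil)) .nil))) (.cons 250 (.leaf 252 1986 (.cons 271 (.leaf 270 1969 (.cons 226 (.cons 297 (.leaf 321 1805 (.cons 225 (.leaf 202 1613 (.cons 296 (.leaf 201 1606 (.leaf 320 1798 .nil)) .nil)) .nil)) (.cons 297 (.leaf 321 1805 (.cons 225 (.cons 296 (.leaf 201 1606 (.leaf 320 1798 .nil)) (.cons 224 (.leaf 200 1607 (.leaf 223 1784 .nil)) .nil)) .nil)) (.cons 202 (.leaf 178 1428 (.cons 299 (.leaf 227 1623 (.leaf 323 1815 .nil)) .nil)) .nil))) .nil)) .nil)) .nil)))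
noncomputable def t31 : T := .cons 320 (.leaf 344 1989 (.cons 248 (.leaf 225 1797 (.cons 223 (.leaf 247 1791 (.cons 224 (.leaf 199 1599 (.leaf 250 1787 .nil)) .nil)) .nil)) .nil)) (.cons 225 (.leaf 201 1606 (.cons 297 (.cons 202 (.leaf 226 1613 (.cons 224 (.leaf 200 1607 (.cons 321 (.leaf 248 1796 (.cons 345 (.leaf 369 2183 (.cons 346 (.leaf 322 1996 (.leaf 370 2188 .nil)) .nil)) .nil)) .nil)) .nil)) (.cons 226 (.leaf 202 1613 (.cons 250 (.leaf 321 1805 (.cons 271 (.leaf 248 1978 (.leaf 270 1969 .nil)) .nil)) .nil)) (.cons 224 (.leaf 200 1607 (.cons 248 (.leaf 321 1796 (.cons 223 (.leaf 199 1599 (.leaf 250 1787 .nil)) .nil)) .nil)) (.cons 226 (.leaf 202 1613 (.cons 200 (.leaf 224 1607 (.cons 321 (.leaf 250 1805 (.cons 345 (.leaf 369 2183 (.cons 346 (.leaf 322 1996 (.leaf 370 2188 .nil)) .nil)) .nil)) .nil)) .nil)) (.cons 224 (.leaf 200 1607 (.cons 226 (.leaf 202 1613 (.cons 223 (.leaf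 250 1784 (.cons 199 (.leaf 248 1599 (.leaf 198 1587 .nil)) .nil)) .nil)) .nil)) .nil))))) .nil)) (.cons 320 (.leaf 344 1989 (.cons 248 (.cons 223 (.leaf 247 1791 (.cons 224 (.leaf 199 1599 (.leaf 250 1787 .nil)) .nil)) (.cons 223 (.leaf 247 1791 (.cons 224 (.leaf 199 1599 (.cons 200 (.leaf 297 1604 (.leaf 176 1412 .nil)) .nil)) .nil)) (.cons 321 (.leaf 345 1988 (.cons 224 (.leaf 297 1796 (.cons 176 (.leaf 200 1412 (.cons 250 (.leaf 271 1978 (.cons 227 (.leaf 228 1793 (.cons 226 (.leaf 247 1785 (.cons 202 (.leaf 178 1428 (.leaf 299 1623 .nil)) .nil)) .nil)) .nil)) .nil)) .nil)) .nil)) (.cons 321 (.leaf 345 1988 (.cons 224 (.leaf 297 1796 (.cons 199 (.leaf 223 1599 (.cons 200 (.leaf 175 1407 (.leaf 176 1412 .nil)) .nil)) .nil)) .nil)) (.cons 250 (.leaf 271 1978 (.cons 223 (.leaf 247 1791 (.cons 227 (.leaf 228 1793 (.cons 319 (.leaf 343 1982 (.cons 321 (.leaf 345 1988 (.cons 226 (.leaf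 297 1805 (.cons 202 (.leaf 178 1428 (.leaf 299 1623 .nil)) .nil)) .nil)) .nil)) .nil)) .nil)) .nil)) .nil))))) .nil)) (.cons 320 (.leaf 344 1989 (.cons 225 (.leaf 201 1606 (.leaf 297 1798 .nil)) .nil)) .nil)))
noncomputable def t32 : T := .cons 296 (.leaf 201 1606 (.cons 320 (.leaf 248 1797 (.leaf 344 1989 .nil)) .nil)) (.cons 297 (.cons 200 (.leaf 224 1607 (.cons 320 (.leaf 296 1798 (.cons 321 (.leaf 344 1990 (.cons 345 (.leaf 248 1991 (.cons 346 (.leaf 322 1996 (.leaf 370 2188 .nil)) .nil)) .nil)) .nil)) .nil)) (.cons 224 (.leaf 200 1607 (.cons 226 (.leaf 202 1613 (.cons 227 (.leaf 252 1792 (.cons 248 (.leaf 321 1799 (.leaf 228 1794 .nil)) .nil)) .nil)) .nil)) (.cons 202 (.leaf 226 1613 (.cons 320 (.leaf 296 1798 (.cons 321 (.leaf 344 1990 (.cons 345 (.leaf 248 1991 (.cons 346 (.leaf 322 1996 (.leaf 370 2188 .nil)) .nil)) .nil)) .nil)) .nil)) (.cons 224 (.leaf 200 1607 (.cons 226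 (.leaf 202 1613 (.cons 227 (.leaf 252 1792 (.cons 204 (.leaf 203 1601 (.cons 228 (.leaf 299 1629 (.leaf 205 1609 .nil)) .nil)) .nil)) .nil)) .nil)) .nil)))) (.cons 201 (.cons 177 (.leaf 248 1414 (.cons 178 (.leaf 202 1421 (.leaf 154 1229 .nil)) .nil)) (.cons 202 (.leaf 178 1421 (.cons 200 (.leaf 176 1415 (.cons 224 (.leaf 297 1607 (.cons 203 (.leaf 204 1602 (.leaf 223 1594 .nil)) .nil)) .nil)) .nil)) (.cons 176 (.leaf 200 1415 (.cons 177 (.leaf 248 1414 (.leaf 152 1223 .nil)) .nil)) .nil))) (.cons 201 (.leaf 296 1606 (.cons 202 (.leaf 178 1421 (.cons 200 (.leaf 176 1415 (.cons 224 (.leaf 297 1607 (.cons 203 (.leaf 204 1602 (.leaf 223 1594 .nil)) .nil)) .nil)) .nil)) .nil)) .nil)))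
noncomputable def t33 : T := .cons 296 (.leaf 201 1606 (.cons 297 (.leaf 320 1798 (.cons 202 (.leaf 226 1613 (.cons 224 (.leaf 200 1607 (.cons 321 (.leaf 248 1796 (.cons 345 (.leaf 369 2183 (.cons 346 (.leaf 322 1996 (.leaf 370 2188 .nil)) .nil)) .nil)) .nil)) .nil)) .nil)) .nil)) (.cons 297 (.cons 224 (.leaf 200 1607 (.cons 226 (.leaf 202 1613 (.cons 223 (.leaf 250 1784 (.cons 198 (.leaf 199 1587 (.cons 222 (.leaf 197 1579 (.cons 248 (.leaf 321 1799 (.leaf 221 1768 .nil)) .nil)) .nil)) .nil)) .nil)) .nil)) (.cons 224 (.leaf 200 1607 (.cons 226 (.leaf 202 1613 (.cons 227 (.leaf 252 1792 (.cons 248 (.leaf 321 1799 (.leaf 228 1794 .nil)) .nil)) .nil)) .nil)) (.cons 202 (.leaf 226 1613 (.cons 320 (.leaf 296 1798 (.cons 321 (.leaf 344 1990 (.cons 345 (.leaf 248 1991 (.cons 346 (.leaf 322 1996 (.leaf 370 2188 .nil)) .nil)) .nil)) .nil)) .nil)) (.cons 224 (.leaf 200 1607 (.cons 250 (.leaf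 252 1986 (.cons 270 (.leaf 271 1969 (.cons 222 (.leaf 223 1776 (.cons 321 (.leaf 248 1799 (.cons 320 (.leaf 296 1798 (.leaf 344 1990 .nil)) .nil)) .nil)) .nil)) .nil)) .nil)) (.cons 224 (.leaf 200 1607 (.cons 226 (.leaf 202 1613 (.cons 223 (.leaf 250 1784 (.cons 198 (.leaf 199 1587 (.cons 222 (.leaf 197 1579 (.cons 246 (.leaf 245 1770 (.leaf 247 1778 .nil)) .nil)) .nil)) .nil)) .nil)) .nil)) .nil))))) (.cons 250 (.leaf 252 1986 (.cons 271 (.leaf 248 1978 (.leaf 270 1969 .nil)) .nil)) (.cons 296 (.leaf 201 1606 (.cons 320 (.leaf 344 1989 (.leaf 297 1798 .nil)) .nil)) .nil)))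
noncomputable def t34 : T := .cons 321 (.leaf 226 1805 (.cons 346 (.leaf 322 1996 (.cons 344 (.leaf 320 1990 (.cons 345 (.leaf 368 2182 (.leaf 370 2188 .nil)) .nil)) .nil)) .nil)) (.cons 296 (.cons 225 (.leaf 201 1606 (.leaf 320 1798 .nil)) (.cons 225 (.leaf 201 1606 (.cons 298 (.leaf 299 2171 (.leaf 322 1804 .nil)) .nil)) (.cons 299 (.leaf 298 2171 (.cons 320 (.leaf 344 1989 (.cons 323 (.leaf 226 1815 (.cons 346 (.leaf 322 2006 (.cons 347 (.leaf 370 2198 (.cons 348 (.leaf 324 2012 (.leaf 372 2204 .nil)) .nil)) .nil)) .nil)) .nil)) .nil)) .nil))) (.cons 298 (.cons 299 (.leaf 296 2171 (.leaf 300 2179 .nil)) (.cons 225 (.leaf 322 1804 (.cons 296 (.leaf 201 1606 (.leaf 320 1798 .nil)) .nil)) (.cons 299 (.leaf 300 2179 (.cons 322 (.leaf 227 1814 (.leaf 225 1804 .nil)) .nil)) .nil))) (.cons 321 (.leaf 226 1805 (.cons 322 (.leaf 346 1996 (.cons 298 (.leaf 225 1804 (.cons 299 (.leaf 227 1814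 (.leaf 296 2171 .nil)) .nil)) .nil)) .nil)) (.cons 321 (.leaf 226 1805 (.cons 320 (.leaf 344 1990 (.cons 296 (.leaf 225 1798 (.cons 299 (.leaf 298 2171 (.cons 345 (.leaf 369 2183 (.cons 346 (.leaf 370 2188 (.cons 348 (.leaf 347 2563 (.cons 324 (.leaf 323 2012 (.cons 300 (.leaf 227 1820 (.leaf 372 2207 .nil)) .nil)) .nil)) .nil)) .nil)) .nil)) .nil)) .nil)) .nil)) .nil))))
noncomputable def t35 : T := .cons 321 (.cons 224 (.leaf 248 1799 (.cons 225 (.leaf 200 1607 (.cons 322 (.leaf 298 1804 (.leaf 346 1996 .nil)) .nil)) .nil)) (.cons 344 (.leaf 320 1990 (.cons 322 (.leaf 346 1996 (.cons 345 (.leaf 368 2182 (.cons 323 (.leaf 324 2562 (.cons 298 (.leaf 225 1804 (.cons 299 (.leaf 227 1814 (.leaf 300 2179 .nil)) .nil)) .nil)) .nil)) .nil)) .nil)) (.cons 224 (.leaf 248 1799 (.cons 225 (.leaf 200 1607 (.cons 296 (.leaf 201 1606 (.leaf 320 1798 .nil)) .nil)) .nil)) (.cons 344 (.leaf 320 1990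 (.cons 322 (.leaf 346 1996 (.cons 345 (.leaf 248 1991 (.leaf 368 2182 .nil)) .nil)) .nil)) .nil)))) (.cons 298 (.cons 270 (.leaf 271 2160 (.cons 299 (.leaf 300 2179 (.cons 322 (.leaf 227 1814 (.leaf 225 1804 .nil)) .nil)) .nil)) (.cons 225 (.leaf 322 1804 (.cons 296 (.leaf 201 1606 (.leaf 320 1798 .nil)) .nil)) (.cons 271 (.leaf 270 2160 (.cons 299 (.leaf 296 2171 (.leaf 300 2179 .nil)) .nil)) .nil))) (.cons 321 (.cons 248 (.leaf 345 1991 (.leaf 224 1799 .nil)) (.cons 344 (.leaf 320 1990 (.cons 322 (.leaf 346 1996 (.cons 345 (.leaf 368 2182 (.cons 323 (.leaf 324 2562 (.cons 369 (.leaf 296 2183 (.cons 298 (.leaf 393 2381 (.cons 299 (.leaf 227 1814 (.leaf 300 2179 .nil)) .nil)) .nil)) .nil)) .nil)) .nil)) .nil)) (.cons 248 (.leaf 224 1799 (.cons 250 (.leaf 271 1978 (.leaf 226 1805 .nil)) .nil)) .nil))) (.cons 321 (.cons 248 (.leaf 345 1991 (.leaf 224 1799 .nil)) (.cons 226 (.leaf 250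 1805 (.cons 320 (.leaf 344 1990 (.cons 322 (.leaf 346 1996 (.cons 298 (.leaf 225 1804 (.cons 299 (.leaf 227 1814 (.leaf 300 2370 .nil)) .nil)) .nil)) .nil)) .nil)) .nil)) (.cons 248 (.cons 250 (.leaf 271 1978 (.cons 321 (.leaf 345 1991 (.leaf 224 1799 .nil)) .nil)) (.cons 250 (.leaf 271 1978 (.cons 321 (.leaf 345 1991 (.leaf 226 1805 .nil)) .nil)) (.cons 200 (.leaf 224 1604 (.cons 250 (.leaf 271 1978 (.cons 227 (.leaf 228 1793 (.cons 226 (.leaf 247 1785 (.cons 299 (.leaf 323 1815 (.cons 298 (.leaf 322 1814 (.leaf 300 2179 .nil)) .nil)) .nil)) .nil)) .nil)) .nil)) (.cons 224 (.leaf 200 1604 (.leaf 321 1799 .nil)) .nil)))) (.cons 321 (.cons 248 (.leaf 345 1991 (.leaf 224 1799 .nil)) (.cons 320 (.leaf 344 1990 (.cons 296 (.leaf 225 1798 (.cons 345 (.leaf 369 2183 (.cons 346 (.leaf 322 1996 (.leaf 370 2188 .nil)) .nil)) .nil)) .nil)) (.cons 248 (.leaf 224 1799 (.cons 250 (.leaf 271 1978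 (.leaf 226 1805 .nil)) .nil)) .nil))) (.cons 321 (.cons 248 (.leaf 345 1991 (.leaf 224 1799 .nil)) (.cons 320 (.leaf 344 1990 (.cons 250 (.leaf 226 1805 (.cons 271 (.leaf 270 1969 (.cons 296 (.leaf 225 1798 (.cons 299 (.leaf 298 2171 (.cons 345 (.leaf 369 2183 (.cons 346 (.leaf 370 2188 (.cons 348 (.leaf 347 2563 (.cons 324 (.leaf 323 2012 (.cons 300 (.leaf 227 1820 (.leaf 372 2207 .nil)) .nil)) .nil)) .nil)) .nil)) .nil)) .nil)) .nil)) .nil)) .nil)) (.cons 248 (.leaf 224 1799 (.cons 250 (.leaf 271 1978 (.leaf 226 1805 .nil)) .nil)) .nil))) .nil))))))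
noncomputable def t36 : T := .cons 321 (.cons 224 (.leaf 248 1799 (.cons 225 (.leaf 200 1607 (.cons 322 (.leaf 298 1804 (.leaf 346 1996 .nil)) .nil)) .nil)) (.cons 344 (.leaf 320 1990 (.cons 322 (.leaf 346 1996 (.cons 345 (.leaf 368 2182 (.cons 323 (.leaf 324 2562 (.cons 298 (.leaf 225 1804 (.cons 299 (.leaf 227 1814 (.leaf 300 2179 .nil)) .nil)) .nil)) .nil)) .nil)) .nil)) (.cons 224 (.leaf 248 1799 (.cons 225 (.leaf 200 1607 (.cons 296 (.leaf 201 1606 (.leaf 320 1798 .nil)) .nil)) .nil)) (.cons 344 (.leaf 320 1990 (.cons 322 (.leaf 346 1996 (.cons 345 (.leaf 248 1991 (.leaf 368 2182 .nil)) .nil)) .nil)) .nil)))) (.cons 298 (.cons 270 (.leaf 271 2160 (.cons 299 (.leaf 300 2179 (.cons 227 (.leaf 322 1814 (.cons 228 (.leaf 204 1629 (.cons 323 (.leaf 252 1821 (.cons 324 (.leaf 348 2012 (.leaf 296 2368 .nil)) .nil)) .nil)) .nil)) .nil)) .nil)) (.cons 225 (.leaf 322 1804 (.cons 296 (.leaf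 201 1606 (.leaf 320 1798 .nil)) .nil)) (.cons 271 (.leaf 270 2160 (.cons 299 (.leaf 296 2171 (.leaf 300 2179 .nil)) .nil)) (.cons 270 (.leaf 271 2160 (.cons 299 (.leaf 300 2179 (.cons 322 (.leaf 227 1814 (.leaf 225 1804 .nil)) .nil)) .nil)) .nil)))) (.cons 321 (.cons 248 (.leaf 345 1991 (.leaf 224 1799 .nil)) (.cons 344 (.leaf 320 1990 (.cons 322 (.leaf 346 1996 (.cons 345 (.leaf 368 2182 (.cons 323 (.leaf 324 2562 (.cons 369 (.leaf 296 2183 (.cons 298 (.leaf 393 2381 (.cons 299 (.leaf 227 1814 (.leaf 300 2179 .nil)) .nil)) .nil)) .nil)) .nil)) .nil)) .nil)) (.cons 248 (.leaf 224 1799 (.cons 320 (.leaf 344 1990 (.cons 322 (.leaf 346 1996 (.cons 298 (.cons 299 (.leaf 227 1814 (.leaf 300 2370 .nil)) (.cons 270 (.leaf 271 2160 (.cons 319 (.leaf 318 2353 (.cons 343 (.leaf 296 1982 (.leaf 342 2546 .nil)) .nil)) .nil)) .nil)) .nil)) .nil)) .nil)) .nil))) (.cons 321 (.cons 320 (.leaf 344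 1990 (.cons 248 (.leaf 345 1991 (.leaf 224 1799 .nil)) .nil)) (.cons 320 (.leaf 344 1990 (.cons 322 (.leaf 346 1996 (.cons 298 (.leaf 225 1804 (.cons 299 (.leaf 227 1814 (.leaf 300 2370 .nil)) .nil)) .nil)) .nil)) (.cons 248 (.leaf 345 1991 (.leaf 224 1799 .nil)) .nil))) (.cons 321 (.cons 248 (.leaf 345 1991 (.leaf 224 1799 .nil)) (.cons 322 (.leaf 346 1996 (.cons 225 (.leaf 298 1804 (.cons 200 (.leaf 224 1607 (.cons 201 (.leaf 296 1606 (.leaf 176 1415 .nil)) .nil)) .nil)) .nil)) (.cons 248 (.leaf 345 1991 (.cons 322 (.leaf 346 1996 (.cons 225 (.leaf 298 1804 (.cons 201 (.leaf 177 1414 (.leaf 296 1606 .nil)) .nil)) .nil)) .nil)) .nil))) (.cons 321 (.cons 224 (.leaf 248 1799 (.cons 225 (.leaf 200 1607 (.cons 296 (.leaf 201 1606 (.leaf 320 1798 .nil)) .nil)) .nil)) (.cons 320 (.leaf 344 1990 (.cons 296 (.leaf 225 1798 (.cons 345 (.leaf 369 2183 (.cons 346 (.leaf 322 1996 (.leaf 370 2188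 .nil)) .nil)) .nil)) .nil)) (.cons 248 (.leaf 345 1991 (.leaf 224 1799 .nil)) .nil))) (.cons 321 (.cons 224 (.leaf 248 1799 (.cons 225 (.leaf 200 1607 (.cons 296 (.leaf 201 1606 (.leaf 320 1798 .nil)) .nil)) .nil)) (.cons 344 (.leaf 320 1990 (.cons 345 (.leaf 368 2182 (.cons 369 (.leaf 296 2183 (.cons 370 (.leaf 346 2188 (.leaf 394 2380 .nil)) .nil)) .nil)) .nil)) (.cons 248 (.leaf 345 1991 (.leaf 224 1799 .nil)) .nil))) .nil))))))
noncomputable def t37 : T := .cons 323 (.leaf 226 1815 (.cons 228 (.leaf 252 1821 (.cons 346 (.leaf 322 2006 (.cons 347 (.leaf 370 2198 (.cons 348 (.leaf 324 2012 (.leaf 372 2204 .nil)) .nil)) .nil)) .nil)) .nil)) (.cons 227 (.cons 202 (.leaf 226 1623 (.cons 178 (.leaf 203 1431 (.cons 298 (.leaf 322 1814 (.cons 300 (.leaf 324 1820 (.leaf 297 2179 .nil)) .nil)) .nil)) .nil)) (.cons 204 (.leaf 228 1629 (.cons 180 (.leaf 203 1437 (.cons 298 (.leaf 322 1814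 (.cons 300 (.leaf 324 1820 (.leaf 297 2179 .nil)) .nil)) .nil)) .nil)) (.cons 202 (.leaf 226 1623 (.cons 203 (.leaf 178 1431 (.cons 204 (.leaf 180 1437 (.leaf 228 1629 .nil)) .nil)) .nil)) (.cons 202 (.leaf 226 1623 (.cons 204 (.leaf 228 1629 (.cons 298 (.leaf 322 1814 (.cons 300 (.leaf 324 1820 (.leaf 297 2179 .nil)) .nil)) .nil)) .nil)) .nil)))) (.cons 227 (.cons 228 (.leaf 204 1629 (.cons 229 (.leaf 230 1810 (.cons 323 (.leaf 252 1821 (.cons 324 (.leaf 300 1820 (.leaf 348 2012 .nil)) .nil)) .nil)) .nil)) (.cons 298 (.leaf 322 1814 (.cons 300 (.leaf 324 1820 (.leaf 297 2179 .nil)) .nil)) (.cons 228 (.leaf 204 1629 (.cons 229 (.leaf 230 1810 (.cons 322 (.leaf 298 1814 (.cons 323 (.leaf 252 1821 (.leaf 346 2006 .nil)) .nil)) .nil)) .nil)) .nil))) (.cons 226 (.leaf 323 1815 (.cons 202 (.leaf 178 1428 (.leaf 227 1623 .nil)) .nil)) .nil)))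
noncomputable def t38 : T := .leaf 252 1986 (.cons 225 (.cons 201 (.leaf 296 1606 (.cons 177 (.leaf 248 1414 (.cons 178 (.leaf 202 1421 (.leaf 154 1229 .nil)) .nil)) .nil)) (.cons 224 (.cons 223 (.leaf 248 1787 (.leaf 222 1776 .nil)) (.cons 222 (.leaf 223 1776 (.cons 297 (.leaf 200 1607 (.cons 320 (.leaf 296 1798 (.cons 321 (.leaf 344 1990 (.cons 322 (.leaf 298 1804 (.leaf 346 1996 .nil)) .nil)) .nil)) .nil)) .nil)) (.cons 200 (.leaf 297 1607 (.cons 176 (.leaf 248 1412 (.leaf 152 1220 .nil)) .nil)) .nil))) (.cons 201 (.cons 177 (.leaf 248 1414 (.cons 178 (.leaf 202 1421 (.leaf 154 1229 .nil)) .nil)) (.cons 200 (.leaf 176 1415 (.cons 202 (.leaf 178 1421 (.cons 224 (.leaf 297 1607 (.cons 223 (.leaf 222 1776 (.leaf 203 1594 .nil)) .nil)) .nil)) .nil)) (.cons 176 (.leaf 200 1415 (.cons 177 (.leaf 248 1414 (.leaf 152 1223 .nil)) .nil)) .nil))) (.cons 201 (.leaf 296 1606 (.cons 200 (.leaf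 176 1415 (.cons 202 (.leaf 178 1421 (.cons 224 (.leaf 297 1607 (.cons 223 (.leaf 222 1776 (.leaf 203 1594 .nil)) .nil)) .nil)) .nil)) .nil)) .nil)))) .nil)
noncomputable def t39 : T := .cons 298 (.leaf 322 1814 (.cons 300 (.leaf 324 1820 (.leaf 297 2179 .nil)) .nil)) (.cons 300 (.leaf 324 1820 (.cons 203 (.cons 178 (.leaf 202 1431 (.cons 179 (.leaf 154 1239 (.cons 180 (.leaf 204 1437 (.leaf 156 1245 .nil)) .nil)) .nil)) (.cons 178 (.leaf 202 1431 (.cons 179 (.leaf 154 1239 (.cons 155 (.leaf 228 1244 (.cons 156 (.leaf 180 1245 (.leaf 132 1053 .nil)) .nil)) .nil)) .nil)) (.cons 178 (.leaf 202 1431 (.cons 179 (.leaf 154 1239 (.cons 228 (.leaf 204 1629 (.leaf 155 1244 .nil)) .nil)) .nil)) (.cons 204 (.leaf 180 1437 (.leaf 228 1629 .nil)) .nil)))) .nil)) (.cons 298 (.leaf 322 1814 (.cons 203 (.cons 204 (.leaf 180 1437 (.leaf 228 1629 .nil)) (.cons 178 (.leaf 202 1431 (.cons 179 (.leaf 154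 1239 (.cons 155 (.leaf 228 1244 (.cons 156 (.leaf 180 1245 (.leaf 132 1053 .nil)) .nil)) .nil)) .nil)) (.cons 178 (.leaf 202 1431 (.cons 179 (.leaf 154 1239 (.cons 180 (.leaf 204 1437 (.leaf 156 1245 .nil)) .nil)) .nil)) (.cons 228 (.leaf 204 1629 (.cons 178 (.leaf 202 1431 (.cons 179 (.leaf 154 1239 (.leaf 155 1244 .nil)) .nil)) .nil)) .nil)))) .nil)) .nil))
noncomputable def t40 : T := .cons 201 (.leaf 296 1606 (.cons 177 (.leaf 248 1414 (.cons 178 (.leaf 202 1421 (.leaf 154 1229 .nil)) .nil)) .nil)) (.cons 297 (.cons 224 (.leaf 200 1607 (.cons 320 (.leaf 296 1798 (.cons 321 (.leaf 248 1799 (.leaf 344 1990 .nil)) .nil)) .nil)) (.cons 224 (.leaf 200 1607 (.cons 248 (.leaf 321 1799 (.cons 298 (.leaf 322 1804 (.cons 271 (.leaf 270 2160 (.cons 299 (.leaf 296 2171 (.leaf 300 2179 .nil)) .nil)) .nil)) .nil)) .nil)) (.cons 224 (.leaf 200 1607 (.cons 321 (.leaf 248 1799 (.cons 322 (.leaf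 298 1804 (.leaf 346 1996 .nil)) .nil)) .nil)) (.cons 320 (.leaf 296 1798 (.cons 321 (.leaf 344 1990 (.cons 322 (.leaf 298 1804 (.leaf 346 1996 .nil)) .nil)) .nil)) (.cons 296 (.leaf 320 1798 (.cons 298 (.leaf 322 1804 (.cons 271 (.leaf 270 2160 (.leaf 299 2171 .nil)) .nil)) .nil)) .nil))))) (.cons 201 (.cons 177 (.leaf 248 1414 (.cons 178 (.leaf 202 1421 (.leaf 154 1229 .nil)) .nil)) (.cons 202 (.leaf 178 1421 (.cons 200 (.leaf 176 1415 (.cons 224 (.leaf 297 1607 (.cons 203 (.leaf 204 1602 (.leaf 223 1594 .nil)) .nil)) .nil)) .nil)) (.cons 176 (.leaf 200 1415 (.cons 177 (.leaf 248 1414 (.leaf 152 1223 .nil)) .nil)) .nil))) (.cons 201 (.leaf 296 1606 (.cons 202 (.leaf 178 1421 (.cons 200 (.leaf 176 1415 (.cons 224 (.leaf 297 1607 (.cons 203 (.leaf 204 1602 (.leaf 223 1594 .nil)) .nil)) .nil)) .nil)) .nil)) .nil)))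
noncomputable def t41 : T := .cons 250 (.leaf 252 1986 (.cons 248 (.leaf 271 1978 (.cons 224 (.leaf 223 1787 (.cons 200 (.leaf 297 1604 (.leaf 176 1412 .nil)) .nil)) .nil)) .nil)) (.cons 225 t40 (.cons 252 (.leaf 250 1986 (.cons 299 (.cons 298 (.cons 227 (.leaf 322 1814 (.cons 300 (.leaf 324 1820 (.leaf 297 2179 .nil)) .nil)) (.cons 323 (.leaf 228 1821 (.cons 322 (.leaf 227 1814 (.leaf 346 2006 .nil)) .nil)) (.cons 297 (.leaf 300 2179 (.cons 271 (.leaf 270 2160 (.leaf 296 2171 .nil)) .nil)) .nil))) (.cons 227 t39 (.cons 298 (.cons 322 (.leaf 227 1814 (.cons 346 (.leaf 323 2006 (.leaf 370 2197 .nil)) .nil)) (.cons 297 (.leaf 300 2179 (.cons 271 (.leaf 270 2160 (.leaf 296 2171 .nil)) .nil)) .nil)) (.cons 323 (.leaf 228 1821 (.cons 346 (.leaf 322 2006 (.cons 347 (.leaf 370 2198 (.cons 348 (.leaf 324 2012 (.leaf 372 2204 .nil)) .nil)) .nil)) .nil)) (.cons 228 (.leaf 323 1821 (.cons 204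 (.leaf 180 1438 (.leaf 227 1629 .nil)) .nil)) .nil))))) .nil)) (.cons 250 t38 (.cons 250 (.leaf 252 1986 (.cons 271 (.leaf 248 1978 (.leaf 270 1969 .nil)) .nil)) .nil))))
noncomputable def t42 : T := .cons 296 (.leaf 201 1606 (.cons 320 (.leaf 248 1797 (.leaf 344 1989 .nil)) .nil)) (.cons 297 (.cons 200 (.leaf 224 1607 (.cons 202 (.leaf 226 1613 (.cons 322 (.leaf 298 1804 (.cons 321 (.leaf 346 1996 (.cons 345 (.leaf 248 1991 (.cons 344 (.leaf 320 1990 (.leaf 368 2182 .nil)) .nil)) .nil)) .nil)) .nil)) .nil)) (.cons 224 (.leaf 200 1607 (.cons 202 (.leaf 226 1613 (.cons 321 (.leaf 248 1799 (.cons 346 (.leaf 322 1996 (.cons 345 (.leaf 370 2188 (.cons 368 (.leaf 344 2182 (.cons 369 (.leaf 296 2183 (.leaf 392 2374 .nil)) .nil)) .nil)) .nil)) .nil)) .nil)) .nil)) (.cons 320 (.leaf 296 1798 (.cons 202 (.leaf 226 1613 (.cons 321 (.leaf 344 1990 (.cons 322 (.leaf 298 1804 (.leaf 346 1996 .nil))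 .nil)) .nil)) .nil)) (.cons 320 (.leaf 296 1798 (.cons 224 (.leaf 200 1607 (.cons 321 (.leaf 248 1799 (.leaf 344 1990 .nil)) .nil)) .nil)) (.cons 296 (.leaf 320 1798 (.cons 200 (.leaf 224 1607 (.cons 226 (.leaf 202 1613 (.cons 298 (.leaf 322 1804 (.cons 299 (.leaf 271 2171 (.leaf 300 2179 .nil)) .nil)) .nil)) .nil)) .nil)) .nil))))) (.cons 297 (.cons 202 (.leaf 226 1613 (.cons 178 (.leaf 201 1421 (.cons 322 (.leaf 298 1804 (.cons 321 (.leaf 346 1996 (.cons 344 (.leaf 320 1990 (.cons 345 (.leaf 248 1991 (.leaf 368 2182 .nil)) .nil)) .nil)) .nil)) .nil)) .nil)) (.cons 200 (.leaf 224 1607 (.cons 176 (.leaf 201 1415 (.cons 322 (.leaf 298 1804 (.cons 321 (.leaf 346 1996 (.cons 345 (.leaf 248 1991 (.cons 344 (.leaf 320 1990 (.leaf 368 2182 .nil)) .nil)) .nil)) .nil)) .nil)) .nil)) (.cons 200 (.leaf 224 1607 (.cons 201 (.leaf 176 1415 (.cons 202 (.leaf 178 1421 (.leaf 226 1613 .nil)) .nil))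 .nil)) (.cons 224 (.leaf 200 1607 (.cons 202 (.leaf 226 1613 (.cons 321 (.leaf 248 1799 (.cons 344 (.leaf 320 1990 (.cons 345 (.leaf 368 2182 (.cons 346 (.leaf 322 1996 (.leaf 370 2188 .nil)) .nil)) .nil)) .nil)) .nil)) .nil)) .nil)))) (.cons 296 (.leaf 201 1606 (.cons 320 (.leaf 344 1989 (.leaf 297 1798 .nil)) .nil)) (.cons 201 (.leaf 296 1606 (.cons 177 (.leaf 248 1414 (.cons 178 (.leaf 202 1421 (.leaf 154 1229 .nil)) .nil)) .nil)) .nil))))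
noncomputable def t43 : T := .cons 201 (.leaf 296 1606 (.cons 177 (.leaf 248 1414 (.cons 178 (.leaf 202 1421 (.leaf 154 1229 .nil)) .nil)) .nil)) (.cons 201 (.leaf 296 1606 (.cons 200 (.leaf 176 1415 (.cons 202 (.leaf 178 1421 (.cons 224 (.leaf 297 1607 (.cons 223 (.leaf 226 1784 (.leaf 222 1776 .nil)) .nil)) .nil)) .nil)) .nil)) (.cons 224 (.cons 223 (.leaf 226 1784 (.leaf 248 1787 .nil)) (.cons 222 (.leaf 223 1776 (.cons 297 (.leaf 200 1607 (.cons 320 (.leaf 296 1798 (.cons 226 (.leaf 202 1613 (.leaf 321 1805 .nil)) .nil)) .nil)) .nil)) (.cons 200 (.leaf 297 1607 (.cons 176 (.leaf 248 1412 (.leaf 152 1220 .nil)) .nil)) .nil))) (.cons 201 (.cons 177 (.leaf 248 1414 (.cons 178 (.leaf 202 1421 (.leaf 154 1229 .nil)) .nil)) (.cons 200 (.leaf 176 1415 (.cons 202 (.leaf 178 1421 (.cons 224 (.leaf 297 1607 (.cons 223 (.leaf 226 1784 (.leaf 222 1776 .nil)) .nil)) .nil)) .nil)) (.cons 176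 (.leaf 200 1415 (.cons 177 (.leaf 248 1414 (.leaf 152 1223 .nil)) .nil)) .nil))) (.cons 224 (.cons 223 (.leaf 226 1784 (.leaf 248 1787 .nil)) (.cons 222 (.leaf 223 1776 (.cons 297 (.leaf 200 1607 (.cons 320 (.leaf 296 1798 (.cons 321 (.leaf 226 1805 (.leaf 344 1990 .nil)) .nil)) .nil)) .nil)) (.cons 200 (.leaf 297 1607 (.cons 176 (.leaf 201 1415 (.leaf 248 1412 .nil)) .nil)) .nil))) .nil))))
noncomputable def t44 : T := .cons 250 (.leaf 252 1986 (.cons 225 t43 .nil)) (.cons 225 t42 (.cons 250 (.leaf 252 1986 (.cons 226 (.cons 202 (.leaf 178 1428 (.cons 299 (.leaf 227 1623 (.leaf 323 1815 .nil)) .nil)) (.cons 297 (.leaf 321 1805 (.cons 299 (.leaf 323 1815 (.cons 298 (.leaf 300 2179 (.cons 225 (.leaf 322 1804 (.cons 224 (.leaf 200 1607 (.leaf 223 1784 .nil)) .nil)) .nil)) .nil)) .nil)) (.cons 202 (.leaf 178 1428 (.cons 297 (.leaf 225 1613 (.leaf 321 1805 .nil)) .nil)) .nil))) .nil))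 (.cons 250 (.leaf 252 1986 (.cons 248 (.leaf 271 1978 (.cons 223 (.leaf 224 1787 (.cons 227 (.leaf 228 1793 (.cons 247 (.leaf 222 1779 (.leaf 226 1785 .nil)) .nil)) .nil)) .nil)) .nil)) (.cons 250 (.leaf 252 1986 (.cons 226 (.cons 202 (.leaf 178 1428 (.cons 225 (.leaf 297 1613 (.cons 201 (.leaf 296 1606 (.cons 153 (.leaf 177 1228 (.cons 200 (.leaf 176 1415 (.cons 199 (.leaf 198 1584 (.leaf 227 1592 .nil)) .nil)) .nil)) .nil)) .nil)) .nil)) (.cons 297 (.leaf 321 1805 (.cons 299 (.leaf 323 1815 (.cons 298 (.leaf 300 2179 (.cons 227 (.leaf 322 1814 (.cons 228 (.leaf 204 1629 (.leaf 248 1793 .nil)) .nil)) .nil)) .nil)) .nil)) (.cons 202 (.leaf 178 1428 (.cons 299 (.leaf 227 1623 (.leaf 323 1815 .nil)) .nil)) (.cons 202 (.leaf 178 1428 (.cons 225 (.leaf 297 1613 (.cons 201 (.leaf 296 1606 (.cons 177 (.leaf 248 1414 (.leaf 153 1228 .nil)) .nil)) .nil)) .nil)) .nil)))) .nil)) (.cons 250 (.leaf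 252 1986 (.cons 248 (.leaf 271 1978 (.cons 224 (.leaf 223 1787 (.cons 200 (.leaf 297 1604 (.leaf 176 1412 .nil)) .nil)) .nil)) .nil)) .nil)))))
noncomputable def t45 : T := .cons 201 (.leaf 296 1606 (.cons 178 (.leaf 202 1421 (.cons 200 (.leaf 176 1415 (.cons 224 (.leaf 297 1607 (.cons 223 (.leaf 248 1787 (.leaf 222 1776 .nil)) .nil)) .nil)) .nil)) .nil)) (.cons 224 (.cons 223 (.leaf 248 1787 (.leaf 222 1776 .nil)) (.cons 222 (.leaf 223 1776 (.cons 297 (.leaf 200 1607 (.cons 320 (.leaf 296 1798 (.cons 321 (.leaf 344 1990 (.cons 322 (.leaf 298 1804 (.leaf 346 1996 .nil)) .nil)) .nil)) .nil)) .nil)) (.cons 200 (.leaf 297 1607 (.cons 176 (.leaf 248 1412 (.leaf 152 1220 .nil)) .nil)) .nil))) (.cons 201 (.cons 178 (.leaf 202 1421 (.cons 200 (.leaf 176 1415 (.cons 224 (.leaf 297 1607 (.cons 223 (.leaf 248 1787 (.leaf 222 1776 .nil)) .nil)) .nil)) .nil)) (.cons 200 (.leaf 176 1415 (.cons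 202 (.leaf 178 1421 (.cons 224 (.leaf 297 1607 (.cons 223 (.leaf 222 1776 (.leaf 203 1594 .nil)) .nil)) .nil)) .nil)) (.cons 177 (.leaf 248 1414 (.cons 178 (.leaf 202 1421 (.leaf 154 1229 .nil)) .nil)) (.cons 176 (.leaf 200 1415 (.cons 177 (.leaf 248 1414 (.leaf 152 1223 .nil)) .nil)) .nil)))) (.cons 201 (.leaf 296 1606 (.cons 200 (.leaf 176 1415 (.cons 202 (.leaf 178 1421 (.cons 224 (.leaf 297 1607 (.cons 223 (.leaf 222 1776 (.leaf 203 1594 .nil)) .nil)) .nil)) .nil)) .nil)) (.cons 201 (.leaf 296 1606 (.cons 177 (.leaf 248 1414 (.cons 178 (.leaf 202 1421 (.leaf 154 1229 .nil)) .nil)) .nil)) .nil))))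
noncomputable def t46 : T := .cons 227 (.leaf 228 1793 (.cons 296 (.cons 223 (.leaf 224 1787 (.cons 320 (.leaf 247 1791 (.leaf 225 1797 .nil)) .nil)) (.cons 223 (.leaf 224 1787 (.cons 247 (.leaf 320 1791 (.leaf 222 1779 .nil)) .nil)) (.cons 201 (.leaf 225 1606 (.cons 247 (.leaf 226 1785 (.cons 223 (.leaf 224 1787 (.leaf 222 1779 .nil)) .nil)) .nil)) (.cons 225 (.leaf 201 1606 (.leaf 320 1797 .nil)) .nil)))) .nil)) (.cons 224 (.leaf 223 1787 (.cons 200 (.leaf 176 1412 (.cons 199 (.leaf 175 1407 (.cons 201 (.leaf 177 1413 (.cons 225 (.leaf 296 1605 (.cons 198 (.leaf 197 1576 (.leaf 226 1584 .nil)) .nil)) .nil)) .nil)) .nil)) .nil)) (.cons 227 (.leaf 228 1793 (.cons 226 (.leaf 247 1785 (.cons 202 (.leaf 178 1428 (.leaf 299 1623 .nil)) .nil)) .nil)) (.cons 227 (.leaf 228 1793 (.cons 296 (.cons 223 (.leaf 224 1787 (.cons 320 (.leaf 247 1791 (.leaf 225 1797 .nil)) .nil)) (.cons 201 (.leaf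 225 1606 (.cons 224 (.leaf 223 1787 (.cons 200 (.leaf 177 1413 (.leaf 176 1412 .nil)) .nil)) .nil)) (.cons 223 (.leaf 224 1787 (.cons 247 (.leaf 320 1791 (.leaf 222 1779 .nil)) .nil)) (.cons 225 (.leaf 201 1606 (.leaf 320 1797 .nil)) .nil)))) .nil)) .nil)))
noncomputable def t47 : T := .cons 224 (.leaf 200 1607 (.cons 202 (.leaf 226 1613 (.cons 321 (.leaf 248 1799 (.cons 344 (.leaf 320 1990 (.cons 345 (.leaf 368 2182 (.cons 346 (.leaf 322 1996 (.leaf 370 2188 .nil)) .nil)) .nil)) .nil)) .nil)) .nil)) (.cons 226 (.leaf 202 1613 (.cons 250 (.leaf 321 1805 (.cons 298 (.leaf 322 1804 (.cons 299 (.leaf 323 1815 (.leaf 300 2179 .nil)) .nil)) .nil)) .nil)) (.cons 224 (.leaf 200 1607 (.cons 248 (.leaf 321 1799 (.cons 201 (.leaf 177 1414 (.cons 202 (.leaf 178 1421 (.cons 223 (.leaf 250 1787 (.leaf 222 1585 .nil)) .nil)) .nil)) .nil)) .nil)) (.cons 224 (.leaf 200 1607 (.cons 248 (.leaf 321 1799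 (.cons 177 (.leaf 201 1414 (.cons 223 (.leaf 250 1787 (.cons 222 (.leaf 221 1768 (.cons 197 (.leaf 198 1579 (.cons 246 (.leaf 245 1770 (.cons 247 (.leaf 226 1777 (.cons 199 (.leaf 175 1404 (.cons 270 (.leaf 269 1962 (.leaf 294 1589 .nil)) .nil)) .nil)) .nil)) .nil)) .nil)) .nil)) .nil)) .nil)) .nil)) (.cons 200 (.leaf 224 1607 (.cons 201 (.leaf 176 1415 (.cons 202 (.leaf 178 1421 (.leaf 226 1613 .nil)) .nil)) .nil)) .nil))))
noncomputable def t48 : T := .cons 201 (.leaf 296 1606 (.cons 177 (.leaf 248 1414 (.cons 178 (.leaf 202 1421 (.leaf 154 1229 .nil)) .nil)) .nil)) (.cons 297 (.cons 200 (.leaf 224 1607 (.cons 296 (.leaf 320 1798 (.cons 322 (.leaf 298 1804 (.cons 321 (.leaf 346 1996 (.cons 345 (.leaf 248 1991 (.leaf 369 2183 .nil)) .nil)) .nil)) .nil)) .nil)) (.cons 320 (.leaf 296 1798 (.cons 202 (.leaf 226 1613 (.cons 321 (.leaf 344 1990 (.cons 322 (.leaf 298 1804 (.leaf 346 1996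 .nil)) .nil)) .nil)) .nil)) (.cons 224 (.leaf 200 1607 (.cons 226 (.leaf 202 1613 (.cons 223 (.leaf 250 1784 (.cons 198 (.leaf 199 1587 (.cons 222 (.leaf 197 1579 (.cons 248 (.leaf 321 1799 (.leaf 221 1768 .nil)) .nil)) .nil)) .nil)) .nil)) .nil)) (.cons 224 (.leaf 200 1607 (.cons 226 (.leaf 202 1613 (.cons 223 (.leaf 250 1784 (.cons 198 (.leaf 199 1587 (.cons 222 (.leaf 197 1579 (.cons 246 (.leaf 245 1770 (.leaf 247 1778 .nil)) .nil)) .nil)) .nil)) .nil)) .nil)) .nil)))) (.cons 297 t47 (.cons 201 (.leaf 296 1606 (.cons 202 (.leaf 178 1421 (.cons 200 (.leaf 176 1415 (.cons 224 (.leaf 297 1607 (.cons 203 (.leaf 204 1602 (.leaf 223 1594 .nil)) .nil)) .nil)) .nil)) .nil)) (.cons 296 (.leaf 201 1606 (.cons 320 (.leaf 248 1797 (.leaf 344 1989 .nil)) .nil)) .nil))))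
noncomputable def t49 : T := .cons 200 (.leaf 224 1607 (.cons 202 (.leaf 226 1613 (.cons 320 (.leaf 296 1798 (.cons 321 (.leaf 344 1990 (.cons 345 (.leaf 248 1991 (.cons 346 (.leaf 322 1996 (.leaf 370 2188 .nil)) .nil)) .nil)) .nil)) .nil)) .nil)) (.cons 224 (.leaf 200 1607 (.cons 202 (.leaf 226 1613 (.cons 321 (.leaf 248 1799 (.cons 346 (.leaf 322 1996 (.cons 345 (.leaf 370 2188 (.cons 368 (.leaf 344 2182 (.cons 369 (.leaf 296 2183 (.leaf 392 2374 .nil)) .nil)) .nil)) .nil)) .nil)) .nil)) .nil)) (.cons 320 (.leaf 296 1798 (.cons 202 (.leaf 226 1613 (.cons 321 (.leaf 344 1990 (.cons 322 (.leaf 298 1804 (.leaf 346 1996 .nil)) .nil)) .nil)) .nil)) (.cons 224 (.leaf 200 1607 (.cons 202 (.leaf 226 1613 (.cons 321 (.leaf 248 1799 (.cons 344 (.leaf 320 1990 (.cons 345 (.leaf 368 2182 (.cons 346 (.leaf 322 1996 (.leaf 370 2188 .nil)) .nil)) .nil)) .nil)) .nil)) .nil)) (.cons 320 (.leaf 296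 1798 (.cons 224 (.leaf 200 1607 (.cons 321 (.leaf 248 1799 (.leaf 344 1990 .nil)) .nil)) .nil)) (.cons 296 (.leaf 320 1798 (.cons 200 (.leaf 224 1607 (.cons 226 (.leaf 202 1613 (.cons 298 (.leaf 322 1804 (.cons 299 (.leaf 300 2179 (.cons 323 (.leaf 324 2368 (.cons 228 (.leaf 252 1821 (.cons 227 (.leaf 204 1629 (.leaf 248 1794 .nil)) .nil)) .nil)) .nil)) .nil)) .nil)) .nil)) .nil)) .nil)))))
noncomputable def t50 : T := .cons 201 (.leaf 296 1606 (.cons 177 (.leaf 248 1414 (.cons 178 (.leaf 202 1421 (.leaf 154 1229 .nil)) .nil)) .nil)) (.cons 297 t49 (.cons 297 (.cons 200 (.leaf 224 1607 (.cons 176 (.leaf 201 1415 (.cons 322 (.leaf 298 1804 (.cons 321 (.leaf 346 1996 (.cons 345 (.leaf 248 1991 (.cons 344 (.leaf 320 1990 (.leaf 368 2182 .nil)) .nil)) .nil)) .nil)) .nil)) .nil)) (.cons 202 (.leaf 226 1613 (.cons 178 (.leaf 201 1421 (.cons 322 (.leaf 298 1804 (.cons 321 (.leaf 346 1996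 (.cons 344 (.leaf 320 1990 (.cons 345 (.leaf 248 1991 (.leaf 368 2182 .nil)) .nil)) .nil)) .nil)) .nil)) .nil)) (.cons 200 (.leaf 224 1607 (.cons 201 (.leaf 176 1415 (.cons 202 (.leaf 178 1421 (.leaf 226 1613 .nil)) .nil)) .nil)) (.cons 224 (.leaf 200 1607 (.cons 202 (.leaf 226 1613 (.cons 321 (.leaf 248 1799 (.cons 344 (.leaf 320 1990 (.cons 345 (.leaf 368 2182 (.cons 346 (.leaf 322 1996 (.leaf 370 2188 .nil)) .nil)) .nil)) .nil)) .nil)) .nil)) .nil)))) (.cons 296 (.leaf 201 1606 (.cons 320 (.leaf 344 1989 (.leaf 297 1798 .nil)) .nil)) .nil)))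
noncomputable def t51 : T := .leaf 252 1986 (.cons 225 (.cons 296 (.leaf 201 1606 (.cons 320 (.leaf 248 1797 (.leaf 344 1989 .nil)) .nil)) (.cons 224 (.cons 223 (.leaf 226 1784 (.leaf 248 1787 .nil)) (.cons 200 (.leaf 297 1607 (.cons 176 (.leaf 248 1412 (.leaf 152 1220 .nil)) .nil)) (.cons 222 (.leaf 223 1776 (.cons 297 (.leaf 200 1607 (.cons 320 (.leaf 296 1798 (.cons 226 (.leaf 202 1613 (.leaf 321 1805 .nil)) .nil)) .nil)) .nil)) .nil))) (.cons 201 (.cons 176 (.leaf 200 1415 (.cons 177 (.leaf 248 1414 (.leaf 152 1223 .nil)) .nil)) (.cons 176 (.leaf 200 1415 (.cons 177 (.leaf 152 1223 (.cons 178 (.leaf 202 1421 (.leaf 154 1229 .nil)) .nil)) .nil)) (.cons 202 (.leaf 178 1421 (.cons 176 (.leaf 200 1415 (.cons 226 (.leaf 297 1613 (.cons 299 (.leaf 227 1623 (.leaf 323 1815 .nil)) .nil)) .nil)) .nil)) (.cons 177 (.leaf 248 1414 (.cons 178 (.leaf 202 1421 (.leaf 154 1229 .nil)) .nil)) .nil))))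 (.cons 201 (.leaf 296 1606 (.cons 176 (.leaf 200 1415 (.cons 177 (.leaf 152 1223 (.cons 178 (.leaf 202 1421 (.leaf 154 1229 .nil)) .nil)) .nil)) .nil)) .nil)))) .nil)
noncomputable def t52 : T := .cons 250 t51 (.cons 225 t50 (.cons 225 t48 (.cons 250 (.leaf 252 1986 (.cons 248 (.cons 223 (.leaf 224 1787 (.cons 227 (.leaf 228 1793 (.cons 247 (.leaf 222 1779 (.leaf 226 1785 .nil)) .nil)) .nil)) (.cons 227 (.leaf 228 1793 (.cons 226 (.leaf 247 1785 (.cons 202 (.leaf 178 1428 (.leaf 299 1623 .nil)) .nil)) .nil)) (.cons 224 (.leaf 223 1787 (.cons 200 (.leaf 297 1604 (.leaf 176 1412 .nil)) .nil)) .nil))) .nil)) (.cons 250 (.leaf 252 1986 (.cons 226 (.cons 202 (.leaf 178 1428 (.cons 299 (.leaf 227 1623 (.leaf 323 1815 .nil)) .nil)) (.cons 297 (.leaf 321 1805 (.cons 299 (.leaf 323 1815 (.cons 298 (.leaf 300 2179 (.cons 225 (.leaf 322 1804 (.cons 224 (.leaf 200 1607 (.leaf 223 1784 .nil)) .nil))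 .nil)) .nil)) .nil)) (.cons 202 (.leaf 178 1428 (.cons 297 (.leaf 225 1613 (.leaf 321 1805 .nil)) .nil)) .nil))) .nil)) (.cons 250 (.leaf 252 1986 (.cons 248 t46 .nil)) (.cons 250 (.leaf 252 1986 (.cons 248 (.cons 223 (.leaf 224 1787 (.cons 227 (.leaf 228 1793 (.cons 247 (.leaf 222 1779 (.leaf 226 1785 .nil)) .nil)) .nil)) (.cons 227 (.leaf 228 1793 (.cons 226 (.leaf 247 1785 (.cons 202 (.leaf 178 1428 (.cons 297 (.leaf 225 1613 (.leaf 321 1805 .nil)) .nil)) .nil)) .nil)) (.cons 224 (.leaf 223 1787 (.cons 200 (.leaf 297 1604 (.leaf 176 1412 .nil)) .nil)) .nil))) .nil)) (.cons 250 (.leaf 252 1986 (.cons 226 (.cons 202 (.leaf 178 1428 (.cons 225 (.leaf 297 1613 (.cons 201 (.leaf 296 1606 (.cons 153 (.leaf 177 1228 (.cons 200 (.leaf 176 1415 (.cons 199 (.leaf 198 1584 (.leaf 227 1592 .nil)) .nil)) .nil)) .nil)) .nil)) .nil)) (.cons 297 (.leaf 321 1805 (.cons 299 (.leaf 323 1815 (.cons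 298 (.leaf 300 2179 (.cons 227 (.leaf 322 1814 (.cons 228 (.leaf 204 1629 (.leaf 248 1793 .nil)) .nil)) .nil)) .nil)) .nil)) (.cons 202 (.leaf 178 1428 (.cons 225 (.leaf 297 1613 (.cons 201 (.leaf 296 1606 (.cons 177 (.leaf 248 1414 (.leaf 153 1228 .nil)) .nil)) .nil)) .nil)) (.cons 202 (.leaf 178 1428 (.cons 299 (.leaf 227 1623 (.leaf 323 1815 .nil)) .nil)) .nil)))) .nil)) (.cons 250 (.leaf 252 1986 (.cons 225 t45 .nil)) (.cons 250 (.leaf 252 1986 (.cons 248 (.cons 223 (.leaf 224 1787 (.cons 227 (.leaf 228 1793 (.cons 247 (.leaf 222 1779 (.leaf 226 1785 .nil)) .nil)) .nil)) (.cons 227 (.leaf 228 1793 (.cons 226 (.leaf 247 1785 (.cons 297 (.leaf 321 1805 (.cons 299 (.leaf 323 1815 (.cons 298 (.leaf 322 1814 (.leaf 300 2179 .nil)) .nil)) .nil)) .nil)) .nil)) (.cons 224 (.leaf 223 1787 (.cons 200 (.leaf 297 1604 (.leaf 176 1412 .nil)) .nil)) .nil))) .nil)) (.cons 250 (.leaf 252 1986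 (.cons 226 (.cons 202 (.leaf 178 1428 (.cons 225 (.leaf 297 1613 (.cons 299 (.leaf 227 1623 (.leaf 323 1815 .nil)) .nil)) .nil)) (.cons 297 (.leaf 321 1805 (.cons 299 (.leaf 323 1815 (.cons 298 (.leaf 300 2179 (.cons 227 (.leaf 322 1814 (.cons 228 (.leaf 204 1629 (.leaf 248 1793 .nil)) .nil)) .nil)) .nil)) .nil)) (.cons 202 (.leaf 178 1428 (.cons 299 (.leaf 227 1623 (.leaf 323 1815 .nil)) .nil)) (.cons 202 (.leaf 178 1428 (.cons 225 (.leaf 297 1613 (.cons 201 (.leaf 296 1606 (.cons 177 (.leaf 248 1414 (.leaf 153 1228 .nil)) .nil)) .nil)) .nil)) .nil)))) .nil)) .nil))))))))))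
noncomputable def t53 : T := .cons 202 (.leaf 226 1623 (.cons 203 (.leaf 178 1431 (.cons 204 (.leaf 180 1437 (.leaf 228 1629 .nil)) .nil)) .nil)) (.cons 204 (.leaf 228 1629 (.cons 203 (.leaf 180 1437 (.cons 202 (.leaf 178 1431 (.cons 300 (.leaf 324 1820 (.cons 201 (.cons 225 (.leaf 296 1606 (.leaf 224 1602 .nil)) (.cons 176 (.leaf 177 1411 (.cons 200 (.leaf 175 1403 (.cons 223 (.leaf 224 1594 (.cons 199 (.leaf 247 1405 (.leaf 222 1586 .nil)) .nil)) .nil)) .nil)) (.cons 176 (.leaf 177 1411 (.cons 200 (.leaf 225 1415 (.leaf 175 1403 .nil)) .nil)) .nil))) .nil)) .nil)) .nil)) .nil)) (.cons 228 (.leaf 204 1629 (.cons 229 (.leaf 230 1810 (.leaf 226 1802 .nil)) .nil)) (.cons 202 (.leaf 226 1623 (.cons 203 (.leaf 178 1431 (.cons 204 (.leaf 180 1437 (.cons 300 (.leaf 324 1820 (.cons 201 (.cons 225 (.leaf 296 1606 (.leaf 224 1602 .nil)) (.cons 176 (.leaf 177 1411 (.cons 200 (.leaf 175 1403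 (.cons 223 (.leaf 224 1594 (.cons 199 (.leaf 247 1405 (.leaf 222 1586 .nil)) .nil)) .nil)) .nil)) (.cons 176 (.leaf 177 1411 (.cons 200 (.leaf 225 1415 (.leaf 175 1403 .nil)) .nil)) .nil))) .nil)) .nil)) .nil)) .nil)) (.cons 202 (.leaf 226 1623 (.cons 201 (.cons 225 (.leaf 296 1606 (.leaf 178 1421 .nil)) (.cons 203 (.leaf 178 1431 (.cons 200 (.leaf 228 1600 (.cons 175 (.leaf 176 1403 (.cons 179 (.leaf 180 1409 (.cons 199 (.leaf 174 1395 (.cons 223 (.leaf 222 1586 (.leaf 224 1594 .nil)) .nil)) .nil)) .nil)) .nil)) .nil)) (.cons 225 (.leaf 296 1606 (.cons 200 (.leaf 176 1415 (.cons 203 (.leaf 228 1600 (.cons 223 (.leaf 224 1594 (.cons 199 (.leaf 222 1586 (.cons 174 (.leaf 175 1395 (.cons 198 (.leaf 247 1399 (.leaf 173 1387 .nil)) .nil)) .nil)) .nil)) .nil)) .nil)) .nil)) .nil))) .nil)) .nil))))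
noncomputable def t54 : T := .cons 322 (.leaf 298 1814 (.cons 204 (.leaf 228 1629 (.cons 203 (.leaf 180 1437 (.cons 323 (.leaf 346 2006 (.cons 324 (.leaf 300 1820 (.leaf 348 2012 .nil)) .nil)) .nil)) .nil)) .nil)) (.cons 324 (.leaf 300 1820 (.cons 204 (.leaf 228 1629 (.cons 203 (.leaf 180 1437 (.cons 202 (.leaf 178 1431 (.cons 201 (.cons 225 (.leaf 296 1606 (.leaf 224 1602 .nil)) (.cons 176 (.leaf 177 1411 (.cons 200 (.leaf 175 1403 (.cons 223 (.leaf 224 1594 (.cons 199 (.leaf 247 1405 (.leaf 222 1586 .nil)) .nil)) .nil)) .nil)) (.cons 176 (.leaf 177 1411 (.cons 200 (.leaf 225 1415 (.leaf 175 1403 .nil)) .nil)) .nil))) .nil)) .nil)) .nil)) .nil)) (.cons 322 (.leaf 298 1814 (.cons 204 (.leaf 228 1629 (.cons 203 (.leaf 180 1437 (.cons 202 (.leaf 178 1431 (.cons 201 (.cons 225 (.leaf 296 1606 (.leaf 224 1602 .nil)) (.cons 176 (.leaf 177 1411 (.cons 200 (.leaf 175 1403 (.cons 223 (.leaf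 224 1594 (.cons 199 (.leaf 247 1405 (.leaf 222 1586 .nil)) .nil)) .nil)) .nil)) (.cons 176 (.leaf 177 1411 (.cons 200 (.leaf 225 1415 (.leaf 175 1403 .nil)) .nil)) .nil))) .nil)) .nil)) .nil)) .nil)) (.cons 322 (.leaf 298 1814 (.cons 323 (.leaf 346 2006 (.cons 324 (.leaf 300 1820 (.leaf 348 2012 .nil)) .nil)) .nil)) .nil)))
noncomputable def t55 : T := .cons 200 (.leaf 176 1412 (.cons 201 (.leaf 177 1413 (.cons 199 (.leaf 175 1407 (.cons 223 (.leaf 296 1599 (.cons 222 (.leaf 221 1768 (.leaf 202 1586 .nil)) .nil)) .nil)) .nil)) .nil)) (.cons 296 (.cons 223 (.leaf 199 1599 (.cons 320 (.leaf 247 1791 (.leaf 225 1797 .nil)) .nil)) (.cons 223 (.leaf 199 1599 (.cons 320 (.leaf 247 1791 (.leaf 344 1989 .nil)) .nil)) (.cons 225 (.leaf 201 1605 (.cons 223 (.leaf 199 1599 (.cons 222 (.leaf 221 1768 (.cons 197 (.leaf 198 1579 (.cons 246 (.leaf 245 1770 (.cons 226 (.leaf 247 1777 (.cons 227 (.leaf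 228 1794 (.cons 202 (.leaf 299 1623 (.leaf 203 1593 .nil)) .nil)) .nil)) .nil)) .nil)) .nil)) .nil)) .nil)) (.cons 225 (.leaf 201 1605 (.leaf 320 1797 .nil)) .nil)))) (.cons 200 (.leaf 176 1412 (.cons 201 (.leaf 177 1413 (.cons 199 (.leaf 175 1407 (.cons 202 (.cons 178 (.leaf 225 1421 (.leaf 179 1401 .nil)) (.cons 223 (.leaf 203 1594 (.leaf 222 1586 .nil)) .nil)) .nil)) .nil)) .nil)) (.cons 200 (.leaf 176 1412 (.cons 199 (.leaf 175 1407 (.cons 296 (.leaf 223 1599 (.cons 320 (.leaf 225 1797 (.leaf 344 1989 .nil)) .nil)) .nil)) .nil)) (.cons 200 (.leaf 176 1412 (.cons 175 (.leaf 199 1407 (.cons 201 (.leaf 177 1413 (.cons 225 (.leaf 296 1605 (.cons 202 (.leaf 178 1421 (.cons 203 (.leaf 204 1602 (.cons 227 (.leaf 228 1600 (.cons 226 (.leaf 299 1623 (.leaf 247 1786 .nil)) .nil)) .nil)) .nil)) .nil)) .nil)) .nil)) .nil)) (.cons 200 (.leaf 176 1412 (.cons 201 (.leaf 177 1413 (.cons 225 (.leaf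 296 1605 (.cons 202 (.leaf 178 1421 (.cons 203 (.leaf 223 1594 (.leaf 204 1602 .nil)) .nil)) .nil)) .nil)) .nil)) .nil)))))
noncomputable def t56 : T := .cons 270 (.leaf 250 1969 (.cons 246 (.leaf 245 1963 (.cons 294 (.leaf 293 2154 (.cons 318 (.cons 247 (.leaf 342 1973 (.leaf 223 1781 .nil)) (.cons 319 (.leaf 343 1972 (.cons 341 (.leaf 317 1966 (.cons 342 (.leaf 365 2158 (.cons 320 (.leaf 321 2538 (.cons 296 (.leaf 344 1989 (.cons 225 (.leaf 201 1606 (.leaf 248 1797 .nil)) .nil)) .nil)) .nil)) .nil)) .nil)) (.cons 223 (.leaf 247 1781 (.cons 222 (.leaf 199 1589 (.cons 197 (.leaf 221 1583 (.cons 198 (.leaf 173 1391 (.cons 195 (.leaf 196 1560 (.cons 225 (.leaf 224 1579 (.cons 296 (.leaf 201 1606 (.cons 320 (.leaf 248 1797 (.leaf 344 1989 .nil)) .nil)) .nil)) .nil)) .nil)) .nil)) .nil)) .nil)) .nil))) .nil)) .nil)) .nil)) (.cons 270 (.cons 246 (.leaf 245 1963 (.cons 294 (.leaf 293 2154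 (.cons 318 (.cons 247 (.leaf 342 1973 (.leaf 223 1781 .nil)) (.cons 319 (.leaf 343 1972 (.cons 341 (.leaf 317 1966 (.cons 342 (.leaf 365 2158 (.cons 320 (.leaf 321 2538 (.cons 296 (.leaf 344 1989 (.cons 225 (.leaf 201 1606 (.leaf 248 1797 .nil)) .nil)) .nil)) .nil)) .nil)) .nil)) (.cons 223 (.leaf 247 1781 (.cons 222 (.leaf 199 1589 (.cons 197 (.leaf 221 1583 (.cons 198 (.leaf 173 1391 (.cons 195 (.leaf 196 1560 (.cons 225 (.leaf 224 1579 (.cons 296 (.leaf 201 1606 (.cons 320 (.leaf 248 1797 (.leaf 344 1989 .nil)) .nil)) .nil)) .nil)) .nil)) .nil)) .nil)) .nil)) .nil))) .nil)) .nil)) (.cons 269 (.leaf 248 1961 (.cons 293 (.leaf 292 2146 (.leaf 294 2154 .nil)) .nil)) (.cons 245 (.leaf 246 1963 (.cons 269 (.leaf 244 1955 (.cons 293 (.leaf 292 2146 (.leaf 294 2154 .nil)) .nil)) .nil)) (.cons 269 (.leaf 248 1961 (.cons 245 (.leaf 244 1955 (.leaf 246 1963 .nil)) .nil)) .nil)))) (.cons 248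 (.leaf 250 1978 (.cons 224 t55 .nil)) (.cons 270 (.leaf 250 1969 (.cons 245 (.leaf 246 1963 (.cons 269 (.leaf 244 1955 (.cons 293 (.leaf 292 2146 (.leaf 294 2154 .nil)) .nil)) .nil)) .nil)) (.cons 250 (.leaf 248 1978 (.leaf 270 1969 .nil)) .nil))))
noncomputable def t57 : T := .cons 204 (.leaf 228 1629 (.cons 180 (.leaf 203 1437 (.cons 300 (.leaf 324 1820 (.cons 322 (.leaf 298 1814 (.cons 323 (.leaf 346 2006 (.cons 320 (.leaf 321 2369 (.cons 296 (.leaf 344 1989 (.cons 225 (.leaf 201 1606 (.leaf 248 1797 .nil)) .nil)) .nil)) .nil)) .nil)) .nil)) .nil)) .nil)) (.cons 322 (.leaf 298 1814 (.cons 300 (.leaf 324 1820 (.cons 323 (.leaf 346 2006 (.cons 301 (.leaf 302 2386 (.cons 320 (.leaf 321 2369 (.cons 296 (.leaf 344 1989 (.cons 225 (.leaf 201 1606 (.leaf 248 1797 .nil)) .nil)) .nil)) .nil)) .nil)) .nil)) .nil)) (.cons 204 (.leaf 228 1629 (.cons 203 (.leaf 180 1437 (.cons 202 (.leaf 178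 1431 (.cons 300 (.leaf 324 1820 (.cons 201 (.cons 176 (.leaf 177 1411 (.cons 200 (.leaf 225 1415 (.leaf 175 1403 .nil)) .nil)) (.cons 176 (.leaf 177 1411 (.cons 200 (.leaf 175 1403 (.cons 224 (.leaf 248 1412 (.leaf 223 1594 .nil)) .nil)) .nil)) (.cons 225 (.leaf 296 1606 (.leaf 224 1602 .nil)) .nil))) .nil)) .nil)) .nil)) .nil)) (.cons 228 (.leaf 204 1629 (.cons 322 (.leaf 298 1814 (.cons 323 (.leaf 252 1821 (.leaf 346 2006 .nil)) .nil)) .nil)) .nil)))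
noncomputable def t58 : T := .cons 228 (.leaf 204 1629 (.cons 300 (.leaf 324 1820 (.cons 298 (.leaf 322 1814 (.cons 252 (.leaf 323 1821 (.cons 225 (.cons 226 (.leaf 224 1792 (.leaf 248 1794 .nil)) (.cons 201 (.leaf 296 1606 (.cons 176 (.leaf 200 1415 (.cons 177 (.leaf 248 1414 (.leaf 152 1223 .nil)) .nil)) .nil)) (.cons 226 (.leaf 224 1792 (.leaf 253 1800 .nil)) .nil))) .nil)) .nil)) .nil)) .nil)) (.cons 322 (.leaf 298 1814 (.cons 300 (.leaf 324 1820 (.cons 323 (.leaf 346 2006 (.cons 301 (.leaf 302 2386 (.cons 320 (.leaf 321 2369 (.cons 296 (.leaf 344 1989 (.cons 225 (.leaf 201 1606 (.leaf 248 1797 .nil)) .nil)) .nil)) .nil)) .nil)) .nil)) .nil)) (.cons 228 (.leaf 204 1629 (.cons 323 (.leaf 252 1821 (.cons 324 (.leaf 300 1820 (.leaf 348 2012 .nil)) .nil)) .nil)) (.cons 228 (.leaf 204 1629 (.cons 322 (.leaf 298 1814 (.cons 323 (.leaf 252 1821 (.leaf 346 2006 .nil)) .nil)) .nil)) (.cons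 228 (.leaf 204 1629 (.cons 300 (.leaf 324 1820 (.cons 298 (.leaf 322 1814 (.cons 225 (.cons 201 (.leaf 296 1606 (.cons 200 (.leaf 176 1415 (.leaf 226 1603 .nil)) .nil)) (.cons 201 (.leaf 296 1606 (.cons 176 (.leaf 200 1415 (.cons 177 (.leaf 248 1414 (.leaf 152 1223 .nil)) .nil)) .nil)) (.cons 226 (.leaf 248 1794 (.cons 252 (.leaf 224 1792 (.leaf 253 1800 .nil)) .nil)) .nil))) .nil)) .nil)) .nil)) .nil))))
noncomputable def t59 : T := .cons 322 (.leaf 298 1814 (.cons 226 (.leaf 202 1623 (.cons 323 (.leaf 346 2006 (.cons 228 (.leaf 252 1821 (.cons 225 (.leaf 248 1794 (.cons 201 (.leaf 296 1606 (.leaf 200 1603 .nil)) .nil)) .nil)) .nil)) .nil)) .nil)) (.cons 322 (.leaf 298 1814 (.cons 300 (.leaf 324 1820 (.cons 323 (.leaf 346 2006 (.cons 228 (.leaf 252 1821 (.cons 301 (.leaf 302 2386 (.cons 320 (.leaf 321 2369 (.cons 296 (.leaf 344 1989 (.cons 225 (.leaf 201 1606 (.leaf 248 1797 .nil))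 .nil)) .nil)) .nil)) .nil)) .nil)) .nil)) .nil)) (.cons 324 (.leaf 300 1820 (.cons 226 (.leaf 202 1623 (.cons 323 (.leaf 348 2012 (.cons 228 (.leaf 252 1821 (.cons 225 (.leaf 248 1794 (.cons 201 (.leaf 296 1606 (.leaf 200 1603 .nil)) .nil)) .nil)) .nil)) .nil)) .nil)) (.cons 202 (.leaf 226 1623 (.cons 300 (.leaf 324 1820 (.cons 298 (.leaf 322 1814 (.cons 201 (.cons 225 (.leaf 296 1606 (.leaf 178 1421 .nil)) (.cons 203 (.leaf 178 1431 (.cons 200 (.leaf 228 1600 (.cons 175 (.leaf 176 1403 (.cons 199 (.leaf 174 1395 (.cons 223 (.leaf 222 1586 (.leaf 224 1594 .nil)) .nil)) .nil)) .nil)) .nil)) (.cons 225 (.leaf 296 1606 (.cons 176 (.leaf 200 1415 (.cons 177 (.leaf 248 1414 (.leaf 152 1223 .nil)) .nil)) .nil)) .nil))) .nil)) .nil)) .nil)) (.cons 202 (.leaf 226 1623 (.cons 178 (.leaf 203 1431 (.cons 322 (.leaf 298 1814 (.cons 323 (.leaf 346 2006 (.cons 324 (.leaf 300 1820 (.leaf 348 2012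 .nil)) .nil)) .nil)) .nil)) .nil)) .nil))))
noncomputable def t60 : T := .cons 178 (.leaf 202 1431 (.cons 179 (.leaf 154 1239 (.cons 156 (.leaf 180 1245 (.cons 155 (.leaf 132 1053 (.cons 157 (.leaf 158 1234 (.cons 228 (.leaf 252 1244 (.cons 204 (.leaf 131 1052 (.cons 205 (.leaf 206 1427 (.cons 176 (.leaf 177 1408 (.cons 225 (.leaf 226 1609 (.cons 201 (.leaf 296 1606 (.leaf 200 1415 .nil)) .nil)) .nil)) .nil)) .nil)) .nil)) .nil)) .nil)) .nil)) .nil)) .nil)) (.cons 204 (.leaf 180 1437 (.cons 225 (.cons 201 (.leaf 296 1606 (.cons 224 (.leaf 226 1601 (.leaf 202 1602 .nil)) .nil)) (.cons 201 (.leaf 296 1606 (.cons 176 (.leaf 200 1415 (.cons 177 (.leaf 248 1414 (.leaf 152 1223 .nil)) .nil)) .nil)) (.cons 226 (.leaf 224 1601 (.cons 205 (.leaf 206 1618 (.leaf 228 1609 .nil)) .nil)) .nil))) .nil)) (.cons 202 (.leaf 178 1431 (.cons 201 (.cons 200 (.leaf 228 1600 (.cons 175 (.leaf 176 1403 (.cons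 199 (.leaf 226 1592 (.leaf 174 1395 .nil)) .nil)) .nil)) (.cons 225 (.leaf 296 1606 (.cons 177 (.leaf 248 1414 (.cons 176 (.leaf 152 1223 (.leaf 204 1411 .nil)) .nil)) .nil)) (.cons 200 (.leaf 228 1600 (.cons 199 (.leaf 226 1592 (.cons 223 (.leaf 224 1594 (.leaf 222 1586 .nil)) .nil)) .nil)) .nil))) .nil)) (.cons 178 (.leaf 202 1431 (.cons 179 (.leaf 154 1239 (.cons 156 (.leaf 180 1245 (.cons 155 (.leaf 132 1053 (.cons 176 (.leaf 177 1217 (.cons 252 (.leaf 228 1244 (.cons 225 (.cons 201 (.leaf 296 1606 (.leaf 200 1415 .nil)) (.cons 224 (.leaf 226 1792 (.cons 200 (.leaf 248 1412 (.leaf 152 1220 .nil)) .nil)) (.cons 157 (.leaf 158 1234 (.cons 296 (.leaf 201 1606 (.cons 320 (.leaf 248 1797 (.leaf 344 1989 .nil)) .nil)) .nil)) .nil))) .nil)) .nil)) .nil)) .nil)) .nil)) .nil)) (.cons 204 (.leaf 180 1437 (.cons 225 (.cons 201 (.leaf 296 1606 (.cons 176 (.leaf 200 1415 (.cons 177 (.leaf 248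 1414 (.leaf 152 1223 .nil)) .nil)) .nil)) (.cons 226 (.leaf 224 1601 (.cons 228 (.leaf 248 1794 (.leaf 205 1609 .nil)) .nil)) (.cons 226 (.leaf 224 1601 (.cons 205 (.leaf 206 1618 (.leaf 228 1609 .nil)) .nil)) .nil))) .nil)) (.cons 180 (.leaf 204 1437 (.cons 178 (.leaf 202 1431 (.cons 179 (.leaf 154 1239 (.leaf 156 1245 .nil)) .nil)) .nil)) .nil)))))
noncomputable def t61 : T := .cons 299 (.cons 322 (.leaf 298 1814 (.cons 226 (.leaf 202 1623 (.cons 323 (.leaf 346 2006 (.cons 228 (.leaf 204 1629 (.leaf 252 1821 .nil)) .nil)) .nil)) .nil)) (.cons 322 (.leaf 298 1814 (.cons 300 (.leaf 324 1820 (.cons 323 (.leaf 346 2006 (.cons 301 (.leaf 302 2386 (.cons 320 (.leaf 321 2369 (.cons 296 (.leaf 344 1989 (.cons 225 (.leaf 201 1606 (.leaf 248 1797 .nil)) .nil)) .nil)) .nil)) .nil)) .nil)) .nil)) (.cons 228 (.leaf 204 1629 (.cons 323 (.leaf 252 1821 (.cons 324 (.leaf 300 1820 (.leaf 348 2012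 .nil)) .nil)) .nil)) (.cons 202 (.leaf 226 1623 (.cons 203 (.leaf 178 1431 (.cons 204 (.leaf 180 1437 (.leaf 228 1629 .nil)) .nil)) .nil)) .nil)))) (.cons 203 t60 (.cons 299 (.cons 202 (.leaf 226 1623 (.cons 203 (.leaf 178 1431 (.cons 204 (.leaf 180 1437 (.leaf 228 1629 .nil)) .nil)) .nil)) (.cons 202 (.leaf 226 1623 (.cons 178 (.leaf 203 1431 (.cons 322 (.leaf 298 1814 (.cons 323 (.leaf 346 2006 (.cons 324 (.leaf 300 1820 (.leaf 348 2012 .nil)) .nil)) .nil)) .nil)) .nil)) (.cons 228 (.leaf 204 1629 (.cons 323 (.leaf 252 1821 (.cons 324 (.leaf 300 1820 (.leaf 348 2012 .nil)) .nil)) .nil)) .nil))) (.cons 299 (.cons 226 (.leaf 202 1623 (.cons 322 (.leaf 298 1814 (.cons 323 (.leaf 346 2006 (.cons 228 (.leaf 204 1629 (.leaf 252 1821 .nil)) .nil)) .nil)) .nil)) (.cons 202 (.leaf 226 1623 (.cons 300 (.leaf 324 1820 (.cons 322 (.leaf 298 1814 (.cons 323 (.leaf 346 2006 (.cons 301 (.leaf 302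 2386 (.cons 320 (.leaf 321 2369 (.cons 296 (.leaf 344 1989 (.cons 225 (.leaf 201 1606 (.leaf 248 1797 .nil)) .nil)) .nil)) .nil)) .nil)) .nil)) .nil)) .nil)) (.cons 226 (.leaf 202 1623 (.cons 228 (.leaf 204 1629 (.cons 225 (.leaf 248 1794 (.cons 201 (.leaf 296 1606 (.leaf 200 1603 .nil)) .nil)) .nil)) .nil)) (.cons 228 (.leaf 204 1629 (.cons 323 (.leaf 252 1821 (.cons 324 (.leaf 300 1820 (.leaf 348 2012 .nil)) .nil)) .nil)) .nil)))) (.cons 299 t59 (.cons 299 t58 (.cons 299 (.cons 202 (.leaf 226 1623 (.cons 203 (.leaf 178 1431 (.cons 180 (.leaf 204 1437 (.cons 179 (.leaf 156 1245 (.cons 181 (.leaf 182 1426 (.cons 201 (.leaf 200 1409 (.cons 225 (.leaf 296 1606 (.cons 177 (.leaf 248 1414 (.cons 152 (.leaf 176 1223 (.cons 153 (.leaf 128 1031 (.cons 154 (.leaf 155 1216 (.leaf 130 1037 .nil)) .nil)) .nil)) .nil)) .nil)) .nil)) .nil)) .nil)) .nil)) .nil)) .nil)) (.cons 300 (.leaf 324 1820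 (.cons 322 (.leaf 298 1814 (.cons 323 (.leaf 346 2006 (.cons 301 (.leaf 302 2386 (.cons 320 (.leaf 321 2369 (.cons 296 (.leaf 344 1989 (.cons 225 (.leaf 201 1606 (.leaf 248 1797 .nil)) .nil)) .nil)) .nil)) .nil)) .nil)) .nil)) (.cons 202 (.leaf 226 1623 (.cons 178 (.leaf 203 1431 (.cons 322 (.leaf 298 1814 (.cons 323 (.leaf 346 2006 (.cons 324 (.leaf 300 1820 (.leaf 348 2012 .nil)) .nil)) .nil)) .nil)) .nil)) .nil))) (.cons 299 t57 .nil)))))))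
noncomputable def t62 : T := .cons 323 (.cons 228 (.leaf 252 1821 (.cons 227 (.leaf 204 1629 (.cons 324 (.leaf 300 1820 (.leaf 348 2012 .nil)) .nil)) .nil)) (.cons 250 (.leaf 226 1815 (.cons 252 (.leaf 228 1821 (.leaf 249 1986 .nil)) .nil)) (.cons 226 (.leaf 250 1815 (.cons 227 (.leaf 202 1623 (.cons 324 (.leaf 300 1820 (.leaf 348 2012 .nil)) .nil)) .nil)) .nil))) (.cons 227 (.cons 204 (.leaf 228 1629 (.cons 180 (.leaf 203 1437 (.cons 298 (.leaf 322 1814 (.cons 300 (.leaf 324 1820 (.leaf 297 2179 .nil)) .nil)) .nil)) .nil)) (.cons 202 (.leaf 226 1623 (.cons 203 (.leaf 178 1431 (.cons 204 (.leaf 180 1437 (.leaf 228 1629 .nil)) .nil)) .nil)) (.cons 202 (.leaf 226 1623 (.cons 178 (.leaf 203 1431 (.cons 298 (.leaf 322 1814 (.cons 300 (.leaf 324 1820 (.leaf 297 2179 .nil)) .nil)) .nil)) .nil)) (.cons 202 (.leaf 226 1623 (.cons 204 (.leaf 228 1629 (.cons 298 (.leaf 322 1814 (.cons 300 (.leaf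 324 1820 (.leaf 297 2179 .nil)) .nil)) .nil)) .nil)) .nil)))) (.cons 323 (.cons 228 (.leaf 252 1821 (.cons 346 (.leaf 322 2006 (.cons 226 (.leaf 250 1815 (.cons 347 (.leaf 370 2198 (.cons 348 (.leaf 324 2012 (.leaf 372 2204 .nil)) .nil)) .nil)) .nil)) .nil)) (.cons 250 (.leaf 226 1815 (.cons 252 (.leaf 228 1821 (.leaf 249 1986 .nil)) .nil)) (.cons 228 (.leaf 252 1821 (.cons 346 (.leaf 322 2006 (.cons 347 (.leaf 370 2198 (.cons 348 (.leaf 324 2012 (.leaf 372 2204 .nil)) .nil)) .nil)) .nil)) (.cons 226 (.leaf 250 1815 (.cons 346 (.leaf 322 2006 (.cons 347 (.leaf 370 2198 (.cons 348 (.leaf 324 2012 (.leaf 372 2204 .nil)) .nil)) .nil)) .nil)) .nil)))) (.cons 323 (.cons 322 (.leaf 346 2006 (.cons 227 (.leaf 298 1814 (.cons 228 (.leaf 204 1629 (.leaf 252 1821 .nil)) .nil)) .nil)) (.cons 228 (.leaf 252 1821 (.cons 227 (.leaf 204 1629 (.cons 324 (.leaf 300 1820 (.leaf 348 2012 .nil)) .nil))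 .nil)) (.cons 322 (.leaf 346 2006 (.cons 227 (.leaf 298 1814 (.cons 324 (.leaf 300 1820 (.leaf 348 2012 .nil)) .nil)) .nil)) (.cons 346 (.leaf 322 2006 (.cons 228 (.leaf 252 1821 (.cons 347 (.leaf 370 2198 (.cons 348 (.leaf 324 2012 (.leaf 372 2204 .nil)) .nil)) .nil)) .nil)) .nil)))) (.cons 227 (.cons 202 (.leaf 226 1623 (.cons 203 (.leaf 178 1431 (.cons 204 (.leaf 180 1437 (.leaf 228 1629 .nil)) .nil)) .nil)) (.cons 228 (.leaf 204 1629 (.cons 252 (.leaf 323 1821 (.cons 249 (.leaf 250 1986 (.cons 298 (.leaf 322 1814 (.cons 297 (.leaf 300 2179 (.cons 271 (.leaf 270 2160 (.leaf 296 2171 .nil)) .nil)) .nil)) .nil)) .nil)) .nil)) (.cons 226 (.leaf 202 1623 (.cons 250 (.leaf 323 1815 (.cons 298 (.leaf 322 1814 (.cons 297 (.leaf 300 2179 (.cons 271 (.leaf 270 2160 (.leaf 296 2171 .nil)) .nil)) .nil)) .nil)) .nil)) .nil))) (.cons 323 (.cons 226 (.leaf 250 1815 (.cons 227 (.leaf 202 1623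 (.cons 324 (.leaf 300 1820 (.leaf 348 2012 .nil)) .nil)) .nil)) (.cons 226 (.leaf 250 1815 (.cons 227 (.leaf 202 1623 (.cons 322 (.leaf 298 1814 (.leaf 346 2006 .nil)) .nil)) .nil)) (.cons 322 (.leaf 346 2006 (.cons 227 (.leaf 298 1814 (.cons 324 (.leaf 300 1820 (.leaf 348 2012 .nil)) .nil)) .nil)) (.cons 226 (.leaf 250 1815 (.cons 346 (.leaf 322 2006 (.cons 347 (.leaf 370 2198 (.cons 348 (.leaf 324 2012 (.leaf 372 2204 .nil)) .nil)) .nil)) .nil)) .nil)))) .nil)))))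
noncomputable def t63 : T := .cons 204 (.leaf 228 1629 (.cons 180 (.leaf 203 1437 (.cons 298 (.leaf 322 1814 (.cons 297 (.leaf 300 2179 (.cons 271 (.leaf 270 2160 (.leaf 296 2171 .nil)) .nil)) .nil)) .nil)) .nil)) (.cons 226 (.leaf 202 1623 (.cons 204 (.leaf 228 1629 (.cons 203 (.leaf 180 1437 (.cons 205 (.leaf 206 1618 (.cons 250 (.leaf 323 1815 (.cons 179 (.leaf 155 1238 (.cons 178 (.leaf 154 1239 (.cons 177 (.leaf 176 1408 (.cons 225 (.leaf 224 1601 (.cons 201 (.leaf 153 1228 (.cons 249 (.leaf 248 1414 (.leaf 296 1606 .nil)) .nil)) .nil)) .nil)) .nil)) .nil)) .nil)) .nil)) .nil)) .nil)) .nil)) (.cons 202 (.leaf 226 1623 (.cons 178 (.leaf 203 1431 (.cons 298 (.leaf 322 1814 (.cons 297 (.leaf 300 2179 (.cons 271 (.leaf 270 2160 (.leaf 296 2171 .nil)) .nil)) .nil)) .nil)) .nil)) (.cons 202 (.leaf 226 1623 (.cons 204 (.leaf 228 1629 (.cons 298 (.leaf 322 1814 (.cons 297 (.leaf 300 2179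 (.cons 271 (.leaf 270 2160 (.leaf 296 2171 .nil)) .nil)) .nil)) .nil)) .nil)) (.cons 226 (.leaf 202 1623 (.cons 204 (.leaf 228 1629 (.cons 180 (.leaf 203 1437 (.cons 250 (.leaf 323 1815 (.cons 298 (.leaf 322 1814 (.cons 297 (.leaf 300 2179 (.cons 249 (.leaf 321 1805 (.cons 271 (.leaf 248 1978 (.leaf 270 2160 .nil)) .nil)) .nil)) .nil)) .nil)) .nil)) .nil)) .nil)) .nil))))
noncomputable def t64 : T := .cons 227 (.leaf 202 1623 (.cons 323 (.leaf 250 1815 (.cons 324 (.leaf 300 1820 (.leaf 348 2012 .nil)) .nil)) .nil)) (.cons 250 (.leaf 323 1815 (.cons 202 (.leaf 178 1428 (.cons 249 (.cons 297 (.leaf 225 1613 (.leaf 321 1805 .nil)) (.cons 271 (.leaf 248 1978 (.leaf 270 1969 .nil)) .nil)) .nil)) .nil)) (.cons 323 (.leaf 250 1815 (.cons 348 (.leaf 324 2012 (.cons 347 (.leaf 372 2204 (.cons 346 (.leaf 370 2198 (.cons 345 (.cons 320 (.leaf 321 2563 (.cons 344 (.leaf 319 2555 (.cons 296 (.leaf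 249 1989 (.leaf 369 2180 .nil)) .nil)) .nil)) (.cons 368 (.leaf 369 2754 (.cons 344 (.leaf 367 2746 (.cons 297 (.leaf 321 2182 (.cons 298 (.leaf 300 2179 (.cons 271 (.leaf 270 2160 (.leaf 296 2171 .nil)) .nil)) .nil)) .nil)) .nil)) (.cons 368 (.leaf 369 2754 (.cons 344 (.leaf 367 2746 (.cons 320 (.leaf 319 2555 (.cons 296 (.leaf 249 1989 (.leaf 297 2181 .nil)) .nil)) .nil)) .nil)) (.cons 320 (.leaf 321 2563 (.cons 344 (.leaf 319 2555 (.cons 296 (.leaf 249 1989 (.cons 367 (.leaf 343 2174 (.leaf 368 2746 .nil)) .nil)) .nil)) .nil)) (.cons 321 (.leaf 320 2563 (.cons 297 (.leaf 248 1991 (.cons 369 (.leaf 296 2183 (.leaf 368 2754 .nil)) .nil)) .nil)) (.cons 321 (.leaf 320 2563 (.cons 297 (.leaf 248 1991 (.cons 368 (.leaf 344 2182 (.leaf 369 2754 .nil)) .nil)) .nil)) .nil)))))) .nil)) .nil)) .nil)) .nil)) (.cons 227 (.leaf 202 1623 (.cons 204 (.leaf 228 1629 (.cons 203 (.leaf 180 1437 (.cons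 205 (.leaf 206 1618 (.cons 300 (.leaf 324 1820 (.cons 224 (.leaf 225 1601 (.cons 297 (.leaf 298 2179 (.cons 248 (.leaf 200 1604 (.cons 321 (.leaf 296 1796 (.leaf 345 1991 .nil)) .nil)) .nil)) .nil)) .nil)) .nil)) .nil)) .nil)) .nil)) .nil)))
noncomputable def t65 : T := .cons 250 (.leaf 226 1815 (.cons 344 (.leaf 345 2562 (.cons 320 (.leaf 343 2554 (.cons 249 (.leaf 296 1989 (.leaf 297 1990 .nil)) .nil)) .nil)) .nil)) (.cons 344 (.leaf 345 2562 (.cons 250 (.leaf 226 1815 (.cons 320 (.leaf 343 2554 (.cons 249 (.leaf 296 1989 (.cons 271 (.leaf 248 1978 (.leaf 270 1969 .nil)) .nil)) .nil)) .nil)) .nil)) (.cons 297 (.leaf 296 2371 (.cons 226 (.leaf 250 1815 (.cons 202 (.leaf 227 1623 (.cons 248 (.leaf 345 1991 (.cons 224 (.leaf 200 1604 (.leaf 249 1799 .nil)) .nil)) .nil)) .nil)) .nil)) (.cons 226 (.leaf 250 1815 (.cons 227 (.leaf 202 1623 (.cons 204 (.leaf 228 1629 (.cons 203 (.leaf 180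 1437 (.cons 224 (.leaf 225 1601 (.cons 205 (.leaf 206 1618 (.cons 297 (.leaf 296 2371 (.cons 248 (.leaf 200 1604 (.leaf 249 1799 .nil)) .nil)) .nil)) .nil)) .nil)) .nil)) .nil)) .nil)) (.cons 297 (.leaf 296 2371 (.cons 345 (.leaf 248 1991 (.leaf 344 2562 .nil)) .nil)) (.cons 344 (.leaf 345 2562 (.cons 250 (.leaf 226 1815 (.cons 320 (.leaf 343 2554 (.cons 249 (.leaf 297 1990 (.cons 271 (.leaf 248 1978 (.leaf 270 1969 .nil)) .nil)) .nil)) .nil)) .nil)) .nil)))))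
noncomputable def t66 : T := .cons 323 (.leaf 348 2012 (.cons 322 (.leaf 346 2006 (.cons 321 (.cons 250 (.leaf 226 1815 (.cons 344 (.leaf 345 2562 (.cons 320 (.leaf 300 2369 (.leaf 343 2554 .nil)) .nil)) .nil)) (.cons 250 (.leaf 226 1815 (.cons 344 (.leaf 345 2562 (.cons 320 (.leaf 343 2554 (.cons 249 (.leaf 296 1989 (.leaf 297 1990 .nil)) .nil)) .nil)) .nil)) (.cons 226 (.leaf 250 1815 (.cons 202 (.leaf 227 1623 (.cons 297 (.leaf 296 2371 (.cons 248 (.leaf 345 1991 (.cons 224 (.leaf 200 1604 (.leaf 249 1799 .nil)) .nil)) .nil)) .nil)) .nil)) (.cons 300 (.leaf 227 1820 (.leaf 320 2369 .nil)) .nil)))) .nil)) .nil)) (.cons 227 (.leaf 300 1820 (.cons 202 (.leaf 226 1623 (.cons 203 (.leaf 178 1431 (.cons 204 (.leaf 180 1437 (.leaf 228 1629 .nil)) .nil)) .nil)) .nil)) (.cons 323 (.leaf 348 2012 (.cons 322 (.leaf 346 2006 (.cons 250 (.leaf 226 1815 (.cons 321 (.cons 344 (.leaf 345 2562 (.cons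 320 (.leaf 300 2369 (.leaf 343 2554 .nil)) .nil)) (.cons 344 (.leaf 345 2562 (.cons 320 (.leaf 343 2554 (.cons 249 (.leaf 296 1989 (.leaf 297 1990 .nil)) .nil)) .nil)) (.cons 297 (.leaf 296 2371 (.cons 345 (.leaf 248 1991 (.leaf 344 2562 .nil)) .nil)) (.cons 297 (.leaf 296 2371 (.cons 300 (.leaf 320 2369 (.leaf 301 2377 .nil)) .nil)) .nil)))) .nil)) .nil)) .nil)) (.cons 323 (.leaf 348 2012 (.cons 322 (.leaf 346 2006 (.cons 321 t65 .nil)) .nil)) (.cons 323 (.leaf 348 2012 (.cons 300 (.leaf 227 1820 (.cons 322 (.leaf 346 2006 (.cons 301 (.leaf 302 2386 (.leaf 321 2377 .nil)) .nil)) .nil)) .nil)) .nil))))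
noncomputable def t67 : T := .cons 368 (.leaf 369 2754 (.cons 344 (.leaf 367 2746 (.cons 297 (.leaf 321 2182 (.cons 298 (.leaf 300 2179 (.cons 320 (.leaf 296 2181 (.leaf 319 2555 .nil)) .nil)) .nil)) .nil)) .nil)) (.cons 368 (.leaf 369 2754 (.cons 344 (.leaf 367 2746 (.cons 297 (.leaf 321 2182 (.cons 298 (.leaf 300 2179 (.cons 271 (.leaf 270 2160 (.leaf 296 2171 .nil)) .nil)) .nil)) .nil)) .nil)) (.cons 368 (.leaf 369 2754 (.cons 344 (.leaf 367 2746 (.cons 320 (.leaf 319 2555 (.cons 296 (.leaf 249 1989 (.leaf 297 2181 .nil)) .nil)) .nil)) .nil)) (.cons 320 (.leaf 321 2563 (.cons 344 (.leaf 319 2555 (.cons 296 (.leaf 249 1989 (.leaf 369 2180 .nil)) .nil)) .nil)) (.cons 320 (.leaf 321 2563 (.cons 344 (.leaf 319 2555 (.cons 249 (.leaf 296 1989 (.cons 271 (.leaf 248 1978 (.leaf 270 1969 .nil)) .nil)) .nil)) .nil)) (.cons 321 (.leaf 320 2563 (.cons 297 (.leaf 248 1991 (.cons 369 (.leaf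 296 2183 (.leaf 368 2754 .nil)) .nil)) .nil)) (.cons 321 (.leaf 320 2563 (.cons 297 (.leaf 248 1991 (.cons 368 (.leaf 344 2182 (.leaf 369 2754 .nil)) .nil)) .nil)) .nil))))))
noncomputable def t68 : T := .cons 298 (.leaf 300 2179 (.cons 271 (.leaf 270 2160 (.leaf 296 2171 .nil)) .nil)) (.cons 248 (.cons 200 (.leaf 224 1604 (.cons 345 (.leaf 321 1991 (.cons 344 (.leaf 324 2561 (.cons 249 (.leaf 271 1978 (.cons 320 (.leaf 296 1989 (.leaf 319 2555 .nil)) .nil)) .nil)) .nil)) .nil)) (.cons 200 (.leaf 224 1604 (.cons 345 (.leaf 321 1991 (.cons 344 (.leaf 324 2561 (.cons 319 (.leaf 320 2555 (.cons 343 (.leaf 318 2547 (.cons 367 (.leaf 366 2738 (.leaf 368 2746 .nil)) .nil)) .nil)) .nil)) .nil)) .nil)) (.cons 249 (.leaf 271 1978 (.cons 345 (.leaf 321 1991 (.cons 344 (.leaf 324 2561 (.cons 320 (.leaf 296 1989 (.leaf 319 2555 .nil)) .nil)) .nil)) .nil)) (.cons 224 (.leaf 200 1604 (.cons 249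 (.leaf 271 1978 (.leaf 223 1787 .nil)) .nil)) .nil)))) (.cons 298 (.leaf 300 2179 (.cons 296 (.leaf 324 2368 (.cons 320 (.leaf 319 2362 (.cons 344 (.leaf 249 1989 (.leaf 368 2181 .nil)) .nil)) .nil)) .nil)) (.cons 298 (.leaf 300 2179 (.cons 271 (.leaf 270 2160 (.cons 248 (.leaf 249 1978 (.cons 345 (.leaf 321 1991 (.cons 344 (.leaf 324 2561 (.cons 319 (.leaf 320 2555 (.cons 343 (.leaf 318 2547 (.cons 367 (.leaf 366 2738 (.leaf 368 2746 .nil)) .nil)) .nil)) .nil)) .nil)) .nil)) .nil)) .nil)) .nil)))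
noncomputable def t69 : T := .cons 298 (.leaf 300 2179 (.cons 320 (.cons 296 (.leaf 271 2171 (.leaf 319 2362 .nil)) (.cons 321 (.leaf 322 2560 (.cons 248 (.leaf 345 1991 (.cons 224 (.leaf 200 1604 (.leaf 249 1799 .nil)) .nil)) .nil)) .nil)) .nil)) (.cons 248 (.cons 249 (.leaf 271 1978 (.cons 321 (.leaf 345 1991 (.leaf 224 1799 .nil)) .nil)) (.cons 224 (.leaf 200 1604 (.cons 321 (.leaf 296 1796 (.leaf 345 1991 .nil)) .nil)) (.cons 249 (.leaf 271 1978 (.cons 321 (.leaf 345 1991 (.cons 320 (.leaf 344 1990 (.leaf 322 2560 .nil)) .nil)) .nil)) (.cons 224 (.leaf 200 1604 (.cons 249 (.leaf 271 1978 (.leaf 223 1787 .nil)) .nil)) .nil)))) (.cons 298 (.leaf 300 2179 (.cons 320 (.cons 296 (.leaf 319 2362 (.cons 249 (.leaf 344 1989 (.leaf 225 1798 .nil)) .nil)) (.cons 321 (.leaf 322 2560 (.cons 248 (.leaf 345 1991 (.cons 224 (.leaf 200 1604 (.leaf 249 1799 .nil)) .nil)) .nil)) (.cons 296 (.leaf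 319 2362 (.cons 321 (.leaf 322 2560 (.cons 248 (.leaf 224 1796 (.leaf 345 1988 .nil)) .nil)) .nil)) .nil))) .nil)) (.cons 298 (.leaf 300 2179 (.cons 271 (.leaf 270 2160 (.leaf 296 2171 .nil)) .nil)) (.cons 298 (.leaf 300 2179 (.cons 271 (.leaf 270 2160 (.cons 321 (.cons 249 (.leaf 248 1978 (.cons 320 (.leaf 344 1990 (.leaf 322 2560 .nil)) .nil)) (.cons 320 (.leaf 322 2560 (.cons 344 (.leaf 249 1990 (.cons 368 (.leaf 345 2182 (.leaf 392 2373 .nil)) .nil)) .nil)) (.cons 248 (.leaf 249 1978 (.leaf 345 1991 .nil)) (.cons 322 (.leaf 320 2560 (.cons 345 (.leaf 248 1991 (.cons 349 (.leaf 350 2579 (.cons 369 (.leaf 393 2381 (.cons 368 (.leaf 344 2182 (.leaf 392 2374 .nil)) .nil)) .nil)) .nil)) .nil)) .nil)))) .nil)) .nil)) .nil))))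
noncomputable def t70 : T := .cons 348 (.leaf 324 2012 (.cons 226 (.leaf 250 1815 (.cons 346 (.leaf 322 2006 (.cons 347 (.leaf 370 2198 (.leaf 372 2204 .nil)) .nil)) .nil)) .nil)) (.cons 348 (.leaf 324 2012 (.cons 347 (.leaf 372 2204 (.cons 250 (.leaf 226 1815 (.cons 297 t69 .nil)) .nil)) .nil)) (.cons 346 (.leaf 322 2006 (.cons 347 (.leaf 370 2198 (.cons 250 (.leaf 226 1815 (.cons 297 t68 .nil)) .nil)) .nil)) (.cons 346 (.leaf 322 2006 (.cons 347 (.leaf 370 2198 (.cons 372 (.leaf 348 2204 (.cons 371 (.leaf 396 2396 (.cons 345 (.leaf 344 2752 (.cons 250 (.leaf 226 1815 (.cons 297 (.cons 248 (.leaf 321 1991 (.cons 200 (.leaf 224 1604 (.cons 271 (.leaf 249 1978 (.cons 298 (.leaf 270 2160 (.leaf 296 2171 .nil)) .nil)) .nil)) .nil)) (.cons 298 (.leaf 300 2179 (.cons 271 (.leaf 270 2160 (.leaf 296 2171 .nil)) .nil)) (.cons 248 (.leaf 321 1991 (.cons 224 (.leaf 200 1604 (.cons 249 (.leaf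 271 1978 (.leaf 223 1787 .nil)) .nil)) .nil)) (.cons 321 (.leaf 248 1991 (.cons 369 (.leaf 296 2183 (.cons 392 (.leaf 368 2374 (.cons 393 (.leaf 416 2566 (.cons 394 (.leaf 395 2945 (.leaf 418 2572 .nil)) .nil)) .nil)) .nil)) .nil)) .nil)))) .nil)) .nil)) .nil)) .nil)) .nil)) .nil)) (.cons 348 (.leaf 324 2012 (.cons 347 (.leaf 372 2204 (.cons 346 (.leaf 370 2198 (.cons 250 (.leaf 226 1815 (.cons 345 t67 .nil)) .nil)) .nil)) .nil)) (.cons 348 (.leaf 324 2012 (.cons 347 (.leaf 372 2204 (.cons 346 (.leaf 322 2006 (.leaf 370 2198 .nil)) .nil)) .nil)) (.cons 322 (.leaf 346 2006 (.cons 324 (.leaf 348 2012 (.cons 250 (.leaf 226 1815 (.cons 321 (.cons 344 (.leaf 345 2562 (.cons 320 (.leaf 300 2369 (.leaf 343 2554 .nil)) .nil)) (.cons 344 (.leaf 345 2562 (.cons 320 (.leaf 343 2554 (.cons 249 (.leaf 296 1989 (.leaf 297 1990 .nil)) .nil)) .nil)) (.cons 297 (.leaf 296 2371 (.cons 298 (.leaf 300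 2179 (.leaf 325 2379 .nil)) .nil)) .nil))) .nil)) .nil)) .nil)) .nil))))))
noncomputable def t71 : T := .cons 226 (.cons 323 (.leaf 250 1815 (.cons 227 (.leaf 202 1623 (.cons 324 (.leaf 300 1820 (.leaf 348 2012 .nil)) .nil)) .nil)) (.cons 323 (.leaf 250 1815 (.cons 346 (.leaf 322 2006 (.cons 347 (.leaf 370 2198 (.cons 348 (.leaf 324 2012 (.leaf 372 2204 .nil)) .nil)) .nil)) .nil)) (.cons 227 (.leaf 202 1623 (.cons 204 (.leaf 228 1629 (.cons 203 (.leaf 180 1437 (.cons 205 (.leaf 206 1618 (.cons 298 (.leaf 322 1814 (.cons 300 (.leaf 324 1820 (.leaf 297 2179 .nil)) .nil)) .nil)) .nil)) .nil)) .nil)) (.cons 227 (.leaf 202 1623 (.cons 204 (.leaf 228 1629 (.cons 203 (.leaf 180 1437 (.cons 224 (.leaf 225 1601 (.cons 205 (.leaf 206 1618 (.cons 298 (.leaf 322 1814 (.cons 297 (.leaf 300 2179 (.cons 271 (.leaf 270 2160 (.leaf 296 2171 .nil)) .nil)) .nil)) .nil)) .nil)) .nil)) .nil)) .nil)) .nil))))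 (.cons 323 t70 (.cons 227 (.cons 202 (.leaf 226 1623 (.cons 178 (.leaf 203 1431 (.cons 298 (.leaf 322 1814 (.cons 300 (.leaf 324 1820 (.leaf 297 2179 .nil)) .nil)) .nil)) .nil)) (.cons 204 (.leaf 228 1629 (.cons 180 (.leaf 203 1437 (.cons 298 (.leaf 322 1814 (.cons 300 (.leaf 324 1820 (.leaf 297 2179 .nil)) .nil)) .nil)) .nil)) (.cons 202 (.leaf 226 1623 (.cons 203 (.leaf 178 1431 (.cons 204 (.leaf 180 1437 (.leaf 228 1629 .nil)) .nil)) .nil)) (.cons 202 (.leaf 226 1623 (.cons 204 (.leaf 228 1629 (.cons 298 (.leaf 322 1814 (.cons 300 (.leaf 324 1820 (.leaf 297 2179 .nil)) .nil)) .nil)) .nil)) .nil)))) (.cons 324 t66 (.cons 227 (.cons 202 (.leaf 226 1623 (.cons 203 (.leaf 178 1431 (.cons 204 (.leaf 180 1437 (.leaf 228 1629 .nil)) .nil)) .nil)) (.cons 204 (.leaf 228 1629 (.cons 180 (.leaf 203 1437 (.cons 322 (.leaf 298 1814 (.cons 323 (.leaf 346 2006 (.cons 324 (.leaf 300 1820 (.leaf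 348 2012 .nil)) .nil)) .nil)) .nil)) .nil)) (.cons 202 (.leaf 226 1623 (.cons 178 (.leaf 203 1431 (.cons 322 (.leaf 298 1814 (.cons 323 (.leaf 346 2006 (.cons 324 (.leaf 300 1820 (.leaf 348 2012 .nil)) .nil)) .nil)) .nil)) .nil)) (.cons 202 (.leaf 226 1623 (.cons 204 (.leaf 228 1629 (.cons 322 (.leaf 298 1814 (.cons 323 (.leaf 346 2006 (.cons 324 (.leaf 300 1820 (.leaf 348 2012 .nil)) .nil)) .nil)) .nil)) .nil)) .nil)))) (.cons 226 t64 (.cons 226 (.cons 323 (.leaf 250 1815 (.cons 346 (.leaf 322 2006 (.cons 347 (.leaf 370 2198 (.cons 348 (.leaf 324 2012 (.leaf 372 2204 .nil)) .nil)) .nil)) .nil)) (.cons 227 (.leaf 202 1623 (.cons 204 (.leaf 228 1629 (.cons 203 (.leaf 180 1437 (.cons 224 (.leaf 225 1601 (.cons 205 (.leaf 206 1618 (.cons 298 (.leaf 322 1814 (.cons 297 (.cons 271 (.leaf 270 2160 (.leaf 296 2171 .nil)) (.cons 248 (.leaf 200 1604 (.cons 321 (.leaf 296 1796 (.leaf 345 1991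 .nil)) .nil)) (.cons 248 (.leaf 200 1604 (.cons 321 (.leaf 345 1991 (.leaf 249 1799 .nil)) .nil)) .nil))) .nil)) .nil)) .nil)) .nil)) .nil)) .nil)) (.cons 202 (.leaf 227 1623 (.cons 250 (.leaf 178 1428 (.leaf 323 1815 .nil)) .nil)) .nil))) (.cons 227 t63 (.cons 298 (.cons 297 (.leaf 300 2179 (.cons 271 (.leaf 270 2160 (.leaf 296 2171 .nil)) .nil)) (.cons 322 (.leaf 227 1814 (.cons 346 (.leaf 323 2006 (.leaf 370 2197 .nil)) .nil)) .nil)) .nil))))))))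
noncomputable def t72 : T := .cons 201 (.leaf 296 1606 (.cons 176 (.leaf 200 1415 (.cons 177 (.leaf 248 1414 (.leaf 152 1223 .nil)) .nil)) .nil)) (.cons 297 (.cons 200 (.leaf 224 1607 (.cons 296 (.leaf 320 1798 (.cons 322 (.leaf 298 1804 (.cons 321 (.leaf 226 1805 (.leaf 346 1996 .nil)) .nil)) .nil)) .nil)) (.cons 200 (.leaf 224 1607 (.cons 296 (.leaf 320 1798 (.cons 322 (.leaf 298 1804 (.cons 321 (.leaf 346 1996 (.cons 345 (.leaf 248 1991 (.leaf 369 2183 .nil)) .nil)) .nil)) .nil)) .nil)) (.cons 226 (.leaf 202 1613 (.leaf 321 1805 .nil)) (.cons 200 (.leaf 224 1607 (.cons 226 (.leaf 202 1613 (.cons 296 (.leaf 320 1798 (.cons 298 (.leaf 322 1804 (.cons 299 (.leaf 323 1815 (.leaf 300 2179 .nil)) .nil)) .nil)) .nil)) .nil)) .nil)))) (.cons 297 (.cons 200 (.leaf 224 1607 (.cons 176 (.leaf 201 1415 (.cons 322 (.leaf 298 1804 (.cons 321 (.leaf 226 1805 (.leaf 346 1996 .nil)) .nil)) .nil))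 .nil)) (.cons 200 (.leaf 224 1607 (.cons 176 (.leaf 201 1415 (.cons 322 (.leaf 298 1804 (.cons 321 (.leaf 346 1996 (.cons 344 (.leaf 320 1990 (.cons 345 (.leaf 248 1991 (.leaf 368 2182 .nil)) .nil)) .nil)) .nil)) .nil)) .nil)) (.cons 226 (.leaf 202 1613 (.leaf 321 1805 .nil)) (.cons 200 (.leaf 224 1607 (.cons 176 (.leaf 201 1415 (.cons 226 (.leaf 202 1613 (.cons 298 (.leaf 322 1804 (.cons 299 (.leaf 323 1815 (.leaf 300 2179 .nil)) .nil)) .nil)) .nil)) .nil)) .nil)))) (.cons 201 (.leaf 296 1606 (.cons 176 (.leaf 200 1415 (.cons 177 (.leaf 152 1223 (.cons 178 (.leaf 202 1421 (.leaf 154 1229 .nil)) .nil)) .nil)) .nil)) (.cons 296 (.leaf 201 1606 (.cons 320 (.leaf 248 1797 (.leaf 344 1989 .nil)) .nil)) .nil))))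
noncomputable def t73 : T := .cons 201 (.leaf 296 1606 (.cons 177 (.leaf 248 1414 (.cons 178 (.leaf 202 1421 (.leaf 154 1229 .nil)) .nil)) .nil)) (.cons 297 (.cons 202 (.leaf 226 1613 (.cons 296 (.leaf 320 1798 (.cons 298 (.leaf 322 1804 (.cons 271 (.leaf 270 2160 (.leaf 299 2171 .nil)) .nil)) .nil)) .nil)) (.cons 224 (.leaf 200 1607 (.cons 202 (.leaf 226 1613 (.cons 321 (.leaf 248 1799 (.cons 346 (.leaf 322 1996 (.cons 345 (.leaf 370 2188 (.cons 368 (.leaf 344 2182 (.cons 369 (.leaf 296 2183 (.leaf 392 2374 .nil)) .nil)) .nil)) .nil)) .nil)) .nil)) .nil)) (.cons 224 (.leaf 200 1607 (.cons 202 (.leaf 226 1613 (.cons 321 (.leaf 248 1799 (.cons 344 (.leaf 320 1990 (.cons 345 (.leaf 368 2182 (.cons 346 (.leaf 322 1996 (.leaf 370 2188 .nil)) .nil)) .nil)) .nil)) .nil)) .nil)) (.cons 202 (.leaf 226 1613 (.cons 224 (.leaf 200 1607 (.cons 320 (.leaf 296 1798 (.cons 321 (.leaf 248 1799 (.leaf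 344 1990 .nil)) .nil)) .nil)) .nil)) (.cons 320 (.leaf 296 1798 (.cons 224 (.leaf 200 1607 (.cons 321 (.leaf 248 1799 (.leaf 344 1990 .nil)) .nil)) .nil)) .nil))))) (.cons 297 (.cons 202 (.leaf 226 1613 (.cons 178 (.leaf 201 1421 (.cons 322 (.leaf 298 1804 (.cons 321 (.leaf 346 1996 (.cons 344 (.leaf 320 1990 (.cons 345 (.leaf 248 1991 (.leaf 368 2182 .nil)) .nil)) .nil)) .nil)) .nil)) .nil)) (.cons 200 (.leaf 224 1607 (.cons 201 (.leaf 176 1415 (.cons 202 (.leaf 178 1421 (.leaf 226 1613 .nil)) .nil)) .nil)) (.cons 200 (.leaf 224 1607 (.cons 176 (.leaf 201 1415 (.cons 322 (.leaf 298 1804 (.cons 321 (.leaf 346 1996 (.cons 345 (.leaf 248 1991 (.cons 344 (.leaf 320 1990 (.leaf 368 2182 .nil)) .nil)) .nil)) .nil)) .nil)) .nil)) (.cons 224 (.leaf 200 1607 (.cons 202 (.leaf 226 1613 (.cons 321 (.leaf 248 1799 (.cons 344 (.leaf 320 1990 (.cons 345 (.leaf 368 2182 (.cons 346 (.leaf 322 1996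 (.leaf 370 2188 .nil)) .nil)) .nil)) .nil)) .nil)) .nil)) .nil)))) (.cons 296 (.leaf 201 1606 (.cons 320 (.leaf 344 1989 (.leaf 297 1798 .nil)) .nil)) .nil)))
noncomputable def t74 : T := .cons 250 (.leaf 252 1986 (.cons 271 (.leaf 248 1978 (.leaf 270 1969 .nil)) .nil)) (.cons 225 t73 (.cons 250 (.leaf 252 1986 (.cons 271 (.leaf 270 1969 (.cons 225 (.cons 201 (.leaf 296 1606 (.cons 176 (.leaf 200 1415 (.cons 177 (.leaf 152 1223 (.cons 178 (.leaf 202 1421 (.leaf 154 1229 .nil)) .nil)) .nil)) .nil)) (.cons 297 (.cons 320 (.leaf 296 1798 (.cons 200 (.leaf 224 1607 (.cons 321 (.leaf 226 1805 (.leaf 344 1990 .nil)) .nil)) .nil)) (.cons 320 (.leaf 296 1798 (.cons 200 (.leaf 224 1607 (.cons 321 (.leaf 344 1990 (.cons 322 (.leaf 298 1804 (.leaf 346 1996 .nil)) .nil)) .nil)) .nil)) (.cons 226 (.leaf 202 1613 (.cons 298 (.leaf 322 1804 (.cons 299 (.leaf 323 1815 (.leaf 296 2171 .nil)) .nil))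 .nil)) (.cons 226 (.leaf 202 1613 (.leaf 321 1805 .nil)) .nil)))) (.cons 224 (.cons 223 (.leaf 226 1784 (.leaf 222 1776 .nil)) (.cons 200 (.leaf 297 1607 (.cons 176 (.leaf 201 1415 (.leaf 152 1220 .nil)) .nil)) .nil)) (.cons 296 (.leaf 201 1606 (.cons 320 (.leaf 344 1989 (.leaf 297 1798 .nil)) .nil)) .nil)))) .nil)) .nil)) (.cons 250 (.leaf 252 1986 (.cons 225 t72 .nil)) .nil)))
noncomputable def t75 : T := .cons 227 (.leaf 204 1629 (.cons 226 (.leaf 202 1623 (.cons 298 (.leaf 322 1814 (.cons 225 (.cons 252 (.leaf 323 1821 (.leaf 224 1792 .nil)) (.cons 200 (.leaf 201 1603 (.cons 224 (.leaf 199 1595 (.cons 248 (.leaf 297 1604 (.leaf 249 1794 .nil)) .nil)) .nil)) (.cons 252 (.leaf 323 1821 (.leaf 253 1800 .nil)) .nil))) .nil)) .nil)) .nil)) (.cons 323 (.leaf 252 1821 (.cons 346 (.leaf 322 2006 (.cons 347 (.leaf 370 2198 (.cons 348 (.leaf 324 2012 (.leaf 372 2204 .nil)) .nil)) .nil))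 .nil)) (.cons 227 (.leaf 204 1629 (.cons 226 (.leaf 202 1623 (.cons 298 (.leaf 322 1814 (.cons 225 (.cons 200 (.leaf 201 1603 (.cons 224 (.leaf 252 1792 (.leaf 199 1595 .nil)) .nil)) (.cons 200 (.leaf 201 1603 (.cons 224 (.leaf 199 1595 (.cons 248 (.leaf 297 1604 (.leaf 249 1794 .nil)) .nil)) .nil)) (.cons 253 (.leaf 252 1800 (.cons 201 (.leaf 200 1603 (.cons 249 (.leaf 296 1606 (.leaf 248 1794 .nil)) .nil)) .nil)) (.cons 252 (.leaf 224 1792 (.leaf 253 1800 .nil)) .nil)))) .nil)) .nil)) .nil)) (.cons 227 (.leaf 204 1629 (.cons 226 (.leaf 202 1623 (.cons 298 (.leaf 322 1814 (.cons 225 (.cons 248 (.leaf 249 1794 (.cons 224 (.leaf 247 1786 (.cons 200 (.leaf 297 1604 (.leaf 201 1603 .nil)) .nil)) .nil)) (.cons 200 (.leaf 201 1603 (.cons 224 (.leaf 199 1595 (.cons 297 (.leaf 249 1607 (.cons 271 (.leaf 270 2160 (.leaf 296 2171 .nil)) .nil)) .nil)) .nil)) (.cons 200 (.leaf 201 1603 (.cons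 224 (.leaf 199 1595 (.cons 248 (.leaf 297 1604 (.leaf 247 1786 .nil)) .nil)) .nil)) (.cons 248 (.leaf 249 1794 (.cons 224 (.leaf 247 1786 (.cons 296 (.leaf 201 1605 (.cons 297 (.leaf 321 1796 (.leaf 271 2171 .nil)) .nil)) .nil)) .nil)) (.cons 248 (.leaf 249 1794 (.cons 224 (.leaf 247 1786 (.cons 200 (.leaf 297 1604 (.leaf 199 1595 .nil)) .nil)) .nil)) (.cons 249 (.leaf 248 1794 (.cons 296 (.leaf 201 1606 (.cons 297 (.leaf 271 2171 (.leaf 320 1798 .nil)) .nil)) .nil)) (.cons 248 (.leaf 249 1794 (.cons 200 (.leaf 201 1603 (.cons 224 (.leaf 199 1595 (.leaf 247 1786 .nil)) .nil)) .nil)) .nil))))))) .nil)) .nil)) .nil)) (.cons 227 (.leaf 204 1629 (.cons 226 (.leaf 202 1623 (.cons 252 (.leaf 323 1821 (.cons 225 (.leaf 224 1792 (.leaf 253 1800 .nil)) .nil)) .nil)) .nil)) .nil))))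
noncomputable def t76 : T := .cons 228 (.leaf 204 1629 (.cons 323 (.leaf 252 1821 (.cons 324 (.leaf 300 1820 (.leaf 348 2012 .nil)) .nil)) .nil)) (.cons 300 (.leaf 324 1820 (.cons 297 (.leaf 298 2179 (.cons 226 (.leaf 202 1623 (.cons 224 (.cons 248 (.leaf 200 1604 (.cons 225 (.leaf 252 1792 (.leaf 247 1786 .nil)) .nil)) (.cons 225 (.leaf 252 1792 (.cons 200 (.leaf 249 1607 (.leaf 199 1595 .nil)) .nil)) (.cons 248 (.leaf 200 1604 (.cons 321 (.leaf 296 1796 (.leaf 345 1991 .nil)) .nil)) (.cons 225 (.leaf 252 1792 (.cons 203 (.leaf 204 1601 (.cons 248 (.leaf 247 1786 (.cons 321 (.leaf 296 1796 (.leaf 345 1991 .nil)) .nil)) .nil)) .nil)) .nil)))) .nil)) .nil)) .nil)) (.cons 300 (.leaf 324 1820 (.cons 297 (.leaf 298 2179 (.cons 226 (.leaf 202 1623 (.cons 224 (.cons 248 (.leaf 200 1604 (.cons 225 (.leaf 252 1792 (.leaf 247 1786 .nil)) .nil)) (.cons 225 (.leaf 252 1792 (.cons 200 (.leaf 249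 1607 (.leaf 199 1595 .nil)) .nil)) (.cons 248 (.leaf 200 1604 (.cons 321 (.leaf 296 1796 (.leaf 345 1991 .nil)) .nil)) (.cons 225 (.leaf 252 1792 (.cons 248 (.leaf 247 1786 (.cons 201 (.leaf 296 1605 (.cons 177 (.leaf 249 1414 (.leaf 153 1222 .nil)) .nil)) .nil)) .nil)) .nil)))) .nil)) .nil)) .nil)) (.cons 228 (.leaf 204 1629 (.cons 226 (.leaf 202 1623 (.cons 252 (.leaf 323 1821 (.cons 225 (.leaf 224 1792 (.leaf 253 1800 .nil)) .nil)) .nil)) .nil)) (.cons 202 (.leaf 226 1623 (.cons 203 (.leaf 178 1431 (.cons 204 (.leaf 180 1437 (.leaf 228 1629 .nil)) .nil)) .nil)) .nil))))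
noncomputable def t77 : T := .cons 228 (.leaf 204 1629 (.cons 323 (.leaf 252 1821 (.cons 324 (.leaf 300 1820 (.leaf 348 2012 .nil)) .nil)) .nil)) (.cons 202 (.leaf 226 1623 (.cons 203 (.leaf 178 1431 (.cons 324 (.leaf 300 1820 (.cons 323 (.leaf 348 2012 (.cons 322 (.leaf 346 2006 (.cons 296 (.cons 321 (.leaf 297 2371 (.cons 344 (.leaf 345 2562 (.cons 320 (.leaf 249 1989 (.leaf 343 2554 .nil)) .nil)) .nil)) (.cons 201 (.cons 204 (.leaf 180 1437 (.cons 225 (.leaf 249 1606 (.leaf 224 1602 .nil)) .nil)) (.cons 225 (.leaf 249 1606 (.cons 224 (.leaf 248 1605 (.cons 223 (.leaf 200 1594 (.leaf 222 1585 .nil)) .nil)) .nil)) (.cons 180 (.leaf 204 1437 (.cons 179 (.leaf 156 1245 (.leaf 200 1409 .nil)) .nil)) .nil))) (.cons 321 (.leaf 297 2371 (.cons 320 (.cons 344 (.leaf 345 2562 (.leaf 343 2554 .nil)) (.cons 248 (.leaf 345 1988 (.cons 223 (.leaf 247 1791 (.cons 224 (.leaf 199 1599 (.cons 201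 (.leaf 225 1605 (.leaf 200 1594 .nil)) .nil)) .nil)) .nil)) (.cons 343 (.leaf 344 2554 (.cons 319 (.leaf 248 1982 (.leaf 342 2546 .nil)) .nil)) .nil))) .nil)) .nil))) .nil)) .nil)) .nil)) .nil)) .nil)) (.cons 324 (.leaf 300 1820 (.cons 323 (.leaf 348 2012 (.cons 346 (.leaf 322 2006 (.cons 347 (.leaf 370 2198 (.cons 344 (.leaf 345 2561 (.cons 226 (.leaf 202 1623 (.cons 225 (.cons 252 (.leaf 228 1821 (.leaf 224 1792 .nil)) (.cons 249 (.cons 296 (.leaf 201 1606 (.leaf 320 1989 .nil)) (.cons 228 (.leaf 248 1794 (.cons 200 (.leaf 201 1603 (.cons 224 (.leaf 297 1607 (.leaf 199 1595 .nil)) .nil)) .nil)) (.cons 248 (.leaf 228 1794 (.cons 247 (.leaf 224 1786 (.leaf 246 1777 .nil)) .nil)) .nil))) (.cons 228 (.leaf 252 1821 (.cons 201 (.leaf 200 1603 (.cons 249 (.leaf 296 1606 (.leaf 248 1794 .nil)) .nil)) .nil)) (.cons 224 (.leaf 252 1792 (.cons 199 (.leaf 200 1595 (.cons 223 (.leaf 198 1587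 (.cons 248 (.leaf 296 1599 (.leaf 247 1786 .nil)) .nil)) .nil)) .nil)) .nil)))) .nil)) .nil)) .nil)) .nil)) .nil)) .nil)) (.cons 228 (.leaf 204 1629 (.cons 226 (.leaf 202 1623 (.cons 252 (.leaf 323 1821 (.cons 225 (.leaf 224 1792 (.leaf 253 1800 .nil)) .nil)) .nil)) .nil)) (.cons 204 (.leaf 228 1629 (.cons 202 (.leaf 226 1623 (.cons 203 (.leaf 178 1431 (.leaf 180 1437 .nil)) .nil)) .nil)) .nil))))
noncomputable def t78 : T := .cons 298 (.leaf 300 2179 (.cons 271 (.leaf 270 2160 (.leaf 296 2171 .nil)) .nil)) (.cons 345 (.cons 347 (.leaf 370 2198 (.cons 248 (.leaf 321 1991 (.cons 200 (.leaf 224 1604 (.cons 344 (.leaf 324 2561 (.cons 319 (.leaf 320 2555 (.cons 343 (.leaf 318 2547 (.cons 367 (.leaf 366 2738 (.leaf 368 2746 .nil)) .nil)) .nil)) .nil)) .nil)) .nil)) .nil)) (.cons 347 (.leaf 370 2198 (.cons 344 (.leaf 324 2561 (.cons 319 (.leaf 320 2555 (.cons 343 (.leaf 318 2547 (.cons 367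 (.leaf 366 2738 (.leaf 368 2746 .nil)) .nil)) .nil)) .nil)) .nil)) (.cons 321 (.leaf 248 1991 (.cons 296 (.leaf 369 2183 (.cons 344 (.leaf 368 2182 (.cons 320 (.leaf 249 1989 (.cons 319 (.leaf 318 2544 (.leaf 347 2555 .nil)) .nil)) .nil)) .nil)) .nil)) (.cons 321 (.leaf 248 1991 (.leaf 370 2188 .nil)) .nil)))) (.cons 298 (.leaf 300 2179 (.cons 271 (.leaf 270 2160 (.cons 345 (.cons 347 (.leaf 370 2198 (.cons 248 (.leaf 321 1991 (.cons 344 (.leaf 324 2561 (.cons 319 (.leaf 320 2555 (.cons 343 (.leaf 318 2547 (.cons 367 (.leaf 366 2738 (.leaf 368 2746 .nil)) .nil)) .nil)) .nil)) .nil)) .nil)) (.cons 347 (.leaf 370 2198 (.cons 344 (.leaf 324 2561 (.cons 319 (.leaf 320 2555 (.cons 343 (.leaf 318 2547 (.cons 367 (.leaf 366 2738 (.leaf 368 2746 .nil)) .nil)) .nil)) .nil)) .nil)) (.cons 321 (.leaf 248 1991 (.cons 344 (.leaf 368 2182 (.cons 320 (.leaf 249 1990 (.cons 319 (.leaf 318 2544 (.leaf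 347 2555 .nil)) .nil)) .nil)) .nil)) (.cons 321 (.leaf 248 1991 (.leaf 370 2188 .nil)) .nil)))) .nil)) .nil)) .nil))
noncomputable def t79 : T := .cons 346 (.leaf 322 2006 (.cons 228 (.leaf 252 1821 (.cons 347 (.leaf 370 2198 (.cons 348 (.leaf 324 2012 (.leaf 372 2204 .nil)) .nil)) .nil)) .nil)) (.cons 324 (.leaf 348 2012 (.cons 252 (.leaf 228 1821 (.cons 297 (.cons 298 (.leaf 300 2179 (.leaf 296 2368 .nil)) (.cons 321 (.cons 248 (.leaf 345 1991 (.cons 224 (.leaf 200 1604 (.leaf 296 1796 .nil)) .nil)) (.cons 322 (.leaf 296 2371 (.cons 300 (.leaf 320 2369 (.leaf 301 2377 .nil)) .nil)) (.cons 248 (.leaf 345 1991 (.cons 224 (.leaf 200 1604 (.leaf 249 1799 .nil)) .nil)) .nil))) (.cons 298 (.leaf 300 2179 (.cons 325 (.leaf 326 2387 (.leaf 322 2379 .nil)) .nil)) (.cons 298 (.leaf 296 2368 (.cons 325 (.leaf 326 2387 (.leaf 322 2379 .nil)) .nil)) .nil)))) .nil)) .nil)) (.cons 346 (.leaf 322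 2006 (.cons 252 (.leaf 228 1821 (.cons 297 t78 .nil)) .nil)) (.cons 346 (.leaf 322 2006 (.cons 347 (.leaf 370 2198 (.cons 348 (.leaf 372 2204 (.cons 252 (.leaf 228 1821 (.cons 345 (.cons 320 (.leaf 321 2563 (.cons 344 (.leaf 319 2555 (.cons 296 (.leaf 249 1989 (.leaf 369 2180 .nil)) .nil)) .nil)) (.cons 368 (.leaf 369 2754 (.cons 344 (.leaf 367 2746 (.cons 297 (.leaf 321 2182 (.cons 298 (.leaf 300 2179 (.cons 271 (.leaf 270 2160 (.leaf 296 2171 .nil)) .nil)) .nil)) .nil)) .nil)) (.cons 368 (.leaf 369 2754 (.cons 344 (.leaf 367 2746 (.cons 320 (.leaf 319 2555 (.cons 296 (.leaf 249 1989 (.leaf 297 2181 .nil)) .nil)) .nil)) .nil)) (.cons 320 (.leaf 321 2563 (.cons 344 (.leaf 319 2555 (.cons 296 (.leaf 249 1989 (.cons 367 (.leaf 343 2174 (.leaf 368 2746 .nil)) .nil)) .nil)) .nil)) (.cons 321 (.leaf 320 2563 (.cons 297 (.leaf 248 1991 (.cons 369 (.leaf 296 2183 (.leaf 368 2754 .nil)) .nil))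 .nil)) (.cons 321 (.leaf 320 2563 (.cons 297 (.leaf 248 1991 (.cons 368 (.leaf 344 2182 (.leaf 369 2754 .nil)) .nil)) .nil)) .nil)))))) .nil)) .nil)) .nil)) .nil)) (.cons 348 (.leaf 324 2012 (.cons 347 (.leaf 372 2204 (.cons 346 (.leaf 370 2198 (.cons 252 (.leaf 228 1821 (.cons 345 (.cons 321 (.leaf 320 2563 (.cons 297 (.leaf 248 1991 (.cons 368 (.leaf 344 2182 (.leaf 369 2754 .nil)) .nil)) .nil)) (.cons 368 (.leaf 369 2754 (.cons 344 (.leaf 367 2746 (.cons 297 (.leaf 321 2182 (.cons 298 (.leaf 300 2179 (.cons 271 (.leaf 270 2160 (.leaf 296 2171 .nil)) .nil)) .nil)) .nil)) .nil)) (.cons 368 (.leaf 369 2754 (.cons 344 (.leaf 367 2746 (.cons 320 (.leaf 319 2555 (.cons 296 (.leaf 249 1989 (.leaf 297 2181 .nil)) .nil)) .nil)) .nil)) (.cons 320 (.leaf 321 2563 (.cons 344 (.leaf 319 2555 (.cons 296 (.leaf 249 1989 (.leaf 369 2180 .nil)) .nil)) .nil)) (.cons 320 (.leaf 321 2563 (.cons 344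 (.leaf 319 2555 (.cons 296 (.leaf 249 1989 (.cons 367 (.leaf 343 2174 (.leaf 368 2746 .nil)) .nil)) .nil)) .nil)) (.cons 321 (.leaf 320 2563 (.cons 297 (.leaf 248 1991 (.cons 369 (.leaf 296 2183 (.leaf 368 2754 .nil)) .nil)) .nil)) .nil)))))) .nil)) .nil)) .nil)) .nil)) (.cons 348 (.leaf 324 2012 (.cons 347 (.leaf 372 2204 (.cons 346 (.leaf 322 2006 (.leaf 370 2198 .nil)) .nil)) .nil)) .nil)))))
noncomputable def t80 : T := .cons 227 (.leaf 204 1629 (.cons 226 (.leaf 202 1623 (.cons 298 (.leaf 322 1814 (.cons 225 (.cons 200 (.leaf 201 1603 (.cons 224 (.leaf 252 1792 (.leaf 199 1595 .nil)) .nil)) (.cons 200 (.leaf 201 1603 (.cons 224 (.leaf 199 1595 (.cons 248 (.leaf 297 1604 (.leaf 249 1794 .nil)) .nil)) .nil)) (.cons 252 (.leaf 323 1821 (.leaf 253 1800 .nil)) .nil))) .nil)) .nil)) .nil)) (.cons 323 (.leaf 252 1821 (.cons 346 (.leaf 322 2006 (.cons 347 (.leaf 370 2198 (.cons 348 (.leaf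 324 2012 (.leaf 372 2204 .nil)) .nil)) .nil)) .nil)) (.cons 227 (.leaf 204 1629 (.cons 226 (.leaf 202 1623 (.cons 298 (.leaf 322 1814 (.cons 225 (.cons 248 (.leaf 249 1794 (.cons 224 (.leaf 252 1792 (.leaf 247 1786 .nil)) .nil)) (.cons 248 (.leaf 249 1794 (.cons 224 (.leaf 247 1786 (.cons 200 (.leaf 297 1604 (.leaf 201 1603 .nil)) .nil)) .nil)) (.cons 300 (.leaf 324 1820 (.leaf 297 2179 .nil)) .nil))) .nil)) .nil)) .nil)) (.cons 227 (.leaf 204 1629 (.cons 226 (.leaf 202 1623 (.cons 298 (.leaf 322 1814 (.cons 225 (.cons 300 (.leaf 324 1820 (.leaf 297 2179 .nil)) (.cons 200 (.leaf 201 1603 (.cons 224 (.leaf 199 1595 (.cons 248 (.leaf 297 1604 (.leaf 249 1794 .nil)) .nil)) .nil)) (.cons 200 (.leaf 201 1603 (.cons 224 (.leaf 199 1595 (.cons 248 (.leaf 249 1794 (.leaf 247 1786 .nil)) .nil)) .nil)) .nil))) .nil)) .nil)) .nil)) (.cons 227 (.leaf 204 1629 (.cons 226 (.leaf 202 1623 (.cons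 252 (.leaf 323 1821 (.cons 225 (.leaf 224 1792 (.leaf 253 1800 .nil)) .nil)) .nil)) .nil)) .nil))))
noncomputable def t81 : T := .cons 228 t80 (.cons 323 t79 (.cons 227 (.cons 202 (.leaf 226 1623 (.cons 178 (.leaf 203 1431 (.cons 298 (.leaf 322 1814 (.cons 300 (.leaf 324 1820 (.leaf 297 2179 .nil)) .nil)) .nil)) .nil)) (.cons 204 (.leaf 228 1629 (.cons 202 (.leaf 226 1623 (.cons 203 (.leaf 178 1431 (.leaf 180 1437 .nil)) .nil)) .nil)) (.cons 204 (.leaf 228 1629 (.cons 180 (.leaf 203 1437 (.cons 298 (.leaf 322 1814 (.cons 300 (.leaf 324 1820 (.leaf 297 2179 .nil)) .nil)) .nil)) .nil)) (.cons 202 (.leaf 226 1623 (.cons 204 (.leaf 228 1629 (.cons 298 (.leaf 322 1814 (.cons 300 (.leaf 324 1820 (.leaf 297 2179 .nil)) .nil)) .nil)) .nil)) .nil)))) (.cons 227 t77 (.cons 227 (.cons 202 (.leaf 226 1623 (.cons 178 (.leaf 203 1431 (.cons 228 (.leaf 204 1629 (.cons 323 (.leaf 252 1821 (.cons 324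 (.leaf 300 1820 (.leaf 348 2012 .nil)) .nil)) .nil)) .nil)) .nil)) (.cons 202 (.leaf 226 1623 (.cons 178 (.leaf 203 1431 (.cons 322 (.leaf 298 1814 (.cons 323 (.leaf 346 2006 (.cons 324 (.leaf 300 1820 (.leaf 348 2012 .nil)) .nil)) .nil)) .nil)) .nil)) (.cons 228 (.leaf 204 1629 (.cons 323 (.leaf 252 1821 (.cons 324 (.leaf 300 1820 (.leaf 348 2012 .nil)) .nil)) .nil)) (.cons 204 (.leaf 228 1629 (.cons 202 (.leaf 226 1623 (.cons 203 (.leaf 178 1431 (.leaf 180 1437 .nil)) .nil)) .nil)) .nil)))) (.cons 227 t76 (.cons 228 t75 (.cons 227 (.cons 204 (.leaf 228 1629 (.cons 180 (.leaf 203 1437 (.cons 298 (.leaf 322 1814 (.cons 297 (.leaf 300 2179 (.cons 271 (.leaf 270 2160 (.leaf 296 2171 .nil)) .nil)) .nil)) .nil)) .nil)) (.cons 202 (.leaf 226 1623 (.cons 178 (.leaf 203 1431 (.cons 298 (.leaf 322 1814 (.cons 297 (.leaf 300 2179 (.cons 271 (.leaf 270 2160 (.leaf 296 2171 .nil)) .nil)) .nil))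 .nil)) .nil)) (.cons 202 (.leaf 226 1623 (.cons 203 (.leaf 178 1431 (.cons 204 (.leaf 180 1437 (.leaf 228 1629 .nil)) .nil)) .nil)) (.cons 298 (.leaf 322 1814 (.cons 202 (.leaf 226 1623 (.cons 204 (.leaf 228 1629 (.cons 297 (.leaf 300 2179 (.cons 271 (.leaf 270 2160 (.leaf 296 2171 .nil)) .nil)) .nil)) .nil)) .nil)) .nil)))) (.cons 298 (.cons 297 (.leaf 300 2179 (.cons 271 (.leaf 270 2160 (.leaf 296 2171 .nil)) .nil)) (.cons 322 (.leaf 227 1814 (.cons 346 (.leaf 323 2006 (.leaf 370 2197 .nil)) .nil)) .nil)) .nil))))))))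
noncomputable def t82 : T := .cons 201 (.leaf 296 1606 (.cons 177 (.leaf 248 1414 (.cons 178 (.leaf 202 1421 (.leaf 154 1229 .nil)) .nil)) .nil)) (.cons 297 (.cons 224 (.leaf 200 1607 (.cons 226 (.leaf 202 1613 (.cons 223 (.leaf 250 1784 (.cons 198 (.leaf 199 1587 (.cons 222 (.leaf 197 1579 (.cons 248 (.leaf 321 1799 (.leaf 221 1768 .nil)) .nil)) .nil)) .nil)) .nil)) .nil)) (.cons 320 (.leaf 296 1798 (.cons 202 (.leaf 226 1613 (.cons 321 (.leaf 344 1990 (.cons 322 (.leaf 298 1804 (.leaf 346 1996 .nil)) .nil)) .nil)) .nil)) (.cons 320 (.leaf 296 1798 (.cons 224 (.leaf 200 1607 (.cons 321 (.leaf 248 1799 (.leaf 344 1990 .nil)) .nil)) .nil)) (.cons 224 (.leaf 200 1607 (.cons 226 (.leaf 202 1613 (.cons 223 (.leaf 250 1784 (.cons 198 (.leaf 199 1587 (.cons 222 (.leaf 197 1579 (.cons 246 (.leaf 245 1770 (.leaf 247 1778 .nil)) .nil)) .nil)) .nil)) .nil)) .nil)) .nil)))) (.cons 297 (.cons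 202 (.leaf 226 1613 (.cons 178 (.leaf 201 1421 (.cons 322 (.leaf 298 1804 (.cons 321 (.leaf 346 1996 (.cons 344 (.leaf 320 1990 (.cons 345 (.leaf 248 1991 (.leaf 368 2182 .nil)) .nil)) .nil)) .nil)) .nil)) .nil)) (.cons 226 (.leaf 202 1613 (.cons 200 (.leaf 224 1607 (.cons 176 (.leaf 201 1415 (.cons 321 (.leaf 250 1805 (.cons 322 (.leaf 298 1804 (.leaf 346 1996 .nil)) .nil)) .nil)) .nil)) .nil)) (.cons 200 (.leaf 224 1607 (.cons 176 (.leaf 201 1415 (.cons 322 (.leaf 298 1804 (.cons 321 (.leaf 346 1996 (.cons 345 (.leaf 248 1991 (.cons 344 (.leaf 320 1990 (.leaf 368 2182 .nil)) .nil)) .nil)) .nil)) .nil)) .nil)) (.cons 200 (.leaf 224 1607 (.cons 201 (.leaf 176 1415 (.cons 202 (.leaf 178 1421 (.leaf 226 1613 .nil)) .nil)) .nil)) (.cons 224 (.leaf 200 1607 (.cons 226 (.leaf 202 1613 (.cons 223 (.leaf 250 1784 (.cons 198 (.leaf 199 1587 (.cons 222 (.leaf 197 1579 (.cons 248 (.leaf 321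 1799 (.leaf 221 1768 .nil)) .nil)) .nil)) .nil)) .nil)) .nil)) .nil))))) (.cons 201 (.leaf 296 1606 (.cons 202 (.leaf 178 1421 (.cons 200 (.leaf 176 1415 (.cons 224 (.leaf 297 1607 (.cons 203 (.leaf 204 1602 (.leaf 223 1594 .nil)) .nil)) .nil)) .nil)) .nil)) (.cons 296 (.leaf 201 1606 (.cons 320 (.leaf 248 1797 (.leaf 344 1989 .nil)) .nil)) .nil))))
noncomputable def t83 : T := .cons 296 (.leaf 201 1606 (.cons 320 (.leaf 248 1797 (.leaf 344 1989 .nil)) .nil)) (.cons 297 (.cons 224 (.leaf 200 1607 (.cons 226 (.leaf 202 1613 (.cons 227 (.leaf 252 1792 (.cons 248 (.leaf 321 1799 (.leaf 228 1794 .nil)) .nil)) .nil)) .nil)) (.cons 320 (.leaf 296 1798 (.cons 202 (.leaf 226 1613 (.cons 321 (.leaf 344 1990 (.cons 322 (.leaf 298 1804 (.leaf 346 1996 .nil)) .nil)) .nil)) .nil)) (.cons 320 (.leaf 296 1798 (.cons 224 (.leaf 200 1607 (.cons 321 (.leaf 248 1799 (.leaf 344 1990 .nil)) .nil)) .nil))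 (.cons 224 (.leaf 200 1607 (.cons 226 (.leaf 202 1613 (.cons 227 (.leaf 252 1792 (.cons 248 (.leaf 228 1794 (.leaf 247 1786 .nil)) .nil)) .nil)) .nil)) .nil)))) (.cons 297 (.cons 202 (.leaf 226 1613 (.cons 178 (.leaf 201 1421 (.cons 322 (.leaf 298 1804 (.cons 321 (.leaf 346 1996 (.cons 344 (.leaf 320 1990 (.cons 345 (.leaf 248 1991 (.leaf 368 2182 .nil)) .nil)) .nil)) .nil)) .nil)) .nil)) (.cons 200 (.leaf 224 1607 (.cons 176 (.leaf 201 1415 (.cons 322 (.leaf 298 1804 (.cons 321 (.leaf 346 1996 (.cons 345 (.leaf 248 1991 (.cons 344 (.leaf 320 1990 (.leaf 368 2182 .nil)) .nil)) .nil)) .nil)) .nil)) .nil)) (.cons 200 (.leaf 224 1607 (.cons 201 (.leaf 176 1415 (.cons 202 (.leaf 178 1421 (.leaf 226 1613 .nil)) .nil)) .nil)) (.cons 224 (.leaf 200 1607 (.cons 226 (.leaf 202 1613 (.cons 227 (.leaf 252 1792 (.cons 248 (.leaf 321 1799 (.leaf 228 1794 .nil)) .nil)) .nil)) .nil)) .nil)))) (.cons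 296 (.leaf 201 1606 (.cons 320 (.leaf 344 1989 (.leaf 297 1798 .nil)) .nil)) (.cons 201 (.leaf 296 1606 (.cons 177 (.leaf 248 1414 (.cons 178 (.leaf 202 1421 (.leaf 154 1229 .nil)) .nil)) .nil)) .nil))))
noncomputable def t84 : T := .cons 298 (.leaf 300 2179 (.cons 324 (.leaf 348 2012 (.leaf 296 2368 .nil)) .nil)) (.cons 348 (.leaf 324 2012 (.cons 347 (.leaf 372 2204 (.cons 346 (.leaf 370 2198 (.cons 345 (.cons 321 (.leaf 248 1991 (.leaf 320 2563 .nil)) (.cons 368 (.leaf 369 2754 (.cons 344 (.leaf 367 2746 (.cons 320 (.leaf 296 2181 (.leaf 319 2555 .nil)) .nil)) .nil)) (.cons 321 (.leaf 248 1991 (.cons 368 (.leaf 344 2182 (.leaf 369 2754 .nil)) .nil)) .nil))) .nil)) .nil)) .nil)) (.cons 298 (.leaf 300 2179 (.cons 271 (.leaf 270 2160 (.leaf 296 2171 .nil)) .nil)) (.cons 250 (.leaf 226 1815 (.cons 300 (.leaf 298 2179 (.cons 347 (.cons 348 (.leaf 324 2012 (.leaf 372 2204 .nil)) (.cons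 370 (.leaf 346 2198 (.cons 371 (.leaf 394 2390 (.cons 395 (.leaf 324 2397 (.cons 396 (.leaf 372 2396 (.leaf 420 2588 .nil)) .nil)) .nil)) .nil)) (.cons 370 (.leaf 346 2198 (.cons 371 (.leaf 394 2390 (.cons 372 (.leaf 348 2204 (.leaf 396 2396 .nil)) .nil)) .nil)) (.cons 324 (.leaf 348 2012 (.cons 370 (.leaf 346 2198 (.cons 371 (.leaf 394 2390 (.leaf 395 2397 .nil)) .nil)) .nil)) .nil)))) .nil)) .nil)) .nil)))
noncomputable def t85 : T := .cons 278 (.leaf 277 2000 (.cons 254 (.leaf 279 2008 (.cons 302 (.leaf 301 2386 (.cons 326 (.leaf 229 1839 (.cons 231 (.leaf 230 1817 (.leaf 255 1845 .nil)) .nil)) .nil)) .nil)) .nil)) (.cons 298 (.leaf 297 2179 (.cons 230 (.leaf 229 1809 (.cons 301 (.leaf 302 2386 (.cons 254 (.leaf 231 1817 (.cons 325 (.leaf 326 2384 (.leaf 277 1837 .nil)) .nil)) .nil)) .nil)) .nil)) (.cons 278 (.leaf 277 2000 (.cons 230 (.leaf 229 1809 (.cons 254 (.leaf 231 1817 (.leaf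 279 2008 .nil)) .nil)) .nil)) (.cons 278 (.leaf 277 2000 (.cons 254 (.leaf 279 2008 (.cons 302 (.leaf 301 2386 (.cons 326 (.leaf 229 1839 (.cons 231 (.leaf 255 1845 (.cons 298 (.leaf 297 2179 (.cons 325 (.leaf 324 2387 (.leaf 349 2030 .nil)) .nil)) .nil)) .nil)) .nil)) .nil)) .nil)) (.cons 230 (.leaf 229 1809 (.cons 254 (.leaf 231 1817 (.cons 278 (.leaf 279 2008 (.cons 302 (.leaf 301 2386 (.cons 327 (.leaf 303 1844 (.cons 326 (.leaf 351 2036 (.cons 325 (.leaf 324 2395 (.leaf 349 2030 .nil)) .nil)) .nil)) .nil)) .nil)) .nil)) .nil)) (.cons 278 (.leaf 277 2000 (.cons 254 (.leaf 279 2008 (.cons 230 (.leaf 231 1817 (.cons 302 (.leaf 301 2386 (.cons 327 (.leaf 303 1844 (.cons 326 (.leaf 351 2036 (.cons 325 (.leaf 324 2395 (.leaf 349 2030 .nil)) .nil)) .nil)) .nil)) .nil)) .nil)) .nil)) (.cons 298 (.leaf 297 2179 (.cons 229 (.leaf 230 1809 (.cons 301 (.leaf 302 2386 (.cons 277 (.leaf 278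 2000 (.leaf 324 1830 .nil)) .nil)) .nil)) .nil)) .nil))))))
noncomputable def t86 : T := .leaf 348 2012 (.cons 252 (.leaf 228 1821 (.cons 250 (.leaf 226 1815 (.cons 297 (.cons 321 (.cons 322 (.leaf 296 2371 (.cons 300 (.leaf 298 2179 (.leaf 320 2369 .nil)) .nil)) (.cons 322 (.leaf 296 2371 (.cons 300 (.leaf 320 2369 (.leaf 301 2377 .nil)) .nil)) (.cons 248 (.leaf 345 1991 (.cons 200 (.leaf 224 1604 (.cons 298 (.leaf 300 2179 (.cons 325 (.leaf 326 2387 (.leaf 322 2379 .nil)) .nil)) .nil)) .nil)) (.cons 248 (.leaf 345 1991 (.cons 224 (.leaf 200 1604 (.leaf 296 1796 .nil)) .nil)) .nil)))) (.cons 321 (.cons 322 (.leaf 296 2371 (.cons 300 (.leaf 320 2369 (.leaf 301 2377 .nil)) .nil)) (.cons 248 (.leaf 345 1991 (.cons 224 (.leaf 200 1604 (.leaf 296 1796 .nil)) .nil)) (.cons 345 (.leaf 248 1991 (.cons 344 (.leaf 368 2182 (.leaf 322 2562 .nil)) .nil)) .nil))) (.cons 298 (.leaf 300 2179 (.cons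 325 (.leaf 326 2387 (.leaf 322 2379 .nil)) .nil)) (.cons 298 (.leaf 296 2368 (.cons 325 (.leaf 326 2387 (.leaf 322 2379 .nil)) .nil)) (.cons 298 (.leaf 300 2179 (.leaf 296 2368 .nil)) .nil))))) .nil)) .nil)) .nil)
noncomputable def t87 : T := .cons 252 (.leaf 228 1821 (.cons 297 (.cons 298 (.leaf 300 2179 (.cons 324 (.leaf 348 2012 (.leaf 296 2368 .nil)) .nil)) (.cons 348 (.leaf 324 2012 (.cons 347 (.leaf 372 2204 (.cons 346 (.leaf 322 2006 (.leaf 370 2198 .nil)) .nil)) .nil)) (.cons 298 (.leaf 300 2179 (.cons 271 (.leaf 270 2160 (.leaf 296 2171 .nil)) .nil)) .nil))) .nil)) (.cons 324 t86 (.cons 322 (.leaf 346 2006 (.cons 252 (.leaf 228 1821 (.cons 250 (.leaf 226 1815 (.cons 300 (.cons 321 (.leaf 320 2369 (.cons 301 (.leaf 298 2378 (.leaf 302 2386 .nil)) .nil)) (.cons 253 t85 (.cons 297 (.leaf 298 2179 (.cons 321 (.leaf 320 2369 (.cons 248 (.leaf 345 1991 (.cons 224 (.leaf 200 1604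 (.leaf 296 1796 .nil)) .nil)) .nil)) .nil)) (.cons 321 (.leaf 320 2369 (.cons 301 (.leaf 302 2386 (.leaf 324 2377 .nil)) .nil)) .nil)))) .nil)) .nil)) .nil)) (.cons 252 (.leaf 228 1821 (.cons 250 (.leaf 226 1815 (.cons 347 (.cons 322 (.leaf 346 2006 (.cons 372 (.leaf 348 2204 (.cons 371 (.leaf 396 2396 (.cons 298 (.leaf 395 2391 (.cons 297 (.leaf 300 2179 (.cons 271 (.leaf 270 2160 (.leaf 296 2171 .nil)) .nil)) .nil)) .nil)) .nil)) .nil)) (.cons 372 (.leaf 348 2204 (.cons 371 (.leaf 396 2396 (.cons 394 (.leaf 370 2390 (.cons 395 (.leaf 418 2582 (.cons 298 (.leaf 322 2391 (.cons 297 (.leaf 300 2179 (.cons 271 (.leaf 270 2160 (.leaf 296 2171 .nil)) .nil)) .nil)) .nil)) .nil)) .nil)) .nil)) (.cons 370 (.leaf 346 2198 (.cons 371 (.leaf 394 2390 (.cons 372 (.leaf 348 2204 (.leaf 396 2396 .nil)) .nil)) .nil)) (.cons 346 (.leaf 322 2006 (.leaf 370 2198 .nil)) .nil)))) .nil)) .nil)) (.cons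 252 (.leaf 228 1821 (.cons 297 t84 .nil)) (.cons 346 (.leaf 322 2006 (.cons 226 (.leaf 250 1815 (.cons 347 (.leaf 370 2198 (.cons 348 (.leaf 324 2012 (.leaf 372 2204 .nil)) .nil)) .nil)) .nil)) .nil)))))
noncomputable def t88 : T := .cons 323 (.cons 226 (.leaf 250 1815 (.cons 346 (.leaf 322 2006 (.cons 347 (.leaf 370 2198 (.cons 227 (.leaf 202 1623 (.cons 228 (.leaf 204 1629 (.leaf 252 1821 .nil)) .nil)) .nil)) .nil)) .nil)) (.cons 226 (.leaf 250 1815 (.cons 227 (.leaf 202 1623 (.cons 228 (.leaf 204 1629 (.leaf 252 1821 .nil)) .nil)) .nil)) (.cons 324 (.leaf 348 2012 (.cons 300 (.leaf 227 1820 (.cons 322 (.leaf 346 2006 (.cons 301 (.leaf 302 2386 (.leaf 321 2377 .nil)) .nil)) .nil)) .nil)) (.cons 226 (.leaf 250 1815 (.cons 346 (.leaf 322 2006 (.cons 347 (.leaf 370 2198 (.cons 348 (.leaf 324 2012 (.leaf 372 2204 .nil)) .nil)) .nil)) .nil)) .nil)))) (.cons 227 (.cons 202 (.leaf 226 1623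 (.cons 203 (.leaf 178 1431 (.cons 204 (.leaf 180 1437 (.leaf 228 1629 .nil)) .nil)) .nil)) (.cons 298 (.leaf 322 1814 (.cons 300 (.leaf 324 1820 (.leaf 297 2179 .nil)) .nil)) .nil)) (.cons 323 t87 (.cons 323 (.cons 228 (.leaf 252 1821 (.cons 227 (.leaf 204 1629 (.cons 322 (.leaf 298 1814 (.leaf 346 2006 .nil)) .nil)) .nil)) (.cons 226 (.leaf 250 1815 (.cons 227 (.leaf 202 1623 (.cons 228 (.leaf 204 1629 (.leaf 252 1821 .nil)) .nil)) .nil)) (.cons 346 (.leaf 322 2006 (.cons 226 (.leaf 250 1815 (.cons 347 (.leaf 370 2198 (.cons 348 (.leaf 324 2012 (.leaf 372 2204 .nil)) .nil)) .nil)) .nil)) .nil))) (.cons 227 (.cons 202 (.leaf 226 1623 (.cons 203 (.leaf 178 1431 (.cons 204 (.leaf 180 1437 (.leaf 228 1629 .nil)) .nil)) .nil)) (.cons 228 (.leaf 204 1629 (.cons 252 (.leaf 323 1821 (.cons 298 (.leaf 322 1814 (.cons 297 (.leaf 300 2179 (.cons 271 (.leaf 270 2160 (.leaf 296 2171 .nil)) .nil))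 .nil)) .nil)) .nil)) (.cons 226 (.leaf 202 1623 (.cons 250 (.leaf 323 1815 (.cons 298 (.leaf 322 1814 (.cons 297 (.leaf 300 2179 (.cons 271 (.leaf 270 2160 (.leaf 296 2171 .nil)) .nil)) .nil)) .nil)) .nil)) .nil))) (.cons 227 (.cons 228 (.leaf 204 1629 (.cons 323 (.leaf 252 1821 (.cons 324 (.leaf 300 1820 (.leaf 348 2012 .nil)) .nil)) .nil)) (.cons 226 (.leaf 202 1623 (.cons 323 (.leaf 250 1815 (.cons 324 (.leaf 300 1820 (.leaf 348 2012 .nil)) .nil)) .nil)) (.cons 202 (.leaf 226 1623 (.cons 203 (.leaf 178 1431 (.cons 204 (.leaf 180 1437 (.leaf 228 1629 .nil)) .nil)) .nil)) .nil))) (.cons 323 (.cons 228 (.leaf 252 1821 (.cons 227 (.leaf 204 1629 (.cons 324 (.leaf 300 1820 (.leaf 348 2012 .nil)) .nil)) .nil)) (.cons 322 (.leaf 346 2006 (.cons 227 (.leaf 298 1814 (.cons 228 (.leaf 204 1629 (.leaf 252 1821 .nil)) .nil)) .nil)) (.cons 322 (.leaf 346 2006 (.cons 227 (.leaf 298 1814 (.cons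 324 (.leaf 300 1820 (.leaf 348 2012 .nil)) .nil)) .nil)) (.cons 228 (.leaf 252 1821 (.cons 346 (.leaf 322 2006 (.cons 347 (.leaf 370 2198 (.cons 348 (.leaf 324 2012 (.leaf 372 2204 .nil)) .nil)) .nil)) .nil)) .nil)))) (.cons 323 (.cons 226 (.leaf 250 1815 (.cons 227 (.leaf 202 1623 (.cons 324 (.leaf 300 1820 (.leaf 348 2012 .nil)) .nil)) .nil)) (.cons 226 (.leaf 250 1815 (.cons 227 (.leaf 202 1623 (.cons 322 (.leaf 298 1814 (.leaf 346 2006 .nil)) .nil)) .nil)) (.cons 324 (.leaf 348 2012 (.cons 300 (.leaf 227 1820 (.cons 322 (.leaf 346 2006 (.cons 301 (.leaf 302 2386 (.leaf 321 2377 .nil)) .nil)) .nil)) .nil)) (.cons 226 (.leaf 250 1815 (.cons 346 (.leaf 322 2006 (.cons 347 (.leaf 370 2198 (.cons 348 (.leaf 324 2012 (.leaf 372 2204 .nil)) .nil)) .nil)) .nil)) .nil)))) .nil)))))))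
noncomputable def t89 : T := .cons 299 t88 (.cons 249 (.cons 250 (.leaf 252 1986 (.cons 271 (.leaf 248 1978 (.leaf 270 1969 .nil)) .nil)) (.cons 225 t83 (.cons 225 t82 (.cons 250 (.leaf 252 1986 (.cons 271 (.leaf 270 1969 (.cons 225 (.cons 201 (.leaf 296 1606 (.cons 176 (.leaf 200 1415 (.cons 177 (.leaf 152 1223 (.cons 178 (.leaf 202 1421 (.leaf 154 1229 .nil)) .nil)) .nil)) .nil)) (.cons 297 (.cons 226 (.leaf 202 1613 (.leaf 321 1805 .nil)) (.cons 320 (.leaf 296 1798 (.cons 200 (.leaf 224 1607 (.cons 321 (.leaf 344 1990 (.cons 322 (.leaf 298 1804 (.leaf 346 1996 .nil)) .nil)) .nil)) .nil)) (.cons 224 (.leaf 200 1607 (.cons 223 (.leaf 226 1784 (.leaf 222 1776 .nil)) .nil)) .nil))) (.cons 224 (.cons 223 (.leaf 226 1784 (.leaf 222 1776 .nil)) (.cons 200 (.leaf 297 1607 (.cons 176 (.leaf 201 1415 (.leaf 152 1220 .nil)) .nil)) .nil)) (.cons 296 (.leaf 201 1606 (.cons 320 (.leaf 344 1989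 (.leaf 297 1798 .nil)) .nil)) .nil)))) .nil)) .nil)) .nil)))) (.cons 299 t81 (.cons 249 t74 (.cons 299 t71 (.cons 299 t62 (.cons 249 (.cons 250 (.leaf 252 1986 (.cons 271 (.leaf 248 1978 (.leaf 270 1969 .nil)) .nil)) (.cons 227 t61 (.cons 271 t56 (.cons 250 (.leaf 252 1986 (.cons 271 (.leaf 270 1969 (.cons 299 (.cons 226 (.leaf 323 1815 (.cons 202 (.leaf 178 1428 (.leaf 227 1623 .nil)) .nil)) (.cons 227 t54 (.cons 227 t53 (.cons 323 (.leaf 226 1815 (.cons 346 (.leaf 322 2006 (.cons 347 (.leaf 370 2198 (.cons 348 (.leaf 324 2012 (.leaf 372 2204 .nil)) .nil)) .nil)) .nil)) .nil)))) .nil)) .nil)) .nil)))) (.cons 249 t52 (.cons 249 t44 (.cons 249 t41 (.cons 250 (.cons 249 (.leaf 252 1986 (.cons 248 (.leaf 271 1978 (.cons 223 (.leaf 224 1787 (.cons 227 (.leaf 228 1793 (.cons 247 (.leaf 222 1779 (.leaf 226 1785 .nil)) .nil)) .nil)) .nil)) .nil)) (.cons 299 t37 (.cons 226 (.cons 202 (.leaf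 178 1428 (.cons 299 (.leaf 227 1623 (.leaf 323 1815 .nil)) .nil)) (.cons 299 (.leaf 323 1815 (.cons 227 (.cons 298 (.leaf 322 1814 (.cons 300 (.leaf 324 1820 (.leaf 297 2179 .nil)) .nil)) (.cons 228 (.leaf 204 1629 (.cons 229 (.leaf 230 1810 (.leaf 249 1802 .nil)) .nil)) .nil)) .nil)) (.cons 202 (.leaf 178 1428 (.cons 249 (.cons 297 (.leaf 225 1613 (.leaf 321 1805 .nil)) (.cons 271 (.leaf 248 1978 (.leaf 270 1969 .nil)) .nil)) .nil)) .nil))) (.cons 249 (.leaf 252 1986 (.cons 248 (.leaf 271 1978 (.cons 224 (.leaf 223 1787 (.cons 200 (.leaf 297 1604 (.leaf 176 1412 .nil)) .nil)) .nil)) .nil)) .nil)))) (.cons 249 (.cons 250 (.leaf 252 1986 (.cons 271 (.leaf 248 1978 (.leaf 270 1969 .nil)) .nil)) (.cons 297 t36 (.cons 297 t35 (.cons 250 (.leaf 252 1986 (.cons 271 (.leaf 270 1969 (.cons 297 t34 .nil)) .nil)) (.cons 250 (.leaf 252 1986 (.cons 248 (.cons 223 (.leaf 224 1787 (.cons 227 (.leaf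 228 1793 (.cons 247 (.leaf 222 1779 (.leaf 226 1785 .nil)) .nil)) .nil)) (.cons 227 (.leaf 228 1793 (.cons 226 (.leaf 247 1785 (.cons 297 (.leaf 321 1805 (.cons 299 (.leaf 323 1815 (.cons 298 (.leaf 322 1814 (.leaf 300 2179 .nil)) .nil)) .nil)) .nil)) .nil)) (.cons 224 (.leaf 223 1787 (.cons 200 (.leaf 297 1604 (.leaf 176 1412 .nil)) .nil)) .nil))) .nil)) .nil))))) (.cons 249 (.cons 225 t33 (.cons 225 t32 (.cons 296 t31 (.cons 250 (.leaf 252 1986 (.cons 271 (.leaf 270 1969 (.cons 226 (.cons 202 (.leaf 178 1428 (.cons 225 (.leaf 297 1613 (.cons 299 (.leaf 227 1623 (.leaf 323 1815 .nil)) .nil)) .nil)) (.cons 297 (.leaf 321 1805 (.cons 225 (.cons 296 (.leaf 201 1606 (.leaf 320 1798 .nil)) (.cons 224 (.leaf 200 1607 (.leaf 223 1784 .nil)) .nil)) .nil)) (.cons 202 (.leaf 178 1428 (.cons 299 (.leaf 227 1623 (.leaf 323 1815 .nil)) .nil)) .nil))) .nil)) .nil)) (.cons 250 (.leaf 252 1986 (.cons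 271 (.leaf 248 1978 (.leaf 270 1969 .nil)) .nil)) .nil))))) (.cons 249 t30 (.cons 249 t28 .nil))))))))))))))
noncomputable def t90 : T := .cons 226 (.cons 202 (.leaf 178 1428 (.cons 225 (.leaf 297 1613 (.cons 201 (.leaf 296 1606 (.cons 153 (.leaf 177 1228 (.cons 200 (.leaf 176 1415 (.cons 199 (.leaf 198 1584 (.leaf 227 1592 .nil)) .nil)) .nil)) .nil)) .nil)) .nil)) (.cons 297 (.leaf 321 1805 (.cons 299 (.leaf 323 1815 (.cons 298 (.leaf 300 2179 (.cons 225 (.leaf 322 1804 (.cons 271 (.leaf 248 1978 (.leaf 270 2160 .nil)) .nil)) .nil)) .nil)) .nil)) (.cons 202 (.leaf 178 1428 (.cons 299 (.leaf 227 1623 (.leaf 323 1815 .nil)) .nil)) .nil))) (.cons 226 (.cons 202 (.leaf 178 1428 (.cons 225 (.leaf 297 1613 (.cons 201 (.leaf 296 1606 (.cons 153 (.leaf 177 1228 (.cons 200 (.leaf 176 1415 (.cons 199 (.leaf 198 1584 (.leaf 227 1592 .nil)) .nil)) .nil)) .nil)) .nil)) .nil)) (.cons 297 (.leaf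 321 1805 (.cons 299 (.leaf 323 1815 (.cons 298 (.leaf 300 2179 (.cons 225 (.leaf 322 1804 (.cons 224 (.leaf 200 1607 (.leaf 223 1784 .nil)) .nil)) .nil)) .nil)) .nil)) (.cons 202 (.leaf 178 1428 (.cons 299 (.leaf 227 1623 (.leaf 323 1815 .nil)) .nil)) .nil))) (.cons 271 (.leaf 248 1978 (.leaf 270 1969 .nil)) .nil))
noncomputable def t91 : T := .cons 201 (.leaf 296 1606 (.cons 177 (.leaf 248 1414 (.cons 178 (.leaf 202 1421 (.leaf 154 1229 .nil)) .nil)) .nil)) (.cons 297 (.cons 320 (.leaf 296 1798 (.cons 200 (.leaf 224 1607 (.cons 321 (.leaf 344 1990 (.cons 322 (.leaf 298 1804 (.leaf 346 1996 .nil)) .nil)) .nil)) .nil)) (.cons 224 (.leaf 200 1607 (.cons 226 (.leaf 202 1613 (.cons 227 (.leaf 252 1792 (.cons 248 (.leaf 321 1799 (.leaf 228 1794 .nil)) .nil)) .nil)) .nil)) (.cons 202 (.leaf 226 1613 (.cons 296 (.leaf 320 1798 (.cons 298 (.leaf 322 1804 (.cons 271 (.leaf 270 2160 (.leaf 299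 2171 .nil)) .nil)) .nil)) .nil)) .nil))) (.cons 201 (.cons 177 (.leaf 248 1414 (.cons 178 (.leaf 202 1421 (.leaf 154 1229 .nil)) .nil)) (.cons 176 (.leaf 200 1415 (.cons 202 (.leaf 178 1421 (.cons 226 (.leaf 297 1613 (.cons 227 (.leaf 299 1623 (.cons 228 (.leaf 248 1794 (.leaf 229 1611 .nil)) .nil)) .nil)) .nil)) .nil)) (.cons 176 (.leaf 200 1415 (.cons 177 (.leaf 248 1414 (.leaf 152 1223 .nil)) .nil)) (.cons 202 (.leaf 178 1421 (.cons 200 (.leaf 176 1415 (.cons 224 (.leaf 297 1607 (.cons 203 (.leaf 204 1602 (.leaf 223 1594 .nil)) .nil)) .nil)) .nil)) .nil)))) (.cons 296 (.leaf 201 1606 (.cons 320 (.leaf 344 1989 (.leaf 297 1798 .nil)) .nil)) .nil)))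
noncomputable def t92 : T := .cons 250 (.leaf 252 1986 (.cons 226 (.cons 202 (.leaf 178 1428 (.cons 225 (.leaf 297 1613 (.cons 201 (.leaf 296 1606 (.cons 153 (.leaf 177 1228 (.cons 200 (.leaf 176 1415 (.cons 199 (.leaf 198 1584 (.leaf 227 1592 .nil)) .nil)) .nil)) .nil)) .nil)) .nil)) (.cons 297 (.leaf 321 1805 (.cons 299 (.leaf 323 1815 (.cons 298 (.leaf 300 2179 (.cons 225 (.leaf 322 1804 (.cons 271 (.leaf 248 1978 (.leaf 270 2160 .nil)) .nil)) .nil)) .nil)) .nil)) (.cons 202 (.leaf 178 1428 (.cons 299 (.leaf 227 1623 (.leaf 323 1815 .nil)) .nil)) .nil))) .nil)) (.cons 225 t91 (.cons 250 t90 (.cons 250 (.leaf 252 1986 (.cons 271 (.leaf 270 1969 (.cons 226 (.cons 202 (.leaf 178 1428 (.cons 225 (.leaf 297 1613 (.cons 299 (.leaf 227 1623 (.leaf 323 1815 .nil)) .nil)) .nil)) (.cons 297 (.leaf 321 1805 (.cons 299 (.leaf 323 1815 (.cons 298 (.leaf 296 2171 (.leaf 300 2179 .nil)) .nil))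 .nil)) (.cons 202 (.leaf 178 1428 (.cons 225 (.leaf 297 1613 (.cons 201 (.leaf 296 1606 (.cons 153 (.leaf 177 1228 (.cons 200 (.leaf 176 1415 (.cons 199 (.leaf 198 1584 (.leaf 227 1592 .nil)) .nil)) .nil)) .nil)) .nil)) .nil)) (.cons 202 (.leaf 178 1428 (.cons 299 (.leaf 227 1623 (.leaf 323 1815 .nil)) .nil)) .nil)))) .nil)) .nil)) (.cons 250 (.leaf 252 1986 (.cons 271 (.leaf 248 1978 (.leaf 270 1969 .nil)) .nil)) (.cons 250 (.leaf 252 1986 (.cons 226 (.cons 202 (.leaf 178 1428 (.cons 225 (.leaf 297 1613 (.cons 201 (.leaf 296 1606 (.cons 153 (.leaf 177 1228 (.cons 200 (.leaf 176 1415 (.cons 199 (.leaf 198 1584 (.leaf 227 1592 .nil)) .nil)) .nil)) .nil)) .nil)) .nil)) (.cons 297 (.leaf 321 1805 (.cons 299 (.leaf 323 1815 (.cons 298 (.leaf 300 2179 (.cons 225 (.leaf 322 1804 (.cons 224 (.leaf 200 1607 (.leaf 223 1784 .nil)) .nil)) .nil)) .nil)) .nil)) (.cons 202 (.leaf 178 1428 (.cons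 299 (.leaf 227 1623 (.leaf 323 1815 .nil)) .nil)) .nil))) .nil)) .nil)))))
noncomputable def t93 : T := .cons 344 (.cons 247 (.leaf 271 1983 (.cons 273 (.leaf 249 1989 (.cons 274 (.leaf 295 2170 (.cons 251 (.leaf 252 1985 (.cons 299 (.leaf 300 2176 (.cons 367 (.leaf 343 2174 (.cons 368 (.leaf 297 2181 (.leaf 391 2366 .nil)) .nil)) .nil)) .nil)) .nil)) .nil)) .nil)) (.cons 247 (.leaf 271 1983 (.cons 367 (.leaf 343 2174 (.cons 368 (.leaf 391 2366 (.cons 369 (.leaf 345 2180 (.leaf 393 2372 .nil)) .nil)) .nil)) .nil)) (.cons 273 (.leaf 249 1989 (.cons 368 (.leaf 297 2181 (.cons 367 (.leaf 343 2174 (.leaf 391 2366 .nil)) .nil)) .nil)) (.cons 247 (.leaf 271 1983 (.cons 273 (.leaf 249 1989 (.cons 274 (.leaf 295 2170 (.cons 251 (.leaf 252 1985 (.cons 297 (.leaf 368 2181 (.cons 299 (.leaf 300 2176 (.cons 298 (.leaf 319 2362 (.cons 227 (.leaf 203 1622 (.leaf 322 1814 .nil)) .nil)) .nil)) .nil))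 .nil)) .nil)) .nil)) .nil)) (.cons 271 (.leaf 247 1983 (.cons 273 (.leaf 249 1989 (.cons 274 (.leaf 295 2170 (.cons 299 (.leaf 300 2176 (.leaf 298 2168 .nil)) .nil)) .nil)) .nil)) .nil))))) (.cons 248 (.cons 225 (.leaf 249 1797 (.cons 247 (.leaf 223 1791 (.cons 344 (.leaf 271 1983 (.cons 345 (.leaf 321 1988 (.leaf 369 2180 .nil)) .nil)) .nil)) .nil)) (.cons 343 (.leaf 319 1982 (.cons 344 (.leaf 367 2174 (.cons 345 (.leaf 321 1988 (.leaf 369 2180 .nil)) .nil)) .nil)) (.cons 225 (.leaf 249 1797 (.cons 247 (.leaf 223 1791 (.cons 343 (.leaf 319 1982 (.cons 344 (.leaf 271 1983 (.leaf 367 2174 .nil)) .nil)) .nil)) .nil)) (.cons 247 (.leaf 223 1791 (.cons 249 (.leaf 225 1797 (.cons 250 (.leaf 274 1976 (.cons 226 (.leaf 227 1785 (.cons 271 (.leaf 251 1978 (.leaf 270 1970 .nil)) .nil)) .nil)) .nil)) .nil)) .nil)))) (.cons 248 (.cons 223 (.leaf 247 1791 (.cons 249 (.leaf 225 1797 (.cons 343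 (.leaf 319 1982 (.cons 344 (.leaf 273 1989 (.leaf 367 2174 .nil)) .nil)) .nil)) .nil)) (.cons 345 (.leaf 321 1988 (.cons 223 (.leaf 247 1791 (.cons 343 (.leaf 319 1982 (.cons 344 (.leaf 367 2174 (.leaf 369 2180 .nil)) .nil)) .nil)) .nil)) (.cons 249 (.leaf 225 1797 (.cons 273 (.leaf 344 1989 (.cons 274 (.leaf 295 2170 (.cons 251 (.leaf 252 1985 (.cons 299 (.leaf 300 2176 (.cons 319 (.leaf 343 1982 (.cons 298 (.leaf 297 2362 (.cons 322 (.leaf 227 1814 (.leaf 346 2005 .nil)) .nil)) .nil)) .nil)) .nil)) .nil)) .nil)) .nil)) (.cons 247 (.leaf 223 1791 (.cons 249 (.leaf 225 1797 (.cons 274 (.leaf 250 1976 (.leaf 273 1979 .nil)) .nil)) .nil)) .nil)))) (.cons 344 (.cons 273 (.leaf 249 1989 (.cons 368 (.leaf 297 2181 (.cons 367 (.leaf 343 2174 (.leaf 391 2366 .nil)) .nil)) .nil)) (.cons 343 (.leaf 367 2174 (.cons 248 (.leaf 319 1982 (.cons 345 (.leaf 321 1988 (.leaf 369 2180 .nil)) .nil))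 .nil)) (.cons 249 (.leaf 273 1989 (.cons 248 (.leaf 225 1797 (.cons 345 (.leaf 321 1988 (.leaf 369 2180 .nil)) .nil)) .nil)) .nil))) (.cons 344 (.cons 247 (.leaf 271 1983 (.cons 248 (.leaf 223 1791 (.cons 345 (.leaf 321 1988 (.leaf 369 2180 .nil)) .nil)) .nil)) (.cons 273 (.leaf 249 1989 (.cons 274 (.leaf 295 2170 (.cons 247 (.leaf 248 1979 (.cons 251 (.leaf 252 1985 (.cons 297 (.leaf 368 2181 (.cons 299 (.leaf 300 2176 (.cons 298 (.leaf 319 2362 (.cons 227 (.leaf 203 1622 (.leaf 322 1814 .nil)) .nil)) .nil)) .nil)) .nil)) .nil)) .nil)) .nil)) (.cons 273 (.leaf 249 1989 (.cons 274 (.leaf 295 2170 (.cons 251 (.leaf 252 1985 (.cons 250 (.leaf 271 1977 (.cons 297 (.leaf 368 2181 (.cons 345 (.leaf 369 2180 (.leaf 321 1997 .nil)) .nil)) .nil)) .nil)) .nil)) .nil)) .nil))) (.cons 344 (.cons 247 (.leaf 271 1983 (.cons 223 (.leaf 248 1791 (.cons 273 (.leaf 249 1989 (.cons 274 (.leaf 295 2170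 (.cons 251 (.leaf 252 1985 (.cons 299 (.leaf 300 2176 (.cons 367 (.leaf 343 2174 (.cons 368 (.leaf 297 2181 (.leaf 391 2366 .nil)) .nil)) .nil)) .nil)) .nil)) .nil)) .nil)) .nil)) (.cons 247 (.leaf 271 1983 (.cons 248 (.leaf 223 1791 (.cons 345 (.leaf 321 1988 (.leaf 369 2180 .nil)) .nil)) .nil)) (.cons 273 (.leaf 249 1989 (.cons 274 (.leaf 295 2170 (.cons 247 (.leaf 248 1979 (.cons 251 (.leaf 252 1985 (.cons 299 (.leaf 300 2176 (.cons 367 (.leaf 343 2174 (.cons 368 (.leaf 297 2181 (.leaf 391 2366 .nil)) .nil)) .nil)) .nil)) .nil)) .nil)) .nil)) (.cons 273 (.leaf 249 1989 (.cons 274 (.leaf 295 2170 (.cons 251 (.leaf 252 1985 (.cons 250 (.leaf 271 1977 (.cons 297 (.leaf 368 2181 (.cons 345 (.leaf 369 2180 (.leaf 321 1997 .nil)) .nil)) .nil)) .nil)) .nil)) .nil)) .nil)))) (.cons 344 (.cons 247 (.leaf 271 1983 (.cons 248 (.leaf 223 1791 (.cons 345 (.leaf 321 1988 (.leaf 369 2180 .nil))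 .nil)) .nil)) (.cons 343 (.leaf 367 2174 (.cons 248 (.leaf 319 1982 (.cons 345 (.leaf 321 1988 (.leaf 369 2180 .nil)) .nil)) .nil)) (.cons 247 (.leaf 271 1983 (.cons 248 (.leaf 223 1791 (.cons 343 (.leaf 319 1982 (.leaf 367 2174 .nil)) .nil)) .nil)) (.cons 247 (.leaf 271 1983 (.cons 343 (.leaf 367 2174 (.cons 369 (.leaf 345 2180 (.cons 368 (.leaf 393 2372 (.cons 297 (.leaf 273 2181 (.cons 321 (.leaf 392 2373 (.cons 342 (.leaf 341 2728 (.cons 322 (.leaf 319 2546 (.leaf 323 2554 .nil)) .nil)) .nil)) .nil)) .nil)) .nil)) .nil)) .nil)) .nil)))) .nil))))))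
noncomputable def t94 : T := .cons 319 (.leaf 343 1982 (.cons 321 (.leaf 345 1988 (.cons 249 (.leaf 225 1797 (.cons 295 (.cons 273 (.leaf 274 2170 (.cons 322 (.leaf 323 2363 (.leaf 294 2355 .nil)) .nil)) (.cons 273 (.leaf 274 2170 (.cons 322 (.leaf 323 2363 (.cons 298 (.leaf 299 2361 (.cons 297 (.leaf 318 2353 (.leaf 346 1996 .nil)) .nil)) .nil)) .nil)) (.cons 274 (.leaf 273 2170 (.cons 294 (.leaf 293 2344 (.cons 297 (.leaf 298 2169 (.cons 318 (.leaf 317 2345 (.cons 270 (.leaf 269 2155 (.cons 246 (.leaf 222 1780 (.cons 342 (.leaf 341 2538 (.cons 247 (.leaf 250 1976 (.leaf 223 1781 .nil)) .nil)) .nil)) .nil)) .nil)) .nil)) .nil)) .nil)) (.cons 294 (.leaf 293 2344 (.leaf 322 2355 .nil)) .nil)))) .nil)) .nil)) .nil)) (.cons 319 (.leaf 343 1982 (.cons 321 (.leaf 345 1988 (.cons 249 (.leaf 225 1797 (.cons 295 (.cons 273 (.leaf 274 2170 (.cons 322 (.leaf 323 2363 (.leaf 294 2355 .nil)) .nil))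 (.cons 273 (.leaf 274 2170 (.cons 322 (.leaf 323 2363 (.cons 298 (.leaf 299 2361 (.cons 297 (.leaf 318 2353 (.leaf 346 1996 .nil)) .nil)) .nil)) .nil)) (.cons 274 (.leaf 273 2170 (.cons 294 (.leaf 293 2344 (.cons 297 (.leaf 298 2169 (.cons 318 (.leaf 317 2345 (.cons 270 (.leaf 269 2155 (.cons 246 (.leaf 222 1780 (.cons 342 (.leaf 341 2538 (.cons 366 (.leaf 390 2357 (.leaf 271 2165 .nil)) .nil)) .nil)) .nil)) .nil)) .nil)) .nil)) .nil)) (.cons 294 (.leaf 293 2344 (.leaf 322 2355 .nil)) .nil)))) .nil)) .nil)) .nil)) (.cons 319 (.leaf 343 1982 (.cons 321 (.leaf 345 1988 (.cons 247 (.leaf 223 1791 (.cons 318 (.cons 297 (.leaf 317 2345 (.leaf 298 2353 .nil)) (.cons 293 (.leaf 294 2347 (.cons 317 (.leaf 292 2339 (.cons 341 (.leaf 340 2530 (.leaf 342 2538 .nil)) .nil)) .nil)) (.cons 293 (.leaf 294 2347 (.cons 298 (.leaf 297 2353 (.cons 322 (.leaf 299 2361 (.cons 295 (.leaf 323 2363 (.cons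 342 (.leaf 341 2538 (.leaf 271 1974 .nil)) .nil)) .nil)) .nil)) .nil)) .nil))) .nil)) .nil)) .nil)) (.cons 247 (.leaf 223 1791 (.cons 249 (.leaf 225 1797 (.cons 274 (.leaf 250 1976 (.leaf 273 1979 .nil)) .nil)) .nil)) .nil)))
noncomputable def t95 : T := .cons 322 (.leaf 346 2005 (.cons 321 (.cons 320 (.leaf 323 2363 (.cons 319 (.leaf 299 2361 (.cons 343 (.leaf 248 1982 (.leaf 367 2173 .nil)) .nil)) .nil)) (.cons 250 (.leaf 227 1813 (.leaf 345 1998 .nil)) .nil)) .nil)) (.cons 227 (.leaf 203 1622 (.cons 299 (.cons 228 (.leaf 204 1629 (.cons 300 (.leaf 324 1820 (.cons 301 (.leaf 302 2195 (.cons 277 (.leaf 278 2193 (.cons 325 (.leaf 326 2384 (.cons 253 (.leaf 252 1831 (.cons 226 (.leaf 202 1623 (.cons 254 (.leaf 229 1808 (.leaf 230 1837 .nil)) .nil)) .nil)) .nil)) .nil)) .nil)) .nil)) .nil)) (.cons 228 (.leaf 204 1629 (.cons 252 (.leaf 323 1821 (.cons 253 (.leaf 254 2002 (.cons 300 (.leaf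 324 1820 (.cons 301 (.leaf 302 2195 (.cons 277 (.leaf 278 2193 (.leaf 325 1831 .nil)) .nil)) .nil)) .nil)) .nil)) .nil)) (.cons 226 (.leaf 202 1623 (.cons 323 (.leaf 250 1812 (.cons 324 (.leaf 300 1820 (.leaf 348 2012 .nil)) .nil)) .nil)) (.cons 226 (.leaf 202 1623 (.cons 228 (.leaf 204 1629 (.cons 252 (.leaf 323 1821 (.cons 253 (.leaf 254 2002 (.leaf 225 1800 .nil)) .nil)) .nil)) .nil)) .nil)))) .nil)) (.cons 322 (.leaf 346 2005 (.cons 321 (.cons 320 (.leaf 323 2363 (.cons 319 (.leaf 299 2361 (.cons 343 (.leaf 248 1982 (.leaf 367 2173 .nil)) .nil)) .nil)) (.cons 250 (.leaf 345 1998 (.cons 323 (.leaf 347 2004 (.cons 226 (.leaf 299 1812 (.cons 201 (.leaf 225 1615 (.cons 202 (.leaf 178 1428 (.leaf 177 1423 .nil)) .nil)) .nil)) .nil)) .nil)) (.cons 345 (.leaf 250 1998 (.cons 320 (.leaf 248 1988 (.cons 369 (.leaf 344 2180 (.leaf 393 2381 .nil)) .nil)) .nil)) .nil))) .nil)) (.cons 322 (.leaf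 346 2005 (.cons 227 (.leaf 203 1622 (.leaf 299 1814 .nil)) .nil)) (.cons 322 (.leaf 346 2005 (.cons 227 (.leaf 203 1622 (.leaf 250 1813 .nil)) .nil)) .nil))))
noncomputable def t96 : T := .cons 343 (.leaf 367 2173 (.cons 271 (.leaf 248 1981 (.cons 342 (.leaf 366 2166 (.cons 344 (.leaf 368 2172 (.cons 320 (.leaf 247 1980 (.leaf 249 1989 .nil)) .nil)) .nil)) .nil)) .nil)) (.cons 320 (.cons 321 (.leaf 322 2355 (.cons 345 (.leaf 248 1988 (.cons 318 (.leaf 346 2544 (.cons 316 (.leaf 317 2337 (.cons 342 (.leaf 341 2538 (.cons 271 (.leaf 247 1974 (.leaf 366 2165 .nil)) .nil)) .nil)) .nil)) .nil)) .nil)) (.cons 249 (.leaf 344 1989 (.cons 225 (.leaf 201 1606 (.leaf 248 1797 .nil)) .nil)) (.cons 344 (.leaf 249 1989 (.cons 368 (.leaf 271 2175 (.leaf 392 2367 .nil)) .nil)) .nil))) (.cons 343 (.leaf 367 2173 (.cons 271 (.leaf 248 1981 (.cons 342 (.leaf 366 2166 (.cons 318 (.leaf 247 1974 (.cons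 317 (.leaf 316 2337 (.cons 344 (.leaf 368 2172 (.leaf 345 2539 .nil)) .nil)) .nil)) .nil)) .nil)) .nil)) (.cons 343 (.leaf 367 2173 (.cons 320 (.leaf 248 1982 (.cons 321 (.leaf 322 2355 (.cons 344 (.leaf 249 1989 (.cons 341 (.leaf 342 2537 (.cons 345 (.leaf 369 2180 (.cons 318 (.leaf 317 2536 (.leaf 346 2544 .nil)) .nil)) .nil)) .nil)) .nil)) .nil)) .nil)) (.cons 343 (.leaf 367 2173 (.cons 248 (.leaf 271 1981 (.leaf 320 1982 .nil)) .nil)) (.cons 343 (.leaf 367 2173 (.cons 271 (.cons 342 (.leaf 366 2166 (.cons 344 (.leaf 368 2172 (.cons 320 (.leaf 247 1980 (.leaf 249 1989 .nil)) .nil)) .nil)) (.cons 342 (.leaf 366 2166 (.cons 247 (.leaf 318 1974 (.cons 223 (.leaf 199 1596 (.leaf 320 1788 .nil)) .nil)) .nil)) (.cons 344 (.leaf 368 2172 (.cons 320 (.leaf 247 1980 (.leaf 249 1989 .nil)) .nil)) (.cons 342 (.leaf 366 2166 (.cons 318 (.leaf 247 1974 (.cons 317 (.leaf 316 2337 (.cons 344 (.leaf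 368 2172 (.leaf 345 2539 .nil)) .nil)) .nil)) .nil)) (.cons 342 (.leaf 366 2166 (.cons 344 (.leaf 368 2172 (.cons 320 (.leaf 249 1989 (.cons 321 (.leaf 322 2546 (.leaf 341 2537 .nil)) .nil)) .nil)) .nil)) .nil))))) .nil)) .nil)))))
noncomputable def t97 : T := .cons 293 (.leaf 273 2153 (.cons 268 (.leaf 269 2147 (.cons 292 (.leaf 271 2145 (.leaf 267 2139 .nil)) .nil)) .nil)) (.cons 297 (.cons 269 (.leaf 270 2155 (.cons 318 (.leaf 317 2346 (.cons 321 (.leaf 322 2352 (.cons 345 (.leaf 369 2183 (.cons 320 (.leaf 248 1988 (.cons 319 (.leaf 298 2353 (.leaf 346 2544 .nil)) .nil)) .nil)) .nil)) .nil)) .nil)) (.cons 321 (.leaf 322 2352 (.cons 317 (.leaf 318 2346 (.cons 345 (.leaf 369 2183 (.cons 248 (.leaf 273 1991 (.leaf 320 1988 .nil)) .nil)) .nil)) .nil)) (.cons 270 (.leaf 269 2155 (.cons 271 (.leaf 298 2163 (.cons 318 (.leaf 317 2346 (.cons 247 (.leaf 223 1782 (.leaf 342 1973 .nil)) .nil))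 .nil)) .nil)) (.cons 270 (.leaf 269 2155 (.cons 271 (.leaf 298 2163 (.cons 321 (.leaf 322 2352 (.cons 345 (.leaf 369 2183 (.cons 248 (.leaf 273 1991 (.leaf 320 1988 .nil)) .nil)) .nil)) .nil)) .nil)) .nil)))) (.cons 293 (.cons 268 (.leaf 269 2147 (.cons 292 (.leaf 271 2145 (.leaf 267 2139 .nil)) .nil)) (.cons 268 (.leaf 269 2147 (.cons 317 (.leaf 316 2338 (.cons 297 (.leaf 318 2346 (.cons 321 (.leaf 320 2344 (.leaf 322 2352 .nil)) .nil)) .nil)) .nil)) (.cons 271 (.leaf 292 2145 (.cons 316 (.leaf 317 2338 (.cons 320 (.leaf 321 2344 (.cons 247 (.leaf 344 1983 (.leaf 223 1788 .nil)) .nil)) .nil)) .nil)) .nil))) (.cons 293 (.leaf 273 2153 (.cons 268 (.leaf 269 2147 (.cons 292 (.leaf 267 2139 (.cons 319 (.leaf 320 2336 (.cons 318 (.leaf 291 2328 (.cons 297 (.leaf 317 2346 (.leaf 298 2354 .nil)) .nil)) .nil)) .nil)) .nil)) .nil)) (.cons 293 (.leaf 273 2153 (.cons 271 (.leaf 292 2145 (.cons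 316 (.leaf 317 2338 (.cons 320 (.leaf 321 2344 (.cons 247 (.leaf 344 1983 (.leaf 223 1788 .nil)) .nil)) .nil)) .nil)) .nil)) .nil))))
noncomputable def t98 : T := .cons 294 (.cons 317 (.leaf 318 2346 (.cons 269 (.leaf 270 2155 (.cons 293 (.leaf 268 2147 (.leaf 316 2338 .nil)) .nil)) .nil)) (.cons 317 (.leaf 318 2346 (.cons 293 (.leaf 316 2338 (.cons 321 (.leaf 320 2344 (.leaf 322 2352 .nil)) .nil)) .nil)) (.cons 269 (.leaf 270 2155 (.cons 293 (.leaf 268 2147 (.cons 292 (.leaf 271 2145 (.cons 316 (.leaf 317 2338 (.leaf 315 2330 .nil)) .nil)) .nil)) .nil)) (.cons 298 (.leaf 274 2169 (.cons 270 (.leaf 269 2155 (.leaf 271 2163 .nil)) .nil)) .nil)))) (.cons 294 (.cons 269 (.leaf 270 2155 (.cons 293 (.leaf 268 2147 (.cons 292 (.leaf 271 2145 (.cons 315 (.leaf 316 2330 (.cons 291 (.leaf 314 2322 (.cons 319 (.leaf 320 2336 (.leaf 318 2328 .nil)) .nil)) .nil)) .nil)) .nil)) .nil)) (.cons 321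 (.leaf 322 2352 (.cons 293 (.leaf 320 2344 (.cons 317 (.leaf 316 2338 (.leaf 318 2346 .nil)) .nil)) .nil)) (.cons 321 (.leaf 322 2352 (.cons 269 (.leaf 270 2155 (.cons 293 (.leaf 268 2147 (.leaf 320 2344 .nil)) .nil)) .nil)) (.cons 321 (.leaf 322 2352 (.cons 269 (.leaf 270 2155 (.cons 318 (.leaf 317 2346 (.cons 345 (.leaf 369 2183 (.cons 320 (.leaf 248 1988 (.cons 319 (.leaf 346 2544 (.cons 342 (.leaf 341 2538 (.cons 366 (.leaf 271 2165 (.leaf 390 2357 .nil)) .nil)) .nil)) .nil)) .nil)) .nil)) .nil)) .nil)) (.cons 269 (.leaf 270 2155 (.cons 293 (.leaf 268 2147 (.cons 292 (.leaf 271 2145 (.cons 316 (.leaf 317 2338 (.leaf 315 2330 .nil)) .nil)) .nil)) .nil)) .nil))))) (.cons 298 (.leaf 274 2169 (.cons 318 (.leaf 319 2354 (.cons 294 (.leaf 317 2346 (.cons 269 (.leaf 270 2155 (.cons 293 (.leaf 268 2147 (.cons 321 (.leaf 320 2344 (.leaf 322 2352 .nil)) .nil)) .nil)) .nil)) .nil)) .nil))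 (.cons 298 (.leaf 274 2169 (.cons 271 (.leaf 299 2171 (.leaf 270 2163 .nil)) .nil)) (.cons 298 (.leaf 274 2169 (.cons 271 (.leaf 299 2171 (.cons 318 (.leaf 319 2354 (.cons 294 (.leaf 317 2346 (.cons 247 (.leaf 223 1782 (.cons 322 (.leaf 321 2352 (.leaf 323 2360 .nil)) .nil)) .nil)) .nil)) .nil)) .nil)) .nil))))
noncomputable def t99 : T := .cons 273 (.leaf 274 2170 (.cons 294 (.leaf 293 2153 (.cons 297 (.cons 269 (.leaf 270 2155 (.cons 317 (.leaf 318 2346 (.cons 321 (.leaf 322 2352 (.cons 345 (.leaf 248 1991 (.leaf 369 2183 .nil)) .nil)) .nil)) .nil)) (.cons 269 (.leaf 270 2155 (.cons 318 (.leaf 317 2346 (.cons 319 (.leaf 298 2354 (.cons 343 (.leaf 367 2173 (.cons 271 (.leaf 248 1981 (.cons 342 (.leaf 247 1974 (.leaf 366 2165 .nil)) .nil)) .nil)) .nil)) .nil)) .nil)) (.cons 321 (.leaf 322 2352 (.cons 345 (.leaf 248 1991 (.leaf 369 2183 .nil)) .nil)) (.cons 270 (.leaf 269 2155 (.cons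 271 (.leaf 298 2160 (.cons 249 (.leaf 250 1969 (.cons 225 (.leaf 201 1606 (.leaf 320 1798 .nil)) .nil)) .nil)) .nil)) .nil)))) .nil)) .nil)) (.cons 297 t98 (.cons 294 t97 (.cons 273 (.leaf 274 2170 (.cons 294 (.leaf 293 2153 (.cons 319 t96 .nil)) .nil)) (.cons 274 (.leaf 273 2170 (.cons 298 (.leaf 297 2169 (.cons 251 t95 .nil)) .nil)) (.cons 273 (.leaf 274 2170 (.cons 294 (.leaf 293 2153 (.cons 297 (.cons 321 (.leaf 322 2352 (.cons 345 (.leaf 248 1991 (.leaf 369 2183 .nil)) .nil)) (.cons 269 (.leaf 270 2155 (.cons 318 (.leaf 317 2346 (.cons 298 (.leaf 319 2354 (.cons 299 (.leaf 271 2171 (.leaf 300 2179 .nil)) .nil)) .nil)) .nil)) .nil)) .nil)) .nil)) (.cons 273 (.leaf 274 2170 (.cons 294 (.leaf 293 2153 (.cons 297 (.cons 321 (.leaf 322 2352 (.cons 345 (.leaf 248 1991 (.leaf 369 2183 .nil)) .nil)) (.cons 270 (.leaf 269 2155 (.cons 271 (.leaf 298 2160 (.cons 249 (.leaf 250 1969 (.cons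 225 (.leaf 201 1606 (.leaf 320 1798 .nil)) .nil)) .nil)) .nil)) .nil)) .nil)) .nil)) (.cons 273 (.leaf 274 2170 (.cons 294 (.leaf 293 2153 (.cons 297 (.cons 318 (.leaf 317 2346 (.cons 298 (.leaf 319 2354 (.cons 299 (.leaf 271 2171 (.leaf 300 2179 .nil)) .nil)) .nil)) (.cons 270 (.leaf 269 2155 (.cons 318 (.leaf 317 2346 (.cons 249 (.cons 201 (.leaf 225 1606 (.cons 271 (.leaf 250 1969 (.cons 247 (.leaf 223 1782 (.leaf 342 1973 .nil)) .nil)) .nil)) (.cons 271 (.leaf 250 1969 (.cons 247 (.leaf 223 1782 (.leaf 342 1973 .nil)) .nil)) (.cons 320 (.leaf 344 1989 (.leaf 225 1798 .nil)) .nil))) .nil)) .nil)) (.cons 270 (.leaf 269 2155 (.cons 271 (.leaf 298 2160 (.cons 249 (.leaf 250 1969 (.cons 225 (.leaf 201 1606 (.leaf 320 1798 .nil)) .nil)) .nil)) .nil)) (.cons 318 (.leaf 317 2346 (.cons 269 (.leaf 270 2155 (.cons 319 (.leaf 298 2354 (.cons 343 (.leaf 367 2173 (.cons 320 (.leaf 248 1982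 (.cons 344 (.leaf 249 1989 (.leaf 368 2181 .nil)) .nil)) .nil)) .nil)) .nil)) .nil)) .nil)))) .nil)) .nil)) (.cons 273 (.leaf 274 2170 (.cons 294 (.leaf 293 2153 (.cons 297 (.cons 270 (.leaf 269 2155 (.cons 271 (.leaf 298 2160 (.cons 249 (.leaf 250 1969 (.cons 225 (.leaf 201 1606 (.leaf 320 1798 .nil)) .nil)) .nil)) .nil)) (.cons 321 (.leaf 322 2352 (.cons 345 (.leaf 369 2183 (.cons 344 (.leaf 368 2182 (.cons 249 (.leaf 320 1989 (.cons 225 (.leaf 201 1606 (.cons 226 (.leaf 202 1613 (.leaf 250 1805 .nil)) .nil)) .nil)) .nil)) .nil)) .nil)) (.cons 318 (.leaf 317 2346 (.cons 298 (.leaf 319 2354 (.cons 299 (.leaf 271 2171 (.leaf 300 2179 .nil)) .nil)) .nil)) .nil))) .nil)) .nil)) .nil))))))))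
noncomputable def t100 : T := .cons 344 (.cons 247 (.leaf 271 1983 (.cons 273 (.leaf 249 1989 (.cons 274 (.leaf 295 2170 (.cons 251 (.leaf 252 1985 (.cons 299 (.leaf 300 2176 (.cons 367 (.leaf 343 2174 (.cons 368 (.leaf 297 2181 (.leaf 391 2366 .nil)) .nil)) .nil)) .nil)) .nil)) .nil)) .nil)) (.cons 247 (.leaf 271 1983 (.cons 367 (.leaf 343 2174 (.cons 368 (.leaf 391 2366 (.cons 369 (.leaf 345 2180 (.leaf 393 2372 .nil)) .nil)) .nil)) .nil)) (.cons 273 (.leaf 249 1989 (.cons 368 (.leaf 297 2181 (.cons 367 (.leaf 343 2174 (.leaf 391 2366 .nil)) .nil)) .nil)) (.cons 247 (.leaf 271 1983 (.cons 273 (.leaf 249 1989 (.cons 274 (.leaf 295 2170 (.cons 251 (.leaf 252 1985 (.cons 297 (.leaf 368 2181 (.cons 299 (.leaf 300 2176 (.cons 298 (.leaf 319 2362 (.cons 227 (.leaf 203 1622 (.leaf 322 1814 .nil)) .nil)) .nil)) .nil)) .nil)) .nil)) .nil)) .nil)) (.cons 271 (.leaf 247 1983 (.cons 273 (.leaf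 249 1989 (.cons 274 (.leaf 295 2170 (.cons 299 (.leaf 300 2176 (.leaf 298 2168 .nil)) .nil)) .nil)) .nil)) .nil))))) (.cons 248 (.cons 225 (.leaf 249 1797 (.cons 247 (.leaf 223 1791 (.cons 344 (.leaf 271 1983 (.cons 345 (.leaf 321 1988 (.leaf 369 2180 .nil)) .nil)) .nil)) .nil)) (.cons 343 (.leaf 319 1982 (.cons 344 (.leaf 367 2174 (.cons 345 (.leaf 321 1988 (.leaf 369 2180 .nil)) .nil)) .nil)) (.cons 225 (.leaf 249 1797 (.cons 247 (.leaf 223 1791 (.cons 343 (.leaf 319 1982 (.cons 344 (.leaf 271 1983 (.leaf 367 2174 .nil)) .nil)) .nil)) .nil)) (.cons 247 (.leaf 223 1791 (.cons 249 (.leaf 225 1797 (.cons 250 (.leaf 274 1976 (.cons 226 (.leaf 227 1785 (.cons 271 (.leaf 251 1978 (.leaf 270 1970 .nil)) .nil)) .nil)) .nil)) .nil)) .nil)))) (.cons 248 (.cons 247 (.leaf 223 1791 (.cons 249 (.leaf 225 1797 (.cons 274 (.leaf 250 1976 (.leaf 273 1979 .nil)) .nil)) .nil)) (.cons 345 (.leaf 321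 1988 (.cons 223 (.leaf 247 1791 (.cons 343 (.leaf 319 1982 (.cons 344 (.leaf 367 2174 (.leaf 369 2180 .nil)) .nil)) .nil)) .nil)) (.cons 249 (.leaf 225 1797 (.cons 273 (.leaf 344 1989 (.cons 274 (.leaf 295 2170 (.cons 251 (.leaf 252 1985 (.cons 299 (.leaf 300 2176 (.cons 319 (.leaf 343 1982 (.cons 297 (.leaf 298 2362 (.cons 321 (.leaf 345 1988 (.cons 250 (.leaf 226 1805 (.cons 227 (.leaf 228 1793 (.cons 179 (.leaf 203 1430 (.cons 323 (.leaf 347 2007 (.cons 324 (.leaf 348 2012 (.leaf 322 2371 .nil)) .nil)) .nil)) .nil)) .nil)) .nil)) .nil)) .nil)) .nil)) .nil)) .nil)) .nil)) .nil)) .nil))) (.cons 344 (.cons 343 (.leaf 367 2174 (.cons 248 (.leaf 319 1982 (.cons 249 (.leaf 225 1797 (.leaf 273 1989 .nil)) .nil)) .nil)) (.cons 343 (.leaf 367 2174 (.cons 248 (.leaf 319 1982 (.cons 345 (.leaf 321 1988 (.leaf 369 2180 .nil)) .nil)) .nil)) (.cons 249 (.leaf 273 1989 (.cons 248 (.leaf 225 1797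 (.cons 345 (.leaf 321 1988 (.leaf 369 2180 .nil)) .nil)) .nil)) (.cons 273 (.leaf 249 1989 (.cons 368 (.leaf 297 2181 (.cons 367 (.leaf 343 2174 (.leaf 391 2366 .nil)) .nil)) .nil)) .nil)))) (.cons 344 (.cons 247 (.leaf 271 1983 (.cons 273 (.leaf 249 1989 (.cons 274 (.leaf 248 1979 (.leaf 295 2170 .nil)) .nil)) .nil)) (.cons 247 (.leaf 271 1983 (.cons 248 (.leaf 223 1791 (.cons 345 (.leaf 321 1988 (.leaf 369 2180 .nil)) .nil)) .nil)) (.cons 249 (.leaf 273 1989 (.cons 248 (.leaf 225 1797 (.cons 345 (.leaf 321 1988 (.leaf 369 2180 .nil)) .nil)) .nil)) (.cons 247 (.leaf 271 1983 (.cons 273 (.leaf 249 1989 (.cons 274 (.leaf 295 2170 (.cons 251 (.leaf 252 1985 (.cons 297 (.leaf 368 2181 (.cons 299 (.leaf 300 2176 (.cons 298 (.leaf 319 2362 (.cons 227 (.leaf 203 1622 (.leaf 322 1814 .nil)) .nil)) .nil)) .nil)) .nil)) .nil)) .nil)) .nil)) .nil)))) (.cons 344 (.cons 247 (.leaf 271 1983 (.cons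 248 (.leaf 223 1791 (.cons 345 (.leaf 321 1988 (.leaf 369 2180 .nil)) .nil)) .nil)) (.cons 343 (.leaf 367 2174 (.cons 248 (.leaf 319 1982 (.cons 345 (.leaf 321 1988 (.leaf 369 2180 .nil)) .nil)) .nil)) (.cons 247 (.leaf 271 1983 (.cons 248 (.leaf 223 1791 (.cons 343 (.leaf 319 1982 (.leaf 367 2174 .nil)) .nil)) .nil)) (.cons 247 (.leaf 271 1983 (.cons 343 (.leaf 367 2174 (.cons 369 (.leaf 345 2180 (.cons 368 (.leaf 393 2372 (.cons 297 (.leaf 273 2181 (.cons 321 (.leaf 392 2373 (.cons 342 (.leaf 341 2728 (.cons 322 (.leaf 319 2546 (.leaf 323 2554 .nil)) .nil)) .nil)) .nil)) .nil)) .nil)) .nil)) .nil)) .nil)))) (.cons 344 (.cons 247 (.leaf 271 1983 (.cons 273 (.leaf 249 1989 (.cons 274 (.leaf 248 1979 (.leaf 295 2170 .nil)) .nil)) .nil)) (.cons 343 (.leaf 367 2174 (.cons 247 (.leaf 271 1983 (.cons 248 (.leaf 223 1791 (.leaf 319 1982 .nil)) .nil)) .nil)) (.cons 273 (.leaf 249 1989 (.cons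 368 (.leaf 297 2181 (.cons 367 (.leaf 343 2174 (.leaf 391 2366 .nil)) .nil)) .nil)) .nil))) .nil))))))
noncomputable def t101 : T := .cons 319 (.leaf 343 1982 (.cons 321 (.leaf 345 1988 (.cons 249 (.leaf 225 1797 (.cons 295 (.cons 273 (.leaf 274 2170 (.cons 322 (.leaf 323 2363 (.leaf 294 2355 .nil)) .nil)) (.cons 273 (.leaf 274 2170 (.cons 322 (.leaf 323 2363 (.cons 298 (.leaf 299 2361 (.cons 297 (.leaf 318 2353 (.cons 271 (.leaf 270 2160 (.cons 250 (.leaf 251 1978 (.leaf 226 1805 .nil)) .nil)) .nil)) .nil)) .nil)) .nil)) (.cons 274 (.leaf 273 2170 (.cons 294 (.leaf 293 2344 (.cons 297 (.leaf 298 2169 (.cons 318 (.leaf 317 2345 (.cons 270 (.leaf 269 2155 (.cons 246 (.leaf 222 1780 (.cons 342 (.leaf 341 2538 (.cons 247 (.leaf 250 1976 (.leaf 223 1781 .nil)) .nil)) .nil)) .nil)) .nil)) .nil)) .nil)) .nil)) (.cons 294 (.leaf 293 2344 (.leaf 322 2355 .nil)) .nil)))) .nil)) .nil)) .nil))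 (.cons 319 (.leaf 343 1982 (.cons 321 (.leaf 345 1988 (.cons 249 (.leaf 225 1797 (.cons 295 (.cons 273 (.leaf 274 2170 (.cons 322 (.leaf 323 2363 (.leaf 294 2355 .nil)) .nil)) (.cons 273 (.leaf 274 2170 (.cons 322 (.leaf 323 2363 (.cons 298 (.leaf 299 2361 (.cons 297 (.leaf 318 2353 (.cons 271 (.leaf 270 2160 (.cons 250 (.leaf 251 1978 (.leaf 226 1805 .nil)) .nil)) .nil)) .nil)) .nil)) .nil)) (.cons 274 (.leaf 273 2170 (.cons 294 (.leaf 293 2344 (.cons 297 (.leaf 298 2169 (.cons 318 (.leaf 317 2345 (.cons 270 (.leaf 269 2155 (.cons 246 (.leaf 222 1780 (.cons 342 (.leaf 341 2538 (.cons 366 (.leaf 390 2357 (.leaf 271 2165 .nil)) .nil)) .nil)) .nil)) .nil)) .nil)) .nil)) .nil)) (.cons 294 (.leaf 293 2344 (.leaf 322 2355 .nil)) .nil)))) .nil)) .nil)) .nil)) (.cons 319 (.leaf 343 1982 (.cons 321 (.leaf 345 1988 (.cons 247 (.leaf 223 1791 (.cons 318 (.cons 297 (.leaf 317 2345 (.leaf 298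 2353 .nil)) (.cons 293 (.leaf 294 2347 (.cons 317 (.leaf 292 2339 (.cons 341 (.leaf 340 2530 (.leaf 342 2538 .nil)) .nil)) .nil)) (.cons 293 (.leaf 294 2347 (.cons 298 (.leaf 297 2353 (.cons 322 (.leaf 299 2361 (.cons 295 (.leaf 323 2363 (.cons 342 (.leaf 341 2538 (.leaf 271 1974 .nil)) .nil)) .nil)) .nil)) .nil)) .nil))) .nil)) .nil)) .nil)) (.cons 247 (.leaf 223 1791 (.cons 249 (.leaf 225 1797 (.cons 274 (.leaf 250 1976 (.leaf 273 1979 .nil)) .nil)) .nil)) .nil)))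
noncomputable def t102 : T := .cons 343 (.leaf 367 2173 (.cons 320 (.leaf 248 1982 (.cons 321 (.leaf 322 2355 (.cons 344 (.leaf 249 1989 (.cons 342 (.leaf 341 2537 (.cons 271 (.leaf 247 1980 (.leaf 368 2172 .nil)) .nil)) .nil)) .nil)) .nil)) .nil)) (.cons 320 (.cons 249 (.leaf 344 1989 (.cons 321 (.leaf 322 2355 (.cons 248 (.leaf 345 1988 (.cons 247 (.leaf 223 1791 (.cons 246 (.leaf 245 1960 (.cons 222 (.leaf 271 1783 (.leaf 270 1780 .nil)) .nil)) .nil)) .nil)) .nil)) .nil)) (.cons 321 (.leaf 322 2355 (.cons 345 (.leaf 248 1988 (.cons 318 (.leaf 346 2544 (.cons 316 (.leaf 317 2337 (.cons 342 (.leaf 341 2538 (.cons 271 (.leaf 247 1974 (.leaf 366 2165 .nil)) .nil)) .nil)) .nil)) .nil)) .nil)) (.cons 344 (.leaf 249 1989 (.cons 368 (.leaf 271 2175 (.leaf 392 2367 .nil)) .nil)) (.cons 249 (.leaf 344 1989 (.cons 321 (.leaf 322 2355 (.cons 248 (.leaf 345 1988 (.cons 247 (.leaf 223 1791 (.cons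 246 (.leaf 245 1960 (.cons 222 (.leaf 270 1780 (.leaf 221 1771 .nil)) .nil)) .nil)) .nil)) .nil)) .nil)) .nil)))) (.cons 343 (.leaf 367 2173 (.cons 271 (.leaf 248 1981 (.cons 270 (.leaf 246 1975 (.cons 269 (.leaf 268 2144 (.cons 245 (.leaf 244 1955 (.cons 342 (.leaf 366 2166 (.leaf 318 1967 .nil)) .nil)) .nil)) .nil)) .nil)) .nil)) (.cons 343 (.leaf 367 2173 (.cons 320 (.leaf 248 1982 (.cons 321 (.leaf 322 2355 (.cons 344 (.leaf 249 1989 (.cons 341 (.leaf 342 2537 (.cons 345 (.leaf 369 2180 (.cons 318 (.leaf 317 2536 (.leaf 346 2544 .nil)) .nil)) .nil)) .nil)) .nil)) .nil)) .nil)) (.cons 343 (.leaf 367 2173 (.cons 271 (.cons 270 (.leaf 246 1975 (.cons 249 (.leaf 250 1969 (.cons 344 (.leaf 320 1989 (.leaf 368 2172 .nil)) .nil)) .nil)) (.cons 342 (.leaf 366 2166 (.cons 344 (.leaf 368 2172 (.cons 320 (.leaf 247 1980 (.leaf 249 1989 .nil)) .nil)) .nil)) (.cons 270 (.leaf 246 1975 (.cons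 269 (.leaf 268 2144 (.cons 245 (.leaf 244 1955 (.cons 342 (.leaf 366 2166 (.leaf 318 1967 .nil)) .nil)) .nil)) .nil)) .nil))) .nil)) (.cons 343 (.leaf 367 2173 (.cons 248 (.leaf 271 1981 (.leaf 320 1982 .nil)) .nil)) .nil)))))
noncomputable def t103 : T := .cons 322 (.leaf 346 2005 (.cons 321 (.cons 320 (.leaf 323 2363 (.cons 319 (.leaf 299 2361 (.cons 343 (.leaf 248 1982 (.leaf 367 2173 .nil)) .nil)) .nil)) (.cons 250 (.leaf 227 1813 (.leaf 345 1998 .nil)) .nil)) .nil)) (.cons 322 (.leaf 346 2005 (.cons 321 (.cons 320 (.leaf 323 2363 (.cons 319 (.leaf 299 2361 (.cons 343 (.leaf 248 1982 (.leaf 367 2173 .nil)) .nil)) .nil)) (.cons 250 (.leaf 345 1998 (.cons 323 (.leaf 347 2004 (.cons 299 (.leaf 226 1812 (.cons 228 (.leaf 252 1821 (.cons 324 (.leaf 348 2012 (.cons 301 (.leaf 300 2377 (.cons 325 (.leaf 326 2387 (.leaf 302 2385 .nil)) .nil)) .nil)) .nil)) .nil)) .nil)) .nil)) (.cons 345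 (.leaf 250 1998 (.cons 320 (.leaf 248 1988 (.cons 369 (.leaf 344 2180 (.leaf 393 2381 .nil)) .nil)) .nil)) .nil))) .nil)) (.cons 227 (.leaf 203 1622 (.cons 299 (.cons 228 (.leaf 204 1629 (.cons 300 (.leaf 324 1820 (.cons 301 (.leaf 302 2195 (.cons 277 (.leaf 278 2193 (.cons 325 (.leaf 326 2384 (.cons 253 (.leaf 252 1831 (.cons 226 (.leaf 202 1623 (.cons 254 (.leaf 229 1808 (.leaf 230 1837 .nil)) .nil)) .nil)) .nil)) .nil)) .nil)) .nil)) .nil)) (.cons 228 (.leaf 204 1629 (.cons 252 (.leaf 323 1821 (.cons 253 (.leaf 254 2002 (.cons 300 (.leaf 324 1820 (.cons 301 (.leaf 302 2195 (.cons 277 (.leaf 278 2193 (.leaf 325 1831 .nil)) .nil)) .nil)) .nil)) .nil)) .nil)) (.cons 226 (.leaf 202 1623 (.cons 323 (.leaf 250 1812 (.cons 324 (.leaf 300 1820 (.leaf 348 2012 .nil)) .nil)) .nil)) (.cons 226 (.leaf 202 1623 (.cons 250 (.leaf 323 1812 (.cons 228 (.leaf 204 1629 (.cons 229 (.leaf 230 1810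 (.leaf 249 1802 .nil)) .nil)) .nil)) .nil)) .nil)))) .nil)) (.cons 322 (.leaf 346 2005 (.cons 227 (.leaf 203 1622 (.leaf 250 1813 .nil)) .nil)) (.cons 322 (.leaf 346 2005 (.cons 227 (.leaf 203 1622 (.leaf 299 1814 .nil)) .nil)) .nil))))
noncomputable def t104 : T := .cons 293 (.leaf 273 2153 (.cons 268 (.leaf 269 2147 (.cons 292 (.leaf 271 2145 (.leaf 267 2139 .nil)) .nil)) .nil)) (.cons 297 (.cons 269 (.leaf 270 2155 (.cons 321 (.leaf 322 2352 (.cons 318 (.leaf 317 2346 (.cons 345 (.leaf 369 2183 (.cons 320 (.leaf 248 1988 (.cons 319 (.leaf 298 2353 (.leaf 346 2544 .nil)) .nil)) .nil)) .nil)) .nil)) .nil)) (.cons 321 (.leaf 322 2352 (.cons 317 (.leaf 318 2346 (.cons 345 (.leaf 369 2183 (.cons 248 (.leaf 273 1991 (.leaf 320 1988 .nil)) .nil)) .nil)) .nil)) (.cons 270 (.leaf 269 2155 (.cons 271 (.leaf 298 2163 (.cons 321 (.leaf 322 2352 (.cons 345 (.leaf 369 2183 (.cons 248 (.leaf 273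 1991 (.leaf 320 1988 .nil)) .nil)) .nil)) .nil)) .nil)) (.cons 270 (.leaf 269 2155 (.cons 271 (.leaf 298 2163 (.cons 318 (.leaf 317 2346 (.cons 247 (.leaf 223 1782 (.leaf 342 1973 .nil)) .nil)) .nil)) .nil)) .nil)))) (.cons 293 (.leaf 273 2153 (.cons 269 (.leaf 268 2147 (.cons 270 (.leaf 297 2155 (.cons 317 (.leaf 316 2338 (.cons 246 (.leaf 222 1774 (.leaf 341 1965 .nil)) .nil)) .nil)) .nil)) .nil)) (.cons 293 (.cons 268 (.leaf 269 2147 (.cons 292 (.leaf 271 2145 (.leaf 267 2139 .nil)) .nil)) (.cons 269 (.leaf 268 2147 (.cons 270 (.leaf 297 2155 (.cons 317 (.leaf 316 2338 (.cons 246 (.leaf 222 1774 (.leaf 341 1965 .nil)) .nil)) .nil)) .nil)) (.cons 271 (.leaf 292 2145 (.cons 316 (.leaf 317 2338 (.cons 320 (.leaf 321 2344 (.cons 247 (.leaf 344 1983 (.leaf 223 1788 .nil)) .nil)) .nil)) .nil)) .nil))) (.cons 293 (.leaf 273 2153 (.cons 271 (.leaf 292 2145 (.cons 316 (.leaf 317 2338 (.cons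 320 (.leaf 321 2344 (.cons 247 (.leaf 344 1983 (.leaf 223 1788 .nil)) .nil)) .nil)) .nil)) .nil)) .nil))))
noncomputable def t105 : T := .cons 298 (.leaf 274 2169 (.cons 271 (.leaf 299 2171 (.leaf 270 2163 .nil)) .nil)) (.cons 294 (.cons 317 (.leaf 318 2346 (.cons 269 (.leaf 270 2155 (.cons 293 (.leaf 268 2147 (.leaf 316 2338 .nil)) .nil)) .nil)) (.cons 317 (.leaf 318 2346 (.cons 293 (.leaf 316 2338 (.cons 321 (.leaf 320 2344 (.leaf 322 2352 .nil)) .nil)) .nil)) (.cons 269 (.leaf 270 2155 (.cons 293 (.leaf 268 2147 (.cons 292 (.leaf 271 2145 (.cons 316 (.leaf 317 2338 (.leaf 315 2330 .nil)) .nil)) .nil)) .nil)) (.cons 321 (.leaf 322 2352 (.cons 269 (.leaf 270 2155 (.cons 293 (.leaf 268 2147 (.leaf 320 2344 .nil)) .nil)) .nil)) (.cons 269 (.leaf 270 2155 (.cons 318 (.leaf 317 2346 (.cons 321 (.leaf 322 2352 (.cons 345 (.leaf 369 2183 (.cons 320 (.leaf 248 1988 (.cons 319 (.leaf 346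 2544 (.cons 342 (.leaf 341 2538 (.cons 366 (.leaf 271 2165 (.leaf 390 2357 .nil)) .nil)) .nil)) .nil)) .nil)) .nil)) .nil)) .nil)) .nil))))) (.cons 298 (.leaf 274 2169 (.cons 318 (.leaf 319 2354 (.cons 294 (.leaf 317 2346 (.cons 269 (.leaf 270 2155 (.cons 293 (.leaf 268 2147 (.cons 321 (.leaf 320 2344 (.leaf 322 2352 .nil)) .nil)) .nil)) .nil)) .nil)) .nil)) (.cons 298 (.leaf 274 2169 (.cons 271 (.leaf 299 2171 (.cons 318 (.leaf 319 2354 (.cons 294 (.leaf 317 2346 (.cons 247 (.leaf 223 1782 (.cons 322 (.leaf 321 2352 (.leaf 323 2360 .nil)) .nil)) .nil)) .nil)) .nil)) .nil)) .nil)))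
noncomputable def t106 : T := .cons 273 (.leaf 274 2170 (.cons 294 (.leaf 293 2153 (.cons 297 (.cons 270 (.leaf 269 2155 (.cons 271 (.leaf 298 2160 (.cons 245 (.leaf 246 1963 (.cons 318 (.leaf 317 2346 (.cons 247 (.leaf 223 1782 (.leaf 342 1973 .nil)) .nil)) .nil)) .nil)) .nil)) (.cons 318 (.leaf 317 2346 (.cons 298 (.leaf 319 2354 (.cons 299 (.leaf 271 2171 (.leaf 300 2179 .nil)) .nil)) .nil)) (.cons 318 (.leaf 317 2346 (.cons 269 (.leaf 270 2155 (.cons 319 (.leaf 298 2354 (.cons 343 (.leaf 367 2173 (.cons 320 (.leaf 248 1982 (.cons 344 (.leaf 249 1989 (.leaf 368 2181 .nil)) .nil)) .nil)) .nil)) .nil)) .nil)) (.cons 270 (.leaf 269 2155 (.cons 271 (.leaf 298 2160 (.cons 246 (.leaf 245 1963 (.cons 222 (.leaf 198 1588 (.leaf 319 1780 .nil)) .nil)) .nil)) .nil)) (.cons 321 (.leaf 322 2352 (.cons 345 (.leaf 248 1991 (.leaf 369 2183 .nil)) .nil)) .nil))))) .nil)) .nil)) (.cons 297 t105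 (.cons 294 t104 (.cons 274 (.leaf 273 2170 (.cons 298 (.leaf 297 2169 (.cons 251 t103 .nil)) .nil)) (.cons 273 (.leaf 274 2170 (.cons 294 (.leaf 293 2153 (.cons 319 t102 .nil)) .nil)) (.cons 273 (.leaf 274 2170 (.cons 294 (.leaf 293 2153 (.cons 297 (.cons 270 (.leaf 269 2155 (.cons 271 (.leaf 298 2160 (.cons 245 (.leaf 246 1963 (.cons 318 (.leaf 317 2346 (.cons 247 (.leaf 223 1782 (.leaf 342 1973 .nil)) .nil)) .nil)) .nil)) .nil)) (.cons 321 (.leaf 322 2352 (.cons 345 (.leaf 248 1991 (.leaf 369 2183 .nil)) .nil)) .nil)) .nil)) .nil)) (.cons 273 (.leaf 274 2170 (.cons 294 (.leaf 293 2153 (.cons 297 (.cons 270 (.leaf 269 2155 (.cons 271 (.leaf 298 2160 (.cons 245 (.leaf 246 1963 (.cons 318 (.leaf 317 2346 (.cons 247 (.leaf 223 1782 (.leaf 342 1973 .nil)) .nil)) .nil)) .nil)) .nil)) (.cons 318 (.leaf 317 2346 (.cons 298 (.leaf 319 2354 (.cons 299 (.leaf 271 2171 (.leaf 300 2179 .nil))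 .nil)) .nil)) (.cons 318 (.leaf 317 2346 (.cons 269 (.leaf 270 2155 (.cons 319 (.leaf 298 2354 (.cons 343 (.leaf 367 2173 (.cons 320 (.leaf 248 1982 (.cons 344 (.leaf 249 1989 (.leaf 368 2181 .nil)) .nil)) .nil)) .nil)) .nil)) .nil)) (.cons 270 (.leaf 269 2155 (.cons 271 (.leaf 298 2160 (.cons 246 (.leaf 245 1963 (.cons 222 (.leaf 198 1588 (.leaf 319 1780 .nil)) .nil)) .nil)) .nil)) (.cons 270 (.leaf 269 2155 (.cons 318 (.leaf 317 2346 (.cons 246 (.cons 319 (.leaf 222 1780 (.leaf 343 1972 .nil)) (.cons 245 (.leaf 271 1963 (.leaf 221 1775 .nil)) .nil)) .nil)) .nil)) .nil))))) .nil)) .nil)) (.cons 273 (.leaf 274 2170 (.cons 294 (.leaf 293 2153 (.cons 297 (.cons 270 (.leaf 269 2155 (.cons 271 (.leaf 298 2160 (.cons 245 (.leaf 246 1963 (.cons 318 (.leaf 317 2346 (.cons 247 (.leaf 223 1782 (.leaf 342 1973 .nil)) .nil)) .nil)) .nil)) .nil)) (.cons 317 (.leaf 318 2346 (.cons 322 (.leaf 321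 2352 (.cons 298 (.leaf 323 2360 (.cons 299 (.leaf 271 2171 (.leaf 300 2179 .nil)) .nil)) .nil)) .nil)) (.cons 270 (.leaf 269 2155 (.cons 271 (.leaf 298 2160 (.cons 246 (.leaf 245 1963 (.cons 222 (.leaf 198 1588 (.leaf 319 1780 .nil)) .nil)) .nil)) .nil)) (.cons 269 (.leaf 270 2155 (.cons 317 (.leaf 318 2346 (.cons 321 (.leaf 322 2352 (.cons 345 (.leaf 369 2183 (.cons 344 (.leaf 368 2182 (.cons 320 (.leaf 249 1989 (.cons 343 (.leaf 367 2174 (.cons 342 (.leaf 341 2537 (.cons 346 (.leaf 370 2188 (.cons 347 (.leaf 348 2563 (.leaf 319 2555 .nil)) .nil)) .nil)) .nil)) .nil)) .nil)) .nil)) .nil)) .nil)) .nil)) .nil)))) .nil)) .nil)) .nil)))))))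
noncomputable def t107 : T := .cons 344 (.leaf 249 1989 (.cons 271 (.leaf 247 1983 (.leaf 368 2175 .nil)) .nil)) (.cons 248 (.cons 247 (.leaf 223 1791 (.cons 245 (.leaf 246 1960 (.cons 319 (.leaf 343 1982 (.cons 321 (.leaf 345 1988 (.leaf 322 2355 .nil)) .nil)) .nil)) .nil)) (.cons 247 (.leaf 223 1791 (.cons 246 (.leaf 245 1960 (.cons 249 (.leaf 225 1797 (.cons 222 (.leaf 221 1771 (.cons 270 (.leaf 269 1962 (.cons 198 (.leaf 271 1588 (.cons 173 (.leaf 197 1391 (.cons 174 (.leaf 149 1199 (.cons 175 (.leaf 151 1205 (.leaf 199 1397 .nil)) .nil)) .nil)) .nil)) .nil)) .nil)) .nil)) .nil)) .nil)) (.cons 225 (.leaf 249 1797 (.cons 319 (.leaf 343 1982 (.cons 321 (.leaf 345 1988 (.leaf 322 2355 .nil)) .nil)) .nil)) .nil))) (.cons 344 (.cons 271 (.leaf 247 1983 (.leaf 368 2175 .nil)) (.cons 343 (.leaf 367 2174 (.cons 248 (.leaf 319 1982 (.cons 345 (.leaf 321 1988 (.leaf 369 2180 .nil)) .nil))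 .nil)) .nil)) (.cons 344 (.leaf 249 1989 (.cons 343 (.leaf 367 2174 (.cons 248 (.leaf 319 1982 (.cons 345 (.leaf 321 1988 (.leaf 369 2180 .nil)) .nil)) .nil)) .nil)) .nil)))
noncomputable def t108 : T := .cons 223 (.leaf 247 1791 (.cons 319 (.leaf 343 1982 (.cons 321 (.leaf 345 1988 (.cons 322 (.leaf 323 2363 (.cons 225 (.leaf 249 1797 (.cons 298 (.leaf 299 2361 (.cons 297 (.leaf 318 2353 (.cons 346 (.leaf 370 2191 (.leaf 347 2552 .nil)) .nil)) .nil)) .nil)) .nil)) .nil)) .nil)) .nil)) (.cons 247 (.leaf 223 1791 (.cons 246 (.leaf 245 1960 (.cons 249 (.leaf 225 1797 (.cons 222 (.leaf 221 1771 (.cons 270 (.leaf 269 1962 (.cons 198 (.leaf 271 1588 (.cons 173 (.leaf 197 1391 (.cons 174 (.leaf 149 1199 (.cons 175 (.leaf 151 1205 (.leaf 199 1397 .nil)) .nil)) .nil)) .nil)) .nil)) .nil)) .nil)) .nil)) .nil)) (.cons 319 (.leaf 343 1982 (.cons 225 (.leaf 249 1797 (.cons 321 (.leaf 345 1988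 (.cons 322 (.leaf 323 2363 (.cons 298 (.leaf 299 2361 (.cons 297 (.leaf 318 2353 (.cons 270 (.leaf 271 2160 (.cons 346 (.leaf 370 2191 (.leaf 347 2552 .nil)) .nil)) .nil)) .nil)) .nil)) .nil)) .nil)) .nil)) (.cons 223 (.leaf 247 1791 (.cons 319 (.leaf 343 1982 (.cons 321 (.leaf 345 1988 (.cons 322 (.leaf 323 2363 (.cons 298 (.leaf 299 2361 (.cons 297 (.leaf 318 2353 (.cons 270 (.leaf 271 2160 (.cons 346 (.leaf 370 2191 (.leaf 347 2552 .nil)) .nil)) .nil)) .nil)) .nil)) .nil)) .nil)) .nil)) .nil)))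
noncomputable def t109 : T := .cons 293 (.leaf 273 2153 (.cons 268 (.leaf 269 2147 (.cons 292 (.leaf 271 2145 (.leaf 267 2139 .nil)) .nil)) .nil)) (.cons 297 (.cons 269 (.leaf 270 2155 (.cons 321 (.leaf 322 2352 (.cons 318 (.leaf 317 2346 (.cons 345 (.leaf 369 2183 (.cons 320 (.leaf 248 1988 (.cons 319 (.leaf 298 2353 (.leaf 346 2544 .nil)) .nil)) .nil)) .nil)) .nil)) .nil)) (.cons 321 (.leaf 322 2352 (.cons 317 (.leaf 318 2346 (.cons 345 (.leaf 369 2183 (.cons 248 (.leaf 273 1991 (.leaf 320 1988 .nil)) .nil)) .nil)) .nil)) (.cons 270 (.leaf 269 2155 (.cons 271 (.leaf 298 2163 (.cons 321 (.leaf 322 2352 (.cons 345 (.leaf 369 2183 (.cons 248 (.leaf 273 1991 (.leaf 320 1988 .nil)) .nil)) .nil)) .nil)) .nil)) (.cons 270 (.leaf 269 2155 (.cons 271 (.leaf 298 2163 (.cons 318 (.leaf 317 2346 (.cons 247 (.leaf 223 1782 (.leaf 342 1973 .nil)) .nil)) .nil)) .nil)) .nil)))) (.cons 293 (.cons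 268 (.leaf 269 2147 (.cons 292 (.leaf 271 2145 (.leaf 267 2139 .nil)) .nil)) (.cons 269 (.leaf 268 2147 (.cons 270 (.leaf 297 2155 (.cons 317 (.leaf 316 2338 (.cons 246 (.leaf 222 1774 (.leaf 341 1965 .nil)) .nil)) .nil)) .nil)) (.cons 271 (.leaf 292 2145 (.cons 316 (.leaf 317 2338 (.cons 320 (.leaf 321 2344 (.cons 247 (.leaf 344 1983 (.leaf 223 1788 .nil)) .nil)) .nil)) .nil)) .nil))) (.cons 293 (.leaf 273 2153 (.cons 269 (.leaf 268 2147 (.cons 270 (.leaf 297 2155 (.cons 317 (.leaf 316 2338 (.cons 246 (.leaf 222 1774 (.leaf 341 1965 .nil)) .nil)) .nil)) .nil)) .nil)) (.cons 293 (.leaf 273 2153 (.cons 271 (.leaf 292 2145 (.cons 316 (.leaf 317 2338 (.cons 320 (.leaf 321 2344 (.cons 247 (.leaf 344 1983 (.leaf 223 1788 .nil)) .nil)) .nil)) .nil)) .nil)) .nil))))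
noncomputable def t110 : T := .cons 273 (.leaf 274 2170 (.cons 294 (.leaf 293 2153 (.cons 297 (.cons 270 (.leaf 269 2155 (.cons 271 (.leaf 298 2160 (.cons 245 (.leaf 246 1963 (.cons 318 (.leaf 317 2346 (.cons 247 (.leaf 223 1782 (.leaf 342 1973 .nil)) .nil)) .nil)) .nil)) .nil)) (.cons 321 (.leaf 322 2352 (.cons 345 (.leaf 248 1991 (.leaf 369 2183 .nil)) .nil)) .nil)) .nil)) .nil)) (.cons 297 t105 (.cons 294 t109 (.cons 273 (.leaf 274 2170 (.cons 320 (.cons 344 (.leaf 249 1989 (.cons 368 (.leaf 271 2175 (.leaf 297 2181 .nil)) .nil)) (.cons 248 t108 (.cons 344 (.cons 368 (.leaf 271 2175 (.leaf 297 2181 .nil)) (.cons 247 (.leaf 271 1983 (.cons 248 (.leaf 223 1791 (.cons 343 (.leaf 319 1982 (.leaf 367 2174 .nil)) .nil)) .nil)) (.cons 368 (.leaf 297 2181 (.cons 367 (.leaf 343 2174 (.leaf 391 2366 .nil)) .nil)) .nil))) (.cons 344 (.leaf 249 1989 (.cons 368 (.leaf 297 2181 (.cons 367 (.leaf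 343 2174 (.leaf 391 2366 .nil)) .nil)) .nil)) (.cons 344 (.leaf 249 1989 (.cons 271 (.leaf 247 1983 (.leaf 368 2175 .nil)) .nil)) .nil))))) .nil)) (.cons 273 (.leaf 274 2170 (.cons 294 (.leaf 293 2153 (.cons 320 t107 .nil)) .nil)) (.cons 273 (.leaf 274 2170 (.cons 294 (.leaf 293 2153 (.cons 297 (.cons 269 (.leaf 270 2155 (.cons 317 (.leaf 318 2346 (.cons 321 (.leaf 322 2352 (.cons 345 (.leaf 248 1991 (.leaf 369 2183 .nil)) .nil)) .nil)) .nil)) (.cons 269 (.leaf 270 2155 (.cons 318 (.leaf 317 2346 (.cons 319 (.leaf 298 2354 (.cons 343 (.leaf 367 2173 (.cons 320 (.leaf 248 1982 (.cons 344 (.leaf 249 1989 (.leaf 368 2181 .nil)) .nil)) .nil)) .nil)) .nil)) .nil)) (.cons 321 (.leaf 322 2352 (.cons 345 (.leaf 248 1991 (.leaf 369 2183 .nil)) .nil)) (.cons 269 (.leaf 270 2155 (.cons 317 (.leaf 318 2346 (.cons 321 (.leaf 322 2352 (.cons 345 (.leaf 369 2183 (.cons 344 (.leaf 368 2182 (.cons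 320 (.leaf 249 1989 (.cons 343 (.leaf 367 2174 (.cons 342 (.leaf 341 2537 (.cons 346 (.leaf 370 2188 (.cons 347 (.leaf 348 2563 (.leaf 319 2555 .nil)) .nil)) .nil)) .nil)) .nil)) .nil)) .nil)) .nil)) .nil)) .nil)) .nil)))) .nil)) .nil)) (.cons 273 (.leaf 274 2170 (.cons 294 (.leaf 293 2153 (.cons 297 (.cons 318 (.leaf 317 2346 (.cons 298 (.leaf 319 2354 (.cons 299 (.leaf 271 2171 (.leaf 300 2179 .nil)) .nil)) .nil)) (.cons 321 (.leaf 322 2352 (.cons 345 (.leaf 248 1991 (.leaf 369 2183 .nil)) .nil)) .nil)) .nil)) .nil)) (.cons 273 (.leaf 274 2170 (.cons 294 (.leaf 293 2153 (.cons 297 (.cons 318 (.leaf 317 2346 (.cons 298 (.leaf 319 2354 (.cons 299 (.leaf 271 2171 (.leaf 300 2179 .nil)) .nil)) .nil)) (.cons 270 (.leaf 269 2155 (.cons 271 (.leaf 298 2160 (.cons 246 (.leaf 245 1963 (.cons 222 (.leaf 198 1588 (.leaf 319 1780 .nil)) .nil)) .nil)) .nil)) (.cons 270 (.leaf 269 2155 (.cons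 318 (.leaf 317 2346 (.cons 246 (.cons 319 (.leaf 222 1780 (.leaf 343 1972 .nil)) (.cons 245 (.leaf 271 1963 (.leaf 221 1775 .nil)) .nil)) .nil)) .nil)) (.cons 318 (.leaf 317 2346 (.cons 269 (.leaf 270 2155 (.cons 319 (.leaf 298 2354 (.cons 343 (.leaf 367 2173 (.cons 320 (.leaf 248 1982 (.cons 344 (.leaf 249 1989 (.leaf 368 2181 .nil)) .nil)) .nil)) .nil)) .nil)) .nil)) (.cons 270 (.leaf 269 2155 (.cons 271 (.leaf 298 2160 (.cons 245 (.leaf 246 1963 (.cons 318 (.leaf 317 2346 (.cons 247 (.leaf 223 1782 (.leaf 342 1973 .nil)) .nil)) .nil)) .nil)) .nil)) .nil))))) .nil)) .nil)) (.cons 273 (.leaf 274 2170 (.cons 294 (.leaf 293 2153 (.cons 297 (.cons 318 (.leaf 317 2346 (.cons 298 (.leaf 319 2354 (.cons 299 (.leaf 271 2171 (.leaf 300 2179 .nil)) .nil)) .nil)) (.cons 270 (.leaf 269 2155 (.cons 318 (.leaf 317 2346 (.cons 321 (.leaf 322 2352 (.cons 345 (.leaf 369 2183 (.cons 344 (.leaf 368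 2182 (.cons 346 (.leaf 370 2188 (.cons 343 (.leaf 319 2547 (.cons 367 (.leaf 320 2174 (.leaf 342 2164 .nil)) .nil)) .nil)) .nil)) .nil)) .nil)) .nil)) .nil)) (.cons 270 (.leaf 269 2155 (.cons 271 (.leaf 298 2160 (.cons 246 (.leaf 245 1963 (.cons 222 (.leaf 198 1588 (.leaf 319 1780 .nil)) .nil)) .nil)) .nil)) (.cons 270 (.leaf 269 2155 (.cons 271 (.leaf 298 2160 (.cons 245 (.leaf 246 1963 (.cons 318 (.leaf 317 2346 (.cons 247 (.leaf 223 1782 (.leaf 342 1973 .nil)) .nil)) .nil)) .nil)) .nil)) .nil)))) .nil)) .nil)) .nil))))))))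
noncomputable def t111 : T := .cons 249 (.leaf 225 1797 (.cons 321 (.leaf 345 1988 (.cons 319 (.leaf 343 1982 (.cons 250 (.cons 270 (.leaf 271 1969 (.cons 297 (.leaf 226 1805 (.cons 298 (.leaf 299 2362 (.leaf 318 2353 .nil)) .nil)) .nil)) (.cons 251 (.leaf 252 1986 (.cons 227 (.leaf 228 1793 (.cons 226 (.leaf 297 1805 (.leaf 247 1785 .nil)) .nil)) .nil)) (.cons 251 (.leaf 271 1978 (.leaf 252 1986 .nil)) .nil))) .nil)) .nil)) .nil)) (.cons 321 (.leaf 345 1988 (.cons 247 (.leaf 223 1791 (.cons 319 (.leaf 343 1982 (.cons 246 (.leaf 245 1960 (.cons 318 (.cons 297 (.leaf 317 2345 (.leaf 298 2353 .nil)) (.cons 293 (.leaf 294 2347 (.cons 317 (.leaf 292 2339 (.cons 341 (.leaf 340 2530 (.leaf 342 2538 .nil)) .nil)) .nil)) (.cons 294 (.leaf 293 2347 (.cons 297 (.leaf 298 2353 (.cons 342 (.leaf 341 2538 (.cons 271 (.leaf 270 1973 (.leaf 295 1974 .nil)) .nil)) .nil)) .nil)) .nil))) .nil)) .nil))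 .nil)) .nil)) (.cons 249 (.leaf 225 1797 (.cons 321 (.leaf 345 1988 (.cons 319 (.leaf 343 1982 (.cons 250 (.cons 270 (.leaf 271 1969 (.cons 297 (.leaf 226 1805 (.cons 298 (.leaf 299 2362 (.leaf 318 2353 .nil)) .nil)) .nil)) (.cons 226 (.leaf 297 1805 (.cons 202 (.leaf 178 1422 (.cons 251 (.leaf 252 1986 (.cons 227 (.leaf 299 1623 (.leaf 228 1793 .nil)) .nil)) .nil)) .nil)) (.cons 251 (.leaf 271 1978 (.leaf 252 1986 .nil)) .nil))) .nil)) .nil)) .nil)) (.cons 249 (.leaf 225 1797 (.cons 247 (.leaf 223 1791 (.cons 246 (.leaf 245 1960 (.cons 221 (.leaf 222 1771 (.cons 270 (.leaf 269 1962 (.cons 250 (.leaf 271 1969 (.cons 227 (.leaf 226 1785 (.cons 251 (.leaf 252 1986 (.leaf 228 1793 .nil)) .nil)) .nil)) .nil)) .nil)) .nil)) .nil)) .nil)) (.cons 249 (.leaf 225 1797 (.cons 247 (.leaf 223 1791 (.cons 246 (.leaf 245 1960 (.cons 222 (.leaf 221 1771 (.cons 270 (.leaf 269 1962 (.cons 319 (.leaf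 343 1982 (.cons 294 (.leaf 295 1780 (.cons 293 (.leaf 317 1774 (.cons 321 (.leaf 345 1988 (.leaf 318 2347 .nil)) .nil)) .nil)) .nil)) .nil)) .nil)) .nil)) .nil)) .nil)) (.cons 249 (.leaf 225 1797 (.cons 247 (.leaf 223 1791 (.cons 246 (.leaf 245 1960 (.cons 222 (.leaf 221 1771 (.cons 319 (.leaf 343 1982 (.cons 271 (.leaf 295 1783 (.cons 174 (.leaf 198 1396 (.cons 250 (.leaf 251 1978 (.cons 226 (.leaf 227 1785 (.cons 321 (.leaf 345 1988 (.leaf 297 1805 .nil)) .nil)) .nil)) .nil)) .nil)) .nil)) .nil)) .nil)) .nil)) .nil)) .nil)))))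
noncomputable def t112 : T := .cons 344 (.leaf 249 1989 (.cons 297 (.leaf 368 2181 (.cons 343 (.leaf 367 2174 (.cons 319 (.leaf 248 1982 (.cons 298 (.leaf 299 2362 (.cons 318 (.leaf 295 2354 (.leaf 317 2345 .nil)) .nil)) .nil)) .nil)) .nil)) .nil)) (.cons 248 t111 (.cons 344 (.cons 247 (.leaf 271 1983 (.cons 248 (.leaf 223 1791 (.cons 345 (.leaf 321 1988 (.leaf 369 2180 .nil)) .nil)) .nil)) (.cons 247 (.leaf 271 1983 (.cons 223 (.leaf 248 1791 (.cons 367 (.leaf 343 2174 (.cons 368 (.leaf 297 2181 (.leaf 391 2366 .nil)) .nil)) .nil)) .nil)) (.cons 368 (.leaf 297 2181 (.cons 367 (.leaf 343 2174 (.leaf 391 2366 .nil)) .nil)) .nil))) (.cons 344 (.leaf 249 1989 (.cons 247 (.leaf 271 1983 (.cons 248 (.leaf 223 1791 (.cons 345 (.leaf 321 1988 (.leaf 369 2180 .nil)) .nil)) .nil)) .nil)) (.cons 344 (.leaf 249 1989 (.cons 247 (.leaf 271 1983 (.cons 343 (.leaf 367 2174 (.cons 368 (.leaf 297 2181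 (.cons 393 (.leaf 369 2372 (.cons 392 (.leaf 417 2564 (.cons 415 (.leaf 391 2558 (.cons 416 (.leaf 319 2559 (.leaf 439 2750 .nil)) .nil)) .nil)) .nil)) .nil)) .nil)) .nil)) .nil)) .nil))))
noncomputable def t113 : T := .cons 274 (.leaf 295 2170 (.cons 299 (.leaf 300 2176 (.cons 247 (.leaf 248 1979 (.cons 271 (.leaf 246 1971 (.leaf 298 2168 .nil)) .nil)) .nil)) .nil)) (.cons 320 t112 (.cons 274 (.cons 247 (.leaf 248 1979 (.cons 251 (.leaf 252 1985 (.cons 271 (.leaf 246 1971 (.leaf 250 1977 .nil)) .nil)) .nil)) (.cons 299 (.leaf 300 2176 (.cons 251 (.leaf 252 1985 (.cons 271 (.leaf 250 1977 (.leaf 298 2168 .nil)) .nil)) .nil)) (.cons 299 (.leaf 300 2176 (.cons 247 (.leaf 248 1979 (.cons 271 (.leaf 246 1971 (.leaf 298 2168 .nil)) .nil)) .nil)) (.cons 248 (.leaf 247 1979 (.cons 299 (.leaf 300 2176 (.cons 251 (.leaf 252 1985 (.cons 320 (.cons 249 (.leaf 225 1797 (.leaf 344 1989 .nil)) (.cons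 319 (.leaf 343 1982 (.cons 345 (.leaf 321 1988 (.cons 344 (.leaf 369 2180 (.cons 347 (.leaf 346 2555 (.cons 297 (.leaf 368 2181 (.leaf 298 2362 .nil)) .nil)) .nil)) .nil)) .nil)) (.cons 225 (.leaf 249 1797 (.cons 319 (.leaf 343 1982 (.cons 298 (.leaf 297 2362 (.cons 227 (.leaf 203 1622 (.cons 226 (.leaf 202 1623 (.cons 250 (.leaf 323 1812 (.leaf 201 1615 .nil)) .nil)) .nil)) .nil)) .nil)) .nil)) .nil))) .nil)) .nil)) .nil)) .nil)))) (.cons 274 (.leaf 295 2170 (.cons 248 (.leaf 247 1979 (.cons 299 (.leaf 300 2176 (.cons 251 (.leaf 252 1985 (.cons 320 (.cons 249 (.leaf 225 1797 (.leaf 344 1989 .nil)) (.cons 319 (.leaf 343 1982 (.cons 345 (.leaf 321 1988 (.cons 344 (.leaf 369 2180 (.cons 347 (.leaf 346 2555 (.cons 297 (.leaf 368 2181 (.leaf 298 2362 .nil)) .nil)) .nil)) .nil)) .nil)) (.cons 225 (.leaf 249 1797 (.cons 319 (.leaf 343 1982 (.cons 298 (.leaf 297 2362 (.cons 227 (.leaf 203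 1622 (.cons 226 (.leaf 202 1623 (.cons 250 (.leaf 323 1812 (.leaf 201 1615 .nil)) .nil)) .nil)) .nil)) .nil)) .nil)) .nil))) .nil)) .nil)) .nil)) .nil)) (.cons 274 (.leaf 295 2170 (.cons 299 (.leaf 300 2176 (.cons 251 (.leaf 252 1985 (.cons 271 (.leaf 250 1977 (.leaf 298 2168 .nil)) .nil)) .nil)) .nil)) (.cons 274 (.leaf 295 2170 (.cons 247 (.leaf 248 1979 (.cons 251 (.leaf 252 1985 (.cons 271 (.leaf 246 1971 (.leaf 250 1977 .nil)) .nil)) .nil)) .nil)) .nil)))))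
noncomputable def t114 : T := .cons 225 (.leaf 249 1807 (.cons 226 (.leaf 201 1615 (.cons 202 (.leaf 299 1620 (.cons 178 (.leaf 251 1428 (.cons 203 (.leaf 179 1429 (.leaf 227 1621 .nil)) .nil)) .nil)) .nil)) .nil)) (.cons 225 (.leaf 249 1807 (.cons 226 (.leaf 201 1615 (.cons 202 (.leaf 299 1620 (.cons 178 (.leaf 251 1428 (.cons 179 (.leaf 203 1429 (.leaf 155 1237 .nil)) .nil)) .nil)) .nil)) .nil)) (.cons 225 (.leaf 249 1807 (.cons 226 (.leaf 201 1615 (.cons 202 (.leaf 299 1620 (.cons 203 (.leaf 179 1429 (.leaf 227 1621 .nil)) .nil)) .nil)) .nil)) (.cons 227 (.leaf 251 1813 (.cons 226 (.leaf 203 1621 (.cons 201 (.leaf 225 1615 (.cons 202 (.leaf 299 1620 (.leaf 177 1423 .nil)) .nil)) .nil)) .nil)) (.cons 227 (.leaf 251 1813 (.cons 226 (.leaf 203 1621 (.cons 299 (.leaf 202 1620 (.cons 321 (.leaf 345 1998 (.cons 319 (.leaf 320 2361 (.cons 343 (.leaf 367 2173 (.cons 271 (.leaf 248 1981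 (.cons 246 (.leaf 270 1975 (.cons 247 (.leaf 222 1783 (.cons 342 (.leaf 318 1974 (.leaf 366 2166 .nil)) .nil)) .nil)) .nil)) .nil)) .nil)) .nil)) .nil)) .nil)) .nil)) (.cons 251 (.leaf 227 1813 (.cons 249 (.leaf 225 1807 (.cons 248 (.leaf 247 1976 (.leaf 271 1978 .nil)) .nil)) .nil)) .nil)))))
noncomputable def t115 : T := .cons 225 (.leaf 249 1807 (.cons 226 (.leaf 201 1615 (.cons 202 (.leaf 299 1620 (.cons 178 (.leaf 251 1428 (.cons 203 (.leaf 179 1429 (.leaf 227 1621 .nil)) .nil)) .nil)) .nil)) .nil)) (.cons 225 (.leaf 249 1807 (.cons 226 (.leaf 201 1615 (.cons 202 (.leaf 299 1620 (.cons 203 (.leaf 179 1429 (.leaf 227 1621 .nil)) .nil)) .nil)) .nil)) (.cons 225 (.leaf 249 1807 (.cons 226 (.leaf 201 1615 (.cons 202 (.leaf 299 1620 (.cons 178 (.leaf 251 1428 (.cons 179 (.leaf 203 1429 (.leaf 155 1237 .nil)) .nil)) .nil)) .nil)) .nil)) (.cons 227 (.leaf 251 1813 (.cons 226 (.leaf 203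 1621 (.cons 201 (.leaf 225 1615 (.cons 202 (.leaf 299 1620 (.leaf 177 1423 .nil)) .nil)) .nil)) .nil)) (.cons 227 (.leaf 251 1813 (.cons 226 (.leaf 203 1621 (.cons 299 (.leaf 202 1620 (.cons 321 (.leaf 345 1998 (.cons 319 (.leaf 320 2361 (.cons 343 (.leaf 367 2173 (.cons 271 (.leaf 248 1981 (.cons 246 (.leaf 270 1975 (.cons 247 (.leaf 222 1783 (.cons 342 (.leaf 318 1974 (.leaf 366 2166 .nil)) .nil)) .nil)) .nil)) .nil)) .nil)) .nil)) .nil)) .nil)) .nil)) (.cons 251 (.leaf 346 2005 (.leaf 227 1813 .nil)) .nil)))))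
noncomputable def t116 : T := .cons 250 t115 (.cons 250 t114 (.cons 346 (.cons 345 (.leaf 369 2190 (.cons 371 (.leaf 347 2196 (.cons 370 (.leaf 299 2197 (.leaf 395 2388 .nil)) .nil)) .nil)) (.cons 345 (.leaf 369 2190 (.cons 250 (.leaf 321 1998 (.cons 225 (.leaf 249 1807 (.cons 226 (.leaf 201 1615 (.cons 202 (.leaf 299 1620 (.cons 203 (.leaf 179 1429 (.leaf 227 1621 .nil)) .nil)) .nil)) .nil)) .nil)) .nil)) (.cons 370 (.leaf 299 2197 (.cons 371 (.leaf 347 2196 (.leaf 395 2388 .nil)) .nil)) (.cons 345 (.leaf 369 2190 (.cons 371 (.leaf 347 2196 (.cons 370 (.leaf 395 2388 (.cons 343 (.leaf 344 2744 (.cons 319 (.leaf 367 2173 (.cons 248 (.leaf 271 1981 (.leaf 320 1982 .nil)) .nil)) .nil)) .nil)) .nil)) .nil)) .nil)))) (.cons 346 (.leaf 251 2005 (.cons 345 (.leaf 369 2190 (.cons 371 (.leaf 347 2196 (.cons 370 (.leaf 299 2197 (.leaf 395 2388 .nil)) .nil)) .nil)) .nil)) (.cons 346 (.leaf 251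 2005 (.cons 345 (.leaf 369 2190 (.cons 371 (.leaf 347 2196 (.cons 370 (.leaf 395 2388 (.cons 343 (.leaf 344 2744 (.cons 319 (.leaf 367 2173 (.cons 248 (.leaf 271 1981 (.leaf 320 1982 .nil)) .nil)) .nil)) .nil)) .nil)) .nil)) .nil)) (.cons 251 (.leaf 346 2005 (.cons 227 (.leaf 203 1622 (.leaf 299 1814 .nil)) .nil)) .nil)))))
noncomputable def t117 : T := .cons 269 (.leaf 270 2155 (.cons 318 (.leaf 317 2346 (.cons 298 (.leaf 319 2354 (.cons 299 (.leaf 271 2171 (.cons 273 (.leaf 300 2179 (.cons 321 (.leaf 322 2352 (.cons 345 (.leaf 248 1991 (.leaf 369 2183 .nil)) .nil)) .nil)) .nil)) .nil)) .nil)) .nil)) (.cons 318 (.leaf 317 2346 (.cons 321 (.leaf 322 2352 (.cons 345 (.leaf 369 2183 (.cons 320 (.leaf 248 1988 (.cons 319 (.leaf 298 2353 (.leaf 346 2544 .nil)) .nil)) .nil)) .nil)) .nil)) (.cons 270 (.leaf 269 2155 (.cons 271 (.leaf 298 2163 (.cons 321 (.leaf 322 2352 (.cons 345 (.leaf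 369 2183 (.cons 248 (.leaf 273 1991 (.leaf 320 1988 .nil)) .nil)) .nil)) .nil)) .nil)) (.cons 270 (.leaf 269 2155 (.cons 271 (.leaf 298 2163 (.cons 318 (.leaf 317 2346 (.cons 247 (.leaf 223 1782 (.leaf 342 1973 .nil)) .nil)) .nil)) .nil)) (.cons 318 (.leaf 317 2346 (.cons 321 (.leaf 322 2352 (.cons 270 (.leaf 269 2155 (.cons 345 (.leaf 369 2183 (.cons 320 (.leaf 248 1988 (.cons 319 (.leaf 346 2544 (.cons 343 (.leaf 367 2173 (.leaf 246 1972 .nil)) .nil)) .nil)) .nil)) .nil)) .nil)) .nil)) .nil))))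
noncomputable def t118 : T := .cons 294 (.cons 293 (.leaf 273 2153 (.cons 268 (.leaf 269 2147 (.cons 292 (.leaf 271 2145 (.leaf 267 2139 .nil)) .nil)) .nil)) (.cons 297 t117 (.cons 293 (.cons 268 (.leaf 269 2147 (.cons 292 (.leaf 271 2145 (.leaf 267 2139 .nil)) .nil)) (.cons 269 (.leaf 268 2147 (.cons 270 (.leaf 297 2155 (.cons 317 (.leaf 316 2338 (.cons 246 (.leaf 222 1774 (.leaf 341 1965 .nil)) .nil)) .nil)) .nil)) (.cons 271 (.leaf 292 2145 (.cons 316 (.leaf 317 2338 (.cons 320 (.leaf 321 2344 (.cons 247 (.leaf 344 1983 (.leaf 223 1788 .nil)) .nil)) .nil)) .nil)) .nil))) (.cons 293 (.leaf 273 2153 (.cons 269 (.leaf 268 2147 (.cons 270 (.leaf 297 2155 (.cons 317 (.leaf 316 2338 (.cons 246 (.leaf 222 1774 (.leaf 341 1965 .nil)) .nil)) .nil)) .nil)) .nil)) (.cons 293 (.leaf 273 2153 (.cons 271 (.leaf 292 2145 (.cons 316 (.leaf 317 2338 (.cons 320 (.leaf 321 2344 (.cons 247 (.leaf 344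 1983 (.leaf 223 1788 .nil)) .nil)) .nil)) .nil)) .nil)) .nil))))) (.cons 274 (.leaf 273 2170 (.cons 298 (.leaf 297 2169 (.cons 322 t116 .nil)) .nil)) (.cons 273 (.leaf 274 2170 (.cons 294 (.leaf 293 2153 (.cons 297 (.cons 321 (.leaf 322 2352 (.cons 345 (.leaf 248 1991 (.leaf 369 2183 .nil)) .nil)) (.cons 318 (.leaf 317 2346 (.cons 269 (.leaf 270 2155 (.cons 319 (.leaf 298 2354 (.cons 343 (.leaf 367 2173 (.cons 320 (.leaf 248 1982 (.cons 344 (.leaf 249 1989 (.leaf 368 2181 .nil)) .nil)) .nil)) .nil)) .nil)) .nil)) (.cons 269 (.leaf 270 2155 (.cons 317 (.leaf 318 2346 (.cons 321 (.leaf 322 2352 (.cons 345 (.leaf 369 2183 (.cons 344 (.leaf 368 2182 (.cons 249 (.leaf 320 1989 (.cons 225 (.leaf 201 1606 (.cons 226 (.leaf 202 1613 (.leaf 250 1805 .nil)) .nil)) .nil)) .nil)) .nil)) .nil)) .nil)) .nil)) .nil))) .nil)) .nil)) (.cons 273 (.leaf 274 2170 (.cons 294 (.leaf 293 2153 (.cons 320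 t107 .nil)) .nil)) (.cons 273 (.leaf 274 2170 (.cons 294 (.leaf 293 2153 (.cons 297 (.cons 269 (.leaf 270 2155 (.cons 321 (.leaf 322 2352 (.cons 345 (.leaf 248 1991 (.leaf 369 2183 .nil)) .nil)) .nil)) (.cons 321 (.leaf 322 2352 (.cons 345 (.leaf 248 1991 (.leaf 369 2183 .nil)) .nil)) (.cons 269 (.leaf 270 2155 (.cons 318 (.leaf 317 2346 (.cons 298 (.leaf 319 2354 (.cons 299 (.leaf 271 2171 (.leaf 300 2179 .nil)) .nil)) .nil)) .nil)) .nil))) .nil)) .nil)) (.cons 273 (.leaf 274 2170 (.cons 294 (.leaf 293 2153 (.cons 297 (.cons 318 (.leaf 317 2346 (.cons 298 (.leaf 319 2354 (.cons 299 (.leaf 271 2171 (.leaf 300 2179 .nil)) .nil)) .nil)) (.cons 321 (.leaf 322 2352 (.cons 345 (.leaf 248 1991 (.leaf 369 2183 .nil)) .nil)) .nil)) .nil)) .nil)) (.cons 273 (.leaf 274 2170 (.cons 294 (.leaf 293 2153 (.cons 297 (.cons 269 (.leaf 270 2155 (.cons 321 (.leaf 322 2352 (.cons 317 (.leaf 318 2346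 (.cons 345 (.leaf 369 2183 (.cons 344 (.leaf 368 2182 (.cons 249 (.leaf 320 1989 (.cons 225 (.leaf 201 1606 (.cons 226 (.leaf 202 1613 (.leaf 250 1805 .nil)) .nil)) .nil)) .nil)) .nil)) .nil)) .nil)) .nil)) (.cons 321 (.leaf 322 2352 (.cons 345 (.leaf 369 2183 (.cons 344 (.leaf 368 2182 (.cons 249 (.leaf 320 1989 (.cons 225 (.leaf 201 1606 (.cons 226 (.leaf 202 1613 (.leaf 250 1805 .nil)) .nil)) .nil)) .nil)) .nil)) .nil)) (.cons 270 (.leaf 269 2155 (.cons 271 (.leaf 298 2160 (.cons 249 (.leaf 250 1969 (.cons 225 (.leaf 201 1606 (.leaf 320 1798 .nil)) .nil)) .nil)) .nil)) (.cons 270 (.leaf 269 2155 (.cons 271 (.leaf 298 2160 (.cons 245 (.leaf 246 1963 (.cons 318 (.leaf 317 2346 (.cons 247 (.leaf 223 1782 (.leaf 342 1973 .nil)) .nil)) .nil)) .nil)) .nil)) .nil)))) .nil)) .nil)) (.cons 273 (.leaf 274 2170 (.cons 294 (.leaf 293 2153 (.cons 297 (.cons 270 (.leaf 269 2155 (.cons 271 (.leaf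 298 2160 (.cons 249 (.leaf 250 1969 (.cons 225 (.leaf 201 1606 (.leaf 320 1798 .nil)) .nil)) .nil)) .nil)) (.cons 318 (.leaf 317 2346 (.cons 298 (.leaf 319 2354 (.cons 299 (.leaf 271 2171 (.leaf 300 2179 .nil)) .nil)) .nil)) (.cons 318 (.leaf 317 2346 (.cons 269 (.leaf 270 2155 (.cons 319 (.leaf 298 2354 (.cons 343 (.leaf 367 2173 (.cons 320 (.leaf 248 1982 (.cons 344 (.leaf 249 1989 (.leaf 368 2181 .nil)) .nil)) .nil)) .nil)) .nil)) .nil)) (.cons 270 (.leaf 269 2155 (.cons 318 (.leaf 317 2346 (.cons 246 (.cons 319 (.leaf 222 1780 (.leaf 343 1972 .nil)) (.cons 245 (.leaf 271 1963 (.leaf 221 1775 .nil)) .nil)) .nil)) .nil)) .nil)))) .nil)) .nil)) .nil)))))))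
noncomputable def t119 : T := .cons 298 (.leaf 274 2169 (.cons 271 (.leaf 299 2171 (.leaf 270 2163 .nil)) .nil)) (.cons 294 (.cons 269 (.leaf 270 2155 (.cons 318 (.leaf 317 2346 (.cons 321 (.leaf 322 2352 (.cons 345 (.leaf 369 2183 (.cons 320 (.leaf 248 1988 (.leaf 293 2344 .nil)) .nil)) .nil)) .nil)) .nil)) (.cons 321 (.leaf 322 2352 (.cons 293 (.leaf 320 2344 (.cons 317 (.leaf 316 2338 (.leaf 318 2346 .nil)) .nil)) .nil)) (.cons 269 (.leaf 270 2155 (.cons 293 (.leaf 268 2147 (.cons 292 (.leaf 271 2145 (.cons 315 (.leaf 316 2330 (.cons 291 (.leaf 314 2322 (.cons 319 (.leaf 320 2336 (.leaf 318 2328 .nil)) .nil)) .nil)) .nil)) .nil)) .nil)) (.cons 269 (.leaf 270 2155 (.cons 293 (.leaf 268 2147 (.cons 292 (.leaf 271 2145 (.cons 316 (.leaf 317 2338 (.leaf 315 2330 .nil)) .nil)) .nil)) .nil)) (.cons 269 (.leaf 270 2155 (.cons 318 (.leaf 317 2346 (.cons 321 (.leaf 322 2352 (.cons 345 (.leaf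 369 2183 (.cons 320 (.leaf 248 1988 (.cons 319 (.leaf 346 2544 (.cons 342 (.leaf 341 2538 (.cons 366 (.leaf 271 2165 (.leaf 390 2357 .nil)) .nil)) .nil)) .nil)) .nil)) .nil)) .nil)) .nil)) .nil))))) (.cons 298 (.leaf 274 2169 (.cons 318 (.leaf 319 2354 (.cons 294 (.leaf 317 2346 (.cons 269 (.leaf 270 2155 (.cons 293 (.leaf 268 2147 (.cons 321 (.leaf 320 2344 (.leaf 322 2352 .nil)) .nil)) .nil)) .nil)) .nil)) .nil)) (.cons 298 (.leaf 274 2169 (.cons 271 (.leaf 299 2171 (.cons 318 (.leaf 319 2354 (.cons 294 (.leaf 317 2346 (.cons 247 (.leaf 223 1782 (.cons 293 (.leaf 292 2145 (.cons 320 (.leaf 344 1983 (.leaf 321 2344 .nil)) .nil)) .nil)) .nil)) .nil)) .nil)) .nil)) .nil)))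
noncomputable def t120 : T := .cons 247 (.cons 223 (.leaf 199 1596 (.leaf 320 1788 .nil)) (.cons 223 (.leaf 199 1596 (.cons 222 (.leaf 198 1591 (.cons 319 (.leaf 246 1783 (.cons 342 (.leaf 318 1974 (.cons 343 (.leaf 248 1981 (.leaf 367 2173 .nil)) .nil)) .nil)) .nil)) .nil)) (.cons 319 (.cons 320 (.leaf 344 1980 (.cons 222 (.leaf 246 1783 (.cons 318 (.leaf 342 1974 (.cons 317 (.leaf 316 2337 (.leaf 292 2339 .nil)) .nil)) .nil)) .nil)) (.cons 343 (.leaf 248 1981 (.leaf 367 2173 .nil)) .nil)) .nil))) (.cons 270 (.cons 269 (.leaf 292 2146 (.leaf 268 2144 .nil)) (.cons 246 (.leaf 245 1963 (.cons 222 (.leaf 198 1588 (.cons 319 (.leaf 247 1783 (.leaf 343 1975 .nil)) .nil)) .nil)) .nil)) (.cons 270 (.cons 269 (.leaf 292 2146 (.leaf 268 2144 .nil)) (.cons 245 (.leaf 246 1963 (.cons 249 (.leaf 250 1969 (.cons 225 (.leaf 201 1606 (.cons 320 (.leaf 248 1797 (.leaf 344 1989 .nil)) .nil)) .nil))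 .nil)) .nil)) (.cons 249 (.cons 225 (.leaf 201 1606 (.cons 320 (.leaf 248 1797 (.leaf 344 1989 .nil)) .nil)) (.cons 201 (.leaf 225 1606 (.cons 270 (.leaf 250 1969 (.cons 269 (.leaf 248 1961 (.leaf 292 2146 .nil)) .nil)) .nil)) (.cons 320 (.leaf 344 1989 (.cons 223 (.leaf 247 1788 (.cons 270 (.leaf 250 1969 (.cons 269 (.leaf 248 1961 (.leaf 292 2146 .nil)) .nil)) .nil)) .nil)) (.cons 320 (.leaf 344 1989 (.cons 201 (.leaf 225 1606 (.cons 223 (.leaf 247 1788 (.cons 270 (.leaf 250 1969 (.cons 269 (.leaf 292 2146 (.leaf 268 2144 .nil)) .nil)) .nil)) .nil)) .nil)) .nil)))) (.cons 270 (.cons 245 (.leaf 246 1963 (.cons 249 (.leaf 250 1969 (.cons 225 (.leaf 201 1606 (.cons 320 (.leaf 248 1797 (.leaf 344 1989 .nil)) .nil)) .nil)) .nil)) (.cons 245 (.leaf 246 1963 (.cons 269 (.leaf 244 1955 (.leaf 268 2144 .nil)) .nil)) (.cons 249 (.leaf 250 1969 (.cons 269 (.leaf 248 1961 (.leaf 268 2144 .nil))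 .nil)) .nil))) .nil))))
noncomputable def t121 : T := .cons 227 (.leaf 203 1622 (.cons 322 (.leaf 299 1814 (.leaf 346 2005 .nil)) .nil)) (.cons 322 (.leaf 346 2005 (.cons 250 (.cons 249 (.leaf 225 1807 (.cons 248 (.leaf 247 1976 (.leaf 271 1978 .nil)) .nil)) (.cons 323 (.leaf 347 2004 (.cons 299 (.leaf 226 1812 (.cons 252 (.leaf 228 1821 (.cons 253 (.leaf 254 2002 (.cons 229 (.leaf 230 1809 (.cons 324 (.leaf 348 2012 (.cons 277 (.leaf 278 2000 (.cons 301 (.leaf 300 1830 (.cons 302 (.leaf 325 2385 (.leaf 326 1836 .nil)) .nil)) .nil)) .nil)) .nil)) .nil)) .nil)) .nil)) .nil)) .nil)) .nil)) (.cons 227 (.leaf 203 1622 (.cons 299 (.cons 228 (.leaf 204 1629 (.cons 300 (.leaf 324 1820 (.cons 301 (.leaf 302 2195 (.cons 277 (.leaf 278 2193 (.cons 325 (.leaf 326 2384 (.cons 253 (.leaf 252 1831 (.cons 226 (.leaf 202 1623 (.cons 254 (.leaf 229 1808 (.leaf 230 1837 .nil)) .nil)) .nil)) .nil)) .nil))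 .nil)) .nil)) .nil)) (.cons 228 (.leaf 204 1629 (.cons 252 (.leaf 323 1821 (.cons 253 (.leaf 254 2002 (.cons 300 (.leaf 324 1820 (.cons 301 (.leaf 302 2195 (.cons 277 (.leaf 278 2193 (.leaf 325 1831 .nil)) .nil)) .nil)) .nil)) .nil)) .nil)) (.cons 226 (.leaf 202 1623 (.cons 323 (.leaf 250 1812 (.cons 324 (.leaf 300 1820 (.leaf 348 2012 .nil)) .nil)) .nil)) (.cons 226 (.leaf 202 1623 (.cons 228 (.leaf 204 1629 (.cons 252 (.leaf 323 1821 (.cons 253 (.leaf 254 2002 (.leaf 225 1800 .nil)) .nil)) .nil)) .nil)) .nil)))) .nil)) (.cons 227 (.leaf 203 1622 (.cons 322 (.leaf 346 2005 (.leaf 250 1813 .nil)) .nil)) .nil)))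
noncomputable def t122 : T := .cons 273 (.leaf 274 2170 (.leaf 293 2153 .nil)) (.cons 269 (.cons 268 (.leaf 293 2147 (.cons 270 (.leaf 297 2155 (.leaf 267 2136 .nil)) .nil)) (.cons 297 (.leaf 270 2155 (.cons 298 (.leaf 274 2169 (.cons 318 (.leaf 317 2346 (.leaf 319 2354 .nil)) .nil)) .nil)) (.cons 293 (.leaf 268 2147 (.cons 317 (.leaf 316 2338 (.cons 318 (.leaf 297 2346 (.cons 245 (.leaf 221 1772 (.leaf 342 1964 .nil)) .nil)) .nil)) .nil)) (.cons 293 (.leaf 268 2147 (.cons 316 (.leaf 317 2338 (.cons 292 (.leaf 315 2330 (.cons 221 (.leaf 245 1766 (.cons 319 (.leaf 320 2336 (.cons 291 (.leaf 318 2328 (.cons 266 (.leaf 267 2131 (.cons 290 (.leaf 270 2129 (.leaf 265 2123 .nil)) .nil)) .nil)) .nil)) .nil)) .nil)) .nil)) .nil)) .nil)))) (.cons 274 (.leaf 273 2170 (.cons 297 (.leaf 298 2169 (.cons 318 (.leaf 317 2346 (.cons 270 (.leaf 269 2155 (.cons 342 (.cons 365 (.leaf 341 2158 (.cons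 366 (.leaf 389 2350 (.cons 390 (.leaf 319 2357 (.cons 391 (.leaf 367 2356 (.leaf 415 2548 .nil)) .nil)) .nil)) .nil)) (.cons 365 (.leaf 341 2158 (.cons 366 (.leaf 389 2350 (.cons 319 (.leaf 390 2357 (.cons 246 (.leaf 222 1780 (.leaf 343 1972 .nil)) .nil)) .nil)) .nil)) (.cons 365 (.leaf 341 2158 (.cons 366 (.leaf 389 2350 (.cons 367 (.leaf 343 2164 (.leaf 391 2356 .nil)) .nil)) .nil)) (.cons 343 (.leaf 367 2164 (.cons 246 (.leaf 319 1972 (.cons 221 (.leaf 245 1775 (.cons 222 (.leaf 197 1583 (.cons 223 (.leaf 199 1589 (.leaf 247 1781 .nil)) .nil)) .nil)) .nil)) .nil)) .nil)))) .nil)) .nil)) .nil)) .nil)) (.cons 293 (.leaf 273 2153 (.cons 269 (.leaf 268 2147 (.cons 270 (.leaf 297 2155 (.cons 317 (.leaf 316 2338 (.cons 246 (.leaf 222 1774 (.leaf 341 1965 .nil)) .nil)) .nil)) .nil)) .nil)) .nil)))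
noncomputable def t123 : T := .cons 270 (.leaf 269 2155 (.cons 298 (.leaf 271 2163 (.cons 323 (.leaf 322 2360 (.cons 299 (.leaf 324 2368 (.cons 273 (.leaf 300 2179 (.cons 320 (.leaf 319 2362 (.cons 249 (.leaf 344 1989 (.leaf 225 1798 .nil)) .nil)) .nil)) .nil)) .nil)) .nil)) .nil)) (.cons 318 (.leaf 317 2346 (.cons 298 (.leaf 319 2354 (.cons 299 (.leaf 271 2171 (.cons 323 (.leaf 322 2360 (.leaf 324 2368 .nil)) .nil)) .nil)) .nil)) (.cons 318 (.leaf 317 2346 (.cons 270 (.leaf 269 2155 (.cons 319 (.leaf 298 2354 (.cons 343 (.leaf 367 2173 (.leaf 246 1972 .nil)) .nil)) .nil)) .nil)) (.cons 270 (.leaf 269 2155 (.cons 318 (.leaf 317 2346 (.cons 343 (.cons 319 (.leaf 367 2173 (.leaf 246 1972 .nil)) (.cons 342 (.leaf 367 2164 (.cons 271 (.leaf 366 2165 (.leaf 247 1973 .nil)) .nil)) (.cons 246 (.leaf 319 1972 (.cons 221 (.leaf 245 1775 (.cons 222 (.leaf 197 1583 (.cons 198 (.leaf 271 1588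 (.cons 199 (.leaf 223 1589 (.leaf 175 1397 .nil)) .nil)) .nil)) .nil)) .nil)) .nil))) .nil)) .nil)) (.cons 270 (.leaf 269 2155 (.cons 271 (.leaf 298 2163 (.cons 318 (.leaf 317 2346 (.cons 247 (.leaf 223 1782 (.leaf 342 1973 .nil)) .nil)) .nil)) .nil)) .nil))))
noncomputable def t124 : T := .cons 269 (.leaf 270 2155 (.cons 293 (.leaf 268 2147 (.cons 292 (.leaf 271 2145 (.cons 315 (.leaf 316 2330 (.cons 291 (.leaf 314 2322 (.cons 319 (.leaf 320 2336 (.leaf 318 2328 .nil)) .nil)) .nil)) .nil)) .nil)) .nil)) (.cons 317 (.leaf 318 2346 (.cons 293 (.leaf 316 2338 (.cons 319 (.cons 320 (.leaf 292 2336 (.cons 343 (.leaf 248 1982 (.leaf 367 2173 .nil)) .nil)) (.cons 343 (.leaf 367 2173 (.cons 248 (.leaf 271 1981 (.leaf 320 1982 .nil)) .nil)) (.cons 292 (.leaf 271 2145 (.leaf 320 2336 .nil)) (.cons 271 (.leaf 292 2145 (.cons 343 (.leaf 248 1981 (.leaf 367 2173 .nil)) .nil)) .nil)))) .nil)) .nil))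 (.cons 269 (.leaf 270 2155 (.cons 293 (.leaf 268 2147 (.cons 292 (.leaf 271 2145 (.cons 316 (.leaf 317 2338 (.leaf 315 2330 .nil)) .nil)) .nil)) .nil)) (.cons 317 (.leaf 318 2346 (.cons 269 (.leaf 270 2155 (.cons 293 (.leaf 268 2147 (.leaf 316 2338 .nil)) .nil)) .nil)) (.cons 270 (.leaf 269 2155 (.cons 318 (.leaf 317 2346 (.cons 343 (.cons 319 (.leaf 367 2173 (.leaf 246 1972 .nil)) (.cons 342 (.leaf 367 2164 (.cons 271 (.leaf 366 2165 (.leaf 247 1973 .nil)) .nil)) (.cons 246 (.leaf 319 1972 (.cons 221 (.leaf 245 1775 (.cons 222 (.leaf 197 1583 (.cons 198 (.leaf 271 1588 (.cons 199 (.leaf 223 1589 (.leaf 175 1397 .nil)) .nil)) .nil)) .nil)) .nil)) .nil))) .nil)) .nil)) .nil))))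
noncomputable def t125 : T := .cons 270 (.cons 269 (.leaf 292 2146 (.leaf 297 2152 .nil)) (.cons 245 (.leaf 246 1963 (.cons 249 (.leaf 250 1969 (.cons 225 (.leaf 201 1606 (.cons 320 (.leaf 248 1797 (.leaf 344 1989 .nil)) .nil)) .nil)) .nil)) .nil)) (.cons 247 (.cons 223 (.leaf 199 1596 (.leaf 320 1788 .nil)) (.cons 223 (.leaf 199 1596 (.cons 222 (.leaf 198 1591 (.cons 319 (.leaf 246 1783 (.cons 342 (.leaf 318 1974 (.cons 343 (.leaf 248 1981 (.leaf 367 2173 .nil)) .nil)) .nil)) .nil)) .nil)) (.cons 319 (.cons 320 (.leaf 344 1980 (.cons 222 (.leaf 246 1783 (.cons 318 (.leaf 342 1974 (.cons 317 (.leaf 316 2337 (.leaf 297 2345 .nil)) .nil)) .nil)) .nil)) (.cons 343 (.leaf 248 1981 (.leaf 367 2173 .nil)) .nil)) .nil))) (.cons 270 (.cons 269 (.leaf 292 2146 (.leaf 297 2152 .nil)) (.cons 246 (.leaf 245 1963 (.cons 222 (.leaf 198 1588 (.cons 319 (.leaf 247 1783 (.leaf 343 1975 .nil)) .nil))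 .nil)) .nil)) (.cons 270 (.cons 269 (.leaf 292 2146 (.leaf 268 2144 .nil)) (.cons 245 (.leaf 246 1963 (.cons 249 (.leaf 250 1969 (.cons 225 (.leaf 201 1606 (.cons 320 (.leaf 248 1797 (.leaf 344 1989 .nil)) .nil)) .nil)) .nil)) .nil)) (.cons 270 (.cons 269 (.leaf 292 2146 (.leaf 297 2152 .nil)) (.cons 297 (.leaf 298 2160 (.cons 249 (.leaf 250 1969 (.cons 225 (.leaf 201 1606 (.leaf 320 1798 .nil)) .nil)) .nil)) (.cons 269 (.leaf 292 2146 (.leaf 268 2144 .nil)) .nil))) .nil))))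
noncomputable def t126 : T := .cons 273 (.leaf 274 2170 (.cons 293 (.leaf 294 2153 (.cons 271 t125 .nil)) .nil)) (.cons 297 (.cons 298 (.leaf 274 2169 (.cons 319 (.leaf 318 2354 (.cons 299 (.leaf 271 2171 (.leaf 320 2362 .nil)) .nil)) .nil)) (.cons 294 t124 (.cons 298 (.leaf 274 2169 (.cons 319 (.leaf 318 2354 (.cons 299 (.leaf 320 2362 (.cons 323 (.leaf 322 2360 (.leaf 324 2368 .nil)) .nil)) .nil)) .nil)) (.cons 298 (.leaf 274 2169 (.cons 271 (.leaf 299 2171 (.leaf 270 2163 .nil)) .nil)) .nil)))) (.cons 294 (.cons 293 (.leaf 273 2153 (.cons 268 (.leaf 269 2147 (.cons 292 (.leaf 271 2145 (.leaf 267 2139 .nil)) .nil)) .nil)) (.cons 297 t123 (.cons 293 (.cons 268 (.leaf 269 2147 (.cons 292 (.leaf 271 2145 (.leaf 267 2139 .nil)) .nil)) (.cons 269 (.leaf 268 2147 (.cons 270 (.leaf 297 2155 (.cons 317 (.leaf 316 2338 (.cons 246 (.leaf 222 1774 (.leaf 341 1965 .nil)) .nil)) .nil)) .nil))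 (.cons 271 (.leaf 292 2145 (.cons 317 (.leaf 316 2338 (.cons 297 (.leaf 318 2346 (.cons 298 (.leaf 299 2171 (.leaf 270 2163 .nil)) .nil)) .nil)) .nil)) .nil))) (.cons 293 (.leaf 273 2153 (.cons 269 (.leaf 268 2147 (.cons 270 (.leaf 297 2155 (.cons 317 (.leaf 316 2338 (.cons 246 (.leaf 222 1774 (.leaf 341 1965 .nil)) .nil)) .nil)) .nil)) .nil)) (.cons 293 (.leaf 273 2153 (.cons 271 (.leaf 292 2145 (.cons 317 (.leaf 316 2338 (.cons 297 (.leaf 318 2346 (.cons 298 (.leaf 299 2171 (.leaf 270 2163 .nil)) .nil)) .nil)) .nil)) .nil)) .nil))))) (.cons 294 t122 (.cons 274 (.leaf 273 2170 (.cons 298 (.leaf 297 2169 (.cons 251 t121 .nil)) .nil)) (.cons 273 (.leaf 274 2170 (.cons 293 (.leaf 294 2153 (.cons 271 t120 .nil)) .nil)) (.cons 273 (.leaf 274 2170 (.cons 294 (.leaf 293 2153 (.cons 297 (.cons 318 (.leaf 317 2346 (.cons 298 (.leaf 319 2354 (.cons 299 (.leaf 271 2171 (.leaf 300 2179 .nil))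 .nil)) .nil)) (.cons 270 (.leaf 269 2155 (.cons 318 (.leaf 317 2346 (.cons 246 (.cons 319 (.leaf 222 1780 (.leaf 343 1972 .nil)) (.cons 245 (.leaf 271 1963 (.leaf 221 1775 .nil)) .nil)) .nil)) .nil)) (.cons 270 (.leaf 269 2155 (.cons 271 (.leaf 298 2160 (.cons 249 (.leaf 250 1969 (.cons 225 (.leaf 201 1606 (.leaf 320 1798 .nil)) .nil)) .nil)) .nil)) (.cons 318 (.leaf 317 2346 (.cons 269 (.leaf 270 2155 (.cons 319 (.leaf 298 2354 (.cons 343 (.leaf 367 2173 (.cons 320 (.leaf 248 1982 (.cons 344 (.leaf 249 1989 (.leaf 368 2181 .nil)) .nil)) .nil)) .nil)) .nil)) .nil)) .nil)))) .nil)) .nil)) .nil))))))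
noncomputable def t127 : T := .leaf 300 2370 (.cons 250 (.leaf 226 1806 (.cons 251 (.cons 227 (.leaf 203 1622 (.leaf 322 1813 .nil)) (.cons 227 (.leaf 203 1622 (.cons 228 (.leaf 204 1629 (.cons 323 (.leaf 252 1821 (.leaf 347 2007 .nil)) .nil)) .nil)) (.cons 344 (.cons 346 (.leaf 322 2005 (.cons 323 (.leaf 347 2007 (.cons 228 (.leaf 252 1821 (.cons 367 (.leaf 343 2174 (.cons 368 (.leaf 391 2366 (.leaf 392 2373 .nil)) .nil)) .nil)) .nil)) .nil)) (.cons 323 (.leaf 347 2007 (.cons 228 (.leaf 252 1821 (.cons 367 (.leaf 343 2174 (.cons 368 (.leaf 391 2366 (.leaf 392 2373 .nil)) .nil)) .nil)) .nil)) (.cons 322 (.leaf 346 2005 (.cons 225 (.leaf 249 1807 (.cons 367 (.leaf 343 2174 (.cons 368 (.leaf 391 2366 (.leaf 392 2373 .nil)) .nil)) .nil)) .nil)) (.cons 322 (.leaf 346 2005 (.cons 323 (.leaf 347 2004 (.leaf 343 2554 .nil)) .nil)) (.cons 346 (.leaf 322 2005 (.cons 368 (.leaf 392 2373 (.cons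 347 (.leaf 323 2007 (.cons 367 (.leaf 391 2366 (.cons 369 (.leaf 393 2372 (.leaf 370 2745 .nil)) .nil)) .nil)) .nil)) .nil)) .nil))))) .nil))) .nil)) .nil)
noncomputable def t128 : T := .cons 226 (.leaf 321 1806 (.cons 203 (.leaf 227 1621 (.cons 225 (.leaf 201 1615 (.cons 179 (.leaf 202 1429 (.cons 249 (.leaf 322 1807 (.cons 248 (.leaf 247 1976 (.leaf 320 1797 .nil)) .nil)) .nil)) .nil)) .nil)) .nil)) (.cons 322 (.cons 225 (.leaf 249 1807 (.cons 323 (.leaf 347 2004 (.cons 324 (.leaf 321 2371 (.leaf 325 2379 .nil)) .nil)) .nil)) (.cons 251 (.leaf 346 2005 (.leaf 227 1813 .nil)) .nil)) (.cons 226 (.leaf 321 1806 (.cons 203 (.leaf 227 1621 (.cons 202 (.leaf 179 1429 (.cons 201 (.leaf 177 1423 (.leaf 225 1615 .nil)) .nil)) .nil)) .nil)) (.cons 249 (.cons 248 (.leaf 247 1976 (.cons 225 (.leaf 320 1797 (.leaf 322 1807 .nil)) .nil)) (.cons 225 (.leaf 322 1807 (.cons 201 (.leaf 177 1420 (.leaf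 226 1615 .nil)) .nil)) (.cons 248 (.leaf 247 1976 (.cons 251 (.leaf 271 1978 (.cons 227 (.leaf 203 1622 (.leaf 322 1813 .nil)) .nil)) .nil)) (.cons 248 (.leaf 247 1976 (.cons 225 (.leaf 320 1797 (.cons 177 (.leaf 201 1420 (.cons 251 (.leaf 271 1978 (.cons 227 (.leaf 203 1622 (.leaf 228 1793 .nil)) .nil)) .nil)) .nil)) .nil)) .nil)))) (.cons 226 (.leaf 321 1806 (.cons 201 (.leaf 225 1615 (.cons 202 (.leaf 177 1423 (.cons 178 (.leaf 251 1428 (.cons 179 (.leaf 203 1429 (.leaf 155 1237 .nil)) .nil)) .nil)) .nil)) .nil)) (.cons 226 (.leaf 321 1806 (.cons 203 (.leaf 227 1621 (.cons 202 (.leaf 179 1429 (.cons 177 (.leaf 201 1423 (.cons 178 (.leaf 251 1428 (.leaf 153 1231 .nil)) .nil)) .nil)) .nil)) .nil)) .nil)))))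
noncomputable def t129 : T := .cons 227 (.leaf 203 1622 (.cons 299 (.leaf 322 1814 (.cons 228 (.leaf 204 1629 (.cons 300 (.leaf 324 1820 (.cons 301 (.leaf 302 2195 (.cons 277 (.leaf 278 2193 (.cons 325 (.leaf 326 2384 (.cons 253 (.leaf 252 1831 (.cons 226 (.leaf 202 1623 (.cons 254 (.leaf 229 1808 (.leaf 230 1837 .nil)) .nil)) .nil)) .nil)) .nil)) .nil)) .nil)) .nil)) .nil)) .nil)) (.cons 322 (.leaf 346 2005 (.cons 250 (.cons 323 (.leaf 347 2004 (.cons 249 (.leaf 225 1807 (.cons 248 (.leaf 247 1976 (.leaf 271 1978 .nil)) .nil)) .nil)) (.cons 249 (.leaf 225 1807 (.cons 248 (.leaf 247 1976 (.leaf 271 1978 .nil)) .nil)) (.cons 323 (.leaf 347 2004 (.cons 299 (.leaf 226 1812 (.cons 297 (.leaf 271 2171 (.leaf 324 2368 .nil)) .nil)) .nil)) (.cons 323 (.leaf 347 2004 (.cons 299 (.leaf 226 1812 (.cons 252 (.leaf 228 1821 (.cons 253 (.leaf 254 2002 (.cons 229 (.leaf 230 1809 (.cons 324 (.leaf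 348 2012 (.leaf 297 2368 .nil)) .nil)) .nil)) .nil)) .nil)) .nil)) .nil)))) .nil)) (.cons 227 (.leaf 203 1622 (.cons 299 (.cons 228 (.leaf 204 1629 (.cons 300 (.leaf 324 1820 (.cons 301 (.leaf 302 2195 (.cons 277 (.leaf 278 2193 (.cons 325 (.leaf 326 2384 (.cons 253 (.leaf 252 1831 (.cons 226 (.leaf 202 1623 (.cons 254 (.leaf 229 1808 (.leaf 230 1837 .nil)) .nil)) .nil)) .nil)) .nil)) .nil)) .nil)) .nil)) (.cons 228 (.leaf 204 1629 (.cons 252 (.leaf 323 1821 (.cons 253 (.leaf 254 2002 (.cons 300 (.leaf 324 1820 (.cons 301 (.leaf 302 2195 (.cons 277 (.leaf 278 2193 (.leaf 325 1831 .nil)) .nil)) .nil)) .nil)) .nil)) .nil)) (.cons 226 (.leaf 202 1623 (.cons 228 (.leaf 204 1629 (.cons 323 (.leaf 250 1812 (.leaf 252 1821 .nil)) .nil)) .nil)) (.cons 226 (.leaf 202 1623 (.cons 323 (.leaf 250 1812 (.cons 324 (.leaf 300 1820 (.leaf 348 2012 .nil)) .nil)) .nil)) .nil)))) .nil)) (.cons 227 (.leaf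 203 1622 (.cons 322 (.leaf 346 2005 (.leaf 250 1813 .nil)) .nil)) .nil)))
noncomputable def t130 : T := .cons 227 (.leaf 203 1622 (.cons 299 (.leaf 322 1814 (.cons 228 (.leaf 204 1629 (.cons 300 (.leaf 324 1820 (.cons 301 (.leaf 302 2195 (.cons 277 (.leaf 278 2193 (.cons 325 (.leaf 326 2384 (.cons 253 (.leaf 252 1831 (.cons 226 (.leaf 202 1623 (.cons 254 (.leaf 229 1808 (.leaf 230 1837 .nil)) .nil)) .nil)) .nil)) .nil)) .nil)) .nil)) .nil)) .nil)) .nil)) (.cons 322 (.leaf 346 2005 (.cons 250 (.cons 323 (.leaf 347 2004 (.cons 249 (.leaf 225 1807 (.cons 248 (.leaf 247 1976 (.leaf 271 1978 .nil)) .nil)) .nil)) (.cons 249 (.leaf 225 1807 (.cons 248 (.leaf 247 1976 (.leaf 271 1978 .nil)) .nil)) (.cons 323 (.leaf 347 2004 (.cons 299 (.leaf 226 1812 (.cons 228 (.leaf 252 1821 (.cons 324 (.leaf 348 2012 (.cons 325 (.leaf 326 2387 (.cons 301 (.leaf 302 2385 (.cons 321 (.leaf 300 2377 (.cons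 320 (.leaf 295 2363 (.leaf 319 2361 .nil)) .nil)) .nil)) .nil)) .nil)) .nil)) .nil)) .nil)) .nil))) .nil)) (.cons 227 (.leaf 203 1622 (.cons 299 (.cons 228 (.leaf 204 1629 (.cons 300 (.leaf 324 1820 (.cons 301 (.leaf 302 2195 (.cons 277 (.leaf 278 2193 (.cons 325 (.leaf 326 2384 (.cons 253 (.leaf 252 1831 (.cons 226 (.leaf 202 1623 (.cons 254 (.leaf 229 1808 (.leaf 230 1837 .nil)) .nil)) .nil)) .nil)) .nil)) .nil)) .nil)) .nil)) (.cons 228 (.leaf 204 1629 (.cons 252 (.leaf 323 1821 (.cons 253 (.leaf 254 2002 (.cons 300 (.leaf 324 1820 (.cons 301 (.leaf 302 2195 (.cons 277 (.leaf 278 2193 (.leaf 325 1831 .nil)) .nil)) .nil)) .nil)) .nil)) .nil)) (.cons 226 (.leaf 202 1623 (.cons 323 (.leaf 250 1812 (.cons 324 (.leaf 300 1820 (.leaf 348 2012 .nil)) .nil)) .nil)) (.cons 226 (.leaf 202 1623 (.cons 228 (.leaf 204 1629 (.cons 323 (.leaf 250 1812 (.leaf 252 1821 .nil)) .nil)) .nil)) .nil))))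 .nil)) (.cons 227 (.leaf 203 1622 (.cons 322 (.leaf 346 2005 (.leaf 250 1813 .nil)) .nil)) .nil)))
noncomputable def t131 : T := .cons 297 (.leaf 295 2169 (.cons 250 (.cons 226 (.leaf 321 1806 (.cons 203 (.leaf 227 1621 (.cons 225 (.leaf 201 1615 (.cons 179 (.leaf 202 1429 (.cons 299 (.leaf 271 2171 (.leaf 323 1812 .nil)) .nil)) .nil)) .nil)) .nil)) (.cons 226 (.leaf 321 1806 (.cons 203 (.leaf 227 1621 (.cons 225 (.leaf 201 1615 (.cons 179 (.leaf 202 1429 (.cons 249 (.leaf 322 1807 (.cons 248 (.leaf 247 1976 (.leaf 320 1797 .nil)) .nil)) .nil)) .nil)) .nil)) .nil)) (.cons 299 (.leaf 271 2171 (.cons 323 (.leaf 347 2007 (.leaf 324 2368 .nil)) .nil)) .nil))) .nil)) (.cons 251 t130 (.cons 251 t129 (.cons 297 (.leaf 295 2169 (.cons 250 t128 .nil)) (.cons 297 (.leaf 295 2169 (.cons 299 (.leaf 271 2171 (.cons 320 (.leaf 319 2362 (.cons 300 (.leaf 321 2370 (.cons 301 (.leaf 302 2195 (.cons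 325 (.leaf 324 2376 (.leaf 326 2384 .nil)) .nil)) .nil)) .nil)) .nil)) .nil)) (.cons 297 (.leaf 295 2169 (.cons 250 (.cons 322 (.cons 225 (.leaf 249 1807 (.cons 323 (.leaf 347 2004 (.cons 324 (.leaf 299 2368 (.leaf 321 2371 .nil)) .nil)) .nil)) (.cons 251 (.leaf 346 2005 (.leaf 227 1813 .nil)) .nil)) (.cons 322 (.cons 225 (.leaf 249 1807 (.cons 323 (.leaf 347 2004 (.cons 324 (.leaf 321 2371 (.leaf 325 2379 .nil)) .nil)) .nil)) (.cons 251 (.leaf 346 2005 (.leaf 227 1813 .nil)) .nil)) (.cons 226 (.leaf 321 1806 (.cons 299 (.leaf 202 1620 (.leaf 323 1812 .nil)) .nil)) (.cons 226 (.leaf 321 1806 (.cons 201 (.leaf 225 1615 (.cons 202 (.leaf 299 1620 (.leaf 177 1423 .nil)) .nil)) .nil)) (.cons 299 (.cons 323 (.leaf 347 2007 (.leaf 324 2368 .nil)) (.cons 226 (.leaf 202 1620 (.cons 201 (.leaf 225 1615 (.cons 227 (.leaf 203 1621 (.cons 251 (.leaf 322 1813 (.cons 228 (.leaf 204 1629 (.cons 229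 (.leaf 249 1802 (.leaf 230 1810 .nil)) .nil)) .nil)) .nil)) .nil)) .nil)) .nil)) .nil))))) .nil)) (.cons 297 (.leaf 295 2169 (.cons 299 (.leaf 271 2171 (.cons 320 (.leaf 319 2362 (.cons 321 t127 .nil)) .nil)) .nil)) .nil))))))
noncomputable def t132 : T := .cons 273 (.leaf 295 2170 (.cons 251 (.leaf 252 1985 (.cons 250 (.leaf 271 1977 (.cons 299 (.leaf 300 2176 (.cons 226 (.leaf 202 1620 (.leaf 323 1815 .nil)) .nil)) .nil)) .nil)) .nil)) (.cons 298 t131 (.cons 273 (.cons 247 (.leaf 248 1979 (.cons 251 (.leaf 252 1985 (.cons 271 (.leaf 246 1971 (.leaf 250 1977 .nil)) .nil)) .nil)) (.cons 299 (.leaf 300 2176 (.cons 247 (.leaf 248 1979 (.cons 271 (.leaf 246 1971 (.leaf 298 2168 .nil)) .nil)) .nil)) (.cons 299 (.leaf 300 2176 (.cons 251 (.leaf 252 1985 (.cons 271 (.leaf 250 1977 (.leaf 298 2168 .nil)) .nil)) .nil)) (.cons 299 (.leaf 300 2176 (.cons 251 (.leaf 252 1985 (.cons 248 (.leaf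 247 1979 (.cons 227 (.cons 298 (.leaf 203 1622 (.leaf 322 1814 .nil)) (.cons 202 (.leaf 226 1623 (.cons 203 (.leaf 178 1431 (.cons 204 (.leaf 180 1437 (.leaf 228 1629 .nil)) .nil)) .nil)) (.cons 202 (.leaf 226 1623 (.cons 204 (.leaf 228 1629 (.cons 322 (.leaf 298 1814 (.cons 323 (.leaf 346 2006 (.cons 347 (.leaf 250 2007 (.cons 348 (.leaf 324 2012 (.leaf 372 2204 .nil)) .nil)) .nil)) .nil)) .nil)) .nil)) .nil))) .nil)) .nil)) .nil)) .nil)))) (.cons 273 (.leaf 295 2170 (.cons 247 (.leaf 248 1979 (.cons 251 (.leaf 252 1985 (.cons 271 (.leaf 246 1971 (.leaf 250 1977 .nil)) .nil)) .nil)) .nil)) (.cons 273 (.leaf 295 2170 (.cons 247 (.leaf 248 1979 (.cons 271 (.leaf 246 1971 (.cons 299 (.leaf 300 2176 (.leaf 298 2168 .nil)) .nil)) .nil)) .nil)) (.cons 273 (.leaf 295 2170 (.cons 299 (.leaf 300 2176 (.cons 251 (.leaf 252 1985 (.cons 248 (.leaf 247 1979 (.cons 227 (.cons 298 (.leaf 203 1622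 (.leaf 322 1814 .nil)) (.cons 202 (.leaf 226 1623 (.cons 203 (.leaf 178 1431 (.cons 204 (.leaf 180 1437 (.leaf 228 1629 .nil)) .nil)) .nil)) (.cons 202 (.leaf 226 1623 (.cons 204 (.leaf 228 1629 (.cons 322 (.leaf 298 1814 (.cons 323 (.leaf 346 2006 (.cons 347 (.leaf 250 2007 (.cons 348 (.leaf 324 2012 (.leaf 372 2204 .nil)) .nil)) .nil)) .nil)) .nil)) .nil)) .nil))) .nil)) .nil)) .nil)) .nil)) .nil)))))
noncomputable def t133 : T := .cons 299 (.leaf 300 2176 (.cons 251 (.leaf 252 1985 (.cons 248 (.leaf 247 1979 (.cons 227 (.cons 298 (.leaf 203 1622 (.leaf 322 1814 .nil)) (.cons 202 (.leaf 226 1623 (.cons 203 (.leaf 178 1431 (.cons 204 (.leaf 180 1437 (.leaf 228 1629 .nil)) .nil)) .nil)) (.cons 202 (.leaf 226 1623 (.cons 204 (.leaf 228 1629 (.cons 322 (.leaf 298 1814 (.cons 323 (.leaf 346 2006 (.cons 324 (.leaf 348 2012 (.cons 250 (.leaf 347 2007 (.leaf 271 1977 .nil)) .nil)) .nil))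 .nil)) .nil)) .nil)) .nil))) .nil)) .nil)) .nil)) (.cons 251 (.leaf 252 1985 (.cons 271 (.leaf 250 1977 (.cons 246 (.leaf 247 1971 (.cons 270 (.leaf 245 1963 (.cons 297 (.leaf 269 2152 (.leaf 298 2160 .nil)) .nil)) .nil)) .nil)) .nil)) (.cons 299 (.leaf 300 2176 (.cons 247 (.leaf 248 1979 (.cons 271 (.leaf 246 1971 (.leaf 298 2168 .nil)) .nil)) .nil)) (.cons 299 (.leaf 300 2176 (.cons 251 (.leaf 252 1985 (.cons 271 (.leaf 250 1977 (.leaf 298 2168 .nil)) .nil)) .nil)) (.cons 299 (.leaf 300 2176 (.cons 251 (.leaf 252 1985 (.cons 248 (.leaf 247 1979 (.cons 227 (.cons 298 (.leaf 203 1622 (.leaf 322 1814 .nil)) (.cons 202 (.leaf 226 1623 (.cons 203 (.leaf 178 1431 (.cons 204 (.leaf 180 1437 (.leaf 228 1629 .nil)) .nil)) .nil)) (.cons 202 (.leaf 226 1623 (.cons 204 (.leaf 228 1629 (.cons 322 (.leaf 298 1814 (.cons 323 (.leaf 346 2006 (.cons 324 (.leaf 348 2012 (.cons 321 (.leaf 297 2371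 (.cons 345 (.leaf 320 1988 (.leaf 344 2562 .nil)) .nil)) .nil)) .nil)) .nil)) .nil)) .nil)) .nil))) .nil)) .nil)) .nil)) (.cons 247 (.leaf 248 1979 (.cons 251 (.leaf 252 1985 (.cons 271 (.leaf 246 1971 (.leaf 250 1977 .nil)) .nil)) .nil)) .nil)))))
noncomputable def t134 : T := .leaf 295 2169 (.cons 322 (.cons 321 (.cons 345 (.leaf 369 2189 (.leaf 250 1998 .nil)) (.cons 323 (.leaf 324 2371 (.cons 346 (.leaf 251 2005 (.cons 347 (.leaf 250 2004 (.leaf 371 2196 .nil)) .nil)) .nil)) (.cons 345 (.leaf 369 2189 (.cons 248 (.leaf 320 1988 (.cons 323 (.leaf 324 2371 (.cons 346 (.leaf 251 2005 (.cons 370 (.leaf 394 2383 (.cons 371 (.leaf 347 2196 (.leaf 395 2388 .nil)) .nil)) .nil)) .nil)) .nil)) .nil)) .nil))) (.cons 321 (.cons 345 (.leaf 369 2189 (.leaf 250 1998 .nil)) (.cons 323 (.leaf 324 2371 (.cons 250 (.leaf 226 1806 (.leaf 347 2004 .nil)) .nil)) (.cons 345 (.leaf 369 2189 (.cons 320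 (.leaf 248 1988 (.cons 319 (.leaf 318 2353 (.cons 323 (.leaf 324 2371 (.cons 343 (.leaf 342 2546 (.leaf 344 2554 .nil)) .nil)) .nil)) .nil)) .nil)) .nil))) (.cons 251 (.leaf 346 2005 (.cons 227 (.leaf 203 1622 (.leaf 250 1813 .nil)) .nil)) (.cons 346 (.leaf 251 2005 (.cons 369 (.leaf 345 2190 (.cons 370 (.leaf 393 2382 (.cons 371 (.leaf 347 2196 (.leaf 395 2388 .nil)) .nil)) .nil)) .nil)) .nil)))) .nil)
noncomputable def t135 : T := .cons 321 (.leaf 345 1998 (.cons 323 (.leaf 347 2004 (.cons 299 (.leaf 226 1812 (.cons 297 (.leaf 271 2171 (.leaf 324 2368 .nil)) .nil)) .nil)) .nil)) (.cons 321 (.leaf 345 1998 (.cons 226 (.leaf 297 1806 (.cons 202 (.leaf 178 1428 (.leaf 299 1620 .nil)) .nil)) .nil)) (.cons 321 (.leaf 345 1998 (.cons 226 (.leaf 297 1806 (.cons 201 (.leaf 225 1615 (.cons 202 (.leaf 178 1428 (.leaf 177 1423 .nil)) .nil)) .nil)) .nil)) (.cons 323 (.leaf 347 2004 (.cons 299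 (.leaf 226 1812 (.cons 297 (.leaf 271 2171 (.leaf 324 2368 .nil)) .nil)) .nil)) (.cons 321 (.leaf 345 1998 (.cons 323 (.leaf 347 2004 (.cons 324 (.leaf 297 2371 (.cons 348 (.leaf 299 2012 (.leaf 349 2568 .nil)) .nil)) .nil)) .nil)) (.cons 323 (.leaf 347 2004 (.cons 299 (.leaf 226 1812 (.cons 252 (.leaf 228 1821 (.cons 253 (.leaf 254 2002 (.cons 229 (.leaf 230 1809 (.cons 324 (.leaf 348 2012 (.cons 277 (.leaf 278 2000 (.cons 301 (.leaf 300 1830 (.cons 302 (.leaf 325 2385 (.leaf 326 1836 .nil)) .nil)) .nil)) .nil)) .nil)) .nil)) .nil)) .nil)) .nil)) .nil)))))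
noncomputable def t136 : T := .cons 227 (.leaf 203 1622 (.cons 299 (.leaf 322 1814 (.cons 228 (.leaf 204 1629 (.cons 300 (.leaf 324 1820 (.cons 301 (.leaf 302 2195 (.cons 277 (.leaf 278 2193 (.cons 325 (.leaf 326 2384 (.cons 253 (.leaf 252 1831 (.cons 226 (.leaf 202 1623 (.cons 254 (.leaf 229 1808 (.leaf 230 1837 .nil)) .nil)) .nil)) .nil)) .nil)) .nil)) .nil)) .nil)) .nil)) .nil)) (.cons 322 (.leaf 346 2005 (.cons 250 t135 .nil)) (.cons 227 (.leaf 203 1622 (.cons 299 (.cons 228 (.leaf 204 1629 (.cons 300 (.leaf 324 1820 (.cons 301 (.leaf 302 2195 (.cons 277 (.leaf 278 2193 (.cons 325 (.leaf 326 2384 (.cons 253 (.leaf 252 1831 (.cons 226 (.leaf 202 1623 (.cons 254 (.leaf 229 1808 (.leaf 230 1837 .nil)) .nil)) .nil)) .nil)) .nil)) .nil)) .nil)) .nil)) (.cons 228 (.leaf 204 1629 (.cons 252 (.leaf 323 1821 (.cons 253 (.leaf 254 2002 (.cons 300 (.leaf 324 1820 (.cons 301 (.leaf 302 2195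 (.cons 277 (.leaf 278 2193 (.leaf 325 1831 .nil)) .nil)) .nil)) .nil)) .nil)) .nil)) (.cons 226 (.leaf 202 1623 (.cons 228 (.leaf 204 1629 (.cons 323 (.leaf 250 1812 (.leaf 252 1821 .nil)) .nil)) .nil)) (.cons 226 (.leaf 202 1623 (.cons 323 (.leaf 250 1812 (.cons 324 (.leaf 300 1820 (.leaf 348 2012 .nil)) .nil)) .nil)) .nil)))) .nil)) (.cons 227 (.leaf 203 1622 (.cons 322 (.leaf 346 2005 (.leaf 250 1813 .nil)) .nil)) .nil)))
noncomputable def t137 : T := .cons 346 (.leaf 251 2005 (.cons 299 (.leaf 370 2197 (.cons 345 (.leaf 369 2190 (.cons 321 (.leaf 250 1998 (.cons 320 (.leaf 248 1988 (.leaf 319 2361 .nil)) .nil)) .nil)) .nil)) .nil)) (.cons 250 (.cons 227 (.leaf 251 1813 (.cons 321 (.leaf 345 1998 (.cons 323 (.leaf 347 2004 (.cons 226 (.leaf 203 1621 (.leaf 299 1812 .nil)) .nil)) .nil)) .nil)) (.cons 321 (.leaf 345 1998 (.cons 323 (.leaf 347 2004 (.cons 299 (.leaf 226 1812 (.cons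 320 (.leaf 295 2363 (.leaf 319 2361 .nil)) .nil)) .nil)) .nil)) (.cons 227 (.leaf 251 1813 (.cons 226 (.leaf 203 1621 (.cons 201 (.leaf 225 1615 (.cons 202 (.leaf 299 1620 (.leaf 177 1423 .nil)) .nil)) .nil)) .nil)) (.cons 227 (.leaf 251 1813 (.cons 203 (.leaf 226 1621 (.cons 321 (.leaf 345 1998 (.cons 323 (.leaf 347 2004 (.cons 320 (.leaf 295 2363 (.cons 343 (.leaf 344 2554 (.cons 319 (.leaf 248 1982 (.leaf 342 2546 .nil)) .nil)) .nil)) .nil)) .nil)) .nil)) .nil)) (.cons 227 (.leaf 251 1813 (.cons 321 (.leaf 345 1998 (.cons 323 (.leaf 347 2004 (.cons 320 (.leaf 295 2363 (.cons 299 (.leaf 319 2361 (.leaf 300 2369 .nil)) .nil)) .nil)) .nil)) .nil)) .nil))))) (.cons 346 (.cons 299 (.leaf 370 2197 (.cons 345 (.leaf 369 2190 (.cons 321 (.leaf 250 1998 (.cons 320 (.leaf 248 1988 (.leaf 319 2361 .nil)) .nil)) .nil)) .nil)) (.cons 345 (.leaf 369 2190 (.cons 250 (.leaf 321 1998 (.cons 347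 (.leaf 323 2004 (.leaf 371 2196 .nil)) .nil)) .nil)) (.cons 370 (.leaf 299 2197 (.cons 371 (.leaf 347 2196 (.leaf 395 2388 .nil)) .nil)) .nil))) (.cons 251 (.leaf 346 2005 (.cons 227 (.leaf 203 1622 (.leaf 250 1813 .nil)) .nil)) (.cons 346 (.leaf 251 2005 (.cons 345 (.leaf 369 2190 (.cons 370 (.leaf 299 2197 (.cons 371 (.leaf 347 2196 (.leaf 395 2388 .nil)) .nil)) .nil)) .nil)) .nil))))
noncomputable def t138 : T := .cons 273 (.leaf 295 2170 (.cons 299 (.leaf 300 2176 (.cons 251 (.leaf 252 1985 (.cons 248 (.leaf 247 1979 (.cons 227 (.cons 298 (.leaf 203 1622 (.leaf 322 1814 .nil)) (.cons 202 (.leaf 226 1623 (.cons 203 (.leaf 178 1431 (.cons 204 (.leaf 180 1437 (.leaf 228 1629 .nil)) .nil)) .nil)) (.cons 202 (.leaf 226 1623 (.cons 204 (.leaf 228 1629 (.cons 322 (.leaf 298 1814 (.cons 323 (.leaf 346 2006 (.cons 324 (.leaf 348 2012 (.cons 250 (.leaf 347 2007 (.leaf 271 1977 .nil)) .nil))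 .nil)) .nil)) .nil)) .nil)) .nil))) .nil)) .nil)) .nil)) .nil)) (.cons 298 (.cons 297 (.leaf 295 2169 (.cons 299 (.leaf 271 2171 (.cons 320 (.leaf 319 2362 (.cons 321 (.leaf 300 2370 (.cons 345 (.leaf 248 1988 (.leaf 369 2189 .nil)) .nil)) .nil)) .nil)) .nil)) (.cons 322 t137 (.cons 251 t136 (.cons 297 t134 (.cons 297 (.leaf 295 2169 (.cons 299 (.leaf 271 2171 (.cons 323 (.leaf 324 2368 (.cons 250 (.leaf 347 2007 (.leaf 226 1812 .nil)) .nil)) .nil)) .nil)) .nil))))) (.cons 273 t133 (.cons 273 (.leaf 295 2170 (.cons 247 (.leaf 248 1979 (.cons 251 (.leaf 252 1985 (.cons 271 (.leaf 246 1971 (.leaf 250 1977 .nil)) .nil)) .nil)) .nil)) (.cons 273 (.leaf 295 2170 (.cons 299 (.leaf 300 2176 (.cons 247 (.leaf 248 1979 (.cons 271 (.leaf 246 1971 (.leaf 298 2168 .nil)) .nil)) .nil)) .nil)) (.cons 273 (.leaf 295 2170 (.cons 299 (.leaf 300 2176 (.cons 251 (.leaf 252 1985 (.cons 248 (.leaf 247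 1979 (.cons 227 (.cons 298 (.leaf 203 1622 (.leaf 322 1814 .nil)) (.cons 202 (.leaf 226 1623 (.cons 203 (.leaf 178 1431 (.cons 204 (.leaf 180 1437 (.leaf 228 1629 .nil)) .nil)) .nil)) (.cons 202 (.leaf 226 1623 (.cons 204 (.leaf 228 1629 (.cons 322 (.leaf 298 1814 (.cons 323 (.leaf 346 2006 (.cons 324 (.leaf 348 2012 (.cons 321 (.leaf 297 2371 (.cons 345 (.leaf 320 1988 (.leaf 344 2562 .nil)) .nil)) .nil)) .nil)) .nil)) .nil)) .nil)) .nil))) .nil)) .nil)) .nil)) .nil)) (.cons 273 (.leaf 295 2170 (.cons 251 (.leaf 252 1985 (.cons 250 (.leaf 271 1977 (.cons 299 (.leaf 300 2176 (.cons 226 (.leaf 202 1620 (.leaf 323 1815 .nil)) .nil)) .nil)) .nil)) .nil)) .nil))))))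
noncomputable def t139 : T := .cons 247 (.leaf 271 1983 (.cons 223 (.leaf 248 1791 (.cons 273 (.leaf 249 1989 (.cons 368 (.leaf 297 2181 (.cons 391 (.leaf 367 2366 (.cons 392 (.leaf 415 2558 (.cons 393 (.leaf 369 2372 (.leaf 417 2564 .nil)) .nil)) .nil)) .nil)) .nil)) .nil)) .nil)) (.cons 247 (.leaf 271 1983 (.cons 248 (.leaf 223 1791 (.cons 345 (.leaf 321 1988 (.leaf 369 2180 .nil)) .nil)) .nil)) (.cons 273 (.leaf 249 1989 (.cons 274 (.leaf 295 2170 (.cons 247 (.leaf 248 1979 (.cons 251 (.leaf 252 1985 (.cons 297 (.leaf 368 2181 (.cons 299 (.leaf 300 2176 (.cons 345 (.leaf 369 2180 (.cons 250 (.leaf 321 1997 (.cons 226 (.leaf 202 1620 (.leaf 323 1815 .nil)) .nil)) .nil)) .nil)) .nil)) .nil)) .nil)) .nil)) .nil)) (.cons 273 (.leaf 249 1989 (.cons 274 (.leaf 295 2170 (.cons 251 (.leaf 252 1985 (.cons 250 (.leaf 271 1977 (.cons 297 (.leaf 368 2181 (.cons 345 (.leaf 369 2180 (.leaf 321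 1997 .nil)) .nil)) .nil)) .nil)) .nil)) .nil)) (.cons 273 (.leaf 249 1989 (.cons 247 (.leaf 271 1983 (.cons 248 (.leaf 274 1979 (.leaf 223 1791 .nil)) .nil)) .nil)) .nil))))
noncomputable def t140 : T := .cons 247 (.leaf 223 1791 (.cons 249 (.leaf 225 1797 (.cons 319 (.leaf 343 1982 (.cons 250 (.leaf 274 1976 (.cons 271 (.leaf 251 1978 (.leaf 270 1970 .nil)) .nil)) .nil)) .nil)) .nil)) (.cons 321 (.leaf 345 1988 (.cons 319 (.leaf 343 1982 (.cons 249 (.leaf 225 1797 (.cons 294 (.cons 295 (.leaf 293 2344 (.leaf 322 2355 .nil)) (.cons 318 (.leaf 293 2347 (.cons 317 (.leaf 297 2345 (.cons 341 (.leaf 340 2530 (.leaf 342 2538 .nil)) .nil)) .nil)) (.cons 322 (.leaf 295 2355 (.cons 346 (.leaf 347 2552 (.cons 297 (.leaf 273 1996 (.cons 317 (.leaf 318 2345 (.cons 323 (.leaf 324 2371 (.cons 299 (.leaf 251 2006 (.leaf 300 2369 .nil)) .nil)) .nil)) .nil)) .nil)) .nil)) .nil))) .nil)) .nil)) .nil))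 (.cons 247 (.leaf 223 1791 (.cons 273 (.leaf 274 1979 (.cons 246 (.leaf 245 1960 (.cons 319 (.leaf 343 1982 (.cons 321 (.leaf 345 1988 (.cons 294 (.cons 293 (.leaf 295 2344 (.leaf 318 2347 .nil)) (.cons 293 (.leaf 318 2347 (.cons 270 (.leaf 271 2154 (.cons 222 (.leaf 317 1774 (.cons 197 (.leaf 221 1583 (.cons 198 (.leaf 173 1391 (.leaf 269 1582 .nil)) .nil)) .nil)) .nil)) .nil)) (.cons 295 (.leaf 322 2355 (.cons 222 (.leaf 271 1783 (.leaf 270 1780 .nil)) .nil)) .nil))) .nil)) .nil)) .nil)) .nil)) .nil)) (.cons 247 (.leaf 223 1791 (.cons 249 (.leaf 225 1797 (.cons 274 (.leaf 250 1976 (.leaf 273 1979 .nil)) .nil)) .nil)) .nil)))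
noncomputable def t141 : T := .cons 344 (.cons 247 (.leaf 271 1983 (.cons 248 (.leaf 223 1791 (.cons 345 (.leaf 321 1988 (.leaf 369 2180 .nil)) .nil)) .nil)) (.cons 273 (.leaf 249 1989 (.cons 247 (.leaf 271 1983 (.cons 274 (.leaf 248 1979 (.leaf 295 2170 .nil)) .nil)) .nil)) (.cons 273 (.leaf 249 1989 (.cons 274 (.leaf 295 2170 (.cons 247 (.leaf 248 1979 (.cons 251 (.leaf 252 1985 (.cons 299 (.leaf 300 2176 (.cons 367 (.leaf 343 2174 (.cons 368 (.leaf 297 2181 (.leaf 391 2366 .nil)) .nil)) .nil)) .nil)) .nil)) .nil)) .nil)) (.cons 273 (.leaf 249 1989 (.cons 274 (.leaf 295 2170 (.cons 251 (.leaf 252 1985 (.cons 250 (.leaf 271 1977 (.cons 297 (.leaf 368 2181 (.cons 345 (.leaf 369 2180 (.leaf 321 1997 .nil)) .nil)) .nil)) .nil)) .nil)) .nil)) .nil)))) (.cons 248 t140 (.cons 344 (.cons 249 (.leaf 273 1989 (.cons 367 (.leaf 343 2174 (.cons 368 (.leaf 391 2366 (.cons 369 (.leaf 345 2180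 (.leaf 393 2372 .nil)) .nil)) .nil)) .nil)) (.cons 271 (.leaf 247 1983 (.cons 343 (.leaf 367 2174 (.cons 368 (.leaf 295 2175 (.cons 369 (.leaf 345 2180 (.leaf 393 2372 .nil)) .nil)) .nil)) .nil)) (.cons 271 (.leaf 247 1983 (.cons 273 (.leaf 249 1989 (.cons 274 (.leaf 295 2170 (.cons 251 (.leaf 252 1985 (.leaf 250 1977 .nil)) .nil)) .nil)) .nil)) .nil))) (.cons 248 (.cons 225 (.leaf 249 1797 (.cons 247 (.leaf 223 1791 (.cons 344 (.leaf 271 1983 (.cons 345 (.leaf 321 1988 (.leaf 369 2180 .nil)) .nil)) .nil)) .nil)) (.cons 225 (.leaf 249 1797 (.cons 343 (.leaf 319 1982 (.cons 344 (.leaf 367 2174 (.cons 345 (.leaf 321 1988 (.leaf 369 2180 .nil)) .nil)) .nil)) .nil)) (.cons 247 (.leaf 223 1791 (.cons 249 (.leaf 225 1797 (.cons 250 (.leaf 274 1976 (.cons 271 (.leaf 344 1983 (.leaf 251 1978 .nil)) .nil)) .nil)) .nil)) (.cons 223 (.leaf 247 1791 (.cons 343 (.leaf 319 1982 (.cons 344 (.leaf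 367 2174 (.cons 345 (.leaf 321 1988 (.leaf 369 2180 .nil)) .nil)) .nil)) .nil)) (.cons 247 (.leaf 223 1791 (.cons 249 (.leaf 225 1797 (.cons 250 (.leaf 274 1976 (.cons 226 (.leaf 227 1785 (.cons 271 (.leaf 251 1978 (.leaf 270 1970 .nil)) .nil)) .nil)) .nil)) .nil)) .nil))))) (.cons 344 (.cons 249 (.leaf 273 1989 (.cons 248 (.leaf 225 1797 (.cons 345 (.leaf 321 1988 (.leaf 369 2180 .nil)) .nil)) .nil)) (.cons 343 (.leaf 367 2174 (.cons 248 (.leaf 319 1982 (.cons 345 (.leaf 321 1988 (.leaf 369 2180 .nil)) .nil)) .nil)) (.cons 273 (.leaf 249 1989 (.cons 274 (.leaf 295 2170 (.cons 251 (.leaf 252 1985 (.cons 250 (.leaf 271 1977 (.cons 297 (.leaf 368 2181 (.cons 202 (.leaf 226 1614 (.cons 299 (.leaf 300 2176 (.cons 323 (.leaf 347 2007 (.cons 322 (.leaf 346 2006 (.cons 321 (.leaf 324 2371 (.leaf 343 2554 .nil)) .nil)) .nil)) .nil)) .nil)) .nil)) .nil)) .nil)) .nil)) .nil)) (.cons 249 (.leaf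 273 1989 (.cons 248 (.leaf 225 1797 (.cons 343 (.leaf 319 1982 (.leaf 367 2174 .nil)) .nil)) .nil)) .nil)))) (.cons 344 t139 (.cons 344 (.cons 247 (.leaf 271 1983 (.cons 248 (.leaf 223 1791 (.cons 343 (.leaf 319 1982 (.leaf 367 2174 .nil)) .nil)) .nil)) (.cons 273 (.leaf 249 1989 (.cons 247 (.leaf 271 1983 (.cons 248 (.leaf 274 1979 (.leaf 223 1791 .nil)) .nil)) .nil)) (.cons 249 (.leaf 273 1989 (.cons 248 (.leaf 225 1797 (.cons 343 (.leaf 319 1982 (.leaf 367 2174 .nil)) .nil)) .nil)) (.cons 247 (.leaf 271 1983 (.cons 273 (.leaf 249 1989 (.cons 274 (.leaf 295 2170 (.cons 251 (.leaf 252 1985 (.cons 299 (.leaf 300 2176 (.cons 367 (.leaf 343 2174 (.cons 368 (.leaf 297 2181 (.leaf 391 2366 .nil)) .nil)) .nil)) .nil)) .nil)) .nil)) .nil)) .nil)))) (.cons 344 (.cons 343 (.leaf 367 2174 (.cons 248 (.leaf 319 1982 (.cons 247 (.leaf 223 1791 (.leaf 271 1983 .nil)) .nil)) .nil)) (.cons 247 (.leaf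 271 1983 (.cons 248 (.leaf 223 1791 (.cons 345 (.leaf 321 1988 (.leaf 369 2180 .nil)) .nil)) .nil)) (.cons 343 (.leaf 367 2174 (.cons 248 (.leaf 319 1982 (.cons 345 (.leaf 321 1988 (.leaf 369 2180 .nil)) .nil)) .nil)) (.cons 247 (.leaf 271 1983 (.cons 343 (.leaf 367 2174 (.cons 369 (.leaf 345 2180 (.cons 368 (.leaf 393 2372 (.cons 297 (.leaf 273 2181 (.cons 321 (.leaf 392 2373 (.cons 342 (.leaf 341 2728 (.cons 322 (.leaf 319 2546 (.leaf 323 2554 .nil)) .nil)) .nil)) .nil)) .nil)) .nil)) .nil)) .nil)) .nil)))) (.cons 248 (.cons 223 (.leaf 247 1791 (.cons 249 (.leaf 225 1797 (.cons 343 (.leaf 319 1982 (.cons 344 (.leaf 273 1989 (.leaf 367 2174 .nil)) .nil)) .nil)) .nil)) (.cons 345 (.leaf 321 1988 (.cons 223 (.leaf 247 1791 (.cons 343 (.leaf 319 1982 (.cons 344 (.leaf 367 2174 (.leaf 369 2180 .nil)) .nil)) .nil)) .nil)) (.cons 345 (.leaf 321 1988 (.cons 225 (.leaf 249 1797 (.cons 343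 (.leaf 319 1982 (.cons 344 (.leaf 367 2174 (.leaf 369 2180 .nil)) .nil)) .nil)) .nil)) (.cons 247 (.leaf 223 1791 (.cons 249 (.leaf 225 1797 (.cons 274 (.leaf 250 1976 (.leaf 273 1979 .nil)) .nil)) .nil)) .nil)))) .nil))))))))
noncomputable def t142 : T := .cons 343 (.leaf 367 2173 (.cons 271 (.leaf 248 1981 (.cons 270 (.leaf 246 1975 (.cons 249 (.leaf 250 1969 (.cons 201 (.leaf 225 1606 (.cons 269 (.leaf 268 2144 (.cons 245 (.leaf 244 1955 (.cons 342 (.leaf 366 2166 (.leaf 318 1967 .nil)) .nil)) .nil)) .nil)) .nil)) .nil)) .nil)) .nil)) (.cons 320 (.cons 249 (.leaf 344 1989 (.cons 225 (.leaf 201 1606 (.leaf 248 1797 .nil)) .nil)) (.cons 321 (.leaf 322 2355 (.cons 345 (.leaf 248 1988 (.cons 318 (.leaf 346 2544 (.cons 316 (.leaf 317 2337 (.cons 342 (.leaf 341 2538 (.cons 366 (.leaf 271 2165 (.leaf 390 2357 .nil)) .nil)) .nil)) .nil)) .nil)) .nil)) (.cons 344 (.leaf 249 1989 (.cons 368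 (.leaf 271 2175 (.leaf 392 2367 .nil)) .nil)) .nil))) (.cons 343 (.leaf 367 2173 (.cons 248 (.leaf 271 1981 (.leaf 320 1982 .nil)) .nil)) (.cons 343 (.leaf 367 2173 (.cons 320 (.leaf 248 1982 (.cons 321 (.leaf 322 2355 (.cons 344 (.leaf 249 1989 (.cons 341 (.leaf 342 2537 (.cons 345 (.leaf 369 2180 (.cons 318 (.leaf 317 2536 (.leaf 346 2544 .nil)) .nil)) .nil)) .nil)) .nil)) .nil)) .nil)) (.cons 343 (.leaf 367 2173 (.cons 271 (.cons 270 (.leaf 246 1975 (.cons 249 (.leaf 250 1969 (.cons 201 (.leaf 225 1606 (.cons 269 (.leaf 268 2144 (.cons 245 (.leaf 244 1955 (.cons 342 (.leaf 366 2166 (.leaf 318 1967 .nil)) .nil)) .nil)) .nil)) .nil)) .nil)) (.cons 342 (.leaf 366 2166 (.cons 344 (.leaf 368 2172 (.cons 320 (.leaf 249 1989 (.cons 321 (.leaf 322 2546 (.leaf 341 2537 .nil)) .nil)) .nil)) .nil)) (.cons 270 (.leaf 246 1975 (.cons 249 (.leaf 250 1969 (.cons 344 (.leaf 320 1989 (.leaf 368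 2172 .nil)) .nil)) .nil)) (.cons 270 (.leaf 246 1975 (.cons 269 (.leaf 268 2144 (.cons 245 (.leaf 244 1955 (.cons 342 (.leaf 366 2166 (.leaf 318 1967 .nil)) .nil)) .nil)) .nil)) .nil)))) .nil)) .nil))))
noncomputable def t143 : T := .cons 293 (.leaf 273 2153 (.cons 268 (.leaf 269 2147 (.cons 292 (.leaf 271 2145 (.leaf 267 2139 .nil)) .nil)) .nil)) (.cons 297 (.cons 269 (.leaf 270 2155 (.cons 321 (.leaf 322 2352 (.cons 318 (.leaf 317 2346 (.cons 345 (.leaf 369 2183 (.cons 320 (.leaf 248 1988 (.cons 319 (.leaf 298 2353 (.leaf 346 2544 .nil)) .nil)) .nil)) .nil)) .nil)) .nil)) (.cons 317 (.leaf 318 2346 (.cons 321 (.leaf 322 2352 (.cons 345 (.leaf 369 2183 (.cons 248 (.leaf 273 1991 (.leaf 320 1988 .nil)) .nil)) .nil)) .nil)) (.cons 269 (.leaf 270 2155 (.cons 318 (.leaf 317 2346 (.cons 319 (.leaf 298 2354 (.cons 343 (.leaf 367 2173 (.cons 248 (.leaf 271 1981 (.leaf 320 1982 .nil)) .nil))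 .nil)) .nil)) .nil)) (.cons 270 (.leaf 269 2155 (.cons 298 (.leaf 271 2163 (.cons 322 (.leaf 321 2352 (.leaf 323 2360 .nil)) .nil)) .nil)) .nil)))) (.cons 293 (.cons 268 (.leaf 269 2147 (.cons 292 (.leaf 271 2145 (.leaf 267 2139 .nil)) .nil)) (.cons 268 (.leaf 269 2147 (.cons 317 (.leaf 316 2338 (.cons 297 (.leaf 318 2346 (.cons 321 (.leaf 320 2344 (.leaf 322 2352 .nil)) .nil)) .nil)) .nil)) (.cons 271 (.leaf 292 2145 (.cons 317 (.leaf 316 2338 (.cons 297 (.leaf 318 2346 (.cons 298 (.leaf 299 2171 (.leaf 270 2163 .nil)) .nil)) .nil)) .nil)) .nil))) (.cons 293 (.leaf 273 2153 (.cons 268 (.leaf 269 2147 (.cons 292 (.leaf 267 2139 (.cons 319 (.leaf 320 2336 (.cons 318 (.leaf 291 2328 (.cons 297 (.leaf 317 2346 (.leaf 298 2354 .nil)) .nil)) .nil)) .nil)) .nil)) .nil)) (.cons 293 (.leaf 273 2153 (.cons 271 (.leaf 292 2145 (.cons 317 (.leaf 316 2338 (.cons 297 (.leaf 318 2346 (.cons 298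 (.leaf 299 2171 (.leaf 270 2163 .nil)) .nil)) .nil)) .nil)) .nil)) .nil))))
noncomputable def t144 : T := .cons 298 (.leaf 274 2169 (.cons 318 (.leaf 319 2354 (.cons 294 (.leaf 317 2346 (.cons 269 (.leaf 270 2155 (.cons 322 (.leaf 321 2352 (.leaf 323 2360 .nil)) .nil)) .nil)) .nil)) .nil)) (.cons 294 (.cons 321 (.leaf 322 2352 (.cons 269 (.leaf 270 2155 (.cons 318 (.leaf 317 2346 (.cons 345 (.leaf 369 2183 (.cons 320 (.leaf 248 1988 (.leaf 293 2344 .nil)) .nil)) .nil)) .nil)) .nil)) (.cons 269 (.leaf 270 2155 (.cons 293 (.leaf 268 2147 (.cons 317 (.leaf 316 2338 (.leaf 318 2346 .nil)) .nil)) .nil)) (.cons 321 (.leaf 322 2352 (.cons 293 (.leaf 320 2344 (.cons 317 (.leaf 316 2338 (.leaf 318 2346 .nil)) .nil)) .nil)) (.cons 321 (.leaf 322 2352 (.cons 269 (.leaf 270 2155 (.cons 293 (.leaf 268 2147 (.leaf 320 2344 .nil)) .nil)) .nil)) (.cons 270 (.leaf 269 2155 (.cons 318 (.leaf 317 2346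 (.cons 321 (.leaf 322 2352 (.cons 345 (.leaf 369 2183 (.cons 320 (.leaf 248 1988 (.cons 319 (.leaf 346 2544 (.cons 343 (.leaf 367 2173 (.leaf 246 1972 .nil)) .nil)) .nil)) .nil)) .nil)) .nil)) .nil)) .nil))))) (.cons 298 (.leaf 274 2169 (.cons 271 (.leaf 299 2171 (.leaf 270 2163 .nil)) .nil)) (.cons 298 (.leaf 274 2169 (.cons 318 (.leaf 319 2354 (.cons 294 (.leaf 317 2346 (.cons 322 (.leaf 321 2352 (.leaf 323 2360 .nil)) .nil)) .nil)) .nil)) .nil)))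
noncomputable def t145 : T := .cons 227 (.leaf 203 1622 (.cons 322 (.leaf 299 1814 (.leaf 346 2005 .nil)) .nil)) (.cons 227 (.leaf 203 1622 (.cons 299 (.cons 228 (.leaf 204 1629 (.cons 300 (.leaf 324 1820 (.cons 301 (.leaf 302 2195 (.cons 277 (.leaf 278 2193 (.cons 325 (.leaf 326 2384 (.cons 253 (.leaf 252 1831 (.cons 226 (.leaf 202 1623 (.cons 254 (.leaf 229 1808 (.leaf 230 1837 .nil)) .nil)) .nil)) .nil)) .nil)) .nil)) .nil)) .nil)) (.cons 228 (.leaf 204 1629 (.cons 252 (.leaf 323 1821 (.cons 253 (.leaf 254 2002 (.cons 300 (.leaf 324 1820 (.cons 301 (.leaf 302 2195 (.cons 277 (.leaf 278 2193 (.leaf 325 1831 .nil)) .nil)) .nil)) .nil)) .nil)) .nil)) (.cons 226 (.leaf 202 1623 (.cons 323 (.leaf 250 1812 (.cons 324 (.leaf 300 1820 (.leaf 348 2012 .nil)) .nil)) .nil)) (.cons 226 (.leaf 202 1623 (.cons 228 (.leaf 204 1629 (.cons 252 (.leaf 323 1821 (.cons 253 (.leaf 254 2002 (.leaf 225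 1800 .nil)) .nil)) .nil)) .nil)) .nil)))) .nil)) (.cons 322 (.leaf 346 2005 (.cons 250 (.cons 225 (.leaf 249 1807 (.cons 226 (.leaf 201 1615 (.cons 202 (.leaf 178 1428 (.leaf 299 1620 .nil)) .nil)) .nil)) (.cons 225 (.leaf 249 1807 (.cons 321 (.leaf 345 1998 (.cons 323 (.leaf 320 2363 (.leaf 347 2004 .nil)) .nil)) .nil)) (.cons 323 (.leaf 347 2004 (.cons 299 (.leaf 226 1812 (.cons 252 (.leaf 228 1821 (.cons 253 (.leaf 254 2002 (.cons 229 (.leaf 230 1809 (.cons 324 (.leaf 348 2012 (.cons 277 (.leaf 278 2000 (.cons 301 (.leaf 300 1830 (.cons 302 (.leaf 325 2385 (.leaf 326 1836 .nil)) .nil)) .nil)) .nil)) .nil)) .nil)) .nil)) .nil)) .nil)) .nil))) .nil)) (.cons 322 (.leaf 346 2005 (.cons 227 (.leaf 203 1622 (.leaf 250 1813 .nil)) .nil)) .nil)))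
noncomputable def t146 : T := .cons 274 (.leaf 273 2170 (.cons 298 (.leaf 297 2169 (.cons 251 t145 .nil)) .nil)) (.cons 297 t144 (.cons 294 t143 (.cons 273 (.leaf 274 2170 (.cons 294 (.leaf 293 2153 (.cons 319 t142 .nil)) .nil)) (.cons 273 (.leaf 274 2170 (.cons 294 (.leaf 293 2153 (.cons 297 (.cons 269 (.leaf 270 2155 (.cons 318 (.leaf 317 2346 (.cons 298 (.leaf 319 2354 (.cons 299 (.leaf 271 2171 (.leaf 300 2179 .nil)) .nil)) .nil)) .nil)) (.cons 321 (.leaf 322 2352 (.cons 345 (.leaf 248 1991 (.leaf 369 2183 .nil)) .nil)) .nil)) .nil)) .nil)) (.cons 273 (.leaf 274 2170 (.cons 294 (.leaf 293 2153 (.cons 297 (.cons 270 (.leaf 269 2155 (.cons 318 (.leaf 317 2346 (.cons 246 (.cons 319 (.leaf 298 2354 (.leaf 222 1780 .nil)) (.cons 245 (.leaf 271 1963 (.leaf 221 1775 .nil)) .nil)) .nil)) .nil)) (.cons 318 (.leaf 317 2346 (.cons 298 (.leaf 319 2354 (.cons 299 (.leaf 271 2171 (.leaf 300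 2179 .nil)) .nil)) .nil)) (.cons 270 (.leaf 269 2155 (.cons 318 (.leaf 317 2346 (.cons 246 (.cons 319 (.leaf 222 1780 (.leaf 343 1972 .nil)) (.cons 245 (.leaf 271 1963 (.leaf 221 1775 .nil)) .nil)) .nil)) .nil)) (.cons 270 (.leaf 269 2155 (.cons 271 (.leaf 298 2160 (.cons 249 (.leaf 250 1969 (.cons 225 (.leaf 201 1606 (.leaf 320 1798 .nil)) .nil)) .nil)) .nil)) (.cons 318 (.leaf 317 2346 (.cons 269 (.leaf 270 2155 (.cons 319 (.leaf 298 2354 (.cons 343 (.leaf 367 2173 (.cons 320 (.leaf 248 1982 (.cons 344 (.leaf 249 1989 (.leaf 368 2181 .nil)) .nil)) .nil)) .nil)) .nil)) .nil)) .nil))))) .nil)) .nil)) .nil)))))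
noncomputable def t147 : T := .cons 299 (.leaf 300 2176 (.cons 251 (.leaf 252 1985 (.cons 248 (.leaf 247 1979 (.cons 227 (.cons 298 (.leaf 203 1622 (.leaf 322 1814 .nil)) (.cons 202 (.leaf 226 1623 (.cons 203 (.leaf 178 1431 (.cons 204 (.leaf 180 1437 (.leaf 228 1629 .nil)) .nil)) .nil)) (.cons 202 (.leaf 226 1623 (.cons 204 (.leaf 228 1629 (.cons 322 (.leaf 298 1814 (.cons 323 (.leaf 346 2006 (.cons 347 (.leaf 250 2007 (.cons 348 (.leaf 324 2012 (.leaf 372 2204 .nil)) .nil)) .nil)) .nil)) .nil)) .nil)) .nil))) .nil)) .nil)) .nil)) (.cons 251 (.leaf 252 1985 (.cons 271 (.leaf 250 1977 (.cons 246 (.leaf 247 1971 (.cons 270 (.leaf 245 1963 (.cons 297 (.leaf 269 2152 (.leaf 298 2160 .nil)) .nil)) .nil)) .nil)) .nil)) (.cons 299 (.leaf 300 2176 (.cons 247 (.leaf 248 1979 (.cons 271 (.leaf 246 1971 (.leaf 298 2168 .nil)) .nil)) .nil)) (.cons 299 (.leaf 300 2176 (.cons 251 (.leaf 252 1985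 (.cons 271 (.leaf 250 1977 (.leaf 298 2168 .nil)) .nil)) .nil)) (.cons 247 (.leaf 248 1979 (.cons 251 (.leaf 252 1985 (.cons 271 (.leaf 246 1971 (.leaf 250 1977 .nil)) .nil)) .nil)) .nil))))
noncomputable def t148 : T := .cons 322 (.leaf 346 2005 (.cons 227 (.leaf 203 1622 (.leaf 299 1814 .nil)) .nil)) (.cons 322 (.leaf 346 2005 (.cons 250 (.cons 225 (.leaf 249 1807 (.cons 226 (.leaf 201 1615 (.cons 202 (.leaf 178 1428 (.leaf 299 1620 .nil)) .nil)) .nil)) (.cons 323 (.leaf 347 2004 (.cons 299 (.leaf 226 1812 (.cons 228 (.leaf 252 1821 (.cons 324 (.leaf 348 2012 (.cons 325 (.leaf 326 2387 (.cons 301 (.leaf 302 2385 (.cons 321 (.leaf 345 1998 (.leaf 300 2377 .nil)) .nil)) .nil)) .nil)) .nil)) .nil)) .nil)) (.cons 249 (.leaf 225 1807 (.cons 248 (.leaf 247 1976 (.leaf 271 1978 .nil)) .nil)) .nil))) .nil)) (.cons 227 (.leaf 203 1622 (.cons 299 (.cons 300 (.leaf 324 1820 (.cons 228 (.leaf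 204 1629 (.cons 301 (.leaf 302 2195 (.cons 277 (.leaf 278 2193 (.cons 325 (.leaf 326 2384 (.cons 253 (.leaf 252 1831 (.cons 226 (.leaf 202 1623 (.cons 254 (.leaf 229 1808 (.leaf 230 1837 .nil)) .nil)) .nil)) .nil)) .nil)) .nil)) .nil)) .nil)) (.cons 228 (.leaf 204 1629 (.cons 252 (.leaf 323 1821 (.cons 253 (.leaf 254 2002 (.cons 300 (.leaf 324 1820 (.cons 301 (.leaf 302 2195 (.cons 277 (.leaf 278 2193 (.leaf 325 1831 .nil)) .nil)) .nil)) .nil)) .nil)) .nil)) (.cons 226 (.leaf 202 1623 (.cons 323 (.leaf 250 1812 (.cons 324 (.leaf 300 1820 (.leaf 348 2012 .nil)) .nil)) .nil)) (.cons 226 (.leaf 202 1623 (.cons 228 (.leaf 204 1629 (.cons 323 (.leaf 250 1812 (.leaf 252 1821 .nil)) .nil)) .nil)) .nil)))) .nil)) (.cons 322 (.leaf 346 2005 (.cons 227 (.leaf 203 1622 (.leaf 250 1813 .nil)) .nil)) .nil)))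
noncomputable def t149 : T := .cons 297 (.leaf 295 2169 (.cons 322 (.cons 251 (.leaf 346 2005 (.cons 227 (.leaf 203 1622 (.leaf 299 1814 .nil)) .nil)) (.cons 251 (.leaf 346 2005 (.cons 227 (.leaf 203 1622 (.leaf 250 1813 .nil)) .nil)) (.cons 299 (.leaf 271 2171 (.cons 227 (.leaf 251 1814 (.cons 319 (.leaf 320 2362 (.cons 323 (.leaf 324 2368 (.cons 250 (.leaf 347 2004 (.leaf 226 1812 .nil)) .nil)) .nil)) .nil)) .nil)) (.cons 299 (.leaf 271 2171 (.cons 346 (.leaf 370 2197 (.cons 345 (.leaf 369 2190 (.cons 323 (.leaf 324 2368 (.cons 250 (.leaf 347 2004 (.leaf 226 1812 .nil)) .nil)) .nil)) .nil)) .nil)) .nil)))) .nil)) (.cons 251 t148 (.cons 297 (.leaf 295 2169 (.cons 322 (.cons 251 (.leaf 346 2005 (.cons 227 (.leaf 203 1622 (.leaf 250 1813 .nil)) .nil)) (.cons 250 (.cons 225 (.leaf 249 1807 (.cons 323 (.leaf 347 2004 (.cons 324 (.leaf 321 2371 (.leaf 325 2379 .nil)) .nil)) .nil)) (.cons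 225 (.leaf 249 1807 (.cons 226 (.leaf 201 1615 (.cons 227 (.leaf 203 1621 (.leaf 251 1813 .nil)) .nil)) .nil)) (.cons 321 (.leaf 226 1806 (.leaf 345 1998 .nil)) .nil))) (.cons 321 (.cons 250 (.leaf 226 1806 (.leaf 345 1998 .nil)) (.cons 250 (.leaf 226 1806 (.cons 323 (.leaf 324 2371 (.leaf 347 2004 .nil)) .nil)) (.cons 345 (.leaf 369 2189 (.cons 320 (.leaf 248 1988 (.cons 318 (.leaf 319 2353 (.cons 323 (.leaf 324 2371 (.cons 347 (.leaf 348 2560 (.cons 371 (.leaf 346 2196 (.leaf 395 2391 .nil)) .nil)) .nil)) .nil)) .nil)) .nil)) .nil))) (.cons 346 (.leaf 251 2005 (.cons 369 (.leaf 345 2190 (.cons 370 (.leaf 393 2382 (.cons 371 (.leaf 347 2196 (.leaf 395 2388 .nil)) .nil)) .nil)) .nil)) .nil)))) .nil)) (.cons 297 (.leaf 295 2169 (.cons 299 (.leaf 271 2171 (.cons 320 (.leaf 319 2362 (.cons 321 (.leaf 300 2370 (.cons 345 (.leaf 248 1988 (.leaf 369 2189 .nil)) .nil)) .nil)) .nil)) .nil))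 (.cons 297 (.leaf 295 2169 (.cons 299 (.leaf 271 2171 (.cons 320 (.leaf 319 2362 (.cons 300 (.leaf 321 2370 (.cons 301 (.leaf 302 2195 (.cons 325 (.leaf 324 2376 (.leaf 326 2384 .nil)) .nil)) .nil)) .nil)) .nil)) .nil)) .nil))))
noncomputable def t150 : T := .cons 273 (.leaf 295 2170 (.cons 247 (.leaf 248 1979 (.cons 251 (.leaf 252 1985 (.cons 271 (.leaf 246 1971 (.leaf 250 1977 .nil)) .nil)) .nil)) .nil)) (.cons 298 t149 (.cons 273 t147 (.cons 273 (.leaf 295 2170 (.cons 247 (.leaf 248 1979 (.cons 271 (.leaf 246 1971 (.cons 299 (.leaf 300 2176 (.leaf 298 2168 .nil)) .nil)) .nil)) .nil)) (.cons 273 (.leaf 295 2170 (.cons 299 (.leaf 300 2176 (.cons 251 (.leaf 252 1985 (.cons 271 (.leaf 250 1977 (.leaf 298 2168 .nil)) .nil)) .nil)) .nil)) (.cons 273 (.leaf 295 2170 (.cons 248 (.leaf 247 1979 (.cons 299 (.leaf 300 2176 (.cons 251 (.leaf 252 1985 (.cons 227 (.cons 298 (.leaf 203 1622 (.leaf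 322 1814 .nil)) (.cons 202 (.leaf 226 1623 (.cons 203 (.leaf 178 1431 (.cons 204 (.leaf 180 1437 (.leaf 228 1629 .nil)) .nil)) .nil)) (.cons 202 (.leaf 226 1623 (.cons 204 (.leaf 228 1629 (.cons 322 (.leaf 298 1814 (.cons 323 (.leaf 346 2006 (.cons 347 (.leaf 250 2007 (.cons 348 (.leaf 324 2012 (.leaf 372 2204 .nil)) .nil)) .nil)) .nil)) .nil)) .nil)) .nil))) .nil)) .nil)) .nil)) .nil)) .nil)))))
noncomputable def t151 : T := .cons 270 (.cons 293 (.leaf 294 2153 (.cons 269 (.leaf 292 2146 (.leaf 268 2144 .nil)) .nil)) (.cons 246 (.leaf 245 1963 (.cons 198 (.leaf 222 1588 (.cons 249 (.leaf 250 1969 (.cons 201 (.leaf 225 1606 (.cons 269 (.leaf 268 2144 (.cons 293 (.leaf 292 2146 (.cons 317 (.leaf 341 1965 (.cons 319 (.leaf 343 1975 (.cons 318 (.leaf 316 2337 (.cons 247 (.leaf 342 1974 (.cons 320 (.leaf 344 1980 (.leaf 223 1788 .nil)) .nil)) .nil)) .nil)) .nil)) .nil)) .nil)) .nil)) .nil))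 .nil)) .nil)) (.cons 246 (.leaf 245 1963 (.cons 198 (.leaf 222 1588 (.cons 249 (.leaf 250 1969 (.cons 201 (.leaf 225 1606 (.cons 319 (.leaf 343 1975 (.cons 320 (.leaf 344 1989 (.cons 247 (.leaf 223 1788 (.cons 318 (.leaf 342 1974 (.cons 317 (.leaf 316 2337 (.cons 341 (.leaf 294 1966 (.leaf 340 2530 .nil)) .nil)) .nil)) .nil)) .nil)) .nil)) .nil)) .nil)) .nil)) .nil)) .nil))) (.cons 320 (.cons 344 (.leaf 247 1983 (.leaf 249 1989 .nil)) (.cons 247 (.leaf 223 1788 (.cons 246 (.cons 245 (.leaf 244 1952 (.leaf 270 1963 .nil)) (.cons 222 (.leaf 319 1783 (.cons 198 (.leaf 270 1588 (.leaf 174 1396 .nil)) .nil)) (.cons 244 (.leaf 245 1952 (.cons 319 (.leaf 222 1783 (.cons 342 (.leaf 318 1974 (.cons 343 (.leaf 367 2173 (.leaf 366 2166 .nil)) .nil)) .nil)) .nil)) .nil))) .nil)) (.cons 344 (.leaf 249 1989 (.leaf 368 2175 .nil)) .nil))) (.cons 270 (.cons 293 (.leaf 294 2153 (.cons 269 (.leaf 292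 2146 (.leaf 268 2144 .nil)) .nil)) (.cons 246 (.leaf 245 1963 (.cons 222 (.leaf 198 1588 (.cons 319 (.leaf 247 1783 (.leaf 343 1975 .nil)) .nil)) .nil)) .nil)) (.cons 293 (.leaf 294 2153 (.cons 247 (.cons 223 (.leaf 199 1596 (.leaf 320 1788 .nil)) (.cons 223 (.leaf 199 1596 (.cons 222 (.leaf 198 1591 (.cons 319 (.leaf 246 1783 (.cons 342 (.leaf 318 1974 (.cons 343 (.leaf 367 2173 (.leaf 366 2166 .nil)) .nil)) .nil)) .nil)) .nil)) (.cons 319 (.cons 344 (.leaf 320 1980 (.cons 343 (.leaf 367 2173 (.leaf 368 2172 .nil)) .nil)) (.cons 343 (.leaf 367 2173 (.cons 342 (.leaf 318 1974 (.leaf 366 2166 .nil)) .nil)) (.cons 320 (.leaf 344 1980 (.cons 222 (.leaf 246 1783 (.cons 318 (.leaf 342 1974 (.cons 317 (.leaf 316 2337 (.leaf 292 2339 .nil)) .nil)) .nil)) .nil)) .nil))) .nil))) .nil)) (.cons 270 (.cons 293 (.leaf 294 2153 (.cons 269 (.leaf 292 2146 (.leaf 268 2144 .nil)) .nil)) (.cons 269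 (.leaf 268 2144 (.cons 245 (.leaf 244 1955 (.leaf 246 1963 .nil)) .nil)) (.cons 294 (.leaf 293 2153 (.cons 246 (.leaf 245 1963 (.cons 222 (.leaf 198 1588 (.leaf 319 1780 .nil)) .nil)) .nil)) .nil))) (.cons 270 (.cons 294 (.leaf 293 2153 (.cons 246 (.leaf 245 1963 (.cons 222 (.leaf 198 1588 (.cons 197 (.leaf 221 1583 (.cons 223 (.leaf 199 1589 (.cons 247 (.leaf 320 1788 (.leaf 318 1781 .nil)) .nil)) .nil)) .nil)) .nil)) .nil)) (.cons 269 (.leaf 268 2144 (.cons 245 (.leaf 244 1955 (.leaf 246 1963 .nil)) .nil)) (.cons 293 (.leaf 294 2153 (.cons 269 (.leaf 292 2146 (.leaf 268 2144 .nil)) .nil)) .nil))) (.cons 293 (.leaf 294 2153 (.cons 319 (.cons 343 (.leaf 367 2173 (.cons 342 (.leaf 366 2166 (.cons 247 (.leaf 318 1974 (.cons 223 (.leaf 199 1596 (.leaf 320 1788 .nil)) .nil)) .nil)) .nil)) (.cons 320 (.cons 344 (.leaf 247 1980 (.leaf 249 1989 .nil)) (.cons 247 (.leaf 223 1788 (.cons 318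 (.leaf 342 1974 (.cons 317 (.leaf 316 2337 (.leaf 292 2339 .nil)) .nil)) .nil)) (.cons 344 (.leaf 249 1989 (.leaf 368 2175 .nil)) .nil))) (.cons 343 (.leaf 367 2173 (.cons 342 (.leaf 366 2166 (.cons 318 (.leaf 247 1974 (.cons 317 (.leaf 316 2337 (.cons 344 (.leaf 368 2172 (.leaf 345 2539 .nil)) .nil)) .nil)) .nil)) .nil)) (.cons 343 (.leaf 367 2173 (.cons 342 (.leaf 366 2166 (.cons 344 (.leaf 368 2172 (.cons 320 (.leaf 249 1989 (.cons 321 (.leaf 322 2546 (.leaf 341 2537 .nil)) .nil)) .nil)) .nil)) .nil)) (.cons 343 (.leaf 367 2173 (.cons 344 (.leaf 368 2172 (.cons 320 (.leaf 247 1980 (.leaf 249 1989 .nil)) .nil)) .nil)) .nil))))) .nil)) .nil))))))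
noncomputable def t152 : T := .cons 270 (.leaf 269 2155 (.cons 318 (.leaf 317 2346 (.cons 343 (.cons 319 (.leaf 367 2173 (.leaf 298 2354 .nil)) (.cons 342 (.leaf 367 2164 (.cons 271 (.leaf 298 2163 (.leaf 366 2165 .nil)) .nil)) (.cons 246 (.leaf 319 1972 (.cons 221 (.leaf 245 1775 (.cons 222 (.leaf 197 1583 (.cons 198 (.leaf 271 1588 (.cons 199 (.leaf 223 1589 (.leaf 175 1397 .nil)) .nil)) .nil)) .nil)) .nil)) .nil))) .nil)) .nil)) (.cons 318 (.leaf 317 2346 (.cons 298 (.leaf 319 2354 (.cons 299 (.leaf 271 2171 (.cons 323 (.leaf 322 2360 (.leaf 324 2368 .nil)) .nil)) .nil)) .nil)) (.cons 270 (.leaf 269 2155 (.cons 298 (.leaf 271 2163 (.cons 322 (.leaf 321 2352 (.leaf 323 2360 .nil)) .nil)) .nil)) (.cons 269 (.leaf 270 2155 (.cons 318 (.leaf 317 2346 (.cons 298 (.leaf 319 2354 (.cons 322 (.leaf 321 2352 (.leaf 323 2360 .nil)) .nil)) .nil)) .nil)) (.cons 270 (.leaf 269 2155 (.cons 318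 (.leaf 317 2346 (.cons 343 (.cons 319 (.leaf 367 2173 (.leaf 246 1972 .nil)) (.cons 342 (.leaf 367 2164 (.cons 271 (.leaf 366 2165 (.leaf 247 1973 .nil)) .nil)) (.cons 246 (.leaf 319 1972 (.cons 221 (.leaf 245 1775 (.cons 222 (.leaf 197 1583 (.cons 198 (.leaf 271 1588 (.cons 199 (.leaf 223 1589 (.leaf 175 1397 .nil)) .nil)) .nil)) .nil)) .nil)) .nil))) .nil)) .nil)) .nil))))
noncomputable def t153 : T := .cons 298 (.leaf 274 2169 (.cons 318 (.leaf 319 2354 (.cons 294 (.leaf 317 2346 (.cons 269 (.leaf 270 2155 (.cons 322 (.leaf 321 2352 (.leaf 323 2360 .nil)) .nil)) .nil)) .nil)) .nil)) (.cons 294 (.cons 321 (.leaf 322 2352 (.cons 269 (.leaf 270 2155 (.cons 293 (.leaf 268 2147 (.leaf 320 2344 .nil)) .nil)) .nil)) (.cons 321 (.leaf 322 2352 (.cons 293 (.leaf 320 2344 (.cons 317 (.leaf 316 2338 (.leaf 318 2346 .nil)) .nil)) .nil)) (.cons 269 (.leaf 270 2155 (.cons 293 (.leaf 268 2147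 (.cons 317 (.leaf 316 2338 (.leaf 318 2346 .nil)) .nil)) .nil)) (.cons 270 (.leaf 269 2155 (.cons 318 (.leaf 317 2346 (.cons 343 (.cons 319 (.leaf 367 2173 (.leaf 246 1972 .nil)) (.cons 342 (.leaf 367 2164 (.cons 271 (.leaf 366 2165 (.leaf 247 1973 .nil)) .nil)) (.cons 246 (.leaf 319 1972 (.cons 221 (.leaf 245 1775 (.cons 222 (.leaf 197 1583 (.cons 198 (.leaf 271 1588 (.cons 199 (.leaf 223 1589 (.leaf 175 1397 .nil)) .nil)) .nil)) .nil)) .nil)) .nil))) .nil)) .nil)) .nil)))) (.cons 298 (.leaf 274 2169 (.cons 271 (.leaf 299 2171 (.leaf 270 2163 .nil)) .nil)) (.cons 298 (.leaf 274 2169 (.cons 318 (.leaf 319 2354 (.cons 294 (.leaf 317 2346 (.cons 322 (.leaf 321 2352 (.leaf 323 2360 .nil)) .nil)) .nil)) .nil)) .nil)))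
noncomputable def t154 : T := .cons 273 (.leaf 274 2170 (.cons 294 (.leaf 293 2153 (.cons 297 (.cons 318 (.leaf 317 2346 (.cons 298 (.leaf 319 2354 (.cons 299 (.leaf 271 2171 (.leaf 300 2179 .nil)) .nil)) .nil)) (.cons 270 (.leaf 269 2155 (.cons 318 (.leaf 317 2346 (.cons 321 (.leaf 322 2352 (.cons 345 (.leaf 369 2183 (.cons 344 (.leaf 368 2182 (.cons 346 (.leaf 370 2188 (.cons 343 (.leaf 319 2547 (.cons 367 (.leaf 320 2174 (.leaf 342 2164 .nil)) .nil)) .nil)) .nil)) .nil)) .nil)) .nil)) .nil)) (.cons 270 (.leaf 269 2155 (.cons 271 (.leaf 298 2160 (.cons 249 (.leaf 250 1969 (.cons 225 (.leaf 201 1606 (.leaf 320 1798 .nil)) .nil)) .nil)) .nil)) .nil))) .nil)) .nil)) (.cons 297 t153 (.cons 294 (.cons 293 (.leaf 273 2153 (.cons 271 (.leaf 292 2145 (.cons 316 (.leaf 317 2338 (.cons 320 (.leaf 321 2344 (.cons 247 (.leaf 344 1983 (.leaf 223 1788 .nil)) .nil)) .nil)) .nil)) .nil)) (.cons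 297 t152 (.cons 293 (.leaf 273 2153 (.cons 269 (.leaf 268 2147 (.cons 270 (.leaf 297 2155 (.cons 317 (.leaf 316 2338 (.cons 246 (.leaf 222 1774 (.leaf 341 1965 .nil)) .nil)) .nil)) .nil)) .nil)) (.cons 293 (.leaf 273 2153 (.cons 268 (.leaf 269 2147 (.cons 292 (.leaf 271 2145 (.leaf 267 2139 .nil)) .nil)) .nil)) .nil)))) (.cons 274 (.leaf 273 2170 (.cons 298 (.leaf 297 2169 (.cons 251 t145 .nil)) .nil)) (.cons 273 (.leaf 274 2170 (.cons 271 t151 .nil)) (.cons 273 (.leaf 274 2170 (.cons 294 (.leaf 293 2153 (.cons 297 (.cons 318 (.leaf 317 2346 (.cons 298 (.leaf 319 2354 (.cons 299 (.leaf 271 2171 (.leaf 300 2179 .nil)) .nil)) .nil)) (.cons 270 (.leaf 269 2155 (.cons 318 (.leaf 317 2346 (.cons 321 (.leaf 322 2352 (.cons 345 (.leaf 369 2183 (.cons 344 (.leaf 368 2182 (.cons 346 (.leaf 370 2188 (.cons 343 (.leaf 319 2547 (.cons 367 (.leaf 342 2164 (.leaf 366 2738 .nil)) .nil)) .nil)) .nil))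 .nil)) .nil)) .nil)) .nil)) (.cons 270 (.leaf 269 2155 (.cons 271 (.leaf 298 2160 (.cons 246 (.leaf 245 1963 (.cons 222 (.leaf 198 1588 (.leaf 319 1780 .nil)) .nil)) .nil)) .nil)) (.cons 270 (.leaf 269 2155 (.cons 271 (.leaf 298 2160 (.cons 245 (.leaf 246 1963 (.cons 318 (.leaf 317 2346 (.cons 247 (.leaf 223 1782 (.leaf 342 1973 .nil)) .nil)) .nil)) .nil)) .nil)) .nil)))) .nil)) .nil)) (.cons 273 (.leaf 274 2170 (.cons 294 (.leaf 293 2153 (.cons 297 (.cons 270 (.leaf 269 2155 (.cons 271 (.leaf 298 2160 (.cons 249 (.leaf 250 1969 (.cons 225 (.leaf 201 1606 (.leaf 320 1798 .nil)) .nil)) .nil)) .nil)) (.cons 318 (.leaf 317 2346 (.cons 298 (.leaf 319 2354 (.cons 299 (.leaf 271 2171 (.leaf 300 2179 .nil)) .nil)) .nil)) (.cons 270 (.leaf 269 2155 (.cons 318 (.leaf 317 2346 (.cons 246 (.cons 245 (.leaf 271 1963 (.leaf 221 1775 .nil)) (.cons 319 (.leaf 222 1780 (.leaf 343 1972 .nil)) .nil))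 .nil)) .nil)) (.cons 270 (.leaf 269 2155 (.cons 318 (.leaf 317 2346 (.cons 246 (.cons 319 (.leaf 298 2354 (.leaf 222 1780 .nil)) (.cons 221 (.leaf 245 1775 (.cons 222 (.leaf 197 1583 (.cons 223 (.leaf 199 1589 (.leaf 247 1781 .nil)) .nil)) .nil)) (.cons 319 (.leaf 298 2354 (.leaf 343 1972 .nil)) .nil))) .nil)) .nil)) .nil)))) .nil)) .nil)) .nil))))))
noncomputable def t155 : T := .cons 318 (.leaf 317 2346 (.cons 270 (.leaf 269 2155 (.cons 246 (.cons 245 (.leaf 271 1963 (.leaf 221 1775 .nil)) (.cons 343 (.leaf 319 1972 (.cons 221 (.leaf 245 1775 (.cons 342 (.leaf 367 2164 (.cons 365 (.leaf 341 2158 (.cons 366 (.leaf 389 2350 (.cons 223 (.leaf 247 1781 (.cons 344 (.leaf 345 2730 (.cons 320 (.leaf 249 1989 (.leaf 368 2181 .nil)) .nil)) .nil)) .nil)) .nil)) .nil)) .nil)) .nil)) (.cons 319 (.leaf 298 2354 (.leaf 222 1780 .nil)) .nil))) .nil)) .nil)) (.cons 318 (.leaf 317 2346 (.cons 319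 (.leaf 298 2354 (.cons 343 (.leaf 367 2173 (.cons 248 (.leaf 271 1981 (.leaf 320 1982 .nil)) .nil)) .nil)) .nil)) (.cons 270 (.leaf 269 2155 (.cons 271 (.leaf 298 2160 (.cons 249 (.leaf 250 1969 (.cons 225 (.leaf 201 1606 (.leaf 320 1798 .nil)) .nil)) .nil)) .nil)) (.cons 318 (.leaf 317 2346 (.cons 270 (.leaf 269 2155 (.cons 246 (.cons 319 (.leaf 298 2354 (.leaf 222 1780 .nil)) (.cons 247 (.leaf 223 1781 (.cons 245 (.leaf 248 1960 (.leaf 221 1775 .nil)) .nil)) .nil)) .nil)) .nil)) (.cons 270 (.leaf 269 2155 (.cons 318 (.leaf 317 2346 (.cons 246 (.cons 245 (.leaf 271 1963 (.leaf 221 1775 .nil)) (.cons 319 (.leaf 222 1780 (.leaf 343 1972 .nil)) .nil)) .nil)) .nil)) .nil))))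
noncomputable def t156 : T := .cons 251 (.leaf 346 2005 (.cons 227 (.leaf 203 1622 (.leaf 250 1813 .nil)) .nil)) (.cons 250 (.cons 249 (.leaf 225 1807 (.cons 247 (.leaf 248 1976 (.cons 323 (.leaf 347 2004 (.cons 320 (.leaf 321 2363 (.cons 271 (.leaf 344 1983 (.leaf 223 1788 .nil)) .nil)) .nil)) .nil)) .nil)) (.cons 227 (.leaf 251 1813 (.cons 203 (.leaf 226 1621 (.cons 321 (.leaf 345 1998 (.cons 323 (.leaf 320 2363 (.leaf 347 2004 .nil)) .nil)) .nil)) .nil)) (.cons 249 (.leaf 225 1807 (.cons 248 (.leaf 247 1976 (.cons 251 (.leaf 271 1978 (.leaf 227 1813 .nil)) .nil)) .nil)) .nil))) (.cons 321 (.cons 320 (.leaf 323 2363 (.cons 248 (.leaf 345 1988 (.cons 225 (.leaf 249 1797 (.cons 247 (.leaf 223 1791 (.cons 343 (.leaf 319 1982 (.cons 344 (.leaf 271 1983 (.leaf 367 2174 .nil)) .nil)) .nil)) .nil)) .nil)) .nil)) (.cons 345 (.leaf 250 1998 (.cons 369 (.leaf 346 2190 (.leaf 393 2381 .nil))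 .nil)) (.cons 323 (.leaf 320 2363 (.cons 347 (.leaf 250 2004 (.cons 371 (.leaf 346 2196 (.leaf 395 2391 .nil)) .nil)) .nil)) .nil))) (.cons 346 (.leaf 251 2005 (.cons 345 (.leaf 369 2190 (.cons 371 (.leaf 347 2196 (.cons 370 (.leaf 395 2388 (.cons 343 (.leaf 344 2744 (.cons 319 (.leaf 367 2173 (.cons 248 (.leaf 271 1981 (.leaf 320 1982 .nil)) .nil)) .nil)) .nil)) .nil)) .nil)) .nil)) .nil)))
noncomputable def t157 : T := .cons 293 (.leaf 273 2153 (.cons 271 (.leaf 292 2145 (.cons 316 (.leaf 317 2338 (.cons 320 (.leaf 321 2344 (.cons 247 (.leaf 344 1983 (.leaf 223 1788 .nil)) .nil)) .nil)) .nil)) .nil)) (.cons 297 (.cons 269 (.leaf 270 2155 (.cons 318 (.leaf 317 2346 (.cons 319 (.leaf 298 2354 (.cons 343 (.leaf 367 2173 (.cons 248 (.leaf 271 1981 (.leaf 320 1982 .nil)) .nil)) .nil)) .nil)) .nil)) (.cons 321 (.leaf 322 2352 (.cons 317 (.leaf 318 2346 (.cons 345 (.leaf 369 2183 (.cons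 248 (.leaf 273 1991 (.leaf 320 1988 .nil)) .nil)) .nil)) .nil)) (.cons 270 (.leaf 269 2155 (.cons 271 (.leaf 298 2163 (.cons 321 (.leaf 322 2352 (.cons 345 (.leaf 369 2183 (.cons 248 (.leaf 273 1991 (.leaf 320 1988 .nil)) .nil)) .nil)) .nil)) .nil)) (.cons 269 (.leaf 270 2155 (.cons 318 (.leaf 317 2346 (.cons 298 (.leaf 319 2354 (.cons 322 (.leaf 321 2352 (.leaf 323 2360 .nil)) .nil)) .nil)) .nil)) .nil)))) (.cons 293 (.cons 271 (.leaf 292 2145 (.cons 316 (.leaf 317 2338 (.cons 320 (.leaf 321 2344 (.cons 247 (.leaf 344 1983 (.leaf 223 1788 .nil)) .nil)) .nil)) .nil)) (.cons 269 (.leaf 268 2147 (.cons 270 (.leaf 297 2155 (.cons 317 (.leaf 316 2338 (.cons 246 (.leaf 222 1774 (.leaf 341 1965 .nil)) .nil)) .nil)) .nil)) (.cons 268 (.leaf 269 2147 (.cons 292 (.leaf 271 2145 (.leaf 267 2139 .nil)) .nil)) .nil))) (.cons 293 (.leaf 273 2153 (.cons 269 (.leaf 268 2147 (.cons 270 (.leaf 297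 2155 (.cons 317 (.leaf 316 2338 (.cons 246 (.leaf 222 1774 (.leaf 341 1965 .nil)) .nil)) .nil)) .nil)) .nil)) (.cons 293 (.leaf 273 2153 (.cons 268 (.leaf 269 2147 (.cons 292 (.leaf 271 2145 (.leaf 267 2139 .nil)) .nil)) .nil)) .nil))))
noncomputable def t158 : T := .cons 298 (.leaf 274 2169 (.cons 318 (.leaf 319 2354 (.cons 294 (.leaf 317 2346 (.cons 269 (.leaf 270 2155 (.cons 322 (.leaf 321 2352 (.leaf 323 2360 .nil)) .nil)) .nil)) .nil)) .nil)) (.cons 294 (.cons 269 (.leaf 270 2155 (.cons 293 (.leaf 268 2147 (.cons 317 (.leaf 316 2338 (.leaf 318 2346 .nil)) .nil)) .nil)) (.cons 317 (.leaf 318 2346 (.cons 293 (.leaf 316 2338 (.cons 321 (.leaf 320 2344 (.leaf 322 2352 .nil)) .nil)) .nil)) (.cons 321 (.leaf 322 2352 (.cons 269 (.leaf 270 2155 (.cons 293 (.leaf 268 2147 (.leaf 320 2344 .nil)) .nil)) .nil)) (.cons 269 (.leaf 270 2155 (.cons 318 (.leaf 317 2346 (.cons 321 (.leaf 322 2352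 (.cons 345 (.leaf 369 2183 (.cons 320 (.leaf 248 1988 (.cons 319 (.leaf 346 2544 (.cons 342 (.leaf 341 2538 (.cons 366 (.leaf 271 2165 (.leaf 390 2357 .nil)) .nil)) .nil)) .nil)) .nil)) .nil)) .nil)) .nil)) .nil)))) (.cons 298 (.leaf 274 2169 (.cons 270 (.leaf 271 2163 (.cons 319 (.leaf 318 2354 (.cons 322 (.leaf 323 2360 (.cons 343 (.leaf 367 2173 (.cons 320 (.leaf 248 1982 (.cons 321 (.leaf 342 2546 (.cons 346 (.leaf 347 2552 (.cons 369 (.leaf 345 2183 (.cons 370 (.leaf 394 2383 (.leaf 393 2382 .nil)) .nil)) .nil)) .nil)) .nil)) .nil)) .nil)) .nil)) .nil)) .nil)) (.cons 298 (.leaf 274 2169 (.cons 270 (.leaf 271 2163 (.cons 294 (.leaf 269 2155 (.cons 322 (.leaf 321 2352 (.leaf 323 2360 .nil)) .nil)) .nil)) .nil)) (.cons 298 (.leaf 274 2169 (.cons 318 (.leaf 319 2354 (.cons 294 (.leaf 317 2346 (.cons 322 (.leaf 321 2352 (.leaf 323 2360 .nil)) .nil)) .nil)) .nil)) (.cons 298 (.leaf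 274 2169 (.cons 270 (.leaf 271 2163 (.cons 294 (.leaf 269 2155 (.cons 318 (.leaf 317 2346 (.leaf 319 2354 .nil)) .nil)) .nil)) .nil)) .nil)))))
noncomputable def t159 : T := .cons 273 (.leaf 274 2170 (.cons 294 (.leaf 293 2153 (.cons 297 (.cons 270 (.leaf 269 2155 (.cons 318 (.leaf 317 2346 (.cons 246 (.cons 319 (.leaf 298 2354 (.leaf 222 1780 .nil)) (.cons 271 (.leaf 245 1963 (.leaf 298 2160 .nil)) (.cons 319 (.leaf 222 1780 (.leaf 343 1972 .nil)) .nil))) .nil)) .nil)) (.cons 322 (.leaf 321 2352 (.cons 298 (.leaf 323 2360 (.cons 318 (.leaf 317 2346 (.leaf 319 2354 .nil)) .nil)) .nil)) (.cons 270 (.leaf 269 2155 (.cons 271 (.leaf 298 2160 (.cons 249 (.leaf 250 1969 (.cons 225 (.leaf 201 1606 (.leaf 320 1798 .nil)) .nil)) .nil)) .nil)) (.cons 270 (.leaf 269 2155 (.cons 318 (.leaf 317 2346 (.cons 246 (.cons 319 (.leaf 222 1780 (.leaf 343 1972 .nil)) (.cons 245 (.leaf 271 1963 (.leaf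 221 1775 .nil)) .nil)) .nil)) .nil)) .nil)))) .nil)) .nil)) (.cons 297 t158 (.cons 294 t157 (.cons 274 (.leaf 273 2170 (.cons 298 (.leaf 297 2169 (.cons 322 t156 .nil)) .nil)) (.cons 273 (.leaf 274 2170 (.cons 294 (.leaf 293 2153 (.cons 297 (.cons 269 (.leaf 270 2155 (.cons 318 (.leaf 317 2346 (.cons 321 (.leaf 322 2352 (.cons 345 (.leaf 248 1991 (.leaf 369 2183 .nil)) .nil)) .nil)) .nil)) (.cons 322 (.leaf 321 2352 (.cons 298 (.leaf 323 2360 (.cons 318 (.leaf 317 2346 (.leaf 319 2354 .nil)) .nil)) .nil)) (.cons 269 (.leaf 270 2155 (.cons 318 (.leaf 317 2346 (.cons 319 (.leaf 298 2354 (.cons 343 (.leaf 367 2173 (.cons 271 (.leaf 248 1981 (.cons 342 (.leaf 247 1974 (.leaf 366 2165 .nil)) .nil)) .nil)) .nil)) .nil)) .nil)) (.cons 269 (.leaf 270 2155 (.cons 321 (.leaf 322 2352 (.cons 345 (.leaf 248 1991 (.leaf 369 2183 .nil)) .nil)) .nil)) .nil)))) .nil)) .nil)) (.cons 273 (.leaf 274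 2170 (.cons 294 (.leaf 293 2153 (.cons 297 (.cons 269 (.leaf 270 2155 (.cons 321 (.leaf 322 2352 (.cons 345 (.leaf 248 1991 (.leaf 369 2183 .nil)) .nil)) .nil)) (.cons 269 (.leaf 270 2155 (.cons 318 (.leaf 317 2346 (.cons 319 (.leaf 298 2354 (.cons 343 (.leaf 367 2173 (.cons 320 (.leaf 248 1982 (.cons 344 (.leaf 249 1989 (.leaf 368 2181 .nil)) .nil)) .nil)) .nil)) .nil)) .nil)) (.cons 317 (.leaf 318 2346 (.cons 321 (.leaf 322 2352 (.cons 345 (.leaf 248 1991 (.leaf 369 2183 .nil)) .nil)) .nil)) (.cons 317 (.leaf 318 2346 (.cons 321 (.leaf 322 2352 (.cons 345 (.leaf 369 2183 (.cons 344 (.leaf 368 2182 (.cons 249 (.leaf 320 1989 (.cons 225 (.leaf 201 1606 (.cons 226 (.leaf 202 1613 (.leaf 250 1805 .nil)) .nil)) .nil)) .nil)) .nil)) .nil)) .nil)) .nil)))) .nil)) .nil)) (.cons 273 (.leaf 274 2170 (.cons 294 (.leaf 293 2153 (.cons 320 t107 .nil)) .nil)) (.cons 273 (.leaf 274 2170 (.cons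 294 (.leaf 293 2153 (.cons 297 (.cons 270 (.leaf 269 2155 (.cons 318 (.leaf 317 2346 (.cons 271 (.leaf 298 2160 (.cons 247 (.leaf 223 1782 (.leaf 342 1973 .nil)) .nil)) .nil)) .nil)) (.cons 317 (.leaf 318 2346 (.cons 321 (.leaf 322 2352 (.cons 345 (.leaf 248 1991 (.leaf 369 2183 .nil)) .nil)) .nil)) (.cons 270 (.leaf 269 2155 (.cons 271 (.leaf 298 2160 (.cons 249 (.leaf 250 1969 (.cons 225 (.leaf 201 1606 (.leaf 320 1798 .nil)) .nil)) .nil)) .nil)) .nil))) .nil)) .nil)) (.cons 273 (.leaf 274 2170 (.cons 294 (.leaf 293 2153 (.cons 297 t155 .nil)) .nil)) .nil))))))))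
noncomputable def t160 : T := .cons 344 (.cons 247 (.leaf 271 1983 (.cons 249 (.leaf 273 1989 (.cons 367 (.leaf 343 2174 (.cons 368 (.leaf 391 2366 (.cons 369 (.leaf 345 2180 (.leaf 393 2372 .nil)) .nil)) .nil)) .nil)) .nil)) (.cons 273 (.leaf 249 1989 (.cons 274 (.leaf 295 2170 (.cons 251 (.leaf 252 1985 (.cons 299 (.leaf 300 2176 (.cons 345 (.leaf 369 2180 (.cons 343 (.leaf 367 2174 (.cons 322 (.cons 323 (.leaf 346 2553 (.leaf 321 2554 .nil)) (.cons 298 (.leaf 227 1814 (.leaf 346 2005 .nil)) (.cons 321 (.leaf 323 2554 (.leaf 342 2545 .nil)) .nil))) .nil)) .nil)) .nil)) .nil)) .nil)) .nil)) (.cons 271 (.leaf 247 1983 (.cons 273 (.leaf 249 1989 (.cons 274 (.leaf 295 2170 (.cons 299 (.leaf 300 2176 (.leaf 298 2168 .nil)) .nil)) .nil)) .nil)) (.cons 271 (.leaf 247 1983 (.cons 343 (.leaf 367 2174 (.cons 368 (.leaf 295 2175 (.cons 369 (.leaf 345 2180 (.leaf 393 2372 .nil)) .nil)) .nil))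 .nil)) .nil)))) (.cons 248 (.cons 225 (.leaf 249 1797 (.cons 247 (.leaf 223 1791 (.cons 344 (.leaf 271 1983 (.cons 345 (.leaf 321 1988 (.leaf 369 2180 .nil)) .nil)) .nil)) .nil)) (.cons 225 (.leaf 249 1797 (.cons 343 (.leaf 319 1982 (.cons 344 (.leaf 367 2174 (.cons 345 (.leaf 321 1988 (.leaf 369 2180 .nil)) .nil)) .nil)) .nil)) (.cons 247 (.leaf 223 1791 (.cons 249 (.leaf 225 1797 (.cons 250 (.leaf 274 1976 (.cons 271 (.leaf 344 1983 (.leaf 251 1978 .nil)) .nil)) .nil)) .nil)) (.cons 223 (.leaf 247 1791 (.cons 343 (.leaf 319 1982 (.cons 344 (.leaf 367 2174 (.cons 345 (.leaf 321 1988 (.leaf 369 2180 .nil)) .nil)) .nil)) .nil)) (.cons 247 (.leaf 223 1791 (.cons 249 (.leaf 225 1797 (.cons 250 (.leaf 274 1976 (.cons 271 (.leaf 251 1978 (.leaf 270 1970 .nil)) .nil)) .nil)) .nil)) .nil))))) (.cons 344 (.cons 249 (.leaf 273 1989 (.cons 248 (.leaf 225 1797 (.cons 345 (.leaf 321 1988 (.leaf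 369 2180 .nil)) .nil)) .nil)) (.cons 249 (.leaf 273 1989 (.cons 248 (.leaf 225 1797 (.cons 343 (.leaf 319 1982 (.leaf 367 2174 .nil)) .nil)) .nil)) (.cons 343 (.leaf 367 2174 (.cons 248 (.leaf 319 1982 (.cons 345 (.leaf 321 1988 (.leaf 369 2180 .nil)) .nil)) .nil)) (.cons 273 (.leaf 249 1989 (.cons 274 (.leaf 295 2170 (.cons 251 (.leaf 252 1985 (.cons 299 (.leaf 300 2176 (.cons 345 (.leaf 369 2180 (.cons 343 (.leaf 367 2174 (.cons 322 (.cons 323 (.leaf 346 2553 (.leaf 321 2554 .nil)) (.cons 298 (.leaf 227 1814 (.leaf 346 2005 .nil)) (.cons 321 (.leaf 323 2554 (.leaf 342 2545 .nil)) .nil))) .nil)) .nil)) .nil)) .nil)) .nil)) .nil)) .nil)))) (.cons 344 (.cons 247 (.leaf 271 1983 (.cons 248 (.leaf 223 1791 (.cons 345 (.leaf 321 1988 (.leaf 369 2180 .nil)) .nil)) .nil)) (.cons 249 (.leaf 273 1989 (.cons 248 (.leaf 225 1797 (.cons 345 (.leaf 321 1988 (.leaf 369 2180 .nil)) .nil)) .nil))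 (.cons 247 (.leaf 271 1983 (.cons 248 (.leaf 223 1791 (.cons 249 (.leaf 225 1797 (.leaf 273 1989 .nil)) .nil)) .nil)) (.cons 273 (.leaf 249 1989 (.cons 247 (.leaf 271 1983 (.cons 295 (.leaf 274 2170 (.cons 293 (.leaf 294 2153 (.cons 369 (.leaf 345 2180 (.cons 368 (.leaf 393 2372 (.cons 391 (.leaf 367 2366 (.cons 392 (.leaf 319 2367 (.leaf 415 2558 .nil)) .nil)) .nil)) .nil)) .nil)) .nil)) .nil)) .nil)) .nil)))) (.cons 344 (.cons 247 (.leaf 271 1983 (.cons 273 (.leaf 249 1989 (.cons 295 (.leaf 274 2170 (.cons 293 (.leaf 294 2153 (.cons 367 (.leaf 343 2174 (.cons 368 (.leaf 391 2366 (.cons 392 (.leaf 319 2367 (.cons 393 (.leaf 369 2372 (.leaf 417 2564 .nil)) .nil)) .nil)) .nil)) .nil)) .nil)) .nil)) .nil)) (.cons 273 (.leaf 249 1989 (.cons 247 (.leaf 271 1983 (.cons 248 (.leaf 274 1979 (.leaf 223 1791 .nil)) .nil)) .nil)) (.cons 343 (.leaf 367 2174 (.cons 248 (.leaf 319 1982 (.cons 249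 (.leaf 225 1797 (.leaf 273 1989 .nil)) .nil)) .nil)) (.cons 343 (.leaf 367 2174 (.cons 247 (.leaf 271 1983 (.cons 248 (.leaf 223 1791 (.leaf 319 1982 .nil)) .nil)) .nil)) .nil)))) (.cons 344 (.cons 247 (.leaf 271 1983 (.cons 248 (.leaf 223 1791 (.cons 345 (.leaf 321 1988 (.leaf 369 2180 .nil)) .nil)) .nil)) (.cons 343 (.leaf 367 2174 (.cons 247 (.leaf 271 1983 (.cons 248 (.leaf 223 1791 (.leaf 319 1982 .nil)) .nil)) .nil)) (.cons 343 (.leaf 367 2174 (.cons 248 (.leaf 319 1982 (.cons 345 (.leaf 321 1988 (.leaf 369 2180 .nil)) .nil)) .nil)) (.cons 247 (.leaf 271 1983 (.cons 367 (.leaf 343 2174 (.cons 368 (.leaf 391 2366 (.cons 369 (.leaf 345 2180 (.leaf 393 2372 .nil)) .nil)) .nil)) .nil)) .nil)))) .nil)))))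
noncomputable def t161 : T := .cons 247 (.leaf 223 1791 (.cons 249 (.leaf 225 1797 (.cons 319 (.leaf 343 1982 (.cons 250 (.leaf 274 1976 (.cons 271 (.leaf 251 1978 (.leaf 270 1970 .nil)) .nil)) .nil)) .nil)) .nil)) (.cons 249 (.leaf 225 1797 (.cons 319 (.leaf 343 1982 (.cons 321 (.leaf 345 1988 (.cons 322 (.cons 295 (.leaf 323 2363 (.leaf 294 2355 .nil)) (.cons 298 (.leaf 299 2361 (.cons 346 (.leaf 347 2552 (.cons 274 (.leaf 251 2005 (.leaf 273 1999 .nil)) .nil)) .nil)) .nil)) .nil)) .nil)) .nil)) (.cons 247 (.leaf 223 1791 (.cons 273 (.leaf 274 1979 (.cons 246 (.leaf 245 1960 (.cons 319 (.leaf 343 1982 (.cons 321 (.leaf 345 1988 (.cons 294 (.cons 293 (.leaf 295 2344 (.leaf 318 2347 .nil)) (.cons 293 (.leaf 318 2347 (.cons 270 (.leaf 271 2154 (.cons 222 (.leaf 317 1774 (.cons 197 (.leaf 221 1583 (.cons 198 (.leaf 173 1391 (.leaf 269 1582 .nil)) .nil)) .nil)) .nil)) .nil)) (.cons 295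 (.leaf 322 2355 (.cons 222 (.leaf 271 1783 (.leaf 270 1780 .nil)) .nil)) .nil))) .nil)) .nil)) .nil)) .nil)) .nil)) (.cons 247 (.leaf 223 1791 (.cons 249 (.leaf 225 1797 (.cons 274 (.leaf 250 1976 (.leaf 273 1979 .nil)) .nil)) .nil)) (.cons 247 (.leaf 223 1791 (.cons 249 (.leaf 225 1797 (.cons 319 (.leaf 343 1982 (.cons 246 (.cons 221 (.leaf 222 1771 (.cons 245 (.leaf 273 1960 (.leaf 220 1763 .nil)) .nil)) (.cons 222 (.leaf 221 1771 (.cons 270 (.leaf 269 1962 (.cons 271 (.leaf 250 1970 (.leaf 295 1783 .nil)) .nil)) .nil)) (.cons 245 (.leaf 273 1960 (.cons 269 (.leaf 268 1954 (.leaf 270 1962 .nil)) .nil)) .nil))) .nil)) .nil)) .nil)) .nil))))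
noncomputable def t162 : T := .cons 269 (.leaf 268 2147 (.cons 317 (.leaf 316 2338 (.cons 245 (.cons 220 (.leaf 244 1767 (.cons 318 (.leaf 297 2346 (.leaf 221 1772 .nil)) .nil)) (.cons 220 (.leaf 244 1767 (.cons 270 (.leaf 297 2155 (.cons 246 (.leaf 222 1773 (.leaf 341 1965 .nil)) .nil)) .nil)) (.cons 220 (.leaf 244 1767 (.cons 318 (.leaf 221 1772 (.leaf 342 1964 .nil)) .nil)) (.cons 318 (.leaf 297 2346 (.leaf 221 1772 .nil)) .nil)))) .nil)) .nil)) (.cons 269 (.leaf 268 2147 (.cons 297 (.leaf 270 2155 (.cons 298 (.leaf 274 2169 (.cons 319 (.leaf 318 2354 (.cons 320 (.leaf 299 2362 (.leaf 292 2336 .nil)) .nil)) .nil)) .nil)) .nil)) (.cons 316 (.leaf 317 2338 (.cons 292 (.leaf 315 2330 (.cons 267 (.leaf 268 2139 (.cons 291 (.leaf 266 2131 (.cons 319 (.leaf 320 2336 (.leaf 318 2328 .nil)) .nil)) .nil)) .nil)) .nil)) (.cons 316 (.leaf 317 2338 (.cons 292 (.leaf 315 2330 (.cons 319 (.leaf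 320 2336 (.cons 318 (.leaf 291 2328 (.cons 297 (.leaf 298 2354 (.cons 270 (.leaf 269 2155 (.cons 343 (.leaf 367 2173 (.leaf 246 1972 .nil)) .nil)) .nil)) .nil)) .nil)) .nil)) .nil)) (.cons 269 (.leaf 268 2147 (.cons 270 (.leaf 297 2155 (.cons 317 (.leaf 316 2338 (.cons 246 (.leaf 222 1774 (.leaf 341 1965 .nil)) .nil)) .nil)) .nil)) .nil))))
noncomputable def t163 : T := .cons 274 (.leaf 273 2170 (.cons 297 (.leaf 298 2169 (.cons 269 (.leaf 270 2155 (.cons 293 (.leaf 268 2147 (.cons 317 (.leaf 316 2338 (.leaf 318 2346 .nil)) .nil)) .nil)) .nil)) .nil)) (.cons 293 t162 (.cons 274 (.leaf 273 2170 (.cons 297 (.leaf 298 2169 (.cons 318 (.leaf 317 2346 (.cons 270 (.leaf 269 2155 (.cons 342 (.cons 365 (.leaf 341 2158 (.cons 366 (.leaf 389 2350 (.cons 390 (.leaf 319 2357 (.cons 391 (.leaf 367 2356 (.leaf 415 2548 .nil)) .nil)) .nil)) .nil)) (.cons 365 (.leaf 341 2158 (.cons 366 (.leaf 389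 2350 (.cons 319 (.leaf 390 2357 (.cons 246 (.leaf 222 1780 (.leaf 343 1972 .nil)) .nil)) .nil)) .nil)) (.cons 365 (.leaf 341 2158 (.cons 366 (.leaf 389 2350 (.cons 367 (.leaf 343 2164 (.leaf 391 2356 .nil)) .nil)) .nil)) (.cons 343 (.leaf 367 2164 (.cons 246 (.leaf 319 1972 (.cons 221 (.leaf 245 1775 (.cons 222 (.leaf 197 1583 (.cons 223 (.leaf 199 1589 (.leaf 247 1781 .nil)) .nil)) .nil)) .nil)) .nil)) .nil)))) .nil)) .nil)) .nil)) .nil)) (.cons 293 (.leaf 273 2153 (.cons 316 (.leaf 317 2338 (.cons 292 (.leaf 315 2330 (.cons 267 (.leaf 268 2139 (.cons 291 (.leaf 266 2131 (.cons 319 (.leaf 320 2336 (.leaf 318 2328 .nil)) .nil)) .nil)) .nil)) .nil)) .nil)) (.cons 273 (.leaf 274 2170 (.leaf 293 2153 .nil)) .nil))))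
noncomputable def t164 : T := .cons 273 (.leaf 274 2170 (.cons 294 (.leaf 293 2153 (.cons 321 (.cons 345 (.leaf 248 1988 (.cons 369 (.leaf 344 2180 (.leaf 393 2375 .nil)) .nil)) (.cons 322 (.leaf 323 2363 (.leaf 319 2355 .nil)) .nil)) .nil)) .nil)) (.cons 321 (.cons 248 (.leaf 345 1988 (.cons 247 (.leaf 223 1791 (.cons 249 (.leaf 225 1797 (.cons 274 (.leaf 250 1976 (.cons 322 (.leaf 323 2363 (.cons 319 (.leaf 343 1982 (.leaf 294 2355 .nil)) .nil)) .nil)) .nil)) .nil)) .nil)) (.cons 294 (.leaf 293 2344 (.cons 322 (.leaf 323 2363 (.leaf 319 2355 .nil)) .nil)) (.cons 293 (.leaf 294 2344 (.cons 345 (.leaf 248 1988 (.cons 369 (.leaf 344 2180 (.leaf 393 2375 .nil)) .nil)) .nil)) (.cons 248 (.leaf 345 1988 (.cons 247 (.leaf 223 1791 (.cons 249 (.leaf 225 1797 (.cons 274 (.leaf 250 1976 (.cons 319 (.leaf 343 1982 (.cons 322 (.leaf 323 2363 (.cons 298 (.leaf 299 2361 (.cons 346 (.leaf 251 2005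 (.leaf 347 2552 .nil)) .nil)) .nil)) .nil)) .nil)) .nil)) .nil)) .nil)) .nil)))) (.cons 248 (.cons 223 (.leaf 247 1791 (.cons 249 (.leaf 225 1797 (.cons 319 (.leaf 343 1982 (.cons 344 (.leaf 273 1989 (.cons 368 (.leaf 392 2367 (.cons 369 (.leaf 345 2180 (.leaf 393 2372 .nil)) .nil)) .nil)) .nil)) .nil)) .nil)) (.cons 223 (.leaf 247 1791 (.cons 249 (.leaf 225 1797 (.cons 344 (.leaf 273 1989 (.cons 345 (.leaf 321 1988 (.leaf 369 2180 .nil)) .nil)) .nil)) .nil)) (.cons 223 (.leaf 247 1791 (.cons 319 (.leaf 343 1982 (.cons 321 (.leaf 345 1988 (.cons 294 (.leaf 293 2344 (.leaf 322 2355 .nil)) .nil)) .nil)) .nil)) (.cons 343 (.leaf 319 1982 (.cons 223 (.leaf 247 1791 (.cons 249 (.leaf 225 1797 (.cons 344 (.leaf 273 1989 (.leaf 367 2174 .nil)) .nil)) .nil)) .nil)) (.cons 225 (.leaf 249 1797 (.cons 319 (.leaf 343 1982 (.cons 321 (.leaf 345 1988 (.cons 294 (.leaf 293 2344 (.leaf 322 2355 .nil))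 .nil)) .nil)) .nil)) .nil))))) (.cons 273 (.leaf 274 2170 (.cons 293 (.leaf 294 2153 (.cons 344 (.leaf 249 1989 (.cons 345 (.leaf 369 2180 (.cons 367 (.leaf 343 2174 (.cons 368 (.leaf 391 2366 (.cons 319 (.leaf 392 2367 (.cons 346 (.leaf 347 2746 (.cons 318 (.leaf 317 2536 (.leaf 321 2544 .nil)) .nil)) .nil)) .nil)) .nil)) .nil)) .nil)) .nil)) .nil)) (.cons 274 (.leaf 273 2170 (.cons 248 (.cons 223 (.leaf 247 1791 (.cons 225 (.leaf 249 1797 (.cons 319 (.leaf 343 1982 (.cons 321 (.leaf 345 1988 (.cons 322 (.leaf 323 2363 (.leaf 294 2355 .nil)) .nil)) .nil)) .nil)) .nil)) (.cons 247 (.leaf 223 1791 (.cons 249 (.leaf 250 1976 (.leaf 225 1797 .nil)) .nil)) (.cons 225 (.leaf 249 1797 (.cons 321 (.leaf 345 1988 (.cons 294 (.leaf 293 2344 (.cons 319 (.leaf 343 1982 (.leaf 322 2355 .nil)) .nil)) .nil)) .nil)) (.cons 223 (.leaf 247 1791 (.cons 319 (.leaf 343 1982 (.cons 321 (.leaf 345 1988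 (.cons 294 (.leaf 293 2344 (.leaf 322 2355 .nil)) .nil)) .nil)) .nil)) .nil)))) .nil)) (.cons 273 (.leaf 274 2170 (.cons 249 (.leaf 344 1989 (.cons 225 (.leaf 201 1606 (.leaf 248 1797 .nil)) .nil)) .nil)) .nil)))))
noncomputable def t165 : T := .cons 322 (.leaf 346 2005 (.cons 227 (.leaf 203 1622 (.leaf 299 1814 .nil)) .nil)) (.cons 227 (.leaf 203 1622 (.cons 299 (.cons 300 (.leaf 324 1820 (.cons 228 (.leaf 204 1629 (.cons 301 (.leaf 302 2195 (.cons 277 (.leaf 278 2193 (.cons 325 (.leaf 326 2384 (.cons 253 (.leaf 252 1831 (.cons 226 (.leaf 202 1623 (.cons 254 (.leaf 229 1808 (.leaf 230 1837 .nil)) .nil)) .nil)) .nil)) .nil)) .nil)) .nil)) .nil)) (.cons 228 (.leaf 204 1629 (.cons 252 (.leaf 323 1821 (.cons 253 (.leaf 254 2002 (.cons 300 (.leaf 324 1820 (.cons 301 (.leaf 302 2195 (.cons 277 (.leaf 278 2193 (.leaf 325 1831 .nil)) .nil)) .nil)) .nil)) .nil)) .nil)) (.cons 226 (.leaf 202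 1623 (.cons 323 (.leaf 250 1812 (.cons 324 (.leaf 300 1820 (.leaf 348 2012 .nil)) .nil)) .nil)) (.cons 226 (.leaf 202 1623 (.cons 228 (.leaf 204 1629 (.cons 252 (.leaf 323 1821 (.cons 253 (.leaf 254 2002 (.leaf 225 1800 .nil)) .nil)) .nil)) .nil)) .nil)))) .nil)) (.cons 322 (.leaf 346 2005 (.cons 250 (.cons 225 (.leaf 249 1807 (.cons 226 (.leaf 201 1615 (.cons 202 (.leaf 178 1428 (.leaf 299 1620 .nil)) .nil)) .nil)) (.cons 225 (.leaf 249 1807 (.cons 321 (.leaf 345 1998 (.cons 323 (.leaf 320 2363 (.leaf 347 2004 .nil)) .nil)) .nil)) (.cons 323 (.leaf 347 2004 (.cons 299 (.leaf 226 1812 (.cons 252 (.leaf 228 1821 (.cons 253 (.leaf 254 2002 (.cons 229 (.leaf 230 1809 (.cons 324 (.leaf 348 2012 (.cons 277 (.leaf 278 2000 (.cons 301 (.leaf 300 1830 (.cons 302 (.leaf 325 2385 (.leaf 326 1836 .nil)) .nil)) .nil)) .nil)) .nil)) .nil)) .nil)) .nil)) .nil)) .nil))) .nil)) (.cons 322 (.leaf 346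 2005 (.cons 227 (.leaf 203 1622 (.leaf 250 1813 .nil)) .nil)) .nil)))
noncomputable def t166 : T := .cons 293 (.leaf 273 2153 (.cons 268 (.leaf 269 2147 (.cons 292 (.leaf 267 2139 (.cons 316 (.leaf 317 2338 (.leaf 315 2330 .nil)) .nil)) .nil)) .nil)) (.cons 297 (.cons 269 (.leaf 270 2155 (.cons 321 (.leaf 322 2352 (.cons 318 (.leaf 317 2346 (.cons 345 (.leaf 369 2183 (.cons 320 (.leaf 248 1988 (.cons 319 (.leaf 298 2353 (.leaf 346 2544 .nil)) .nil)) .nil)) .nil)) .nil)) .nil)) (.cons 270 (.leaf 269 2155 (.cons 318 (.leaf 317 2346 (.cons 319 (.leaf 298 2354 (.cons 343 (.leaf 367 2173 (.leaf 246 1972 .nil)) .nil)) .nil)) .nil)) (.cons 269 (.leaf 270 2155 (.cons 321 (.leaf 322 2352 (.cons 345 (.leaf 369 2183 (.cons 248 (.leaf 273 1991 (.leaf 320 1988 .nil)) .nil)) .nil)) .nil)) (.cons 317 (.leaf 318 2346 (.cons 321 (.leaf 322 2352 (.cons 345 (.leaf 369 2183 (.cons 248 (.leaf 273 1991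 (.leaf 320 1988 .nil)) .nil)) .nil)) .nil)) .nil)))) (.cons 293 (.cons 268 (.leaf 269 2147 (.cons 292 (.leaf 267 2139 (.cons 316 (.leaf 317 2338 (.leaf 315 2330 .nil)) .nil)) .nil)) (.cons 268 (.leaf 269 2147 (.cons 292 (.leaf 267 2139 (.cons 320 (.leaf 321 2344 (.leaf 319 2336 .nil)) .nil)) .nil)) (.cons 316 (.leaf 317 2338 (.cons 292 (.leaf 315 2330 (.cons 320 (.leaf 321 2344 (.leaf 319 2336 .nil)) .nil)) .nil)) (.cons 268 (.leaf 269 2147 (.cons 317 (.leaf 316 2338 (.cons 297 (.leaf 318 2346 (.cons 321 (.leaf 320 2344 (.leaf 322 2352 .nil)) .nil)) .nil)) .nil)) .nil)))) (.cons 293 (.leaf 273 2153 (.cons 268 (.leaf 269 2147 (.cons 292 (.leaf 267 2139 (.cons 320 (.leaf 321 2344 (.leaf 319 2336 .nil)) .nil)) .nil)) .nil)) (.cons 293 (.leaf 273 2153 (.cons 316 (.leaf 317 2338 (.cons 292 (.leaf 315 2330 (.cons 320 (.leaf 321 2344 (.leaf 319 2336 .nil)) .nil)) .nil)) .nil)) .nil))))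
noncomputable def t167 : T := .cons 298 (.leaf 274 2169 (.cons 319 (.leaf 318 2354 (.cons 299 (.leaf 320 2362 (.cons 323 (.leaf 322 2360 (.leaf 324 2368 .nil)) .nil)) .nil)) .nil)) (.cons 294 (.cons 317 (.leaf 318 2346 (.cons 293 (.leaf 316 2338 (.cons 321 (.leaf 320 2344 (.leaf 322 2352 .nil)) .nil)) .nil)) (.cons 269 (.leaf 270 2155 (.cons 293 (.leaf 268 2147 (.cons 317 (.leaf 316 2338 (.leaf 318 2346 .nil)) .nil)) .nil)) (.cons 269 (.leaf 270 2155 (.cons 293 (.leaf 268 2147 (.cons 321 (.leaf 320 2344 (.leaf 322 2352 .nil)) .nil)) .nil)) (.cons 321 (.leaf 322 2352 (.cons 269 (.leaf 270 2155 (.cons 318 (.leaf 317 2346 (.cons 345 (.leaf 369 2183 (.cons 320 (.leaf 248 1988 (.cons 319 (.leaf 346 2544 (.cons 342 (.leaf 341 2538 (.cons 366 (.leaf 390 2357 (.cons 367 (.leaf 343 2173 (.leaf 391 2356 .nil)) .nil)) .nil)) .nil)) .nil)) .nil)) .nil)) .nil)) .nil)) .nil)))) (.cons 298 (.leaf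 274 2169 (.cons 322 (.leaf 323 2360 (.cons 294 (.leaf 321 2352 (.cons 269 (.leaf 270 2155 (.cons 293 (.leaf 268 2147 (.cons 317 (.leaf 316 2338 (.leaf 318 2346 .nil)) .nil)) .nil)) .nil)) .nil)) .nil)) (.cons 298 (.leaf 274 2169 (.cons 319 (.leaf 318 2354 (.cons 320 (.leaf 299 2362 (.cons 343 (.leaf 248 1982 (.leaf 367 2173 .nil)) .nil)) .nil)) .nil)) (.cons 298 (.leaf 274 2169 (.cons 322 (.leaf 323 2360 (.cons 321 (.leaf 294 2352 (.cons 345 (.leaf 369 2183 (.cons 320 (.leaf 248 1988 (.cons 299 (.leaf 319 2361 (.leaf 300 2370 .nil)) .nil)) .nil)) .nil)) .nil)) .nil)) .nil))))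
noncomputable def t168 : T := .cons 273 (.leaf 274 2170 (.cons 294 (.leaf 293 2153 (.cons 297 (.cons 321 (.leaf 322 2352 (.cons 345 (.leaf 248 1991 (.leaf 369 2183 .nil)) .nil)) (.cons 318 (.leaf 317 2346 (.cons 270 (.leaf 269 2155 (.cons 246 (.cons 221 (.leaf 245 1775 (.cons 222 (.leaf 319 1780 (.leaf 197 1583 .nil)) .nil)) (.cons 247 (.leaf 223 1781 (.cons 245 (.leaf 248 1960 (.leaf 221 1775 .nil)) .nil)) (.cons 319 (.leaf 298 2354 (.leaf 222 1780 .nil)) .nil))) .nil)) .nil)) (.cons 318 (.leaf 317 2346 (.cons 270 (.leaf 269 2155 (.cons 246 (.cons 319 (.leaf 298 2354 (.leaf 222 1780 .nil)) (.cons 321 (.leaf 322 2352 (.cons 221 (.leaf 245 1775 (.cons 222 (.leaf 197 1583 (.cons 223 (.leaf 199 1589 (.leaf 247 1781 .nil)) .nil)) .nil)) .nil)) (.cons 319 (.leaf 298 2354 (.leaf 343 1972 .nil)) .nil))) .nil)) .nil)) .nil))) .nil)) .nil)) (.cons 297 t167 (.cons 294 t166 (.cons 274 (.leaf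 273 2170 (.cons 298 (.leaf 297 2169 (.cons 251 t165 .nil)) .nil)) (.cons 320 t164 (.cons 273 (.leaf 274 2170 (.cons 294 (.leaf 293 2153 (.cons 297 (.cons 321 (.leaf 322 2352 (.cons 345 (.leaf 248 1991 (.leaf 369 2183 .nil)) .nil)) (.cons 318 (.leaf 317 2346 (.cons 270 (.leaf 269 2155 (.cons 246 (.cons 247 (.leaf 223 1781 (.cons 245 (.leaf 248 1960 (.leaf 221 1775 .nil)) .nil)) (.cons 319 (.leaf 222 1780 (.leaf 343 1972 .nil)) .nil)) .nil)) .nil)) (.cons 318 (.leaf 317 2346 (.cons 270 (.leaf 269 2155 (.cons 246 (.cons 319 (.leaf 222 1780 (.leaf 343 1972 .nil)) (.cons 321 (.leaf 322 2352 (.cons 221 (.leaf 245 1775 (.cons 222 (.leaf 197 1583 (.cons 223 (.leaf 199 1589 (.leaf 247 1781 .nil)) .nil)) .nil)) .nil)) (.cons 343 (.leaf 319 1972 (.cons 221 (.leaf 245 1775 (.cons 342 (.leaf 367 2164 (.cons 365 (.leaf 341 2158 (.cons 366 (.leaf 389 2350 (.cons 223 (.leaf 247 1781 (.cons 344 (.leaf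 345 2730 (.cons 320 (.leaf 249 1989 (.leaf 368 2181 .nil)) .nil)) .nil)) .nil)) .nil)) .nil)) .nil)) .nil)) .nil))) .nil)) .nil)) .nil))) .nil)) .nil)) (.cons 294 t163 .nil))))))
noncomputable def t169 : T := .cons 344 (.cons 247 (.leaf 271 1983 (.cons 367 (.leaf 343 2174 (.cons 368 (.leaf 391 2366 (.cons 369 (.leaf 345 2180 (.leaf 393 2372 .nil)) .nil)) .nil)) .nil)) (.cons 343 (.leaf 367 2174 (.cons 319 (.leaf 248 1982 (.cons 345 (.leaf 369 2180 (.cons 318 (.leaf 317 2536 (.leaf 346 2547 .nil)) .nil)) .nil)) .nil)) (.cons 247 (.leaf 271 1983 (.cons 223 (.leaf 248 1791 (.cons 273 (.leaf 249 1989 (.cons 368 (.leaf 297 2181 (.cons 391 (.leaf 367 2366 (.cons 392 (.leaf 415 2558 (.cons 393 (.leaf 369 2372 (.leaf 417 2564 .nil)) .nil)) .nil)) .nil)) .nil)) .nil)) .nil)) (.cons 247 (.leaf 271 1983 (.cons 223 (.leaf 248 1791 (.cons 273 (.leaf 249 1989 (.cons 368 (.leaf 297 2181 (.cons 369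 (.leaf 345 2180 (.leaf 393 2372 .nil)) .nil)) .nil)) .nil)) .nil)) (.cons 271 (.leaf 247 1983 (.cons 249 (.leaf 273 1989 (.cons 367 (.leaf 343 2174 (.cons 368 (.leaf 295 2175 (.leaf 391 2366 .nil)) .nil)) .nil)) .nil)) .nil))))) (.cons 344 (.cons 247 (.leaf 271 1983 (.cons 248 (.leaf 223 1791 (.cons 345 (.leaf 321 1988 (.leaf 369 2180 .nil)) .nil)) .nil)) (.cons 345 (.leaf 369 2180 (.cons 248 (.leaf 321 1988 (.cons 249 (.leaf 225 1797 (.leaf 273 1989 .nil)) .nil)) .nil)) (.cons 247 (.leaf 271 1983 (.cons 248 (.leaf 223 1791 (.cons 249 (.leaf 225 1797 (.leaf 273 1989 .nil)) .nil)) .nil)) (.cons 247 (.leaf 271 1983 (.cons 273 (.leaf 249 1989 (.cons 368 (.leaf 297 2181 (.cons 369 (.leaf 345 2180 (.leaf 393 2372 .nil)) .nil)) .nil)) .nil)) .nil)))) (.cons 344 (.cons 343 (.leaf 367 2174 (.cons 321 (.cons 322 (.leaf 323 2554 (.cons 342 (.leaf 319 2546 (.leaf 341 2537 .nil)) .nil)) (.cons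 248 (.leaf 319 1982 (.leaf 345 1988 .nil)) (.cons 322 (.leaf 323 2554 (.cons 342 (.leaf 341 2537 (.leaf 345 2545 .nil)) .nil)) .nil))) .nil)) (.cons 249 (.leaf 273 1989 (.cons 248 (.leaf 225 1797 (.cons 343 (.leaf 319 1982 (.leaf 367 2174 .nil)) .nil)) .nil)) (.cons 345 (.leaf 369 2180 (.cons 248 (.leaf 321 1988 (.cons 249 (.leaf 225 1797 (.leaf 273 1989 .nil)) .nil)) .nil)) (.cons 249 (.leaf 273 1989 (.cons 367 (.leaf 343 2174 (.cons 368 (.leaf 391 2366 (.cons 369 (.leaf 345 2180 (.leaf 393 2372 .nil)) .nil)) .nil)) .nil)) .nil)))) (.cons 344 (.cons 247 (.leaf 271 1983 (.cons 248 (.leaf 223 1791 (.cons 343 (.leaf 319 1982 (.leaf 367 2174 .nil)) .nil)) .nil)) (.cons 249 (.leaf 273 1989 (.cons 248 (.leaf 225 1797 (.cons 343 (.leaf 319 1982 (.leaf 367 2174 .nil)) .nil)) .nil)) (.cons 271 (.leaf 247 1983 (.cons 249 (.leaf 273 1989 (.cons 225 (.leaf 248 1797 (.cons 368 (.leaf 295 2175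 (.cons 391 (.leaf 367 2366 (.cons 392 (.leaf 415 2558 (.cons 393 (.leaf 369 2372 (.leaf 417 2564 .nil)) .nil)) .nil)) .nil)) .nil)) .nil)) .nil)) (.cons 271 (.leaf 247 1983 (.cons 273 (.leaf 249 1989 (.cons 297 (.leaf 368 2181 (.cons 270 (.leaf 269 2152 (.leaf 298 2160 .nil)) .nil)) .nil)) .nil)) .nil)))) (.cons 344 (.cons 247 (.leaf 271 1983 (.cons 223 (.leaf 248 1791 (.cons 369 (.leaf 345 2180 (.cons 367 (.leaf 343 2174 (.cons 368 (.leaf 391 2366 (.leaf 393 2372 .nil)) .nil)) .nil)) .nil)) .nil)) (.cons 345 (.leaf 369 2180 (.cons 247 (.leaf 271 1983 (.cons 248 (.leaf 223 1791 (.leaf 321 1988 .nil)) .nil)) .nil)) (.cons 271 (.leaf 247 1983 (.cons 295 (.leaf 368 2175 (.cons 343 (.leaf 367 2174 (.cons 319 (.leaf 248 1981 (.cons 246 (.leaf 270 1975 (.cons 342 (.leaf 366 2166 (.cons 321 (.leaf 322 2546 (.leaf 341 2537 .nil)) .nil)) .nil)) .nil)) .nil)) .nil)) .nil)) (.cons 345 (.leaf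 369 2180 (.cons 248 (.leaf 321 1988 (.cons 343 (.leaf 319 1982 (.leaf 367 2174 .nil)) .nil)) .nil)) (.cons 271 (.leaf 247 1983 (.cons 343 (.leaf 367 2174 (.cons 345 (.leaf 369 2180 (.cons 368 (.leaf 295 2175 (.cons 297 (.leaf 273 2181 (.cons 269 (.leaf 270 2152 (.cons 298 (.leaf 299 2171 (.cons 321 (.leaf 392 2373 (.cons 322 (.leaf 323 2554 (.leaf 342 2545 .nil)) .nil)) .nil)) .nil)) .nil)) .nil)) .nil)) .nil)) .nil)) .nil))))) (.cons 344 (.cons 247 (.leaf 271 1983 (.cons 367 (.leaf 343 2174 (.cons 368 (.leaf 391 2366 (.cons 369 (.leaf 345 2180 (.leaf 393 2372 .nil)) .nil)) .nil)) .nil)) (.cons 247 (.leaf 271 1983 (.cons 248 (.leaf 223 1791 (.cons 345 (.leaf 321 1988 (.leaf 369 2180 .nil)) .nil)) .nil)) (.cons 343 (.leaf 367 2174 (.cons 247 (.leaf 271 1983 (.cons 248 (.leaf 223 1791 (.leaf 319 1982 .nil)) .nil)) .nil)) (.cons 343 (.leaf 367 2174 (.cons 248 (.leaf 319 1982 (.cons 345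 (.leaf 321 1988 (.leaf 369 2180 .nil)) .nil)) .nil)) .nil)))) .nil)))))
noncomputable def t170 : T := .cons 271 (.leaf 247 1983 (.cons 249 (.leaf 273 1989 (.cons 367 (.leaf 343 2174 (.cons 368 (.leaf 295 2175 (.leaf 391 2366 .nil)) .nil)) .nil)) .nil)) (.cons 343 (.leaf 367 2174 (.cons 345 (.leaf 369 2180 (.cons 342 (.cons 321 (.leaf 341 2537 (.leaf 322 2545 .nil)) (.cons 318 (.leaf 317 2539 (.cons 319 (.leaf 346 2547 (.cons 340 (.leaf 341 2529 (.cons 366 (.leaf 365 2730 (.cons 390 (.leaf 414 2549 (.leaf 295 2357 .nil)) .nil)) .nil)) .nil)) .nil)) (.cons 321 (.leaf 322 2545 (.cons 318 (.leaf 317 2539 (.cons 319 (.leaf 346 2544 (.cons 293 (.leaf 294 2347 (.cons 297 (.leaf 298 2353 (.cons 366 (.leaf 365 2730 (.cons 390 (.leaf 414 2549 (.leaf 295 2357 .nil)) .nil)) .nil)) .nil)) .nil)) .nil)) .nil)) .nil))) .nil)) .nil)) (.cons 271 (.leaf 247 1983 (.cons 368 (.leaf 295 2175 (.cons 369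 (.leaf 345 2180 (.leaf 393 2372 .nil)) .nil)) .nil)) (.cons 343 (.leaf 367 2174 (.cons 345 (.leaf 369 2180 (.cons 342 (.cons 321 (.leaf 341 2537 (.leaf 322 2545 .nil)) (.cons 318 (.leaf 317 2539 (.cons 247 (.leaf 271 1983 (.cons 319 (.leaf 346 2547 (.cons 341 (.leaf 340 2529 (.cons 365 (.leaf 364 2722 (.leaf 366 2730 .nil)) .nil)) .nil)) .nil)) .nil)) (.cons 321 (.leaf 322 2545 (.cons 247 (.leaf 271 1983 (.cons 249 (.leaf 273 1989 (.cons 318 (.leaf 317 2539 (.cons 346 (.leaf 319 2544 (.cons 347 (.leaf 348 2563 (.cons 371 (.leaf 370 2744 (.leaf 372 2752 .nil)) .nil)) .nil)) .nil)) .nil)) .nil)) .nil)) .nil))) .nil)) .nil)) .nil)))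
noncomputable def t171 : T := .cons 249 (.leaf 225 1797 (.cons 247 (.leaf 223 1791 (.cons 319 (.leaf 343 1982 (.cons 246 (.cons 221 (.leaf 222 1771 (.cons 245 (.leaf 273 1960 (.leaf 220 1763 .nil)) .nil)) (.cons 222 (.leaf 221 1771 (.cons 270 (.leaf 269 1962 (.cons 271 (.leaf 250 1970 (.leaf 295 1783 .nil)) .nil)) .nil)) (.cons 245 (.leaf 273 1960 (.cons 269 (.leaf 268 1954 (.leaf 270 1962 .nil)) .nil)) .nil))) .nil)) .nil)) .nil)) (.cons 249 (.leaf 225 1797 (.cons 247 (.leaf 223 1791 (.cons 321 (.leaf 345 1988 (.cons 246 (.cons 245 (.leaf 273 1960 (.cons 221 (.leaf 220 1763 (.leaf 222 1771 .nil)) .nil)) (.cons 222 (.leaf 221 1771 (.cons 270 (.leaf 269 1962 (.cons 271 (.leaf 250 1970 (.cons 198 (.leaf 174 1396 (.leaf 295 1588 .nil)) .nil)) .nil)) .nil)) (.cons 245 (.leaf 273 1960 (.cons 269 (.leaf 268 1954 (.leaf 270 1962 .nil)) .nil)) .nil))) .nil)) .nil)) .nil)) (.cons 319 (.leaf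 343 1982 (.cons 321 (.leaf 345 1988 (.cons 247 (.leaf 223 1791 (.cons 318 (.cons 297 (.leaf 317 2345 (.leaf 298 2353 .nil)) (.cons 293 (.leaf 294 2347 (.cons 317 (.leaf 292 2339 (.cons 341 (.leaf 340 2530 (.leaf 342 2538 .nil)) .nil)) .nil)) (.cons 293 (.leaf 294 2347 (.cons 298 (.leaf 297 2353 (.cons 322 (.leaf 299 2361 (.cons 295 (.leaf 323 2363 (.cons 342 (.leaf 341 2538 (.leaf 271 1974 .nil)) .nil)) .nil)) .nil)) .nil)) .nil))) .nil)) .nil)) .nil)) (.cons 319 (.leaf 343 1982 (.cons 321 (.leaf 345 1988 (.cons 249 (.leaf 225 1797 (.cons 318 (.cons 297 (.leaf 317 2345 (.leaf 298 2353 .nil)) (.cons 293 (.leaf 294 2347 (.cons 317 (.leaf 292 2339 (.cons 341 (.leaf 340 2530 (.leaf 342 2538 .nil)) .nil)) .nil)) (.cons 298 (.leaf 297 2353 (.cons 293 (.leaf 294 2347 (.cons 322 (.leaf 299 2361 (.cons 323 (.leaf 295 2363 (.cons 347 (.leaf 346 2552 (.leaf 348 2560 .nil)) .nil)) .nil)) .nil))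 .nil)) .nil))) .nil)) .nil)) .nil)) (.cons 249 (.leaf 225 1797 (.cons 247 (.leaf 223 1791 (.cons 321 (.leaf 345 1988 (.cons 319 (.leaf 343 1982 (.cons 318 (.cons 293 (.leaf 294 2347 (.cons 317 (.leaf 297 2345 (.leaf 292 2339 .nil)) .nil)) (.cons 293 (.leaf 294 2347 (.cons 317 (.leaf 292 2339 (.cons 341 (.leaf 340 2530 (.leaf 342 2538 .nil)) .nil)) .nil)) (.cons 294 (.leaf 293 2347 (.cons 298 (.leaf 297 2353 (.cons 322 (.leaf 299 2361 (.cons 342 (.leaf 341 2538 (.cons 270 (.leaf 271 1973 (.cons 269 (.leaf 246 1962 (.leaf 245 1967 .nil)) .nil)) .nil)) .nil)) .nil)) .nil)) (.cons 297 (.leaf 317 2345 (.leaf 298 2353 .nil)) .nil)))) .nil)) .nil)) .nil)) .nil)) .nil))))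
noncomputable def t172 : T := .cons 344 (.cons 247 (.leaf 271 1983 (.cons 367 (.leaf 343 2174 (.cons 368 (.leaf 391 2366 (.cons 369 (.leaf 345 2180 (.leaf 393 2372 .nil)) .nil)) .nil)) .nil)) (.cons 247 (.leaf 271 1983 (.cons 248 (.leaf 223 1791 (.cons 345 (.leaf 321 1988 (.leaf 369 2180 .nil)) .nil)) .nil)) (.cons 271 (.leaf 247 1983 (.cons 249 (.leaf 273 1989 (.cons 367 (.leaf 343 2174 (.cons 368 (.leaf 295 2175 (.leaf 391 2366 .nil)) .nil)) .nil)) .nil)) (.cons 343 (.leaf 367 2174 (.cons 321 (.cons 322 (.leaf 323 2554 (.cons 342 (.leaf 319 2546 (.leaf 341 2537 .nil)) .nil)) (.cons 248 (.leaf 319 1982 (.leaf 345 1988 .nil)) (.cons 322 (.leaf 323 2554 (.cons 342 (.leaf 341 2537 (.leaf 345 2545 .nil)) .nil)) .nil))) .nil)) .nil)))) (.cons 248 t171 (.cons 344 t170 (.cons 344 (.cons 249 (.leaf 273 1989 (.cons 248 (.leaf 225 1797 (.cons 345 (.leaf 321 1988 (.leaf 369 2180 .nil)) .nil))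 .nil)) (.cons 271 (.leaf 247 1983 (.cons 249 (.leaf 273 1989 (.cons 367 (.leaf 343 2174 (.cons 368 (.leaf 295 2175 (.leaf 391 2366 .nil)) .nil)) .nil)) .nil)) (.cons 271 (.leaf 247 1983 (.cons 368 (.leaf 295 2175 (.cons 369 (.leaf 345 2180 (.leaf 393 2372 .nil)) .nil)) .nil)) .nil))) t169)))
noncomputable def t173 : T := .cons 346 (.leaf 251 2005 (.cons 345 (.leaf 369 2190 (.cons 347 (.leaf 371 2196 (.cons 323 (.leaf 250 2004 (.cons 324 (.leaf 321 2371 (.leaf 325 2570 .nil)) .nil)) .nil)) .nil)) .nil)) (.cons 250 (.cons 225 (.leaf 249 1807 (.cons 323 (.leaf 347 2004 (.cons 324 (.leaf 321 2371 (.leaf 325 2379 .nil)) .nil)) .nil)) (.cons 225 (.leaf 249 1807 (.cons 226 (.leaf 201 1615 (.cons 227 (.leaf 203 1621 (.leaf 251 1813 .nil)) .nil)) .nil)) (.cons 321 (.leaf 226 1806 (.leaf 345 1998 .nil)) .nil))) (.cons 323 (.cons 324 (.leaf 321 2371 (.leaf 325 2379 .nil)) (.cons 250 (.leaf 347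 2004 (.cons 321 (.leaf 226 1806 (.leaf 345 1998 .nil)) .nil)) (.cons 324 (.leaf 325 2379 (.cons 347 (.leaf 250 2004 (.cons 371 (.leaf 346 2196 (.leaf 395 2391 .nil)) .nil)) .nil)) .nil))) (.cons 346 (.leaf 251 2005 (.cons 347 (.leaf 371 2196 (.cons 369 (.leaf 345 2190 (.cons 370 (.leaf 393 2382 (.cons 348 (.leaf 349 2762 (.cons 367 (.leaf 368 2745 (.cons 394 (.leaf 321 2383 (.cons 418 (.leaf 323 2581 (.cons 419 (.leaf 395 2580 (.leaf 443 2772 .nil)) .nil)) .nil)) .nil)) .nil)) .nil)) .nil)) .nil)) .nil)) (.cons 346 (.leaf 251 2005 (.cons 345 (.leaf 369 2190 (.cons 347 (.leaf 371 2196 (.cons 323 (.leaf 250 2004 (.cons 324 (.leaf 325 2570 (.leaf 344 2561 .nil)) .nil)) .nil)) .nil)) .nil)) (.cons 251 (.leaf 346 2005 (.cons 227 (.leaf 203 1622 (.leaf 250 1813 .nil)) .nil)) .nil)))))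
noncomputable def t174 : T := .cons 227 (.leaf 203 1622 (.cons 299 (.leaf 322 1814 (.cons 202 (.leaf 226 1623 (.cons 204 (.leaf 228 1629 (.cons 324 (.leaf 300 1820 (.cons 323 (.leaf 348 2012 (.cons 347 (.leaf 250 2007 (.leaf 371 2199 .nil)) .nil)) .nil)) .nil)) .nil)) .nil)) .nil)) (.cons 322 (.leaf 346 2005 (.cons 250 (.cons 225 (.leaf 249 1807 (.cons 226 (.leaf 201 1615 (.cons 202 (.leaf 178 1428 (.leaf 299 1620 .nil)) .nil)) .nil)) (.cons 323 (.leaf 347 2004 (.cons 299 (.leaf 226 1812 (.cons 252 (.leaf 228 1821 (.cons 253 (.leaf 254 2002 (.cons 229 (.leaf 230 1809 (.cons 324 (.leaf 348 2012 (.cons 277 (.leaf 278 2000 (.cons 301 (.leaf 300 1830 (.cons 302 (.leaf 325 2385 (.leaf 326 1836 .nil)) .nil)) .nil)) .nil)) .nil)) .nil)) .nil)) .nil)) .nil)) (.cons 249 (.leaf 225 1807 (.cons 248 (.leaf 247 1976 (.leaf 271 1978 .nil)) .nil)) .nil))) .nil)) (.cons 227 (.leaf 203 1622 (.cons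 299 (.cons 202 (.leaf 226 1623 (.cons 204 (.leaf 228 1629 (.cons 324 (.leaf 300 1820 (.cons 323 (.leaf 348 2012 (.cons 347 (.leaf 250 2007 (.leaf 371 2199 .nil)) .nil)) .nil)) .nil)) .nil)) (.cons 228 (.leaf 204 1629 (.cons 252 (.leaf 323 1821 (.cons 253 (.leaf 254 2002 (.cons 300 (.leaf 324 1820 (.cons 301 (.leaf 302 2195 (.cons 277 (.leaf 278 2193 (.leaf 325 1831 .nil)) .nil)) .nil)) .nil)) .nil)) .nil)) (.cons 300 (.leaf 324 1820 (.cons 228 (.leaf 204 1629 (.cons 301 (.leaf 302 2195 (.cons 277 (.leaf 278 2193 (.cons 325 (.leaf 326 2384 (.cons 253 (.leaf 252 1831 (.cons 226 (.leaf 202 1623 (.cons 254 (.leaf 229 1808 (.leaf 230 1837 .nil)) .nil)) .nil)) .nil)) .nil)) .nil)) .nil)) .nil)) (.cons 226 (.leaf 202 1623 (.cons 323 (.leaf 250 1812 (.cons 324 (.leaf 300 1820 (.leaf 348 2012 .nil)) .nil)) .nil)) (.cons 226 (.leaf 202 1623 (.cons 228 (.leaf 204 1629 (.cons 323 (.leaf 250 1812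 (.leaf 252 1821 .nil)) .nil)) .nil)) .nil))))) .nil)) (.cons 227 (.leaf 203 1622 (.cons 322 (.leaf 299 1814 (.leaf 346 2005 .nil)) .nil)) (.cons 322 (.leaf 346 2005 (.cons 227 (.leaf 203 1622 (.leaf 250 1813 .nil)) .nil)) .nil))))
noncomputable def t175 : T := .cons 297 (.leaf 295 2169 (.cons 251 (.cons 227 (.leaf 203 1622 (.cons 322 (.leaf 299 1814 (.leaf 346 2005 .nil)) .nil)) (.cons 227 (.leaf 203 1622 (.cons 322 (.leaf 346 2005 (.leaf 250 1813 .nil)) .nil)) (.cons 227 (.leaf 203 1622 (.cons 299 (.leaf 271 2171 (.cons 226 (.leaf 202 1623 (.cons 228 (.leaf 204 1629 (.cons 250 (.leaf 323 1812 (.leaf 321 1806 .nil)) .nil)) .nil)) .nil)) .nil)) (.cons 299 (.leaf 271 2171 (.cons 322 (.leaf 346 2005 (.cons 323 (.leaf 324 2368 (.cons 250 (.leaf 226 1812 (.leaf 347 2004 .nil)) .nil)) .nil)) .nil)) .nil)))) .nil)) (.cons 251 t174 (.cons 297 (.leaf 295 2169 (.cons 299 (.leaf 271 2171 (.cons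 323 (.leaf 324 2368 (.cons 250 (.leaf 347 2007 (.leaf 226 1812 .nil)) .nil)) .nil)) .nil)) (.cons 297 (.leaf 295 2169 (.cons 322 t173 .nil)) (.cons 297 (.leaf 295 2169 (.cons 299 (.leaf 271 2171 (.cons 323 (.leaf 324 2368 (.cons 347 (.leaf 371 2199 (.cons 346 (.leaf 370 2198 (.cons 251 (.leaf 322 2005 (.cons 227 (.leaf 203 1622 (.cons 228 (.leaf 204 1629 (.leaf 252 1821 .nil)) .nil)) .nil)) .nil)) .nil)) .nil)) .nil)) .nil)) (.cons 297 (.leaf 295 2169 (.cons 251 (.cons 227 (.leaf 203 1622 (.cons 322 (.leaf 299 1814 (.leaf 346 2005 .nil)) .nil)) (.cons 271 (.leaf 299 2171 (.cons 322 (.leaf 346 2005 (.cons 270 (.leaf 269 2152 (.cons 250 (.cons 249 (.leaf 248 1978 (.leaf 225 1807 .nil)) (.cons 321 (.leaf 226 1806 (.leaf 345 1998 .nil)) .nil)) .nil)) .nil)) .nil)) (.cons 227 (.leaf 203 1622 (.cons 299 (.leaf 271 2171 (.cons 226 (.leaf 202 1623 (.cons 228 (.leaf 204 1629 (.cons 250 (.leaf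 321 1806 (.cons 229 (.leaf 230 1810 (.leaf 249 1802 .nil)) .nil)) .nil)) .nil)) .nil)) .nil)) (.cons 227 (.leaf 203 1622 (.cons 322 (.leaf 346 2005 (.leaf 250 1813 .nil)) .nil)) .nil)))) .nil)) .nil)))))
noncomputable def t176 : T := .cons 273 (.leaf 295 2170 (.cons 299 (.leaf 300 2176 (.cons 251 (.leaf 252 1985 (.cons 248 (.leaf 247 1979 (.cons 227 (.cons 298 (.leaf 203 1622 (.leaf 322 1814 .nil)) (.cons 202 (.leaf 226 1623 (.cons 203 (.leaf 178 1431 (.cons 204 (.leaf 180 1437 (.leaf 228 1629 .nil)) .nil)) .nil)) (.cons 202 (.leaf 226 1623 (.cons 204 (.leaf 228 1629 (.cons 322 (.leaf 298 1814 (.cons 323 (.leaf 346 2006 (.cons 347 (.leaf 250 2007 (.cons 348 (.leaf 324 2012 (.leaf 372 2204 .nil)) .nil)) .nil)) .nil)) .nil)) .nil)) .nil))) .nil)) .nil)) .nil)) .nil)) (.cons 298 t175 (.cons 273 (.cons 251 (.leaf 252 1985 (.cons 250 (.leaf 271 1977 (.cons 299 (.leaf 300 2176 (.cons 226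 (.leaf 202 1620 (.leaf 323 1815 .nil)) .nil)) .nil)) .nil)) (.cons 251 (.leaf 252 1985 (.cons 271 (.leaf 250 1977 (.cons 246 (.leaf 247 1971 (.cons 270 (.leaf 245 1963 (.cons 297 (.leaf 269 2152 (.leaf 298 2160 .nil)) .nil)) .nil)) .nil)) .nil)) (.cons 247 (.leaf 248 1979 (.cons 271 (.leaf 246 1971 (.cons 299 (.leaf 300 2176 (.leaf 298 2168 .nil)) .nil)) .nil)) (.cons 299 (.leaf 300 2176 (.cons 251 (.leaf 252 1985 (.cons 248 (.leaf 247 1979 (.cons 227 (.cons 298 (.leaf 203 1622 (.leaf 322 1814 .nil)) (.cons 202 (.leaf 226 1623 (.cons 203 (.leaf 178 1431 (.cons 204 (.leaf 180 1437 (.leaf 228 1629 .nil)) .nil)) .nil)) (.cons 202 (.leaf 226 1623 (.cons 204 (.leaf 228 1629 (.cons 322 (.leaf 298 1814 (.cons 323 (.leaf 346 2006 (.cons 347 (.leaf 250 2007 (.cons 348 (.leaf 324 2012 (.leaf 372 2204 .nil)) .nil)) .nil)) .nil)) .nil)) .nil)) .nil))) .nil)) .nil)) .nil)) .nil)))) (.cons 273 (.leaf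 295 2170 (.cons 251 (.leaf 252 1985 (.cons 250 (.leaf 271 1977 (.cons 299 (.leaf 300 2176 (.cons 226 (.leaf 202 1620 (.leaf 323 1815 .nil)) .nil)) .nil)) .nil)) .nil)) (.cons 273 (.leaf 295 2170 (.cons 251 (.leaf 252 1985 (.cons 271 (.leaf 250 1977 (.cons 246 (.leaf 247 1971 (.cons 270 (.leaf 245 1963 (.cons 297 (.leaf 269 2152 (.leaf 298 2160 .nil)) .nil)) .nil)) .nil)) .nil)) .nil)) (.cons 273 (.leaf 295 2170 (.cons 247 (.leaf 248 1979 (.cons 271 (.leaf 246 1971 (.cons 299 (.leaf 300 2176 (.leaf 298 2168 .nil)) .nil)) .nil)) .nil)) .nil)))))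
noncomputable def t177 : T := .cons 273 (.leaf 249 1989 (.cons 247 (.leaf 271 1983 (.cons 343 (.leaf 367 2174 (.cons 368 (.leaf 297 2181 (.cons 393 (.leaf 369 2372 (.cons 392 (.leaf 417 2564 (.cons 415 (.leaf 391 2558 (.cons 416 (.leaf 319 2559 (.leaf 439 2750 .nil)) .nil)) .nil)) .nil)) .nil)) .nil)) .nil)) .nil)) (.cons 345 (.leaf 369 2180 (.cons 343 (.leaf 367 2174 (.cons 342 (.cons 318 (.leaf 317 2539 (.cons 247 (.leaf 271 1983 (.cons 319 (.leaf 346 2547 (.cons 341 (.leaf 321 2537 (.leaf 340 2529 .nil)) .nil)) .nil)) .nil)) (.cons 318 (.leaf 317 2539 (.cons 247 (.leaf 271 1983 (.cons 319 (.leaf 346 2547 (.cons 341 (.leaf 340 2529 (.cons 365 (.leaf 364 2722 (.leaf 366 2730 .nil)) .nil)) .nil)) .nil)) .nil)) (.cons 322 (.leaf 321 2545 (.cons 317 (.leaf 318 2539 (.cons 346 (.leaf 323 2553 (.cons 347 (.leaf 319 2555 (.cons 371 (.leaf 370 2744 (.leaf 372 2752 .nil)) .nil)) .nil)) .nil))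 .nil)) (.cons 321 (.leaf 341 2537 (.leaf 322 2545 .nil)) .nil)))) .nil)) .nil)) (.cons 273 (.leaf 249 1989 (.cons 247 (.leaf 271 1983 (.cons 367 (.leaf 343 2174 (.cons 368 (.leaf 297 2181 (.leaf 391 2366 .nil)) .nil)) .nil)) .nil)) (.cons 273 (.leaf 249 1989 (.cons 247 (.leaf 271 1983 (.cons 368 (.leaf 297 2181 (.cons 369 (.leaf 345 2180 (.leaf 393 2372 .nil)) .nil)) .nil)) .nil)) (.cons 273 (.leaf 249 1989 (.cons 343 (.leaf 367 2174 (.cons 368 (.leaf 297 2181 (.cons 393 (.leaf 369 2372 (.cons 392 (.leaf 417 2564 (.cons 415 (.leaf 391 2558 (.cons 416 (.leaf 319 2559 (.leaf 439 2750 .nil)) .nil)) .nil)) .nil)) .nil)) .nil)) .nil)) .nil))))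
noncomputable def t178 : T := .cons 249 (.leaf 225 1797 (.cons 321 (.leaf 345 1988 (.cons 319 (.leaf 343 1982 (.cons 247 (.leaf 223 1791 (.cons 318 (.cons 293 (.leaf 294 2347 (.cons 317 (.leaf 297 2345 (.leaf 292 2339 .nil)) .nil)) (.cons 293 (.leaf 294 2347 (.cons 317 (.leaf 292 2339 (.cons 274 (.leaf 250 1976 (.leaf 273 1979 .nil)) .nil)) .nil)) (.cons 294 (.leaf 293 2347 (.cons 274 (.leaf 250 1976 (.leaf 273 1979 .nil)) .nil)) (.cons 297 (.leaf 317 2345 (.leaf 298 2353 .nil)) .nil)))) .nil)) .nil)) .nil)) .nil)) (.cons 249 (.leaf 225 1797 (.cons 321 (.leaf 345 1988 (.cons 319 (.leaf 343 1982 (.cons 318 (.cons 293 (.leaf 294 2347 (.cons 317 (.leaf 297 2345 (.leaf 292 2339 .nil)) .nil)) (.cons 293 (.leaf 294 2347 (.cons 317 (.leaf 292 2339 (.cons 341 (.leaf 340 2530 (.leaf 342 2538 .nil)) .nil)) .nil)) (.cons 293 (.leaf 294 2347 (.cons 298 (.leaf 297 2353 (.cons 322 (.leaf 299 2361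 (.cons 341 (.leaf 342 2538 (.cons 346 (.leaf 347 2552 (.cons 274 (.leaf 251 2005 (.leaf 273 1999 .nil)) .nil)) .nil)) .nil)) .nil)) .nil)) (.cons 297 (.leaf 317 2345 (.leaf 298 2353 .nil)) .nil)))) .nil)) .nil)) .nil)) (.cons 247 (.leaf 223 1791 (.cons 273 (.leaf 274 1979 (.cons 321 (.leaf 345 1988 (.cons 319 (.leaf 343 1982 (.cons 246 (.leaf 245 1960 (.cons 322 (.cons 347 (.leaf 346 2552 (.cons 323 (.leaf 348 2560 (.cons 297 (.leaf 324 2371 (.cons 318 (.leaf 317 2345 (.leaf 298 2353 .nil)) .nil)) .nil)) .nil)) (.cons 347 (.leaf 346 2552 (.cons 323 (.leaf 348 2560 (.cons 300 (.leaf 299 2369 (.cons 324 (.leaf 297 2371 (.leaf 301 2377 .nil)) .nil)) .nil)) .nil)) (.cons 298 (.leaf 299 2361 (.cons 318 (.leaf 297 2353 (.cons 293 (.leaf 294 2347 (.cons 317 (.leaf 292 2339 (.cons 341 (.leaf 340 2530 (.leaf 342 2538 .nil)) .nil)) .nil)) .nil)) .nil)) (.cons 299 (.leaf 298 2361 (.cons 323 (.leaf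 300 2369 (.cons 346 (.leaf 251 2006 (.leaf 347 2552 .nil)) .nil)) .nil)) .nil)))) .nil)) .nil)) .nil)) .nil)) .nil)) (.cons 247 (.leaf 223 1791 (.cons 249 (.leaf 225 1797 (.cons 250 (.leaf 274 1976 (.cons 271 (.leaf 251 1978 (.leaf 270 1970 .nil)) .nil)) .nil)) .nil)) (.cons 249 (.leaf 225 1797 (.cons 247 (.leaf 223 1791 (.cons 321 (.leaf 345 1988 (.cons 319 (.leaf 343 1982 (.cons 318 (.cons 293 (.leaf 294 2347 (.cons 317 (.leaf 297 2345 (.leaf 292 2339 .nil)) .nil)) (.cons 293 (.leaf 294 2347 (.cons 317 (.leaf 292 2339 (.cons 341 (.leaf 340 2530 (.leaf 342 2538 .nil)) .nil)) .nil)) (.cons 294 (.leaf 293 2347 (.cons 298 (.leaf 297 2353 (.cons 322 (.leaf 299 2361 (.cons 342 (.leaf 341 2538 (.cons 270 (.leaf 271 1973 (.cons 269 (.leaf 246 1962 (.leaf 245 1967 .nil)) .nil)) .nil)) .nil)) .nil)) .nil)) (.cons 297 (.leaf 317 2345 (.leaf 298 2353 .nil)) .nil)))) .nil)) .nil)) .nil)) .nil))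 .nil))))
noncomputable def t179 : T := .cons 344 (.cons 247 (.leaf 271 1983 (.cons 248 (.leaf 223 1791 (.cons 345 (.leaf 321 1988 (.leaf 369 2180 .nil)) .nil)) .nil)) (.cons 247 (.leaf 271 1983 (.cons 248 (.leaf 223 1791 (.cons 343 (.leaf 319 1982 (.leaf 367 2174 .nil)) .nil)) .nil)) (.cons 345 (.leaf 369 2180 (.cons 321 (.leaf 248 1988 (.cons 343 (.leaf 367 2174 (.cons 322 (.leaf 323 2554 (.leaf 342 2545 .nil)) .nil)) .nil)) .nil)) (.cons 247 (.leaf 271 1983 (.cons 273 (.leaf 249 1989 (.cons 343 (.leaf 367 2174 (.cons 368 (.leaf 297 2181 (.cons 393 (.leaf 369 2372 (.cons 392 (.leaf 417 2564 (.cons 415 (.leaf 391 2558 (.cons 416 (.leaf 319 2559 (.leaf 439 2750 .nil)) .nil)) .nil)) .nil)) .nil)) .nil)) .nil)) .nil)) .nil)))) (.cons 248 t178 (.cons 344 t177 (.cons 248 (.cons 247 (.leaf 223 1791 (.cons 249 (.leaf 225 1797 (.cons 250 (.leaf 274 1976 (.cons 271 (.leaf 344 1983 (.leaf 251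 1978 .nil)) .nil)) .nil)) .nil)) (.cons 345 (.leaf 321 1988 (.cons 225 (.leaf 249 1797 (.cons 343 (.leaf 319 1982 (.cons 344 (.leaf 367 2174 (.leaf 369 2180 .nil)) .nil)) .nil)) .nil)) (.cons 247 (.leaf 223 1791 (.cons 319 (.leaf 343 1982 (.cons 344 (.leaf 271 1983 (.cons 345 (.leaf 321 1988 (.leaf 369 2180 .nil)) .nil)) .nil)) .nil)) (.cons 247 (.leaf 223 1791 (.cons 249 (.leaf 225 1797 (.cons 250 (.leaf 274 1976 (.cons 271 (.leaf 251 1978 (.leaf 270 1970 .nil)) .nil)) .nil)) .nil)) .nil)))) (.cons 344 (.cons 249 (.leaf 273 1989 (.cons 248 (.leaf 225 1797 (.cons 343 (.leaf 319 1982 (.leaf 367 2174 .nil)) .nil)) .nil)) (.cons 247 (.leaf 271 1983 (.cons 248 (.leaf 223 1791 (.cons 343 (.leaf 319 1982 (.leaf 367 2174 .nil)) .nil)) .nil)) (.cons 247 (.leaf 271 1983 (.cons 248 (.leaf 223 1791 (.cons 249 (.leaf 225 1797 (.leaf 273 1989 .nil)) .nil)) .nil)) (.cons 273 (.leaf 249 1989 (.cons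 247 (.leaf 271 1983 (.cons 343 (.leaf 367 2174 (.cons 368 (.leaf 297 2181 (.cons 393 (.leaf 369 2372 (.cons 392 (.leaf 417 2564 (.cons 415 (.leaf 391 2558 (.cons 416 (.leaf 319 2559 (.leaf 439 2750 .nil)) .nil)) .nil)) .nil)) .nil)) .nil)) .nil)) .nil)) .nil)))) (.cons 344 (.cons 247 (.leaf 271 1983 (.cons 223 (.leaf 248 1791 (.cons 369 (.leaf 345 2180 (.cons 367 (.leaf 343 2174 (.cons 368 (.leaf 391 2366 (.leaf 393 2372 .nil)) .nil)) .nil)) .nil)) .nil)) (.cons 343 (.leaf 367 2174 (.cons 247 (.leaf 271 1983 (.cons 248 (.leaf 223 1791 (.leaf 319 1982 .nil)) .nil)) .nil)) (.cons 345 (.leaf 369 2180 (.cons 247 (.leaf 271 1983 (.cons 248 (.leaf 223 1791 (.leaf 321 1988 .nil)) .nil)) .nil)) (.cons 345 (.leaf 369 2180 (.cons 248 (.leaf 321 1988 (.cons 343 (.leaf 319 1982 (.leaf 367 2174 .nil)) .nil)) .nil)) (.cons 369 (.leaf 345 2180 (.cons 247 (.leaf 271 1983 (.cons 343 (.leaf 367 2174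 (.cons 368 (.leaf 393 2372 (.cons 297 (.leaf 273 2181 (.cons 321 (.leaf 392 2373 (.cons 342 (.leaf 341 2728 (.cons 322 (.leaf 319 2546 (.leaf 323 2554 .nil)) .nil)) .nil)) .nil)) .nil)) .nil)) .nil)) .nil)) .nil))))) (.cons 344 (.cons 249 (.leaf 273 1989 (.cons 248 (.leaf 225 1797 (.cons 345 (.leaf 321 1988 (.leaf 369 2180 .nil)) .nil)) .nil)) (.cons 249 (.leaf 273 1989 (.cons 248 (.leaf 225 1797 (.cons 343 (.leaf 319 1982 (.leaf 367 2174 .nil)) .nil)) .nil)) (.cons 345 (.leaf 369 2180 (.cons 248 (.leaf 321 1988 (.cons 343 (.leaf 319 1982 (.leaf 367 2174 .nil)) .nil)) .nil)) (.cons 249 (.leaf 273 1989 (.cons 367 (.leaf 343 2174 (.cons 368 (.leaf 391 2366 (.cons 369 (.leaf 345 2180 (.leaf 393 2372 .nil)) .nil)) .nil)) .nil)) .nil)))) (.cons 344 (.cons 247 (.leaf 271 1983 (.cons 223 (.leaf 248 1791 (.cons 273 (.leaf 249 1989 (.cons 368 (.leaf 297 2181 (.cons 391 (.leaf 367 2366 (.cons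 392 (.leaf 415 2558 (.cons 393 (.leaf 369 2372 (.leaf 417 2564 .nil)) .nil)) .nil)) .nil)) .nil)) .nil)) .nil)) (.cons 345 (.leaf 369 2180 (.cons 247 (.leaf 271 1983 (.cons 248 (.leaf 223 1791 (.leaf 321 1988 .nil)) .nil)) .nil)) (.cons 247 (.leaf 271 1983 (.cons 248 (.leaf 223 1791 (.cons 249 (.leaf 225 1797 (.leaf 273 1989 .nil)) .nil)) .nil)) (.cons 345 (.leaf 369 2180 (.cons 248 (.leaf 321 1988 (.cons 249 (.leaf 225 1797 (.leaf 273 1989 .nil)) .nil)) .nil)) (.cons 247 (.leaf 271 1983 (.cons 273 (.leaf 249 1989 (.cons 368 (.leaf 297 2181 (.cons 369 (.leaf 345 2180 (.leaf 393 2372 .nil)) .nil)) .nil)) .nil)) .nil))))) .nil)))))))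
noncomputable def t180 : T := .cons 345 (.leaf 369 2180 (.cons 321 (.leaf 248 1988 (.cons 343 (.leaf 367 2174 (.cons 322 (.leaf 323 2554 (.leaf 342 2545 .nil)) .nil)) .nil)) .nil)) (.cons 368 (.cons 391 (.leaf 367 2366 (.cons 392 (.leaf 415 2558 (.cons 393 (.leaf 369 2372 (.leaf 417 2564 .nil)) .nil)) .nil)) (.cons 391 (.leaf 367 2366 (.cons 392 (.leaf 415 2558 (.cons 295 (.leaf 319 2367 (.cons 321 (.leaf 297 2373 (.cons 345 (.leaf 248 1988 (.leaf 416 2565 .nil)) .nil)) .nil)) .nil)) .nil)) (.cons 369 (.leaf 345 2180 (.leaf 393 2372 .nil)) .nil))) (.cons 368 (.cons 367 (.leaf 343 2174 (.leaf 391 2366 .nil)) (.cons 393 (.leaf 369 2372 (.cons 392 (.leaf 417 2564 (.cons 297 (.leaf 321 2373 (.cons 319 (.leaf 295 2367 (.cons 343 (.leaf 248 1982 (.leaf 416 2559 .nil)) .nil)) .nil)) .nil)) .nil)) (.cons 391 (.leaf 367 2366 (.cons 392 (.leaf 415 2558 (.cons 393 (.leaf 369 2372 (.leaf 417 2564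 .nil)) .nil)) .nil)) .nil))) (.cons 345 (.leaf 369 2180 (.cons 319 (.cons 318 (.leaf 317 2536 (.cons 346 (.leaf 321 2544 (.leaf 347 2555 .nil)) .nil)) (.cons 248 (.leaf 343 1982 (.leaf 321 1988 .nil)) (.cons 318 (.leaf 317 2536 (.cons 343 (.leaf 248 1982 (.leaf 346 2547 .nil)) .nil)) .nil))) .nil)) (.cons 343 (.leaf 367 2174 (.cons 321 (.cons 322 (.leaf 323 2554 (.cons 342 (.leaf 319 2546 (.leaf 341 2537 .nil)) .nil)) (.cons 248 (.leaf 319 1982 (.leaf 345 1988 .nil)) (.cons 322 (.leaf 323 2554 (.cons 342 (.leaf 341 2537 (.leaf 345 2545 .nil)) .nil)) .nil))) .nil)) (.cons 367 (.leaf 343 2174 (.cons 368 (.leaf 391 2366 (.cons 369 (.leaf 345 2180 (.leaf 393 2372 .nil)) .nil)) .nil)) .nil)))))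
noncomputable def t181 : T := .cons 367 (.leaf 343 2174 (.cons 368 (.leaf 391 2366 (.cons 369 (.leaf 345 2180 (.leaf 393 2372 .nil)) .nil)) .nil)) (.cons 369 (.leaf 345 2180 (.cons 368 (.leaf 393 2372 (.cons 295 (.leaf 271 2175 (.cons 391 (.leaf 367 2366 (.cons 392 (.leaf 319 2367 (.leaf 415 2558 .nil)) .nil)) .nil)) .nil)) .nil)) (.cons 367 (.leaf 343 2174 (.cons 368 (.leaf 391 2366 (.cons 295 (.leaf 271 2175 (.cons 392 (.leaf 319 2367 (.cons 393 (.leaf 369 2372 (.leaf 417 2564 .nil)) .nil)) .nil)) .nil)) .nil)) (.cons 345 (.leaf 369 2180 (.cons 319 (.cons 318 (.leaf 317 2536 (.cons 346 (.leaf 321 2544 (.leaf 347 2555 .nil)) .nil)) (.cons 248 (.leaf 343 1982 (.leaf 321 1988 .nil)) (.cons 318 (.leaf 317 2536 (.cons 343 (.leaf 248 1982 (.leaf 346 2547 .nil)) .nil)) .nil))) .nil)) (.cons 367 (.leaf 343 2174 (.cons 368 (.leaf 391 2366 (.cons 295 (.leaf 271 2175 (.cons 392 (.leaf 319 2367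 (.cons 321 (.leaf 297 2373 (.cons 293 (.leaf 294 2344 (.cons 322 (.leaf 323 2363 (.cons 345 (.leaf 248 1988 (.leaf 416 2565 .nil)) .nil)) .nil)) .nil)) .nil)) .nil)) .nil)) .nil)) .nil))))
noncomputable def t182 : T := .cons 368 (.cons 393 (.leaf 369 2372 (.cons 392 (.leaf 417 2564 (.cons 297 (.leaf 321 2373 (.cons 367 (.leaf 343 2174 (.leaf 391 2366 .nil)) .nil)) .nil)) .nil)) (.cons 393 (.leaf 369 2372 (.cons 392 (.leaf 417 2564 (.cons 297 (.leaf 321 2373 (.cons 271 (.leaf 247 1983 (.leaf 295 2175 .nil)) .nil)) .nil)) .nil)) (.cons 367 (.leaf 343 2174 (.leaf 391 2366 .nil)) .nil))) (.cons 271 (.leaf 247 1983 (.cons 368 (.leaf 295 2175 (.cons 391 (.leaf 367 2366 (.cons 392 (.leaf 415 2558 (.cons 393 (.leaf 369 2372 (.leaf 417 2564 .nil)) .nil)) .nil)) .nil)) .nil)) (.cons 368 (.cons 393 (.leaf 369 2372 (.cons 392 (.leaf 417 2564 (.cons 297 (.leaf 321 2373 (.cons 367 (.leaf 343 2174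 (.leaf 391 2366 .nil)) .nil)) .nil)) .nil)) (.cons 393 (.leaf 369 2372 (.cons 392 (.leaf 417 2564 (.cons 297 (.leaf 321 2373 (.cons 319 (.leaf 295 2367 (.cons 343 (.leaf 248 1982 (.leaf 416 2559 .nil)) .nil)) .nil)) .nil)) .nil)) (.cons 391 (.leaf 367 2366 (.cons 392 (.leaf 415 2558 (.cons 393 (.leaf 369 2372 (.leaf 417 2564 .nil)) .nil)) .nil)) (.cons 367 (.leaf 343 2174 (.leaf 391 2366 .nil)) .nil)))) (.cons 271 (.leaf 247 1983 (.cons 295 (.leaf 368 2175 (.cons 297 (.cons 298 (.leaf 274 2169 (.leaf 299 2171 .nil)) (.cons 270 (.leaf 269 2152 (.cons 294 (.cons 293 (.leaf 292 2145 (.leaf 321 2344 .nil)) (.cons 318 (.leaf 317 2346 (.cons 321 (.leaf 322 2352 (.cons 342 (.leaf 366 2165 (.cons 341 (.leaf 319 2538 (.leaf 343 2537 .nil)) .nil)) .nil)) .nil)) (.cons 293 (.leaf 292 2145 (.cons 317 (.leaf 316 2338 (.leaf 318 2346 .nil)) .nil)) .nil))) .nil)) .nil)) .nil)) .nil)) (.cons 343 (.leaf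 367 2174 (.cons 247 (.leaf 271 1983 (.cons 248 (.leaf 223 1791 (.leaf 319 1982 .nil)) .nil)) .nil)) .nil))))
noncomputable def t183 : T := .cons 271 (.leaf 247 1983 (.cons 367 (.leaf 343 2174 (.cons 368 (.leaf 295 2175 (.leaf 391 2366 .nil)) .nil)) .nil)) (.cons 343 (.leaf 367 2174 (.cons 345 (.leaf 369 2180 (.cons 342 (.cons 321 (.leaf 341 2537 (.leaf 322 2545 .nil)) (.cons 318 (.leaf 317 2539 (.cons 319 (.leaf 346 2547 (.cons 340 (.leaf 341 2529 (.cons 366 (.leaf 365 2730 (.cons 390 (.leaf 414 2549 (.leaf 295 2357 .nil)) .nil)) .nil)) .nil)) .nil)) (.cons 322 (.leaf 321 2545 (.cons 317 (.leaf 318 2539 (.cons 346 (.leaf 323 2553 (.cons 347 (.leaf 319 2555 (.cons 371 (.leaf 370 2744 (.leaf 372 2752 .nil)) .nil)) .nil)) .nil)) .nil)) .nil))) .nil)) .nil)) (.cons 271 (.leaf 247 1983 (.cons 368 (.leaf 295 2175 (.cons 369 (.leaf 345 2180 (.leaf 393 2372 .nil)) .nil)) .nil)) (.cons 343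 (.leaf 367 2174 (.cons 345 (.leaf 369 2180 (.cons 342 (.cons 321 (.leaf 341 2537 (.leaf 322 2545 .nil)) (.cons 318 (.leaf 317 2539 (.cons 247 (.leaf 271 1983 (.cons 319 (.leaf 346 2547 (.cons 341 (.leaf 340 2529 (.cons 365 (.leaf 364 2722 (.leaf 366 2730 .nil)) .nil)) .nil)) .nil)) .nil)) (.cons 322 (.leaf 321 2545 (.cons 317 (.leaf 318 2539 (.cons 346 (.leaf 323 2553 (.cons 347 (.leaf 319 2555 (.cons 371 (.leaf 370 2744 (.leaf 372 2752 .nil)) .nil)) .nil)) .nil)) .nil)) .nil))) .nil)) .nil)) .nil)))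
noncomputable def t184 : T := .cons 319 (.leaf 343 1982 (.cons 321 (.leaf 345 1988 (.cons 249 (.leaf 225 1797 (.cons 318 (.cons 297 (.leaf 317 2345 (.leaf 298 2353 .nil)) (.cons 294 (.leaf 293 2347 (.cons 295 (.leaf 322 2355 (.cons 247 (.leaf 223 1791 (.cons 342 (.leaf 341 2538 (.leaf 271 1974 .nil)) .nil)) .nil)) .nil)) .nil)) .nil)) .nil)) .nil)) (.cons 247 (.leaf 223 1791 (.cons 249 (.leaf 225 1797 (.cons 250 (.leaf 274 1976 (.cons 271 (.leaf 251 1978 (.leaf 270 1970 .nil)) .nil)) .nil)) .nil)) (.cons 319 (.leaf 343 1982 (.cons 321 (.leaf 345 1988 (.cons 249 (.leaf 225 1797 (.cons 318 (.cons 297 (.leaf 317 2345 (.leaf 298 2353 .nil)) (.cons 294 (.leaf 293 2347 (.cons 295 (.leaf 322 2355 (.cons 342 (.leaf 341 2538 (.cons 366 (.leaf 390 2357 (.leaf 271 2165 .nil)) .nil)) .nil)) .nil)) .nil)) .nil)) .nil)) .nil)) (.cons 319 (.leaf 343 1982 (.cons 321 (.leaf 345 1988 (.cons 247 (.leaf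 223 1791 (.cons 318 (.cons 297 (.leaf 317 2345 (.leaf 298 2353 .nil)) (.cons 293 (.leaf 294 2347 (.cons 317 (.leaf 292 2339 (.cons 341 (.leaf 340 2530 (.leaf 342 2538 .nil)) .nil)) .nil)) (.cons 293 (.leaf 294 2347 (.cons 298 (.leaf 297 2353 (.cons 322 (.leaf 299 2361 (.cons 295 (.leaf 323 2363 (.cons 342 (.leaf 341 2538 (.leaf 271 1974 .nil)) .nil)) .nil)) .nil)) .nil)) .nil))) .nil)) .nil)) .nil)) (.cons 319 (.leaf 343 1982 (.cons 321 (.leaf 345 1988 (.cons 249 (.leaf 225 1797 (.cons 318 (.cons 297 (.leaf 317 2345 (.leaf 298 2353 .nil)) (.cons 294 (.leaf 293 2347 (.cons 223 (.leaf 247 1791 (.cons 295 (.leaf 322 2355 (.cons 317 (.leaf 316 2337 (.cons 341 (.leaf 340 2530 (.leaf 342 2538 .nil)) .nil)) .nil)) .nil)) .nil)) (.cons 298 (.leaf 297 2353 (.cons 223 (.leaf 247 1791 (.cons 293 (.leaf 294 2347 (.cons 322 (.leaf 299 2361 (.cons 323 (.leaf 295 2363 (.cons 347 (.leaf 346 2552 (.leaf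 348 2560 .nil)) .nil)) .nil)) .nil)) .nil)) .nil)) .nil))) .nil)) .nil)) .nil)) .nil))))
noncomputable def t185 : T := .cons 248 (.cons 223 (.leaf 247 1791 (.cons 343 (.leaf 319 1982 (.cons 344 (.leaf 367 2174 (.cons 345 (.leaf 321 1988 (.leaf 369 2180 .nil)) .nil)) .nil)) .nil)) (.cons 225 (.leaf 249 1797 (.cons 343 (.leaf 319 1982 (.cons 344 (.leaf 367 2174 (.cons 345 (.leaf 321 1988 (.leaf 369 2180 .nil)) .nil)) .nil)) .nil)) (.cons 247 (.leaf 223 1791 (.cons 249 (.leaf 225 1797 (.cons 250 (.leaf 274 1976 (.cons 251 (.leaf 271 1978 (.cons 226 (.leaf 227 1785 (.cons 178 (.leaf 202 1428 (.cons 321 (.leaf 345 1988 (.cons 323 (.leaf 299 1815 (.cons 322 (.leaf 295 2363 (.cons 324 (.leaf 297 2371 (.cons 348 (.leaf 347 2560 (.leaf 349 2568 .nil)) .nil)) .nil)) .nil)) .nil)) .nil)) .nil)) .nil)) .nil)) .nil)) .nil)) (.cons 247 (.leaf 223 1791 (.cons 249 (.leaf 225 1797 (.cons 250 (.leaf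 274 1976 (.cons 271 (.leaf 344 1983 (.leaf 251 1978 .nil)) .nil)) .nil)) .nil)) .nil)))) (.cons 248 t184 (.cons 344 t183 (.cons 344 (.cons 271 (.leaf 247 1983 (.cons 368 (.leaf 295 2175 (.cons 369 (.leaf 345 2180 (.leaf 393 2372 .nil)) .nil)) .nil)) (.cons 271 (.leaf 247 1983 (.cons 367 (.leaf 343 2174 (.cons 368 (.leaf 295 2175 (.leaf 391 2366 .nil)) .nil)) .nil)) (.cons 343 (.leaf 367 2174 (.cons 345 (.leaf 369 2180 (.cons 321 (.leaf 248 1988 (.cons 322 (.leaf 323 2554 (.leaf 342 2545 .nil)) .nil)) .nil)) .nil)) .nil))) (.cons 344 (.cons 247 (.leaf 271 1983 (.cons 248 (.leaf 223 1791 (.cons 345 (.leaf 321 1988 (.leaf 369 2180 .nil)) .nil)) .nil)) (.cons 271 (.leaf 247 1983 (.cons 368 (.leaf 295 2175 (.cons 391 (.leaf 367 2366 (.cons 392 (.leaf 415 2558 (.cons 393 (.leaf 369 2372 (.leaf 417 2564 .nil)) .nil)) .nil)) .nil)) .nil)) (.cons 368 (.cons 391 (.leaf 367 2366 (.cons 392 (.leaf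 415 2558 (.cons 393 (.leaf 369 2372 (.leaf 417 2564 .nil)) .nil)) .nil)) (.cons 391 (.leaf 367 2366 (.cons 392 (.leaf 415 2558 (.cons 295 (.leaf 319 2367 (.cons 321 (.leaf 297 2373 (.cons 345 (.leaf 248 1988 (.leaf 416 2565 .nil)) .nil)) .nil)) .nil)) .nil)) (.cons 369 (.leaf 345 2180 (.leaf 393 2372 .nil)) .nil))) (.cons 271 (.leaf 247 1983 (.cons 368 (.leaf 295 2175 (.cons 391 (.leaf 367 2366 (.cons 392 (.leaf 415 2558 (.cons 321 (.leaf 297 2373 (.cons 345 (.leaf 248 1988 (.leaf 416 2565 .nil)) .nil)) .nil)) .nil)) .nil)) .nil)) .nil)))) (.cons 344 t182 (.cons 344 (.cons 271 (.leaf 247 1983 (.cons 368 (.leaf 295 2175 (.cons 369 (.leaf 345 2180 (.leaf 393 2372 .nil)) .nil)) .nil)) (.cons 343 (.leaf 367 2174 (.cons 319 (.leaf 248 1982 (.cons 345 (.leaf 369 2180 (.cons 318 (.leaf 317 2536 (.leaf 346 2547 .nil)) .nil)) .nil)) .nil)) (.cons 271 (.leaf 247 1983 (.cons 295 (.leaf 368 2175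 (.cons 343 (.leaf 367 2174 (.cons 319 (.leaf 248 1981 (.cons 246 (.leaf 270 1975 (.cons 342 (.leaf 366 2166 (.cons 341 (.leaf 340 2529 (.cons 317 (.leaf 316 2531 (.cons 318 (.leaf 297 2345 (.leaf 345 2536 .nil)) .nil)) .nil)) .nil)) .nil)) .nil)) .nil)) .nil)) .nil)) (.cons 271 (.leaf 247 1983 (.cons 368 (.leaf 295 2175 (.cons 391 (.leaf 367 2366 (.cons 392 (.leaf 415 2558 (.cons 393 (.leaf 369 2372 (.leaf 417 2564 .nil)) .nil)) .nil)) .nil)) .nil)) .nil)))) (.cons 344 t181 (.cons 344 t180 (.cons 248 (.cons 225 (.leaf 249 1797 (.cons 247 (.leaf 223 1791 (.cons 344 (.leaf 271 1983 (.cons 345 (.leaf 321 1988 (.leaf 369 2180 .nil)) .nil)) .nil)) .nil)) (.cons 225 (.leaf 249 1797 (.cons 343 (.leaf 319 1982 (.cons 344 (.leaf 367 2174 (.cons 345 (.leaf 321 1988 (.leaf 369 2180 .nil)) .nil)) .nil)) .nil)) (.cons 247 (.leaf 223 1791 (.cons 249 (.leaf 225 1797 (.cons 250 (.leaf 274 1976 (.cons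 271 (.leaf 344 1983 (.leaf 251 1978 .nil)) .nil)) .nil)) .nil)) (.cons 223 (.leaf 247 1791 (.cons 343 (.leaf 319 1982 (.cons 344 (.leaf 367 2174 (.cons 345 (.leaf 321 1988 (.leaf 369 2180 .nil)) .nil)) .nil)) .nil)) (.cons 247 (.leaf 223 1791 (.cons 249 (.leaf 225 1797 (.cons 250 (.leaf 274 1976 (.cons 271 (.leaf 251 1978 (.leaf 270 1970 .nil)) .nil)) .nil)) .nil)) .nil))))) .nil)))))))))
noncomputable def t186 : T := .leaf 274 2170 (.cons 294 (.leaf 293 2153 (.cons 297 (.cons 270 (.leaf 269 2155 (.cons 271 (.leaf 298 2160 (.cons 249 (.leaf 250 1969 (.cons 225 (.leaf 201 1606 (.leaf 320 1798 .nil)) .nil)) .nil)) .nil)) (.cons 318 (.leaf 317 2346 (.cons 298 (.leaf 319 2354 (.cons 299 (.leaf 271 2171 (.leaf 300 2179 .nil)) .nil)) .nil)) (.cons 318 (.leaf 317 2346 (.cons 270 (.leaf 269 2155 (.cons 319 (.leaf 298 2354 (.cons 343 (.leaf 367 2173 (.leaf 246 1972 .nil)) .nil)) .nil)) .nil))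 (.cons 270 (.leaf 269 2155 (.cons 318 (.leaf 317 2346 (.cons 249 (.cons 225 (.leaf 201 1606 (.leaf 320 1798 .nil)) (.cons 201 (.leaf 225 1606 (.cons 250 (.leaf 271 1969 (.cons 226 (.leaf 321 1805 (.cons 251 (.leaf 252 1986 (.cons 202 (.leaf 178 1428 (.cons 299 (.leaf 227 1623 (.leaf 323 1815 .nil)) .nil)) .nil)) .nil)) .nil)) .nil)) (.cons 250 (.leaf 271 1969 (.cons 226 (.leaf 321 1805 (.cons 202 (.leaf 178 1422 (.cons 251 (.leaf 252 1986 (.cons 299 (.leaf 227 1623 (.leaf 323 1815 .nil)) .nil)) .nil)) .nil)) .nil)) .nil))) .nil)) .nil)) .nil)))) .nil)) .nil)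
noncomputable def t187 : T := .cons 202 (.leaf 226 1623 (.cons 228 (.leaf 204 1629 (.cons 252 (.leaf 323 1821 (.cons 300 (.leaf 324 1820 (.cons 301 (.leaf 302 2195 (.cons 253 (.leaf 254 2002 (.cons 277 (.leaf 278 2193 (.leaf 325 1831 .nil)) .nil)) .nil)) .nil)) .nil)) .nil)) .nil)) (.cons 228 (.leaf 204 1629 (.cons 252 (.leaf 323 1821 (.cons 253 (.leaf 254 2002 (.cons 300 (.leaf 324 1820 (.cons 301 (.leaf 302 2195 (.cons 277 (.leaf 278 2193 (.leaf 325 1831 .nil)) .nil)) .nil)) .nil)) .nil)) .nil)) (.cons 300 (.leaf 324 1820 (.cons 228 (.leaf 204 1629 (.cons 301 (.leaf 302 2195 (.cons 277 (.leaf 278 2193 (.cons 325 (.leaf 326 2384 (.cons 253 (.leaf 252 1831 (.cons 226 (.leaf 202 1623 (.cons 254 (.leaf 229 1808 (.leaf 230 1837 .nil)) .nil)) .nil)) .nil)) .nil)) .nil)) .nil)) .nil)) (.cons 226 (.leaf 202 1623 (.cons 323 (.leaf 250 1812 (.cons 324 (.leaf 300 1820 (.leaf 348 2012 .nil))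 .nil)) .nil)) (.cons 226 (.leaf 202 1623 (.cons 228 (.leaf 204 1629 (.cons 252 (.leaf 323 1821 (.cons 253 (.leaf 254 2002 (.leaf 225 1800 .nil)) .nil)) .nil)) .nil)) .nil))))
noncomputable def t188 : T := .cons 322 (.leaf 346 2005 (.cons 250 (.leaf 227 1813 (.cons 323 (.leaf 347 2004 (.cons 299 (.leaf 226 1812 (.cons 252 (.leaf 228 1821 (.cons 253 (.leaf 254 2002 (.cons 229 (.leaf 230 1809 (.cons 324 (.leaf 348 2012 (.cons 277 (.leaf 278 2000 (.cons 301 (.leaf 300 1830 (.cons 302 (.leaf 325 2385 (.leaf 326 1836 .nil)) .nil)) .nil)) .nil)) .nil)) .nil)) .nil)) .nil)) .nil)) .nil)) .nil)) (.cons 227 (.leaf 203 1622 (.cons 299 t187 .nil)) (.cons 322 (.leaf 346 2005 (.cons 250 (.cons 323 (.leaf 347 2004 (.cons 299 (.leaf 226 1812 (.cons 252 (.leaf 228 1821 (.cons 253 (.leaf 254 2002 (.cons 229 (.leaf 230 1809 (.cons 324 (.leaf 348 2012 (.cons 277 (.leaf 278 2000 (.cons 301 (.leaf 300 1830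 (.cons 302 (.leaf 325 2385 (.leaf 326 1836 .nil)) .nil)) .nil)) .nil)) .nil)) .nil)) .nil)) .nil)) .nil)) (.cons 249 (.leaf 225 1807 (.cons 248 (.leaf 247 1976 (.leaf 271 1978 .nil)) .nil)) .nil)) .nil)) (.cons 322 (.leaf 346 2005 (.cons 227 (.leaf 203 1622 (.leaf 299 1814 .nil)) .nil)) (.cons 322 (.leaf 346 2005 (.cons 227 (.leaf 203 1622 (.leaf 250 1813 .nil)) .nil)) .nil))))
noncomputable def t189 : T := .cons 343 (.leaf 367 2173 (.cons 248 (.leaf 271 1981 (.leaf 320 1982 .nil)) .nil)) (.cons 320 (.cons 249 (.leaf 344 1989 (.cons 225 (.leaf 201 1606 (.leaf 248 1797 .nil)) .nil)) (.cons 321 (.leaf 322 2355 (.cons 345 (.leaf 248 1988 (.cons 318 (.leaf 346 2544 (.cons 316 (.leaf 317 2337 (.cons 342 (.leaf 341 2538 (.cons 271 (.leaf 247 1974 (.leaf 366 2165 .nil)) .nil)) .nil)) .nil)) .nil)) .nil)) (.cons 344 (.leaf 249 1989 (.cons 368 (.leaf 271 2175 (.leaf 392 2367 .nil)) .nil)) .nil)))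 (.cons 343 (.leaf 367 2173 (.cons 271 (.leaf 248 1981 (.cons 342 (.leaf 366 2166 (.cons 318 (.leaf 247 1974 (.cons 317 (.leaf 316 2337 (.cons 270 (.leaf 246 1972 (.cons 269 (.leaf 268 2144 (.leaf 245 1967 .nil)) .nil)) .nil)) .nil)) .nil)) .nil)) .nil)) (.cons 343 (.leaf 367 2173 (.cons 320 (.leaf 248 1982 (.cons 321 (.leaf 322 2355 (.cons 344 (.leaf 249 1989 (.cons 341 (.leaf 342 2537 (.cons 345 (.leaf 369 2180 (.cons 318 (.leaf 317 2536 (.leaf 346 2544 .nil)) .nil)) .nil)) .nil)) .nil)) .nil)) .nil)) (.cons 343 (.leaf 367 2173 (.cons 271 (.cons 342 (.leaf 366 2166 (.cons 318 (.leaf 247 1974 (.cons 316 (.leaf 317 2337 (.cons 344 (.leaf 368 2172 (.cons 320 (.leaf 249 1989 (.cons 321 (.leaf 322 2546 (.leaf 341 2537 .nil)) .nil)) .nil)) .nil)) .nil)) .nil)) (.cons 342 (.leaf 366 2166 (.cons 247 (.leaf 318 1974 (.cons 223 (.leaf 199 1596 (.leaf 320 1788 .nil)) .nil)) .nil)) (.cons 270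 (.leaf 246 1975 (.cons 249 (.leaf 250 1969 (.cons 344 (.leaf 320 1989 (.leaf 368 2172 .nil)) .nil)) .nil)) (.cons 270 (.leaf 246 1975 (.cons 269 (.leaf 268 2144 (.cons 245 (.leaf 244 1955 (.cons 342 (.leaf 366 2166 (.leaf 318 1967 .nil)) .nil)) .nil)) .nil)) .nil)))) .nil)) .nil))))
noncomputable def t190 : T := .cons 293 (.leaf 273 2153 (.cons 271 (.leaf 292 2145 (.cons 316 (.leaf 317 2338 (.cons 320 (.leaf 321 2344 (.cons 247 (.leaf 344 1983 (.leaf 223 1788 .nil)) .nil)) .nil)) .nil)) .nil)) (.cons 297 (.cons 269 (.leaf 270 2155 (.cons 321 (.leaf 322 2352 (.cons 345 (.leaf 369 2183 (.cons 248 (.leaf 273 1991 (.leaf 320 1988 .nil)) .nil)) .nil)) .nil)) (.cons 317 (.leaf 318 2346 (.cons 321 (.leaf 322 2352 (.cons 345 (.leaf 369 2183 (.cons 248 (.leaf 273 1991 (.leaf 320 1988 .nil)) .nil)) .nil)) .nil)) (.cons 269 (.leaf 270 2155 (.cons 318 (.leaf 317 2346 (.cons 298 (.leaf 319 2354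 (.cons 299 (.leaf 271 2171 (.cons 323 (.leaf 322 2360 (.leaf 324 2368 .nil)) .nil)) .nil)) .nil)) .nil)) (.cons 269 (.leaf 270 2155 (.cons 318 (.leaf 317 2346 (.cons 298 (.leaf 319 2354 (.cons 299 (.leaf 271 2171 (.cons 300 (.leaf 273 2179 (.cons 324 (.leaf 323 2368 (.leaf 325 2376 .nil)) .nil)) .nil)) .nil)) .nil)) .nil)) .nil)))) (.cons 293 (.cons 271 (.leaf 292 2145 (.cons 316 (.leaf 317 2338 (.cons 320 (.leaf 321 2344 (.cons 247 (.leaf 344 1983 (.leaf 223 1788 .nil)) .nil)) .nil)) .nil)) (.cons 268 (.leaf 269 2147 (.cons 317 (.leaf 316 2338 (.cons 297 (.leaf 318 2346 (.cons 321 (.leaf 320 2344 (.leaf 322 2352 .nil)) .nil)) .nil)) .nil)) (.cons 268 (.leaf 269 2147 (.cons 292 (.leaf 271 2145 (.leaf 267 2139 .nil)) .nil)) .nil))) (.cons 293 (.leaf 273 2153 (.cons 268 (.leaf 269 2147 (.cons 292 (.leaf 267 2139 (.cons 316 (.leaf 317 2338 (.leaf 315 2330 .nil)) .nil)) .nil)) .nil)) (.cons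 293 (.leaf 273 2153 (.cons 268 (.leaf 269 2147 (.cons 292 (.leaf 271 2145 (.leaf 267 2139 .nil)) .nil)) .nil)) .nil))))
noncomputable def t191 : T := .cons 298 (.leaf 274 2169 (.cons 271 (.leaf 299 2171 (.leaf 270 2163 .nil)) .nil)) (.cons 294 (.cons 269 (.leaf 270 2155 (.cons 318 (.leaf 317 2346 (.cons 321 (.leaf 322 2352 (.cons 345 (.leaf 369 2183 (.cons 320 (.leaf 248 1988 (.leaf 293 2344 .nil)) .nil)) .nil)) .nil)) .nil)) (.cons 269 (.leaf 270 2155 (.cons 293 (.leaf 268 2147 (.cons 317 (.leaf 316 2338 (.leaf 318 2346 .nil)) .nil)) .nil)) (.cons 321 (.leaf 322 2352 (.cons 293 (.leaf 320 2344 (.cons 317 (.leaf 316 2338 (.leaf 318 2346 .nil)) .nil)) .nil)) (.cons 321 (.leaf 322 2352 (.cons 293 (.leaf 320 2344 (.cons 268 (.leaf 269 2147 (.cons 292 (.leaf 271 2145 (.leaf 267 2139 .nil)) .nil)) .nil)) .nil)) (.cons 270 (.leaf 269 2155 (.cons 318 (.leaf 317 2346 (.cons 321 (.leaf 322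 2352 (.cons 345 (.leaf 369 2183 (.cons 320 (.leaf 248 1988 (.cons 319 (.leaf 346 2544 (.cons 343 (.leaf 367 2173 (.leaf 246 1972 .nil)) .nil)) .nil)) .nil)) .nil)) .nil)) .nil)) .nil))))) (.cons 298 (.leaf 274 2169 (.cons 319 (.leaf 318 2354 (.cons 299 (.leaf 320 2362 (.cons 323 (.leaf 322 2360 (.leaf 324 2368 .nil)) .nil)) .nil)) .nil)) .nil))
noncomputable def t192 : T := .cons 273 (.leaf 274 2170 (.cons 294 (.leaf 293 2153 (.cons 319 (.cons 343 (.leaf 367 2173 (.cons 248 (.leaf 271 1981 (.leaf 320 1982 .nil)) .nil)) (.cons 297 (.cons 318 (.leaf 317 2346 (.leaf 298 2354 .nil)) (.cons 269 (.leaf 270 2155 (.cons 321 (.leaf 322 2352 (.cons 345 (.leaf 248 1991 (.leaf 369 2183 .nil)) .nil)) .nil)) .nil)) (.cons 343 (.leaf 367 2173 (.cons 271 (.cons 342 (.leaf 366 2166 (.cons 318 (.leaf 247 1974 (.cons 316 (.leaf 317 2337 (.cons 344 (.leaf 368 2172 (.cons 320 (.leaf 249 1989 (.cons 321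 (.leaf 322 2546 (.leaf 341 2537 .nil)) .nil)) .nil)) .nil)) .nil)) .nil)) (.cons 342 (.leaf 366 2166 (.cons 247 (.leaf 318 1974 (.cons 223 (.leaf 199 1596 (.leaf 320 1788 .nil)) .nil)) .nil)) (.cons 342 (.leaf 366 2166 (.cons 270 (.leaf 246 1975 (.cons 297 (.leaf 269 2152 (.leaf 298 2160 .nil)) .nil)) .nil)) (.cons 270 (.leaf 246 1975 (.cons 297 (.leaf 269 2152 (.leaf 298 2160 .nil)) .nil)) .nil)))) .nil)) .nil))) .nil)) .nil)) (.cons 297 t191 (.cons 294 t190 (.cons 273 (.leaf 274 2170 (.cons 294 (.leaf 293 2153 (.cons 319 t189 .nil)) .nil)) (.cons 274 (.leaf 273 2170 (.cons 298 (.leaf 297 2169 (.cons 251 t188 .nil)) .nil)) (.cons 273 (.leaf 274 2170 (.cons 294 (.leaf 293 2153 (.cons 297 (.cons 269 (.leaf 270 2155 (.cons 321 (.leaf 322 2352 (.cons 345 (.leaf 248 1991 (.leaf 369 2183 .nil)) .nil)) .nil)) (.cons 318 (.leaf 317 2346 (.cons 270 (.leaf 269 2155 (.cons 319 (.leaf 298 2354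 (.cons 343 (.leaf 367 2173 (.leaf 246 1972 .nil)) .nil)) .nil)) .nil)) (.cons 321 (.leaf 322 2352 (.cons 345 (.leaf 248 1991 (.leaf 369 2183 .nil)) .nil)) .nil))) .nil)) .nil)) (.cons 273 (.leaf 274 2170 (.cons 294 (.leaf 293 2153 (.cons 297 (.cons 270 (.leaf 269 2155 (.cons 271 (.leaf 298 2160 (.cons 249 (.leaf 250 1969 (.cons 225 (.leaf 201 1606 (.leaf 320 1798 .nil)) .nil)) .nil)) .nil)) (.cons 321 (.leaf 322 2352 (.cons 345 (.leaf 369 2183 (.cons 344 (.leaf 368 2182 (.cons 249 (.leaf 320 1989 (.cons 225 (.leaf 201 1606 (.cons 226 (.leaf 202 1613 (.leaf 250 1805 .nil)) .nil)) .nil)) .nil)) .nil)) .nil)) (.cons 270 (.leaf 269 2155 (.cons 271 (.leaf 298 2160 (.cons 245 (.leaf 246 1963 (.cons 318 (.leaf 317 2346 (.cons 247 (.leaf 223 1782 (.leaf 342 1973 .nil)) .nil)) .nil)) .nil)) .nil)) .nil))) .nil)) .nil)) (.cons 273 t186 .nil)))))))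
noncomputable def top0 : T := .cons 274 (.cons 299 (.leaf 300 2176 (.cons 251 (.leaf 252 1985 (.cons 298 (.leaf 271 2168 (.cons 227 (.leaf 203 1622 (.leaf 322 1814 .nil)) .nil)) .nil)) .nil)) (.cons 299 (.leaf 300 2176 (.cons 247 (.leaf 248 1979 (.cons 271 (.leaf 246 1971 (.leaf 298 2168 .nil)) .nil)) .nil)) (.cons 251 (.leaf 252 1985 (.cons 247 (.leaf 248 1979 (.cons 271 (.leaf 246 1971 (.leaf 250 1977 .nil)) .nil)) .nil)) (.cons 248 (.leaf 247 1979 (.cons 299 (.leaf 300 2176 (.cons 251 (.leaf 252 1985 (.cons 227 (.cons 204 (.leaf 228 1629 (.cons 322 (.leaf 298 1814 (.cons 323 (.leaf 346 2006 (.cons 347 (.leaf 250 2007 (.cons 348 (.leaf 324 2012 (.leaf 372 2204 .nil)) .nil)) .nil)) .nil)) .nil)) (.cons 204 (.leaf 228 1629 (.cons 203 (.leaf 180 1437 (.cons 202 (.leaf 178 1431 (.leaf 226 1623 .nil)) .nil)) .nil)) (.cons 298 (.leaf 203 1622 (.leaf 322 1814 .nil)) .nil))) .nil)) .nil))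 .nil)) .nil)))) (.cons 251 (.cons 249 t92 t89) (.cons 274 t26 (.cons 271 t25 (.cons 271 t21 (.cons 274 t20 (.cons 274 t12 (.cons 248 t11 (.cons 248 t7 (.cons 274 t3 (.cons 274 t2 (.cons 274 t1 (.cons 274 t0 .nil))))))))))))
noncomputable def top1 : T := .cons 295 t192 (.cons 320 t185 (.cons 320 (t179) (.cons 274 t176 (.cons 320 t172 (.cons 295 t168 (.cons 320 (.cons 248 (.cons 247 (.leaf 223 1791 (.cons 273 (.leaf 274 1979 (.cons 246 (.leaf 245 1960 (.cons 249 (.leaf 225 1797 (.leaf 344 1989 .nil)) .nil)) .nil)) .nil)) (.cons 225 (.leaf 249 1797 (.cons 343 (.leaf 319 1982 (.cons 344 (.leaf 367 2174 (.cons 345 (.leaf 321 1988 (.leaf 369 2180 .nil)) .nil)) .nil)) .nil)) (.cons 247 (.leaf 223 1791 (.cons 271 (.leaf 344 1983 (.cons 273 (.leaf 274 1979 (.cons 246 (.leaf 245 1960 (.cons 319 (.leaf 343 1982 (.cons 295 (.leaf 222 1783 (.cons 293 (.leaf 294 2153 (.cons 318 (.leaf 342 1974 (.cons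 317 (.leaf 316 2337 (.leaf 292 2339 .nil)) .nil)) .nil)) .nil)) .nil)) .nil)) .nil)) .nil)) .nil)) (.cons 247 (.leaf 223 1791 (.cons 249 (.leaf 225 1797 (.cons 319 (.leaf 343 1982 (.cons 250 (.leaf 274 1976 (.cons 271 (.leaf 251 1978 (.leaf 270 1970 .nil)) .nil)) .nil)) .nil)) .nil)) .nil)))) (.cons 248 t161 t160)) (.cons 295 t159 (.cons 295 t154 (.cons 274 t150 (.cons 295 t146 (.cons 320 (t141) (.cons 274 t138 (.cons 274 t132 (.cons 295 t126 (.cons 295 (.cons 273 (.leaf 274 2170 (.cons 294 (.leaf 293 2153 (.cons 297 (.cons 270 (.leaf 269 2155 (.cons 271 (.leaf 298 2160 (.cons 249 (.leaf 250 1969 (.cons 225 (.leaf 201 1606 (.leaf 320 1798 .nil)) .nil)) .nil)) .nil)) (.cons 321 (.leaf 322 2352 (.cons 345 (.leaf 248 1991 (.leaf 369 2183 .nil)) .nil)) .nil)) .nil)) .nil)) (.cons 297 t119 t118)) (.cons 273 t113 (.cons 295 (t110) (.cons 295 t106 (.cons 320 (.cons 344 (.cons 247 (.leaf 271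 1983 (.cons 248 (.leaf 223 1791 (.cons 345 (.leaf 321 1988 (.leaf 369 2180 .nil)) .nil)) .nil)) (.cons 273 (.leaf 249 1989 (.cons 368 (.leaf 297 2181 (.cons 367 (.leaf 343 2174 (.leaf 391 2366 .nil)) .nil)) .nil)) .nil)) (.cons 248 t101 t100)) (.cons 295 t99 (.cons 320 (.cons 344 (.cons 247 (.leaf 271 1983 (.cons 273 (.leaf 249 1989 (.cons 274 (.leaf 248 1979 (.leaf 295 2170 .nil)) .nil)) .nil)) (.cons 343 (.leaf 367 2174 (.cons 248 (.leaf 319 1982 (.cons 247 (.leaf 223 1791 (.leaf 271 1983 .nil)) .nil)) .nil)) (.cons 273 (.leaf 249 1989 (.cons 368 (.leaf 297 2181 (.cons 367 (.leaf 343 2174 (.leaf 391 2366 .nil)) .nil)) .nil)) .nil))) (.cons 248 t94 t93)) .nil)))))))))))))))))))))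

end Vale.Agent.P062.PB.N5D4
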