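import Vale.Agent.P062.Checker

namespace Vale.Agent.P062.PB.N5D6

open Vale.Agent.P062

noncomputable def t0 : T := .cons 299 (.leaf 300 2176 (.cons 247 (.leaf 248 1979 (.cons 271 (.leaf 246 1971 (.leaf 298 2168 .nil)) .nil)) .nil)) (.cons 295 (.leaf 296 2170 (.cons 247 (.leaf 248 1979 (.cons 271 (.leaf 246 1971 (.leaf 294 2162 .nil)) .nil)) .nil)) (.cons 299 (.leaf 300 2176 (.cons 251 (.leaf 252 1985 (.cons 271 (.leaf 298 2168 (.cons 295 (.leaf 296 2170 (.leaf 294 2162 .nil)) .nil)) .nil)) .nil)) (.cons 296 (.leaf 295 2170 (.cons 248 (.leaf 247 1979 (.cons 299 (.leaf 300 2176 (.cons 251 (.leaf 252 1985 (.cons 224 (.cons 321 (.leaf 297 1796 (.cons 199 (.leaf 223 1599 (.cons 201 (.leaf 225 1605 (.cons 320 (.leaf 345 1988 (.cons 319 (.leaf 343 1982 (.cons 200 (.leaf 175 1407 (.leaf 177 1413 .nil)) .nil)) .nil)) .nil)) .nil)) .nil)) (.cons 199 (.leaf 223 1599 (.cons 200 (.leaf 175 1407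 (.cons 201 (.leaf 177 1413 (.leaf 225 1605 .nil)) .nil)) .nil)) (.cons 321 (.leaf 297 1796 (.cons 199 (.leaf 223 1599 (.cons 201 (.leaf 225 1605 (.cons 320 (.leaf 345 1988 (.cons 319 (.leaf 343 1982 (.cons 322 (.leaf 298 2361 (.cons 346 (.leaf 323 2006 (.leaf 347 2552 .nil)) .nil)) .nil)) .nil)) .nil)) .nil)) .nil)) (.cons 297 (.leaf 200 1604 (.leaf 321 1796 .nil)) .nil)))) .nil)) .nil)) .nil)) .nil)) .nil)))
noncomputable def t1 : T := .cons 296 (.leaf 295 2170 (.cons 248 (.leaf 247 1979 (.cons 299 (.leaf 300 2176 (.cons 251 (.leaf 252 1985 (.cons 224 (.cons 223 (.leaf 199 1599 (.cons 225 (.leaf 201 1605 (.cons 226 (.leaf 250 1784 (.cons 202 (.leaf 227 1623 (.leaf 203 1593 .nil)) .nil)) .nil)) .nil)) (.cons 297 (.leaf 200 1604 (.leaf 321 1796 .nil)) .nil)) .nil)) .nil)) .nil)) .nil)) (.cons 251 (.leaf 252 1985 (.cons 296 (.leaf 295 2170 (.cons 248 (.leaf 247 1979 (.cons 224 (.cons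 297 (.leaf 200 1604 (.leaf 321 1796 .nil)) (.cons 199 (.leaf 223 1599 (.cons 200 (.leaf 175 1407 (.cons 201 (.leaf 177 1413 (.leaf 225 1605 .nil)) .nil)) .nil)) (.cons 199 (.leaf 223 1599 (.cons 201 (.leaf 225 1605 (.cons 321 (.leaf 297 1796 (.cons 320 (.leaf 345 1988 (.cons 343 (.leaf 319 1982 (.cons 344 (.leaf 367 2174 (.cons 322 (.leaf 323 2554 (.cons 298 (.leaf 346 2005 (.cons 227 (.leaf 203 1622 (.leaf 250 1813 .nil)) .nil)) .nil)) .nil)) .nil)) .nil)) .nil)) .nil)) .nil)) .nil))) .nil)) .nil)) .nil)) (.cons 299 (.leaf 300 2176 (.cons 296 (.leaf 295 2170 (.cons 248 (.leaf 247 1979 (.cons 224 (.cons 199 (.leaf 223 1599 (.cons 200 (.leaf 175 1407 (.leaf 297 1604 .nil)) .nil)) (.cons 199 (.leaf 223 1599 (.cons 200 (.leaf 175 1407 (.cons 201 (.leaf 177 1413 (.leaf 225 1605 .nil)) .nil)) .nil)) (.cons 199 (.leaf 223 1599 (.cons 201 (.leaf 225 1605 (.cons 321 (.leaf 297 1796 (.cons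 320 (.leaf 345 1988 (.cons 319 (.leaf 343 1982 (.cons 322 (.leaf 298 2361 (.cons 347 (.leaf 346 2552 (.cons 323 (.leaf 250 2007 (.leaf 348 2560 .nil)) .nil)) .nil)) .nil)) .nil)) .nil)) .nil)) .nil)) (.cons 297 (.leaf 200 1604 (.leaf 321 1796 .nil)) .nil)))) .nil)) .nil)) .nil)) (.cons 299 (.leaf 300 2176 (.cons 251 (.leaf 252 1985 (.cons 248 (.leaf 247 1979 (.cons 227 (.cons 298 (.leaf 203 1622 (.leaf 322 1814 .nil)) (.cons 202 (.leaf 226 1623 (.cons 203 (.leaf 178 1431 (.cons 204 (.leaf 180 1437 (.leaf 228 1629 .nil)) .nil)) .nil)) (.cons 202 (.leaf 226 1623 (.cons 204 (.leaf 228 1629 (.cons 322 (.leaf 298 1814 (.cons 323 (.leaf 346 2006 (.cons 347 (.leaf 250 2007 (.cons 348 (.leaf 324 2012 (.leaf 372 2204 .nil)) .nil)) .nil)) .nil)) .nil)) .nil)) .nil))) .nil)) .nil)) .nil)) (.cons 299 (.leaf 300 2176 (.cons 251 (.leaf 252 1985 (.cons 296 (.leaf 295 2170 (.cons 227 (.cons 298 (.leaf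 203 1622 (.leaf 322 1814 .nil)) (.cons 202 (.leaf 226 1623 (.cons 203 (.leaf 178 1431 (.cons 204 (.leaf 180 1437 (.leaf 228 1629 .nil)) .nil)) .nil)) (.cons 202 (.leaf 226 1623 (.cons 204 (.leaf 228 1629 (.cons 322 (.leaf 298 1814 (.cons 323 (.leaf 346 2006 (.cons 347 (.leaf 250 2007 (.cons 348 (.leaf 324 2012 (.leaf 372 2204 .nil)) .nil)) .nil)) .nil)) .nil)) .nil)) .nil))) .nil)) .nil)) .nil)) (.cons 296 (.leaf 295 2170 (.cons 248 (.leaf 247 1979 (.cons 299 (.leaf 300 2176 (.cons 251 (.leaf 252 1985 (.cons 224 (.cons 297 (.leaf 200 1604 (.leaf 321 1796 .nil)) (.cons 199 (.leaf 223 1599 (.cons 200 (.leaf 175 1407 (.cons 201 (.leaf 177 1413 (.leaf 225 1605 .nil)) .nil)) .nil)) (.cons 321 (.leaf 297 1796 (.cons 199 (.leaf 223 1599 (.cons 201 (.leaf 225 1605 (.cons 320 (.leaf 345 1988 (.cons 319 (.leaf 343 1982 (.cons 322 (.leaf 298 2361 (.cons 346 (.leaf 323 2006 (.leaf 347 2552 .nil))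 .nil)) .nil)) .nil)) .nil)) .nil)) .nil)) .nil))) .nil)) .nil)) .nil)) .nil)) .nil)))))
noncomputable def t2 : T := .cons 299 (.leaf 300 2176 (.cons 271 (.leaf 298 2168 (.cons 247 (.leaf 248 1979 (.leaf 246 1971 .nil)) .nil)) .nil)) (.cons 295 (.leaf 296 2170 (.cons 247 (.leaf 248 1979 (.cons 271 (.leaf 246 1971 (.leaf 294 2162 .nil)) .nil)) .nil)) (.cons 299 (.leaf 300 2176 (.cons 271 (.leaf 298 2168 (.cons 295 (.leaf 296 2170 (.leaf 294 2162 .nil)) .nil)) .nil)) (.cons 299 (.leaf 300 2176 (.cons 296 (.leaf 295 2170 (.cons 248 (.leaf 247 1979 (.cons 224 (.cons 199 (.leaf 223 1599 (.cons 200 (.leaf 175 1407 (.leaf 297 1604 .nil)) .nil)) (.cons 199 (.leaf 223 1599 (.cons 200 (.leaf 175 1407 (.cons 201 (.leaf 177 1413 (.leaf 225 1605 .nil)) .nil)) .nil)) (.cons 199 (.leaf 223 1599 (.cons 201 (.leaf 225 1605 (.cons 321 (.leaf 297 1796 (.cons 320 (.leaf 345 1988 (.cons 319 (.leaf 343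 1982 (.cons 322 (.leaf 298 2361 (.cons 347 (.leaf 346 2552 (.cons 323 (.leaf 250 2007 (.leaf 348 2560 .nil)) .nil)) .nil)) .nil)) .nil)) .nil)) .nil)) .nil)) (.cons 297 (.leaf 200 1604 (.leaf 321 1796 .nil)) .nil)))) .nil)) .nil)) .nil)) .nil)))
noncomputable def t3 : T := .cons 251 (.leaf 252 1985 (.cons 296 (.leaf 295 2170 (.cons 271 (.leaf 250 1977 (.cons 246 (.leaf 247 1971 (.cons 270 (.leaf 245 1963 (.cons 297 (.leaf 269 2152 (.leaf 298 2160 .nil)) .nil)) .nil)) .nil)) .nil)) .nil)) (.cons 251 (.leaf 252 1985 (.cons 271 (.leaf 250 1977 (.cons 246 (.leaf 247 1971 (.cons 270 (.leaf 245 1963 (.cons 293 (.leaf 294 2154 (.cons 269 (.leaf 292 2146 (.cons 297 (.leaf 296 2152 (.leaf 298 2160 .nil)) .nil)) .nil)) .nil)) .nil)) .nil)) .nil)) (.cons 295 (.leaf 296 2170 (.cons 247 (.leaf 248 1979 (.cons 271 (.leaf 246 1971 (.leaf 294 2162 .nil)) .nil)) .nil)) (.cons 251 (.leaf 252 1985 (.cons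 271 (.leaf 250 1977 (.cons 295 (.leaf 296 2170 (.leaf 294 2162 .nil)) .nil)) .nil)) (.cons 251 (.leaf 252 1985 (.cons 247 (.leaf 248 1979 (.cons 271 (.leaf 246 1971 (.leaf 250 1977 .nil)) .nil)) .nil)) (.cons 251 (.leaf 252 1985 (.cons 296 (.leaf 295 2170 (.cons 248 (.leaf 247 1979 (.cons 224 (.cons 297 (.leaf 200 1604 (.leaf 321 1796 .nil)) (.cons 199 (.leaf 223 1599 (.cons 200 (.leaf 175 1407 (.cons 201 (.leaf 177 1413 (.leaf 225 1605 .nil)) .nil)) .nil)) (.cons 199 (.leaf 223 1599 (.cons 201 (.leaf 225 1605 (.cons 321 (.leaf 297 1796 (.cons 320 (.leaf 345 1988 (.cons 343 (.leaf 319 1982 (.cons 344 (.leaf 367 2174 (.cons 322 (.leaf 323 2554 (.cons 298 (.leaf 346 2005 (.cons 227 (.leaf 203 1622 (.leaf 250 1813 .nil)) .nil)) .nil)) .nil)) .nil)) .nil)) .nil)) .nil)) .nil)) .nil))) .nil)) .nil)) .nil)) .nil)))))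
noncomputable def t4 : T := .cons 226 (.leaf 250 1815 (.cons 227 (.leaf 202 1623 (.cons 228 (.leaf 204 1629 (.leaf 252 1821 .nil)) .nil)) .nil)) (.cons 322 (.leaf 346 2006 (.cons 227 (.leaf 298 1814 (.cons 228 (.leaf 204 1629 (.leaf 252 1821 .nil)) .nil)) .nil)) (.cons 226 (.leaf 250 1815 (.cons 227 (.leaf 202 1623 (.cons 298 (.leaf 203 1622 (.leaf 322 1814 .nil)) .nil)) .nil)) (.cons 250 (.leaf 226 1815 (.cons 322 (.leaf 346 2006 (.cons 252 (.leaf 228 1821 (.cons 253 (.leaf 254 2002 (.cons 324 (.leaf 348 2012 (.cons 229 (.leaf 230 1809 (.cons 321 (.cons 345 (.leaf 298 1998 (.leaf 344 2562 .nil)) (.cons 296 (.leaf 297 2371 (.cons 320 (.leaf 295 2363 (.cons 277 (.leaf 278 2000 (.cons 319 (.leaf 298 2361 (.cons 343 (.leaf 248 1982 (.leaf 344 2554 .nil)) .nil)) .nil)) .nil)) .nil)) (.cons 277 (.leaf 278 2000 (.cons 296 (.leaf 297 2371 (.cons 320 (.leaf 295 2363 (.cons 344 (.leaf 343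 2554 (.leaf 345 2562 .nil)) .nil)) .nil)) .nil)) (.cons 296 (.leaf 297 2371 (.cons 320 (.leaf 295 2363 (.cons 277 (.leaf 278 2000 (.cons 319 (.leaf 298 2361 (.cons 343 (.leaf 248 1982 (.leaf 342 2546 .nil)) .nil)) .nil)) .nil)) .nil)) .nil)))) .nil)) .nil)) .nil)) .nil)) .nil)) .nil)) .nil)))
noncomputable def t5 : T := .cons 251 (.cons 322 (.leaf 346 2006 (.cons 227 (.leaf 298 1814 (.cons 226 (.leaf 202 1623 (.leaf 250 1815 .nil)) .nil)) .nil)) (.cons 322 (.leaf 346 2006 (.cons 227 (.leaf 298 1814 (.cons 228 (.leaf 204 1629 (.leaf 252 1821 .nil)) .nil)) .nil)) (.cons 250 (.leaf 226 1815 (.leaf 347 2007 .nil)) .nil))) (.cons 251 t4 (.cons 251 (.cons 322 (.leaf 346 2006 (.cons 227 (.leaf 298 1814 (.cons 228 (.leaf 204 1629 (.leaf 252 1821 .nil)) .nil)) .nil)) (.cons 252 (.leaf 228 1821 (.cons 253 (.leaf 254 2002 (.cons 348 (.leaf 324 2012 (.cons 347 (.leaf 372 2204 (.cons 370 (.leaf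 346 2198 (.cons 371 (.leaf 298 2199 (.leaf 394 2390 .nil)) .nil)) .nil)) .nil)) .nil)) .nil)) (.cons 252 (.leaf 228 1821 (.cons 253 (.leaf 254 2002 (.cons 348 (.leaf 324 2012 (.cons 347 (.leaf 372 2204 (.cons 298 (.leaf 371 2199 (.cons 227 (.leaf 203 1622 (.leaf 322 1814 .nil)) .nil)) .nil)) .nil)) .nil)) .nil)) (.cons 322 (.leaf 346 2006 (.cons 298 (.leaf 227 1814 (.cons 324 (.leaf 348 2012 (.cons 297 (.leaf 296 2368 (.leaf 325 2379 .nil)) .nil)) .nil)) .nil)) (.cons 252 (.leaf 228 1821 (.cons 253 (.leaf 254 2002 (.cons 346 (.leaf 322 2006 (.cons 347 (.leaf 370 2198 (.cons 348 (.leaf 324 2012 (.leaf 372 2204 .nil)) .nil)) .nil)) .nil)) .nil)) .nil))))) (.cons 347 (.leaf 250 2007 (.cons 371 (.leaf 298 2199 (.cons 370 (.leaf 346 2198 (.leaf 394 2390 .nil)) .nil)) .nil)) (.cons 347 (.leaf 250 2007 (.cons 346 (.leaf 370 2198 (.cons 348 (.leaf 372 2204 (.cons 324 (.leaf 251 2012 (.cons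 325 (.leaf 326 2578 (.leaf 345 2569 .nil)) .nil)) .nil)) .nil)) .nil)) (.cons 250 (.leaf 347 2007 (.cons 226 (.leaf 202 1620 (.leaf 251 1815 .nil)) .nil)) .nil)))))
noncomputable def t6 : T := .cons 250 (.leaf 347 2007 (.cons 226 (.leaf 202 1620 (.leaf 251 1815 .nil)) .nil)) (.cons 251 (.cons 322 (.leaf 346 2006 (.cons 227 (.leaf 298 1814 (.cons 324 (.leaf 300 1820 (.leaf 348 2012 .nil)) .nil)) .nil)) (.cons 228 (.leaf 252 1821 (.cons 227 (.leaf 204 1629 (.cons 324 (.leaf 300 1820 (.leaf 348 2012 .nil)) .nil)) .nil)) (.cons 322 (.leaf 346 2006 (.cons 227 (.leaf 298 1814 (.cons 228 (.leaf 204 1629 (.leaf 252 1821 .nil)) .nil)) .nil)) (.cons 322 (.leaf 346 2006 (.cons 324 (.leaf 348 2012 (.cons 252 (.leaf 228 1821 (.cons 253 (.leaf 254 2002 (.cons 300 (.cons 301 (.leaf 302 2386 (.leaf 321 2377 .nil)) (.cons 321 (.leaf 320 2369 (.cons 297 (.leaf 296 2371 (.cons 298 (.leaf 325 2376 (.cons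 345 (.leaf 369 2189 (.leaf 344 2562 .nil)) .nil)) .nil)) .nil)) (.cons 301 (.leaf 302 2386 (.cons 277 (.leaf 229 1830 (.cons 298 (.leaf 278 2193 (.cons 325 (.leaf 297 2376 (.leaf 326 2384 .nil)) .nil)) .nil)) .nil)) .nil))) .nil)) .nil)) .nil)) .nil)) .nil)))) (.cons 347 (.leaf 250 2007 (.cons 371 (.leaf 298 2199 (.cons 372 (.leaf 348 2204 (.leaf 396 2396 .nil)) .nil)) .nil)) .nil))
noncomputable def t7 : T := .cons 250 (.leaf 347 2007 (.cons 226 (.leaf 202 1620 (.leaf 251 1815 .nil)) .nil)) (.cons 251 (.cons 228 (.leaf 252 1821 (.cons 227 (.leaf 204 1629 (.cons 298 (.leaf 203 1622 (.leaf 322 1814 .nil)) .nil)) .nil)) (.cons 228 (.leaf 252 1821 (.cons 227 (.leaf 204 1629 (.cons 324 (.leaf 300 1820 (.leaf 348 2012 .nil)) .nil)) .nil)) (.cons 228 (.leaf 252 1821 (.cons 324 (.leaf 348 2012 (.cons 346 (.leaf 322 2006 (.cons 347 (.leaf 370 2198 (.cons 298 (.leaf 371 2199 (.cons 325 (.leaf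 326 2578 (.cons 297 (.leaf 296 2368 (.leaf 300 2376 .nil)) .nil)) .nil)) .nil)) .nil)) .nil)) .nil)) (.cons 322 (.leaf 346 2006 (.cons 227 (.leaf 298 1814 (.cons 324 (.leaf 300 1820 (.leaf 348 2012 .nil)) .nil)) .nil)) .nil)))) (.cons 251 (.cons 322 (.leaf 346 2006 (.cons 227 (.leaf 298 1814 (.cons 324 (.leaf 300 1820 (.leaf 348 2012 .nil)) .nil)) .nil)) (.cons 228 (.leaf 252 1821 (.cons 227 (.leaf 204 1629 (.cons 324 (.leaf 300 1820 (.leaf 348 2012 .nil)) .nil)) .nil)) (.cons 250 (.leaf 226 1815 (.cons 252 (.leaf 228 1821 (.cons 253 (.leaf 254 2002 (.cons 229 (.leaf 230 1809 (.cons 277 (.leaf 278 2000 (.cons 322 (.leaf 346 2006 (.cons 324 (.leaf 348 2012 (.cons 301 (.leaf 300 1830 (.cons 302 (.leaf 325 2385 (.leaf 326 1836 .nil)) .nil)) .nil)) .nil)) .nil)) .nil)) .nil)) .nil)) .nil)) (.cons 226 (.leaf 250 1815 (.cons 227 (.leaf 202 1623 (.cons 228 (.leaf 204 1629 (.leaf 252 1821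 .nil)) .nil)) .nil)) .nil)))) (.cons 250 (.leaf 347 2007 (.cons 226 (.leaf 202 1620 (.leaf 298 1812 .nil)) .nil)) .nil)))
noncomputable def t8 : T := .cons 250 (.leaf 347 2007 (.cons 226 (.leaf 202 1620 (.leaf 251 1815 .nil)) .nil)) (.cons 251 (.cons 322 (.leaf 346 2006 (.cons 227 (.leaf 298 1814 (.cons 324 (.leaf 300 1820 (.leaf 348 2012 .nil)) .nil)) .nil)) (.cons 324 (.leaf 348 2012 (.cons 227 (.leaf 300 1820 (.cons 228 (.leaf 204 1629 (.leaf 252 1821 .nil)) .nil)) .nil)) (.cons 322 (.leaf 346 2006 (.cons 227 (.leaf 298 1814 (.cons 228 (.leaf 204 1629 (.leaf 252 1821 .nil)) .nil)) .nil)) (.cons 346 (.leaf 322 2006 (.cons 228 (.leaf 252 1821 (.cons 347 (.leaf 370 2198 (.cons 348 (.leaf 324 2012 (.leaf 372 2204 .nil)) .nil)) .nil)) .nil)) .nil)))) (.cons 251 (.cons 324 (.leaf 348 2012 (.cons 227 (.leaf 300 1820 (.cons 228 (.leaf 204 1629 (.leaf 252 1821 .nil)) .nil)) .nil)) (.cons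 322 (.leaf 346 2006 (.cons 227 (.leaf 298 1814 (.cons 226 (.leaf 202 1623 (.leaf 250 1815 .nil)) .nil)) .nil)) (.cons 250 (.leaf 226 1815 (.cons 252 (.leaf 228 1821 (.cons 253 (.leaf 254 2002 (.cons 229 (.leaf 230 1809 (.cons 277 (.leaf 278 2000 (.cons 322 (.leaf 346 2006 (.cons 324 (.leaf 348 2012 (.cons 301 (.leaf 300 1830 (.cons 302 (.leaf 325 2385 (.leaf 326 1836 .nil)) .nil)) .nil)) .nil)) .nil)) .nil)) .nil)) .nil)) .nil)) .nil))) (.cons 250 (.leaf 347 2007 (.cons 226 (.leaf 202 1620 (.leaf 298 1812 .nil)) .nil)) .nil)))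
noncomputable def t9 : T := .cons 250 (.leaf 226 1815 (.cons 322 (.leaf 346 2006 (.cons 252 (.leaf 228 1821 (.cons 253 (.leaf 254 2002 (.cons 229 (.leaf 230 1809 (.cons 321 (.cons 277 (.leaf 278 2000 (.cons 298 (.leaf 227 1813 (.leaf 345 1998 .nil)) .nil)) (.cons 277 (.leaf 278 2000 (.cons 300 (.leaf 320 2369 (.cons 301 (.leaf 302 2386 (.leaf 324 2377 .nil)) .nil)) .nil)) (.cons 298 (.leaf 227 1813 (.leaf 345 1998 .nil)) .nil))) .nil)) .nil)) .nil)) .nil)) .nil)) (.cons 226 (.leaf 250 1815 (.cons 227 (.leaf 202 1623 (.cons 228 (.leaf 204 1629 (.leaf 252 1821 .nil)) .nil)) .nil)) (.cons 322 (.leaf 346 2006 (.cons 227 (.leaf 298 1814 (.cons 228 (.leaf 204 1629 (.leaf 252 1821 .nil)) .nil)) .nil)) (.cons 250 (.leaf 226 1815 (.cons 322 (.leaf 346 2006 (.cons 252 (.leaf 228 1821 (.cons 253 (.leaf 254 2002 (.cons 229 (.leaf 230 1809 (.cons 321 (.cons 277 (.leaf 278 2000 (.cons 298 (.leaf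 345 1998 (.cons 300 (.leaf 320 2369 (.leaf 301 2378 .nil)) .nil)) .nil)) (.cons 345 (.leaf 298 1998 (.cons 324 (.leaf 344 2562 (.cons 277 (.leaf 278 2000 (.cons 301 (.leaf 300 2377 (.cons 302 (.leaf 325 2385 (.leaf 326 1836 .nil)) .nil)) .nil)) .nil)) .nil)) (.cons 298 (.leaf 345 1998 (.cons 320 (.leaf 319 2361 (.cons 277 (.leaf 278 2000 (.cons 296 (.leaf 295 2363 (.cons 271 (.leaf 297 2171 (.cons 344 (.leaf 247 1983 (.leaf 343 2554 .nil)) .nil)) .nil)) .nil)) .nil)) .nil)) (.cons 300 (.leaf 320 2369 (.cons 301 (.leaf 302 2386 (.leaf 324 2377 .nil)) .nil)) .nil)))) .nil)) .nil)) .nil)) .nil)) .nil)) (.cons 226 (.leaf 250 1815 (.cons 227 (.leaf 202 1623 (.cons 298 (.leaf 203 1622 (.leaf 322 1814 .nil)) .nil)) .nil)) .nil))))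
noncomputable def t10 : T := .cons 322 (.leaf 251 2006 (.cons 370 (.leaf 298 2197 (.leaf 347 2198 .nil)) .nil)) (.cons 347 (.leaf 370 2198 (.cons 298 (.leaf 371 2199 (.cons 297 (.cons 296 (.leaf 295 2169 (.leaf 271 2171 .nil)) (.cons 321 (.cons 320 (.leaf 300 2370 (.cons 319 (.leaf 318 2353 (.cons 345 (.leaf 369 2189 (.leaf 344 2555 .nil)) .nil)) .nil)) (.cons 345 (.leaf 369 2189 (.cons 344 (.leaf 324 2561 (.cons 319 (.leaf 320 2555 (.cons 343 (.leaf 318 2547 (.cons 367 (.leaf 366 2738 (.leaf 368 2746 .nil)) .nil)) .nil)) .nil)) .nil)) (.cons 300 (.leaf 320 2370 (.cons 301 (.leaf 302 2195 (.cons 325 (.leaf 324 2376 (.leaf 326 2384 .nil)) .nil)) .nil)) (.cons 345 (.leaf 369 2189 (.cons 324 (.leaf 344 2561 (.cons 325 (.leaf 326 2578 (.leaf 300 2376 .nil)) .nil)) .nil)) .nil)))) .nil)) .nil)) .nil)) (.cons 251 (.leaf 322 2006 (.cons 228 (.leaf 252 1821 (.cons 227 (.leaf 204 1629 (.cons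 202 (.leaf 226 1623 (.cons 203 (.leaf 178 1431 (.leaf 298 1622 .nil)) .nil)) .nil)) .nil)) .nil)) (.cons 322 (.leaf 251 2006 (.cons 370 (.leaf 347 2198 (.leaf 394 2389 .nil)) .nil)) .nil)))
noncomputable def t11 : T := .cons 347 (.leaf 250 2007 (.cons 348 (.leaf 372 2204 (.cons 251 (.leaf 324 2012 (.cons 346 (.leaf 322 2006 (.leaf 370 2198 .nil)) .nil)) .nil)) .nil)) (.cons 251 (.cons 324 (.leaf 348 2012 (.cons 227 (.leaf 300 1820 (.cons 228 (.leaf 204 1629 (.leaf 252 1821 .nil)) .nil)) .nil)) (.cons 228 (.leaf 252 1821 (.cons 227 (.leaf 204 1629 (.cons 298 (.leaf 203 1622 (.leaf 322 1814 .nil)) .nil)) .nil)) (.cons 322 (.leaf 346 2006 (.cons 227 (.leaf 298 1814 (.cons 324 (.leaf 300 1820 (.leaf 348 2012 .nil)) .nil)) .nil)) (.cons 322 (.leaf 346 2006 (.cons 324 (.leaf 348 2012 (.cons 252 (.leaf 228 1821 (.cons 253 (.leaf 254 2002 (.cons 300 (.cons 301 (.leaf 302 2386 (.leaf 321 2377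 .nil)) (.cons 321 (.leaf 320 2369 (.cons 297 (.leaf 296 2371 (.cons 298 (.leaf 325 2376 (.cons 345 (.leaf 250 1998 (.leaf 369 2189 .nil)) .nil)) .nil)) .nil)) (.cons 301 (.leaf 302 2386 (.cons 277 (.leaf 229 1830 (.cons 298 (.leaf 278 2193 (.cons 325 (.leaf 297 2376 (.leaf 326 2384 .nil)) .nil)) .nil)) .nil)) .nil))) .nil)) .nil)) .nil)) .nil)) .nil)))) (.cons 347 (.leaf 250 2007 (.cons 348 (.leaf 372 2204 (.cons 371 (.leaf 298 2199 (.cons 394 (.leaf 370 2390 (.cons 395 (.leaf 418 2582 (.cons 324 (.leaf 300 2397 (.leaf 419 2589 .nil)) .nil)) .nil)) .nil)) .nil)) .nil)) (.cons 251 (.cons 228 (.leaf 252 1821 (.cons 346 (.leaf 322 2006 (.cons 347 (.leaf 370 2198 (.cons 348 (.leaf 324 2012 (.leaf 372 2204 .nil)) .nil)) .nil)) .nil)) (.cons 324 (.leaf 348 2012 (.cons 227 (.leaf 300 1820 (.cons 228 (.leaf 204 1629 (.leaf 252 1821 .nil)) .nil)) .nil)) (.cons 322 (.leaf 346 2006 (.cons 227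 (.leaf 298 1814 (.cons 228 (.leaf 204 1629 (.leaf 252 1821 .nil)) .nil)) .nil)) (.cons 322 (.leaf 346 2006 (.cons 227 (.leaf 298 1814 (.cons 324 (.leaf 300 1820 (.leaf 348 2012 .nil)) .nil)) .nil)) .nil)))) (.cons 347 (.leaf 250 2007 (.cons 298 (.leaf 371 2199 (.cons 346 (.leaf 370 2198 (.cons 348 (.leaf 372 2204 (.cons 345 (.cons 320 (.leaf 321 2563 (.cons 319 (.leaf 344 2555 (.cons 296 (.leaf 297 2362 (.cons 248 (.leaf 343 1982 (.cons 223 (.leaf 247 1791 (.cons 224 (.leaf 199 1599 (.leaf 295 1790 .nil)) .nil)) .nil)) .nil)) .nil)) .nil)) (.cons 344 (.cons 368 (.leaf 367 2746 (.leaf 369 2754 .nil)) (.cons 319 (.leaf 320 2555 (.cons 343 (.leaf 322 2553 (.leaf 318 2547 .nil)) .nil)) .nil)) (.cons 369 (.leaf 322 2190 (.leaf 368 2754 .nil)) .nil))) .nil)) .nil)) .nil)) .nil)) (.cons 347 (.leaf 250 2007 (.cons 298 (.leaf 371 2199 (.cons 346 (.leaf 370 2198 (.cons 251 (.leaf 322 2005 (.cons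 227 (.leaf 203 1622 (.cons 228 (.leaf 204 1629 (.leaf 252 1821 .nil)) .nil)) .nil)) .nil)) .nil)) .nil)) .nil)))))
noncomputable def t12 : T := .cons 299 (.leaf 347 2007 (.cons 226 (.leaf 202 1620 (.leaf 251 1815 .nil)) .nil)) (.cons 298 (.cons 226 (.leaf 299 1812 (.cons 201 (.leaf 225 1615 (.cons 202 (.leaf 177 1423 (.cons 203 (.leaf 179 1429 (.leaf 227 1621 .nil)) .nil)) .nil)) .nil)) (.cons 251 (.leaf 227 1813 (.cons 321 (.leaf 345 1998 (.cons 320 (.cons 299 (.leaf 300 2369 (.leaf 319 2361 .nil)) (.cons 295 (.leaf 296 2363 (.cons 319 (.leaf 294 2355 (.cons 343 (.leaf 344 2554 (.leaf 342 2546 .nil)) .nil)) .nil)) (.cons 296 (.leaf 295 2363 (.cons 299 (.leaf 300 2369 (.cons 228 (.leaf 252 1821 (.cons 271 (.leaf 297 2171 (.cons 344 (.leaf 247 1983 (.leaf 343 2554 .nil)) .nil)) .nil)) .nil)) .nil)) .nil))) .nil)) .nil)) (.cons 321 (.leaf 345 1998 (.cons 226 (.leaf 297 1806 (.cons 201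 (.leaf 225 1615 (.cons 202 (.leaf 177 1423 (.cons 203 (.leaf 179 1429 (.leaf 227 1621 .nil)) .nil)) .nil)) .nil)) .nil)) (.cons 226 (.leaf 299 1812 (.cons 201 (.leaf 225 1615 (.cons 202 (.leaf 177 1423 (.cons 178 (.leaf 251 1428 (.cons 179 (.leaf 203 1429 (.leaf 155 1237 .nil)) .nil)) .nil)) .nil)) .nil)) .nil)))) (.cons 298 (.leaf 347 2004 (.cons 321 (.leaf 345 1998 (.cons 226 (.leaf 297 1806 (.cons 201 (.leaf 225 1615 (.cons 202 (.leaf 177 1423 (.cons 203 (.leaf 179 1429 (.leaf 227 1621 .nil)) .nil)) .nil)) .nil)) .nil)) .nil)) (.cons 347 (.leaf 299 2007 (.leaf 298 2004 .nil)) .nil)))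
noncomputable def t13 : T := .cons 298 (.cons 346 (.leaf 251 2005 (.cons 345 (.leaf 369 2190 (.cons 344 (.leaf 343 2553 (.cons 347 (.leaf 250 2004 (.leaf 371 2196 .nil)) .nil)) .nil)) .nil)) (.cons 250 (.leaf 347 2004 (.cons 227 (.leaf 251 1813 (.cons 226 (.leaf 203 1621 (.cons 321 (.leaf 297 1806 (.leaf 345 1998 .nil)) .nil)) .nil)) .nil)) (.cons 251 (.leaf 346 2005 (.cons 227 (.leaf 203 1622 (.leaf 250 1813 .nil)) .nil)) (.cons 346 (.leaf 251 2005 (.cons 345 (.leaf 369 2190 (.cons 344 (.leaf 343 2553 (.cons 347 (.leaf 371 2196 (.cons 320 (.leaf 319 2555 (.cons 321 (.leaf 348 2560 (.cons 296 (.leaf 248 1988 (.leaf 295 2363 .nil)) .nil)) .nil)) .nil)) .nil)) .nil)) .nil)) (.cons 250 (.leaf 347 2004 (.cons 321 (.leaf 345 1998 (.cons 226 (.leaf 297 1806 (.cons 201 (.leaf 225 1615 (.cons 202 (.leaf 177 1423 (.cons 203 (.leaf 179 1429 (.leaf 227 1621 .nil)) .nil)) .nil)) .nil)) .nil))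 .nil)) .nil))))) (.cons 299 (.cons 347 (.leaf 250 2007 (.cons 346 (.leaf 251 2006 (.leaf 370 2198 .nil)) .nil)) (.cons 251 (.leaf 346 2006 (.cons 226 (.leaf 250 1815 (.cons 227 (.leaf 202 1623 (.cons 228 (.leaf 204 1629 (.leaf 252 1821 .nil)) .nil)) .nil)) .nil)) (.cons 347 (.leaf 250 2007 (.cons 346 (.leaf 370 2198 (.cons 348 (.leaf 372 2204 (.cons 321 (.leaf 320 2560 (.leaf 349 2571 .nil)) .nil)) .nil)) .nil)) (.cons 250 (.leaf 347 2007 (.cons 226 (.leaf 202 1620 (.leaf 251 1815 .nil)) .nil)) (.cons 346 (.leaf 251 2006 (.cons 370 (.leaf 347 2198 (.leaf 394 2389 .nil)) .nil)) .nil))))) (.cons 251 (.cons 227 (.cons 298 (.leaf 203 1622 (.leaf 299 1814 .nil)) (.cons 299 (.leaf 346 2006 (.cons 226 (.leaf 202 1623 (.leaf 250 1815 .nil)) .nil)) (.cons 298 (.leaf 203 1622 (.leaf 346 2005 .nil)) .nil))) (.cons 227 (.cons 299 (.leaf 298 1814 (.cons 226 (.leaf 202 1623 (.leaf 250 1815 .nil))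 .nil)) (.cons 299 (.cons 226 (.leaf 202 1623 (.leaf 250 1815 .nil)) (.cons 228 (.leaf 204 1629 (.leaf 252 1821 .nil)) .nil)) (.cons 298 (.leaf 203 1622 (.leaf 250 1813 .nil)) (.cons 298 (.leaf 203 1622 (.leaf 299 1814 .nil)) .nil)))) (.cons 298 (.leaf 346 2005 (.cons 227 (.leaf 203 1622 (.leaf 250 1813 .nil)) .nil)) (.cons 299 (.leaf 346 2006 (.cons 226 (.leaf 250 1815 (.cons 227 (.leaf 202 1623 (.cons 228 (.leaf 204 1629 (.leaf 252 1821 .nil)) .nil)) .nil)) .nil)) (.cons 346 (.leaf 298 2005 (.leaf 299 2006 .nil)) .nil))))) (.cons 250 t12 (.cons 347 (.cons 299 (.leaf 250 2007 (.cons 346 (.leaf 370 2198 (.cons 348 (.leaf 372 2204 (.cons 321 (.leaf 320 2560 (.leaf 349 2571 .nil)) .nil)) .nil)) .nil)) (.cons 298 (.leaf 250 2004 (.cons 371 (.leaf 346 2196 (.leaf 395 2391 .nil)) .nil)) (.cons 299 (.cons 346 (.leaf 370 2198 (.cons 348 (.leaf 372 2204 (.cons 321 (.leaf 320 2560 (.leaf 349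 2571 .nil)) .nil)) .nil)) (.cons 371 (.leaf 298 2199 (.cons 394 (.leaf 370 2390 (.cons 395 (.leaf 418 2582 (.cons 396 (.leaf 372 2396 (.leaf 420 2588 .nil)) .nil)) .nil)) .nil)) (.cons 298 (.leaf 371 2199 (.cons 348 (.leaf 372 2204 (.cons 321 (.leaf 320 2560 (.cons 349 (.leaf 350 2579 (.leaf 346 2571 .nil)) .nil)) .nil)) .nil)) (.cons 298 (.leaf 371 2199 (.cons 346 (.leaf 370 2197 (.cons 345 (.leaf 369 2190 (.cons 344 (.leaf 343 2553 (.cons 320 (.leaf 319 2555 (.cons 321 (.leaf 300 2369 (.leaf 348 2560 .nil)) .nil)) .nil)) .nil)) .nil)) .nil)) .nil)))) (.cons 250 (.leaf 299 2007 (.leaf 298 2004 .nil)) .nil)))) (.cons 346 (.cons 299 (.leaf 251 2006 (.cons 370 (.leaf 298 2197 (.leaf 347 2198 .nil)) .nil)) (.cons 298 (.cons 299 (.leaf 370 2197 (.cons 347 (.leaf 371 2196 (.cons 348 (.leaf 372 2204 (.cons 321 (.leaf 320 2560 (.leaf 349 2571 .nil)) .nil)) .nil)) .nil)) (.cons 345 (.leaf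 369 2190 (.cons 344 (.leaf 343 2553 (.cons 347 (.leaf 371 2196 (.cons 320 (.leaf 319 2555 (.cons 321 (.leaf 348 2560 (.cons 296 (.leaf 248 1988 (.leaf 295 2363 .nil)) .nil)) .nil)) .nil)) .nil)) .nil)) (.cons 369 (.leaf 345 2190 (.cons 370 (.leaf 299 2197 (.leaf 393 2382 .nil)) .nil)) .nil))) (.cons 299 (.leaf 251 2006 (.cons 370 (.leaf 347 2198 (.leaf 394 2389 .nil)) .nil)) (.cons 298 (.leaf 251 2005 (.cons 345 (.leaf 369 2190 (.cons 344 (.leaf 343 2553 (.cons 347 (.leaf 371 2196 (.cons 320 (.leaf 319 2555 (.cons 321 (.leaf 348 2560 (.cons 296 (.leaf 248 1988 (.leaf 295 2363 .nil)) .nil)) .nil)) .nil)) .nil)) .nil)) .nil)) (.cons 251 (.leaf 298 2005 (.leaf 299 2006 .nil)) .nil))))) .nil)))))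
noncomputable def t14 : T := .cons 250 (.leaf 347 2007 (.cons 226 (.leaf 202 1620 (.leaf 251 1815 .nil)) .nil)) (.cons 251 (.cons 228 (.leaf 252 1821 (.cons 227 (.leaf 204 1629 (.cons 298 (.leaf 203 1622 (.leaf 322 1814 .nil)) .nil)) .nil)) (.cons 252 (.leaf 228 1821 (.cons 253 (.leaf 254 2002 (.cons 347 (.cons 371 (.leaf 298 2199 (.cons 394 (.leaf 370 2390 (.cons 395 (.leaf 418 2582 (.cons 396 (.leaf 372 2396 (.leaf 420 2588 .nil)) .nil)) .nil)) .nil)) (.cons 348 (.leaf 324 2012 (.leaf 372 2204 .nil)) (.cons 371 (.leaf 298 2199 (.cons 324 (.leaf 348 2012 (.cons 394 (.leaf 370 2390 (.cons 395 (.leaf 300 2397 (.leaf 418 2582 .nil)) .nil)) .nil)) .nil)) .nil))) .nil)) .nil)) (.cons 324 (.leaf 348 2012 (.cons 227 (.leaf 300 1820 (.cons 298 (.leaf 203 1622 (.leaf 322 1814 .nil)) .nil)) .nil)) (.cons 324 (.leaf 348 2012 (.cons 227 (.leaf 300 1820 (.cons 228 (.leaf 204 1629 (.leaf 252 1821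 .nil)) .nil)) .nil)) .nil)))) (.cons 251 (.cons 324 (.leaf 348 2012 (.cons 227 (.leaf 300 1820 (.cons 228 (.leaf 204 1629 (.leaf 252 1821 .nil)) .nil)) .nil)) (.cons 226 (.leaf 250 1815 (.cons 227 (.leaf 202 1623 (.cons 228 (.leaf 204 1629 (.leaf 252 1821 .nil)) .nil)) .nil)) (.cons 250 (.leaf 226 1815 (.cons 252 (.leaf 228 1821 (.cons 253 (.leaf 254 2002 (.cons 229 (.leaf 230 1809 (.cons 277 (.leaf 278 2000 (.cons 324 (.leaf 348 2012 (.cons 301 (.leaf 300 1830 (.cons 326 (.leaf 302 1836 (.cons 325 (.leaf 298 2387 (.leaf 350 2028 .nil)) .nil)) .nil)) .nil)) .nil)) .nil)) .nil)) .nil)) .nil)) (.cons 226 (.leaf 250 1815 (.cons 227 (.leaf 202 1623 (.cons 298 (.leaf 203 1622 (.leaf 322 1814 .nil)) .nil)) .nil)) .nil)))) (.cons 347 (.leaf 250 2007 (.cons 348 (.leaf 372 2204 (.cons 371 (.leaf 298 2199 (.cons 394 (.leaf 370 2390 (.cons 395 (.leaf 418 2582 (.cons 324 (.leaf 300 2397 (.leaf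 419 2589 .nil)) .nil)) .nil)) .nil)) .nil)) .nil)) .nil)))
noncomputable def t15 : T := .cons 347 (.leaf 250 2007 (.cons 346 (.leaf 370 2198 (.cons 348 (.leaf 372 2204 (.cons 324 (.leaf 251 2012 (.cons 325 (.leaf 326 2578 (.leaf 345 2569 .nil)) .nil)) .nil)) .nil)) .nil)) (.cons 251 (.cons 226 (.leaf 250 1815 (.cons 227 (.leaf 202 1623 (.cons 228 (.leaf 204 1629 (.leaf 252 1821 .nil)) .nil)) .nil)) (.cons 324 (.leaf 348 2012 (.cons 227 (.leaf 300 1820 (.cons 228 (.leaf 204 1629 (.leaf 252 1821 .nil)) .nil)) .nil)) (.cons 226 (.leaf 250 1815 (.cons 227 (.leaf 202 1623 (.cons 324 (.leaf 300 1820 (.leaf 348 2012 .nil)) .nil)) .nil)) (.cons 250 (.leaf 226 1815 (.cons 252 (.leaf 228 1821 (.cons 253 (.leaf 254 2002 (.cons 229 (.leaf 230 1809 (.cons 277 (.leaf 278 2000 (.cons 324 (.leaf 348 2012 (.cons 301 (.leaf 300 1830 (.cons 326 (.leaf 302 1836 (.cons 325 (.leaf 298 2387 (.leaf 350 2028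 .nil)) .nil)) .nil)) .nil)) .nil)) .nil)) .nil)) .nil)) .nil)) .nil)))) (.cons 347 (.cons 346 (.leaf 370 2198 (.cons 348 (.leaf 372 2204 (.cons 324 (.leaf 251 2012 (.cons 325 (.leaf 326 2578 (.leaf 345 2569 .nil)) .nil)) .nil)) .nil)) (.cons 370 (.leaf 346 2198 (.cons 371 (.leaf 298 2199 (.leaf 394 2390 .nil)) .nil)) (.cons 348 (.leaf 372 2204 (.cons 251 (.leaf 324 2012 (.cons 228 (.leaf 252 1821 (.cons 227 (.leaf 204 1629 (.cons 298 (.leaf 203 1622 (.leaf 371 2199 .nil)) .nil)) .nil)) .nil)) .nil)) .nil))) (.cons 347 (.leaf 250 2007 (.cons 370 (.leaf 346 2198 (.cons 371 (.leaf 298 2199 (.leaf 394 2390 .nil)) .nil)) .nil)) .nil)))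
noncomputable def t16 : T := .cons 348 (.cons 321 (.leaf 320 2560 (.cons 349 (.leaf 324 2568 (.leaf 350 2579 .nil)) .nil)) (.cons 299 (.leaf 250 2007 (.leaf 372 2204 .nil)) .nil)) (.cons 348 (.cons 321 (.leaf 320 2560 (.cons 349 (.leaf 324 2568 (.leaf 350 2579 .nil)) .nil)) (.cons 299 (.leaf 372 2204 (.cons 346 (.leaf 370 2198 (.cons 349 (.leaf 350 2579 (.cons 325 (.leaf 326 2577 (.cons 324 (.leaf 345 2569 (.cons 301 (.leaf 302 2385 (.cons 277 (.leaf 253 2022 (.cons 373 (.leaf 374 2768 (.cons 397 (.leaf 421 2599 (.leaf 300 2407 .nil)) .nil)) .nil)) .nil)) .nil)) .nil)) .nil)) .nil)) .nil)) (.cons 299 (.leaf 372 2204 (.cons 346 (.leaf 370 2198 (.cons 321 (.leaf 320 2560 (.cons 324 (.cons 345 (.leaf 344 2561 (.leaf 325 2569 .nil)) (.cons 296 (.leaf 297 2371 (.cons 301 (.leaf 300 2377 (.cons 325 (.leaf 302 2385 (.leaf 326 2578 .nil)) .nil)) .nil)) (.cons 345 (.leaf 344 2561 (.cons 369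 (.leaf 298 2190 (.leaf 368 2754 .nil)) .nil)) .nil))) .nil)) .nil)) .nil)) (.cons 321 (.leaf 320 2560 (.cons 349 (.leaf 350 2579 (.leaf 346 2571 .nil)) .nil)) .nil)))) (.cons 298 (.leaf 250 2004 (.cons 321 (.cons 297 (.cons 324 (.leaf 296 2371 (.leaf 325 2379 .nil)) (.cons 324 (.leaf 325 2379 (.cons 345 (.leaf 369 2189 (.leaf 344 2562 .nil)) .nil)) (.cons 296 (.leaf 295 2360 (.cons 345 (.leaf 369 2189 (.cons 248 (.leaf 224 1796 (.leaf 320 1988 .nil)) .nil)) .nil)) .nil))) (.cons 324 (.cons 301 (.leaf 300 2377 (.cons 325 (.leaf 297 2379 (.leaf 302 2385 .nil)) .nil)) (.cons 301 (.leaf 300 2377 (.cons 325 (.leaf 302 2385 (.cons 349 (.leaf 348 2568 (.leaf 350 2576 .nil)) .nil)) .nil)) (.cons 296 (.leaf 297 2371 (.cons 300 (.leaf 301 2377 (.cons 345 (.leaf 344 2562 (.cons 369 (.leaf 346 2190 (.leaf 393 2381 .nil)) .nil)) .nil)) .nil)) (.cons 297 (.leaf 296 2371 (.leaf 325 2379 .nil)) .nil))))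 (.cons 348 (.leaf 320 2560 (.cons 349 (.leaf 324 2568 (.leaf 350 2579 .nil)) .nil)) (.cons 320 (.leaf 348 2560 (.cons 295 (.leaf 296 2363 (.cons 319 (.leaf 294 2355 (.leaf 346 2552 .nil)) .nil)) .nil)) .nil)))) .nil)) (.cons 250 (.leaf 299 2007 (.leaf 298 2004 .nil)) .nil)))
noncomputable def t17 : T := .cons 320 (.leaf 348 2560 (.cons 295 (.leaf 296 2363 (.cons 294 (.leaf 319 2355 (.cons 344 (.leaf 343 2554 (.cons 324 (.leaf 345 2562 (.cons 301 (.leaf 300 2377 (.cons 325 (.leaf 297 2379 (.leaf 302 2385 .nil)) .nil)) .nil)) .nil)) .nil)) .nil)) .nil)) (.cons 324 (.cons 301 (.leaf 300 2377 (.cons 325 (.leaf 297 2379 (.leaf 302 2385 .nil)) .nil)) (.cons 301 (.leaf 300 2377 (.cons 325 (.leaf 302 2385 (.cons 349 (.leaf 348 2568 (.leaf 350 2576 .nil)) .nil)) .nil)) (.cons 297 (.leaf 296 2371 (.cons 345 (.leaf 369 2189 (.leaf 344 2562 .nil)) .nil)) .nil))) (.cons 297 (.cons 324 (.leaf 296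 2371 (.leaf 325 2379 .nil)) (.cons 324 (.leaf 325 2379 (.cons 345 (.leaf 369 2189 (.leaf 344 2562 .nil)) .nil)) (.cons 296 (.leaf 295 2360 (.cons 345 (.leaf 369 2189 (.cons 248 (.leaf 224 1796 (.leaf 320 1988 .nil)) .nil)) .nil)) .nil))) (.cons 348 (.leaf 320 2560 (.cons 349 (.leaf 324 2568 (.leaf 350 2579 .nil)) .nil)) (.cons 320 (.leaf 348 2560 (.cons 319 (.cons 295 (.leaf 296 2363 (.leaf 294 2355 .nil)) (.cons 318 (.leaf 297 2353 (.cons 293 (.leaf 294 2347 (.cons 317 (.leaf 292 2339 (.cons 341 (.leaf 342 2538 (.leaf 340 2530 .nil)) .nil)) .nil)) .nil)) (.cons 343 (.leaf 344 2554 (.leaf 342 2546 .nil)) .nil))) .nil)) .nil))))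
noncomputable def t18 : T := .cons 320 (.cons 295 (.leaf 296 2363 (.cons 344 (.leaf 343 2554 (.cons 324 (.leaf 345 2562 (.cons 348 (.leaf 347 2560 (.leaf 349 2568 .nil)) .nil)) .nil)) .nil)) (.cons 299 (.leaf 300 2369 (.cons 298 (.leaf 319 2361 (.cons 344 (.leaf 343 2554 (.cons 324 (.leaf 345 2562 (.cons 325 (.leaf 297 2379 (.leaf 326 2387 .nil)) .nil)) .nil)) .nil)) .nil)) (.cons 296 (.leaf 295 2363 (.cons 297 (.leaf 324 2371 (.cons 224 (.leaf 248 1796 (.cons 347 (.leaf 348 2560 (.cons 319 (.leaf 346 2552 (.cons 318 (.leaf 298 2353 (.leaf 317 2345 .nil)) .nil)) .nil)) .nil)) .nil)) .nil)) (.cons 296 (.leaf 295 2363 (.cons 248 (.leaf 345 1988 (.cons 223 (.leaf 247 1791 (.cons 224 (.leaf 199 1599 (.leaf 297 1796 .nil)) .nil)) .nil)) .nil)) .nil)))) (.cons 324 (.cons 296 (.leaf 297 2371 (.cons 300 (.leaf 301 2377 (.cons 348 (.leaf 349 2568 (.cons 372 (.leaf 299 2207 (.cons 395 (.leaf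 371 2398 (.cons 396 (.leaf 419 2590 (.cons 397 (.leaf 373 2404 (.leaf 421 2596 .nil)) .nil)) .nil)) .nil)) .nil)) .nil)) .nil)) (.cons 345 (.leaf 344 2562 (.cons 300 (.leaf 301 2377 (.cons 325 (.leaf 346 2570 (.cons 349 (.leaf 348 2568 (.leaf 350 2576 .nil)) .nil)) .nil)) .nil)) (.cons 297 (.leaf 296 2371 (.cons 298 (.leaf 325 2379 (.cons 345 (.leaf 369 2189 (.leaf 344 2562 .nil)) .nil)) .nil)) .nil))) (.cons 320 (.cons 296 (.leaf 295 2363 (.cons 248 (.leaf 345 1988 (.cons 223 (.leaf 247 1791 (.cons 224 (.leaf 199 1599 (.leaf 297 1796 .nil)) .nil)) .nil)) .nil)) (.cons 299 (.leaf 300 2369 (.cons 298 (.leaf 319 2361 (.cons 347 (.leaf 371 2199 (.leaf 348 2560 .nil)) .nil)) .nil)) .nil)) (.cons 324 (.cons 300 (.leaf 301 2377 (.cons 299 (.leaf 320 2369 (.cons 348 (.leaf 372 2207 (.leaf 349 2568 .nil)) .nil)) .nil)) (.cons 300 (.leaf 301 2377 (.cons 299 (.leaf 320 2369 (.cons 345 (.leaf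 344 2562 (.cons 325 (.leaf 346 2570 (.cons 298 (.leaf 297 2376 (.leaf 326 2387 .nil)) .nil)) .nil)) .nil)) .nil)) (.cons 344 (.leaf 345 2562 (.cons 320 (.leaf 343 2554 (.cons 348 (.leaf 347 2560 (.leaf 349 2568 .nil)) .nil)) .nil)) (.cons 345 (.leaf 344 2562 (.cons 300 (.leaf 301 2377 (.cons 325 (.leaf 346 2570 (.cons 349 (.leaf 348 2568 (.leaf 350 2576 .nil)) .nil)) .nil)) .nil)) .nil)))) (.cons 320 (.cons 295 (.leaf 296 2363 (.cons 299 (.leaf 300 2369 (.cons 319 (.leaf 294 2355 (.leaf 298 2361 .nil)) .nil)) .nil)) (.cons 299 (.leaf 300 2369 (.cons 298 (.leaf 319 2361 (.cons 347 (.leaf 371 2199 (.leaf 348 2560 .nil)) .nil)) .nil)) (.cons 295 (.leaf 296 2363 (.cons 319 (.leaf 294 2355 (.cons 343 (.leaf 344 2554 (.leaf 342 2546 .nil)) .nil)) .nil)) (.cons 295 (.leaf 296 2363 (.cons 299 (.leaf 300 2369 (.cons 343 (.leaf 344 2554 (.cons 347 (.leaf 348 2560 (.cons 346 (.leaf 370 2198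 (.cons 371 (.leaf 298 2196 (.cons 395 (.leaf 419 2583 (.cons 396 (.leaf 372 2396 (.leaf 420 2588 .nil)) .nil)) .nil)) .nil)) .nil)) .nil)) .nil)) .nil)) .nil)))) (.cons 324 (.cons 296 (.leaf 297 2371 (.cons 295 (.leaf 320 2363 (.cons 345 (.leaf 344 2562 (.cons 325 (.leaf 346 2570 (.cons 349 (.leaf 348 2568 (.leaf 350 2576 .nil)) .nil)) .nil)) .nil)) .nil)) (.cons 296 (.leaf 297 2371 (.cons 295 (.leaf 320 2363 (.cons 301 (.leaf 300 2377 (.cons 325 (.leaf 302 2385 (.cons 349 (.leaf 348 2568 (.leaf 350 2576 .nil)) .nil)) .nil)) .nil)) .nil)) (.cons 345 (.leaf 344 2562 (.cons 300 (.leaf 301 2377 (.cons 325 (.leaf 346 2570 (.cons 349 (.leaf 348 2568 (.leaf 350 2576 .nil)) .nil)) .nil)) .nil)) (.cons 345 (.leaf 344 2562 (.cons 296 (.leaf 297 2371 (.cons 301 (.leaf 300 2377 (.cons 325 (.leaf 302 2385 (.leaf 346 2570 .nil)) .nil)) .nil)) .nil)) (.cons 296 (.leaf 297 2371 (.cons 300 (.leaf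 301 2377 (.cons 320 (.leaf 295 2363 (.cons 248 (.leaf 345 1988 (.cons 319 (.leaf 343 1982 (.cons 347 (.leaf 348 2560 (.leaf 346 2552 .nil)) .nil)) .nil)) .nil)) .nil)) .nil)) .nil))))) (.cons 320 (.cons 295 (.leaf 296 2363 (.cons 300 (.leaf 299 2369 (.cons 324 (.leaf 301 2377 (.cons 344 (.leaf 343 2554 (.leaf 345 2562 .nil)) .nil)) .nil)) .nil)) (.cons 299 (.leaf 300 2369 (.cons 298 (.leaf 319 2361 (.cons 344 (.leaf 343 2554 (.cons 324 (.leaf 345 2562 (.cons 325 (.leaf 297 2379 (.leaf 326 2387 .nil)) .nil)) .nil)) .nil)) .nil)) (.cons 295 (.leaf 296 2363 (.cons 299 (.leaf 300 2369 (.cons 319 (.leaf 294 2355 (.leaf 298 2361 .nil)) .nil)) .nil)) (.cons 296 (.leaf 295 2363 (.cons 297 (.leaf 324 2371 (.cons 248 (.leaf 224 1796 (.leaf 345 1988 .nil)) .nil)) .nil)) .nil)))) (.cons 320 (.cons 343 (.leaf 344 2554 (.cons 319 (.leaf 342 2546 (.cons 347 (.leaf 348 2560 (.leaf 346 2552 .nil))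 .nil)) .nil)) (.cons 296 (.leaf 295 2363 (.cons 297 (.leaf 324 2371 (.cons 248 (.leaf 224 1796 (.leaf 345 1988 .nil)) .nil)) .nil)) .nil)) .nil)))))))
noncomputable def t19 : T := .cons 298 (.leaf 250 2004 (.cons 371 (.leaf 299 2199 (.leaf 346 2196 .nil)) .nil)) (.cons 298 (.leaf 250 2004 (.cons 371 (.leaf 346 2196 (.leaf 395 2391 .nil)) .nil)) (.cons 299 (.leaf 250 2007 (.cons 370 (.leaf 346 2198 (.cons 371 (.leaf 394 2390 (.cons 372 (.leaf 348 2204 (.leaf 396 2396 .nil)) .nil)) .nil)) .nil)) (.cons 299 (.cons 370 (.leaf 346 2198 (.cons 371 (.leaf 298 2199 (.leaf 394 2390 .nil)) .nil)) (.cons 346 (.leaf 370 2198 (.cons 348 (.leaf 372 2204 (.cons 349 (.leaf 350 2579 (.cons 325 (.leaf 326 2577 (.cons 324 (.leaf 345 2569 (.cons 301 (.leaf 302 2385 (.cons 277 (.leaf 253 2022 (.cons 373 (.leaf 374 2768 (.cons 397 (.leaf 421 2599 (.leaf 300 2407 .nil)) .nil)) .nil)) .nil)) .nil)) .nil))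 .nil)) .nil)) .nil)) (.cons 371 (.leaf 298 2199 (.cons 394 (.leaf 370 2390 (.cons 395 (.leaf 418 2582 (.cons 396 (.leaf 372 2396 (.leaf 420 2588 .nil)) .nil)) .nil)) .nil)) (.cons 371 (.leaf 298 2199 (.cons 372 (.leaf 348 2204 (.leaf 396 2396 .nil)) .nil)) .nil)))) (.cons 299 (.leaf 250 2007 (.cons 346 (.leaf 370 2198 (.cons 348 (.leaf 372 2204 (.cons 349 (.leaf 350 2579 (.cons 325 (.leaf 326 2577 (.cons 324 (.leaf 345 2569 (.cons 301 (.leaf 302 2385 (.cons 277 (.leaf 253 2022 (.cons 373 (.leaf 374 2768 (.cons 397 (.leaf 421 2599 (.leaf 300 2407 .nil)) .nil)) .nil)) .nil)) .nil)) .nil)) .nil)) .nil)) .nil)) .nil)) (.cons 250 (.leaf 299 2007 (.leaf 298 2004 .nil)) .nil)))))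
noncomputable def t20 : T := .cons 321 (.cons 344 (.leaf 345 2562 (.cons 301 (.leaf 300 2377 (.cons 320 (.leaf 343 2554 (.cons 348 (.leaf 347 2560 (.leaf 349 2568 .nil)) .nil)) .nil)) .nil)) (.cons 296 (.leaf 297 2371 (.cons 301 (.leaf 300 2377 (.cons 325 (.leaf 302 2385 (.cons 349 (.leaf 348 2568 (.leaf 350 2576 .nil)) .nil)) .nil)) .nil)) (.cons 296 (.leaf 297 2371 (.cons 295 (.leaf 320 2363 (.cons 300 (.leaf 301 2377 (.cons 345 (.leaf 344 2562 (.cons 369 (.leaf 346 2190 (.leaf 393 2381 .nil)) .nil)) .nil)) .nil)) .nil)) (.cons 344 (.leaf 345 2562 (.cons 320 (.leaf 343 2554 (.cons 348 (.leaf 347 2560 (.leaf 349 2568 .nil)) .nil)) .nil)) .nil)))) (.cons 321 (.cons 344 (.leaf 345 2562 (.cons 320 (.leaf 343 2554 (.cons 348 (.leaf 347 2560 (.leaf 349 2568 .nil)) .nil)) .nil)) (.cons 296 (.leaf 297 2371 (.cons 300 (.leaf 301 2377 (.cons 320 (.leaf 295 2363 (.cons 348 (.leaf 347 2560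 (.leaf 349 2568 .nil)) .nil)) .nil)) .nil)) (.cons 296 (.leaf 297 2371 (.cons 295 (.leaf 320 2363 (.cons 300 (.leaf 301 2377 (.cons 345 (.leaf 344 2562 (.cons 369 (.leaf 346 2190 (.leaf 393 2381 .nil)) .nil)) .nil)) .nil)) .nil)) (.cons 296 (.leaf 297 2371 (.cons 345 (.leaf 344 2562 (.cons 369 (.leaf 346 2190 (.leaf 393 2381 .nil)) .nil)) .nil)) .nil)))) (.cons 346 (.cons 347 (.leaf 371 2196 (.cons 325 (.leaf 345 2570 (.leaf 326 2578 .nil)) .nil)) (.cons 347 (.leaf 371 2196 (.cons 325 (.leaf 326 2578 (.cons 301 (.leaf 302 2385 (.cons 300 (.leaf 321 2377 (.cons 349 (.leaf 350 2576 (.cons 373 (.leaf 397 2407 (.cons 374 (.leaf 348 2768 (.leaf 398 2412 .nil)) .nil)) .nil)) .nil)) .nil)) .nil)) .nil)) (.cons 345 (.leaf 369 2190 (.leaf 325 2570 .nil)) (.cons 345 (.leaf 369 2190 (.cons 344 (.leaf 321 2562 (.leaf 343 2553 .nil)) .nil)) .nil)))) (.cons 325 (.leaf 297 2379 (.cons 301 (.leaf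 302 2385 (.cons 346 (.leaf 345 2570 (.cons 347 (.leaf 371 2196 (.leaf 326 2578 .nil)) .nil)) .nil)) .nil)) (.cons 297 (.leaf 325 2379 (.cons 296 (.leaf 295 2360 (.leaf 321 2371 .nil)) .nil)) .nil))))
noncomputable def t21 : T := .cons 324 (.cons 297 (.leaf 325 2379 (.cons 296 (.leaf 295 2360 (.leaf 321 2371 .nil)) .nil)) (.cons 321 (.cons 344 (.leaf 345 2562 (.cons 320 (.leaf 343 2554 (.cons 348 (.leaf 347 2560 (.leaf 349 2568 .nil)) .nil)) .nil)) (.cons 296 (.leaf 297 2371 (.cons 300 (.leaf 301 2377 (.cons 320 (.leaf 295 2363 (.cons 348 (.leaf 347 2560 (.leaf 349 2568 .nil)) .nil)) .nil)) .nil)) (.cons 296 (.leaf 297 2371 (.cons 300 (.leaf 301 2377 (.cons 345 (.leaf 250 1998 (.leaf 344 2562 .nil)) .nil)) .nil)) .nil))) (.cons 347 (.leaf 250 2004 (.cons 371 (.leaf 346 2196 (.leaf 395 2391 .nil)) .nil)) .nil))) (.cons 321 (.cons 345 (.leaf 250 1998 (.cons 369 (.leaf 297 2189 (.leaf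 346 2190 .nil)) .nil)) (.cons 296 (.cons 320 (.leaf 295 2363 (.cons 343 (.leaf 344 2554 (.cons 319 (.leaf 248 1982 (.leaf 342 2546 .nil)) .nil)) .nil)) (.cons 324 (.leaf 297 2371 (.cons 301 (.leaf 300 2377 (.cons 325 (.leaf 302 2385 (.cons 349 (.leaf 348 2568 (.leaf 350 2576 .nil)) .nil)) .nil)) .nil)) .nil)) (.cons 345 (.leaf 250 1998 (.cons 369 (.leaf 346 2190 (.leaf 393 2381 .nil)) .nil)) .nil))) (.cons 324 t20 (.cons 347 (.leaf 250 2004 (.cons 371 (.leaf 346 2196 (.leaf 395 2391 .nil)) .nil)) (.cons 321 (.cons 345 (.leaf 250 1998 (.cons 324 (.leaf 344 2562 (.cons 301 (.leaf 300 2377 (.cons 325 (.leaf 297 2379 (.leaf 302 2385 .nil)) .nil)) .nil)) .nil)) (.cons 296 (.cons 320 (.leaf 295 2363 (.cons 343 (.leaf 344 2554 (.cons 319 (.leaf 248 1982 (.leaf 342 2546 .nil)) .nil)) .nil)) (.cons 324 (.leaf 297 2371 (.cons 301 (.leaf 300 2377 (.cons 325 (.leaf 302 2385 (.cons 349 (.leaf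 348 2568 (.leaf 350 2576 .nil)) .nil)) .nil)) .nil)) .nil)) (.cons 345 (.leaf 250 1998 (.cons 324 (.leaf 344 2562 (.cons 301 (.leaf 300 2377 (.cons 325 (.leaf 302 2385 (.cons 349 (.leaf 348 2568 (.leaf 350 2576 .nil)) .nil)) .nil)) .nil)) .nil)) (.cons 345 (.leaf 250 1998 (.cons 369 (.leaf 297 2189 (.leaf 393 2381 .nil)) .nil)) .nil)))) .nil))))
noncomputable def t22 : T := .cons 324 (.cons 296 (.leaf 297 2371 (.cons 320 (.leaf 295 2363 (.leaf 300 2369 .nil)) .nil)) (.cons 345 (.leaf 344 2562 (.cons 325 (.leaf 346 2570 (.cons 349 (.leaf 348 2568 (.leaf 350 2576 .nil)) .nil)) .nil)) .nil)) (.cons 324 (.cons 296 (.leaf 297 2371 (.cons 300 (.leaf 301 2377 (.cons 345 (.leaf 344 2562 (.cons 325 (.leaf 346 2570 (.cons 326 (.leaf 327 2395 (.cons 348 (.leaf 372 2207 (.leaf 349 2568 .nil)) .nil)) .nil)) .nil)) .nil)) .nil)) (.cons 345 (.leaf 344 2562 (.cons 325 (.leaf 346 2570 (.cons 349 (.leaf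 348 2568 (.leaf 350 2576 .nil)) .nil)) .nil)) (.cons 301 (.leaf 300 2377 (.cons 296 (.leaf 297 2371 (.cons 325 (.leaf 302 2385 (.cons 345 (.leaf 344 2562 (.leaf 346 2570 .nil)) .nil)) .nil)) .nil)) (.cons 300 (.leaf 301 2377 (.cons 348 (.leaf 372 2207 (.leaf 349 2568 .nil)) .nil)) .nil)))) (.cons 324 (.cons 296 (.leaf 297 2371 (.cons 320 (.leaf 295 2363 (.cons 343 (.leaf 344 2554 (.cons 319 (.leaf 248 1982 (.leaf 342 2546 .nil)) .nil)) .nil)) .nil)) (.cons 345 (.leaf 344 2562 (.cons 325 (.leaf 346 2570 (.cons 349 (.leaf 348 2568 (.leaf 350 2576 .nil)) .nil)) .nil)) (.cons 296 (.leaf 297 2371 (.cons 320 (.leaf 295 2363 (.cons 345 (.leaf 248 1988 (.cons 325 (.leaf 346 2570 (.cons 349 (.leaf 348 2568 (.leaf 350 2576 .nil)) .nil)) .nil)) .nil)) .nil)) .nil))) (.cons 320 (.leaf 300 2369 (.cons 295 (.leaf 296 2363 (.cons 319 (.leaf 294 2355 (.cons 343 (.leaf 344 2554 (.leaf 342 2546 .nil))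 .nil)) .nil)) .nil)) (.cons 300 (.leaf 320 2369 (.cons 301 (.leaf 302 2386 (.leaf 324 2377 .nil)) .nil)) .nil))))
noncomputable def t23 : T := .cons 347 (.leaf 250 2007 (.cons 346 (.leaf 370 2198 (.cons 348 (.leaf 372 2204 (.cons 321 (.leaf 320 2560 (.leaf 349 2571 .nil)) .nil)) .nil)) .nil)) (.cons 321 t22 (.cons 347 (.leaf 250 2007 (.cons 346 (.leaf 370 2198 (.cons 348 (.leaf 372 2204 (.cons 349 (.leaf 350 2579 (.cons 325 (.leaf 326 2577 (.cons 324 (.leaf 345 2569 (.cons 301 (.leaf 302 2385 (.cons 277 (.leaf 253 2022 (.cons 373 (.leaf 374 2768 (.cons 397 (.leaf 421 2599 (.leaf 300 2407 .nil)) .nil)) .nil)) .nil)) .nil)) .nil)) .nil)) .nil)) .nil)) .nil)) (.cons 347 (.leaf 250 2007 (.cons 348 (.leaf 372 2204 (.cons 321 (.leaf 320 2560 (.cons 349 (.leaf 324 2568 (.leaf 350 2579 .nil)) .nil)) .nil)) .nil)) (.cons 347 (.leaf 250 2007 (.cons 371 (.cons 370 (.leaf 346 2198 (.leaf 394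 2390 .nil)) (.cons 396 (.leaf 372 2396 (.cons 395 (.leaf 420 2588 (.cons 300 (.leaf 324 2397 (.cons 301 (.leaf 302 2386 (.cons 320 (.leaf 321 2369 (.cons 418 (.leaf 394 2582 (.cons 419 (.leaf 346 2583 (.leaf 442 2774 .nil)) .nil)) .nil)) .nil)) .nil)) .nil)) .nil)) (.cons 394 (.leaf 370 2390 (.cons 395 (.leaf 418 2582 (.cons 396 (.leaf 372 2396 (.leaf 420 2588 .nil)) .nil)) .nil)) (.cons 346 (.leaf 370 2198 (.cons 372 (.leaf 396 2396 (.cons 345 (.leaf 344 2752 (.cons 324 (.leaf 325 2570 (.cons 395 (.leaf 300 2397 (.leaf 419 2583 .nil)) .nil)) .nil)) .nil)) .nil)) .nil)))) .nil)) (.cons 347 (.leaf 250 2007 (.cons 370 (.leaf 346 2198 (.cons 394 (.leaf 371 2390 (.cons 321 (.cons 300 (.leaf 320 2369 (.cons 301 (.leaf 302 2386 (.leaf 324 2377 .nil)) .nil)) (.cons 324 (.cons 296 (.leaf 297 2371 (.cons 301 (.leaf 300 2377 (.cons 325 (.leaf 302 2385 (.cons 349 (.leaf 348 2568 (.leaf 350 2576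 .nil)) .nil)) .nil)) .nil)) (.cons 297 (.leaf 296 2371 (.cons 345 (.leaf 344 2562 (.leaf 369 2380 .nil)) .nil)) (.cons 301 (.leaf 300 2377 (.cons 325 (.leaf 302 2385 (.cons 349 (.leaf 348 2568 (.leaf 350 2576 .nil)) .nil)) .nil)) .nil))) (.cons 320 (.leaf 348 2560 (.cons 295 (.leaf 296 2363 (.cons 319 (.leaf 294 2355 (.cons 343 (.leaf 344 2554 (.leaf 342 2546 .nil)) .nil)) .nil)) .nil)) .nil))) .nil)) .nil)) .nil)) .nil)))))
noncomputable def t24 : T := .cons 320 (.cons 295 (.leaf 296 2363 (.cons 319 (.leaf 294 2355 (.cons 343 (.leaf 344 2554 (.leaf 342 2546 .nil)) .nil)) .nil)) (.cons 299 (.leaf 300 2369 (.cons 319 (.leaf 298 2361 (.cons 343 (.leaf 344 2554 (.leaf 342 2546 .nil)) .nil)) .nil)) (.cons 295 (.leaf 296 2363 (.cons 299 (.leaf 300 2369 (.cons 319 (.leaf 294 2355 (.leaf 298 2361 .nil)) .nil)) .nil)) (.cons 296 (.leaf 295 2363 (.cons 297 (.leaf 324 2371 (.cons 248 (.leaf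 224 1796 (.cons 247 (.leaf 223 1791 (.cons 344 (.leaf 271 1983 (.leaf 343 2554 .nil)) .nil)) .nil)) .nil)) .nil)) .nil)))) (.cons 324 (.cons 300 (.leaf 301 2377 (.cons 299 (.leaf 320 2369 (.cons 345 (.leaf 344 2562 (.cons 298 (.leaf 250 1998 (.cons 325 (.leaf 297 2376 (.leaf 326 2387 .nil)) .nil)) .nil)) .nil)) .nil)) (.cons 300 (.leaf 301 2377 (.cons 299 (.leaf 320 2369 (.cons 348 (.leaf 372 2207 (.leaf 349 2568 .nil)) .nil)) .nil)) (.cons 345 (.leaf 344 2562 (.cons 250 (.leaf 298 1998 (.cons 325 (.leaf 346 2570 (.cons 349 (.leaf 348 2568 (.leaf 350 2576 .nil)) .nil)) .nil)) .nil)) .nil))) (.cons 324 (.cons 296 (.leaf 297 2371 (.cons 300 (.leaf 301 2377 (.cons 348 (.leaf 349 2568 (.cons 372 (.leaf 299 2207 (.cons 395 (.leaf 371 2398 (.cons 396 (.leaf 419 2590 (.cons 397 (.leaf 373 2404 (.leaf 421 2596 .nil)) .nil)) .nil)) .nil)) .nil)) .nil)) .nil)) (.cons 300 (.leaf 301 2377 (.cons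 345 (.leaf 344 2562 (.cons 325 (.leaf 346 2570 (.cons 349 (.leaf 348 2568 (.leaf 350 2576 .nil)) .nil)) .nil)) .nil)) (.cons 296 (.leaf 297 2371 (.cons 320 (.leaf 295 2363 (.cons 343 (.leaf 344 2554 (.cons 319 (.leaf 248 1982 (.leaf 342 2546 .nil)) .nil)) .nil)) .nil)) .nil))) (.cons 320 (.cons 295 (.leaf 296 2363 (.cons 299 (.leaf 300 2369 (.cons 344 (.leaf 343 2554 (.cons 324 (.leaf 345 2562 (.cons 349 (.leaf 348 2568 (.cons 325 (.leaf 350 2576 (.cons 302 (.leaf 301 2385 (.cons 326 (.leaf 298 2387 (.leaf 303 2393 .nil)) .nil)) .nil)) .nil)) .nil)) .nil)) .nil)) .nil)) (.cons 299 (.leaf 300 2369 (.cons 298 (.leaf 319 2361 (.cons 250 (.leaf 226 1812 (.leaf 345 1998 .nil)) .nil)) .nil)) (.cons 295 (.leaf 296 2363 (.cons 319 (.leaf 294 2355 (.cons 343 (.leaf 344 2554 (.leaf 342 2546 .nil)) .nil)) .nil)) .nil))) (.cons 324 (.cons 300 (.leaf 301 2377 (.cons 345 (.leaf 344 2562 (.cons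 325 (.leaf 346 2570 (.cons 349 (.leaf 348 2568 (.leaf 350 2576 .nil)) .nil)) .nil)) .nil)) (.cons 296 (.leaf 297 2371 (.cons 295 (.leaf 320 2363 (.cons 301 (.leaf 300 2377 (.cons 325 (.leaf 302 2385 (.cons 349 (.leaf 348 2568 (.leaf 350 2576 .nil)) .nil)) .nil)) .nil)) .nil)) (.cons 345 (.leaf 344 2562 (.cons 250 (.leaf 298 1998 (.cons 325 (.leaf 346 2570 (.cons 349 (.leaf 348 2568 (.leaf 350 2576 .nil)) .nil)) .nil)) .nil)) (.cons 345 (.leaf 344 2562 (.cons 250 (.leaf 298 1998 (.cons 296 (.leaf 297 2371 (.cons 320 (.leaf 248 1988 (.leaf 295 2363 .nil)) .nil)) .nil)) .nil)) .nil)))) (.cons 324 (.cons 296 (.leaf 297 2371 (.cons 295 (.leaf 320 2363 (.cons 349 (.leaf 348 2568 (.cons 325 (.leaf 350 2576 (.cons 302 (.leaf 301 2385 (.cons 326 (.leaf 303 2393 (.cons 254 (.leaf 278 2030 (.cons 298 (.leaf 299 2387 (.cons 345 (.leaf 250 1998 (.leaf 346 2570 .nil)) .nil)) .nil)) .nil)) .nil))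 .nil)) .nil)) .nil)) .nil)) (.cons 300 (.leaf 301 2377 (.cons 299 (.leaf 320 2369 (.cons 348 (.leaf 372 2207 (.leaf 349 2568 .nil)) .nil)) .nil)) (.cons 296 (.leaf 297 2371 (.cons 320 (.leaf 295 2363 (.cons 248 (.leaf 345 1988 (.cons 223 (.leaf 247 1791 (.cons 199 (.leaf 224 1599 (.cons 299 (.leaf 300 2369 (.cons 319 (.leaf 343 1982 (.leaf 298 2361 .nil)) .nil)) .nil)) .nil)) .nil)) .nil)) .nil)) (.cons 297 (.leaf 296 2371 (.cons 298 (.leaf 325 2379 (.cons 250 (.leaf 226 1806 (.leaf 345 1998 .nil)) .nil)) .nil)) .nil)))) (.cons 324 (.cons 345 (.leaf 344 2562 (.cons 250 (.leaf 298 1998 (.cons 325 (.leaf 346 2570 (.cons 349 (.leaf 348 2568 (.leaf 350 2576 .nil)) .nil)) .nil)) .nil)) (.cons 296 (.leaf 297 2371 (.cons 320 (.leaf 295 2363 (.cons 343 (.leaf 344 2554 (.cons 319 (.leaf 248 1982 (.leaf 342 2546 .nil)) .nil)) .nil)) .nil)) (.cons 297 (.leaf 296 2371 (.cons 298 (.leaf 325 2379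 (.cons 250 (.leaf 226 1806 (.leaf 345 1998 .nil)) .nil)) .nil)) .nil))) .nil))))))
noncomputable def t25 : T := .cons 324 (.cons 344 (.leaf 345 2562 (.cons 320 (.leaf 343 2554 (.cons 349 (.leaf 348 2568 (.cons 325 (.leaf 350 2576 (.cons 296 (.leaf 295 2363 (.leaf 297 2371 .nil)) .nil)) .nil)) .nil)) .nil)) (.cons 296 (.leaf 297 2371 (.cons 300 (.leaf 301 2377 (.cons 348 (.leaf 349 2568 (.cons 372 (.leaf 299 2207 (.cons 395 (.leaf 371 2398 (.cons 396 (.leaf 419 2590 (.cons 397 (.leaf 373 2404 (.leaf 421 2596 .nil)) .nil)) .nil)) .nil)) .nil)) .nil)) .nil)) (.cons 344 (.leaf 345 2562 (.cons 320 (.leaf 343 2554 (.cons 349 (.leaf 348 2568 (.cons 325 (.leaf 350 2576 (.cons 298 (.leaf 297 2379 (.cons 299 (.leaf 326 2387 (.leaf 300 2369 .nil)) .nil)) .nil)) .nil)) .nil)) .nil)) (.cons 345 (.leaf 344 2562 (.cons 250 (.leaf 298 1998 (.cons 325 (.leaf 346 2570 (.cons 301 (.leaf 300 2377 (.leaf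 302 2385 .nil)) .nil)) .nil)) .nil)) .nil)))) (.cons 320 (.cons 296 (.leaf 295 2363 (.cons 248 (.leaf 345 1988 (.cons 223 (.leaf 247 1791 (.cons 224 (.leaf 199 1599 (.leaf 297 1796 .nil)) .nil)) .nil)) .nil)) (.cons 299 (.leaf 300 2369 (.cons 298 (.leaf 319 2361 (.cons 250 (.leaf 226 1812 (.leaf 345 1998 .nil)) .nil)) .nil)) (.cons 299 (.leaf 300 2369 (.cons 319 (.leaf 298 2361 (.cons 343 (.leaf 344 2554 (.leaf 342 2546 .nil)) .nil)) .nil)) .nil))) (.cons 324 (.cons 296 (.leaf 297 2371 (.cons 300 (.leaf 301 2377 (.cons 348 (.leaf 349 2568 (.cons 372 (.leaf 299 2207 (.cons 395 (.leaf 371 2398 (.cons 396 (.leaf 419 2590 (.cons 397 (.leaf 373 2404 (.leaf 421 2596 .nil)) .nil)) .nil)) .nil)) .nil)) .nil)) .nil)) (.cons 345 (.leaf 344 2562 (.cons 250 (.leaf 298 1998 (.cons 325 (.leaf 346 2570 (.cons 301 (.leaf 300 2377 (.leaf 302 2385 .nil)) .nil)) .nil)) .nil)) (.cons 345 (.leaf 344 2562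 (.cons 250 (.leaf 298 1998 (.cons 325 (.leaf 346 2570 (.cons 349 (.leaf 348 2568 (.leaf 350 2576 .nil)) .nil)) .nil)) .nil)) .nil))) t24))
noncomputable def t26 : T := .cons 250 (.leaf 299 2007 (.leaf 298 2004 .nil)) (.cons 298 (.leaf 250 2004 (.cons 371 (.leaf 346 2196 (.leaf 395 2391 .nil)) .nil)) (.cons 299 (.leaf 250 2007 (.cons 348 (.leaf 372 2204 (.cons 346 (.leaf 370 2198 (.cons 321 (.leaf 320 2560 (.leaf 349 2571 .nil)) .nil)) .nil)) .nil)) (.cons 299 (.cons 348 (.leaf 372 2204 (.cons 346 (.leaf 370 2198 (.cons 321 (.leaf 320 2560 (.leaf 349 2571 .nil)) .nil)) .nil)) (.cons 348 (.leaf 372 2204 (.cons 349 (.leaf 350 2579 (.cons 371 (.leaf 298 2199 (.cons 394 (.leaf 370 2390 (.cons 395 (.leaf 418 2582 (.cons 324 (.leaf 300 2397 (.leaf 321 2568 .nil)) .nil)) .nil)) .nil)) .nil)) .nil)) (.cons 371 (.leaf 298 2199 (.cons 394 (.leaf 370 2390 (.cons 395 (.leaf 418 2582 (.cons 396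 (.leaf 372 2396 (.leaf 420 2588 .nil)) .nil)) .nil)) .nil)) (.cons 348 (.leaf 372 2204 (.cons 321 (.leaf 320 2560 (.cons 349 (.leaf 324 2568 (.leaf 350 2579 .nil)) .nil)) .nil)) (.cons 371 (.leaf 298 2199 (.cons 394 (.leaf 370 2390 (.cons 395 (.leaf 418 2582 (.cons 324 (.leaf 300 2397 (.cons 348 (.leaf 419 2589 (.cons 321 (.leaf 320 2560 (.leaf 349 2568 .nil)) .nil)) .nil)) .nil)) .nil)) .nil)) .nil))))) .nil)))
noncomputable def t27 : T := .cons 347 t26 (.cons 321 t25 (.cons 299 t23 (.cons 298 t21 (.cons 347 t19 (.cons 321 (t18) (.cons 347 (.cons 299 (.leaf 250 2007 (.cons 371 (.leaf 298 2199 (.cons 370 (.leaf 346 2198 (.leaf 394 2390 .nil)) .nil)) .nil)) (.cons 298 (.leaf 250 2004 (.cons 371 (.leaf 346 2196 (.leaf 395 2391 .nil)) .nil)) (.cons 299 (.leaf 250 2007 (.cons 346 (.leaf 370 2198 (.cons 348 (.leaf 372 2204 (.cons 321 (.leaf 320 2560 (.leaf 349 2571 .nil)) .nil)) .nil))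 .nil)) (.cons 299 (.cons 371 (.leaf 298 2199 (.cons 370 (.leaf 346 2198 (.leaf 394 2390 .nil)) .nil)) (.cons 371 (.leaf 298 2199 (.cons 394 (.leaf 370 2390 (.cons 395 (.leaf 418 2582 (.cons 396 (.leaf 372 2396 (.leaf 420 2588 .nil)) .nil)) .nil)) .nil)) (.cons 346 (.leaf 370 2198 (.cons 348 (.leaf 372 2204 (.cons 321 (.leaf 320 2560 (.leaf 349 2571 .nil)) .nil)) .nil)) (.cons 371 (.leaf 298 2199 (.cons 372 (.leaf 348 2204 (.leaf 396 2396 .nil)) .nil)) .nil)))) (.cons 250 (.leaf 299 2007 (.leaf 298 2004 .nil)) .nil))))) (.cons 347 (.cons 299 (.leaf 250 2007 (.cons 348 (.leaf 372 2204 (.cons 321 (.leaf 320 2560 (.cons 349 (.leaf 324 2568 (.leaf 350 2579 .nil)) .nil)) .nil)) .nil)) (.cons 299 (.cons 348 (.leaf 372 2204 (.cons 321 (.leaf 320 2560 (.cons 349 (.leaf 324 2568 (.leaf 350 2579 .nil)) .nil)) .nil)) (.cons 371 (.leaf 298 2199 (.cons 394 (.leaf 370 2390 (.cons 395 (.leaf 418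 2582 (.cons 396 (.leaf 372 2396 (.leaf 420 2588 .nil)) .nil)) .nil)) .nil)) (.cons 371 (.leaf 298 2199 (.cons 394 (.leaf 370 2390 (.cons 395 (.leaf 418 2582 (.cons 324 (.leaf 300 2397 (.cons 348 (.leaf 419 2589 (.cons 321 (.leaf 320 2560 (.leaf 349 2568 .nil)) .nil)) .nil)) .nil)) .nil)) .nil)) .nil))) (.cons 298 (.leaf 250 2004 (.cons 371 (.leaf 395 2391 (.cons 321 t17 .nil)) .nil)) (.cons 250 (.leaf 299 2007 (.leaf 298 2004 .nil)) .nil)))) (.cons 298 (.cons 250 (.leaf 347 2004 (.cons 321 (.leaf 345 1998 (.cons 297 (.leaf 226 1806 (.cons 296 (.leaf 295 2360 (.leaf 324 2371 .nil)) .nil)) .nil)) .nil)) (.cons 346 (.cons 370 (.leaf 299 2197 (.cons 393 (.leaf 369 2382 (.cons 394 (.leaf 417 2574 (.cons 395 (.leaf 371 2388 (.leaf 419 2580 .nil)) .nil)) .nil)) .nil)) (.cons 345 (.leaf 369 2190 (.cons 324 (.leaf 325 2570 (.cons 344 (.leaf 321 2562 (.leaf 343 2553 .nil)) .nil)) .nil)) (.cons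 370 (.leaf 299 2197 (.cons 395 (.leaf 371 2388 (.cons 394 (.leaf 419 2580 (.cons 321 (.leaf 297 2383 (.cons 345 (.leaf 250 1998 (.leaf 418 2575 .nil)) .nil)) .nil)) .nil)) .nil)) .nil))) (.cons 346 (.cons 370 (.leaf 299 2197 (.cons 371 (.leaf 347 2196 (.leaf 395 2388 .nil)) .nil)) (.cons 345 (.leaf 369 2190 (.cons 324 (.leaf 325 2570 (.cons 344 (.leaf 321 2562 (.leaf 343 2553 .nil)) .nil)) .nil)) .nil)) (.cons 347 (.leaf 250 2004 (.cons 371 (.leaf 299 2199 (.leaf 346 2196 .nil)) .nil)) .nil)))) (.cons 347 t16 .nil)))))))))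
noncomputable def t28 : T := .cons 250 (.leaf 347 2007 (.cons 226 (.leaf 202 1620 (.leaf 251 1815 .nil)) .nil)) (.cons 251 (.cons 250 (.leaf 226 1815 (.cons 252 (.leaf 228 1821 (.cons 253 (.leaf 254 2002 (.cons 229 (.leaf 230 1809 (.cons 277 (.leaf 278 2000 (.cons 322 (.leaf 346 2006 (.cons 324 (.leaf 348 2012 (.cons 301 (.leaf 300 1830 (.cons 302 (.leaf 325 2385 (.leaf 326 1836 .nil)) .nil)) .nil)) .nil)) .nil)) .nil)) .nil)) .nil)) .nil)) (.cons 324 (.leaf 348 2012 (.cons 227 (.leaf 300 1820 (.cons 228 (.leaf 204 1629 (.leaf 252 1821 .nil)) .nil)) .nil)) (.cons 226 (.leaf 250 1815 (.cons 227 (.leaf 202 1623 (.cons 228 (.leaf 204 1629 (.leaf 252 1821 .nil)) .nil)) .nil)) (.cons 226 (.leaf 250 1815 (.cons 227 (.leaf 202 1623 (.cons 324 (.leaf 300 1820 (.leaf 348 2012 .nil)) .nil)) .nil)) .nil)))) (.cons 346 (.cons 347 (.leaf 370 2198 (.cons 348 (.leaf 372 2204 (.cons 324 (.leaf 251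 2012 (.cons 325 (.leaf 326 2578 (.leaf 345 2569 .nil)) .nil)) .nil)) .nil)) (.cons 251 (.leaf 322 2006 (.cons 228 (.leaf 252 1821 (.cons 227 (.leaf 204 1629 (.cons 324 (.leaf 300 1820 (.leaf 348 2012 .nil)) .nil)) .nil)) .nil)) (.cons 347 (.leaf 370 2198 (.cons 348 (.leaf 372 2204 (.cons 345 (.cons 320 (.leaf 321 2563 (.cons 344 (.leaf 324 2561 (.leaf 319 2555 .nil)) .nil)) (.cons 320 (.leaf 321 2563 (.cons 344 (.leaf 319 2555 (.cons 368 (.leaf 367 2746 (.leaf 369 2754 .nil)) .nil)) .nil)) (.cons 320 (.leaf 321 2563 (.cons 325 (.leaf 324 2569 (.cons 349 (.leaf 326 2577 (.cons 350 (.leaf 322 2579 (.cons 374 (.leaf 373 2768 (.leaf 375 2776 .nil)) .nil)) .nil)) .nil)) .nil)) (.cons 324 (.leaf 344 2561 (.leaf 325 2569 .nil)) .nil)))) .nil)) .nil)) (.cons 322 (.leaf 251 2006 (.cons 370 (.leaf 347 2198 (.leaf 394 2389 .nil)) .nil)) .nil)))) (.cons 347 (.leaf 250 2007 (.cons 370 (.leaf 346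 2198 (.cons 371 (.leaf 394 2390 (.cons 372 (.leaf 348 2204 (.leaf 396 2396 .nil)) .nil)) .nil)) .nil)) .nil)))
noncomputable def t29 : T := .cons 347 (.leaf 370 2198 (.cons 298 (.leaf 371 2199 (.cons 251 (.leaf 322 2005 (.cons 227 (.leaf 203 1622 (.cons 228 (.leaf 204 1629 (.leaf 252 1821 .nil)) .nil)) .nil)) .nil)) .nil)) (.cons 347 (.leaf 370 2198 (.cons 298 (.leaf 371 2199 (.cons 297 (.cons 296 (.leaf 295 2169 (.leaf 271 2171 .nil)) (.cons 321 (.cons 320 (.leaf 300 2370 (.cons 319 (.leaf 318 2353 (.cons 345 (.leaf 369 2189 (.leaf 344 2555 .nil)) .nil)) .nil)) (.cons 345 (.leaf 369 2189 (.cons 344 (.leaf 324 2561 (.cons 319 (.leaf 320 2555 (.cons 343 (.leaf 318 2547 (.cons 367 (.leaf 366 2738 (.leaf 368 2746 .nil)) .nil)) .nil)) .nil)) .nil)) (.cons 300 (.leaf 320 2370 (.cons 301 (.leaf 302 2195 (.cons 325 (.leaf 324 2376 (.leaf 326 2384 .nil)) .nil)) .nil)) (.cons 345 (.leaf 369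 2189 (.cons 324 (.leaf 344 2561 (.cons 325 (.leaf 326 2578 (.leaf 300 2376 .nil)) .nil)) .nil)) .nil)))) .nil)) .nil)) .nil)) (.cons 251 (.leaf 322 2006 (.cons 228 (.leaf 252 1821 (.cons 227 (.leaf 204 1629 (.cons 202 (.leaf 226 1623 (.cons 203 (.leaf 178 1431 (.leaf 298 1622 .nil)) .nil)) .nil)) .nil)) .nil)) (.cons 322 (.leaf 251 2006 (.cons 370 (.leaf 347 2198 (.leaf 394 2389 .nil)) .nil)) .nil)))
noncomputable def t30 : T := .cons 252 (.leaf 228 1821 (.cons 253 (.leaf 254 2002 (.cons 324 (.leaf 348 2012 (.cons 227 (.leaf 300 1820 (.cons 298 (.leaf 203 1622 (.leaf 322 1814 .nil)) .nil)) .nil)) .nil)) .nil)) (.cons 228 (.leaf 252 1821 (.cons 227 (.leaf 204 1629 (.cons 298 (.leaf 203 1622 (.leaf 322 1814 .nil)) .nil)) .nil)) (.cons 252 (.leaf 228 1821 (.cons 253 (.leaf 254 2002 (.cons 347 (.cons 298 (.leaf 371 2199 (.cons 348 (.leaf 324 2012 (.leaf 372 2204 .nil)) .nil)) (.cons 371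 (.leaf 298 2199 (.cons 394 (.leaf 370 2390 (.cons 395 (.leaf 418 2582 (.cons 396 (.leaf 372 2396 (.leaf 420 2588 .nil)) .nil)) .nil)) .nil)) (.cons 348 (.leaf 324 2012 (.leaf 372 2204 .nil)) (.cons 371 (.leaf 298 2199 (.cons 324 (.leaf 348 2012 (.cons 394 (.leaf 370 2390 (.cons 395 (.leaf 300 2397 (.leaf 418 2582 .nil)) .nil)) .nil)) .nil)) .nil)))) .nil)) .nil)) (.cons 324 (.leaf 348 2012 (.cons 227 (.leaf 300 1820 (.cons 298 (.leaf 203 1622 (.leaf 322 1814 .nil)) .nil)) .nil)) (.cons 324 (.leaf 348 2012 (.cons 227 (.leaf 300 1820 (.cons 228 (.leaf 204 1629 (.leaf 252 1821 .nil)) .nil)) .nil)) .nil))))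
noncomputable def t31 : T := .cons 251 (.leaf 322 2006 (.cons 228 (.leaf 252 1821 (.cons 347 (.leaf 370 2198 (.cons 348 (.leaf 324 2012 (.leaf 372 2204 .nil)) .nil)) .nil)) .nil)) (.cons 251 (.leaf 322 2006 (.cons 228 (.leaf 252 1821 (.cons 227 (.leaf 204 1629 (.cons 324 (.leaf 300 1820 (.leaf 348 2012 .nil)) .nil)) .nil)) .nil)) (.cons 347 (.leaf 370 2198 (.cons 348 (.leaf 372 2204 (.cons 345 (.cons 320 (.leaf 321 2563 (.cons 344 (.leaf 324 2561 (.leaf 319 2555 .nil)) .nil)) (.cons 320 (.leaf 321 2563 (.cons 344 (.leaf 319 2555 (.cons 368 (.leaf 367 2746 (.leaf 369 2754 .nil)) .nil)) .nil)) (.cons 320 (.leaf 321 2563 (.cons 325 (.leaf 324 2569 (.cons 349 (.leaf 326 2577 (.cons 350 (.leaf 322 2579 (.cons 374 (.leaf 373 2768 (.leaf 375 2776 .nil)) .nil)) .nil)) .nil)) .nil)) (.cons 324 (.leaf 344 2561 (.leaf 325 2569 .nil)) .nil)))) .nil)) .nil)) (.cons 347 (.leaf 370 2198 (.cons 348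 (.leaf 372 2204 (.cons 324 (.leaf 251 2012 (.cons 325 (.leaf 326 2578 (.leaf 345 2569 .nil)) .nil)) .nil)) .nil)) (.cons 322 (.leaf 251 2006 (.cons 370 (.leaf 347 2198 (.leaf 394 2389 .nil)) .nil)) .nil))))
noncomputable def t32 : T := .cons 346 (.leaf 370 2198 (.cons 348 (.leaf 372 2204 (.cons 345 (.cons 320 (.leaf 321 2563 (.cons 344 (.leaf 324 2561 (.leaf 319 2555 .nil)) .nil)) (.cons 320 (.leaf 321 2563 (.cons 344 (.leaf 319 2555 (.cons 368 (.leaf 367 2746 (.leaf 369 2754 .nil)) .nil)) .nil)) (.cons 324 (.leaf 344 2561 (.leaf 325 2569 .nil)) (.cons 320 (.leaf 321 2563 (.cons 325 (.leaf 324 2569 (.cons 349 (.leaf 326 2577 (.cons 322 (.leaf 350 2579 (.cons 369 (.leaf 298 2190 (.leaf 368 2754 .nil)) .nil)) .nil)) .nil)) .nil)) .nil)))) .nil)) .nil)) (.cons 371 (.leaf 298 2199 (.cons 372 (.leaf 348 2204 (.leaf 396 2396 .nil)) .nil)) (.cons 371 (.leaf 298 2199 (.cons 370 (.leaf 346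 2198 (.leaf 394 2390 .nil)) .nil)) (.cons 346 (.leaf 370 2198 (.cons 348 (.leaf 372 2204 (.cons 345 (.cons 320 (.leaf 321 2563 (.cons 344 (.leaf 324 2561 (.leaf 319 2555 .nil)) .nil)) (.cons 320 (.leaf 321 2563 (.cons 344 (.leaf 319 2555 (.cons 368 (.leaf 367 2746 (.leaf 369 2754 .nil)) .nil)) .nil)) (.cons 320 (.leaf 321 2563 (.cons 325 (.leaf 324 2569 (.cons 349 (.leaf 326 2577 (.cons 350 (.leaf 322 2579 (.cons 374 (.leaf 373 2768 (.leaf 375 2776 .nil)) .nil)) .nil)) .nil)) .nil)) (.cons 324 (.leaf 344 2561 (.leaf 325 2569 .nil)) .nil)))) .nil)) .nil)) .nil)))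
noncomputable def t33 : T := .cons 347 (.cons 346 (.leaf 370 2198 (.cons 348 (.leaf 372 2204 (.cons 324 (.leaf 251 2012 (.cons 325 (.leaf 326 2578 (.leaf 345 2569 .nil)) .nil)) .nil)) .nil)) (.cons 371 (.leaf 298 2199 (.cons 394 (.leaf 370 2390 (.cons 395 (.leaf 418 2582 (.cons 396 (.leaf 372 2396 (.leaf 420 2588 .nil)) .nil)) .nil)) .nil)) (.cons 346 (.leaf 370 2198 (.cons 251 (.leaf 322 2006 (.cons 228 (.leaf 252 1821 (.cons 227 (.leaf 204 1629 (.cons 202 (.leaf 226 1623 (.cons 324 (.leaf 300 1820 (.leaf 348 2012 .nil)) .nil)) .nil)) .nil)) .nil)) .nil)) (.cons 371 (.leaf 298 2199 (.cons 372 (.leaf 348 2204 (.leaf 396 2396 .nil)) .nil)) .nil)))) (.cons 347 t32 (.cons 251 (.cons 322 (.leaf 346 2006 (.cons 227 (.leaf 298 1814 (.cons 324 (.leaf 300 1820 (.leaf 348 2012 .nil)) .nil)) .nil)) (.cons 324 (.leaf 348 2012 (.cons 227 (.leaf 300 1820 (.cons 228 (.leaf 204 1629 (.leaf 252 1821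 .nil)) .nil)) .nil)) (.cons 322 (.leaf 346 2006 (.cons 227 (.leaf 298 1814 (.cons 228 (.leaf 204 1629 (.leaf 252 1821 .nil)) .nil)) .nil)) (.cons 322 (.leaf 346 2006 (.cons 324 (.leaf 348 2012 (.cons 252 (.leaf 228 1821 (.cons 253 (.leaf 254 2002 (.cons 300 (.cons 301 (.leaf 302 2386 (.leaf 321 2377 .nil)) (.cons 321 (.leaf 320 2369 (.cons 297 (.leaf 296 2371 (.cons 298 (.leaf 325 2376 (.cons 345 (.leaf 369 2189 (.leaf 344 2562 .nil)) .nil)) .nil)) .nil)) (.cons 301 (.leaf 302 2386 (.cons 277 (.leaf 229 1830 (.cons 298 (.leaf 278 2193 (.cons 325 (.leaf 297 2376 (.leaf 326 2384 .nil)) .nil)) .nil)) .nil)) .nil))) .nil)) .nil)) .nil)) .nil)) .nil)))) (.cons 346 t31 (.cons 347 (.cons 371 (.leaf 298 2199 (.cons 394 (.leaf 370 2390 (.cons 395 (.leaf 418 2582 (.cons 396 (.leaf 372 2396 (.leaf 420 2588 .nil)) .nil)) .nil)) .nil)) (.cons 346 (.leaf 370 2198 (.cons 348 (.leaf 372 2204 (.cons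 324 (.leaf 251 2012 (.cons 325 (.leaf 326 2578 (.leaf 345 2569 .nil)) .nil)) .nil)) .nil)) (.cons 371 (.leaf 298 2199 (.cons 394 (.leaf 370 2390 (.cons 395 (.leaf 418 2582 (.cons 324 (.leaf 300 2397 (.cons 348 (.leaf 251 2012 (.leaf 419 2589 .nil)) .nil)) .nil)) .nil)) .nil)) (.cons 371 (.leaf 298 2199 (.cons 372 (.leaf 348 2204 (.leaf 396 2396 .nil)) .nil)) .nil)))) (.cons 251 t30 (.cons 347 (.cons 298 (.leaf 371 2199 (.cons 346 (.leaf 370 2198 (.cons 348 (.leaf 372 2204 (.cons 345 (.cons 320 (.leaf 321 2563 (.cons 319 (.leaf 344 2555 (.cons 296 (.leaf 297 2362 (.cons 248 (.leaf 343 1982 (.cons 223 (.leaf 247 1791 (.cons 224 (.leaf 199 1599 (.leaf 295 1790 .nil)) .nil)) .nil)) .nil)) .nil)) .nil)) (.cons 344 (.cons 368 (.leaf 367 2746 (.leaf 369 2754 .nil)) (.cons 319 (.leaf 320 2555 (.cons 343 (.leaf 322 2553 (.leaf 318 2547 .nil)) .nil)) .nil)) (.cons 369 (.leaf 322 2190 (.leaf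 368 2754 .nil)) .nil))) .nil)) .nil)) .nil)) (.cons 346 (.leaf 370 2198 (.cons 322 (.leaf 251 2006 (.cons 348 (.leaf 372 2204 (.cons 321 (.leaf 320 2560 (.leaf 349 2571 .nil)) .nil)) .nil)) .nil)) (.cons 371 (.leaf 298 2199 (.cons 372 (.leaf 348 2204 (.leaf 396 2396 .nil)) .nil)) (.cons 298 (.leaf 371 2199 (.cons 346 (.leaf 370 2198 (.cons 251 (.leaf 322 2005 (.cons 227 (.leaf 203 1622 (.cons 228 (.leaf 204 1629 (.leaf 252 1821 .nil)) .nil)) .nil)) .nil)) .nil)) .nil)))) (.cons 346 t29 .nil)))))))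
noncomputable def t34 : T := .cons 299 (.leaf 251 2006 (.cons 370 (.leaf 298 2197 (.leaf 394 2389 .nil)) .nil)) (.cons 298 (.cons 370 (.leaf 299 2197 (.cons 393 (.leaf 369 2382 (.cons 394 (.leaf 417 2574 (.cons 395 (.leaf 371 2388 (.leaf 419 2580 .nil)) .nil)) .nil)) .nil)) (.cons 345 (.leaf 369 2190 (.cons 324 (.leaf 325 2570 (.cons 344 (.leaf 321 2562 (.leaf 343 2553 .nil)) .nil)) .nil)) (.cons 370 (.leaf 299 2197 (.cons 395 (.leaf 371 2388 (.cons 394 (.leaf 419 2580 (.cons 321 (.leaf 297 2383 (.cons 345 (.leaf 418 2575 (.cons 344 (.leaf 324 2562 (.leaf 343 2553 .nil)) .nil)) .nil)) .nil)) .nil)) .nil)) .nil))) (.cons 299 (.leaf 251 2006 (.cons 370 (.leaf 394 2389 (.cons 324 (.cons 325 (.leaf 345 2570 (.cons 301 (.leaf 302 2385 (.cons 300 (.leaf 321 2377 (.cons 326 (.leaf 327 2395 (.cons 350 (.leaf 349 2576 (.leaf 351 2584 .nil)) .nil)) .nil)) .nil)) .nil)) (.cons 321 (.cons 296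 (.leaf 297 2371 (.cons 300 (.leaf 320 2369 (.leaf 301 2377 .nil)) .nil)) (.cons 296 (.leaf 297 2371 (.cons 320 (.leaf 295 2363 (.cons 343 (.leaf 344 2554 (.cons 319 (.leaf 248 1982 (.leaf 342 2546 .nil)) .nil)) .nil)) .nil)) (.cons 296 (.leaf 297 2371 (.cons 300 (.leaf 301 2377 (.cons 348 (.leaf 372 2207 (.leaf 349 2568 .nil)) .nil)) .nil)) (.cons 300 (.leaf 320 2369 (.leaf 301 2377 .nil)) .nil)))) (.cons 325 (.leaf 345 2570 (.cons 302 (.leaf 301 2385 (.cons 326 (.leaf 303 2393 (.cons 350 (.leaf 349 2576 (.leaf 351 2584 .nil)) .nil)) .nil)) .nil)) (.cons 345 (.leaf 325 2570 (.cons 344 (.leaf 321 2562 (.leaf 343 2553 .nil)) .nil)) .nil)))) .nil)) .nil)) (.cons 298 (.leaf 251 2005 (.cons 345 (.leaf 369 2190 (.cons 324 (.leaf 325 2570 (.cons 344 (.leaf 321 2562 (.leaf 343 2553 .nil)) .nil)) .nil)) .nil)) .nil)))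
noncomputable def t35 : T := .cons 320 (.cons 295 (.leaf 296 2363 (.cons 299 (.leaf 300 2369 (.cons 319 (.leaf 294 2355 (.leaf 298 2361 .nil)) .nil)) .nil)) (.cons 299 (.leaf 300 2369 (.cons 319 (.leaf 298 2361 (.cons 343 (.leaf 344 2554 (.leaf 342 2546 .nil)) .nil)) .nil)) (.cons 296 (.leaf 295 2363 (.cons 248 (.leaf 345 1988 (.cons 223 (.leaf 247 1791 (.cons 224 (.leaf 199 1599 (.leaf 297 1796 .nil)) .nil)) .nil)) .nil)) .nil))) (.cons 324 (.cons 297 (.leaf 296 2371 (.cons 298 (.leaf 325 2379 (.cons 250 (.leaf 226 1806 (.leaf 345 1998 .nil)) .nil)) .nil)) (.cons 300 (.leaf 301 2377 (.cons 344 (.leaf 345 2562 (.cons 348 (.leaf 349 2568 (.cons 299 (.leaf 251 2012 (.leaf 372 2207 .nil)) .nil)) .nil)) .nil)) (.cons 296 (.leaf 297 2371 (.cons 300 (.leaf 301 2377 (.cons 348 (.leaf 349 2568 (.cons 372 (.leaf 299 2207 (.cons 395 (.leaf 371 2398 (.cons 396 (.leaf 419 2590 (.cons 397 (.leaf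 373 2404 (.leaf 421 2596 .nil)) .nil)) .nil)) .nil)) .nil)) .nil)) .nil)) .nil))) (.cons 324 (.cons 344 (.leaf 345 2562 (.cons 320 (.leaf 343 2554 (.cons 349 (.leaf 348 2568 (.cons 325 (.leaf 350 2576 (.cons 298 (.leaf 297 2379 (.cons 299 (.leaf 326 2387 (.leaf 300 2369 .nil)) .nil)) .nil)) .nil)) .nil)) .nil)) (.cons 344 (.leaf 345 2562 (.cons 320 (.leaf 343 2554 (.cons 349 (.leaf 348 2568 (.cons 325 (.leaf 350 2576 (.cons 298 (.leaf 297 2379 (.cons 299 (.leaf 326 2387 (.leaf 319 2361 .nil)) .nil)) .nil)) .nil)) .nil)) .nil)) (.cons 300 (.leaf 301 2377 (.cons 345 (.leaf 344 2562 (.cons 298 (.leaf 250 1998 (.cons 297 (.leaf 369 2189 (.leaf 325 2379 .nil)) .nil)) .nil)) .nil)) (.cons 300 (.leaf 301 2377 (.cons 299 (.leaf 320 2369 (.cons 348 (.leaf 251 2012 (.leaf 372 2207 .nil)) .nil)) .nil)) .nil)))) (.cons 324 (.cons 296 (.leaf 297 2371 (.cons 320 (.leaf 295 2363 (.cons 343 (.leaf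 344 2554 (.cons 319 (.leaf 248 1982 (.leaf 342 2546 .nil)) .nil)) .nil)) .nil)) (.cons 300 (.leaf 301 2377 (.cons 299 (.leaf 320 2369 (.cons 348 (.leaf 251 2012 (.leaf 372 2207 .nil)) .nil)) .nil)) (.cons 296 (.leaf 297 2371 (.cons 300 (.leaf 301 2377 (.cons 348 (.leaf 349 2568 (.cons 372 (.leaf 299 2207 (.cons 395 (.leaf 371 2398 (.cons 396 (.leaf 419 2590 (.cons 397 (.leaf 373 2404 (.leaf 421 2596 .nil)) .nil)) .nil)) .nil)) .nil)) .nil)) .nil)) .nil))) (.cons 324 (.cons 301 (.leaf 300 2377 (.cons 325 (.leaf 302 2385 (.cons 349 (.leaf 348 2568 (.leaf 350 2576 .nil)) .nil)) .nil)) (.cons 296 (.leaf 297 2371 (.cons 320 (.leaf 295 2363 (.cons 343 (.leaf 344 2554 (.cons 319 (.leaf 248 1982 (.leaf 342 2546 .nil)) .nil)) .nil)) .nil)) .nil)) (.cons 320 (.cons 299 (.leaf 300 2369 (.cons 319 (.leaf 298 2361 (.cons 343 (.leaf 344 2554 (.leaf 342 2546 .nil)) .nil)) .nil)) (.cons 295 (.leaf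 296 2363 (.cons 319 (.leaf 294 2355 (.cons 343 (.leaf 344 2554 (.leaf 342 2546 .nil)) .nil)) .nil)) (.cons 299 (.leaf 300 2369 (.cons 298 (.leaf 319 2361 (.cons 250 (.leaf 226 1812 (.leaf 345 1998 .nil)) .nil)) .nil)) (.cons 295 (.leaf 296 2363 (.cons 299 (.leaf 300 2369 (.cons 344 (.leaf 343 2554 (.cons 324 (.leaf 345 2562 (.cons 349 (.leaf 348 2568 (.cons 325 (.leaf 350 2576 (.cons 302 (.leaf 301 2385 (.cons 326 (.leaf 298 2387 (.leaf 303 2393 .nil)) .nil)) .nil)) .nil)) .nil)) .nil)) .nil)) .nil)) .nil)))) (.cons 324 (.cons 344 (.leaf 345 2562 (.cons 320 (.leaf 343 2554 (.cons 349 (.leaf 348 2568 (.cons 325 (.leaf 350 2576 (.cons 296 (.leaf 295 2363 (.leaf 297 2371 .nil)) .nil)) .nil)) .nil)) .nil)) (.cons 345 (.leaf 344 2562 (.cons 298 (.leaf 250 1998 (.cons 369 (.leaf 297 2189 (.leaf 393 2381 .nil)) .nil)) .nil)) (.cons 345 (.leaf 344 2562 (.cons 298 (.leaf 250 1998 (.cons 348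 (.leaf 349 2568 (.cons 299 (.leaf 251 2012 (.cons 320 (.leaf 319 2361 (.cons 296 (.leaf 248 1988 (.leaf 295 2363 .nil)) .nil)) .nil)) .nil)) .nil)) .nil)) (.cons 296 (.leaf 297 2371 (.cons 320 (.leaf 295 2363 (.cons 343 (.leaf 344 2554 (.cons 319 (.leaf 248 1982 (.leaf 342 2546 .nil)) .nil)) .nil)) .nil)) (.cons 297 (.leaf 296 2371 (.cons 298 (.leaf 325 2379 (.cons 250 (.leaf 226 1806 (.leaf 345 1998 .nil)) .nil)) .nil)) .nil))))) (.cons 324 (.cons 297 (.leaf 296 2371 (.cons 298 (.leaf 325 2379 (.cons 250 (.leaf 226 1806 (.leaf 345 1998 .nil)) .nil)) .nil)) (.cons 300 (.leaf 301 2377 (.cons 299 (.leaf 320 2369 (.cons 348 (.leaf 251 2012 (.leaf 372 2207 .nil)) .nil)) .nil)) .nil)) .nil)))))))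
noncomputable def t36 : T := .cons 320 (.leaf 300 2369 (.cons 295 (.leaf 296 2363 (.cons 319 (.leaf 294 2355 (.cons 343 (.leaf 344 2554 (.leaf 342 2546 .nil)) .nil)) .nil)) .nil)) (.cons 324 (.cons 296 (.leaf 297 2371 (.cons 300 (.leaf 301 2377 (.cons 345 (.leaf 344 2562 (.cons 325 (.leaf 346 2570 (.cons 326 (.leaf 327 2395 (.cons 348 (.leaf 372 2207 (.leaf 349 2568 .nil)) .nil)) .nil)) .nil)) .nil)) .nil)) (.cons 348 (.leaf 349 2568 (.cons 372 (.leaf 300 2207 (.leaf 396 2399 .nil)) .nil)) (.cons 345 (.leaf 344 2562 (.cons 325 (.leaf 346 2570 (.cons 349 (.leaf 348 2568 (.leaf 350 2576 .nil)) .nil)) .nil)) (.cons 296 (.leaf 297 2371 (.cons 300 (.leaf 301 2377 (.cons 345 (.leaf 344 2562 (.cons 325 (.leaf 346 2570 (.cons 326 (.leaf 327 2395 (.cons 350 (.leaf 349 2576 (.leaf 351 2584 .nil)) .nil)) .nil)) .nil)) .nil)) .nil)) (.cons 296 (.leaf 297 2371 (.cons 301 (.leaf 300 2377 (.cons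 325 (.leaf 302 2385 (.cons 345 (.leaf 344 2562 (.leaf 346 2570 .nil)) .nil)) .nil)) .nil)) .nil))))) (.cons 324 (.cons 296 (.leaf 297 2371 (.cons 320 (.leaf 295 2363 (.cons 343 (.leaf 344 2554 (.cons 319 (.leaf 248 1982 (.leaf 342 2546 .nil)) .nil)) .nil)) .nil)) (.cons 345 (.leaf 344 2562 (.cons 325 (.leaf 346 2570 (.cons 349 (.leaf 348 2568 (.leaf 350 2576 .nil)) .nil)) .nil)) (.cons 296 (.leaf 297 2371 (.cons 320 (.leaf 295 2363 (.cons 345 (.leaf 248 1988 (.cons 325 (.leaf 346 2570 (.cons 349 (.leaf 348 2568 (.leaf 350 2576 .nil)) .nil)) .nil)) .nil)) .nil)) .nil))) (.cons 300 (.leaf 320 2369 (.cons 301 (.leaf 302 2386 (.leaf 324 2377 .nil)) .nil)) .nil)))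
noncomputable def t37 : T := .cons 321 (.cons 320 (.leaf 300 2369 (.cons 295 (.leaf 296 2363 (.cons 319 (.leaf 294 2355 (.cons 343 (.leaf 344 2554 (.leaf 342 2546 .nil)) .nil)) .nil)) .nil)) (.cons 324 (.cons 296 (.leaf 297 2371 (.cons 295 (.leaf 320 2363 (.cons 345 (.leaf 344 2562 (.cons 325 (.leaf 346 2570 (.cons 349 (.leaf 348 2568 (.leaf 350 2576 .nil)) .nil)) .nil)) .nil)) .nil)) (.cons 296 (.leaf 297 2371 (.cons 320 (.leaf 295 2363 (.cons 343 (.leaf 344 2554 (.cons 319 (.leaf 248 1982 (.leaf 342 2546 .nil)) .nil)) .nil)) .nil)) (.cons 345 (.leaf 344 2562 (.cons 325 (.leaf 346 2570 (.cons 349 (.leaf 348 2568 (.leaf 350 2576 .nil)) .nil)) .nil)) (.cons 296 (.leaf 297 2371 (.cons 320 (.leaf 295 2363 (.cons 345 (.leaf 248 1988 (.cons 325 (.leaf 346 2570 (.cons 349 (.leaf 348 2568 (.leaf 350 2576 .nil)) .nil)) .nil)) .nil)) .nil)) .nil)))) (.cons 251 (.leaf 346 2006 (.cons 226 (.leaf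 250 1815 (.cons 324 (.leaf 348 2012 (.cons 227 (.leaf 202 1623 (.leaf 300 1820 .nil)) .nil)) .nil)) .nil)) .nil))) (.cons 321 t36 (.cons 251 (.cons 250 (.leaf 226 1815 (.cons 252 (.leaf 228 1821 (.cons 253 (.leaf 254 2002 (.cons 229 (.leaf 230 1809 (.cons 277 (.leaf 278 2000 (.cons 324 (.leaf 348 2012 (.cons 301 (.leaf 300 1830 (.cons 302 (.leaf 325 2385 (.leaf 326 1836 .nil)) .nil)) .nil)) .nil)) .nil)) .nil)) .nil)) .nil)) (.cons 226 (.leaf 250 1815 (.cons 227 (.leaf 202 1623 (.cons 228 (.leaf 204 1629 (.leaf 252 1821 .nil)) .nil)) .nil)) (.cons 324 (.leaf 348 2012 (.cons 252 (.leaf 228 1821 (.cons 253 (.leaf 254 2002 (.cons 300 (.leaf 227 1820 (.cons 301 (.leaf 302 2386 (.leaf 321 2377 .nil)) .nil)) .nil)) .nil)) .nil)) (.cons 324 (.leaf 348 2012 (.cons 226 (.leaf 250 1815 (.cons 227 (.leaf 202 1623 (.leaf 300 1820 .nil)) .nil)) .nil)) .nil)))) (.cons 251 (.leaf 346 2006 (.cons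 226 (.leaf 250 1815 (.cons 227 (.leaf 202 1623 (.cons 228 (.leaf 204 1629 (.leaf 252 1821 .nil)) .nil)) .nil)) .nil)) .nil)))
noncomputable def t38 : T := .cons 320 (.cons 295 (.leaf 296 2363 (.cons 299 (.leaf 300 2369 (.cons 319 (.leaf 294 2355 (.leaf 298 2361 .nil)) .nil)) .nil)) (.cons 299 (.leaf 300 2369 (.cons 319 (.leaf 298 2361 (.cons 343 (.leaf 344 2554 (.leaf 342 2546 .nil)) .nil)) .nil)) (.cons 296 (.leaf 295 2363 (.cons 297 (.leaf 324 2371 (.cons 248 (.leaf 224 1796 (.cons 247 (.leaf 223 1791 (.cons 344 (.leaf 271 1983 (.leaf 343 2554 .nil)) .nil)) .nil)) .nil)) .nil)) .nil))) (.cons 324 (.cons 300 (.leaf 301 2377 (.cons 299 (.leaf 320 2369 (.cons 345 (.leaf 344 2562 (.cons 298 (.leaf 250 1998 (.cons 325 (.leaf 297 2376 (.leaf 326 2387 .nil)) .nil)) .nil)) .nil)) .nil)) (.cons 300 (.leaf 301 2377 (.cons 299 (.leaf 320 2369 (.cons 348 (.leaf 372 2207 (.leaf 349 2568 .nil))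 .nil)) .nil)) (.cons 345 (.leaf 344 2562 (.cons 250 (.leaf 298 1998 (.cons 325 (.leaf 346 2570 (.cons 349 (.leaf 348 2568 (.leaf 350 2576 .nil)) .nil)) .nil)) .nil)) .nil))) (.cons 324 (.cons 296 (.leaf 297 2371 (.cons 300 (.leaf 301 2377 (.cons 320 (.leaf 295 2363 (.leaf 299 2369 .nil)) .nil)) .nil)) (.cons 300 (.leaf 301 2377 (.cons 345 (.leaf 344 2562 (.cons 325 (.leaf 346 2570 (.cons 349 (.leaf 348 2568 (.leaf 350 2576 .nil)) .nil)) .nil)) .nil)) (.cons 296 (.leaf 297 2371 (.cons 320 (.leaf 295 2363 (.cons 343 (.leaf 344 2554 (.cons 319 (.leaf 248 1982 (.leaf 342 2546 .nil)) .nil)) .nil)) .nil)) .nil))) (.cons 320 (.cons 295 (.leaf 296 2363 (.cons 299 (.leaf 300 2369 (.cons 319 (.leaf 294 2355 (.leaf 298 2361 .nil)) .nil)) .nil)) (.cons 299 (.leaf 300 2369 (.cons 319 (.leaf 298 2361 (.cons 343 (.leaf 344 2554 (.leaf 342 2546 .nil)) .nil)) .nil)) (.cons 295 (.leaf 296 2363 (.cons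 319 (.leaf 294 2355 (.cons 343 (.leaf 344 2554 (.leaf 342 2546 .nil)) .nil)) .nil)) (.cons 295 (.leaf 296 2363 (.cons 299 (.leaf 300 2369 (.cons 344 (.leaf 343 2554 (.cons 324 (.leaf 345 2562 (.cons 349 (.leaf 348 2568 (.cons 325 (.leaf 350 2576 (.cons 302 (.leaf 301 2385 (.cons 326 (.leaf 298 2387 (.leaf 303 2393 .nil)) .nil)) .nil)) .nil)) .nil)) .nil)) .nil)) .nil)) .nil)))) (.cons 324 (.cons 296 (.leaf 297 2371 (.cons 300 (.leaf 301 2377 (.cons 345 (.leaf 344 2562 (.cons 298 (.leaf 250 1998 (.cons 320 (.leaf 248 1988 (.leaf 295 2363 .nil)) .nil)) .nil)) .nil)) .nil)) (.cons 296 (.leaf 297 2371 (.cons 295 (.leaf 320 2363 (.cons 301 (.leaf 300 2377 (.cons 325 (.leaf 302 2385 (.cons 349 (.leaf 348 2568 (.leaf 350 2576 .nil)) .nil)) .nil)) .nil)) .nil)) (.cons 300 (.leaf 301 2377 (.cons 345 (.leaf 344 2562 (.cons 325 (.leaf 346 2570 (.cons 349 (.leaf 348 2568 (.leaf 350 2576 .nil))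 .nil)) .nil)) .nil)) (.cons 345 (.leaf 344 2562 (.cons 250 (.leaf 298 1998 (.cons 325 (.leaf 346 2570 (.cons 349 (.leaf 348 2568 (.leaf 350 2576 .nil)) .nil)) .nil)) .nil)) .nil)))) (.cons 324 (.cons 296 (.leaf 297 2371 (.cons 320 (.leaf 295 2363 (.cons 248 (.leaf 345 1988 (.cons 223 (.leaf 247 1791 (.cons 199 (.leaf 224 1599 (.cons 299 (.leaf 300 2369 (.cons 319 (.leaf 343 1982 (.leaf 298 2361 .nil)) .nil)) .nil)) .nil)) .nil)) .nil)) .nil)) (.cons 300 (.leaf 301 2377 (.cons 299 (.leaf 320 2369 (.cons 348 (.leaf 372 2207 (.leaf 349 2568 .nil)) .nil)) .nil)) (.cons 297 (.leaf 296 2371 (.cons 298 (.leaf 325 2379 (.cons 250 (.leaf 226 1806 (.leaf 345 1998 .nil)) .nil)) .nil)) .nil))) (.cons 324 (.cons 344 (.leaf 345 2562 (.cons 320 (.leaf 343 2554 (.cons 349 (.leaf 348 2568 (.cons 325 (.leaf 350 2576 (.cons 296 (.leaf 295 2363 (.leaf 297 2371 .nil)) .nil)) .nil)) .nil)) .nil)) (.cons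 296 (.leaf 297 2371 (.cons 320 (.leaf 295 2363 (.cons 343 (.leaf 344 2554 (.cons 319 (.leaf 248 1982 (.leaf 342 2546 .nil)) .nil)) .nil)) .nil)) (.cons 344 (.leaf 345 2562 (.cons 320 (.leaf 343 2554 (.cons 349 (.leaf 348 2568 (.cons 325 (.leaf 350 2576 (.cons 298 (.leaf 297 2379 (.cons 299 (.leaf 326 2387 (.leaf 319 2361 .nil)) .nil)) .nil)) .nil)) .nil)) .nil)) (.cons 345 (.leaf 344 2562 (.cons 250 (.leaf 298 1998 (.cons 325 (.leaf 346 2570 (.cons 349 (.leaf 348 2568 (.leaf 350 2576 .nil)) .nil)) .nil)) .nil)) (.cons 297 (.leaf 296 2371 (.cons 298 (.leaf 325 2379 (.cons 250 (.leaf 226 1806 (.leaf 345 1998 .nil)) .nil)) .nil)) .nil))))) .nil))))))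
noncomputable def t39 : T := .cons 324 (.cons 345 (.leaf 344 2562 (.cons 250 (.leaf 298 1998 (.cons 325 (.leaf 346 2570 (.cons 301 (.leaf 300 2377 (.leaf 302 2385 .nil)) .nil)) .nil)) .nil)) (.cons 296 (.leaf 297 2371 (.cons 300 (.leaf 301 2377 (.cons 320 (.leaf 295 2363 (.leaf 299 2369 .nil)) .nil)) .nil)) (.cons 345 (.leaf 344 2562 (.cons 250 (.leaf 298 1998 (.cons 325 (.leaf 346 2570 (.cons 349 (.leaf 348 2568 (.leaf 350 2576 .nil)) .nil)) .nil)) .nil)) .nil))) (.cons 320 (.cons 299 (.leaf 300 2369 (.cons 319 (.leaf 298 2361 (.cons 343 (.leaf 344 2554 (.leaf 342 2546 .nil)) .nil)) .nil)) (.cons 296 (.leaf 295 2363 (.cons 248 (.leaf 345 1988 (.cons 223 (.leaf 247 1791 (.cons 224 (.leaf 199 1599 (.leaf 297 1796 .nil)) .nil)) .nil)) .nil)) .nil)) (.cons 324 (.cons 345 (.leaf 344 2562 (.cons 250 (.leaf 298 1998 (.cons 325 (.leaf 346 2570 (.cons 301 (.leaf 300 2377 (.leaf 302 2385 .nil))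 .nil)) .nil)) .nil)) (.cons 296 (.leaf 297 2371 (.cons 300 (.leaf 301 2377 (.cons 348 (.leaf 349 2568 (.cons 372 (.leaf 299 2207 (.cons 395 (.leaf 371 2398 (.cons 396 (.leaf 419 2590 (.cons 397 (.leaf 373 2404 (.leaf 421 2596 .nil)) .nil)) .nil)) .nil)) .nil)) .nil)) .nil)) (.cons 345 (.leaf 344 2562 (.cons 250 (.leaf 298 1998 (.cons 325 (.leaf 346 2570 (.cons 349 (.leaf 348 2568 (.leaf 350 2576 .nil)) .nil)) .nil)) .nil)) .nil))) t38))
noncomputable def t40 : T := .cons 346 (.leaf 251 2005 (.cons 345 (.leaf 369 2190 (.cons 324 (.leaf 325 2570 (.cons 344 (.leaf 321 2562 (.leaf 343 2553 .nil)) .nil)) .nil)) .nil)) (.cons 321 (.cons 296 (.cons 324 (.leaf 297 2371 (.cons 295 (.leaf 320 2363 (.cons 300 (.leaf 301 2377 (.cons 345 (.leaf 250 1998 (.leaf 344 2562 .nil)) .nil)) .nil)) .nil)) (.cons 345 (.leaf 250 1998 (.cons 320 (.leaf 248 1988 (.leaf 295 2363 .nil)) .nil)) (.cons 324 (.leaf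 297 2371 (.cons 301 (.leaf 300 2377 (.cons 325 (.leaf 302 2385 (.cons 349 (.leaf 348 2568 (.leaf 350 2576 .nil)) .nil)) .nil)) .nil)) .nil))) (.cons 296 (.cons 324 (.leaf 297 2371 (.cons 295 (.leaf 320 2363 (.cons 301 (.leaf 300 2377 (.cons 325 (.leaf 302 2385 (.cons 349 (.leaf 348 2568 (.leaf 350 2576 .nil)) .nil)) .nil)) .nil)) .nil)) (.cons 320 (.leaf 295 2363 (.cons 343 (.leaf 344 2554 (.cons 319 (.leaf 248 1982 (.leaf 342 2546 .nil)) .nil)) .nil)) (.cons 324 (.leaf 297 2371 (.cons 301 (.leaf 300 2377 (.cons 325 (.leaf 302 2385 (.cons 349 (.leaf 348 2568 (.leaf 350 2576 .nil)) .nil)) .nil)) .nil)) .nil))) (.cons 345 (.leaf 250 1998 (.cons 369 (.leaf 346 2190 (.leaf 393 2381 .nil)) .nil)) .nil))) (.cons 321 (.cons 345 (.leaf 250 1998 (.cons 324 (.leaf 344 2562 (.cons 301 (.leaf 300 2377 (.cons 325 (.leaf 297 2379 (.leaf 302 2385 .nil)) .nil)) .nil)) .nil)) (.cons 296 (.cons 320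 (.leaf 295 2363 (.cons 343 (.leaf 344 2554 (.cons 319 (.leaf 248 1982 (.leaf 342 2546 .nil)) .nil)) .nil)) (.cons 324 (.leaf 297 2371 (.cons 301 (.leaf 300 2377 (.cons 325 (.leaf 302 2385 (.cons 349 (.leaf 348 2568 (.leaf 350 2576 .nil)) .nil)) .nil)) .nil)) .nil)) (.cons 345 (.leaf 250 1998 (.cons 324 (.leaf 344 2562 (.cons 301 (.leaf 300 2377 (.cons 325 (.leaf 302 2385 (.cons 349 (.leaf 348 2568 (.leaf 350 2576 .nil)) .nil)) .nil)) .nil)) .nil)) (.cons 345 (.leaf 250 1998 (.cons 369 (.leaf 297 2189 (.leaf 393 2381 .nil)) .nil)) .nil)))) (.cons 251 (.leaf 346 2005 (.cons 227 (.leaf 203 1622 (.leaf 250 1813 .nil)) .nil)) .nil)))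
noncomputable def t41 : T := .cons 251 (.cons 346 (.leaf 298 2005 (.leaf 299 2006 .nil)) (.cons 298 (.leaf 346 2005 (.cons 227 (.leaf 203 1622 (.leaf 250 1813 .nil)) .nil)) (.cons 299 (.cons 226 (.leaf 250 1815 (.cons 227 (.leaf 202 1623 (.leaf 298 1814 .nil)) .nil)) (.cons 250 (.leaf 226 1815 (.cons 252 (.leaf 228 1821 (.cons 253 (.leaf 254 2002 (.cons 229 (.leaf 230 1809 (.cons 277 (.leaf 278 2000 (.cons 324 (.leaf 348 2012 (.cons 301 (.leaf 300 1830 (.cons 302 (.leaf 325 2385 (.leaf 326 1836 .nil)) .nil)) .nil)) .nil)) .nil)) .nil)) .nil)) .nil)) (.cons 227 (.leaf 298 1814 (.cons 324 (.leaf 300 1820 (.leaf 348 2012 .nil)) .nil)) .nil))) (.cons 299 (.leaf 346 2006 (.cons 250 (.leaf 226 1815 (.cons 252 (.leaf 228 1821 (.cons 253 (.leaf 254 2002 (.cons 229 (.leaf 230 1809 (.cons 277 (.leaf 278 2000 (.cons 324 (.leaf 348 2012 (.cons 301 (.leaf 300 1830 (.cons 302 (.leaf 325 2385 (.leaf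 326 1836 .nil)) .nil)) .nil)) .nil)) .nil)) .nil)) .nil)) .nil)) .nil)) .nil)))) (.cons 298 t40 (.cons 321 t39 (.cons 299 t37 (.cons 321 (.cons 324 (.cons 296 (.leaf 297 2371 (.cons 295 (.leaf 320 2363 (.cons 301 (.leaf 300 2377 (.cons 325 (.leaf 302 2385 (.cons 349 (.leaf 348 2568 (.leaf 350 2576 .nil)) .nil)) .nil)) .nil)) .nil)) (.cons 300 (.leaf 301 2377 (.cons 299 (.leaf 320 2369 (.cons 345 (.leaf 344 2562 (.cons 298 (.leaf 250 1998 (.cons 325 (.leaf 297 2376 (.leaf 326 2387 .nil)) .nil)) .nil)) .nil)) .nil)) (.cons 300 (.leaf 301 2377 (.cons 299 (.leaf 320 2369 (.cons 348 (.leaf 251 2012 (.leaf 372 2207 .nil)) .nil)) .nil)) (.cons 296 (.leaf 297 2371 (.cons 295 (.leaf 320 2363 (.cons 345 (.leaf 344 2562 (.cons 298 (.leaf 250 1998 (.cons 349 (.leaf 348 2568 (.cons 325 (.leaf 350 2576 (.cons 302 (.leaf 301 2385 (.cons 326 (.leaf 299 2387 (.leaf 303 2393 .nil)) .nil)) .nil)) .nil))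 .nil)) .nil)) .nil)) .nil)) (.cons 297 (.leaf 296 2371 (.cons 298 (.leaf 325 2379 (.cons 250 (.leaf 226 1806 (.leaf 345 1998 .nil)) .nil)) .nil)) .nil))))) t35) (.cons 251 (.cons 298 (.leaf 346 2005 (.cons 227 (.leaf 203 1622 (.leaf 299 1814 .nil)) .nil)) (.cons 227 (.cons 299 (.leaf 298 1814 (.cons 226 (.leaf 202 1623 (.leaf 250 1815 .nil)) .nil)) (.cons 299 (.cons 226 (.leaf 202 1623 (.leaf 250 1815 .nil)) (.cons 228 (.leaf 204 1629 (.leaf 252 1821 .nil)) .nil)) (.cons 298 (.leaf 203 1622 (.leaf 250 1813 .nil)) (.cons 298 (.leaf 203 1622 (.leaf 299 1814 .nil)) .nil)))) (.cons 298 (.leaf 346 2005 (.cons 227 (.leaf 203 1622 (.leaf 250 1813 .nil)) .nil)) (.cons 299 (.leaf 346 2006 (.cons 226 (.leaf 250 1815 (.cons 227 (.leaf 202 1623 (.cons 228 (.leaf 204 1629 (.leaf 252 1821 .nil)) .nil)) .nil)) .nil)) (.cons 346 (.leaf 298 2005 (.leaf 299 2006 .nil)) .nil))))) (.cons 346 t34 .nil))))))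
noncomputable def t42 : T := .cons 347 (.leaf 250 2004 (.cons 371 (.leaf 346 2196 (.leaf 395 2391 .nil)) .nil)) (.cons 251 (.leaf 346 2005 (.cons 227 (.leaf 203 1622 (.leaf 250 1813 .nil)) .nil)) (.cons 346 (.leaf 251 2005 (.cons 371 (.leaf 347 2196 (.cons 395 (.leaf 370 2388 (.cons 324 (.cons 297 (.leaf 325 2379 (.cons 296 (.leaf 295 2360 (.leaf 321 2371 .nil)) .nil)) (.cons 321 (.cons 296 (.leaf 297 2371 (.cons 295 (.leaf 320 2363 (.cons 300 (.leaf 301 2377 (.cons 348 (.leaf 349 2568 (.leaf 372 2398 .nil)) .nil)) .nil)) .nil)) (.cons 300 (.leaf 301 2377 (.cons 348 (.leaf 349 2568 (.leaf 372 2398 .nil)) .nil)) (.cons 296 (.leaf 297 2371 (.cons 300 (.leaf 301 2377 (.cons 320 (.leaf 295 2363 (.cons 344 (.leaf 343 2554 (.leaf 345 2562 .nil)) .nil)) .nil)) .nil)) (.cons 296 (.leaf 297 2371 (.cons 320 (.leaf 295 2363 (.cons 344 (.leaf 343 2554 (.leaf 345 2562 .nil)) .nil)) .nil)) .nil))))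 (.cons 325 (.leaf 345 2570 (.cons 301 (.leaf 302 2385 (.cons 300 (.leaf 321 2377 (.cons 349 (.leaf 350 2576 (.cons 372 (.leaf 348 2398 (.cons 373 (.leaf 397 2407 (.leaf 396 2406 .nil)) .nil)) .nil)) .nil)) .nil)) .nil)) (.cons 325 (.leaf 297 2379 (.leaf 345 2570 .nil)) .nil)))) .nil)) .nil)) .nil)) (.cons 250 (.leaf 347 2004 (.cons 226 (.cons 201 (.leaf 225 1615 (.cons 202 (.leaf 177 1423 (.cons 203 (.leaf 179 1429 (.leaf 227 1621 .nil)) .nil)) .nil)) (.cons 201 (.leaf 225 1615 (.cons 202 (.leaf 177 1423 (.cons 178 (.leaf 251 1428 (.cons 179 (.leaf 203 1429 (.leaf 155 1237 .nil)) .nil)) .nil)) .nil)) (.cons 251 (.leaf 227 1813 (.cons 201 (.leaf 225 1615 (.cons 202 (.leaf 178 1428 (.leaf 177 1423 .nil)) .nil)) .nil)) (.cons 227 (.leaf 203 1621 (.leaf 251 1813 .nil)) .nil)))) .nil)) .nil)))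
noncomputable def t43 : T := .cons 346 (.leaf 251 2005 (.cons 370 (.cons 393 (.leaf 369 2382 (.cons 394 (.leaf 417 2574 (.cons 297 (.leaf 321 2383 (.cons 295 (.leaf 296 2360 (.cons 324 (.leaf 325 2379 (.cons 418 (.leaf 347 2581 (.cons 419 (.leaf 395 2580 (.leaf 443 2772 .nil)) .nil)) .nil)) .nil)) .nil)) .nil)) .nil)) (.cons 393 (.leaf 369 2382 (.cons 394 (.leaf 417 2574 (.cons 395 (.leaf 371 2388 (.leaf 419 2580 .nil)) .nil)) .nil)) (.cons 347 (.leaf 250 2004 (.leaf 371 2196 .nil)) .nil))) .nil)) (.cons 251 (.leaf 346 2005 (.cons 227 (.leaf 203 1622 (.leaf 250 1813 .nil)) .nil)) (.cons 347 (.leaf 250 2004 (.cons 371 (.leaf 346 2196 (.leaf 395 2391 .nil)) .nil)) (.cons 346 (.leaf 251 2005 (.cons 370 (.cons 393 (.leaf 369 2382 (.cons 394 (.leaf 417 2574 (.cons 297 (.leaf 321 2383 (.cons 295 (.leaf 296 2360 (.cons 324 (.leaf 325 2379 (.cons 418 (.leaf 347 2581 (.cons 419 (.leaf 395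 2580 (.leaf 443 2772 .nil)) .nil)) .nil)) .nil)) .nil)) .nil)) .nil)) (.cons 393 (.leaf 369 2382 (.cons 394 (.leaf 417 2574 (.cons 395 (.leaf 371 2388 (.leaf 419 2580 .nil)) .nil)) .nil)) (.cons 347 (.leaf 371 2196 (.cons 393 (.leaf 369 2382 (.cons 394 (.leaf 418 2581 (.leaf 417 2574 .nil)) .nil)) .nil)) (.cons 371 (.leaf 347 2196 (.leaf 395 2388 .nil)) .nil)))) .nil)) (.cons 250 (.leaf 347 2004 (.cons 226 (.cons 201 (.leaf 225 1615 (.cons 202 (.leaf 177 1423 (.cons 203 (.leaf 179 1429 (.leaf 227 1621 .nil)) .nil)) .nil)) (.cons 201 (.leaf 225 1615 (.cons 202 (.leaf 177 1423 (.cons 178 (.leaf 251 1428 (.cons 179 (.leaf 203 1429 (.leaf 155 1237 .nil)) .nil)) .nil)) .nil)) (.cons 251 (.leaf 227 1813 (.cons 201 (.leaf 225 1615 (.cons 202 (.leaf 178 1428 (.leaf 177 1423 .nil)) .nil)) .nil)) (.cons 227 (.leaf 203 1621 (.leaf 251 1813 .nil)) .nil)))) .nil)) .nil))))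
noncomputable def t44 : T := .cons 296 (.cons 324 (.leaf 297 2371 (.cons 300 (.leaf 301 2377 (.cons 345 (.leaf 250 1998 (.leaf 344 2562 .nil)) .nil)) .nil)) (.cons 320 (.leaf 295 2363 (.cons 343 (.leaf 344 2554 (.cons 319 (.leaf 248 1982 (.leaf 342 2546 .nil)) .nil)) .nil)) (.cons 324 (.leaf 297 2371 (.cons 250 (.leaf 345 1998 (.cons 295 (.leaf 320 2363 (.cons 301 (.leaf 300 2377 (.cons 325 (.leaf 302 2385 (.cons 349 (.leaf 348 2568 (.leaf 350 2576 .nil)) .nil)) .nil)) .nil)) .nil)) .nil)) .nil))) (.cons 296 (.cons 324 (.leaf 297 2371 (.cons 295 (.leaf 320 2363 (.cons 301 (.leaf 300 2377 (.cons 325 (.leaf 302 2385 (.cons 349 (.leaf 348 2568 (.leaf 350 2576 .nil)) .nil)) .nil)) .nil)) .nil)) (.cons 320 (.leaf 295 2363 (.cons 343 (.leaf 344 2554 (.cons 319 (.leaf 248 1982 (.leaf 342 2546 .nil)) .nil)) .nil)) (.cons 324 (.leaf 297 2371 (.cons 301 (.leaf 300 2377 (.cons 325 (.leaf 302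 2385 (.cons 349 (.leaf 348 2568 (.leaf 350 2576 .nil)) .nil)) .nil)) .nil)) .nil))) (.cons 345 (.leaf 250 1998 (.cons 369 (.leaf 346 2190 (.leaf 393 2381 .nil)) .nil)) .nil))
noncomputable def t45 : T := .cons 346 (.leaf 251 2005 (.cons 345 (.leaf 369 2190 (.cons 324 (.leaf 325 2570 (.cons 344 (.leaf 321 2562 (.leaf 343 2553 .nil)) .nil)) .nil)) .nil)) (.cons 321 t44 (.cons 250 (.cons 321 (.leaf 345 1998 (.cons 297 (.leaf 226 1806 (.cons 296 (.leaf 295 2360 (.leaf 324 2371 .nil)) .nil)) .nil)) (.cons 226 (.cons 201 (.leaf 225 1615 (.cons 202 (.leaf 177 1423 (.cons 203 (.leaf 179 1429 (.leaf 227 1621 .nil)) .nil)) .nil)) (.cons 201 (.leaf 225 1615 (.cons 202 (.leaf 177 1423 (.cons 178 (.leaf 251 1428 (.cons 179 (.leaf 203 1429 (.leaf 155 1237 .nil)) .nil)) .nil)) .nil)) (.cons 251 (.leaf 227 1813 (.cons 201 (.leaf 225 1615 (.cons 202 (.leaf 178 1428 (.leaf 177 1423 .nil)) .nil)) .nil))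 (.cons 227 (.leaf 203 1621 (.leaf 251 1813 .nil)) .nil)))) (.cons 321 (.leaf 345 1998 (.cons 251 (.leaf 227 1813 (.cons 296 (.cons 295 (.leaf 297 2360 (.leaf 320 2363 .nil)) (.cons 320 (.leaf 295 2363 (.cons 343 (.leaf 344 2554 (.cons 319 (.leaf 248 1982 (.leaf 342 2546 .nil)) .nil)) .nil)) (.cons 324 (.leaf 297 2371 (.cons 301 (.leaf 300 2377 (.cons 325 (.leaf 302 2385 (.cons 349 (.leaf 348 2568 (.leaf 350 2576 .nil)) .nil)) .nil)) .nil)) .nil))) .nil)) .nil)) .nil))) (.cons 251 (.leaf 346 2005 (.cons 227 (.leaf 203 1622 (.leaf 250 1813 .nil)) .nil)) .nil)))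
noncomputable def t46 : T := .cons 250 (.leaf 347 2004 (.cons 321 (.leaf 345 1998 (.cons 301 (.leaf 300 2377 (.cons 325 (.leaf 297 2379 (.leaf 302 2385 .nil)) .nil)) .nil)) .nil)) (.cons 250 (.leaf 347 2004 (.cons 321 (.leaf 345 1998 (.cons 301 (.leaf 300 2377 (.cons 325 (.leaf 302 2385 (.cons 226 (.cons 201 (.leaf 225 1615 (.cons 202 (.leaf 177 1423 (.cons 178 (.leaf 251 1428 (.cons 179 (.leaf 203 1429 (.leaf 155 1237 .nil)) .nil)) .nil)) .nil)) (.cons 201 (.leaf 225 1615 (.cons 202 (.leaf 177 1423 (.cons 203 (.leaf 179 1429 (.leaf 227 1621 .nil)) .nil)) .nil)) (.cons 201 (.leaf 225 1615 (.cons 202 (.leaf 177 1423 (.cons 251 (.leaf 178 1428 (.leaf 227 1813 .nil)) .nil)) .nil)) (.cons 227 (.leaf 203 1621 (.leaf 251 1813 .nil)) .nil)))) .nil)) .nil)) .nil)) .nil)) (.cons 297 (.leaf 325 2379 (.cons 296 (.leaf 295 2360 (.leaf 321 2371 .nil)) .nil)) (.cons 325 (.leaf 297 2379 (.cons 302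 (.leaf 301 2385 (.cons 250 (.leaf 347 2004 (.cons 326 (.leaf 303 2393 (.cons 226 (.cons 251 (.leaf 227 1813 (.cons 201 (.leaf 225 1615 (.cons 202 (.leaf 178 1428 (.leaf 177 1423 .nil)) .nil)) .nil)) (.cons 201 (.leaf 225 1615 (.cons 202 (.leaf 177 1423 (.cons 178 (.leaf 251 1428 (.cons 179 (.leaf 203 1429 (.leaf 155 1237 .nil)) .nil)) .nil)) .nil)) (.cons 201 (.leaf 225 1615 (.cons 202 (.leaf 177 1423 (.cons 203 (.leaf 179 1429 (.leaf 227 1621 .nil)) .nil)) .nil)) (.cons 227 (.leaf 203 1621 (.leaf 251 1813 .nil)) .nil)))) .nil)) .nil)) .nil)) .nil)) (.cons 250 (.leaf 347 2004 (.cons 227 (.leaf 251 1813 (.cons 203 (.leaf 226 1621 (.cons 321 (.leaf 345 1998 (.cons 296 (.leaf 297 2371 (.cons 301 (.leaf 300 2377 (.cons 320 (.leaf 295 2363 (.cons 343 (.leaf 344 2554 (.cons 319 (.leaf 248 1982 (.leaf 342 2546 .nil)) .nil)) .nil)) .nil)) .nil)) .nil)) .nil)) .nil)) .nil)) .nil))))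
noncomputable def t47 : T := .cons 298 (.leaf 297 2379 (.cons 350 (.leaf 349 2576 (.cons 250 (.leaf 347 2004 (.cons 326 (.leaf 351 2584 (.cons 226 (.cons 201 (.leaf 225 1615 (.cons 202 (.leaf 177 1423 (.cons 178 (.leaf 251 1428 (.cons 179 (.leaf 203 1429 (.leaf 155 1237 .nil)) .nil)) .nil)) .nil)) (.cons 201 (.leaf 225 1615 (.cons 202 (.leaf 177 1423 (.cons 203 (.leaf 179 1429 (.leaf 227 1621 .nil)) .nil)) .nil)) (.cons 201 (.leaf 225 1615 (.cons 202 (.leaf 177 1423 (.cons 251 (.leaf 178 1428 (.leaf 227 1813 .nil)) .nil)) .nil)) (.cons 227 (.leaf 203 1621 (.leaf 251 1813 .nil)) .nil)))) .nil)) .nil)) .nil)) .nil)) (.cons 298 (.leaf 297 2379 (.cons 302 (.leaf 301 2385 (.cons 250 (.leaf 347 2004 (.cons 326 (.leaf 303 2393 (.cons 226 (.cons 227 (.leaf 203 1621 (.leaf 251 1813 .nil)) (.cons 201 (.leaf 225 1615 (.cons 202 (.leaf 177 1423 (.cons 178 (.leaf 251 1428 (.cons 179 (.leaf 203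 1429 (.leaf 155 1237 .nil)) .nil)) .nil)) .nil)) (.cons 201 (.leaf 225 1615 (.cons 202 (.leaf 177 1423 (.cons 203 (.leaf 179 1429 (.leaf 227 1621 .nil)) .nil)) .nil)) (.cons 251 (.leaf 227 1813 (.cons 201 (.leaf 225 1615 (.cons 202 (.leaf 178 1428 (.leaf 177 1423 .nil)) .nil)) .nil)) .nil)))) .nil)) .nil)) .nil)) .nil)) (.cons 350 (.leaf 349 2576 (.cons 302 (.leaf 301 2385 (.cons 326 (.leaf 303 2393 (.leaf 351 2584 .nil)) .nil)) .nil)) (.cons 298 (.leaf 297 2379 (.cons 250 (.leaf 347 2004 (.cons 227 (.leaf 251 1813 (.cons 226 (.leaf 203 1621 (.cons 225 (.leaf 201 1615 (.cons 301 (.leaf 302 2385 (.cons 253 (.cons 228 (.leaf 252 1800 (.cons 204 (.leaf 205 1609 (.cons 229 (.leaf 254 1808 (.leaf 277 1639 .nil)) .nil)) .nil)) (.cons 228 (.leaf 252 1800 (.cons 205 (.leaf 204 1609 (.cons 229 (.leaf 206 1617 (.leaf 254 1808 .nil)) .nil)) .nil)) (.cons 277 (.leaf 348 2022 (.cons 229 (.leaf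 300 1830 (.cons 230 (.leaf 254 1837 (.leaf 206 1645 .nil)) .nil)) .nil)) (.cons 277 (.leaf 348 2022 (.cons 228 (.leaf 252 1800 (.cons 254 (.leaf 230 1837 (.cons 349 (.leaf 350 2576 (.leaf 278 2029 .nil)) .nil)) .nil)) .nil)) (.cons 277 (.leaf 348 2022 (.cons 228 (.leaf 252 1800 (.cons 204 (.leaf 205 1609 (.leaf 229 1639 .nil)) .nil)) .nil)) .nil))))) .nil)) .nil)) .nil)) .nil)) .nil)) .nil)) .nil)))
noncomputable def t48 : T := .cons 321 (.cons 344 (.leaf 345 2562 (.cons 320 (.leaf 343 2554 (.cons 348 (.leaf 347 2560 (.leaf 349 2568 .nil)) .nil)) .nil)) (.cons 296 (.leaf 297 2371 (.cons 320 (.leaf 295 2363 (.cons 348 (.leaf 347 2560 (.leaf 349 2568 .nil)) .nil)) .nil)) (.cons 296 (.leaf 297 2371 (.cons 320 (.leaf 295 2363 (.cons 343 (.leaf 344 2554 (.cons 319 (.leaf 248 1982 (.leaf 342 2546 .nil)) .nil)) .nil)) .nil)) (.cons 297 (.leaf 296 2371 (.cons 298 (.leaf 325 2379 (.cons 345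 (.leaf 250 1998 (.leaf 369 2189 .nil)) .nil)) .nil)) .nil)))) (.cons 325 t47 (.cons 321 (.cons 296 (.leaf 297 2371 (.cons 320 (.leaf 295 2363 (.cons 348 (.leaf 347 2560 (.leaf 349 2568 .nil)) .nil)) .nil)) (.cons 345 (.leaf 344 2562 (.cons 298 (.leaf 250 1998 (.cons 369 (.leaf 297 2189 (.leaf 393 2381 .nil)) .nil)) .nil)) (.cons 345 (.leaf 344 2562 (.cons 250 (.leaf 298 1998 (.cons 300 (.leaf 301 2377 (.cons 348 (.leaf 349 2568 (.cons 320 (.leaf 347 2560 (.cons 296 (.leaf 248 1988 (.leaf 295 2363 .nil)) .nil)) .nil)) .nil)) .nil)) .nil)) .nil))) (.cons 321 (.cons 296 (.leaf 297 2371 (.cons 320 (.leaf 295 2363 (.cons 348 (.leaf 347 2560 (.leaf 349 2568 .nil)) .nil)) .nil)) (.cons 300 (.leaf 301 2377 (.cons 344 (.leaf 345 2562 (.cons 320 (.leaf 343 2554 (.cons 348 (.leaf 347 2560 (.leaf 349 2568 .nil)) .nil)) .nil)) .nil)) (.cons 296 (.leaf 297 2371 (.cons 320 (.leaf 295 2363 (.cons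 343 (.leaf 344 2554 (.cons 319 (.leaf 248 1982 (.leaf 342 2546 .nil)) .nil)) .nil)) .nil)) (.cons 296 (.leaf 297 2371 (.cons 301 (.leaf 300 2377 (.cons 325 (.leaf 302 2385 (.cons 349 (.leaf 348 2568 (.leaf 350 2576 .nil)) .nil)) .nil)) .nil)) .nil)))) (.cons 298 t46 (.cons 301 (.cons 325 (.leaf 302 2385 (.cons 349 (.leaf 350 2576 (.cons 321 (.leaf 300 2377 (.leaf 348 2568 .nil)) .nil)) .nil)) (.cons 321 (.leaf 300 2377 (.cons 344 (.leaf 345 2562 (.cons 320 (.leaf 343 2554 (.cons 348 (.leaf 347 2560 (.leaf 349 2568 .nil)) .nil)) .nil)) .nil)) (.cons 325 (.leaf 302 2385 (.cons 349 (.leaf 350 2576 (.cons 277 (.cons 348 (.leaf 253 2022 (.leaf 372 2214 .nil)) (.cons 254 (.leaf 278 2029 (.cons 253 (.leaf 230 1837 (.cons 252 (.leaf 251 2002 (.leaf 228 1831 .nil)) .nil)) .nil)) (.cons 372 (.leaf 348 2214 (.cons 254 (.leaf 278 2029 (.cons 373 (.leaf 396 2406 (.cons 397 (.leaf 300 2407 (.cons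 398 (.leaf 374 2412 (.leaf 422 2604 .nil)) .nil)) .nil)) .nil)) .nil)) .nil))) .nil)) .nil)) (.cons 325 (.leaf 302 2385 (.cons 349 (.leaf 350 2576 (.cons 348 (.leaf 321 2568 (.cons 277 (.leaf 253 2022 (.leaf 372 2214 .nil)) .nil)) .nil)) .nil)) (.cons 300 (.leaf 321 2377 (.cons 302 (.leaf 303 2394 (.leaf 325 2385 .nil)) .nil)) .nil))))) (.cons 321 (.cons 301 (.leaf 300 2377 (.cons 325 (.leaf 302 2385 (.cons 349 (.leaf 348 2568 (.leaf 350 2576 .nil)) .nil)) .nil)) (.cons 296 (.leaf 297 2371 (.cons 320 (.leaf 295 2363 (.cons 343 (.leaf 344 2554 (.cons 319 (.leaf 248 1982 (.leaf 342 2546 .nil)) .nil)) .nil)) .nil)) .nil)) .nil))))))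
noncomputable def t49 : T := .cons 295 (.leaf 296 2363 (.cons 319 (.leaf 294 2355 (.cons 343 (.leaf 344 2554 (.leaf 342 2546 .nil)) .nil)) .nil)) (.cons 347 (.leaf 348 2560 (.cons 319 (.leaf 346 2552 (.cons 343 (.leaf 344 2554 (.leaf 342 2546 .nil)) .nil)) .nil)) (.cons 296 (.leaf 295 2363 (.cons 297 (.leaf 324 2371 (.cons 248 (.leaf 224 1796 (.cons 247 (.leaf 223 1791 (.cons 271 (.leaf 344 1983 (.cons 347 (.leaf 348 2560 (.cons 319 (.leaf 346 2552 (.cons 318 (.leaf 317 2345 (.cons 270 (.leaf 269 2152 (.cons 294 (.leaf 293 2347 (.leaf 342 1973 .nil)) .nil)) .nil)) .nil)) .nil)) .nil)) .nil)) .nil)) .nil)) .nil)) (.cons 296 (.leaf 295 2363 (.cons 297 (.leaf 324 2371 (.cons 224 (.leaf 248 1796 (.cons 347 (.leaf 348 2560 (.cons 319 (.leaf 346 2552 (.cons 318 (.leaf 317 2345 (.cons 342 (.leaf 343 2546 (.leaf 341 2538 .nil)) .nil)) .nil)) .nil)) .nil)) .nil)) .nil)) (.cons 296 (.leaf 295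 2363 (.cons 297 (.leaf 324 2371 (.cons 248 (.leaf 224 1796 (.cons 247 (.leaf 223 1791 (.cons 344 (.leaf 271 1983 (.leaf 343 2554 .nil)) .nil)) .nil)) .nil)) .nil)) .nil))))
noncomputable def t50 : T := .cons 296 (.leaf 297 2371 (.cons 295 (.leaf 320 2363 (.cons 301 (.leaf 300 2377 (.cons 325 (.leaf 302 2385 (.cons 349 (.leaf 348 2568 (.leaf 350 2576 .nil)) .nil)) .nil)) .nil)) .nil)) (.cons 296 (.leaf 297 2371 (.cons 295 (.leaf 320 2363 (.cons 301 (.leaf 300 2377 (.cons 325 (.leaf 302 2385 (.cons 346 (.leaf 345 2570 (.cons 326 (.leaf 347 2578 (.cons 350 (.leaf 349 2576 (.leaf 351 2584 .nil)) .nil)) .nil)) .nil)) .nil)) .nil)) .nil)) (.cons 348 (.leaf 349 2568 (.cons 301 (.leaf 300 2377 (.cons 325 (.leaf 302 2385 (.cons 253 (.leaf 277 2022 (.cons 346 (.leaf 345 2570 (.cons 347 (.leaf 320 2560 (.leaf 326 2578 .nil)) .nil)) .nil)) .nil)) .nil)) .nil)) (.cons 296 (.leaf 297 2371 (.cons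 300 (.leaf 301 2377 (.cons 320 (.leaf 295 2363 (.cons 248 (.leaf 345 1988 (.cons 319 (.leaf 343 1982 (.cons 347 (.leaf 348 2560 (.leaf 346 2552 .nil)) .nil)) .nil)) .nil)) .nil)) .nil)) (.cons 296 (.leaf 297 2371 (.cons 320 (.leaf 295 2363 (.cons 348 (.leaf 347 2560 (.leaf 349 2568 .nil)) .nil)) .nil)) (.cons 349 (.leaf 348 2568 (.cons 296 (.leaf 297 2371 (.cons 301 (.leaf 300 2377 (.cons 325 (.leaf 302 2385 (.leaf 350 2576 .nil)) .nil)) .nil)) .nil)) .nil)))))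
noncomputable def t51 : T := .cons 394 (.leaf 370 2380 (.cons 300 (.leaf 301 2377 (.cons 393 (.leaf 418 2572 (.cons 416 (.leaf 392 2566 (.cons 417 (.leaf 346 2573 (.leaf 440 2758 .nil)) .nil)) .nil)) .nil)) .nil)) (.cons 368 (.leaf 392 2374 (.cons 300 (.leaf 301 2377 (.cons 347 (.leaf 346 2754 (.cons 371 (.leaf 395 2397 (.leaf 370 2753 .nil)) .nil)) .nil)) .nil)) (.cons 392 (.leaf 368 2374 (.cons 300 (.leaf 301 2377 (.cons 393 (.leaf 416 2566 (.cons 417 (.leaf 346 2573 (.cons 418 (.leaf 394 2572 (.leaf 442 2764 .nil)) .nil)) .nil)) .nil)) .nil)) (.cons 394 (.leaf 370 2380 (.cons 393 (.leaf 418 2572 (.cons 417 (.leaf 346 2573 (.cons 416 (.leaf 440 2758 (.cons 300 (.leaf 301 2377 (.cons 395 (.leaf 396 3138 (.cons 371 (.leaf 347 2397 (.leaf 372 2398 .nil)) .nil)) .nil)) .nil)) .nil)) .nil)) .nil)) (.cons 394 (.leaf 370 2380 (.cons 368 (.leaf 392 2374 (.cons 346 (.leaf 347 2754 (.cons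 393 (.leaf 417 2573 (.leaf 418 2572 .nil)) .nil)) .nil)) .nil)) (.cons 394 (.leaf 370 2380 (.cons 300 (.leaf 301 2377 (.cons 392 (.leaf 368 2374 (.cons 393 (.leaf 416 2566 (.leaf 418 2572 .nil)) .nil)) .nil)) .nil)) .nil)))))
noncomputable def t52 : T := .cons 324 (.cons 296 (.leaf 297 2371 (.cons 320 (.leaf 295 2363 (.cons 348 (.leaf 347 2560 (.leaf 349 2568 .nil)) .nil)) .nil)) (.cons 300 (.leaf 301 2377 (.cons 345 (.leaf 344 2562 (.cons 325 (.leaf 346 2570 (.cons 349 (.leaf 348 2568 (.leaf 350 2576 .nil)) .nil)) .nil)) .nil)) (.cons 345 (.leaf 344 2562 (.cons 296 (.leaf 297 2371 (.cons 301 (.leaf 300 2377 (.cons 325 (.leaf 302 2385 (.leaf 346 2570 .nil)) .nil)) .nil)) .nil)) .nil))) (.cons 320 (.cons 296 (.leaf 295 2363 (.cons 248 (.leaf 345 1988 (.cons 223 (.leaf 247 1791 (.cons 224 (.leaf 199 1599 (.leaf 297 1796 .nil)) .nil)) .nil)) .nil)) (.cons 347 (.leaf 348 2560 (.cons 319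 (.leaf 346 2552 (.cons 343 (.leaf 344 2554 (.leaf 342 2546 .nil)) .nil)) .nil)) .nil)) (.cons 324 (.cons 345 (.leaf 344 2562 (.cons 296 (.leaf 297 2371 (.cons 301 (.leaf 300 2377 (.cons 325 (.leaf 302 2385 (.leaf 346 2570 .nil)) .nil)) .nil)) .nil)) (.cons 349 (.leaf 348 2568 (.cons 296 (.leaf 297 2371 (.cons 301 (.leaf 300 2377 (.cons 325 (.leaf 302 2385 (.leaf 350 2576 .nil)) .nil)) .nil)) .nil)) (.cons 345 (.leaf 344 2562 (.cons 296 (.leaf 297 2371 (.cons 325 (.leaf 346 2570 (.cons 349 (.leaf 348 2568 (.leaf 350 2576 .nil)) .nil)) .nil)) .nil)) (.cons 345 (.leaf 344 2562 (.cons 300 (.leaf 301 2377 (.cons 325 (.leaf 346 2570 (.cons 349 (.leaf 348 2568 (.leaf 350 2576 .nil)) .nil)) .nil)) .nil)) (.cons 345 (.leaf 344 2562 (.cons 297 (.leaf 296 2371 (.cons 348 (.leaf 349 2568 (.cons 369 t51 .nil)) .nil)) .nil)) .nil))))) (.cons 324 (.cons 344 (.leaf 345 2562 (.cons 320 (.leaf 343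 2554 (.cons 348 (.leaf 347 2560 (.leaf 349 2568 .nil)) .nil)) .nil)) (.cons 301 (.leaf 300 2377 (.cons 325 (.leaf 302 2385 (.cons 345 (.leaf 344 2562 (.leaf 346 2570 .nil)) .nil)) .nil)) (.cons 301 (.leaf 300 2377 (.cons 325 (.leaf 302 2385 (.cons 349 (.leaf 348 2568 (.leaf 350 2576 .nil)) .nil)) .nil)) .nil))) (.cons 324 t50 (.cons 320 t49 (.cons 324 (.cons 296 (.leaf 297 2371 (.cons 300 (.leaf 301 2377 (.cons 320 (.leaf 295 2363 (.cons 343 (.leaf 344 2554 (.cons 319 (.leaf 248 1982 (.leaf 342 2546 .nil)) .nil)) .nil)) .nil)) .nil)) (.cons 301 (.leaf 300 2377 (.cons 325 (.leaf 302 2385 (.cons 345 (.leaf 344 2562 (.leaf 346 2570 .nil)) .nil)) .nil)) (.cons 296 (.leaf 297 2371 (.cons 295 (.leaf 320 2363 (.cons 301 (.leaf 300 2377 (.cons 325 (.leaf 302 2385 (.cons 346 (.leaf 345 2570 (.cons 326 (.leaf 347 2578 (.cons 350 (.leaf 349 2576 (.leaf 351 2584 .nil)) .nil)) .nil)) .nil)) .nil))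 .nil)) .nil)) (.cons 296 (.leaf 297 2371 (.cons 320 (.leaf 295 2363 (.cons 343 (.leaf 344 2554 (.cons 319 (.leaf 248 1982 (.leaf 342 2546 .nil)) .nil)) .nil)) .nil)) .nil)))) (.cons 324 (.cons 296 (.leaf 297 2371 (.cons 295 (.leaf 320 2363 (.cons 301 (.leaf 300 2377 (.cons 325 (.leaf 302 2385 (.cons 349 (.leaf 348 2568 (.leaf 350 2576 .nil)) .nil)) .nil)) .nil)) .nil)) (.cons 345 (.leaf 344 2562 (.cons 300 (.leaf 301 2377 (.cons 325 (.leaf 346 2570 (.cons 349 (.leaf 348 2568 (.leaf 350 2576 .nil)) .nil)) .nil)) .nil)) (.cons 296 (.leaf 297 2371 (.cons 320 (.leaf 295 2363 (.cons 343 (.leaf 344 2554 (.cons 319 (.leaf 248 1982 (.leaf 342 2546 .nil)) .nil)) .nil)) .nil)) .nil))) (.cons 324 (.cons 296 (.leaf 297 2371 (.cons 295 (.leaf 320 2363 (.cons 301 (.leaf 300 2377 (.cons 325 (.leaf 302 2385 (.cons 349 (.leaf 348 2568 (.leaf 350 2576 .nil)) .nil)) .nil)) .nil)) .nil)) (.cons 300 (.leaf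 301 2377 (.cons 344 (.leaf 345 2562 (.cons 320 (.leaf 343 2554 (.cons 348 (.leaf 347 2560 (.leaf 349 2568 .nil)) .nil)) .nil)) .nil)) (.cons 296 (.leaf 297 2371 (.cons 300 (.leaf 301 2377 (.cons 320 (.leaf 295 2363 (.cons 343 (.leaf 344 2554 (.cons 319 (.leaf 248 1982 (.leaf 342 2546 .nil)) .nil)) .nil)) .nil)) .nil)) (.cons 296 (.leaf 297 2371 (.cons 320 (.leaf 295 2363 (.cons 348 (.leaf 347 2560 (.leaf 349 2568 .nil)) .nil)) .nil)) (.cons 296 (.leaf 297 2371 (.cons 301 (.leaf 300 2377 (.cons 325 (.leaf 302 2385 (.cons 349 (.leaf 348 2568 (.leaf 350 2576 .nil)) .nil)) .nil)) .nil)) .nil))))) .nil))))))))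
noncomputable def t53 : T := .cons 298 (.cons 347 (.leaf 250 2004 (.cons 371 (.leaf 346 2196 (.leaf 395 2391 .nil)) .nil)) (.cons 250 (.leaf 347 2004 (.cons 226 (.cons 227 (.leaf 203 1621 (.leaf 251 1813 .nil)) (.cons 321 (.leaf 297 1806 (.leaf 345 1998 .nil)) .nil)) .nil)) (.cons 251 (.leaf 346 2005 (.cons 227 (.leaf 203 1622 (.leaf 250 1813 .nil)) .nil)) (.cons 346 (.leaf 251 2005 (.cons 370 (.cons 347 (.leaf 371 2196 (.cons 393 (.leaf 369 2382 (.cons 394 (.leaf 418 2581 (.leaf 417 2574 .nil)) .nil)) .nil)) (.cons 393 (.leaf 369 2382 (.cons 394 (.leaf 417 2574 (.cons 297 (.leaf 321 2383 (.cons 295 (.leaf 296 2360 (.cons 324 (.leaf 325 2379 (.cons 418 (.leaf 347 2581 (.cons 419 (.leaf 395 2580 (.leaf 443 2772 .nil)) .nil)) .nil)) .nil)) .nil)) .nil)) .nil)) (.cons 371 (.leaf 347 2196 (.leaf 395 2388 .nil)) (.cons 393 (.leaf 369 2382 (.cons 394 (.leaf 417 2574 (.cons 395 (.leaf 371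 2388 (.leaf 419 2580 .nil)) .nil)) .nil)) .nil)))) .nil)) .nil)))) (.cons 321 t52 (.cons 324 t48 (.cons 298 (.cons 347 (.leaf 250 2004 (.cons 371 (.leaf 346 2196 (.leaf 395 2391 .nil)) .nil)) (.cons 250 (.leaf 347 2004 (.cons 226 (.cons 227 (.leaf 203 1621 (.leaf 251 1813 .nil)) (.cons 201 (.leaf 225 1615 (.cons 202 (.leaf 177 1423 (.cons 178 (.leaf 251 1428 (.cons 179 (.leaf 203 1429 (.leaf 155 1237 .nil)) .nil)) .nil)) .nil)) (.cons 201 (.leaf 225 1615 (.cons 202 (.leaf 177 1423 (.cons 203 (.leaf 179 1429 (.leaf 227 1621 .nil)) .nil)) .nil)) (.cons 251 (.leaf 227 1813 (.cons 201 (.leaf 225 1615 (.cons 202 (.leaf 178 1428 (.leaf 177 1423 .nil)) .nil)) .nil)) .nil)))) .nil)) (.cons 251 (.leaf 346 2005 (.cons 227 (.leaf 203 1622 (.leaf 250 1813 .nil)) .nil)) (.cons 346 (.leaf 251 2005 (.cons 345 (.leaf 369 2190 (.cons 324 (.leaf 325 2570 (.cons 344 (.leaf 343 2553 (.leaf 347 2561 .nil))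 .nil)) .nil)) .nil)) .nil)))) (.cons 298 t45 (.cons 298 (.cons 346 (.leaf 251 2005 (.cons 345 (.leaf 369 2190 (.cons 344 (.leaf 343 2553 (.cons 347 (.leaf 250 2004 (.leaf 371 2196 .nil)) .nil)) .nil)) .nil)) (.cons 250 (.leaf 347 2004 (.cons 227 (.leaf 251 1813 (.cons 226 (.leaf 203 1621 (.cons 321 (.leaf 297 1806 (.leaf 345 1998 .nil)) .nil)) .nil)) .nil)) (.cons 251 (.leaf 346 2005 (.cons 227 (.leaf 203 1622 (.leaf 250 1813 .nil)) .nil)) (.cons 346 (.leaf 251 2005 (.cons 345 (.leaf 369 2190 (.cons 344 (.leaf 343 2553 (.cons 347 (.leaf 371 2196 (.cons 320 (.leaf 319 2555 (.cons 321 (.leaf 348 2560 (.cons 296 (.leaf 248 1988 (.leaf 295 2363 .nil)) .nil)) .nil)) .nil)) .nil)) .nil)) .nil)) (.cons 250 (.leaf 347 2004 (.cons 321 (.leaf 345 1998 (.cons 226 (.leaf 297 1806 (.cons 201 (.leaf 225 1615 (.cons 202 (.leaf 177 1423 (.cons 203 (.leaf 179 1429 (.leaf 227 1621 .nil)) .nil)) .nil))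 .nil)) .nil)) .nil)) .nil))))) (.cons 298 t43 (.cons 298 t42 .nil)))))))
noncomputable def t54 : T := .cons 250 (.leaf 347 2007 (.cons 226 (.leaf 202 1620 (.leaf 251 1815 .nil)) .nil)) (.cons 251 (.cons 226 (.leaf 250 1815 (.cons 227 (.leaf 202 1623 (.cons 228 (.leaf 204 1629 (.leaf 252 1821 .nil)) .nil)) .nil)) (.cons 322 (.leaf 346 2006 (.cons 227 (.leaf 298 1814 (.cons 324 (.leaf 300 1820 (.leaf 348 2012 .nil)) .nil)) .nil)) (.cons 250 (.leaf 226 1815 (.cons 322 (.leaf 346 2006 (.cons 252 (.leaf 228 1821 (.cons 253 (.leaf 254 2002 (.cons 229 (.leaf 230 1809 (.cons 277 (.leaf 278 2000 (.cons 324 (.leaf 348 2012 (.cons 301 (.leaf 300 1830 (.cons 302 (.leaf 325 2385 (.leaf 326 1836 .nil)) .nil)) .nil)) .nil)) .nil)) .nil)) .nil)) .nil)) .nil)) .nil))) (.cons 251 (.cons 228 (.leaf 252 1821 (.cons 346 (.leaf 322 2006 (.cons 227 (.leaf 204 1629 (.cons 324 (.leaf 300 1820 (.leaf 348 2012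 .nil)) .nil)) .nil)) .nil)) (.cons 324 (.leaf 348 2012 (.cons 227 (.leaf 300 1820 (.cons 228 (.leaf 204 1629 (.leaf 252 1821 .nil)) .nil)) .nil)) (.cons 228 (.leaf 252 1821 (.cons 204 (.leaf 227 1629 (.cons 346 (.leaf 322 2006 (.cons 347 (.leaf 370 2198 (.cons 371 (.leaf 298 2199 (.cons 372 (.leaf 348 2204 (.leaf 396 2396 .nil)) .nil)) .nil)) .nil)) .nil)) .nil)) (.cons 228 (.leaf 252 1821 (.cons 227 (.leaf 204 1629 (.cons 298 (.leaf 203 1622 (.leaf 322 1814 .nil)) .nil)) .nil)) (.cons 228 (.leaf 252 1821 (.cons 346 (.leaf 322 2006 (.cons 347 (.leaf 370 2198 (.cons 348 (.leaf 324 2012 (.leaf 372 2204 .nil)) .nil)) .nil)) .nil)) (.cons 322 (.leaf 346 2006 (.cons 227 (.leaf 298 1814 (.cons 324 (.leaf 300 1820 (.leaf 348 2012 .nil)) .nil)) .nil)) .nil)))))) (.cons 250 (.leaf 347 2007 (.cons 226 (.leaf 202 1620 (.leaf 298 1812 .nil)) .nil)) .nil)))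
noncomputable def t55 : T := .cons 299 t54 (.cons 322 t53 (.cons 322 t41 (.cons 299 t33 (.cons 299 t28 (.cons 322 t27 (.cons 299 t15 (.cons 299 t14 (.cons 322 (.cons 346 (.cons 298 (.leaf 251 2005 (.cons 299 (.leaf 370 2197 (.cons 347 (.leaf 250 2004 (.leaf 371 2196 .nil)) .nil)) .nil)) (.cons 299 (.leaf 251 2006 (.cons 370 (.leaf 347 2198 (.leaf 394 2389 .nil)) .nil)) (.cons 298 (.leaf 251 2005 (.cons 345 (.leaf 369 2190 (.cons 344 (.leaf 343 2553 (.cons 347 (.leaf 250 2004 (.leaf 371 2196 .nil)) .nil)) .nil)) .nil)) (.cons 298 (.cons 299 (.leaf 370 2197 (.cons 347 (.leaf 250 2004 (.leaf 371 2196 .nil)) .nil)) (.cons 369 (.leaf 345 2190 (.cons 370 (.leaf 299 2197 (.leaf 393 2382 .nil)) .nil)) (.cons 345 (.leaf 369 2190 (.cons 344 (.leaf 343 2553 (.cons 347 (.leaf 250 2004 (.leaf 371 2196 .nil)) .nil)) .nil)) .nil))) (.cons 251 (.leaf 298 2005 (.leaf 299 2006 .nil)) .nil))))) t13)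 (.cons 299 t11 (.cons 299 (.cons 251 (.cons 226 (.leaf 250 1815 (.cons 227 (.leaf 202 1623 (.cons 228 (.leaf 204 1629 (.leaf 252 1821 .nil)) .nil)) .nil)) (.cons 322 (.leaf 346 2006 (.cons 227 (.leaf 298 1814 (.cons 228 (.leaf 204 1629 (.leaf 252 1821 .nil)) .nil)) .nil)) (.cons 250 (.leaf 226 1815 (.leaf 347 2007 .nil)) .nil))) (.cons 346 t10 (.cons 251 t9 (.cons 250 (.leaf 347 2007 (.cons 226 (.leaf 202 1620 (.leaf 251 1815 .nil)) .nil)) (.cons 347 (.leaf 250 2007 (.cons 346 (.leaf 370 2198 (.cons 371 (.leaf 298 2199 (.cons 396 (.leaf 372 2396 (.cons 395 (.leaf 420 2588 (.cons 300 (.leaf 324 2397 (.cons 301 (.leaf 302 2195 (.cons 418 (.leaf 394 2582 (.cons 419 (.leaf 322 2583 (.leaf 442 2774 .nil)) .nil)) .nil)) .nil)) .nil)) .nil)) .nil)) .nil)) .nil)) .nil))))) (.cons 299 t8 (.cons 299 t7 (.cons 299 t6 (.cons 299 t5 .nil))))))))))))))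
noncomputable def t56 : T := .cons 296 (.leaf 295 2170 (.cons 251 (.leaf 252 1985 (.cons 299 (.leaf 300 2176 (.cons 320 (.cons 298 (.leaf 271 2168 (.cons 319 (.leaf 343 1982 (.leaf 297 2362 .nil)) .nil)) (.cons 249 (.leaf 225 1797 (.leaf 344 1989 .nil)) .nil)) .nil)) .nil)) .nil)) (.cons 251 (.leaf 252 1985 (.cons 299 (.leaf 300 2176 (.cons 298 (.leaf 271 2168 (.cons 227 (.leaf 203 1622 (.cons 226 (.leaf 202 1623 (.cons 228 (.leaf 204 1629 (.cons 225 (.leaf 249 1794 (.cons 200 (.leaf 201 1603 (.cons 224 (.leaf 297 1604 (.leaf 199 1595 .nil)) .nil)) .nil)) .nil)) .nil)) .nil)) .nil)) .nil)) .nil)) (.cons 296 (.leaf 295 2170 (.cons 251 (.leaf 252 1985 (.cons 224 (.cons 297 (.leaf 200 1604 (.leaf 321 1796 .nil)) (.cons 199 (.leaf 223 1599 (.cons 200 (.leaf 175 1407 (.cons 201 (.leaf 177 1413 (.leaf 225 1605 .nil)) .nil)) .nil)) (.cons 199 (.leaf 223 1599 (.cons 321 (.leaf 297 1796 (.cons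 320 (.leaf 345 1988 (.cons 343 (.leaf 319 1982 (.cons 344 (.leaf 249 1989 (.leaf 367 2174 .nil)) .nil)) .nil)) .nil)) .nil)) .nil))) .nil)) .nil)) (.cons 295 (.leaf 296 2170 (.cons 271 (.leaf 294 2162 (.cons 299 (.leaf 300 2176 (.leaf 298 2168 .nil)) .nil)) .nil)) .nil)))
noncomputable def t57 : T := .cons 199 (.leaf 223 1599 (.cons 201 (.leaf 225 1605 (.cons 319 (.leaf 295 1790 (.cons 320 (.leaf 343 1982 (.cons 344 (.leaf 249 1989 (.cons 345 (.leaf 321 1988 (.leaf 369 2180 .nil)) .nil)) .nil)) .nil)) .nil)) .nil)) (.cons 321 (.leaf 297 1796 (.cons 199 (.leaf 223 1599 (.cons 320 (.leaf 345 1988 (.cons 344 (.leaf 249 1989 (.cons 343 (.leaf 319 1982 (.leaf 367 2174 .nil)) .nil)) .nil)) .nil)) .nil)) (.cons 225 (.leaf 201 1605 (.cons 319 (.leaf 295 1790 (.cons 320 (.leaf 249 1797 (.leaf 343 1982 .nil)) .nil)) .nil)) (.cons 297 (.leaf 321 1796 (.cons 201 (.leaf 225 1605 (.cons 223 (.leaf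 199 1599 (.cons 295 (.leaf 319 1790 (.cons 294 (.leaf 293 2153 (.cons 270 (.leaf 269 2155 (.cons 318 (.leaf 317 2346 (.cons 247 (.leaf 246 1781 (.leaf 271 1782 .nil)) .nil)) .nil)) .nil)) .nil)) .nil)) .nil)) .nil)) (.cons 321 (.leaf 297 1796 (.cons 199 (.leaf 223 1599 (.cons 320 (.leaf 345 1988 (.cons 344 (.leaf 249 1989 (.cons 271 (.leaf 247 1983 (.cons 368 (.leaf 295 2175 (.cons 367 (.leaf 343 2174 (.leaf 391 2366 .nil)) .nil)) .nil)) .nil)) .nil)) .nil)) .nil)) .nil))))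
noncomputable def t58 : T := .cons 274 (.leaf 247 1979 (.cons 296 (.leaf 295 2170 (.cons 251 (.leaf 252 1985 (.cons 299 (.leaf 300 2176 (.cons 320 (.cons 249 (.leaf 225 1797 (.leaf 344 1989 .nil)) (.cons 298 (.leaf 271 2168 (.cons 319 (.leaf 343 1982 (.leaf 297 2362 .nil)) .nil)) .nil)) .nil)) .nil)) .nil)) .nil)) (.cons 224 (.cons 200 (.leaf 297 1604 (.cons 176 (.leaf 249 1412 (.cons 177 (.leaf 201 1413 (.leaf 153 1221 .nil)) .nil)) .nil)) (.cons 296 t57 (.cons 200 (.cons 176 (.leaf 249 1412 (.cons 177 (.leaf 201 1413 (.leaf 153 1221 .nil)) .nil)) (.cons 199 (.leaf 175 1407 (.cons 295 (.leaf 271 1598 (.cons 296 (.leaf 223 1599 (.leaf 319 1790 .nil)) .nil)) .nil)) .nil)) (.cons 200 (.leaf 297 1604 (.cons 199 (.leaf 175 1407 (.cons 295 (.leaf 271 1598 (.cons 296 (.leaf 223 1599 (.leaf 319 1790 .nil)) .nil)) .nil)) .nil)) .nil)))) (.cons 274 t56 (.cons 274 (.leaf 247 1979 (.cons 251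 (.leaf 252 1985 (.cons 299 (.leaf 300 2176 (.cons 298 (.leaf 271 2168 (.cons 227 (.leaf 203 1622 (.cons 226 (.leaf 202 1623 (.cons 228 (.leaf 204 1629 (.cons 225 (.leaf 249 1794 (.cons 200 (.leaf 201 1603 (.cons 224 (.leaf 297 1604 (.leaf 199 1595 .nil)) .nil)) .nil)) .nil)) .nil)) .nil)) .nil)) .nil)) .nil)) .nil)) (.cons 274 (.leaf 247 1979 (.cons 295 (.leaf 296 2170 (.cons 271 (.leaf 294 2162 (.cons 299 (.leaf 300 2176 (.leaf 298 2168 .nil)) .nil)) .nil)) .nil)) (.cons 274 (.leaf 247 1979 (.cons 296 (.leaf 295 2170 (.cons 251 (.leaf 252 1985 (.cons 299 (.leaf 300 2176 (.cons 320 (.cons 249 (.leaf 225 1797 (.leaf 344 1989 .nil)) (.cons 321 (.leaf 345 1988 (.cons 224 (.leaf 297 1796 (.cons 199 (.leaf 223 1599 (.cons 200 (.leaf 175 1407 (.cons 201 (.leaf 177 1413 (.leaf 225 1605 .nil)) .nil)) .nil)) .nil)) .nil)) (.cons 344 (.leaf 249 1989 (.cons 343 (.leaf 319 1982 (.leaf 367 2174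 .nil)) .nil)) .nil))) .nil)) .nil)) .nil)) .nil)) .nil)))))
noncomputable def t59 : T := .cons 199 (.leaf 223 1599 (.cons 175 (.leaf 200 1407 (.cons 201 (.leaf 225 1605 (.cons 321 (.leaf 297 1796 (.cons 320 (.leaf 345 1988 (.cons 343 (.leaf 319 1982 (.cons 344 (.leaf 367 2174 (.cons 273 (.leaf 249 1989 (.cons 274 (.leaf 247 1979 (.leaf 295 2170 .nil)) .nil)) .nil)) .nil)) .nil)) .nil)) .nil)) .nil)) .nil)) (.cons 199 (.leaf 223 1599 (.cons 200 (.leaf 175 1407 (.cons 177 (.leaf 201 1413 (.cons 153 (.leaf 176 1221 (.cons 273 (.leaf 297 1604 (.cons 319 (.leaf 295 1790 (.cons 320 (.leaf 343 1982 (.cons 344 (.leaf 249 1989 (.cons 345 (.leaf 321 1988 (.leaf 369 2180 .nil)) .nil)) .nil)) .nil)) .nil)) .nil)) .nil)) .nil)) .nil)) (.cons 225 (.leaf 201 1605 (.cons 199 (.leaf 223 1599 (.cons 200 (.leaf 175 1407 (.cons 197 (.leaf 198 1576 (.cons 249 (.leaf 320 1797 (.cons 176 (.leaf 273 1412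 (.leaf 152 1220 .nil)) .nil)) .nil)) .nil)) .nil)) .nil)) (.cons 225 (.leaf 201 1605 (.cons 319 (.leaf 295 1790 (.cons 320 (.leaf 249 1797 (.leaf 343 1982 .nil)) .nil)) .nil)) (.cons 297 (.leaf 321 1796 (.cons 199 (.leaf 223 1599 (.cons 200 (.leaf 175 1407 (.leaf 273 1604 .nil)) .nil)) .nil)) .nil))))
noncomputable def t60 : T := .cons 199 (.leaf 223 1599 (.cons 175 (.leaf 200 1407 (.cons 225 (.leaf 201 1605 (.cons 320 (.leaf 249 1797 (.cons 343 (.leaf 319 1982 (.cons 344 (.leaf 367 2174 (.cons 247 (.leaf 271 1983 (.cons 226 (.leaf 227 1786 (.cons 245 (.leaf 246 1769 (.cons 273 (.leaf 274 1979 (.cons 368 (.leaf 297 2181 (.cons 369 (.leaf 345 2180 (.leaf 393 2372 .nil)) .nil)) .nil)) .nil)) .nil)) .nil)) .nil)) .nil)) .nil)) .nil)) .nil)) .nil)) (.cons 295 (.leaf 319 1790 (.cons 199 (.leaf 223 1599 (.cons 200 (.leaf 175 1407 (.leaf 271 1598 .nil)) .nil)) .nil)) (.cons 295 (.leaf 319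 1790 (.cons 200 (.leaf 271 1598 (.cons 201 (.leaf 177 1413 (.leaf 225 1605 .nil)) .nil)) .nil)) (.cons 225 (.leaf 201 1605 (.cons 320 (.leaf 249 1797 (.cons 247 (.leaf 223 1791 (.cons 226 (.leaf 227 1786 (.cons 245 (.leaf 246 1769 (.cons 271 (.leaf 344 1983 (.cons 200 (.leaf 295 1598 (.leaf 176 1406 .nil)) .nil)) .nil)) .nil)) .nil)) .nil)) .nil)) (.cons 225 (.leaf 201 1605 (.cons 319 (.leaf 295 1790 (.cons 320 (.leaf 249 1797 (.leaf 343 1982 .nil)) .nil)) .nil)) .nil))))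
noncomputable def t61 : T := .cons 225 (.leaf 249 1797 (.cons 201 (.leaf 224 1605 (.cons 343 (.leaf 319 1982 (.cons 344 (.leaf 367 2174 (.cons 369 (.leaf 345 2180 (.cons 368 (.leaf 393 2372 (.cons 273 (.leaf 297 2181 (.cons 295 (.leaf 274 2170 (.leaf 271 2175 .nil)) .nil)) .nil)) .nil)) .nil)) .nil)) .nil)) .nil)) (.cons 321 (.leaf 345 1988 (.cons 224 (.leaf 297 1796 (.cons 201 (.leaf 225 1605 (.cons 200 (.leaf 177 1413 (.cons 271 (.leaf 295 1598 (.cons 175 (.leaf 199 1407 (.cons 176 (.leaf 151 1215 (.leaf 247 1406 .nil)) .nil)) .nil)) .nil)) .nil)) .nil)) .nil)) (.cons 225 (.leaf 249 1797 (.cons 201 (.leaf 224 1605 (.cons 343 (.leaf 319 1982 (.cons 344 (.leaf 367 2174 (.cons 271 (.leaf 247 1983 (.cons 368 (.leaf 295 2175 (.cons 297 (.leaf 273 2181 (.cons 269 (.leaf 270 2152 (.cons 298 (.leaf 299 2171 (.cons 392 (.leaf 321 2373 (.cons 393 (.leaf 369 2372 (.leaf 417 2564 .nil)) .nil))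 .nil)) .nil)) .nil)) .nil)) .nil)) .nil)) .nil)) .nil)) .nil)) (.cons 319 (.leaf 343 1982 (.cons 224 (.leaf 295 1790 (.cons 321 (.leaf 297 1796 (.leaf 345 1988 .nil)) .nil)) .nil)) (.cons 225 (.leaf 249 1797 (.cons 319 (.leaf 343 1982 (.cons 345 (.leaf 321 1988 (.cons 344 (.leaf 369 2180 (.cons 247 (.leaf 271 1983 (.cons 273 (.leaf 274 1979 (.cons 245 (.leaf 246 1960 (.cons 297 (.leaf 368 2181 (.cons 318 (.leaf 317 2536 (.cons 298 (.leaf 295 2354 (.leaf 299 2362 .nil)) .nil)) .nil)) .nil)) .nil)) .nil)) .nil)) .nil)) .nil)) .nil)) (.cons 319 (.leaf 343 1982 (.cons 224 (.leaf 295 1790 (.cons 225 (.leaf 201 1605 (.leaf 249 1797 .nil)) .nil)) .nil)) (.cons 321 (.leaf 345 1988 (.cons 297 (.leaf 224 1796 (.cons 319 (.leaf 343 1982 (.cons 298 (.leaf 299 2362 (.leaf 318 2353 .nil)) .nil)) .nil)) .nil)) .nil))))))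
noncomputable def t62 : T := .cons 223 (.leaf 247 1791 (.cons 199 (.leaf 224 1599 (.cons 343 (.leaf 319 1982 (.cons 344 (.leaf 367 2174 (.cons 273 (.leaf 249 1989 (.cons 368 (.leaf 297 2181 (.cons 369 (.leaf 345 2180 (.leaf 393 2372 .nil)) .nil)) .nil)) .nil)) .nil)) .nil)) .nil)) (.cons 319 (.leaf 343 1982 (.cons 224 (.leaf 295 1790 (.cons 321 (.leaf 297 1796 (.leaf 345 1988 .nil)) .nil)) .nil)) (.cons 247 (.leaf 223 1791 (.cons 271 (.leaf 344 1983 (.cons 273 (.leaf 274 1979 (.cons 245 (.leaf 246 1960 (.cons 321 (.leaf 345 1988 (.cons 224 (.leaf 297 1796 (.cons 200 (.leaf 295 1598 (.leaf 176 1406 .nil)) .nil)) .nil)) .nil)) .nil)) .nil)) .nil)) (.cons 223 (.leaf 247 1791 (.cons 199 (.leaf 224 1599 (.cons 343 (.leaf 319 1982 (.cons 344 (.leaf 367 2174 (.cons 273 (.leaf 249 1989 (.cons 274 (.leaf 295 2170 (.cons 251 (.leaf 252 1985 (.cons 297 (.leaf 368 2181 (.cons 299 (.leaf 300 2176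 (.cons 298 (.leaf 271 2168 (.cons 227 (.leaf 203 1622 (.leaf 322 1814 .nil)) .nil)) .nil)) .nil)) .nil)) .nil)) .nil)) .nil)) .nil)) .nil)) .nil)) (.cons 223 (.leaf 247 1791 (.cons 319 (.leaf 343 1982 (.cons 345 (.leaf 321 1988 (.cons 344 (.leaf 369 2180 (.cons 273 (.leaf 249 1989 (.cons 297 (.leaf 368 2181 (.cons 318 (.leaf 317 2536 (.cons 298 (.leaf 295 2354 (.leaf 299 2362 .nil)) .nil)) .nil)) .nil)) .nil)) .nil)) .nil)) .nil)) (.cons 223 (.leaf 247 1791 (.cons 199 (.leaf 224 1599 (.cons 343 (.leaf 319 1982 (.cons 344 (.leaf 367 2174 (.cons 345 (.leaf 321 1988 (.leaf 369 2180 .nil)) .nil)) .nil)) .nil)) .nil)) .nil)))))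
noncomputable def t63 : T := .cons 224 (.cons 225 (.leaf 201 1605 (.cons 320 (.leaf 249 1797 (.cons 295 (.leaf 319 1790 (.cons 271 (.leaf 200 1598 (.cons 344 (.leaf 247 1983 (.leaf 368 2175 .nil)) .nil)) .nil)) .nil)) .nil)) (.cons 297 (.leaf 321 1796 (.cons 199 (.leaf 223 1599 (.cons 225 (.leaf 201 1605 (.cons 320 (.leaf 249 1797 (.cons 343 (.leaf 319 1982 (.cons 344 (.leaf 367 2174 (.cons 368 (.leaf 273 2181 (.cons 369 (.leaf 345 2180 (.leaf 393 2372 .nil)) .nil)) .nil)) .nil)) .nil)) .nil)) .nil)) .nil)) (.cons 297 (.leaf 321 1796 (.cons 200 (.leaf 273 1604 (.cons 271 (.leaf 295 1598 (.cons 176 (.leaf 247 1406 (.cons 175 (.leaf 199 1407 (.leaf 151 1215 .nil)) .nil)) .nil)) .nil)) .nil)) .nil))) (.cons 320 (.cons 223 (.leaf 247 1791 (.cons 343 (.leaf 319 1982 (.cons 344 (.leaf 367 2174 (.cons 345 (.leaf 321 1988 (.leaf 369 2180 .nil)) .nil)) .nil)) .nil)) (.cons 249 (.leaf 225 1797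 (.cons 343 (.leaf 319 1982 (.cons 344 (.leaf 273 1989 (.leaf 367 2174 .nil)) .nil)) .nil)) (.cons 247 (.leaf 223 1791 (.cons 225 (.leaf 249 1797 (.cons 344 (.leaf 271 1983 (.cons 345 (.leaf 321 1988 (.leaf 369 2180 .nil)) .nil)) .nil)) .nil)) (.cons 247 (.leaf 223 1791 (.cons 249 (.leaf 225 1797 (.cons 273 (.leaf 274 1979 (.cons 246 (.leaf 245 1960 (.cons 222 (.leaf 221 1771 (.cons 319 (.leaf 343 1982 (.cons 295 (.leaf 271 1783 (.cons 321 (.leaf 345 1988 (.cons 322 (.leaf 323 2363 (.cons 346 (.leaf 347 2552 (.leaf 297 1996 .nil)) .nil)) .nil)) .nil)) .nil)) .nil)) .nil)) .nil)) .nil)) .nil)) .nil)))) (.cons 224 (.cons 199 (.leaf 223 1599 (.cons 201 (.leaf 225 1605 (.cons 295 (.leaf 319 1790 (.cons 297 (.leaf 321 1796 (.cons 298 (.leaf 274 2169 (.cons 200 (.leaf 175 1407 (.leaf 177 1413 .nil)) .nil)) .nil)) .nil)) .nil)) .nil)) (.cons 199 (.leaf 223 1599 (.cons 200 (.leaf 175 1407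 (.cons 201 (.leaf 177 1413 (.leaf 225 1605 .nil)) .nil)) .nil)) (.cons 201 (.leaf 225 1605 (.cons 200 (.leaf 177 1413 (.cons 295 (.leaf 271 1598 (.leaf 319 1790 .nil)) .nil)) .nil)) (.cons 295 (.leaf 319 1790 (.cons 199 (.leaf 223 1599 (.cons 200 (.leaf 175 1407 (.leaf 271 1598 .nil)) .nil)) .nil)) (.cons 199 (.leaf 223 1599 (.cons 201 (.leaf 225 1605 (.cons 295 (.leaf 319 1790 (.cons 297 (.leaf 321 1796 (.cons 298 (.leaf 274 2169 (.cons 271 (.leaf 299 2171 (.leaf 270 2163 .nil)) .nil)) .nil)) .nil)) .nil)) .nil)) .nil))))) (.cons 320 (.cons 223 (.leaf 247 1791 (.cons 224 (.leaf 199 1599 (.cons 321 (.leaf 297 1796 (.leaf 345 1988 .nil)) .nil)) .nil)) (.cons 321 (.leaf 345 1988 (.cons 297 (.leaf 224 1796 (.cons 319 (.leaf 343 1982 (.cons 298 (.leaf 299 2362 (.leaf 318 2353 .nil)) .nil)) .nil)) .nil)) (.cons 247 (.leaf 223 1791 (.cons 225 (.leaf 249 1797 (.cons 343 (.leaf 319 1982 (.cons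 344 (.leaf 271 1983 (.leaf 367 2174 .nil)) .nil)) .nil)) .nil)) .nil))) (.cons 320 (.cons 223 (.leaf 247 1791 (.cons 199 (.leaf 224 1599 (.cons 343 (.leaf 319 1982 (.cons 344 (.leaf 367 2174 (.cons 345 (.leaf 321 1988 (.leaf 369 2180 .nil)) .nil)) .nil)) .nil)) .nil)) (.cons 319 (.leaf 343 1982 (.cons 224 (.leaf 295 1790 (.cons 225 (.leaf 201 1605 (.leaf 249 1797 .nil)) .nil)) .nil)) (.cons 223 (.leaf 247 1791 (.cons 199 (.leaf 224 1599 (.cons 249 (.leaf 225 1797 (.cons 344 (.leaf 273 1989 (.cons 345 (.leaf 321 1988 (.leaf 369 2180 .nil)) .nil)) .nil)) .nil)) .nil)) (.cons 247 (.leaf 223 1791 (.cons 225 (.leaf 249 1797 (.cons 319 (.leaf 343 1982 (.cons 344 (.leaf 271 1983 (.cons 345 (.leaf 321 1988 (.leaf 369 2180 .nil)) .nil)) .nil)) .nil)) .nil)) .nil)))) (.cons 320 t62 (.cons 224 (.cons 199 (.leaf 223 1599 (.cons 225 (.leaf 201 1605 (.cons 320 (.leaf 249 1797 (.cons 321 (.leaf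 297 1796 (.leaf 345 1988 .nil)) .nil)) .nil)) .nil)) (.cons 297 (.leaf 321 1796 (.cons 200 (.leaf 273 1604 (.cons 271 (.leaf 295 1598 (.cons 176 (.leaf 247 1406 (.cons 175 (.leaf 199 1407 (.leaf 151 1215 .nil)) .nil)) .nil)) .nil)) .nil)) (.cons 225 (.leaf 201 1605 (.cons 320 (.leaf 249 1797 (.cons 247 (.leaf 223 1791 (.cons 226 (.leaf 227 1786 (.cons 245 (.leaf 246 1769 (.cons 273 (.leaf 274 1979 (.cons 344 (.leaf 271 1983 (.cons 345 (.leaf 321 1988 (.leaf 369 2180 .nil)) .nil)) .nil)) .nil)) .nil)) .nil)) .nil)) .nil)) (.cons 225 (.leaf 201 1605 (.cons 320 (.leaf 249 1797 (.cons 247 (.leaf 223 1791 (.cons 226 (.leaf 227 1786 (.cons 245 (.leaf 246 1769 (.cons 271 (.leaf 344 1983 (.cons 200 (.leaf 295 1598 (.leaf 176 1406 .nil)) .nil)) .nil)) .nil)) .nil)) .nil)) .nil)) .nil)))) (.cons 320 t61 (.cons 224 t60 (.cons 224 t59 .nil)))))))))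
noncomputable def t64 : T := .cons 225 (.leaf 249 1797 (.cons 201 (.leaf 224 1605 (.cons 345 (.leaf 321 1988 (.cons 344 (.leaf 369 2180 (.cons 367 (.leaf 343 2174 (.cons 368 (.leaf 391 2366 (.cons 273 (.leaf 297 2181 (.cons 274 (.leaf 247 1979 (.leaf 295 2170 .nil)) .nil)) .nil)) .nil)) .nil)) .nil)) .nil)) .nil)) (.cons 225 (.leaf 249 1797 (.cons 201 (.leaf 224 1605 (.cons 343 (.leaf 319 1982 (.cons 344 (.leaf 367 2174 (.cons 369 (.leaf 345 2180 (.cons 368 (.leaf 393 2372 (.cons 273 (.leaf 297 2181 (.cons 295 (.leaf 274 2170 (.leaf 271 2175 .nil)) .nil)) .nil)) .nil)) .nil)) .nil)) .nil)) .nil)) (.cons 319 (.leaf 343 1982 (.cons 224 (.leaf 295 1790 (.cons 321 (.leaf 297 1796 (.leaf 345 1988 .nil)) .nil)) .nil)) (.cons 225 (.leaf 249 1797 (.cons 224 (.leaf 201 1605 (.cons 295 (.leaf 319 1790 (.cons 271 (.leaf 200 1598 (.cons 344 (.leaf 247 1983 (.leaf 368 2175 .nil)) .nil)) .nil))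 .nil)) .nil)) (.cons 225 (.leaf 249 1797 (.cons 319 (.leaf 343 1982 (.cons 345 (.leaf 321 1988 (.cons 344 (.leaf 369 2180 (.cons 247 (.leaf 271 1983 (.cons 273 (.leaf 274 1979 (.cons 245 (.leaf 246 1960 (.cons 297 (.leaf 368 2181 (.cons 318 (.leaf 317 2536 (.cons 298 (.leaf 295 2354 (.leaf 299 2362 .nil)) .nil)) .nil)) .nil)) .nil)) .nil)) .nil)) .nil)) .nil)) .nil)) (.cons 249 (.leaf 225 1797 (.cons 343 (.leaf 319 1982 (.cons 344 (.leaf 273 1989 (.leaf 367 2174 .nil)) .nil)) .nil)) .nil)))))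
noncomputable def t65 : T := .cons 319 (.leaf 343 1982 (.cons 224 (.leaf 295 1790 (.cons 321 (.leaf 297 1796 (.leaf 345 1988 .nil)) .nil)) .nil)) (.cons 247 (.leaf 223 1791 (.cons 271 (.leaf 344 1983 (.cons 273 (.leaf 274 1979 (.cons 245 (.leaf 246 1960 (.cons 321 (.leaf 345 1988 (.cons 224 (.leaf 297 1796 (.cons 200 (.leaf 295 1598 (.leaf 176 1406 .nil)) .nil)) .nil)) .nil)) .nil)) .nil)) .nil)) (.cons 223 (.leaf 247 1791 (.cons 199 (.leaf 224 1599 (.cons 343 (.leaf 319 1982 (.cons 344 (.leaf 367 2174 (.cons 273 (.leaf 249 1989 (.cons 368 (.leaf 297 2181 (.cons 369 (.leaf 345 2180 (.leaf 393 2372 .nil)) .nil)) .nil)) .nil)) .nil)) .nil)) .nil)) (.cons 223 (.leaf 247 1791 (.cons 199 (.leaf 224 1599 (.cons 343 (.leaf 319 1982 (.cons 344 (.leaf 367 2174 (.cons 273 (.leaf 249 1989 (.cons 274 (.leaf 295 2170 (.cons 251 (.leaf 252 1985 (.cons 297 (.leaf 368 2181 (.cons 299 (.leaf 300 2176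 (.cons 298 (.leaf 271 2168 (.cons 227 (.leaf 203 1622 (.leaf 322 1814 .nil)) .nil)) .nil)) .nil)) .nil)) .nil)) .nil)) .nil)) .nil)) .nil)) .nil)) (.cons 223 (.leaf 247 1791 (.cons 319 (.leaf 343 1982 (.cons 345 (.leaf 321 1988 (.cons 344 (.leaf 369 2180 (.cons 273 (.leaf 249 1989 (.cons 297 (.leaf 368 2181 (.cons 318 (.leaf 317 2536 (.cons 298 (.leaf 295 2354 (.leaf 299 2362 .nil)) .nil)) .nil)) .nil)) .nil)) .nil)) .nil)) .nil)) (.cons 223 (.leaf 247 1791 (.cons 199 (.leaf 224 1599 (.cons 343 (.leaf 319 1982 (.cons 344 (.leaf 367 2174 (.cons 345 (.leaf 321 1988 (.leaf 369 2180 .nil)) .nil)) .nil)) .nil)) .nil)) .nil)))))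
noncomputable def t66 : T := .cons 201 (.leaf 225 1605 (.cons 200 (.leaf 177 1413 (.cons 271 (.leaf 295 1598 (.cons 297 (.leaf 273 1604 (.leaf 321 1796 .nil)) .nil)) .nil)) .nil)) (.cons 225 (.leaf 201 1605 (.cons 320 (.leaf 249 1797 (.cons 247 (.leaf 223 1791 (.cons 226 (.leaf 227 1786 (.cons 245 (.leaf 246 1769 (.cons 273 (.leaf 274 1979 (.cons 344 (.leaf 271 1983 (.cons 345 (.leaf 321 1988 (.leaf 369 2180 .nil)) .nil)) .nil)) .nil)) .nil)) .nil)) .nil)) .nil)) (.cons 297 (.leaf 321 1796 (.cons 200 (.leaf 273 1604 (.cons 271 (.leaf 295 1598 (.cons 176 (.leaf 247 1406 (.cons 175 (.leaf 199 1407 (.leaf 151 1215 .nil)) .nil)) .nil)) .nil)) .nil)) (.cons 225 (.leaf 201 1605 (.cons 320 (.leaf 249 1797 (.cons 247 (.leaf 223 1791 (.cons 226 (.leaf 227 1786 (.cons 245 (.leaf 246 1769 (.cons 271 (.leaf 344 1983 (.cons 200 (.leaf 295 1598 (.leaf 176 1406 .nil)) .nil)) .nil)) .nil)) .nil))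 .nil)) .nil)) (.cons 199 (.leaf 223 1599 (.cons 200 (.leaf 175 1407 (.cons 177 (.leaf 201 1413 (.cons 153 (.leaf 176 1221 (.cons 273 (.leaf 297 1604 (.cons 274 (.leaf 247 1979 (.leaf 295 2170 .nil)) .nil)) .nil)) .nil)) .nil)) .nil)) .nil))))
noncomputable def t67 : T := .cons 223 (.leaf 247 1791 (.cons 249 (.leaf 225 1797 (.cons 343 (.leaf 319 1982 (.cons 344 (.leaf 273 1989 (.leaf 367 2174 .nil)) .nil)) .nil)) .nil)) (.cons 249 (.leaf 225 1797 (.cons 343 (.leaf 319 1982 (.cons 344 (.leaf 273 1989 (.leaf 367 2174 .nil)) .nil)) .nil)) (.cons 247 (.leaf 223 1791 (.cons 225 (.leaf 249 1797 (.cons 344 (.leaf 271 1983 (.cons 345 (.leaf 321 1988 (.leaf 369 2180 .nil)) .nil)) .nil)) .nil)) (.cons 247 (.leaf 223 1791 (.cons 273 (.leaf 274 1979 (.cons 245 (.leaf 246 1960 (.cons 321 (.leaf 345 1988 (.cons 319 (.leaf 343 1982 (.cons 344 (.leaf 271 1983 (.cons 297 (.leaf 368 2181 (.cons 298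 (.leaf 299 2362 (.leaf 318 2353 .nil)) .nil)) .nil)) .nil)) .nil)) .nil)) .nil)) .nil)) (.cons 247 (.leaf 223 1791 (.cons 249 (.leaf 225 1797 (.cons 273 (.leaf 274 1979 (.cons 246 (.leaf 245 1960 (.cons 222 (.leaf 221 1771 (.cons 319 (.leaf 343 1982 (.cons 295 (.leaf 271 1783 (.cons 321 (.leaf 345 1988 (.cons 322 (.leaf 323 2363 (.leaf 294 2355 .nil)) .nil)) .nil)) .nil)) .nil)) .nil)) .nil)) .nil)) .nil)) .nil))))
noncomputable def t68 : T := .cons 224 (.cons 199 (.leaf 223 1599 (.cons 175 (.leaf 200 1407 (.cons 295 (.leaf 319 1790 (.cons 297 (.leaf 321 1796 (.cons 298 (.leaf 274 2169 (.cons 271 (.leaf 299 2171 (.leaf 270 2163 .nil)) .nil)) .nil)) .nil)) .nil)) .nil)) (.cons 199 (.leaf 223 1599 (.cons 200 (.leaf 175 1407 (.cons 201 (.leaf 177 1413 (.leaf 225 1605 .nil)) .nil)) .nil)) (.cons 201 (.leaf 225 1605 (.cons 295 (.leaf 319 1790 (.cons 273 (.leaf 274 2170 (.cons 321 (.leaf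 297 1796 (.cons 320 (.leaf 345 1988 (.cons 200 (.leaf 177 1413 (.leaf 271 1598 .nil)) .nil)) .nil)) .nil)) .nil)) .nil)) (.cons 199 (.leaf 223 1599 (.cons 201 (.leaf 225 1605 (.cons 295 (.leaf 319 1790 (.cons 297 (.leaf 321 1796 (.cons 298 (.leaf 274 2169 (.cons 271 (.leaf 299 2171 (.leaf 270 2163 .nil)) .nil)) .nil)) .nil)) .nil)) .nil)) .nil)))) (.cons 320 t67 (.cons 224 (.cons 199 (.leaf 223 1599 (.cons 200 (.leaf 175 1407 (.cons 177 (.leaf 201 1413 (.cons 176 (.leaf 153 1221 (.cons 271 (.leaf 295 1598 (.leaf 247 1406 .nil)) .nil)) .nil)) .nil)) .nil)) (.cons 199 (.leaf 223 1599 (.cons 200 (.leaf 175 1407 (.cons 201 (.leaf 177 1413 (.leaf 225 1605 .nil)) .nil)) .nil)) (.cons 295 (.leaf 319 1790 (.cons 200 (.leaf 271 1598 (.cons 201 (.leaf 177 1413 (.leaf 225 1605 .nil)) .nil)) .nil)) (.cons 295 (.leaf 319 1790 (.cons 199 (.leaf 223 1599 (.cons 200 (.leaf 175 1407 (.leaf 271 1598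 .nil)) .nil)) .nil)) (.cons 199 (.leaf 223 1599 (.cons 201 (.leaf 225 1605 (.cons 295 (.leaf 319 1790 (.cons 297 (.leaf 321 1796 (.cons 298 (.leaf 274 2169 (.cons 271 (.leaf 299 2171 (.leaf 270 2163 .nil)) .nil)) .nil)) .nil)) .nil)) .nil)) .nil))))) (.cons 320 (.cons 223 (.leaf 247 1791 (.cons 224 (.leaf 199 1599 (.cons 321 (.leaf 297 1796 (.leaf 345 1988 .nil)) .nil)) .nil)) (.cons 225 (.leaf 249 1797 (.cons 201 (.leaf 224 1605 (.cons 343 (.leaf 319 1982 (.cons 344 (.leaf 367 2174 (.cons 345 (.leaf 321 1988 (.leaf 369 2180 .nil)) .nil)) .nil)) .nil)) .nil)) (.cons 223 (.leaf 247 1791 (.cons 199 (.leaf 224 1599 (.cons 249 (.leaf 225 1797 (.cons 343 (.leaf 319 1982 (.cons 344 (.leaf 273 1989 (.leaf 367 2174 .nil)) .nil)) .nil)) .nil)) .nil)) (.cons 247 (.leaf 223 1791 (.cons 225 (.leaf 249 1797 (.cons 343 (.leaf 319 1982 (.cons 344 (.leaf 271 1983 (.leaf 367 2174 .nil)) .nil)) .nil))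 .nil)) .nil)))) (.cons 320 (.cons 223 (.leaf 247 1791 (.cons 199 (.leaf 224 1599 (.cons 343 (.leaf 319 1982 (.cons 344 (.leaf 367 2174 (.cons 345 (.leaf 321 1988 (.leaf 369 2180 .nil)) .nil)) .nil)) .nil)) .nil)) (.cons 319 (.leaf 343 1982 (.cons 224 (.leaf 295 1790 (.cons 225 (.leaf 201 1605 (.leaf 249 1797 .nil)) .nil)) .nil)) (.cons 223 (.leaf 247 1791 (.cons 224 (.leaf 199 1599 (.cons 225 (.leaf 201 1605 (.leaf 249 1797 .nil)) .nil)) .nil)) (.cons 247 (.leaf 223 1791 (.cons 225 (.leaf 249 1797 (.cons 319 (.leaf 343 1982 (.cons 344 (.leaf 271 1983 (.cons 345 (.leaf 321 1988 (.leaf 369 2180 .nil)) .nil)) .nil)) .nil)) .nil)) .nil)))) (.cons 224 t66 (.cons 320 t65 (.cons 224 (.cons 199 (.leaf 223 1599 (.cons 225 (.leaf 201 1605 (.cons 200 (.leaf 175 1407 (.cons 197 (.leaf 198 1576 (.cons 249 (.leaf 320 1797 (.cons 273 (.leaf 297 1604 (.leaf 176 1412 .nil)) .nil)) .nil)) .nil)) .nil))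 .nil)) (.cons 295 (.leaf 319 1790 (.cons 199 (.leaf 223 1599 (.cons 200 (.leaf 175 1407 (.leaf 271 1598 .nil)) .nil)) .nil)) (.cons 295 (.leaf 319 1790 (.cons 200 (.leaf 271 1598 (.cons 201 (.leaf 177 1413 (.leaf 225 1605 .nil)) .nil)) .nil)) (.cons 199 (.leaf 223 1599 (.cons 225 (.leaf 201 1605 (.cons 319 (.leaf 295 1790 (.cons 320 (.leaf 249 1797 (.leaf 343 1982 .nil)) .nil)) .nil)) .nil)) .nil)))) (.cons 320 t64 (.cons 224 (.cons 199 (.leaf 223 1599 (.cons 225 (.leaf 201 1605 (.cons 320 (.leaf 249 1797 (.cons 321 (.leaf 297 1796 (.leaf 345 1988 .nil)) .nil)) .nil)) .nil)) (.cons 297 (.leaf 321 1796 (.cons 199 (.leaf 223 1599 (.cons 200 (.leaf 175 1407 (.leaf 273 1604 .nil)) .nil)) .nil)) (.cons 225 (.leaf 201 1605 (.cons 199 (.leaf 223 1599 (.cons 200 (.leaf 175 1407 (.cons 197 (.leaf 198 1576 (.cons 249 (.leaf 320 1797 (.cons 176 (.leaf 273 1412 (.leaf 152 1220 .nil)) .nil)) .nil))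 .nil)) .nil)) .nil)) (.cons 225 (.leaf 201 1605 (.cons 319 (.leaf 295 1790 (.cons 320 (.leaf 249 1797 (.leaf 343 1982 .nil)) .nil)) .nil)) .nil)))) .nil)))))))))
noncomputable def t69 : T := .cons 270 (.leaf 269 1962 (.cons 222 (.leaf 221 1771 (.cons 225 (.leaf 226 1777 (.cons 201 (.leaf 177 1414 (.cons 202 (.leaf 178 1421 (.cons 200 (.leaf 176 1415 (.cons 199 (.leaf 223 1586 (.cons 175 (.leaf 224 1407 (.leaf 198 1397 .nil)) .nil)) .nil)) .nil)) .nil)) .nil)) .nil)) .nil)) (.cons 225 (.leaf 226 1777 (.cons 201 (.leaf 177 1414 (.cons 178 (.leaf 202 1421 (.cons 200 (.leaf 176 1415 (.cons 224 (.leaf 297 1604 (.cons 199 (.leaf 175 1407 (.cons 198 (.leaf 197 1576 (.cons 174 (.leaf 173 1387 (.cons 271 (.leaf 295 1598 (.leaf 223 1399 .nil)) .nil)) .nil)) .nil)) .nil)) .nil)) .nil)) .nil)) .nil)) (.cons 270 (.leaf 269 1962 (.cons 222 (.leaf 221 1771 (.cons 294 (.cons 223 (.leaf 318 1781 (.leaf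 199 1589 .nil)) (.cons 293 (.leaf 271 2154 (.leaf 317 1774 .nil)) .nil)) .nil)) .nil)) (.cons 225 (.leaf 226 1777 (.cons 201 (.leaf 177 1414 (.cons 178 (.leaf 202 1421 (.cons 200 (.leaf 176 1415 (.cons 224 (.leaf 297 1604 (.cons 199 (.leaf 175 1407 (.cons 198 (.leaf 197 1576 (.cons 222 (.leaf 221 1578 (.cons 174 (.leaf 271 1396 (.leaf 173 1387 .nil)) .nil)) .nil)) .nil)) .nil)) .nil)) .nil)) .nil)) .nil)) (.cons 225 (.leaf 226 1777 (.cons 201 (.leaf 177 1414 (.cons 178 (.leaf 202 1421 (.cons 200 (.leaf 176 1415 (.cons 224 (.leaf 297 1604 (.cons 222 (.leaf 221 1771 (.cons 271 (.leaf 295 1598 (.cons 270 (.leaf 269 1961 (.cons 198 (.leaf 174 1396 (.cons 197 (.leaf 173 1391 (.leaf 223 1579 .nil)) .nil)) .nil)) .nil)) .nil)) .nil)) .nil)) .nil)) .nil)) .nil)) .nil))))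
noncomputable def t70 : T := .cons 274 (.leaf 295 2170 (.cons 251 (.leaf 252 1985 (.cons 299 (.leaf 300 2176 (.cons 320 (.cons 321 (.leaf 345 1988 (.cons 224 (.leaf 297 1796 (.cons 199 (.leaf 223 1599 (.cons 200 (.leaf 175 1407 (.cons 201 (.leaf 177 1413 (.leaf 225 1605 .nil)) .nil)) .nil)) .nil)) .nil)) (.cons 249 (.leaf 225 1797 (.leaf 344 1989 .nil)) (.cons 343 (.leaf 319 1982 (.cons 344 (.leaf 249 1989 (.leaf 367 2174 .nil)) .nil)) .nil))) .nil)) .nil)) .nil)) (.cons 224 (.cons 297 (.leaf 200 1604 (.leaf 321 1796 .nil)) (.cons 225 (.leaf 201 1605 (.cons 199 (.leaf 223 1599 (.cons 175 (.leaf 200 1407 (.cons 320 (.leaf 249 1797 (.cons 343 (.leaf 319 1982 (.cons 344 (.leaf 367 2174 (.cons 345 (.leaf 321 1988 (.leaf 369 2180 .nil)) .nil)) .nil)) .nil)) .nil)) .nil)) .nil)) (.cons 321 (.leaf 297 1796 (.cons 201 (.leaf 225 1605 (.cons 320 (.leaf 345 1988 (.cons 343 (.leaf 319 1982 (.cons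 344 (.leaf 249 1989 (.leaf 367 2174 .nil)) .nil)) .nil)) .nil)) .nil)) (.cons 200 (.leaf 297 1604 (.cons 199 (.leaf 175 1407 (.leaf 223 1599 .nil)) .nil)) .nil)))) (.cons 295 (.leaf 274 2170 (.cons 294 (.leaf 293 2153 (.cons 320 (.cons 249 (.leaf 225 1797 (.leaf 344 1989 .nil)) (.cons 319 (.leaf 343 1982 (.cons 321 (.leaf 345 1988 (.leaf 322 2355 .nil)) .nil)) .nil)) .nil)) .nil)) (.cons 295 (.leaf 274 2170 (.cons 224 (.leaf 319 1790 (.cons 199 (.leaf 223 1599 (.cons 200 (.leaf 175 1407 (.leaf 271 1598 .nil)) .nil)) .nil)) .nil)) (.cons 274 (.leaf 295 2170 (.cons 251 (.leaf 252 1985 (.cons 299 (.leaf 300 2176 (.cons 224 (.cons 199 (.leaf 223 1599 (.cons 200 (.leaf 175 1407 (.leaf 297 1604 .nil)) .nil)) (.cons 199 (.leaf 223 1599 (.cons 200 (.leaf 175 1407 (.cons 176 (.leaf 249 1412 (.cons 177 (.leaf 201 1413 (.leaf 153 1221 .nil)) .nil)) .nil)) .nil)) (.cons 199 (.leaf 223 1599 (.cons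 225 (.leaf 201 1605 (.cons 320 (.leaf 249 1797 (.cons 321 (.leaf 297 1796 (.leaf 345 1988 .nil)) .nil)) .nil)) .nil)) (.cons 297 (.leaf 200 1604 (.leaf 321 1796 .nil)) .nil)))) .nil)) .nil)) .nil)) .nil))))
noncomputable def t71 : T := .cons 201 (.leaf 225 1605 (.cons 223 (.leaf 199 1599 (.cons 295 (.leaf 319 1790 (.cons 294 (.leaf 293 2153 (.cons 297 (.leaf 321 1796 (.cons 270 (.leaf 269 2155 (.cons 318 (.leaf 317 2346 (.cons 247 (.leaf 320 1791 (.leaf 246 1781 .nil)) .nil)) .nil)) .nil)) .nil)) .nil)) .nil)) .nil)) (.cons 321 (.leaf 297 1796 (.cons 199 (.leaf 223 1599 (.cons 320 (.leaf 345 1988 (.cons 344 (.leaf 249 1989 (.cons 343 (.leaf 319 1982 (.leaf 367 2174 .nil)) .nil)) .nil)) .nil)) .nil)) (.cons 225 (.leaf 201 1605 (.cons 319 (.leaf 295 1790 (.cons 320 (.leaf 249 1797 (.leaf 343 1982 .nil)) .nil)) .nil)) (.cons 297 (.leaf 321 1796 (.cons 201 (.leaf 225 1605 (.cons 223 (.leaf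 199 1599 (.cons 295 (.leaf 319 1790 (.cons 294 (.leaf 293 2153 (.cons 270 (.leaf 269 2155 (.cons 318 (.leaf 317 2346 (.cons 247 (.leaf 246 1781 (.leaf 271 1782 .nil)) .nil)) .nil)) .nil)) .nil)) .nil)) .nil)) .nil)) (.cons 321 (.leaf 297 1796 (.cons 199 (.leaf 223 1599 (.cons 320 (.leaf 345 1988 (.cons 344 (.leaf 249 1989 (.cons 271 (.leaf 247 1983 (.cons 368 (.leaf 295 2175 (.cons 367 (.leaf 343 2174 (.leaf 391 2366 .nil)) .nil)) .nil)) .nil)) .nil)) .nil)) .nil)) .nil))))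
noncomputable def t72 : T := .cons 274 (.leaf 247 1979 (.cons 296 (.leaf 295 2170 (.cons 251 (.leaf 252 1985 (.cons 299 (.leaf 300 2176 (.cons 320 (.cons 321 (.leaf 345 1988 (.cons 224 (.leaf 297 1796 (.cons 199 (.leaf 223 1599 (.cons 200 (.leaf 175 1407 (.cons 201 (.leaf 177 1413 (.leaf 225 1605 .nil)) .nil)) .nil)) .nil)) .nil)) (.cons 249 (.leaf 225 1797 (.leaf 344 1989 .nil)) (.cons 343 (.leaf 319 1982 (.cons 344 (.leaf 249 1989 (.leaf 367 2174 .nil)) .nil)) .nil))) .nil)) .nil)) .nil)) .nil)) (.cons 224 (.cons 200 (.leaf 297 1604 (.cons 176 (.leaf 249 1412 (.cons 177 (.leaf 201 1413 (.leaf 153 1221 .nil)) .nil)) .nil)) (.cons 296 t71 (.cons 200 (.cons 176 (.leaf 249 1412 (.cons 177 (.leaf 201 1413 (.leaf 153 1221 .nil)) .nil)) (.cons 199 (.leaf 175 1407 (.cons 295 (.leaf 271 1598 (.cons 296 (.leaf 223 1599 (.leaf 319 1790 .nil)) .nil)) .nil)) .nil)) (.cons 200 (.leaf 297 1604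 (.cons 199 (.leaf 175 1407 (.cons 295 (.leaf 271 1598 (.cons 296 (.leaf 223 1599 (.leaf 319 1790 .nil)) .nil)) .nil)) .nil)) .nil)))) (.cons 296 t70 (.cons 247 (.leaf 274 1979 (.cons 246 (.leaf 245 1960 (.cons 249 t69 .nil)) .nil)) (.cons 247 (.leaf 274 1979 (.cons 246 (.leaf 245 1960 (.cons 249 (.cons 270 (.leaf 269 1962 (.cons 222 (.leaf 221 1771 (.cons 225 (.leaf 226 1777 (.cons 201 (.leaf 177 1414 (.leaf 296 1606 .nil)) .nil)) .nil)) .nil)) (.cons 270 (.leaf 269 1962 (.cons 222 (.leaf 221 1771 (.cons 294 (.cons 293 (.leaf 271 2154 (.leaf 317 1774 .nil)) (.cons 293 (.leaf 317 1774 (.cons 223 (.leaf 318 1781 (.leaf 199 1589 .nil)) .nil)) (.cons 223 (.leaf 318 1781 (.leaf 199 1589 .nil)) .nil))) .nil)) .nil)) (.cons 225 (.leaf 226 1777 (.cons 201 (.leaf 177 1414 (.leaf 296 1606 .nil)) .nil)) .nil))) .nil)) .nil)) (.cons 274 (.leaf 247 1979 (.cons 296 (.leaf 295 2170 (.cons 251 (.leaf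 252 1985 (.cons 299 (.leaf 300 2176 (.cons 320 (.cons 321 (.leaf 345 1988 (.cons 224 (.leaf 297 1796 (.cons 199 (.leaf 223 1599 (.cons 200 (.leaf 175 1407 (.cons 201 (.leaf 177 1413 (.leaf 225 1605 .nil)) .nil)) .nil)) .nil)) .nil)) (.cons 343 (.leaf 319 1982 (.cons 344 (.leaf 367 2174 (.cons 368 (.leaf 297 2181 (.cons 369 (.leaf 345 2180 (.leaf 393 2372 .nil)) .nil)) .nil)) .nil)) (.cons 343 (.leaf 319 1982 (.cons 344 (.leaf 367 2174 (.cons 297 (.leaf 368 2181 (.cons 224 (.leaf 200 1604 (.leaf 321 1796 .nil)) .nil)) .nil)) .nil)) (.cons 343 (.leaf 319 1982 (.cons 344 (.leaf 367 2174 (.cons 345 (.leaf 321 1988 (.leaf 369 2180 .nil)) .nil)) .nil)) .nil)))) .nil)) .nil)) .nil)) .nil)) (.cons 274 (.leaf 247 1979 (.cons 296 (.leaf 295 2170 (.cons 251 (.leaf 252 1985 (.cons 299 (.leaf 300 2176 (.cons 224 (.cons 199 (.leaf 223 1599 (.cons 200 (.leaf 175 1407 (.leaf 297 1604 .nil)) .nil))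 (.cons 199 (.leaf 223 1599 (.cons 200 (.leaf 175 1407 (.cons 176 (.leaf 249 1412 (.cons 177 (.leaf 201 1413 (.leaf 153 1221 .nil)) .nil)) .nil)) .nil)) (.cons 199 (.leaf 223 1599 (.cons 321 (.leaf 297 1796 (.cons 320 (.leaf 345 1988 (.cons 343 (.leaf 319 1982 (.cons 344 (.leaf 249 1989 (.leaf 367 2174 .nil)) .nil)) .nil)) .nil)) .nil)) (.cons 297 (.leaf 200 1604 (.leaf 321 1796 .nil)) .nil)))) .nil)) .nil)) .nil)) .nil)) (.cons 274 (.leaf 247 1979 (.cons 296 (.leaf 295 2170 (.cons 251 (.leaf 252 1985 (.cons 299 (.leaf 300 2176 (.cons 320 (.cons 249 (.leaf 225 1797 (.leaf 344 1989 .nil)) (.cons 343 (.leaf 319 1982 (.cons 344 (.leaf 367 2174 (.cons 368 (.leaf 297 2181 (.cons 369 (.leaf 345 2180 (.leaf 393 2372 .nil)) .nil)) .nil)) .nil)) (.cons 249 (.leaf 225 1797 (.cons 319 (.leaf 343 1982 (.cons 321 (.leaf 345 1988 (.cons 224 (.leaf 297 1796 (.cons 199 (.leaf 223 1599 (.cons 200 (.leaf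 175 1407 (.leaf 176 1412 .nil)) .nil)) .nil)) .nil)) .nil)) .nil)) .nil))) .nil)) .nil)) .nil)) .nil)) (.cons 274 (.leaf 247 1979 (.cons 296 (.leaf 295 2170 (.cons 251 (.leaf 252 1985 (.cons 299 (.leaf 300 2176 (.cons 320 (.cons 249 (.leaf 225 1797 (.leaf 344 1989 .nil)) (.cons 321 (.leaf 345 1988 (.cons 343 (.leaf 319 1982 (.cons 344 (.leaf 367 2174 (.cons 323 (.leaf 322 2554 (.cons 348 (.leaf 324 2012 (.cons 347 (.leaf 372 2204 (.cons 368 (.leaf 297 2181 (.cons 369 (.leaf 393 2372 (.cons 370 (.leaf 346 2198 (.leaf 371 2753 .nil)) .nil)) .nil)) .nil)) .nil)) .nil)) .nil)) .nil)) .nil)) (.cons 225 (.leaf 249 1797 (.cons 224 (.leaf 201 1605 (.cons 297 (.leaf 200 1604 (.leaf 321 1796 .nil)) .nil)) .nil)) .nil))) .nil)) .nil)) .nil)) .nil)) .nil))))))))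
noncomputable def t73 : T := .cons 295 (.leaf 296 2170 (.cons 271 (.leaf 294 2162 (.cons 299 (.leaf 300 2176 (.leaf 298 2168 .nil)) .nil)) .nil)) (.cons 299 (.leaf 300 2176 (.cons 251 (.leaf 252 1985 (.cons 227 (.cons 202 (.leaf 226 1623 (.cons 204 (.leaf 228 1629 (.cons 322 (.leaf 298 1814 (.cons 323 (.leaf 346 2006 (.cons 348 (.leaf 324 2012 (.cons 203 (.leaf 178 1431 (.leaf 180 1437 .nil)) .nil)) .nil)) .nil)) .nil)) .nil)) (.cons 202 (.leaf 226 1623 (.cons 203 (.leaf 178 1431 (.cons 204 (.leaf 180 1437 (.leaf 228 1629 .nil)) .nil)) .nil)) (.cons 202 (.leaf 226 1623 (.cons 204 (.leaf 228 1629 (.cons 322 (.leaf 298 1814 (.cons 323 (.leaf 346 2006 (.cons 348 (.leaf 324 2012 (.cons 347 (.leaf 372 2204 (.cons 321 (.leaf 320 2560 (.cons 297 (.leaf 345 1991 (.cons 224 (.leaf 200 1604 (.leaf 249 1799 .nil)) .nil)) .nil)) .nil)) .nil)) .nil)) .nil)) .nil)) .nil)) (.cons 298 (.leaf 203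 1622 (.leaf 322 1814 .nil)) .nil)))) .nil)) .nil)) (.cons 296 (.leaf 295 2170 (.cons 251 (.leaf 252 1985 (.cons 320 (.cons 249 (.leaf 225 1797 (.leaf 344 1989 .nil)) (.cons 343 (.leaf 319 1982 (.cons 344 (.leaf 367 2174 (.cons 368 (.leaf 297 2181 (.cons 369 (.leaf 345 2180 (.leaf 393 2372 .nil)) .nil)) .nil)) .nil)) (.cons 225 (.leaf 249 1797 (.cons 319 (.leaf 343 1982 (.cons 321 (.leaf 345 1988 (.cons 224 (.leaf 201 1605 (.leaf 297 1796 .nil)) .nil)) .nil)) .nil)) .nil))) .nil)) .nil)) .nil))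
noncomputable def t74 : T := .cons 201 (.leaf 225 1605 (.cons 319 (.leaf 295 1790 (.cons 320 (.leaf 343 1982 (.cons 344 (.leaf 249 1989 (.cons 345 (.leaf 321 1988 (.leaf 369 2180 .nil)) .nil)) .nil)) .nil)) .nil)) (.cons 199 (.leaf 223 1599 (.cons 321 (.leaf 297 1796 (.cons 320 (.leaf 345 1988 (.cons 344 (.leaf 249 1989 (.cons 343 (.leaf 319 1982 (.leaf 367 2174 .nil)) .nil)) .nil)) .nil)) .nil)) (.cons 201 (.leaf 225 1605 (.cons 319 (.leaf 295 1790 (.cons 320 (.leaf 343 1982 (.cons 344 (.leaf 249 1989 (.cons 247 (.leaf 223 1791 (.leaf 271 1983 .nil)) .nil)) .nil)) .nil)) .nil)) (.cons 223 (.leaf 199 1599 (.cons 225 (.leaf 201 1605 (.cons 297 (.leaf 321 1796 (.cons 295 (.leaf 319 1790 (.cons 294 (.leaf 293 2153 (.cons 318 (.leaf 317 2346 (.cons 247 (.leaf 271 1782 (.cons 246 (.leaf 245 1960 (.leaf 226 1778 .nil)) .nil)) .nil)) .nil)) .nil)) .nil)) .nil)) .nil)) (.cons 321 (.leaf 297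 1796 (.cons 199 (.leaf 223 1599 (.cons 320 (.leaf 345 1988 (.cons 344 (.leaf 249 1989 (.cons 271 (.leaf 247 1983 (.cons 368 (.leaf 295 2175 (.cons 367 (.leaf 343 2174 (.leaf 391 2366 .nil)) .nil)) .nil)) .nil)) .nil)) .nil)) .nil)) .nil))))
noncomputable def t75 : T := .cons 274 (.leaf 247 1979 (.cons 295 (.leaf 296 2170 (.cons 271 (.leaf 294 2162 (.cons 299 (.leaf 300 2176 (.leaf 298 2168 .nil)) .nil)) .nil)) .nil)) (.cons 224 (.cons 200 (.leaf 297 1604 (.cons 176 (.leaf 249 1412 (.cons 177 (.leaf 201 1413 (.leaf 153 1221 .nil)) .nil)) .nil)) (.cons 296 t74 (.cons 200 (.cons 176 (.leaf 249 1412 (.cons 177 (.leaf 201 1413 (.leaf 153 1221 .nil)) .nil)) (.cons 199 (.leaf 175 1407 (.cons 295 (.leaf 271 1598 (.cons 296 (.leaf 223 1599 (.leaf 319 1790 .nil)) .nil)) .nil)) .nil)) (.cons 200 (.leaf 297 1604 (.cons 199 (.leaf 175 1407 (.cons 295 (.leaf 271 1598 (.cons 296 (.leaf 223 1599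 (.leaf 319 1790 .nil)) .nil)) .nil)) .nil)) .nil)))) (.cons 274 t73 (.cons 274 (.leaf 247 1979 (.cons 299 (.leaf 300 2176 (.cons 251 (.leaf 252 1985 (.cons 227 (.cons 202 (.leaf 226 1623 (.cons 204 (.leaf 228 1629 (.cons 322 (.leaf 298 1814 (.cons 323 (.leaf 346 2006 (.cons 348 (.leaf 324 2012 (.cons 203 (.leaf 178 1431 (.leaf 180 1437 .nil)) .nil)) .nil)) .nil)) .nil)) .nil)) (.cons 202 (.leaf 226 1623 (.cons 203 (.leaf 178 1431 (.cons 204 (.leaf 180 1437 (.leaf 228 1629 .nil)) .nil)) .nil)) (.cons 202 (.leaf 226 1623 (.cons 204 (.leaf 228 1629 (.cons 322 (.leaf 298 1814 (.cons 323 (.leaf 346 2006 (.cons 348 (.leaf 324 2012 (.cons 347 (.leaf 372 2204 (.cons 321 (.leaf 320 2560 (.cons 297 (.leaf 345 1991 (.cons 224 (.leaf 200 1604 (.leaf 249 1799 .nil)) .nil)) .nil)) .nil)) .nil)) .nil)) .nil)) .nil)) .nil)) (.cons 298 (.leaf 203 1622 (.leaf 322 1814 .nil)) .nil)))) .nil)) .nil))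 .nil)) .nil)))
noncomputable def t76 : T := .cons 320 (.cons 247 (.leaf 223 1791 (.cons 273 (.leaf 274 1979 (.cons 245 (.leaf 246 1960 (.cons 319 (.leaf 343 1982 (.cons 344 (.leaf 271 1983 (.leaf 249 1989 .nil)) .nil)) .nil)) .nil)) .nil)) (.cons 319 (.leaf 343 1982 (.cons 224 (.leaf 295 1790 (.cons 199 (.leaf 223 1599 (.cons 200 (.leaf 175 1407 (.cons 177 (.leaf 201 1413 (.cons 176 (.leaf 153 1221 (.cons 273 (.leaf 297 1604 (.leaf 249 1412 .nil)) .nil)) .nil)) .nil)) .nil)) .nil)) .nil)) (.cons 247 (.leaf 223 1791 (.cons 273 (.leaf 274 1979 (.cons 344 (.leaf 271 1983 (.leaf 249 1989 .nil)) .nil)) .nil)) (.cons 319 (.leaf 343 1982 (.cons 295 (.leaf 224 1790 (.cons 273 (.leaf 274 2170 (.cons 293 (.leaf 294 2153 (.cons 344 (.leaf 249 1989 (.cons 271 (.leaf 247 1980 (.leaf 368 2175 .nil)) .nil)) .nil)) .nil)) .nil)) .nil)) (.cons 319 (.leaf 343 1982 (.cons 223 (.leaf 247 1791 (.cons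 224 (.leaf 199 1599 (.leaf 295 1790 .nil)) .nil)) .nil)) .nil))))) (.cons 224 (.cons 199 (.leaf 223 1599 (.cons 200 (.leaf 175 1407 (.cons 201 (.leaf 177 1413 (.leaf 225 1605 .nil)) .nil)) .nil)) (.cons 199 (.leaf 223 1599 (.cons 200 (.leaf 175 1407 (.cons 271 (.leaf 295 1598 (.cons 176 (.leaf 247 1406 (.cons 177 (.leaf 201 1413 (.leaf 153 1221 .nil)) .nil)) .nil)) .nil)) .nil)) (.cons 201 (.leaf 225 1605 (.cons 200 (.leaf 177 1413 (.cons 271 (.leaf 295 1598 (.cons 176 (.leaf 247 1406 (.cons 175 (.leaf 199 1407 (.leaf 151 1215 .nil)) .nil)) .nil)) .nil)) .nil)) (.cons 201 (.leaf 225 1605 (.cons 200 (.leaf 177 1413 (.cons 271 (.leaf 295 1598 (.cons 176 (.leaf 247 1406 (.cons 273 (.leaf 297 1604 (.leaf 249 1412 .nil)) .nil)) .nil)) .nil)) .nil)) (.cons 199 (.leaf 223 1599 (.cons 200 (.leaf 175 1407 (.cons 271 (.leaf 295 1598 (.cons 176 (.leaf 247 1406 (.cons 273 (.leaf 297 1604 (.leaf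 249 1412 .nil)) .nil)) .nil)) .nil)) .nil)) (.cons 223 (.leaf 199 1599 (.cons 225 (.leaf 201 1605 (.cons 320 (.leaf 247 1791 (.leaf 249 1797 .nil)) .nil)) .nil)) .nil)))))) (.cons 224 (.cons 295 (.leaf 319 1790 (.cons 200 (.leaf 271 1598 (.cons 201 (.leaf 177 1413 (.leaf 225 1605 .nil)) .nil)) .nil)) (.cons 201 (.leaf 225 1605 (.cons 200 (.leaf 177 1413 (.cons 175 (.leaf 199 1407 (.cons 151 (.leaf 176 1215 (.cons 273 (.leaf 297 1604 (.cons 274 (.leaf 247 1979 (.cons 299 (.leaf 300 2176 (.cons 251 (.leaf 252 1985 (.cons 298 (.leaf 271 2168 (.cons 227 (.leaf 203 1622 (.leaf 322 1814 .nil)) .nil)) .nil)) .nil)) .nil)) .nil)) .nil)) .nil)) .nil)) .nil)) (.cons 295 (.leaf 319 1790 (.cons 200 (.leaf 271 1598 (.cons 273 (.leaf 274 2170 (.leaf 297 1604 .nil)) .nil)) .nil)) (.cons 225 (.leaf 201 1605 (.cons 319 (.leaf 295 1790 (.cons 320 (.leaf 249 1797 (.leaf 343 1982 .nil)) .nil)) .nil))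 .nil)))) (.cons 224 (.cons 199 (.leaf 223 1599 (.cons 175 (.leaf 200 1407 (.cons 319 (.leaf 295 1790 (.cons 320 (.leaf 343 1982 (.cons 249 (.leaf 225 1797 (.cons 273 (.leaf 344 1989 (.cons 247 (.leaf 274 1979 (.cons 246 (.leaf 245 1960 (.cons 222 (.leaf 221 1771 (.cons 270 (.leaf 269 1962 (.leaf 198 1397 .nil)) .nil)) .nil)) .nil)) .nil)) .nil)) .nil)) .nil)) .nil)) .nil)) (.cons 199 (.leaf 223 1599 (.cons 200 (.leaf 175 1407 (.cons 177 (.leaf 201 1413 (.cons 153 (.leaf 176 1221 (.cons 273 (.leaf 297 1604 (.cons 274 (.leaf 247 1979 (.leaf 295 2170 .nil)) .nil)) .nil)) .nil)) .nil)) .nil)) (.cons 225 (.leaf 201 1605 (.cons 319 (.leaf 295 1790 (.cons 320 (.leaf 249 1797 (.leaf 343 1982 .nil)) .nil)) .nil)) (.cons 199 (.leaf 223 1599 (.cons 200 (.leaf 175 1407 (.cons 201 (.leaf 177 1413 (.leaf 225 1605 .nil)) .nil)) .nil)) .nil)))) (.cons 224 (.cons 201 (.leaf 225 1605 (.cons 223 (.leaf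 199 1599 (.cons 247 (.leaf 320 1791 (.cons 200 (.leaf 177 1413 (.cons 176 (.leaf 271 1406 (.leaf 152 1214 .nil)) .nil)) .nil)) .nil)) .nil)) (.cons 201 (.leaf 225 1605 (.cons 200 (.leaf 177 1413 (.cons 295 (.leaf 271 1598 (.leaf 319 1790 .nil)) .nil)) .nil)) (.cons 199 (.leaf 223 1599 (.cons 200 (.leaf 175 1407 (.cons 295 (.leaf 271 1598 (.leaf 319 1790 .nil)) .nil)) .nil)) (.cons 201 (.leaf 225 1605 (.cons 223 (.leaf 199 1599 (.cons 247 (.leaf 320 1791 (.cons 273 (.leaf 274 1979 (.cons 245 (.leaf 246 1960 (.cons 295 (.leaf 319 1790 (.cons 294 (.leaf 293 2153 (.cons 271 (.leaf 318 1782 (.cons 222 (.leaf 198 1591 (.cons 221 (.leaf 220 1760 (.leaf 244 1762 .nil)) .nil)) .nil)) .nil)) .nil)) .nil)) .nil)) .nil)) .nil)) .nil)) (.cons 295 (.leaf 319 1790 (.cons 199 (.leaf 223 1599 (.cons 200 (.leaf 175 1407 (.cons 201 (.leaf 177 1413 (.leaf 225 1605 .nil)) .nil)) .nil)) .nil)) .nil)))))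 .nil))))
noncomputable def t77 : T := .cons 225 (.leaf 249 1797 (.cons 247 (.leaf 223 1791 (.cons 319 (.leaf 343 1982 (.cons 344 (.leaf 271 1983 (.cons 369 (.leaf 345 2180 (.cons 368 (.leaf 393 2372 (.cons 391 (.leaf 367 2366 (.cons 392 (.leaf 295 2367 (.leaf 415 2558 .nil)) .nil)) .nil)) .nil)) .nil)) .nil)) .nil)) .nil)) (.cons 249 (.leaf 225 1797 (.cons 343 (.leaf 319 1982 (.cons 344 (.leaf 273 1989 (.leaf 367 2174 .nil)) .nil)) .nil)) (.cons 247 (.leaf 223 1791 (.cons 273 (.leaf 274 1979 (.cons 245 (.leaf 246 1960 (.cons 319 (.leaf 343 1982 (.cons 344 (.leaf 271 1983 (.cons 368 (.leaf 297 2181 (.cons 369 (.leaf 345 2180 (.leaf 393 2372 .nil)) .nil)) .nil)) .nil)) .nil)) .nil)) .nil)) (.cons 247 (.leaf 223 1791 (.cons 273 (.leaf 274 1979 (.cons 249 (.leaf 225 1797 (.leaf 344 1989 .nil)) .nil)) .nil)) (.cons 247 (.leaf 223 1791 (.cons 249 (.leaf 225 1797 (.cons 273 (.leaf 274 1979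 (.cons 246 (.leaf 245 1960 (.cons 222 (.leaf 221 1771 (.cons 270 (.leaf 269 1962 (.cons 319 (.leaf 343 1982 (.cons 295 (.leaf 271 1783 (.leaf 294 1780 .nil)) .nil)) .nil)) .nil)) .nil)) .nil)) .nil)) .nil)) .nil))))
noncomputable def t78 : T := .cons 224 (.cons 199 (.leaf 223 1599 (.cons 200 (.leaf 175 1407 (.cons 201 (.leaf 177 1413 (.leaf 225 1605 .nil)) .nil)) .nil)) (.cons 295 (.leaf 319 1790 (.cons 200 (.leaf 271 1598 (.cons 273 (.leaf 274 2170 (.leaf 297 1604 .nil)) .nil)) .nil)) (.cons 295 (.leaf 319 1790 (.cons 201 (.leaf 225 1605 (.cons 223 (.leaf 199 1599 (.cons 247 (.leaf 320 1791 (.cons 273 (.leaf 274 2170 (.cons 245 (.leaf 246 1960 (.cons 294 (.leaf 293 2153 (.cons 271 (.leaf 318 1782 (.cons 222 (.leaf 198 1591 (.cons 221 (.leaf 220 1760 (.leaf 249 1768 .nil)) .nil)) .nil)) .nil)) .nil)) .nil)) .nil)) .nil)) .nil)) .nil)) .nil))) (.cons 320 t77 (.cons 224 (.cons 295 (.leaf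 319 1790 (.cons 273 (.leaf 274 2170 (.cons 199 (.leaf 223 1599 (.cons 200 (.leaf 175 1407 (.leaf 271 1598 .nil)) .nil)) .nil)) .nil)) (.cons 199 (.leaf 223 1599 (.cons 200 (.leaf 175 1407 (.cons 201 (.leaf 177 1413 (.leaf 225 1605 .nil)) .nil)) .nil)) (.cons 295 (.leaf 319 1790 (.cons 200 (.leaf 271 1598 (.cons 201 (.leaf 177 1413 (.leaf 225 1605 .nil)) .nil)) .nil)) (.cons 295 (.leaf 319 1790 (.cons 273 (.leaf 274 2170 (.cons 225 (.leaf 201 1605 (.cons 223 (.leaf 199 1599 (.cons 294 (.leaf 293 2153 (.cons 247 (.cons 246 (.leaf 245 1960 (.leaf 226 1778 .nil)) (.cons 226 (.leaf 227 1786 (.cons 271 (.leaf 318 1782 (.cons 222 (.leaf 198 1591 (.cons 221 (.leaf 220 1760 (.leaf 249 1768 .nil)) .nil)) .nil)) .nil)) (.cons 245 (.leaf 246 1960 (.cons 271 (.leaf 318 1782 (.cons 222 (.leaf 198 1591 (.cons 221 (.leaf 220 1760 (.leaf 249 1768 .nil)) .nil)) .nil)) .nil)) .nil))) .nil)) .nil)) .nil))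 .nil)) .nil)) .nil)))) (.cons 224 (.cons 201 (.leaf 225 1605 (.cons 200 (.leaf 177 1413 (.cons 295 (.leaf 271 1598 (.leaf 319 1790 .nil)) .nil)) .nil)) (.cons 223 (.leaf 199 1599 (.cons 225 (.leaf 201 1605 (.cons 320 (.leaf 247 1791 (.leaf 249 1797 .nil)) .nil)) .nil)) (.cons 295 (.leaf 319 1790 (.cons 199 (.leaf 223 1599 (.cons 200 (.leaf 175 1407 (.leaf 271 1598 .nil)) .nil)) .nil)) .nil))) (.cons 320 (.cons 247 (.leaf 223 1791 (.cons 273 (.leaf 274 1979 (.cons 245 (.leaf 246 1960 (.cons 319 (.leaf 343 1982 (.cons 344 (.leaf 271 1983 (.leaf 249 1989 .nil)) .nil)) .nil)) .nil)) .nil)) (.cons 249 (.leaf 225 1797 (.cons 343 (.leaf 319 1982 (.cons 344 (.leaf 273 1989 (.leaf 367 2174 .nil)) .nil)) .nil)) (.cons 247 (.leaf 223 1791 (.cons 273 (.leaf 274 1979 (.cons 245 (.leaf 246 1960 (.cons 319 (.leaf 343 1982 (.cons 344 (.leaf 271 1983 (.cons 368 (.leaf 297 2181 (.cons 369 (.leaf 345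 2180 (.leaf 393 2372 .nil)) .nil)) .nil)) .nil)) .nil)) .nil)) .nil)) (.cons 223 (.leaf 247 1791 (.cons 224 (.leaf 199 1599 (.cons 225 (.leaf 201 1605 (.leaf 249 1797 .nil)) .nil)) .nil)) .nil)))) (.cons 224 (.cons 199 (.leaf 223 1599 (.cons 200 (.leaf 175 1407 (.cons 201 (.leaf 177 1413 (.leaf 225 1605 .nil)) .nil)) .nil)) (.cons 295 (.leaf 319 1790 (.cons 199 (.leaf 223 1599 (.cons 200 (.leaf 175 1407 (.leaf 271 1598 .nil)) .nil)) .nil)) (.cons 201 (.leaf 225 1605 (.cons 200 (.leaf 177 1413 (.cons 295 (.leaf 271 1598 (.leaf 319 1790 .nil)) .nil)) .nil)) (.cons 199 (.leaf 223 1599 (.cons 225 (.leaf 201 1605 (.cons 319 (.leaf 295 1790 (.cons 320 (.leaf 249 1797 (.leaf 343 1982 .nil)) .nil)) .nil)) .nil)) .nil)))) t76)))))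
noncomputable def t79 : T := .cons 296 (.leaf 295 2170 (.cons 251 (.leaf 252 1985 (.cons 299 (.leaf 300 2176 (.cons 320 (.cons 249 (.leaf 225 1797 (.leaf 344 1989 .nil)) (.cons 298 (.leaf 271 2168 (.cons 227 (.leaf 203 1622 (.leaf 322 1814 .nil)) .nil)) .nil)) .nil)) .nil)) .nil)) (.cons 299 (.leaf 300 2176 (.cons 251 (.leaf 252 1985 (.cons 227 (.cons 202 (.leaf 226 1623 (.cons 204 (.leaf 228 1629 (.cons 322 (.leaf 298 1814 (.cons 323 (.leaf 346 2006 (.cons 348 (.leaf 324 2012 (.cons 203 (.leaf 178 1431 (.leaf 180 1437 .nil)) .nil)) .nil)) .nil)) .nil)) .nil)) (.cons 202 (.leaf 226 1623 (.cons 203 (.leaf 178 1431 (.cons 204 (.leaf 180 1437 (.leaf 228 1629 .nil)) .nil)) .nil)) (.cons 202 (.leaf 226 1623 (.cons 204 (.leaf 228 1629 (.cons 322 (.leaf 298 1814 (.cons 323 (.leaf 346 2006 (.cons 348 (.leaf 324 2012 (.cons 347 (.leaf 372 2204 (.cons 321 (.leaf 320 2560 (.cons 297 (.leaf 345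 1991 (.cons 224 (.leaf 200 1604 (.leaf 249 1799 .nil)) .nil)) .nil)) .nil)) .nil)) .nil)) .nil)) .nil)) .nil)) (.cons 298 (.leaf 203 1622 (.leaf 322 1814 .nil)) .nil)))) .nil)) .nil)) (.cons 296 (.leaf 295 2170 (.cons 251 (.leaf 252 1985 (.cons 320 (.cons 249 (.leaf 225 1797 (.leaf 344 1989 .nil)) (.cons 343 (.leaf 319 1982 (.cons 344 (.leaf 367 2174 (.cons 368 (.leaf 297 2181 (.cons 369 (.leaf 345 2180 (.leaf 393 2372 .nil)) .nil)) .nil)) .nil)) (.cons 225 (.leaf 249 1797 (.cons 319 (.leaf 343 1982 (.cons 321 (.leaf 345 1988 (.cons 297 (.leaf 224 1796 (.cons 318 (.leaf 317 2345 (.leaf 298 2353 .nil)) .nil)) .nil)) .nil)) .nil)) .nil))) .nil)) .nil)) (.cons 295 (.leaf 296 2170 (.cons 271 (.leaf 294 2162 (.cons 299 (.leaf 300 2176 (.leaf 298 2168 .nil)) .nil)) .nil)) (.cons 296 (.leaf 295 2170 (.cons 251 (.leaf 252 1985 (.cons 299 (.leaf 300 2176 (.cons 320 (.cons 249 (.leaf 225 1797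 (.leaf 344 1989 .nil)) (.cons 321 (.leaf 345 1988 (.cons 343 (.leaf 319 1982 (.cons 344 (.leaf 367 2174 (.cons 323 (.leaf 322 2554 (.cons 348 (.leaf 324 2012 (.cons 347 (.leaf 372 2204 (.cons 368 (.leaf 297 2181 (.cons 369 (.leaf 393 2372 (.cons 370 (.leaf 346 2198 (.leaf 371 2753 .nil)) .nil)) .nil)) .nil)) .nil)) .nil)) .nil)) .nil)) .nil)) (.cons 321 (.leaf 345 1988 (.cons 224 (.leaf 297 1796 (.cons 199 (.leaf 223 1599 (.cons 200 (.leaf 175 1407 (.cons 249 (.leaf 225 1797 (.leaf 176 1412 .nil)) .nil)) .nil)) .nil)) .nil)) .nil))) .nil)) .nil)) .nil)) .nil))))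
noncomputable def t80 : T := .cons 296 (.cons 297 (.leaf 200 1604 (.leaf 321 1796 .nil)) (.cons 295 (.leaf 319 1790 (.cons 199 (.leaf 223 1599 (.cons 200 (.leaf 175 1407 (.leaf 271 1598 .nil)) .nil)) .nil)) (.cons 297 (.leaf 321 1796 (.cons 199 (.leaf 223 1599 (.cons 319 (.leaf 295 1790 (.cons 320 (.leaf 343 1982 (.cons 344 (.leaf 249 1989 (.leaf 368 2181 .nil)) .nil)) .nil)) .nil)) .nil)) .nil))) (.cons 200 (.cons 176 (.leaf 249 1412 (.cons 271 (.leaf 295 1598 (.leaf 247 1406 .nil)) .nil)) (.cons 199 (.leaf 175 1407 (.cons 295 (.leaf 271 1598 (.cons 296 (.leaf 223 1599 (.leaf 319 1790 .nil)) .nil)) .nil)) (.cons 176 (.leaf 249 1412 (.cons 175 (.leaf 199 1407 (.leaf 151 1215 .nil)) .nil)) .nil))) (.cons 296 (.cons 295 (.leaf 319 1790 (.cons 293 (.leaf 294 2153 (.cons 321 (.leaf 297 1796 (.cons 320 (.leaf 345 1988 (.cons 322 (.leaf 323 2363 (.cons 344 (.leaf 249 1989 (.cons 271 (.leaf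 247 1983 (.leaf 368 2175 .nil)) .nil)) .nil)) .nil)) .nil)) .nil)) .nil)) (.cons 223 (.leaf 199 1599 (.cons 247 (.leaf 320 1791 (.cons 245 (.leaf 246 1960 (.cons 295 (.leaf 319 1790 (.cons 294 (.leaf 293 2153 (.cons 271 (.leaf 318 1782 (.cons 222 (.leaf 198 1591 (.cons 221 (.leaf 220 1760 (.leaf 249 1768 .nil)) .nil)) .nil)) .nil)) .nil)) .nil)) .nil)) .nil)) (.cons 297 (.leaf 321 1796 (.cons 199 (.leaf 223 1599 (.cons 295 (.leaf 319 1790 (.cons 294 (.leaf 293 2153 (.cons 270 (.leaf 269 2155 (.cons 298 (.leaf 271 2160 (.cons 299 (.leaf 300 2179 (.cons 323 (.leaf 322 2360 (.leaf 324 2368 .nil)) .nil)) .nil)) .nil)) .nil)) .nil)) .nil)) .nil)) (.cons 297 (.leaf 321 1796 (.cons 223 (.leaf 199 1599 (.cons 320 (.leaf 247 1791 (.cons 344 (.leaf 249 1989 (.leaf 368 2181 .nil)) .nil)) .nil)) .nil)) .nil)))) (.cons 200 (.leaf 297 1604 (.cons 176 (.leaf 249 1412 (.cons 271 (.leaf 295 1598 (.leaf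 247 1406 .nil)) .nil)) .nil)) (.cons 200 (.leaf 297 1604 (.cons 199 (.leaf 175 1407 (.cons 295 (.leaf 271 1598 (.cons 296 (.leaf 223 1599 (.leaf 319 1790 .nil)) .nil)) .nil)) .nil)) (.cons 297 (.leaf 200 1604 (.cons 321 (.leaf 296 1796 (.leaf 345 1991 .nil)) .nil)) .nil)))))
noncomputable def t81 : T := .cons 296 (.cons 199 (.leaf 223 1599 (.cons 321 (.leaf 297 1796 (.cons 320 (.leaf 345 1988 (.cons 344 (.leaf 249 1989 (.cons 343 (.leaf 319 1982 (.leaf 367 2174 .nil)) .nil)) .nil)) .nil)) .nil)) (.cons 295 (.leaf 274 2170 (.leaf 319 1790 .nil)) (.cons 199 (.leaf 223 1599 (.cons 321 (.leaf 297 1796 (.cons 320 (.leaf 345 1988 (.cons 344 (.leaf 249 1989 (.cons 271 (.leaf 247 1983 (.cons 368 (.leaf 295 2175 (.cons 367 (.leaf 343 2174 (.leaf 391 2366 .nil)) .nil)) .nil)) .nil)) .nil)) .nil)) .nil)) .nil))) (.cons 200 (.cons 199 (.leaf 175 1407 (.cons 274 (.leaf 247 1979 (.cons 296 (.leaf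 295 2170 (.leaf 223 1599 .nil)) .nil)) .nil)) (.cons 199 (.leaf 175 1407 (.cons 295 (.leaf 271 1598 (.cons 296 (.leaf 274 2170 (.leaf 223 1599 .nil)) .nil)) .nil)) (.cons 199 (.leaf 175 1407 (.cons 295 (.leaf 271 1598 (.cons 296 (.leaf 223 1599 (.leaf 319 1790 .nil)) .nil)) .nil)) (.cons 175 (.leaf 199 1407 (.cons 176 (.leaf 151 1215 (.leaf 249 1412 .nil)) .nil)) (.cons 274 (.leaf 247 1979 (.cons 295 (.leaf 296 2170 (.leaf 271 1598 .nil)) .nil)) .nil))))) (.cons 296 (.cons 199 (.leaf 223 1599 (.cons 321 (.leaf 297 1796 (.cons 320 (.leaf 345 1988 (.cons 344 (.leaf 249 1989 (.cons 343 (.leaf 319 1982 (.leaf 367 2174 .nil)) .nil)) .nil)) .nil)) .nil)) (.cons 295 (.leaf 319 1790 (.cons 199 (.leaf 223 1599 (.cons 200 (.leaf 175 1407 (.leaf 271 1598 .nil)) .nil)) .nil)) (.cons 297 (.leaf 200 1604 (.leaf 321 1796 .nil)) .nil))) (.cons 200 (.leaf 297 1604 (.cons 175 (.leaf 199 1407 (.cons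 176 (.leaf 151 1215 (.leaf 249 1412 .nil)) .nil)) .nil)) (.cons 200 (.leaf 297 1604 (.cons 274 (.leaf 247 1979 (.cons 295 (.leaf 296 2170 (.leaf 271 1598 .nil)) .nil)) .nil)) .nil))))
noncomputable def t82 : T := .cons 224 t81 (.cons 224 t80 (.cons 274 t79 (.cons 274 (.leaf 247 1979 (.cons 299 (.leaf 300 2176 (.cons 251 (.leaf 252 1985 (.cons 227 (.cons 202 (.leaf 226 1623 (.cons 204 (.leaf 228 1629 (.cons 322 (.leaf 298 1814 (.cons 323 (.leaf 346 2006 (.cons 348 (.leaf 324 2012 (.cons 203 (.leaf 178 1431 (.leaf 180 1437 .nil)) .nil)) .nil)) .nil)) .nil)) .nil)) (.cons 202 (.leaf 226 1623 (.cons 203 (.leaf 178 1431 (.cons 204 (.leaf 180 1437 (.leaf 228 1629 .nil)) .nil)) .nil)) (.cons 202 (.leaf 226 1623 (.cons 204 (.leaf 228 1629 (.cons 322 (.leaf 298 1814 (.cons 323 (.leaf 346 2006 (.cons 348 (.leaf 324 2012 (.cons 347 (.leaf 372 2204 (.cons 321 (.leaf 320 2560 (.cons 297 (.leaf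 345 1991 (.cons 224 (.leaf 200 1604 (.leaf 249 1799 .nil)) .nil)) .nil)) .nil)) .nil)) .nil)) .nil)) .nil)) .nil)) (.cons 298 (.leaf 203 1622 (.leaf 322 1814 .nil)) .nil)))) .nil)) .nil)) .nil)) (.cons 274 (.leaf 247 1979 (.cons 295 (.leaf 296 2170 (.cons 271 (.leaf 294 2162 (.cons 299 (.leaf 300 2176 (.leaf 298 2168 .nil)) .nil)) .nil)) .nil)) .nil))))
noncomputable def t83 : T := .cons 320 (.cons 223 (.leaf 247 1791 (.cons 224 (.leaf 199 1599 (.cons 321 (.leaf 297 1796 (.leaf 345 1988 .nil)) .nil)) .nil)) (.cons 321 (.leaf 345 1988 (.cons 224 (.leaf 297 1796 (.cons 199 (.leaf 223 1599 (.cons 200 (.leaf 175 1407 (.cons 177 (.leaf 201 1413 (.cons 176 (.leaf 153 1221 (.cons 178 (.leaf 179 1402 (.cons 197 (.leaf 198 1385 (.cons 273 (.leaf 249 1412 (.cons 295 (.leaf 274 2170 (.leaf 271 1598 .nil)) .nil)) .nil)) .nil)) .nil)) .nil)) .nil)) .nil)) .nil)) .nil)) (.cons 247 (.leaf 223 1791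 (.cons 273 (.leaf 274 1979 (.cons 344 (.leaf 271 1983 (.leaf 249 1989 .nil)) .nil)) .nil)) (.cons 345 (.leaf 321 1988 (.cons 344 (.leaf 369 2180 (.cons 247 (.leaf 271 1983 (.cons 273 (.leaf 274 1979 (.leaf 249 1989 .nil)) .nil)) .nil)) .nil)) .nil)))) (.cons 224 (.cons 225 (.leaf 201 1605 (.cons 320 (.leaf 249 1797 (.cons 321 (.leaf 297 1796 (.leaf 345 1988 .nil)) .nil)) .nil)) (.cons 201 (.leaf 225 1605 (.cons 200 (.leaf 177 1413 (.cons 175 (.leaf 199 1407 (.cons 176 (.leaf 151 1215 (.cons 271 (.leaf 295 1598 (.leaf 247 1406 .nil)) .nil)) .nil)) .nil)) .nil)) (.cons 297 (.leaf 321 1796 (.cons 200 (.leaf 273 1604 (.cons 177 (.leaf 201 1413 (.cons 176 (.leaf 153 1221 (.cons 271 (.leaf 295 1598 (.leaf 247 1406 .nil)) .nil)) .nil)) .nil)) .nil)) (.cons 297 (.leaf 321 1796 (.cons 200 (.leaf 273 1604 (.cons 271 (.leaf 295 1598 (.cons 176 (.leaf 247 1406 (.cons 175 (.leaf 199 1407 (.leaf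 151 1215 .nil)) .nil)) .nil)) .nil)) .nil)) .nil)))) (.cons 224 (.cons 223 (.leaf 199 1599 (.cons 225 (.leaf 201 1605 (.cons 320 (.leaf 247 1791 (.leaf 249 1797 .nil)) .nil)) .nil)) (.cons 223 (.leaf 199 1599 (.cons 247 (.leaf 320 1791 (.cons 273 (.leaf 274 1979 (.cons 200 (.leaf 297 1604 (.cons 176 (.leaf 271 1406 (.leaf 249 1412 .nil)) .nil)) .nil)) .nil)) .nil)) (.cons 201 (.leaf 225 1605 (.cons 200 (.leaf 177 1413 (.cons 175 (.leaf 199 1407 (.cons 151 (.leaf 176 1215 (.cons 273 (.leaf 297 1604 (.cons 274 (.leaf 247 1979 (.leaf 295 2170 .nil)) .nil)) .nil)) .nil)) .nil)) .nil)) (.cons 225 (.leaf 201 1605 (.cons 320 (.leaf 249 1797 (.cons 247 (.leaf 223 1791 (.cons 226 (.leaf 227 1786 (.cons 245 (.leaf 246 1769 (.cons 271 (.leaf 344 1983 (.cons 200 (.leaf 295 1598 (.leaf 176 1406 .nil)) .nil)) .nil)) .nil)) .nil)) .nil)) .nil)) (.cons 225 (.leaf 201 1605 (.cons 199 (.leaf 223 1599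 (.cons 200 (.leaf 175 1407 (.cons 197 (.leaf 198 1576 (.cons 249 (.leaf 320 1797 (.cons 273 (.leaf 297 1604 (.leaf 176 1412 .nil)) .nil)) .nil)) .nil)) .nil)) .nil)) .nil))))) (.cons 224 (.cons 201 (.leaf 225 1605 (.cons 223 (.leaf 199 1599 (.cons 247 (.leaf 320 1791 (.cons 200 (.leaf 177 1413 (.cons 176 (.leaf 271 1406 (.leaf 152 1214 .nil)) .nil)) .nil)) .nil)) .nil)) (.cons 201 (.leaf 225 1605 (.cons 200 (.leaf 177 1413 (.cons 297 (.leaf 273 1604 (.leaf 321 1796 .nil)) .nil)) .nil)) (.cons 199 (.leaf 223 1599 (.cons 200 (.leaf 175 1407 (.cons 297 (.leaf 273 1604 (.leaf 321 1796 .nil)) .nil)) .nil)) (.cons 201 (.leaf 225 1605 (.cons 223 (.leaf 199 1599 (.cons 247 (.leaf 320 1791 (.cons 274 (.leaf 273 1979 (.cons 297 (.leaf 321 1796 (.cons 298 (.leaf 295 2169 (.cons 299 (.leaf 271 2171 (.cons 323 (.leaf 324 2368 (.cons 347 (.leaf 371 2199 (.cons 346 (.leaf 370 2198 (.cons 251 (.leaf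 322 2005 (.cons 227 (.leaf 203 1622 (.cons 228 (.leaf 204 1629 (.leaf 252 1821 .nil)) .nil)) .nil)) .nil)) .nil)) .nil)) .nil)) .nil)) .nil)) .nil)) .nil)) .nil)) .nil)) .nil)))) (.cons 320 (.cons 223 (.leaf 247 1791 (.cons 225 (.leaf 249 1797 (.cons 224 (.leaf 201 1605 (.cons 321 (.leaf 297 1796 (.leaf 345 1988 .nil)) .nil)) .nil)) .nil)) (.cons 225 (.leaf 249 1797 (.cons 201 (.leaf 224 1605 (.cons 345 (.leaf 321 1988 (.cons 344 (.leaf 369 2180 (.cons 367 (.leaf 343 2174 (.cons 368 (.leaf 391 2366 (.cons 273 (.leaf 297 2181 (.cons 295 (.leaf 274 2170 (.leaf 271 2175 .nil)) .nil)) .nil)) .nil)) .nil)) .nil)) .nil)) .nil)) (.cons 247 (.leaf 223 1791 (.cons 273 (.leaf 274 1979 (.cons 344 (.leaf 271 1983 (.leaf 249 1989 .nil)) .nil)) .nil)) (.cons 223 (.leaf 247 1791 (.cons 345 (.leaf 321 1988 (.cons 344 (.leaf 369 2180 (.cons 367 (.leaf 343 2174 (.cons 368 (.leaf 391 2366 (.cons 273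 (.leaf 297 2181 (.cons 295 (.leaf 274 2170 (.leaf 271 2175 .nil)) .nil)) .nil)) .nil)) .nil)) .nil)) .nil)) .nil)))) .nil))))
noncomputable def t84 : T := .cons 297 (.leaf 321 1796 (.cons 200 (.leaf 273 1604 (.cons 201 (.leaf 177 1413 (.leaf 225 1605 .nil)) .nil)) .nil)) (.cons 199 (.leaf 223 1599 (.cons 200 (.leaf 175 1407 (.cons 201 (.leaf 177 1413 (.leaf 225 1605 .nil)) .nil)) .nil)) (.cons 199 (.leaf 223 1599 (.cons 200 (.leaf 175 1407 (.cons 271 (.leaf 295 1598 (.cons 176 (.leaf 247 1406 (.cons 273 (.leaf 297 1604 (.leaf 249 1412 .nil)) .nil)) .nil)) .nil)) .nil)) (.cons 297 (.leaf 321 1796 (.cons 225 (.leaf 201 1605 (.cons 223 (.leaf 199 1599 (.cons 222 (.cons 197 (.leaf 198 1579 (.cons 221 (.leaf 249 1768 (.leaf 196 1571 .nil)) .nil)) (.cons 197 (.leaf 198 1579 (.cons 246 (.leaf 245 1770 (.cons 226 (.leaf 247 1778 (.cons 203 (.leaf 202 1593 (.cons 227 (.leaf 204 1601 (.cons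 228 (.leaf 249 1794 (.cons 252 (.leaf 251 1792 (.leaf 253 1800 .nil)) .nil)) .nil)) .nil)) .nil)) .nil)) .nil)) (.cons 221 (.leaf 249 1768 (.cons 245 (.leaf 244 1762 (.leaf 246 1770 .nil)) .nil)) (.cons 197 (.leaf 198 1579 (.cons 221 (.leaf 196 1571 (.cons 245 (.leaf 244 1762 (.leaf 246 1770 .nil)) .nil)) .nil)) .nil)))) .nil)) .nil)) .nil)) .nil)))
noncomputable def t85 : T := .cons 199 (.leaf 223 1599 (.cons 200 (.leaf 175 1407 (.cons 271 (.leaf 295 1598 (.cons 201 (.leaf 177 1413 (.leaf 225 1605 .nil)) .nil)) .nil)) .nil)) (.cons 201 (.leaf 225 1605 (.cons 200 (.leaf 177 1413 (.cons 175 (.leaf 199 1407 (.cons 176 (.leaf 151 1215 (.cons 271 (.leaf 295 1598 (.leaf 247 1406 .nil)) .nil)) .nil)) .nil)) .nil)) (.cons 199 (.leaf 223 1599 (.cons 200 (.leaf 175 1407 (.cons 271 (.leaf 295 1598 (.cons 247 (.leaf 176 1406 (.cons 320 (.leaf 344 1983 (.cons 321 (.leaf 297 1796 (.leaf 345 1988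 .nil)) .nil)) .nil)) .nil)) .nil)) .nil)) (.cons 201 (.leaf 225 1605 (.cons 200 (.leaf 177 1413 (.cons 271 (.leaf 295 1598 (.cons 247 (.leaf 176 1406 (.cons 320 (.leaf 223 1791 (.leaf 344 1983 .nil)) .nil)) .nil)) .nil)) .nil)) (.cons 223 (.leaf 199 1599 (.cons 225 (.leaf 201 1605 (.cons 297 (.leaf 321 1796 (.cons 222 (.cons 197 (.leaf 198 1579 (.cons 221 (.leaf 249 1768 (.leaf 196 1571 .nil)) .nil)) (.cons 197 (.leaf 198 1579 (.cons 221 (.leaf 196 1571 (.cons 245 (.leaf 244 1762 (.leaf 246 1770 .nil)) .nil)) .nil)) (.cons 197 (.leaf 198 1579 (.cons 246 (.leaf 245 1770 (.cons 226 (.leaf 247 1778 (.cons 203 (.leaf 202 1593 (.cons 227 (.leaf 204 1601 (.cons 228 (.leaf 249 1794 (.cons 252 (.leaf 251 1792 (.leaf 253 1800 .nil)) .nil)) .nil)) .nil)) .nil)) .nil)) .nil)) (.cons 221 (.leaf 249 1768 (.cons 245 (.leaf 244 1762 (.leaf 246 1770 .nil)) .nil)) .nil)))) .nil)) .nil)) .nil)) .nil))))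
noncomputable def t86 : T := .cons 249 (.leaf 225 1797 (.cons 273 (.leaf 344 1989 (.cons 274 (.leaf 247 1979 (.leaf 295 2170 .nil)) .nil)) .nil)) (.cons 249 (.leaf 225 1797 (.cons 273 (.leaf 344 1989 (.cons 274 (.leaf 295 2170 (.cons 251 (.leaf 252 1985 (.cons 299 (.leaf 300 2176 (.cons 298 (.leaf 271 2168 (.cons 322 (.leaf 227 1814 (.leaf 346 2005 .nil)) .nil)) .nil)) .nil)) .nil)) .nil)) .nil)) (.cons 247 (.leaf 223 1791 (.cons 273 (.leaf 274 1979 (.cons 245 (.leaf 246 1960 (.cons 321 (.leaf 345 1988 (.cons 344 (.leaf 271 1983 (.cons 368 (.leaf 297 2181 (.cons 367 (.leaf 343 2174 (.leaf 391 2366 .nil)) .nil)) .nil)) .nil)) .nil)) .nil)) .nil)) (.cons 247 (.leaf 223 1791 (.cons 273 (.leaf 274 1979 (.cons 249 (.leaf 225 1797 (.cons 246 (.leaf 245 1960 (.cons 270 (.leaf 269 1962 (.cons 321 (.leaf 345 1988 (.cons 222 (.leaf 221 1771 (.cons 198 (.cons 271 (.leaf 174 1396 (.leaf 295 1588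 .nil)) (.cons 173 (.leaf 197 1391 (.cons 174 (.leaf 149 1199 (.cons 175 (.leaf 151 1205 (.leaf 199 1397 .nil)) .nil)) .nil)) (.cons 295 (.leaf 271 1588 (.cons 294 (.leaf 293 2344 (.cons 322 (.leaf 297 2352 (.leaf 323 2363 .nil)) .nil)) .nil)) .nil))) .nil)) .nil)) .nil)) .nil)) .nil)) .nil)) .nil)) (.cons 247 (.leaf 223 1791 (.cons 225 (.leaf 249 1797 (.cons 344 (.leaf 271 1983 (.cons 345 (.leaf 321 1988 (.leaf 369 2180 .nil)) .nil)) .nil)) .nil)) .nil))))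
noncomputable def t87 : T := .cons 223 (.leaf 199 1599 (.cons 225 (.leaf 201 1605 (.cons 297 (.leaf 321 1796 (.cons 222 (.cons 197 (.leaf 198 1579 (.cons 221 (.leaf 249 1768 (.leaf 196 1571 .nil)) .nil)) (.cons 197 (.leaf 198 1579 (.cons 221 (.leaf 196 1571 (.cons 245 (.leaf 244 1762 (.leaf 246 1770 .nil)) .nil)) .nil)) (.cons 197 (.leaf 198 1579 (.cons 246 (.leaf 245 1770 (.cons 226 (.leaf 247 1778 (.cons 203 (.leaf 202 1593 (.cons 227 (.leaf 204 1601 (.cons 228 (.leaf 249 1794 (.cons 252 (.leaf 251 1792 (.leaf 253 1800 .nil)) .nil)) .nil)) .nil)) .nil)) .nil)) .nil)) (.cons 221 (.leaf 249 1768 (.cons 245 (.leaf 244 1762 (.leaf 246 1770 .nil)) .nil)) .nil)))) .nil)) .nil)) .nil)) (.cons 223 (.leaf 199 1599 (.cons 225 (.leaf 201 1605 (.cons 320 (.leaf 247 1791 (.leaf 249 1797 .nil)) .nil)) .nil)) (.cons 199 (.leaf 223 1599 (.cons 200 (.leaf 175 1407 (.cons 271 (.leaf 295 1598 (.cons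 247 (.leaf 176 1406 (.cons 320 (.leaf 344 1983 (.cons 321 (.leaf 297 1796 (.leaf 345 1988 .nil)) .nil)) .nil)) .nil)) .nil)) .nil)) (.cons 297 (.leaf 321 1796 (.cons 200 (.leaf 273 1604 (.cons 201 (.leaf 177 1413 (.leaf 225 1605 .nil)) .nil)) .nil)) .nil)))
noncomputable def t88 : T := .cons 224 t87 (.cons 320 t86 (.cons 224 t85 (.cons 224 t84 (.cons 224 (.cons 201 (.leaf 225 1605 (.cons 200 (.leaf 177 1413 (.cons 297 (.leaf 273 1604 (.leaf 321 1796 .nil)) .nil)) .nil)) (.cons 225 (.leaf 201 1605 (.cons 199 (.leaf 223 1599 (.cons 200 (.leaf 175 1407 (.cons 197 (.leaf 198 1576 (.cons 249 (.leaf 320 1797 (.cons 176 (.leaf 273 1412 (.leaf 152 1220 .nil)) .nil)) .nil)) .nil)) .nil)) .nil)) (.cons 297 (.leaf 321 1796 (.cons 199 (.leaf 223 1599 (.cons 200 (.leaf 175 1407 (.leaf 273 1604 .nil)) .nil)) .nil)) (.cons 199 (.leaf 223 1599 (.cons 225 (.leaf 201 1605 (.cons 320 (.leaf 249 1797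 (.cons 321 (.leaf 297 1796 (.leaf 345 1988 .nil)) .nil)) .nil)) .nil)) .nil)))) (.cons 320 (.cons 249 (.leaf 225 1797 (.cons 273 (.leaf 344 1989 (.cons 274 (.leaf 247 1979 (.leaf 295 2170 .nil)) .nil)) .nil)) (.cons 249 (.leaf 225 1797 (.cons 273 (.leaf 344 1989 (.cons 274 (.leaf 295 2170 (.cons 251 (.leaf 252 1985 (.cons 299 (.leaf 300 2176 (.cons 298 (.leaf 271 2168 (.cons 322 (.leaf 227 1814 (.leaf 346 2005 .nil)) .nil)) .nil)) .nil)) .nil)) .nil)) .nil)) (.cons 247 (.leaf 223 1791 (.cons 273 (.leaf 274 1979 (.cons 245 (.leaf 246 1960 (.cons 344 (.leaf 271 1983 (.cons 345 (.leaf 321 1988 (.leaf 369 2180 .nil)) .nil)) .nil)) .nil)) .nil)) (.cons 223 (.leaf 247 1791 (.cons 224 (.leaf 199 1599 (.cons 225 (.leaf 201 1605 (.leaf 249 1797 .nil)) .nil)) .nil)) .nil)))) t83)))))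
noncomputable def t89 : T := .cons 296 (.leaf 295 2170 (.cons 251 (.leaf 252 1985 (.cons 299 (.leaf 300 2176 (.cons 320 (.cons 321 (.leaf 345 1988 (.cons 249 (.leaf 225 1797 (.leaf 344 1989 .nil)) .nil)) (.cons 321 (.leaf 345 1988 (.cons 343 (.leaf 319 1982 (.cons 344 (.leaf 367 2174 (.cons 323 (.leaf 322 2554 (.cons 348 (.leaf 324 2012 (.cons 347 (.leaf 372 2204 (.cons 368 (.leaf 297 2181 (.cons 369 (.leaf 393 2372 (.cons 370 (.leaf 346 2198 (.leaf 371 2753 .nil)) .nil)) .nil)) .nil)) .nil)) .nil)) .nil)) .nil)) .nil)) (.cons 225 (.leaf 249 1797 (.cons 319 (.leaf 343 1982 (.cons 298 (.leaf 271 2168 (.leaf 297 2362 .nil)) .nil)) .nil)) .nil))) .nil)) .nil)) .nil)) (.cons 299 (.leaf 300 2176 (.cons 251 (.leaf 252 1985 (.cons 227 (.cons 202 (.leaf 226 1623 (.cons 204 (.leaf 228 1629 (.cons 322 (.leaf 298 1814 (.cons 323 (.leaf 346 2006 (.cons 348 (.leaf 324 2012 (.cons 203 (.leaf 178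 1431 (.leaf 180 1437 .nil)) .nil)) .nil)) .nil)) .nil)) .nil)) (.cons 202 (.leaf 226 1623 (.cons 203 (.leaf 178 1431 (.cons 204 (.leaf 180 1437 (.leaf 228 1629 .nil)) .nil)) .nil)) (.cons 202 (.leaf 226 1623 (.cons 204 (.leaf 228 1629 (.cons 322 (.leaf 298 1814 (.cons 323 (.leaf 346 2006 (.cons 348 (.leaf 324 2012 (.cons 347 (.leaf 372 2204 (.cons 321 (.leaf 320 2560 (.cons 297 (.leaf 345 1991 (.cons 224 (.leaf 200 1604 (.leaf 249 1799 .nil)) .nil)) .nil)) .nil)) .nil)) .nil)) .nil)) .nil)) .nil)) (.cons 298 (.leaf 203 1622 (.leaf 322 1814 .nil)) .nil)))) .nil)) .nil)) (.cons 296 (.leaf 295 2170 (.cons 251 (.leaf 252 1985 (.cons 320 (.cons 249 (.leaf 225 1797 (.leaf 344 1989 .nil)) (.cons 343 (.leaf 319 1982 (.cons 344 (.leaf 367 2174 (.cons 368 (.leaf 297 2181 (.cons 369 (.leaf 345 2180 (.leaf 393 2372 .nil)) .nil)) .nil)) .nil)) (.cons 225 (.leaf 249 1797 (.cons 319 (.leaf 343 1982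 (.cons 321 (.leaf 345 1988 (.cons 224 (.leaf 201 1605 (.leaf 297 1796 .nil)) .nil)) .nil)) .nil)) .nil))) .nil)) .nil)) (.cons 295 (.leaf 296 2170 (.cons 271 (.leaf 294 2162 (.cons 299 (.leaf 300 2176 (.leaf 298 2168 .nil)) .nil)) .nil)) .nil)))
noncomputable def t90 : T := .cons 295 (.leaf 319 1790 (.cons 293 (.leaf 294 2153 (.cons 321 (.leaf 297 1796 (.cons 320 (.leaf 345 1988 (.cons 322 (.leaf 323 2363 (.cons 344 (.leaf 249 1989 (.cons 271 (.leaf 247 1983 (.leaf 368 2175 .nil)) .nil)) .nil)) .nil)) .nil)) .nil)) .nil)) (.cons 225 (.leaf 201 1605 (.cons 295 (.leaf 319 1790 (.cons 293 (.leaf 294 2153 (.cons 320 (.leaf 249 1797 (.cons 345 (.leaf 321 1988 (.cons 344 (.leaf 369 2180 (.cons 271 (.leaf 247 1983 (.leaf 368 2175 .nil)) .nil)) .nil)) .nil)) .nil)) .nil)) .nil)) (.cons 225 (.leaf 201 1605 (.cons 319 (.leaf 295 1790 (.cons 320 (.leaf 249 1797 (.leaf 343 1982 .nil)) .nil))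 .nil)) (.cons 297 (.leaf 321 1796 (.cons 201 (.leaf 225 1605 (.cons 295 (.leaf 319 1790 (.cons 294 (.leaf 293 2153 (.cons 270 (.leaf 269 2155 (.cons 271 (.leaf 298 2160 (.cons 246 (.leaf 245 1963 (.cons 198 (.leaf 222 1588 (.cons 318 (.leaf 317 2346 (.cons 342 (.leaf 366 2165 (.leaf 247 1973 .nil)) .nil)) .nil)) .nil)) .nil)) .nil)) .nil)) .nil)) .nil)) .nil)) (.cons 297 (.leaf 321 1796 (.cons 225 (.leaf 201 1605 (.cons 249 (.leaf 320 1797 (.cons 202 (.leaf 226 1613 (.cons 298 (.leaf 322 1804 (.cons 271 (.leaf 270 2160 (.leaf 299 2171 .nil)) .nil)) .nil)) .nil)) .nil)) .nil)) .nil))))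
noncomputable def t91 : T := .cons 224 (.cons 296 (.cons 295 (.leaf 274 2170 (.leaf 319 1790 .nil)) (.cons 297 (.leaf 200 1604 (.leaf 321 1796 .nil)) .nil)) (.cons 274 (.leaf 247 1979 (.cons 251 (.leaf 252 1985 (.cons 295 (.leaf 296 2170 (.cons 271 (.leaf 200 1598 (.leaf 294 2162 .nil)) .nil)) .nil)) .nil)) (.cons 274 (.leaf 247 1979 (.cons 251 (.leaf 252 1985 (.cons 295 (.leaf 296 2170 (.cons 271 (.leaf 294 2162 (.cons 299 (.leaf 300 2176 (.leaf 298 2168 .nil)) .nil)) .nil)) .nil)) .nil)) (.cons 200 (.leaf 297 1604 (.cons 176 (.leaf 249 1412 (.cons 177 (.leaf 201 1413 (.leaf 153 1221 .nil)) .nil)) .nil)) .nil)))) (.cons 224 (.cons 200 (.leaf 297 1604 (.cons 176 (.leaf 249 1412 (.cons 177 (.leaf 201 1413 (.leaf 153 1221 .nil)) .nil)) .nil)) (.cons 200 (.cons 176 (.leaf 249 1412 (.cons 177 (.leaf 201 1413 (.leaf 153 1221 .nil)) .nil)) (.cons 201 (.leaf 177 1413 (.cons 295 (.leaf 271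 1598 (.cons 296 (.leaf 225 1605 (.leaf 319 1790 .nil)) .nil)) .nil)) (.cons 176 (.leaf 249 1412 (.cons 271 (.leaf 295 1598 (.leaf 247 1406 .nil)) .nil)) .nil))) (.cons 296 t90 (.cons 200 (.leaf 297 1604 (.cons 201 (.leaf 177 1413 (.cons 295 (.leaf 271 1598 (.cons 296 (.leaf 225 1605 (.leaf 319 1790 .nil)) .nil)) .nil)) .nil)) (.cons 297 (.leaf 200 1604 (.cons 321 (.leaf 296 1796 (.leaf 345 1991 .nil)) .nil)) .nil))))) (.cons 274 t89 (.cons 274 (.leaf 247 1979 (.cons 299 (.leaf 300 2176 (.cons 251 (.leaf 252 1985 (.cons 227 (.cons 202 (.leaf 226 1623 (.cons 204 (.leaf 228 1629 (.cons 322 (.leaf 298 1814 (.cons 323 (.leaf 346 2006 (.cons 348 (.leaf 324 2012 (.cons 203 (.leaf 178 1431 (.leaf 180 1437 .nil)) .nil)) .nil)) .nil)) .nil)) .nil)) (.cons 202 (.leaf 226 1623 (.cons 203 (.leaf 178 1431 (.cons 204 (.leaf 180 1437 (.leaf 228 1629 .nil)) .nil)) .nil)) (.cons 202 (.leaf 226 1623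 (.cons 204 (.leaf 228 1629 (.cons 322 (.leaf 298 1814 (.cons 323 (.leaf 346 2006 (.cons 348 (.leaf 324 2012 (.cons 347 (.leaf 372 2204 (.cons 321 (.leaf 320 2560 (.cons 297 (.leaf 345 1991 (.cons 224 (.leaf 200 1604 (.leaf 249 1799 .nil)) .nil)) .nil)) .nil)) .nil)) .nil)) .nil)) .nil)) .nil)) (.cons 298 (.leaf 203 1622 (.leaf 322 1814 .nil)) .nil)))) .nil)) .nil)) .nil)) (.cons 274 (.leaf 247 1979 (.cons 299 (.leaf 300 2176 (.cons 251 (.leaf 252 1985 (.cons 271 (.leaf 298 2168 (.cons 294 (.leaf 295 2162 (.cons 270 (.leaf 293 2154 (.cons 245 (.leaf 246 1963 (.cons 269 (.leaf 244 1955 (.leaf 249 1961 .nil)) .nil)) .nil)) .nil)) .nil)) .nil)) .nil)) .nil)) (.cons 274 (.leaf 247 1979 (.cons 299 (.leaf 300 2176 (.cons 251 (.leaf 252 1985 (.cons 298 (.leaf 271 2168 (.cons 227 (.leaf 203 1622 (.leaf 322 1814 .nil)) .nil)) .nil)) .nil)) .nil)) (.cons 274 (.leaf 247 1979 (.cons 296 (.leaf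 295 2170 (.cons 251 (.leaf 252 1985 (.cons 320 (.cons 249 (.leaf 225 1797 (.leaf 344 1989 .nil)) (.cons 343 (.leaf 319 1982 (.cons 344 (.leaf 367 2174 (.cons 368 (.leaf 297 2181 (.cons 369 (.leaf 345 2180 (.leaf 393 2372 .nil)) .nil)) .nil)) .nil)) (.cons 225 (.leaf 249 1797 (.cons 319 (.leaf 343 1982 (.cons 321 (.leaf 345 1988 (.cons 224 (.leaf 201 1605 (.leaf 297 1796 .nil)) .nil)) .nil)) .nil)) .nil))) .nil)) .nil)) .nil)) .nil))))))
noncomputable def t92 : T := .cons 200 (.leaf 297 1604 (.cons 175 (.leaf 199 1407 (.cons 201 (.leaf 177 1413 (.cons 296 (.leaf 225 1605 (.cons 176 (.leaf 151 1215 (.leaf 249 1412 .nil)) .nil)) .nil)) .nil)) .nil)) (.cons 296 (.cons 297 (.leaf 321 1796 (.cons 201 (.leaf 225 1605 (.cons 295 (.leaf 274 2170 (.leaf 319 1790 .nil)) .nil)) .nil)) (.cons 321 (.leaf 297 1796 (.cons 201 (.leaf 225 1605 (.cons 320 (.leaf 345 1988 (.cons 343 (.leaf 319 1982 (.cons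 344 (.leaf 249 1989 (.leaf 367 2174 .nil)) .nil)) .nil)) .nil)) .nil)) (.cons 295 (.leaf 274 2170 (.leaf 319 1790 .nil)) (.cons 274 (.leaf 247 1979 (.leaf 295 2170 .nil)) .nil)))) (.cons 200 (.cons 175 (.leaf 199 1407 (.cons 201 (.leaf 177 1413 (.cons 296 (.leaf 225 1605 (.cons 176 (.leaf 151 1215 (.leaf 249 1412 .nil)) .nil)) .nil)) .nil)) (.cons 201 (.leaf 177 1413 (.cons 295 (.leaf 271 1598 (.cons 296 (.leaf 274 2170 (.leaf 225 1605 .nil)) .nil)) .nil)) (.cons 176 (.leaf 249 1412 (.cons 271 (.leaf 295 1598 (.leaf 247 1406 .nil)) .nil)) .nil))) (.cons 200 (.leaf 297 1604 (.cons 175 (.leaf 199 1407 (.cons 176 (.leaf 151 1215 (.leaf 249 1412 .nil)) .nil)) .nil)) (.cons 200 (.leaf 297 1604 (.cons 175 (.leaf 199 1407 (.cons 176 (.leaf 151 1215 (.cons 177 (.leaf 201 1413 (.leaf 153 1221 .nil)) .nil)) .nil)) .nil)) .nil))))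
noncomputable def t93 : T := .cons 299 (.leaf 300 2176 (.cons 251 (.leaf 252 1985 (.cons 227 (.cons 202 (.leaf 226 1623 (.cons 204 (.leaf 228 1629 (.cons 322 (.leaf 298 1814 (.cons 323 (.leaf 346 2006 (.cons 348 (.leaf 324 2012 (.cons 203 (.leaf 178 1431 (.leaf 180 1437 .nil)) .nil)) .nil)) .nil)) .nil)) .nil)) (.cons 202 (.leaf 226 1623 (.cons 203 (.leaf 178 1431 (.cons 204 (.leaf 180 1437 (.leaf 228 1629 .nil)) .nil)) .nil)) (.cons 202 (.leaf 226 1623 (.cons 204 (.leaf 228 1629 (.cons 322 (.leaf 298 1814 (.cons 323 (.leaf 346 2006 (.cons 348 (.leaf 324 2012 (.cons 347 (.leaf 372 2204 (.cons 321 (.leaf 320 2560 (.cons 297 (.leaf 345 1991 (.cons 224 (.leaf 200 1604 (.leaf 296 1796 .nil)) .nil)) .nil)) .nil)) .nil)) .nil)) .nil)) .nil)) .nil)) (.cons 298 (.leaf 203 1622 (.leaf 322 1814 .nil)) .nil)))) .nil)) .nil)) (.cons 299 (.leaf 300 2176 (.cons 251 (.leaf 252 1985 (.cons 227 (.cons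 202 (.leaf 226 1623 (.cons 204 (.leaf 228 1629 (.cons 322 (.leaf 298 1814 (.cons 323 (.leaf 346 2006 (.cons 348 (.leaf 324 2012 (.cons 203 (.leaf 178 1431 (.leaf 180 1437 .nil)) .nil)) .nil)) .nil)) .nil)) .nil)) (.cons 202 (.leaf 226 1623 (.cons 203 (.leaf 178 1431 (.cons 204 (.leaf 180 1437 (.leaf 228 1629 .nil)) .nil)) .nil)) (.cons 202 (.leaf 226 1623 (.cons 204 (.leaf 228 1629 (.cons 322 (.leaf 298 1814 (.cons 323 (.leaf 346 2006 (.cons 348 (.leaf 324 2012 (.cons 347 (.leaf 372 2204 (.cons 321 (.leaf 320 2560 (.cons 297 (.leaf 345 1991 (.cons 224 (.leaf 200 1604 (.leaf 249 1799 .nil)) .nil)) .nil)) .nil)) .nil)) .nil)) .nil)) .nil)) .nil)) (.cons 298 (.leaf 203 1622 (.leaf 322 1814 .nil)) .nil)))) .nil)) .nil)) (.cons 296 (.leaf 295 2170 (.cons 251 (.leaf 252 1985 (.cons 320 (.cons 249 (.leaf 225 1797 (.leaf 344 1989 .nil)) (.cons 343 (.leaf 319 1982 (.cons 344 (.leaf 367 2174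 (.cons 368 (.leaf 297 2181 (.cons 369 (.leaf 345 2180 (.leaf 393 2372 .nil)) .nil)) .nil)) .nil)) (.cons 225 (.leaf 249 1797 (.cons 319 (.leaf 343 1982 (.cons 321 (.leaf 345 1988 (.cons 224 (.leaf 201 1605 (.leaf 297 1796 .nil)) .nil)) .nil)) .nil)) .nil))) .nil)) .nil)) (.cons 295 (.leaf 296 2170 (.cons 271 (.leaf 294 2162 (.cons 299 (.leaf 300 2176 (.leaf 298 2168 .nil)) .nil)) .nil)) .nil)))
noncomputable def t94 : T := .cons 201 (.leaf 225 1605 (.cons 321 (.leaf 297 1796 (.cons 320 (.leaf 345 1988 (.cons 343 (.leaf 319 1982 (.cons 344 (.leaf 249 1989 (.leaf 367 2174 .nil)) .nil)) .nil)) .nil)) .nil)) (.cons 225 (.leaf 201 1605 (.cons 295 (.leaf 319 1790 (.cons 293 (.leaf 294 2153 (.cons 320 (.leaf 249 1797 (.cons 345 (.leaf 321 1988 (.cons 344 (.leaf 369 2180 (.cons 271 (.leaf 247 1983 (.leaf 368 2175 .nil)) .nil)) .nil)) .nil)) .nil)) .nil)) .nil)) (.cons 225 (.leaf 201 1605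 (.cons 319 (.leaf 295 1790 (.cons 320 (.leaf 249 1797 (.leaf 343 1982 .nil)) .nil)) .nil)) (.cons 321 (.leaf 297 1796 (.cons 295 (.leaf 319 1790 (.cons 293 (.leaf 294 2153 (.cons 320 (.leaf 345 1988 (.cons 322 (.leaf 323 2363 (.cons 344 (.leaf 249 1989 (.cons 271 (.leaf 247 1983 (.leaf 368 2175 .nil)) .nil)) .nil)) .nil)) .nil)) .nil)) .nil)) (.cons 297 (.leaf 321 1796 (.cons 225 (.leaf 201 1605 (.cons 249 (.leaf 320 1797 (.cons 202 (.leaf 226 1613 (.cons 298 (.leaf 322 1804 (.cons 271 (.leaf 270 2160 (.leaf 299 2171 .nil)) .nil)) .nil)) .nil)) .nil)) .nil)) (.cons 297 (.leaf 321 1796 (.cons 201 (.leaf 225 1605 (.cons 295 (.leaf 319 1790 (.cons 294 (.leaf 293 2153 (.cons 270 (.leaf 269 2155 (.cons 271 (.leaf 298 2160 (.cons 246 (.leaf 245 1963 (.cons 198 (.leaf 222 1588 (.cons 318 (.leaf 317 2346 (.cons 342 (.leaf 366 2165 (.leaf 247 1973 .nil)) .nil)) .nil)) .nil)) .nil)) .nil))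 .nil)) .nil)) .nil)) .nil)) .nil)))))
noncomputable def t95 : T := .cons 274 (.leaf 247 1979 (.cons 295 (.leaf 296 2170 (.cons 271 (.leaf 294 2162 (.cons 299 (.leaf 300 2176 (.leaf 298 2168 .nil)) .nil)) .nil)) .nil)) (.cons 224 (.cons 200 (.leaf 297 1604 (.cons 175 (.leaf 199 1407 (.cons 201 (.leaf 177 1413 (.cons 296 (.leaf 225 1605 (.cons 176 (.leaf 151 1215 (.leaf 249 1412 .nil)) .nil)) .nil)) .nil)) .nil)) (.cons 296 t94 (.cons 200 (.cons 175 (.leaf 199 1407 (.cons 201 (.leaf 177 1413 (.cons 296 (.leaf 225 1605 (.cons 176 (.leaf 151 1215 (.leaf 249 1412 .nil)) .nil)) .nil)) .nil)) (.cons 201 (.leaf 177 1413 (.cons 295 (.leaf 271 1598 (.cons 296 (.leaf 225 1605 (.leaf 319 1790 .nil)) .nil)) .nil)) (.cons 176 (.leaf 249 1412 (.cons 271 (.leaf 295 1598 (.leaf 247 1406 .nil)) .nil)) .nil))) (.cons 200 (.leaf 297 1604 (.cons 175 (.leaf 199 1407 (.cons 176 (.leaf 151 1215 (.leaf 249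 1412 .nil)) .nil)) .nil)) (.cons 200 (.leaf 297 1604 (.cons 175 (.leaf 199 1407 (.cons 176 (.leaf 151 1215 (.cons 177 (.leaf 201 1413 (.leaf 153 1221 .nil)) .nil)) .nil)) .nil)) .nil))))) (.cons 274 t93 (.cons 274 (.leaf 247 1979 (.cons 299 (.leaf 300 2176 (.cons 251 (.leaf 252 1985 (.cons 227 (.cons 202 (.leaf 226 1623 (.cons 204 (.leaf 228 1629 (.cons 322 (.leaf 298 1814 (.cons 323 (.leaf 346 2006 (.cons 348 (.leaf 324 2012 (.cons 203 (.leaf 178 1431 (.leaf 180 1437 .nil)) .nil)) .nil)) .nil)) .nil)) .nil)) (.cons 202 (.leaf 226 1623 (.cons 203 (.leaf 178 1431 (.cons 204 (.leaf 180 1437 (.leaf 228 1629 .nil)) .nil)) .nil)) (.cons 202 (.leaf 226 1623 (.cons 204 (.leaf 228 1629 (.cons 322 (.leaf 298 1814 (.cons 323 (.leaf 346 2006 (.cons 348 (.leaf 324 2012 (.cons 347 (.leaf 372 2204 (.cons 321 (.leaf 320 2560 (.cons 297 (.leaf 345 1991 (.cons 224 (.leaf 200 1604 (.leaf 249 1799 .nil))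 .nil)) .nil)) .nil)) .nil)) .nil)) .nil)) .nil)) .nil)) (.cons 298 (.leaf 203 1622 (.leaf 322 1814 .nil)) .nil)))) .nil)) .nil)) .nil)) (.cons 224 t92 .nil))))
noncomputable def t96 : T := .cons 296 (.leaf 295 2170 (.cons 251 (.leaf 252 1985 (.cons 320 (.cons 343 (.leaf 319 1982 (.cons 344 (.leaf 367 2174 (.cons 368 (.leaf 297 2181 (.cons 369 (.leaf 345 2180 (.leaf 393 2372 .nil)) .nil)) .nil)) .nil)) (.cons 343 (.leaf 319 1982 (.cons 344 (.leaf 367 2174 (.cons 297 (.leaf 368 2181 (.cons 224 (.leaf 200 1604 (.leaf 321 1796 .nil)) .nil)) .nil)) .nil)) (.cons 299 (.leaf 300 2176 (.cons 271 (.leaf 298 2168 (.cons 343 (.leaf 319 1982 (.cons 344 (.leaf 367 2174 (.cons 345 (.leaf 321 1988 (.leaf 369 2180 .nil)) .nil)) .nil)) .nil)) .nil)) (.cons 321 (.leaf 345 1988 (.cons 224 (.leaf 297 1796 (.cons 199 (.leaf 223 1599 (.cons 200 (.leaf 175 1407 (.cons 201 (.leaf 177 1413 (.leaf 225 1605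 .nil)) .nil)) .nil)) .nil)) .nil)) .nil)))) .nil)) .nil)) (.cons 299 (.leaf 300 2176 (.cons 251 (.leaf 252 1985 (.cons 298 (.leaf 271 2168 (.cons 227 (.leaf 203 1622 (.leaf 322 1814 .nil)) .nil)) .nil)) .nil)) (.cons 296 (.leaf 295 2170 (.cons 251 (.leaf 252 1985 (.cons 320 (.cons 343 (.leaf 319 1982 (.cons 344 (.leaf 367 2174 (.cons 368 (.leaf 297 2181 (.cons 369 (.leaf 345 2180 (.leaf 393 2372 .nil)) .nil)) .nil)) .nil)) (.cons 343 (.leaf 319 1982 (.cons 344 (.leaf 367 2174 (.cons 297 (.leaf 368 2181 (.cons 224 (.leaf 200 1604 (.leaf 321 1796 .nil)) .nil)) .nil)) .nil)) (.cons 321 (.leaf 345 1988 (.cons 224 (.leaf 297 1796 (.cons 199 (.leaf 223 1599 (.cons 200 (.leaf 175 1407 (.cons 201 (.leaf 177 1413 (.leaf 225 1605 .nil)) .nil)) .nil)) .nil)) .nil)) (.cons 345 (.leaf 321 1988 (.cons 343 (.leaf 319 1982 (.cons 344 (.leaf 367 2174 (.leaf 369 2180 .nil)) .nil)) .nil)) .nil)))) .nil))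 .nil)) (.cons 295 (.leaf 296 2170 (.cons 271 (.leaf 294 2162 (.cons 299 (.leaf 300 2176 (.leaf 298 2168 .nil)) .nil)) .nil)) .nil)))
noncomputable def t97 : T := .cons 201 (.leaf 225 1605 (.cons 295 (.leaf 319 1790 (.cons 294 (.leaf 293 2153 (.cons 297 (.leaf 321 1796 (.cons 270 (.leaf 269 2155 (.cons 271 (.leaf 298 2160 (.cons 246 (.leaf 245 1963 (.cons 198 (.leaf 222 1588 (.cons 318 (.leaf 317 2346 (.cons 342 (.leaf 366 2165 (.leaf 247 1973 .nil)) .nil)) .nil)) .nil)) .nil)) .nil)) .nil)) .nil)) .nil)) .nil)) (.cons 201 (.leaf 225 1605 (.cons 223 (.leaf 199 1599 (.cons 247 (.leaf 320 1791 (.cons 245 (.leaf 246 1960 (.cons 295 (.leaf 319 1790 (.cons 294 (.leaf 293 2153 (.cons 271 (.leaf 318 1782 (.cons 222 (.leaf 198 1591 (.cons 221 (.leaf 220 1760 (.leaf 244 1762 .nil)) .nil)) .nil)) .nil)) .nil)) .nil)) .nil)) .nil)) .nil)) (.cons 201 (.leaf 225 1605 (.cons 223 (.leaf 199 1599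 (.cons 297 (.leaf 321 1796 (.cons 320 (.leaf 247 1791 (.cons 343 (.leaf 319 1982 (.cons 344 (.leaf 367 2174 (.leaf 368 2181 .nil)) .nil)) .nil)) .nil)) .nil)) .nil)) (.cons 201 (.leaf 225 1605 (.cons 223 (.leaf 199 1599 (.cons 320 (.leaf 247 1791 (.cons 321 (.leaf 297 1796 (.leaf 345 1988 .nil)) .nil)) .nil)) .nil)) (.cons 199 (.leaf 223 1599 (.cons 295 (.leaf 319 1790 (.cons 294 (.leaf 293 2153 (.cons 297 (.leaf 321 1796 (.cons 270 (.leaf 269 2155 (.cons 298 (.leaf 271 2160 (.cons 299 (.leaf 300 2179 (.cons 323 (.leaf 322 2360 (.leaf 324 2368 .nil)) .nil)) .nil)) .nil)) .nil)) .nil)) .nil)) .nil)) .nil))))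
noncomputable def t98 : T := .cons 200 (.leaf 297 1604 (.cons 199 (.leaf 175 1407 (.cons 295 (.leaf 271 1598 (.cons 296 (.leaf 223 1599 (.leaf 319 1790 .nil)) .nil)) .nil)) .nil)) (.cons 296 t97 (.cons 296 (.cons 201 (.leaf 225 1605 (.cons 200 (.leaf 177 1413 (.cons 295 (.leaf 271 1598 (.leaf 319 1790 .nil)) .nil)) .nil)) (.cons 199 (.leaf 223 1599 (.cons 200 (.leaf 175 1407 (.cons 201 (.leaf 177 1413 (.leaf 225 1605 .nil)) .nil)) .nil)) (.cons 199 (.leaf 223 1599 (.cons 200 (.leaf 175 1407 (.cons 295 (.leaf 271 1598 (.leaf 319 1790 .nil)) .nil)) .nil)) (.cons 223 (.leaf 199 1599 (.cons 247 (.leaf 320 1791 (.cons 245 (.leaf 246 1960 (.cons 295 (.leaf 319 1790 (.cons 294 (.leaf 293 2153 (.cons 271 (.leaf 318 1782 (.cons 222 (.leaf 198 1591 (.cons 221 (.leaf 220 1760 (.leaf 244 1762 .nil)) .nil)) .nil)) .nil)) .nil)) .nil)) .nil)) .nil)) .nil)))) (.cons 200 (.leaf 297 1604 (.cons 177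 (.leaf 201 1413 (.cons 176 (.leaf 153 1221 (.cons 271 (.leaf 295 1598 (.leaf 247 1406 .nil)) .nil)) .nil)) .nil)) (.cons 200 (.leaf 297 1604 (.cons 175 (.leaf 199 1407 (.cons 176 (.leaf 151 1215 (.cons 177 (.leaf 201 1413 (.leaf 153 1221 .nil)) .nil)) .nil)) .nil)) .nil))))
noncomputable def t99 : T := .cons 274 (.leaf 247 1979 (.cons 296 (.leaf 295 2170 (.cons 251 (.leaf 252 1985 (.cons 320 (.cons 343 (.leaf 319 1982 (.cons 344 (.leaf 367 2174 (.cons 368 (.leaf 297 2181 (.cons 369 (.leaf 345 2180 (.leaf 393 2372 .nil)) .nil)) .nil)) .nil)) (.cons 343 (.leaf 319 1982 (.cons 344 (.leaf 367 2174 (.cons 297 (.leaf 368 2181 (.cons 224 (.leaf 200 1604 (.leaf 321 1796 .nil)) .nil)) .nil)) .nil)) (.cons 299 (.leaf 300 2176 (.cons 271 (.leaf 298 2168 (.cons 343 (.leaf 319 1982 (.cons 344 (.leaf 367 2174 (.cons 345 (.leaf 321 1988 (.leaf 369 2180 .nil)) .nil)) .nil)) .nil)) .nil)) (.cons 321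 (.leaf 345 1988 (.cons 224 (.leaf 297 1796 (.cons 199 (.leaf 223 1599 (.cons 200 (.leaf 175 1407 (.cons 201 (.leaf 177 1413 (.leaf 225 1605 .nil)) .nil)) .nil)) .nil)) .nil)) .nil)))) .nil)) .nil)) .nil)) (.cons 224 t98 (.cons 274 t96 (.cons 274 (.leaf 247 1979 (.cons 299 (.leaf 300 2176 (.cons 251 (.leaf 252 1985 (.cons 298 (.leaf 271 2168 (.cons 227 (.leaf 203 1622 (.leaf 322 1814 .nil)) .nil)) .nil)) .nil)) .nil)) (.cons 274 (.leaf 247 1979 (.cons 296 (.leaf 295 2170 (.cons 251 (.leaf 252 1985 (.cons 320 (.cons 345 (.leaf 321 1988 (.cons 343 (.leaf 319 1982 (.cons 344 (.leaf 367 2174 (.leaf 369 2180 .nil)) .nil)) .nil)) (.cons 299 (.leaf 300 2176 (.cons 319 (.leaf 343 1982 (.cons 298 (.leaf 297 2362 (.cons 227 (.leaf 203 1622 (.leaf 322 1814 .nil)) .nil)) .nil)) .nil)) (.cons 321 (.leaf 345 1988 (.cons 224 (.leaf 297 1796 (.cons 199 (.leaf 223 1599 (.cons 200 (.leaf 175 1407 (.cons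 201 (.leaf 177 1413 (.leaf 225 1605 .nil)) .nil)) .nil)) .nil)) .nil)) .nil))) .nil)) .nil)) .nil)) (.cons 274 (.leaf 247 1979 (.cons 296 (.leaf 295 2170 (.cons 251 (.leaf 252 1985 (.cons 320 (.cons 345 (.leaf 321 1988 (.cons 343 (.leaf 319 1982 (.cons 344 (.leaf 367 2174 (.leaf 369 2180 .nil)) .nil)) .nil)) (.cons 343 (.leaf 319 1982 (.cons 344 (.leaf 367 2174 (.cons 368 (.leaf 297 2181 (.cons 369 (.leaf 345 2180 (.leaf 393 2372 .nil)) .nil)) .nil)) .nil)) (.cons 343 (.leaf 319 1982 (.cons 344 (.leaf 367 2174 (.cons 297 (.leaf 368 2181 (.cons 224 (.leaf 200 1604 (.leaf 321 1796 .nil)) .nil)) .nil)) .nil)) (.cons 321 (.leaf 345 1988 (.cons 224 (.leaf 297 1796 (.cons 199 (.leaf 223 1599 (.cons 200 (.leaf 175 1407 (.cons 201 (.leaf 177 1413 (.leaf 225 1605 .nil)) .nil)) .nil)) .nil)) .nil)) .nil)))) .nil)) .nil)) .nil)) .nil)))))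
noncomputable def t100 : T := .cons 296 (.leaf 295 2170 (.cons 251 (.leaf 252 1985 (.cons 224 (.cons 297 (.leaf 200 1604 (.leaf 321 1796 .nil)) (.cons 199 (.leaf 223 1599 (.cons 200 (.leaf 175 1407 (.cons 176 (.leaf 249 1412 (.cons 177 (.leaf 201 1413 (.leaf 153 1221 .nil)) .nil)) .nil)) .nil)) (.cons 199 (.leaf 223 1599 (.cons 321 (.leaf 297 1796 (.cons 320 (.leaf 345 1988 (.cons 343 (.leaf 319 1982 (.cons 344 (.leaf 249 1989 (.leaf 367 2174 .nil)) .nil)) .nil)) .nil)) .nil)) .nil))) .nil)) .nil)) (.cons 299 (.leaf 300 2176 (.cons 251 (.leaf 252 1985 (.cons 227 (.cons 202 (.leaf 226 1623 (.cons 204 (.leaf 228 1629 (.cons 322 (.leaf 298 1814 (.cons 323 (.leaf 346 2006 (.cons 348 (.leaf 324 2012 (.cons 203 (.leaf 178 1431 (.leaf 180 1437 .nil)) .nil)) .nil)) .nil)) .nil)) .nil)) (.cons 202 (.leaf 226 1623 (.cons 203 (.leaf 178 1431 (.cons 204 (.leaf 180 1437 (.leaf 228 1629 .nil))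 .nil)) .nil)) (.cons 202 (.leaf 226 1623 (.cons 204 (.leaf 228 1629 (.cons 322 (.leaf 298 1814 (.cons 323 (.leaf 346 2006 (.cons 348 (.leaf 324 2012 (.cons 347 (.leaf 372 2204 (.cons 321 (.leaf 320 2560 (.cons 297 (.leaf 345 1991 (.cons 224 (.leaf 200 1604 (.leaf 296 1796 .nil)) .nil)) .nil)) .nil)) .nil)) .nil)) .nil)) .nil)) .nil)) (.cons 298 (.leaf 203 1622 (.leaf 322 1814 .nil)) .nil)))) .nil)) .nil)) (.cons 299 (.leaf 300 2176 (.cons 251 (.leaf 252 1985 (.cons 227 (.cons 202 (.leaf 226 1623 (.cons 204 (.leaf 228 1629 (.cons 322 (.leaf 298 1814 (.cons 323 (.leaf 346 2006 (.cons 348 (.leaf 324 2012 (.cons 203 (.leaf 178 1431 (.leaf 180 1437 .nil)) .nil)) .nil)) .nil)) .nil)) .nil)) (.cons 202 (.leaf 226 1623 (.cons 203 (.leaf 178 1431 (.cons 204 (.leaf 180 1437 (.leaf 228 1629 .nil)) .nil)) .nil)) (.cons 202 (.leaf 226 1623 (.cons 204 (.leaf 228 1629 (.cons 322 (.leaf 298 1814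 (.cons 323 (.leaf 346 2006 (.cons 348 (.leaf 324 2012 (.cons 347 (.leaf 372 2204 (.cons 321 (.leaf 320 2560 (.cons 297 (.leaf 345 1991 (.cons 224 (.leaf 200 1604 (.leaf 249 1799 .nil)) .nil)) .nil)) .nil)) .nil)) .nil)) .nil)) .nil)) .nil)) (.cons 298 (.leaf 203 1622 (.leaf 322 1814 .nil)) .nil)))) .nil)) .nil)) (.cons 295 (.leaf 296 2170 (.cons 271 (.leaf 294 2162 (.cons 299 (.leaf 300 2176 (.leaf 298 2168 .nil)) .nil)) .nil)) .nil)))
noncomputable def t101 : T := .cons 199 (.leaf 223 1599 (.cons 321 (.leaf 297 1796 (.cons 320 (.leaf 345 1988 (.cons 344 (.leaf 249 1989 (.cons 343 (.leaf 319 1982 (.leaf 367 2174 .nil)) .nil)) .nil)) .nil)) .nil)) (.cons 223 (.leaf 199 1599 (.cons 247 (.leaf 320 1791 (.cons 245 (.leaf 246 1960 (.cons 295 (.leaf 319 1790 (.cons 294 (.leaf 293 2153 (.cons 271 (.leaf 318 1782 (.cons 222 (.leaf 198 1591 (.cons 221 (.leaf 220 1760 (.leaf 249 1768 .nil))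 .nil)) .nil)) .nil)) .nil)) .nil)) .nil)) .nil)) (.cons 295 (.leaf 319 1790 (.cons 293 (.leaf 294 2153 (.cons 321 (.leaf 297 1796 (.cons 320 (.leaf 345 1988 (.cons 322 (.leaf 323 2363 (.cons 344 (.leaf 249 1989 (.cons 271 (.leaf 247 1983 (.leaf 368 2175 .nil)) .nil)) .nil)) .nil)) .nil)) .nil)) .nil)) (.cons 321 (.leaf 297 1796 (.cons 199 (.leaf 223 1599 (.cons 320 (.leaf 345 1988 (.cons 344 (.leaf 249 1989 (.cons 271 (.leaf 247 1983 (.cons 368 (.leaf 295 2175 (.cons 367 (.leaf 343 2174 (.leaf 391 2366 .nil)) .nil)) .nil)) .nil)) .nil)) .nil)) .nil)) (.cons 199 (.leaf 223 1599 (.cons 295 (.leaf 319 1790 (.cons 294 (.leaf 293 2153 (.cons 297 (.leaf 321 1796 (.cons 270 (.leaf 269 2155 (.cons 298 (.leaf 271 2160 (.cons 299 (.leaf 300 2179 (.cons 323 (.leaf 322 2360 (.leaf 324 2368 .nil)) .nil)) .nil)) .nil)) .nil)) .nil)) .nil)) .nil)) .nil))))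
noncomputable def t102 : T := .cons 274 (.leaf 247 1979 (.cons 296 (.leaf 295 2170 (.cons 251 (.leaf 252 1985 (.cons 224 (.cons 297 (.leaf 200 1604 (.leaf 321 1796 .nil)) (.cons 199 (.leaf 223 1599 (.cons 200 (.leaf 175 1407 (.cons 176 (.leaf 249 1412 (.cons 177 (.leaf 201 1413 (.leaf 153 1221 .nil)) .nil)) .nil)) .nil)) (.cons 199 (.leaf 223 1599 (.cons 321 (.leaf 297 1796 (.cons 320 (.leaf 345 1988 (.cons 343 (.leaf 319 1982 (.cons 344 (.leaf 249 1989 (.leaf 367 2174 .nil)) .nil)) .nil)) .nil)) .nil)) .nil))) .nil)) .nil)) .nil)) (.cons 224 (.cons 200 (.leaf 297 1604 (.cons 175 (.leaf 199 1407 (.cons 176 (.leaf 151 1215 (.leaf 249 1412 .nil)) .nil)) .nil)) (.cons 296 t101 (.cons 200 (.cons 175 (.leaf 199 1407 (.cons 176 (.leaf 151 1215 (.leaf 249 1412 .nil)) .nil)) (.cons 199 (.leaf 175 1407 (.cons 295 (.leaf 271 1598 (.cons 296 (.leaf 223 1599 (.leaf 319 1790 .nil)) .nil)) .nil))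 (.cons 176 (.leaf 249 1412 (.cons 177 (.leaf 201 1413 (.leaf 153 1221 .nil)) .nil)) .nil))) (.cons 200 (.leaf 297 1604 (.cons 176 (.leaf 249 1412 (.cons 177 (.leaf 201 1413 (.leaf 153 1221 .nil)) .nil)) .nil)) (.cons 200 (.leaf 297 1604 (.cons 199 (.leaf 175 1407 (.cons 295 (.leaf 271 1598 (.cons 296 (.leaf 223 1599 (.leaf 319 1790 .nil)) .nil)) .nil)) .nil)) .nil))))) (.cons 274 t100 (.cons 274 (.leaf 247 1979 (.cons 299 (.leaf 300 2176 (.cons 251 (.leaf 252 1985 (.cons 227 (.cons 202 (.leaf 226 1623 (.cons 204 (.leaf 228 1629 (.cons 322 (.leaf 298 1814 (.cons 323 (.leaf 346 2006 (.cons 348 (.leaf 324 2012 (.cons 203 (.leaf 178 1431 (.leaf 180 1437 .nil)) .nil)) .nil)) .nil)) .nil)) .nil)) (.cons 202 (.leaf 226 1623 (.cons 203 (.leaf 178 1431 (.cons 204 (.leaf 180 1437 (.leaf 228 1629 .nil)) .nil)) .nil)) (.cons 202 (.leaf 226 1623 (.cons 204 (.leaf 228 1629 (.cons 322 (.leaf 298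 1814 (.cons 323 (.leaf 346 2006 (.cons 348 (.leaf 324 2012 (.cons 347 (.leaf 372 2204 (.cons 321 (.leaf 320 2560 (.cons 297 (.leaf 345 1991 (.cons 224 (.leaf 200 1604 (.leaf 249 1799 .nil)) .nil)) .nil)) .nil)) .nil)) .nil)) .nil)) .nil)) .nil)) (.cons 298 (.leaf 203 1622 (.leaf 322 1814 .nil)) .nil)))) .nil)) .nil)) .nil)) (.cons 274 (.leaf 247 1979 (.cons 299 (.leaf 300 2176 (.cons 251 (.leaf 252 1985 (.cons 271 (.leaf 298 2168 (.cons 294 (.leaf 295 2162 (.cons 270 (.leaf 293 2154 (.cons 245 (.leaf 246 1963 (.cons 269 (.leaf 244 1955 (.leaf 249 1961 .nil)) .nil)) .nil)) .nil)) .nil)) .nil)) .nil)) .nil)) (.cons 274 (.leaf 247 1979 (.cons 299 (.leaf 300 2176 (.cons 251 (.leaf 252 1985 (.cons 298 (.leaf 271 2168 (.cons 227 (.leaf 203 1622 (.leaf 322 1814 .nil)) .nil)) .nil)) .nil)) .nil)) .nil)))))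
noncomputable def t103 : T := .cons 320 (.cons 223 (.leaf 247 1791 (.cons 343 (.leaf 319 1982 (.cons 344 (.leaf 367 2174 (.cons 345 (.leaf 321 1988 (.leaf 369 2180 .nil)) .nil)) .nil)) .nil)) (.cons 343 (.leaf 319 1982 (.cons 344 (.leaf 367 2174 (.cons 345 (.leaf 321 1988 (.leaf 369 2180 .nil)) .nil)) .nil)) (.cons 247 (.leaf 223 1791 (.cons 273 (.leaf 274 1979 (.cons 344 (.leaf 271 1983 (.leaf 249 1989 .nil)) .nil)) .nil)) (.cons 247 (.leaf 223 1791 (.cons 249 (.leaf 225 1797 (.cons 273 (.leaf 274 1979 (.cons 246 (.leaf 245 1960 (.cons 222 (.leaf 221 1771 (.cons 269 (.leaf 270 1962 (.cons 319 (.leaf 343 1982 (.cons 295 (.leaf 271 1783 (.cons 294 (.leaf 293 2153 (.cons 321 (.leaf 345 1988 (.leaf 322 2355 .nil)) .nil)) .nil)) .nil)) .nil)) .nil)) .nil)) .nil)) .nil)) .nil)) .nil)))) (.cons 320 (.cons 249 (.leaf 225 1797 (.cons 343 (.leaf 319 1982 (.cons 344 (.leaf 273 1989 (.leaf 367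 2174 .nil)) .nil)) .nil)) (.cons 249 (.leaf 225 1797 (.cons 273 (.leaf 344 1989 (.cons 274 (.leaf 295 2170 (.cons 251 (.leaf 252 1985 (.cons 299 (.leaf 300 2176 (.cons 298 (.leaf 271 2168 (.cons 322 (.leaf 227 1814 (.leaf 346 2005 .nil)) .nil)) .nil)) .nil)) .nil)) .nil)) .nil)) (.cons 319 (.leaf 343 1982 (.cons 295 (.leaf 224 1790 (.cons 273 (.leaf 274 2170 (.cons 345 (.leaf 321 1988 (.cons 344 (.leaf 369 2180 (.cons 368 (.leaf 271 2175 (.leaf 392 2367 .nil)) .nil)) .nil)) .nil)) .nil)) .nil)) (.cons 225 (.leaf 249 1797 (.cons 224 (.leaf 201 1605 (.cons 319 (.leaf 295 1790 (.leaf 343 1982 .nil)) .nil)) .nil)) .nil)))) (.cons 320 (.cons 223 (.leaf 247 1791 (.cons 224 (.leaf 199 1599 (.cons 225 (.leaf 201 1605 (.leaf 249 1797 .nil)) .nil)) .nil)) (.cons 249 (.leaf 225 1797 (.cons 343 (.leaf 319 1982 (.cons 344 (.leaf 273 1989 (.leaf 367 2174 .nil)) .nil)) .nil)) (.cons 247 (.leaf 223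 1791 (.cons 273 (.leaf 274 1979 (.cons 245 (.leaf 246 1960 (.cons 344 (.leaf 271 1983 (.cons 345 (.leaf 321 1988 (.leaf 369 2180 .nil)) .nil)) .nil)) .nil)) .nil)) .nil))) (.cons 320 (.cons 223 (.leaf 247 1791 (.cons 224 (.leaf 199 1599 (.cons 225 (.leaf 201 1605 (.leaf 249 1797 .nil)) .nil)) .nil)) (.cons 225 (.leaf 249 1797 (.cons 343 (.leaf 319 1982 (.cons 344 (.leaf 367 2174 (.cons 345 (.leaf 321 1988 (.leaf 369 2180 .nil)) .nil)) .nil)) .nil)) (.cons 223 (.leaf 247 1791 (.cons 199 (.leaf 224 1599 (.cons 343 (.leaf 319 1982 (.cons 344 (.leaf 367 2174 (.cons 345 (.leaf 321 1988 (.leaf 369 2180 .nil)) .nil)) .nil)) .nil)) .nil)) .nil))) (.cons 320 (.cons 249 (.leaf 225 1797 (.cons 273 (.leaf 344 1989 (.cons 274 (.leaf 247 1979 (.leaf 295 2170 .nil)) .nil)) .nil)) (.cons 249 (.leaf 225 1797 (.cons 273 (.leaf 344 1989 (.cons 274 (.leaf 295 2170 (.cons 251 (.leaf 252 1985 (.cons 299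 (.leaf 300 2176 (.cons 298 (.leaf 271 2168 (.cons 322 (.leaf 227 1814 (.leaf 346 2005 .nil)) .nil)) .nil)) .nil)) .nil)) .nil)) .nil)) (.cons 247 (.leaf 223 1791 (.cons 273 (.leaf 274 1979 (.cons 245 (.leaf 246 1960 (.cons 344 (.leaf 271 1983 (.cons 345 (.leaf 321 1988 (.leaf 369 2180 .nil)) .nil)) .nil)) .nil)) .nil)) (.cons 223 (.leaf 247 1791 (.cons 224 (.leaf 199 1599 (.cons 225 (.leaf 201 1605 (.leaf 249 1797 .nil)) .nil)) .nil)) .nil)))) (.cons 320 (.cons 223 (.leaf 247 1791 (.cons 224 (.leaf 199 1599 (.cons 319 (.leaf 295 1790 (.leaf 343 1982 .nil)) .nil)) .nil)) (.cons 319 (.leaf 343 1982 (.cons 295 (.leaf 224 1790 (.cons 273 (.leaf 274 2170 (.cons 345 (.leaf 321 1988 (.cons 344 (.leaf 249 1989 (.leaf 369 2180 .nil)) .nil)) .nil)) .nil)) .nil)) (.cons 247 (.leaf 223 1791 (.cons 273 (.leaf 274 1979 (.cons 344 (.leaf 271 1983 (.leaf 249 1989 .nil)) .nil)) .nil)) .nil))) (.cons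 224 (.cons 199 (.leaf 223 1599 (.cons 200 (.leaf 175 1407 (.cons 201 (.leaf 177 1413 (.leaf 225 1605 .nil)) .nil)) .nil)) (.cons 295 (.leaf 319 1790 (.cons 200 (.leaf 271 1598 (.cons 201 (.leaf 177 1413 (.leaf 225 1605 .nil)) .nil)) .nil)) (.cons 295 (.leaf 319 1790 (.cons 199 (.leaf 223 1599 (.cons 200 (.leaf 175 1407 (.leaf 271 1598 .nil)) .nil)) .nil)) (.cons 201 (.leaf 225 1605 (.cons 223 (.leaf 199 1599 (.cons 247 (.leaf 320 1791 (.cons 273 (.leaf 274 1979 (.cons 245 (.leaf 246 1960 (.cons 295 (.leaf 319 1790 (.cons 294 (.leaf 293 2153 (.cons 271 (.leaf 318 1782 (.cons 222 (.leaf 198 1591 (.cons 221 (.leaf 220 1760 (.leaf 244 1762 .nil)) .nil)) .nil)) .nil)) .nil)) .nil)) .nil)) .nil)) .nil)) .nil)) .nil)))) .nil))))))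
noncomputable def t104 : T := .cons 224 (.cons 199 (.leaf 223 1599 (.cons 225 (.leaf 201 1605 (.cons 200 (.leaf 175 1407 (.cons 197 (.leaf 198 1576 (.cons 249 (.leaf 320 1797 (.cons 176 (.leaf 273 1412 (.leaf 152 1220 .nil)) .nil)) .nil)) .nil)) .nil)) .nil)) (.cons 295 (.leaf 319 1790 (.cons 199 (.leaf 223 1599 (.cons 200 (.leaf 175 1407 (.leaf 271 1598 .nil)) .nil)) .nil)) (.cons 295 (.leaf 319 1790 (.cons 200 (.leaf 271 1598 (.cons 201 (.leaf 177 1413 (.leaf 225 1605 .nil)) .nil)) .nil)) (.cons 201 (.leaf 225 1605 (.cons 223 (.leaf 199 1599 (.cons 247 (.leaf 320 1791 (.cons 273 (.leaf 274 1979 (.cons 245 (.leaf 246 1960 (.cons 295 (.leaf 319 1790 (.cons 294 (.leaf 293 2153 (.cons 271 (.leaf 318 1782 (.cons 222 (.leaf 198 1591 (.cons 221 (.leaf 220 1760 (.leaf 249 1768 .nil)) .nil)) .nil)) .nil)) .nil)) .nil)) .nil)) .nil)) .nil)) .nil)) .nil)))) (.cons 224 (.cons 295 (.leaf 319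 1790 (.cons 273 (.leaf 274 2170 (.cons 199 (.leaf 223 1599 (.cons 200 (.leaf 175 1407 (.leaf 271 1598 .nil)) .nil)) .nil)) .nil)) (.cons 199 (.leaf 223 1599 (.cons 200 (.leaf 175 1407 (.cons 201 (.leaf 177 1413 (.leaf 225 1605 .nil)) .nil)) .nil)) (.cons 295 (.leaf 319 1790 (.cons 200 (.leaf 271 1598 (.cons 201 (.leaf 177 1413 (.leaf 225 1605 .nil)) .nil)) .nil)) (.cons 295 (.leaf 319 1790 (.cons 273 (.leaf 274 2170 (.cons 225 (.leaf 201 1605 (.cons 223 (.leaf 199 1599 (.cons 294 (.leaf 293 2153 (.cons 247 (.cons 246 (.leaf 245 1960 (.leaf 226 1778 .nil)) (.cons 226 (.leaf 227 1786 (.cons 271 (.leaf 318 1782 (.cons 222 (.leaf 198 1591 (.cons 221 (.leaf 220 1760 (.leaf 249 1768 .nil)) .nil)) .nil)) .nil)) (.cons 245 (.leaf 246 1960 (.cons 271 (.leaf 318 1782 (.cons 222 (.leaf 198 1591 (.cons 221 (.leaf 220 1760 (.leaf 249 1768 .nil)) .nil)) .nil)) .nil)) .nil))) .nil)) .nil)) .nil))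 .nil)) .nil)) .nil)))) t103)
noncomputable def t105 : T := .cons 296 (.cons 199 (.leaf 223 1599 (.cons 201 (.leaf 225 1605 (.cons 295 (.leaf 319 1790 (.cons 297 (.leaf 321 1796 (.cons 298 (.leaf 274 2169 (.cons 200 (.leaf 175 1407 (.leaf 177 1413 .nil)) .nil)) .nil)) .nil)) .nil)) .nil)) (.cons 199 (.leaf 223 1599 (.cons 200 (.leaf 175 1407 (.cons 201 (.leaf 177 1413 (.leaf 225 1605 .nil)) .nil)) .nil)) (.cons 295 (.leaf 319 1790 (.cons 200 (.leaf 271 1598 (.cons 201 (.leaf 177 1413 (.leaf 225 1605 .nil)) .nil)) .nil)) (.cons 295 (.leaf 319 1790 (.cons 199 (.leaf 223 1599 (.cons 200 (.leaf 175 1407 (.leaf 271 1598 .nil)) .nil)) .nil)) (.cons 223 (.leaf 199 1599 (.cons 201 (.leaf 225 1605 (.cons 295 (.leaf 319 1790 (.cons 297 (.leaf 321 1796 (.cons 298 (.leaf 274 2169 (.cons 271 (.leaf 299 2171 (.leaf 270 2163 .nil)) .nil)) .nil)) .nil)) .nil)) .nil)) .nil))))) (.cons 200 (.cons 175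 (.leaf 199 1407 (.cons 177 (.leaf 201 1413 (.cons 273 (.leaf 297 1604 (.cons 274 (.leaf 247 1979 (.cons 176 (.leaf 151 1215 (.leaf 153 1221 .nil)) .nil)) .nil)) .nil)) .nil)) (.cons 175 (.leaf 199 1407 (.cons 176 (.leaf 151 1215 (.cons 177 (.leaf 201 1413 (.leaf 153 1221 .nil)) .nil)) .nil)) (.cons 273 (.leaf 297 1604 (.cons 176 (.leaf 249 1412 (.cons 177 (.leaf 201 1413 (.leaf 153 1221 .nil)) .nil)) .nil)) (.cons 273 (.leaf 297 1604 (.cons 175 (.leaf 199 1407 (.cons 176 (.leaf 151 1215 (.leaf 249 1412 .nil)) .nil)) .nil)) (.cons 175 (.leaf 199 1407 (.cons 177 (.leaf 201 1413 (.cons 273 (.leaf 297 1604 (.cons 274 (.leaf 247 1979 (.cons 299 (.leaf 300 2176 (.cons 251 (.leaf 252 1985 (.cons 298 (.leaf 271 2168 (.cons 227 (.leaf 203 1622 (.leaf 322 1814 .nil)) .nil)) .nil)) .nil)) .nil)) .nil)) .nil)) .nil)) .nil))))) (.cons 200 (.cons 177 (.leaf 201 1413 (.cons 295 (.leaf 271 1598 (.cons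 296 (.leaf 319 1790 (.cons 297 (.leaf 273 1604 (.leaf 321 1796 .nil)) .nil)) .nil)) .nil)) (.cons 271 (.leaf 295 1598 (.cons 176 (.leaf 247 1406 (.cons 177 (.leaf 201 1413 (.leaf 153 1221 .nil)) .nil)) .nil)) (.cons 271 (.leaf 295 1598 (.cons 176 (.leaf 247 1406 (.cons 273 (.leaf 297 1604 (.leaf 249 1412 .nil)) .nil)) .nil)) (.cons 177 (.leaf 201 1413 (.cons 176 (.leaf 153 1221 (.cons 273 (.leaf 297 1604 (.leaf 249 1412 .nil)) .nil)) .nil)) .nil)))) (.cons 200 (.cons 175 (.leaf 199 1407 (.cons 176 (.leaf 151 1215 (.cons 271 (.leaf 295 1598 (.leaf 247 1406 .nil)) .nil)) .nil)) (.cons 271 (.leaf 295 1598 (.cons 176 (.leaf 247 1406 (.cons 273 (.leaf 297 1604 (.leaf 249 1412 .nil)) .nil)) .nil)) (.cons 175 (.leaf 199 1407 (.cons 176 (.leaf 151 1215 (.cons 273 (.leaf 297 1604 (.leaf 249 1412 .nil)) .nil)) .nil)) (.cons 175 (.leaf 199 1407 (.cons 271 (.leaf 295 1598 (.cons 273 (.leaf 297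 1604 (.cons 274 (.leaf 247 1979 (.cons 299 (.leaf 300 2176 (.leaf 298 2168 .nil)) .nil)) .nil)) .nil)) .nil)) .nil)))) (.cons 200 (.cons 175 (.leaf 199 1407 (.cons 201 (.leaf 177 1413 (.cons 295 (.leaf 271 1598 (.cons 296 (.leaf 225 1605 (.leaf 319 1790 .nil)) .nil)) .nil)) .nil)) (.cons 201 (.leaf 177 1413 (.cons 225 (.leaf 296 1605 (.cons 271 (.leaf 295 1598 (.cons 176 (.leaf 247 1406 (.cons 249 (.leaf 273 1412 (.leaf 152 1220 .nil)) .nil)) .nil)) .nil)) .nil)) (.cons 199 (.leaf 175 1407 (.cons 223 (.leaf 296 1599 (.cons 271 (.leaf 295 1598 (.cons 247 (.leaf 176 1405 (.cons 174 (.leaf 198 1399 (.cons 270 (.leaf 294 1590 (.cons 269 (.leaf 249 1961 (.leaf 268 1953 .nil)) .nil)) .nil)) .nil)) .nil)) .nil)) .nil)) (.cons 201 (.leaf 177 1413 (.cons 175 (.leaf 199 1407 (.cons 176 (.leaf 151 1215 (.cons 173 (.leaf 174 1384 (.cons 202 (.leaf 203 1403 (.cons 225 (.leaf 296 1605 (.cons 249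 (.leaf 273 1412 (.leaf 152 1220 .nil)) .nil)) .nil)) .nil)) .nil)) .nil)) .nil)) (.cons 271 (.leaf 295 1598 (.cons 176 (.leaf 247 1406 (.cons 177 (.leaf 201 1413 (.leaf 153 1221 .nil)) .nil)) .nil)) .nil))))) (.cons 296 (.cons 199 (.leaf 223 1599 (.cons 201 (.leaf 225 1605 (.cons 295 (.leaf 319 1790 (.cons 274 (.leaf 273 2170 (.cons 297 (.leaf 298 2169 (.leaf 321 1796 .nil)) .nil)) .nil)) .nil)) .nil)) (.cons 201 (.leaf 225 1605 (.cons 199 (.leaf 223 1599 (.cons 200 (.leaf 175 1407 (.leaf 177 1413 .nil)) .nil)) .nil)) (.cons 297 (.leaf 321 1796 (.cons 199 (.leaf 223 1599 (.cons 200 (.leaf 175 1407 (.leaf 273 1604 .nil)) .nil)) .nil)) (.cons 297 (.leaf 321 1796 (.cons 200 (.leaf 273 1604 (.cons 201 (.leaf 177 1413 (.leaf 225 1605 .nil)) .nil)) .nil)) .nil)))) .nil)))))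
noncomputable def t106 : T := .cons 295 (.leaf 319 1790 (.cons 201 (.leaf 225 1605 (.cons 273 (.leaf 274 2170 (.cons 294 (.leaf 293 2153 (.cons 297 (.leaf 321 1796 (.cons 270 (.leaf 269 2155 (.cons 271 (.leaf 298 2160 (.cons 246 (.leaf 245 1963 (.cons 198 (.leaf 222 1588 (.cons 318 (.leaf 317 2346 (.cons 342 (.leaf 366 2165 (.leaf 247 1973 .nil)) .nil)) .nil)) .nil)) .nil)) .nil)) .nil)) .nil)) .nil)) .nil)) .nil)) (.cons 225 (.leaf 201 1605 (.cons 223 (.leaf 199 1599 (.cons 297 (.leaf 321 1796 (.cons 222 (.cons 197 (.leaf 198 1579 (.cons 221 (.leaf 249 1768 (.leaf 196 1571 .nil)) .nil)) (.cons 197 (.leaf 198 1579 (.cons 246 (.leaf 245 1770 (.cons 226 (.leaf 247 1778 (.cons 203 (.leaf 202 1593 (.cons 227 (.leaf 204 1601 (.cons 228 (.leaf 249 1794 (.cons 252 (.leaf 251 1792 (.leaf 253 1800 .nil)) .nil)) .nil)) .nil)) .nil)) .nil)) .nil)) (.cons 221 (.leaf 249 1768 (.cons 245 (.leaf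 244 1762 (.leaf 246 1770 .nil)) .nil)) (.cons 197 (.leaf 198 1579 (.cons 221 (.leaf 196 1571 (.cons 245 (.leaf 244 1762 (.leaf 246 1770 .nil)) .nil)) .nil)) .nil)))) .nil)) .nil)) .nil)) (.cons 295 (.leaf 319 1790 (.cons 273 (.leaf 274 2170 (.cons 225 (.leaf 201 1605 (.cons 223 (.leaf 199 1599 (.cons 294 (.leaf 293 2153 (.cons 247 (.cons 246 (.leaf 245 1960 (.leaf 226 1778 .nil)) (.cons 226 (.leaf 227 1786 (.cons 271 (.leaf 318 1782 (.cons 222 (.leaf 198 1591 (.cons 221 (.leaf 220 1760 (.leaf 249 1768 .nil)) .nil)) .nil)) .nil)) (.cons 245 (.leaf 246 1960 (.cons 271 (.leaf 318 1782 (.cons 222 (.leaf 198 1591 (.cons 221 (.leaf 220 1760 (.leaf 249 1768 .nil)) .nil)) .nil)) .nil)) .nil))) .nil)) .nil)) .nil)) .nil)) .nil)) (.cons 295 (.leaf 319 1790 (.cons 199 (.leaf 223 1599 (.cons 273 (.leaf 274 2170 (.cons 294 (.leaf 293 2153 (.cons 297 (.leaf 321 1796 (.cons 270 (.leaf 269 2155 (.cons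 298 (.leaf 271 2160 (.cons 299 (.leaf 300 2179 (.cons 323 (.leaf 322 2360 (.leaf 324 2368 .nil)) .nil)) .nil)) .nil)) .nil)) .nil)) .nil)) .nil)) .nil)) .nil)))
noncomputable def t107 : T := .cons 296 (.cons 199 (.leaf 223 1599 (.cons 175 (.leaf 200 1407 (.cons 201 (.leaf 225 1605 (.cons 295 (.leaf 319 1790 (.cons 297 (.leaf 321 1796 (.cons 298 (.leaf 274 2169 (.cons 271 (.leaf 299 2171 (.leaf 270 2163 .nil)) .nil)) .nil)) .nil)) .nil)) .nil)) .nil)) (.cons 297 (.leaf 321 1796 (.cons 200 (.leaf 273 1604 (.cons 201 (.leaf 177 1413 (.leaf 225 1605 .nil)) .nil)) .nil)) (.cons 295 (.leaf 319 1790 (.cons 199 (.leaf 223 1599 (.cons 200 (.leaf 175 1407 (.leaf 271 1598 .nil)) .nil)) .nil)) (.cons 199 (.leaf 223 1599 (.cons 201 (.leaf 225 1605 (.cons 295 (.leaf 319 1790 (.cons 273 (.leaf 274 2170 (.cons 294 (.leaf 293 2153 (.cons 297 (.leaf 321 1796 (.cons 270 (.leaf 269 2155 (.cons 298 (.leaf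 271 2160 (.cons 299 (.leaf 300 2179 (.cons 323 (.leaf 322 2360 (.leaf 324 2368 .nil)) .nil)) .nil)) .nil)) .nil)) .nil)) .nil)) .nil)) .nil)) .nil)) .nil)))) (.cons 296 t106 (.cons 200 (.cons 175 (.leaf 199 1407 (.cons 176 (.leaf 151 1215 (.cons 271 (.leaf 295 1598 (.leaf 247 1406 .nil)) .nil)) .nil)) (.cons 175 (.leaf 199 1407 (.cons 176 (.leaf 151 1215 (.cons 273 (.leaf 297 1604 (.leaf 249 1412 .nil)) .nil)) .nil)) (.cons 273 (.leaf 297 1604 (.cons 176 (.leaf 249 1412 (.cons 177 (.leaf 201 1413 (.leaf 153 1221 .nil)) .nil)) .nil)) (.cons 175 (.leaf 199 1407 (.cons 271 (.leaf 295 1598 (.cons 273 (.leaf 297 1604 (.cons 274 (.leaf 247 1979 (.cons 299 (.leaf 300 2176 (.leaf 298 2168 .nil)) .nil)) .nil)) .nil)) .nil)) .nil)))) t105))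
noncomputable def t108 : T := .cons 201 (.leaf 225 1605 (.cons 223 (.leaf 199 1599 (.cons 297 (.leaf 321 1796 (.cons 320 (.leaf 247 1791 (.cons 343 (.leaf 319 1982 (.cons 344 (.leaf 367 2174 (.cons 368 (.leaf 273 2181 (.cons 369 (.leaf 345 2180 (.leaf 393 2372 .nil)) .nil)) .nil)) .nil)) .nil)) .nil)) .nil)) .nil)) (.cons 295 (.leaf 319 1790 (.cons 201 (.leaf 225 1605 (.cons 273 (.leaf 274 2170 (.cons 294 (.leaf 293 2153 (.cons 297 (.leaf 321 1796 (.cons 270 (.leaf 269 2155 (.cons 271 (.leaf 298 2160 (.cons 246 (.leaf 245 1963 (.cons 198 (.leaf 222 1588 (.cons 318 (.leaf 317 2346 (.cons 342 (.leaf 366 2165 (.leaf 247 1973 .nil)) .nil)) .nil)) .nil)) .nil)) .nil)) .nil)) .nil)) .nil)) .nil)) .nil)) (.cons 223 (.leaf 199 1599 (.cons 320 (.leaf 247 1791 (.cons 321 (.leaf 297 1796 (.leaf 345 1988 .nil)) .nil)) .nil)) (.cons 295 (.leaf 319 1790 (.cons 201 (.leaf 225 1605 (.cons 223 (.leaf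 199 1599 (.cons 247 (.leaf 320 1791 (.cons 273 (.leaf 274 2170 (.cons 245 (.leaf 246 1960 (.cons 294 (.leaf 293 2153 (.cons 271 (.leaf 318 1782 (.cons 222 (.leaf 198 1591 (.cons 221 (.leaf 220 1760 (.leaf 244 1762 .nil)) .nil)) .nil)) .nil)) .nil)) .nil)) .nil)) .nil)) .nil)) .nil)) (.cons 295 (.leaf 319 1790 (.cons 199 (.leaf 223 1599 (.cons 273 (.leaf 274 2170 (.cons 294 (.leaf 293 2153 (.cons 297 (.leaf 321 1796 (.cons 270 (.leaf 269 2155 (.cons 298 (.leaf 271 2160 (.cons 201 (.leaf 225 1605 (.cons 299 (.leaf 300 2179 (.cons 323 (.leaf 322 2360 (.leaf 324 2368 .nil)) .nil)) .nil)) .nil)) .nil)) .nil)) .nil)) .nil)) .nil)) .nil)) .nil))))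
noncomputable def t109 : T := .cons 223 (.leaf 247 1791 (.cons 199 (.leaf 224 1599 (.cons 345 (.leaf 321 1988 (.cons 343 (.leaf 319 1982 (.cons 344 (.leaf 367 2174 (.leaf 369 2180 .nil)) .nil)) .nil)) .nil)) .nil)) (.cons 321 (.leaf 345 1988 (.cons 297 (.leaf 224 1796 (.cons 319 (.leaf 343 1982 (.cons 298 (.leaf 299 2362 (.leaf 318 2353 .nil)) .nil)) .nil)) .nil)) (.cons 223 (.leaf 247 1791 (.cons 199 (.leaf 224 1599 (.cons 345 (.leaf 321 1988 (.cons 344 (.leaf 369 2180 (.cons 367 (.leaf 343 2174 (.cons 368 (.leaf 391 2366 (.cons 273 (.leaf 249 1989 (.leaf 297 2181 .nil)) .nil)) .nil)) .nil)) .nil)) .nil)) .nil)) (.cons 223 (.leaf 247 1791 (.cons 199 (.leaf 224 1599 (.cons 343 (.leaf 319 1982 (.cons 344 (.leaf 367 2174 (.cons 273 (.leaf 249 1989 (.cons 368 (.leaf 297 2181 (.cons 369 (.leaf 345 2180 (.leaf 393 2372 .nil)) .nil)) .nil)) .nil)) .nil)) .nil)) .nil)) (.cons 223 (.leaf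 247 1791 (.cons 199 (.leaf 224 1599 (.cons 345 (.leaf 321 1988 (.cons 344 (.leaf 369 2180 (.cons 273 (.leaf 249 1989 (.cons 274 (.leaf 295 2170 (.cons 251 (.leaf 252 1985 (.cons 368 (.leaf 297 2181 (.cons 299 (.leaf 300 2176 (.cons 298 (.leaf 271 2168 (.cons 227 (.leaf 203 1622 (.leaf 322 1814 .nil)) .nil)) .nil)) .nil)) .nil)) .nil)) .nil)) .nil)) .nil)) .nil)) .nil)) (.cons 223 (.leaf 247 1791 (.cons 199 (.leaf 224 1599 (.cons 343 (.leaf 319 1982 (.cons 344 (.leaf 367 2174 (.cons 273 (.leaf 249 1989 (.cons 274 (.leaf 295 2170 (.cons 251 (.leaf 252 1985 (.cons 297 (.leaf 368 2181 (.cons 299 (.leaf 300 2176 (.cons 298 (.leaf 271 2168 (.cons 227 (.leaf 203 1622 (.leaf 322 1814 .nil)) .nil)) .nil)) .nil)) .nil)) .nil)) .nil)) .nil)) .nil)) .nil)) .nil)) (.cons 247 (.leaf 223 1791 (.cons 273 (.leaf 274 1979 (.cons 344 (.leaf 271 1983 (.leaf 249 1989 .nil)) .nil)) .nil)) .nil))))))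
noncomputable def t110 : T := .cons 199 (.leaf 223 1599 (.cons 225 (.leaf 201 1605 (.cons 319 (.leaf 295 1790 (.cons 320 (.leaf 249 1797 (.leaf 343 1982 .nil)) .nil)) .nil)) .nil)) (.cons 199 (.leaf 223 1599 (.cons 225 (.leaf 201 1605 (.cons 320 (.leaf 249 1797 (.cons 321 (.leaf 297 1796 (.leaf 345 1988 .nil)) .nil)) .nil)) .nil)) (.cons 295 (.leaf 319 1790 (.cons 199 (.leaf 223 1599 (.cons 273 (.leaf 274 2170 (.cons 293 (.leaf 294 2153 (.cons 321 (.leaf 297 1796 (.cons 320 (.leaf 345 1988 (.cons 322 (.leaf 323 2363 (.cons 344 (.leaf 249 1989 (.cons 367 (.leaf 343 2174 (.cons 368 (.leaf 271 2175 (.leaf 391 2366 .nil)) .nil)) .nil)) .nil)) .nil)) .nil)) .nil)) .nil)) .nil)) .nil)) (.cons 201 (.leaf 225 1605 (.cons 295 (.leaf 319 1790 (.cons 273 (.leaf 274 2170 (.cons 293 (.leaf 294 2153 (.cons 321 (.leaf 297 1796 (.cons 320 (.leaf 345 1988 (.cons 322 (.leaf 323 2363 (.cons 344 (.leaf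 249 1989 (.cons 367 (.leaf 343 2174 (.cons 368 (.leaf 271 2175 (.leaf 391 2366 .nil)) .nil)) .nil)) .nil)) .nil)) .nil)) .nil)) .nil)) .nil)) .nil)) (.cons 295 (.leaf 319 1790 (.cons 199 (.leaf 223 1599 (.cons 273 (.leaf 274 2170 (.cons 294 (.leaf 293 2153 (.cons 297 (.leaf 321 1796 (.cons 270 (.leaf 269 2155 (.cons 298 (.leaf 271 2160 (.cons 201 (.leaf 225 1605 (.cons 299 (.leaf 300 2179 (.cons 323 (.leaf 322 2360 (.leaf 324 2368 .nil)) .nil)) .nil)) .nil)) .nil)) .nil)) .nil)) .nil)) .nil)) .nil)) .nil))))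
noncomputable def t111 : T := .cons 295 (.leaf 319 1790 (.cons 273 (.leaf 274 2170 (.cons 225 (.leaf 201 1605 (.cons 223 (.leaf 199 1599 (.cons 294 (.leaf 293 2153 (.cons 297 (.leaf 321 1796 (.cons 270 (.leaf 269 2155 (.cons 298 (.leaf 271 2160 (.cons 322 (.leaf 323 2360 (.leaf 249 1804 .nil)) .nil)) .nil)) .nil)) .nil)) .nil)) .nil)) .nil)) .nil)) (.cons 225 (.leaf 201 1605 (.cons 223 (.leaf 199 1599 (.cons 297 (.leaf 321 1796 (.cons 222 (.cons 197 (.leaf 198 1579 (.cons 221 (.leaf 249 1768 (.leaf 196 1571 .nil)) .nil)) (.cons 197 (.leaf 198 1579 (.cons 246 (.leaf 245 1770 (.cons 226 (.leaf 247 1778 (.cons 203 (.leaf 202 1593 (.cons 227 (.leaf 204 1601 (.cons 228 (.leaf 249 1794 (.cons 252 (.leaf 251 1792 (.leaf 253 1800 .nil)) .nil)) .nil)) .nil)) .nil)) .nil)) .nil)) (.cons 221 (.leaf 249 1768 (.cons 245 (.leaf 244 1762 (.leaf 246 1770 .nil)) .nil)) (.cons 197 (.leaf 198 1579 (.cons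 221 (.leaf 196 1571 (.cons 245 (.leaf 244 1762 (.leaf 246 1770 .nil)) .nil)) .nil)) .nil)))) .nil)) .nil)) .nil)) (.cons 295 (.leaf 319 1790 (.cons 273 (.leaf 274 2170 (.cons 225 (.leaf 201 1605 (.cons 223 (.leaf 199 1599 (.cons 294 (.leaf 293 2153 (.cons 247 (.cons 246 (.leaf 245 1960 (.leaf 226 1778 .nil)) (.cons 226 (.leaf 227 1786 (.cons 271 (.leaf 318 1782 (.cons 222 (.leaf 198 1591 (.cons 221 (.leaf 220 1760 (.leaf 249 1768 .nil)) .nil)) .nil)) .nil)) (.cons 245 (.leaf 246 1960 (.cons 271 (.leaf 318 1782 (.cons 222 (.leaf 198 1591 (.cons 221 (.leaf 220 1760 (.leaf 249 1768 .nil)) .nil)) .nil)) .nil)) .nil))) .nil)) .nil)) .nil)) .nil)) .nil)) (.cons 295 (.leaf 319 1790 (.cons 199 (.leaf 223 1599 (.cons 273 (.leaf 274 2170 (.cons 294 (.leaf 293 2153 (.cons 297 (.leaf 321 1796 (.cons 270 (.leaf 269 2155 (.cons 298 (.leaf 271 2160 (.cons 299 (.leaf 300 2179 (.cons 323 (.leaf 322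 2360 (.leaf 324 2368 .nil)) .nil)) .nil)) .nil)) .nil)) .nil)) .nil)) .nil)) .nil)) (.cons 295 (.leaf 319 1790 (.cons 201 (.leaf 225 1605 (.cons 273 (.leaf 274 2170 (.cons 294 (.leaf 293 2153 (.cons 297 (.leaf 321 1796 (.cons 270 (.leaf 269 2155 (.cons 271 (.leaf 298 2160 (.cons 246 (.leaf 245 1963 (.cons 198 (.leaf 222 1588 (.cons 318 (.leaf 317 2346 (.cons 342 (.leaf 366 2165 (.leaf 247 1973 .nil)) .nil)) .nil)) .nil)) .nil)) .nil)) .nil)) .nil)) .nil)) .nil)) .nil)) .nil))))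
noncomputable def t112 : T := .cons 320 (.cons 225 (.leaf 249 1797 (.cons 224 (.leaf 201 1605 (.cons 319 (.leaf 295 1790 (.leaf 343 1982 .nil)) .nil)) .nil)) (.cons 225 (.leaf 249 1797 (.cons 224 (.leaf 201 1605 (.cons 321 (.leaf 297 1796 (.leaf 345 1988 .nil)) .nil)) .nil)) (.cons 319 (.leaf 343 1982 (.cons 321 (.leaf 345 1988 (.cons 247 (.leaf 223 1791 (.cons 318 (.cons 273 (.leaf 274 1979 (.cons 297 (.leaf 224 1796 (.leaf 317 2345 .nil)) .nil)) (.cons 273 (.leaf 274 1979 (.cons 295 (.leaf 224 1790 (.cons 342 (.leaf 341 2538 (.leaf 271 1974 .nil)) .nil)) .nil)) (.cons 273 (.leaf 274 1979 (.cons 297 (.leaf 317 2345 (.leaf 298 2353 .nil)) .nil)) (.cons 297 (.leaf 224 1796 (.leaf 317 2345 .nil)) .nil)))) .nil)) .nil)) .nil)) (.cons 247 (.leaf 223 1791 (.cons 273 (.leaf 274 1979 (.cons 344 (.leaf 271 1983 (.leaf 249 1989 .nil)) .nil)) .nil)) .nil)))) (.cons 224 t111 (.cons 320 (.cons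 223 (.leaf 247 1791 (.cons 225 (.leaf 249 1797 (.cons 224 (.leaf 199 1599 (.leaf 201 1605 .nil)) .nil)) .nil)) (.cons 319 (.leaf 343 1982 (.cons 321 (.leaf 345 1988 (.cons 297 (.leaf 224 1796 (.cons 298 (.leaf 299 2362 (.leaf 318 2353 .nil)) .nil)) .nil)) .nil)) (.cons 223 (.leaf 247 1791 (.cons 225 (.leaf 249 1797 (.cons 343 (.leaf 319 1982 (.cons 344 (.leaf 367 2174 (.cons 345 (.leaf 321 1988 (.leaf 369 2180 .nil)) .nil)) .nil)) .nil)) .nil)) .nil))) (.cons 320 (.cons 247 (.leaf 223 1791 (.cons 273 (.leaf 274 1979 (.cons 344 (.leaf 271 1983 (.leaf 249 1989 .nil)) .nil)) .nil)) (.cons 249 (.leaf 225 1797 (.cons 343 (.leaf 319 1982 (.cons 344 (.leaf 273 1989 (.leaf 367 2174 .nil)) .nil)) .nil)) (.cons 223 (.leaf 247 1791 (.cons 343 (.leaf 319 1982 (.cons 344 (.leaf 367 2174 (.cons 345 (.leaf 321 1988 (.leaf 369 2180 .nil)) .nil)) .nil)) .nil)) (.cons 247 (.leaf 223 1791 (.cons 249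 (.leaf 225 1797 (.cons 273 (.leaf 274 1979 (.cons 246 (.leaf 245 1960 (.cons 222 (.leaf 221 1771 (.cons 269 (.leaf 270 1962 (.cons 319 (.leaf 343 1982 (.cons 295 (.leaf 271 1783 (.cons 294 (.leaf 293 2153 (.cons 321 (.leaf 345 1988 (.leaf 322 2355 .nil)) .nil)) .nil)) .nil)) .nil)) .nil)) .nil)) .nil)) .nil)) .nil)) .nil)))) (.cons 224 t110 (.cons 320 (.cons 225 (.leaf 249 1797 (.cons 224 (.leaf 201 1605 (.cons 321 (.leaf 297 1796 (.leaf 345 1988 .nil)) .nil)) .nil)) (.cons 223 (.leaf 247 1791 (.cons 249 (.leaf 225 1797 (.cons 273 (.leaf 344 1989 (.cons 274 (.leaf 295 2170 (.cons 251 (.leaf 252 1985 (.cons 299 (.leaf 300 2176 (.cons 298 (.leaf 271 2168 (.cons 322 (.leaf 227 1814 (.leaf 346 2005 .nil)) .nil)) .nil)) .nil)) .nil)) .nil)) .nil)) .nil)) (.cons 223 (.leaf 247 1791 (.cons 199 (.leaf 224 1599 (.cons 345 (.leaf 321 1988 (.cons 344 (.leaf 369 2180 (.cons 367 (.leaf 343 2174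 (.cons 368 (.leaf 391 2366 (.cons 273 (.leaf 297 2181 (.cons 295 (.leaf 274 2170 (.leaf 271 2175 .nil)) .nil)) .nil)) .nil)) .nil)) .nil)) .nil)) .nil)) .nil))) (.cons 320 (.cons 223 (.leaf 247 1791 (.cons 224 (.leaf 199 1599 (.cons 225 (.leaf 201 1605 (.leaf 249 1797 .nil)) .nil)) .nil)) (.cons 225 (.leaf 249 1797 (.cons 201 (.leaf 224 1605 (.cons 343 (.leaf 319 1982 (.cons 344 (.leaf 367 2174 (.cons 369 (.leaf 345 2180 (.cons 368 (.leaf 393 2372 (.cons 273 (.leaf 297 2181 (.cons 295 (.leaf 274 2170 (.leaf 271 2175 .nil)) .nil)) .nil)) .nil)) .nil)) .nil)) .nil)) .nil)) (.cons 223 (.leaf 247 1791 (.cons 343 (.leaf 319 1982 (.cons 344 (.leaf 367 2174 (.cons 369 (.leaf 345 2180 (.cons 368 (.leaf 393 2372 (.cons 273 (.leaf 297 2181 (.cons 295 (.leaf 274 2170 (.leaf 271 2175 .nil)) .nil)) .nil)) .nil)) .nil)) .nil)) .nil)) .nil))) (.cons 320 t109 (.cons 320 (.cons 225 (.leaf 249 1797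 (.cons 201 (.leaf 224 1605 (.cons 345 (.leaf 321 1988 (.cons 344 (.leaf 369 2180 (.cons 367 (.leaf 343 2174 (.cons 368 (.leaf 391 2366 (.cons 273 (.leaf 297 2181 (.cons 274 (.leaf 247 1979 (.leaf 295 2170 .nil)) .nil)) .nil)) .nil)) .nil)) .nil)) .nil)) .nil)) (.cons 319 (.leaf 343 1982 (.cons 224 (.leaf 295 1790 (.cons 225 (.leaf 201 1605 (.leaf 249 1797 .nil)) .nil)) .nil)) (.cons 321 (.leaf 345 1988 (.cons 224 (.leaf 297 1796 (.cons 225 (.leaf 201 1605 (.leaf 249 1797 .nil)) .nil)) .nil)) (.cons 319 (.leaf 343 1982 (.cons 321 (.leaf 345 1988 (.cons 297 (.leaf 224 1796 (.cons 298 (.leaf 299 2362 (.leaf 318 2353 .nil)) .nil)) .nil)) .nil)) (.cons 249 (.leaf 225 1797 (.cons 343 (.leaf 319 1982 (.cons 344 (.leaf 273 1989 (.leaf 367 2174 .nil)) .nil)) .nil)) .nil))))) (.cons 224 t108 .nil)))))))))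
noncomputable def t113 : T := .cons 247 (.leaf 223 1791 (.cons 225 (.leaf 249 1797 (.cons 343 (.leaf 319 1982 (.cons 344 (.leaf 271 1983 (.leaf 367 2174 .nil)) .nil)) .nil)) .nil)) (.cons 249 (.leaf 225 1797 (.cons 343 (.leaf 319 1982 (.cons 344 (.leaf 273 1989 (.leaf 367 2174 .nil)) .nil)) .nil)) (.cons 247 (.leaf 223 1791 (.cons 273 (.leaf 274 1979 (.cons 245 (.leaf 246 1960 (.cons 321 (.leaf 345 1988 (.cons 319 (.leaf 343 1982 (.cons 344 (.leaf 271 1983 (.cons 297 (.leaf 368 2181 (.cons 298 (.leaf 299 2362 (.leaf 318 2353 .nil)) .nil)) .nil)) .nil)) .nil)) .nil)) .nil)) .nil)) (.cons 247 (.leaf 223 1791 (.cons 225 (.leaf 249 1797 (.cons 344 (.leaf 271 1983 (.cons 345 (.leaf 321 1988 (.leaf 369 2180 .nil)) .nil)) .nil)) .nil)) (.cons 247 (.leaf 223 1791 (.cons 273 (.leaf 274 1979 (.cons 249 (.leaf 225 1797 (.cons 246 (.leaf 245 1960 (.cons 270 (.leaf 269 1962 (.cons 321 (.leaf 345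 1988 (.cons 319 (.leaf 343 1982 (.cons 222 (.leaf 221 1771 (.cons 297 (.cons 298 (.leaf 271 2160 (.leaf 299 2362 .nil)) (.cons 318 (.leaf 317 2345 (.cons 322 (.leaf 346 1996 (.cons 294 (.leaf 293 2347 (.cons 342 (.leaf 341 2538 (.leaf 271 1973 .nil)) .nil)) .nil)) .nil)) (.cons 298 (.leaf 299 2362 (.leaf 318 2353 .nil)) .nil))) .nil)) .nil)) .nil)) .nil)) .nil)) .nil)) .nil)) .nil)) .nil))))
noncomputable def t114 : T := .cons 199 (.leaf 223 1599 (.cons 200 (.leaf 175 1407 (.cons 201 (.leaf 177 1413 (.leaf 225 1605 .nil)) .nil)) .nil)) (.cons 297 (.leaf 321 1796 (.cons 200 (.leaf 273 1604 (.cons 201 (.leaf 177 1413 (.leaf 225 1605 .nil)) .nil)) .nil)) (.cons 297 (.leaf 321 1796 (.cons 199 (.leaf 223 1599 (.cons 200 (.leaf 175 1407 (.leaf 273 1604 .nil)) .nil)) .nil)) (.cons 225 (.leaf 201 1605 (.cons 223 (.leaf 199 1599 (.cons 297 (.leaf 321 1796 (.cons 222 (.cons 197 (.leaf 198 1579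 (.cons 221 (.leaf 249 1768 (.leaf 196 1571 .nil)) .nil)) (.cons 197 (.leaf 198 1579 (.cons 246 (.leaf 245 1770 (.cons 226 (.leaf 247 1778 (.cons 203 (.leaf 202 1593 (.cons 227 (.leaf 204 1601 (.cons 228 (.leaf 249 1794 (.cons 252 (.leaf 251 1792 (.leaf 253 1800 .nil)) .nil)) .nil)) .nil)) .nil)) .nil)) .nil)) (.cons 221 (.leaf 249 1768 (.cons 245 (.leaf 244 1762 (.leaf 246 1770 .nil)) .nil)) (.cons 197 (.leaf 198 1579 (.cons 221 (.leaf 196 1571 (.cons 245 (.leaf 244 1762 (.leaf 246 1770 .nil)) .nil)) .nil)) .nil)))) .nil)) .nil)) .nil)) .nil)))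
noncomputable def t115 : T := .cons 320 (.cons 249 (.leaf 225 1797 (.cons 343 (.leaf 319 1982 (.cons 344 (.leaf 273 1989 (.leaf 367 2174 .nil)) .nil)) .nil)) (.cons 247 (.leaf 223 1791 (.cons 273 (.leaf 274 1979 (.cons 245 (.leaf 246 1960 (.cons 321 (.leaf 345 1988 (.cons 319 (.leaf 343 1982 (.cons 224 (.leaf 297 1796 (.cons 271 (.leaf 344 1983 (.cons 200 (.leaf 176 1406 (.cons 201 (.leaf 177 1413 (.leaf 225 1605 .nil)) .nil)) .nil)) .nil)) .nil)) .nil)) .nil)) .nil)) .nil)) (.cons 247 (.leaf 223 1791 (.cons 273 (.leaf 274 1979 (.cons 245 (.leaf 246 1960 (.cons 321 (.leaf 345 1988 (.cons 319 (.leaf 343 1982 (.cons 344 (.leaf 271 1983 (.leaf 249 1989 .nil)) .nil)) .nil)) .nil)) .nil)) .nil)) (.cons 223 (.leaf 247 1791 (.cons 224 (.leaf 199 1599 (.cons 297 (.leaf 321 1796 (.cons 273 (.leaf 200 1604 (.cons 344 (.leaf 249 1989 (.leaf 368 2181 .nil)) .nil)) .nil)) .nil)) .nil)) (.cons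 223 (.leaf 247 1791 (.cons 224 (.leaf 199 1599 (.cons 321 (.leaf 297 1796 (.leaf 345 1988 .nil)) .nil)) .nil)) .nil))))) (.cons 224 t114 (.cons 320 t113 (.cons 320 (.cons 249 (.leaf 225 1797 (.cons 343 (.leaf 319 1982 (.cons 344 (.leaf 273 1989 (.leaf 367 2174 .nil)) .nil)) .nil)) (.cons 319 (.leaf 343 1982 (.cons 321 (.leaf 345 1988 (.cons 297 (.leaf 224 1796 (.cons 298 (.leaf 299 2362 (.leaf 318 2353 .nil)) .nil)) .nil)) .nil)) (.cons 225 (.leaf 249 1797 (.cons 224 (.leaf 201 1605 (.cons 321 (.leaf 297 1796 (.leaf 345 1988 .nil)) .nil)) .nil)) .nil))) (.cons 320 (.cons 223 (.leaf 247 1791 (.cons 225 (.leaf 249 1797 (.cons 224 (.leaf 199 1599 (.leaf 201 1605 .nil)) .nil)) .nil)) (.cons 225 (.leaf 249 1797 (.cons 343 (.leaf 319 1982 (.cons 344 (.leaf 367 2174 (.cons 345 (.leaf 321 1988 (.leaf 369 2180 .nil)) .nil)) .nil)) .nil)) (.cons 321 (.leaf 345 1988 (.cons 223 (.leaf 247 1791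 (.cons 224 (.leaf 199 1599 (.leaf 297 1796 .nil)) .nil)) .nil)) .nil))) (.cons 320 (.cons 223 (.leaf 247 1791 (.cons 199 (.leaf 224 1599 (.cons 343 (.leaf 319 1982 (.cons 344 (.leaf 367 2174 (.cons 273 (.leaf 249 1989 (.cons 368 (.leaf 297 2181 (.cons 369 (.leaf 345 2180 (.leaf 393 2372 .nil)) .nil)) .nil)) .nil)) .nil)) .nil)) .nil)) (.cons 321 (.leaf 345 1988 (.cons 297 (.leaf 224 1796 (.cons 319 (.leaf 343 1982 (.cons 298 (.leaf 299 2362 (.leaf 318 2353 .nil)) .nil)) .nil)) .nil)) (.cons 247 (.leaf 223 1791 (.cons 273 (.leaf 274 1979 (.cons 344 (.leaf 271 1983 (.leaf 249 1989 .nil)) .nil)) .nil)) .nil))) (.cons 320 (.cons 223 (.leaf 247 1791 (.cons 224 (.leaf 199 1599 (.cons 225 (.leaf 201 1605 (.leaf 249 1797 .nil)) .nil)) .nil)) (.cons 249 (.leaf 225 1797 (.cons 343 (.leaf 319 1982 (.cons 344 (.leaf 273 1989 (.leaf 367 2174 .nil)) .nil)) .nil)) (.cons 247 (.leaf 223 1791 (.cons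 273 (.leaf 274 1979 (.cons 245 (.leaf 246 1960 (.cons 319 (.leaf 343 1982 (.cons 344 (.leaf 271 1983 (.cons 368 (.leaf 297 2181 (.cons 369 (.leaf 345 2180 (.leaf 393 2372 .nil)) .nil)) .nil)) .nil)) .nil)) .nil)) .nil)) .nil))) (.cons 320 (.cons 223 (.leaf 247 1791 (.cons 199 (.leaf 224 1599 (.cons 343 (.leaf 319 1982 (.cons 344 (.leaf 367 2174 (.cons 345 (.leaf 321 1988 (.leaf 369 2180 .nil)) .nil)) .nil)) .nil)) .nil)) (.cons 249 (.leaf 225 1797 (.cons 343 (.leaf 319 1982 (.cons 344 (.leaf 273 1989 (.leaf 367 2174 .nil)) .nil)) .nil)) (.cons 223 (.leaf 247 1791 (.cons 224 (.leaf 199 1599 (.cons 225 (.leaf 201 1605 (.leaf 249 1797 .nil)) .nil)) .nil)) .nil))) (.cons 224 (.cons 199 (.leaf 223 1599 (.cons 200 (.leaf 175 1407 (.cons 201 (.leaf 177 1413 (.leaf 225 1605 .nil)) .nil)) .nil)) (.cons 297 (.leaf 321 1796 (.cons 200 (.leaf 273 1604 (.cons 201 (.leaf 177 1413 (.leaf 225 1605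 .nil)) .nil)) .nil)) (.cons 297 (.leaf 321 1796 (.cons 199 (.leaf 223 1599 (.cons 200 (.leaf 175 1407 (.leaf 273 1604 .nil)) .nil)) .nil)) (.cons 201 (.leaf 225 1605 (.cons 223 (.leaf 199 1599 (.cons 297 (.leaf 321 1796 (.cons 320 (.leaf 247 1791 (.cons 343 (.leaf 319 1982 (.cons 344 (.leaf 367 2174 (.cons 368 (.leaf 273 2181 (.cons 369 (.leaf 345 2180 (.leaf 393 2372 .nil)) .nil)) .nil)) .nil)) .nil)) .nil)) .nil)) .nil)) .nil)))) .nil))))))))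
noncomputable def t116 : T := .cons 295 (.leaf 274 2170 (.cons 224 (.leaf 319 1790 (.cons 297 (.leaf 200 1604 (.leaf 321 1796 .nil)) .nil)) .nil)) (.cons 224 (.cons 297 (.leaf 200 1604 (.leaf 321 1796 .nil)) (.cons 199 (.leaf 223 1599 (.cons 175 (.leaf 200 1407 (.cons 225 (.leaf 201 1605 (.cons 320 (.leaf 249 1797 (.cons 343 (.leaf 319 1982 (.cons 344 (.leaf 367 2174 (.cons 345 (.leaf 321 1988 (.leaf 369 2180 .nil)) .nil)) .nil)) .nil)) .nil)) .nil)) .nil)) (.cons 321 (.leaf 297 1796 (.cons 199 (.leaf 223 1599 (.cons 320 (.leaf 345 1988 (.cons 343 (.leaf 319 1982 (.cons 344 (.leaf 249 1989 (.leaf 367 2174 .nil)) .nil)) .nil)) .nil)) .nil)) (.cons 199 (.leaf 223 1599 (.cons 200 (.leaf 175 1407 (.leaf 297 1604 .nil)) .nil)) .nil)))) (.cons 274 (.leaf 295 2170 (.cons 299 (.leaf 300 2176 (.cons 251 (.leaf 252 1985 (.cons 320 (.cons 249 (.leaf 225 1797 (.leaf 344 1989 .nil)) (.cons 345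 (.leaf 321 1988 (.cons 319 (.leaf 343 1982 (.cons 297 (.leaf 298 2362 (.cons 344 (.leaf 369 2180 (.leaf 368 2181 .nil)) .nil)) .nil)) .nil)) (.cons 225 (.leaf 249 1797 (.cons 319 (.leaf 343 1982 (.cons 298 (.leaf 297 2362 (.cons 322 (.leaf 227 1814 (.leaf 346 2005 .nil)) .nil)) .nil)) .nil)) .nil))) .nil)) .nil)) .nil)) (.cons 295 (.leaf 274 2170 (.cons 224 (.leaf 319 1790 (.cons 199 (.leaf 223 1599 (.cons 200 (.leaf 175 1407 (.cons 201 (.leaf 177 1413 (.leaf 225 1605 .nil)) .nil)) .nil)) .nil)) .nil)) (.cons 274 (.leaf 295 2170 (.cons 251 (.leaf 252 1985 (.cons 299 (.leaf 300 2176 (.cons 227 (.cons 202 (.leaf 226 1623 (.cons 204 (.leaf 228 1629 (.cons 322 (.leaf 298 1814 (.cons 203 (.leaf 178 1431 (.leaf 180 1437 .nil)) .nil)) .nil)) .nil)) (.cons 202 (.leaf 226 1623 (.cons 203 (.leaf 178 1431 (.cons 204 (.leaf 180 1437 (.leaf 228 1629 .nil)) .nil)) .nil)) (.cons 226 (.leaf 202 1623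 (.cons 228 (.leaf 204 1629 (.cons 225 (.leaf 249 1794 (.cons 201 (.leaf 224 1605 (.leaf 200 1603 .nil)) .nil)) .nil)) .nil)) (.cons 298 (.leaf 203 1622 (.leaf 322 1814 .nil)) .nil)))) .nil)) .nil)) .nil)) .nil))))
noncomputable def t117 : T := .cons 201 (.leaf 225 1605 (.cons 297 (.leaf 321 1796 (.cons 223 (.leaf 199 1599 (.cons 320 (.leaf 247 1791 (.cons 343 (.leaf 319 1982 (.cons 344 (.leaf 249 1989 (.leaf 367 2174 .nil)) .nil)) .nil)) .nil)) .nil)) .nil)) (.cons 321 (.leaf 297 1796 (.cons 199 (.leaf 223 1599 (.cons 320 (.leaf 345 1988 (.cons 343 (.leaf 319 1982 (.cons 344 (.leaf 249 1989 (.leaf 367 2174 .nil)) .nil)) .nil)) .nil)) .nil)) (.cons 225 (.leaf 201 1605 (.cons 199 (.leaf 223 1599 (.cons 320 (.leaf 249 1797 (.cons 343 (.leaf 319 1982 (.cons 344 (.leaf 367 2174 (.cons 368 (.leaf 297 2181 (.cons 369 (.leaf 345 2180 (.leaf 393 2372 .nil)) .nil)) .nil)) .nil)) .nil)) .nil))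 .nil)) (.cons 225 (.leaf 201 1605 (.cons 199 (.leaf 223 1599 (.cons 319 (.leaf 295 1790 (.cons 320 (.leaf 249 1797 (.leaf 343 1982 .nil)) .nil)) .nil)) .nil)) (.cons 297 (.leaf 321 1796 (.cons 223 (.leaf 199 1599 (.cons 225 (.leaf 201 1605 (.cons 295 (.leaf 319 1790 (.cons 294 (.leaf 293 2153 (.cons 270 (.leaf 269 2155 (.cons 318 (.leaf 317 2346 (.cons 246 (.leaf 247 1781 (.cons 245 (.leaf 222 1770 (.leaf 221 1775 .nil)) .nil)) .nil)) .nil)) .nil)) .nil)) .nil)) .nil)) .nil)) (.cons 321 (.leaf 297 1796 (.cons 201 (.leaf 225 1605 (.cons 320 (.leaf 345 1988 (.cons 343 (.leaf 319 1982 (.cons 344 (.leaf 249 1989 (.leaf 367 2174 .nil)) .nil)) .nil)) .nil)) .nil)) (.cons 321 (.leaf 297 1796 (.cons 199 (.leaf 223 1599 (.cons 225 (.leaf 201 1605 (.cons 320 (.leaf 249 1797 (.leaf 345 1988 .nil)) .nil)) .nil)) .nil)) .nil))))))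
noncomputable def t118 : T := .cons 200 (.leaf 297 1604 (.cons 176 (.leaf 249 1412 (.cons 177 (.leaf 201 1413 (.leaf 153 1221 .nil)) .nil)) .nil)) (.cons 296 t117 (.cons 200 (.cons 176 (.leaf 249 1412 (.cons 177 (.leaf 201 1413 (.leaf 153 1221 .nil)) .nil)) (.cons 201 (.leaf 177 1413 (.cons 175 (.leaf 199 1407 (.cons 296 (.leaf 225 1605 (.cons 319 (.leaf 295 1790 (.cons 320 (.leaf 343 1982 (.cons 223 (.leaf 247 1791 (.cons 202 (.leaf 203 1594 (.cons 221 (.leaf 222 1577 (.cons 344 (.leaf 249 1989 (.cons 345 (.leaf 321 1988 (.leaf 369 2180 .nil)) .nil)) .nil)) .nil)) .nil)) .nil)) .nil)) .nil)) .nil)) .nil)) (.cons 175 (.leaf 199 1407 (.cons 176 (.leaf 151 1215 (.leaf 249 1412 .nil)) .nil)) (.cons 175 (.leaf 199 1407 (.cons 176 (.leaf 151 1215 (.cons 177 (.leaf 201 1413 (.leaf 153 1221 .nil)) .nil)) .nil)) .nil)))) (.cons 200 (.leaf 297 1604 (.cons 175 (.leaf 199 1407 (.cons 176 (.leaf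 151 1215 (.cons 177 (.leaf 201 1413 (.leaf 153 1221 .nil)) .nil)) .nil)) .nil)) (.cons 297 (.leaf 200 1604 (.cons 321 (.leaf 296 1796 (.leaf 345 1991 .nil)) .nil)) .nil))))
noncomputable def t119 : T := .cons 274 (.leaf 247 1979 (.cons 296 (.leaf 295 2170 (.cons 251 (.leaf 252 1985 (.cons 224 (.cons 297 (.leaf 200 1604 (.leaf 321 1796 .nil)) (.cons 199 (.leaf 223 1599 (.cons 200 (.leaf 175 1407 (.cons 201 (.leaf 177 1413 (.leaf 225 1605 .nil)) .nil)) .nil)) (.cons 199 (.leaf 223 1599 (.cons 321 (.leaf 297 1796 (.cons 320 (.leaf 345 1988 (.cons 343 (.leaf 319 1982 (.cons 344 (.leaf 249 1989 (.leaf 367 2174 .nil)) .nil)) .nil)) .nil)) .nil)) .nil))) .nil)) .nil)) .nil)) (.cons 224 t118 (.cons 296 t116 (.cons 274 (.leaf 247 1979 (.cons 299 (.leaf 300 2176 (.cons 251 (.leaf 252 1985 (.cons 227 (.cons 202 (.leaf 226 1623 (.cons 204 (.leaf 228 1629 (.cons 322 (.leaf 298 1814 (.cons 323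 (.leaf 346 2006 (.cons 348 (.leaf 324 2012 (.cons 203 (.leaf 178 1431 (.leaf 180 1437 .nil)) .nil)) .nil)) .nil)) .nil)) .nil)) (.cons 202 (.leaf 226 1623 (.cons 203 (.leaf 178 1431 (.cons 204 (.leaf 180 1437 (.leaf 228 1629 .nil)) .nil)) .nil)) (.cons 202 (.leaf 226 1623 (.cons 204 (.leaf 228 1629 (.cons 322 (.leaf 298 1814 (.cons 323 (.leaf 346 2006 (.cons 348 (.leaf 324 2012 (.cons 347 (.leaf 372 2204 (.cons 321 (.leaf 320 2560 (.cons 297 (.leaf 345 1991 (.cons 224 (.leaf 200 1604 (.leaf 249 1799 .nil)) .nil)) .nil)) .nil)) .nil)) .nil)) .nil)) .nil)) .nil)) (.cons 298 (.leaf 203 1622 (.leaf 322 1814 .nil)) .nil)))) .nil)) .nil)) .nil)) (.cons 274 (.leaf 247 1979 (.cons 296 (.leaf 295 2170 (.cons 299 (.leaf 300 2176 (.cons 251 (.leaf 252 1985 (.cons 320 (.cons 249 (.leaf 225 1797 (.leaf 344 1989 .nil)) (.cons 345 (.leaf 321 1988 (.cons 319 (.leaf 343 1982 (.cons 297 (.leaf 298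 2362 (.cons 344 (.leaf 369 2180 (.leaf 368 2181 .nil)) .nil)) .nil)) .nil)) (.cons 225 (.leaf 249 1797 (.cons 319 (.leaf 343 1982 (.cons 298 (.leaf 297 2362 (.cons 322 (.leaf 227 1814 (.leaf 346 2005 .nil)) .nil)) .nil)) .nil)) .nil))) .nil)) .nil)) .nil)) .nil)) (.cons 274 (.leaf 247 1979 (.cons 296 (.leaf 295 2170 (.cons 251 (.leaf 252 1985 (.cons 299 (.leaf 300 2176 (.cons 227 (.cons 202 (.leaf 226 1623 (.cons 322 (.leaf 298 1814 (.cons 323 (.leaf 346 2006 (.cons 348 (.leaf 324 2012 (.cons 347 (.leaf 372 2204 (.cons 204 (.leaf 228 1629 (.cons 320 (.leaf 321 2560 (.cons 249 (.leaf 225 1797 (.leaf 344 1989 .nil)) .nil)) .nil)) .nil)) .nil)) .nil)) .nil)) .nil)) (.cons 202 (.leaf 226 1623 (.cons 203 (.leaf 178 1431 (.cons 204 (.leaf 180 1437 (.leaf 228 1629 .nil)) .nil)) .nil)) (.cons 298 (.leaf 203 1622 (.leaf 322 1814 .nil)) .nil))) .nil)) .nil)) .nil)) .nil)) (.cons 274 (.leaf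 247 1979 (.cons 296 (.leaf 295 2170 (.cons 299 (.leaf 300 2176 (.cons 251 (.leaf 252 1985 (.cons 224 (.cons 199 (.leaf 223 1599 (.cons 200 (.leaf 175 1407 (.leaf 297 1604 .nil)) .nil)) (.cons 199 (.leaf 223 1599 (.cons 200 (.leaf 175 1407 (.cons 201 (.leaf 177 1413 (.leaf 225 1605 .nil)) .nil)) .nil)) (.cons 199 (.leaf 223 1599 (.cons 201 (.leaf 225 1605 (.cons 321 (.leaf 297 1796 (.cons 320 (.leaf 345 1988 (.cons 319 (.leaf 343 1982 (.cons 322 (.leaf 298 2361 (.cons 346 (.leaf 323 2006 (.leaf 347 2552 .nil)) .nil)) .nil)) .nil)) .nil)) .nil)) .nil)) (.cons 297 (.leaf 200 1604 (.leaf 321 1796 .nil)) .nil)))) .nil)) .nil)) .nil)) .nil)) (.cons 274 (.leaf 247 1979 (.cons 296 (.leaf 295 2170 (.cons 251 (.leaf 252 1985 (.cons 299 (.leaf 300 2176 (.cons 227 (.cons 202 (.leaf 226 1623 (.cons 203 (.leaf 178 1431 (.leaf 298 1622 .nil)) .nil)) (.cons 202 (.leaf 226 1623 (.cons 203 (.leaf 178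 1431 (.cons 204 (.leaf 180 1437 (.leaf 228 1629 .nil)) .nil)) .nil)) (.cons 226 (.leaf 202 1623 (.cons 228 (.leaf 204 1629 (.cons 225 (.leaf 249 1794 (.cons 201 (.leaf 224 1605 (.leaf 200 1603 .nil)) .nil)) .nil)) .nil)) (.cons 298 (.leaf 203 1622 (.leaf 322 1814 .nil)) .nil)))) .nil)) .nil)) .nil)) .nil)) .nil)))))))
noncomputable def t120 : T := .cons 199 (.leaf 223 1599 (.cons 175 (.leaf 200 1407 (.cons 319 (.leaf 295 1790 (.cons 320 (.leaf 343 1982 (.cons 321 (.leaf 297 1796 (.leaf 345 1988 .nil)) .nil)) .nil)) .nil)) .nil)) (.cons 225 (.leaf 201 1605 (.cons 295 (.leaf 319 1790 (.cons 320 (.leaf 249 1797 (.cons 321 (.leaf 297 1796 (.leaf 345 1988 .nil)) .nil)) .nil)) .nil)) (.cons 199 (.leaf 223 1599 (.cons 175 (.leaf 200 1407 (.cons 225 (.leaf 201 1605 (.cons 320 (.leaf 249 1797 (.cons 343 (.leaf 319 1982 (.cons 344 (.leaf 367 2174 (.cons 345 (.leaf 321 1988 (.leaf 369 2180 .nil))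 .nil)) .nil)) .nil)) .nil)) .nil)) .nil)) (.cons 199 (.leaf 223 1599 (.cons 175 (.leaf 200 1407 (.cons 225 (.leaf 201 1605 (.cons 319 (.leaf 295 1790 (.cons 320 (.leaf 249 1797 (.leaf 343 1982 .nil)) .nil)) .nil)) .nil)) .nil)) (.cons 225 (.leaf 201 1605 (.cons 199 (.leaf 223 1599 (.cons 200 (.leaf 175 1407 (.cons 197 (.leaf 198 1576 (.cons 249 (.leaf 320 1797 (.cons 273 (.leaf 297 1604 (.leaf 176 1412 .nil)) .nil)) .nil)) .nil)) .nil)) .nil)) (.cons 297 (.leaf 321 1796 (.cons 199 (.leaf 223 1599 (.cons 200 (.leaf 175 1407 (.leaf 273 1604 .nil)) .nil)) .nil)) .nil)))))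
noncomputable def t121 : T := .cons 175 (.leaf 199 1407 (.cons 201 (.leaf 177 1413 (.cons 296 (.leaf 225 1605 (.cons 297 (.leaf 273 1604 (.leaf 321 1796 .nil)) .nil)) .nil)) .nil)) (.cons 201 (.leaf 177 1413 (.cons 225 (.leaf 296 1605 (.cons 273 (.leaf 297 1604 (.cons 176 (.leaf 249 1412 (.cons 128 (.leaf 152 1028 (.cons 151 (.leaf 175 1215 (.cons 247 (.leaf 271 1406 (.cons 246 (.leaf 245 1960 (.cons 226 (.leaf 227 1786 (.leaf 223 1778 .nil)) .nil)) .nil)) .nil)) .nil)) .nil)) .nil)) .nil)) .nil)) (.cons 199 (.leaf 175 1407 (.cons 223 (.leaf 296 1599 (.cons 273 (.leaf 297 1604 (.cons 176 (.leaf 249 1412 (.cons 247 (.leaf 271 1405 (.leaf 152 1214 .nil)) .nil)) .nil)) .nil)) .nil)) (.cons 201 (.leaf 177 1413 (.cons 225 (.leaf 296 1605 (.cons 273 (.leaf 297 1604 (.cons 176 (.leaf 249 1412 (.cons 128 (.leaf 152 1028 (.cons 247 (.leaf 271 1406 (.cons 246 (.leaf 245 1960 (.cons 226 (.leaf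 227 1786 (.leaf 223 1778 .nil)) .nil)) .nil)) .nil)) .nil)) .nil)) .nil)) .nil)) (.cons 199 (.leaf 175 1407 (.cons 177 (.leaf 201 1413 (.cons 176 (.leaf 153 1221 (.cons 178 (.leaf 179 1402 (.cons 197 (.leaf 198 1385 (.cons 223 (.leaf 296 1599 (.cons 247 (.leaf 271 1405 (.leaf 152 1214 .nil)) .nil)) .nil)) .nil)) .nil)) .nil)) .nil)) (.cons 273 (.leaf 297 1604 (.cons 175 (.leaf 199 1407 (.cons 176 (.leaf 151 1215 (.leaf 249 1412 .nil)) .nil)) .nil)) .nil)))))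
noncomputable def t122 : T := .cons 271 (.leaf 295 1598 (.cons 176 (.leaf 247 1406 (.cons 273 (.leaf 297 1604 (.leaf 249 1412 .nil)) .nil)) .nil)) (.cons 199 (.leaf 175 1407 (.cons 177 (.leaf 201 1413 (.cons 153 (.leaf 176 1221 (.cons 273 (.leaf 297 1604 (.cons 296 (.leaf 223 1599 (.cons 319 (.leaf 295 1790 (.cons 320 (.leaf 343 1982 (.cons 344 (.leaf 249 1989 (.cons 345 (.leaf 321 1988 (.leaf 369 2180 .nil)) .nil)) .nil)) .nil)) .nil)) .nil)) .nil)) .nil)) .nil)) (.cons 199 (.leaf 175 1407 (.cons 177 (.leaf 201 1413 (.cons 153 (.leaf 176 1221 (.cons 296 (.leaf 223 1599 (.cons 297 (.leaf 273 1604 (.leaf 321 1796 .nil)) .nil)) .nil)) .nil)) .nil)) (.cons 271 (.leaf 295 1598 (.cons 176 (.leaf 247 1406 (.cons 175 (.leaf 199 1407 (.leaf 151 1215 .nil)) .nil)) .nil)) (.cons 199 (.leaf 175 1407 (.cons 177 (.leaf 201 1413 (.cons 271 (.leaf 295 1598 (.cons 296 (.leaf 223 1599 (.cons 321 (.leaf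 297 1796 (.cons 320 (.leaf 345 1988 (.cons 343 (.leaf 319 1982 (.cons 344 (.leaf 247 1983 (.leaf 367 2174 .nil)) .nil)) .nil)) .nil)) .nil)) .nil)) .nil)) .nil)) .nil))))
noncomputable def t123 : T := .cons 175 (.leaf 199 1407 (.cons 176 (.leaf 151 1215 (.cons 271 (.leaf 295 1598 (.leaf 247 1406 .nil)) .nil)) .nil)) (.cons 175 (.leaf 199 1407 (.cons 176 (.leaf 151 1215 (.cons 273 (.leaf 297 1604 (.leaf 249 1412 .nil)) .nil)) .nil)) (.cons 271 (.leaf 295 1598 (.cons 176 (.leaf 247 1406 (.cons 273 (.leaf 297 1604 (.leaf 249 1412 .nil)) .nil)) .nil)) (.cons 199 (.leaf 175 1407 (.cons 201 (.leaf 177 1413 (.cons 271 (.leaf 295 1598 (.cons 273 (.leaf 297 1604 (.cons 198 (.cons 173 (.leaf 174 1387 (.cons 172 (.leaf 197 1379 (.cons 222 (.leaf 221 1578 (.cons 202 (.leaf 223 1586 (.cons 179 (.leaf 178 1401 (.cons 203 (.leaf 180 1409 (.cons 227 (.leaf 226 1592 (.leaf 228 1600 .nil)) .nil)) .nil))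 .nil)) .nil)) .nil)) .nil)) (.cons 173 (.leaf 174 1387 (.cons 221 (.leaf 222 1578 (.cons 226 (.leaf 225 1584 (.cons 202 (.leaf 227 1592 (.cons 179 (.leaf 178 1401 (.cons 203 (.leaf 223 1594 (.leaf 180 1409 .nil)) .nil)) .nil)) .nil)) .nil)) .nil)) (.cons 173 (.leaf 174 1387 (.cons 197 (.leaf 225 1576 (.leaf 172 1379 .nil)) .nil)) (.cons 225 (.leaf 197 1576 (.leaf 226 1584 .nil)) .nil)))) .nil)) .nil)) .nil)) .nil)) .nil)))
noncomputable def t124 : T := .cons 296 (.cons 199 (.leaf 223 1599 (.cons 200 (.leaf 175 1407 (.cons 201 (.leaf 177 1413 (.leaf 225 1605 .nil)) .nil)) .nil)) (.cons 297 (.leaf 321 1796 (.cons 199 (.leaf 223 1599 (.cons 200 (.leaf 175 1407 (.leaf 273 1604 .nil)) .nil)) .nil)) (.cons 297 (.leaf 321 1796 (.cons 200 (.leaf 273 1604 (.cons 201 (.leaf 177 1413 (.leaf 225 1605 .nil)) .nil)) .nil)) (.cons 225 (.leaf 201 1605 (.cons 223 (.leaf 199 1599 (.cons 297 (.leaf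 321 1796 (.cons 295 (.leaf 319 1790 (.cons 222 (.cons 198 (.leaf 197 1579 (.cons 245 (.leaf 246 1770 (.cons 271 (.leaf 247 1591 (.cons 270 (.leaf 269 2152 (.leaf 298 2163 .nil)) .nil)) .nil)) .nil)) (.cons 197 (.leaf 198 1579 (.cons 221 (.leaf 249 1768 (.leaf 196 1571 .nil)) .nil)) (.cons 221 (.leaf 249 1768 (.cons 245 (.leaf 244 1762 (.leaf 246 1770 .nil)) .nil)) .nil))) .nil)) .nil)) .nil)) .nil)) .nil)))) (.cons 296 (.cons 225 (.leaf 201 1605 (.cons 223 (.leaf 199 1599 (.cons 297 (.leaf 321 1796 (.cons 295 (.leaf 319 1790 (.cons 222 (.cons 198 (.leaf 197 1579 (.cons 245 (.leaf 246 1770 (.cons 271 (.leaf 247 1591 (.cons 270 (.leaf 269 2152 (.leaf 298 2163 .nil)) .nil)) .nil)) .nil)) (.cons 197 (.leaf 198 1579 (.cons 221 (.leaf 249 1768 (.leaf 196 1571 .nil)) .nil)) (.cons 221 (.leaf 249 1768 (.cons 245 (.leaf 244 1762 (.leaf 246 1770 .nil)) .nil)) .nil))) .nil)) .nil)) .nil)) .nil))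 (.cons 223 (.leaf 199 1599 (.cons 320 (.leaf 247 1791 (.cons 319 (.leaf 295 1790 (.leaf 343 1982 .nil)) .nil)) .nil)) (.cons 225 (.leaf 201 1605 (.cons 295 (.leaf 319 1790 (.cons 320 (.leaf 249 1797 (.cons 321 (.leaf 297 1796 (.leaf 345 1988 .nil)) .nil)) .nil)) .nil)) (.cons 223 (.leaf 199 1599 (.cons 320 (.leaf 247 1791 (.cons 225 (.leaf 201 1605 (.leaf 249 1797 .nil)) .nil)) .nil)) .nil)))) (.cons 200 t123 (.cons 200 t122 (.cons 296 (.cons 201 (.leaf 225 1605 (.cons 200 (.leaf 177 1413 (.cons 271 (.leaf 295 1598 (.cons 297 (.leaf 273 1604 (.leaf 321 1796 .nil)) .nil)) .nil)) .nil)) (.cons 201 (.leaf 225 1605 (.cons 200 (.leaf 177 1413 (.cons 295 (.leaf 271 1598 (.leaf 319 1790 .nil)) .nil)) .nil)) (.cons 201 (.leaf 225 1605 (.cons 200 (.leaf 177 1413 (.cons 297 (.leaf 273 1604 (.leaf 321 1796 .nil)) .nil)) .nil)) (.cons 295 (.leaf 319 1790 (.cons 200 (.leaf 271 1598 (.cons 297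 (.leaf 273 1604 (.leaf 321 1796 .nil)) .nil)) .nil)) (.cons 225 (.leaf 201 1605 (.cons 295 (.leaf 319 1790 (.cons 320 (.leaf 249 1797 (.cons 321 (.leaf 297 1796 (.leaf 345 1988 .nil)) .nil)) .nil)) .nil)) .nil))))) (.cons 296 (.cons 199 (.leaf 223 1599 (.cons 295 (.leaf 319 1790 (.cons 200 (.leaf 175 1407 (.leaf 271 1598 .nil)) .nil)) .nil)) (.cons 199 (.leaf 223 1599 (.cons 175 (.leaf 200 1407 (.cons 321 (.leaf 297 1796 (.cons 320 (.leaf 345 1988 (.cons 249 (.leaf 225 1797 (.cons 343 (.leaf 319 1982 (.cons 344 (.leaf 273 1989 (.leaf 367 2174 .nil)) .nil)) .nil)) .nil)) .nil)) .nil)) .nil)) (.cons 297 (.leaf 321 1796 (.cons 200 (.leaf 273 1604 (.cons 175 (.leaf 199 1407 (.cons 176 (.leaf 151 1215 (.cons 271 (.leaf 295 1598 (.leaf 247 1406 .nil)) .nil)) .nil)) .nil)) .nil)) (.cons 297 (.leaf 321 1796 (.cons 200 (.leaf 273 1604 (.cons 295 (.leaf 271 1598 (.leaf 319 1790 .nil)) .nil))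 .nil)) (.cons 199 (.leaf 223 1599 (.cons 295 (.leaf 319 1790 (.cons 321 (.leaf 297 1796 (.cons 320 (.leaf 345 1988 (.cons 249 (.leaf 225 1797 (.cons 293 (.leaf 294 2344 (.cons 322 (.leaf 323 2363 (.cons 344 (.leaf 273 1989 (.cons 271 (.leaf 247 1983 (.leaf 368 2175 .nil)) .nil)) .nil)) .nil)) .nil)) .nil)) .nil)) .nil)) .nil)) .nil))))) (.cons 200 t121 (.cons 200 (.cons 175 (.leaf 199 1407 (.cons 176 (.leaf 151 1215 (.cons 271 (.leaf 295 1598 (.leaf 247 1406 .nil)) .nil)) .nil)) (.cons 201 (.leaf 177 1413 (.cons 225 (.leaf 296 1605 (.cons 271 (.leaf 295 1598 (.cons 176 (.leaf 247 1406 (.cons 249 (.leaf 273 1412 (.leaf 152 1220 .nil)) .nil)) .nil)) .nil)) .nil)) (.cons 175 (.leaf 199 1407 (.cons 176 (.leaf 151 1215 (.cons 177 (.leaf 201 1413 (.leaf 153 1221 .nil)) .nil)) .nil)) (.cons 175 (.leaf 199 1407 (.cons 201 (.leaf 177 1413 (.cons 295 (.leaf 271 1598 (.cons 296 (.leaf 225 1605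 (.leaf 319 1790 .nil)) .nil)) .nil)) .nil)) .nil)))) (.cons 296 t120 (.cons 200 (.cons 175 (.leaf 199 1407 (.cons 176 (.leaf 151 1215 (.cons 271 (.leaf 295 1598 (.leaf 247 1406 .nil)) .nil)) .nil)) (.cons 201 (.leaf 177 1413 (.cons 225 (.leaf 296 1605 (.cons 271 (.leaf 295 1598 (.cons 247 (.leaf 176 1406 (.cons 226 (.leaf 227 1786 (.cons 246 (.leaf 245 1769 (.leaf 223 1778 .nil)) .nil)) .nil)) .nil)) .nil)) .nil)) (.cons 175 (.leaf 199 1407 (.cons 176 (.leaf 151 1215 (.cons 177 (.leaf 201 1413 (.leaf 153 1221 .nil)) .nil)) .nil)) (.cons 175 (.leaf 199 1407 (.cons 201 (.leaf 177 1413 (.cons 296 (.leaf 225 1605 (.cons 297 (.leaf 273 1604 (.leaf 321 1796 .nil)) .nil)) .nil)) .nil)) .nil)))) .nil)))))))))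
noncomputable def t125 : T := .cons 225 (.leaf 249 1797 (.cons 343 (.leaf 319 1982 (.cons 344 (.leaf 367 2174 (.cons 345 (.leaf 321 1988 (.leaf 369 2180 .nil)) .nil)) .nil)) .nil)) (.cons 247 (.leaf 223 1791 (.cons 225 (.leaf 249 1797 (.cons 343 (.leaf 319 1982 (.cons 344 (.leaf 271 1983 (.leaf 367 2174 .nil)) .nil)) .nil)) .nil)) (.cons 247 (.leaf 223 1791 (.cons 225 (.leaf 249 1797 (.cons 344 (.leaf 271 1983 (.cons 345 (.leaf 321 1988 (.leaf 369 2180 .nil)) .nil)) .nil)) .nil)) (.cons 247 (.leaf 223 1791 (.cons 271 (.leaf 344 1983 (.cons 273 (.leaf 274 1979 (.cons 246 (.leaf 245 1960 (.cons 319 (.leaf 343 1982 (.cons 295 (.leaf 222 1783 (.cons 318 (.leaf 342 1974 (.cons 297 (.leaf 317 2345 (.leaf 298 2354 .nil)) .nil)) .nil)) .nil)) .nil)) .nil)) .nil)) .nil)) (.cons 247 (.leaf 223 1791 (.cons 249 (.leaf 225 1797 (.cons 273 (.leaf 274 1979 (.cons 246 (.leaf 245 1960 (.cons 222 (.leaf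 221 1771 (.cons 319 (.leaf 343 1982 (.cons 295 (.leaf 271 1783 (.cons 321 (.leaf 345 1988 (.cons 322 (.leaf 323 2363 (.cons 346 (.leaf 347 2552 (.leaf 297 1996 .nil)) .nil)) .nil)) .nil)) .nil)) .nil)) .nil)) .nil)) .nil)) .nil)) .nil))))
noncomputable def t126 : T := .cons 247 (.leaf 223 1791 (.cons 273 (.leaf 274 1979 (.cons 249 (.leaf 225 1797 (.leaf 344 1989 .nil)) .nil)) .nil)) (.cons 249 (.leaf 225 1797 (.cons 319 (.leaf 343 1982 (.cons 344 (.leaf 273 1989 (.cons 345 (.leaf 321 1988 (.leaf 369 2180 .nil)) .nil)) .nil)) .nil)) (.cons 247 (.leaf 223 1791 (.cons 273 (.leaf 274 1979 (.cons 245 (.leaf 246 1960 (.cons 321 (.leaf 345 1988 (.cons 319 (.leaf 343 1982 (.cons 344 (.leaf 271 1983 (.cons 297 (.leaf 368 2181 (.cons 298 (.leaf 299 2362 (.leaf 318 2353 .nil)) .nil)) .nil)) .nil)) .nil)) .nil)) .nil)) .nil)) (.cons 247 (.leaf 223 1791 (.cons 273 (.leaf 274 1979 (.cons 249 (.leaf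 225 1797 (.cons 246 (.leaf 245 1960 (.cons 270 (.leaf 269 1962 (.cons 321 (.leaf 345 1988 (.cons 319 (.leaf 343 1982 (.cons 222 (.leaf 221 1771 (.cons 297 (.cons 298 (.leaf 271 2160 (.leaf 299 2362 .nil)) (.cons 318 (.leaf 317 2345 (.cons 322 (.leaf 346 1996 (.cons 294 (.leaf 293 2347 (.cons 342 (.leaf 341 2538 (.leaf 271 1973 .nil)) .nil)) .nil)) .nil)) (.cons 298 (.leaf 299 2362 (.leaf 318 2353 .nil)) .nil))) .nil)) .nil)) .nil)) .nil)) .nil)) .nil)) .nil)) .nil)) (.cons 247 (.leaf 223 1791 (.cons 225 (.leaf 249 1797 (.cons 343 (.leaf 319 1982 (.cons 344 (.leaf 271 1983 (.leaf 367 2174 .nil)) .nil)) .nil)) .nil)) .nil))))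
noncomputable def t127 : T := .cons 223 (.leaf 247 1791 (.cons 249 (.leaf 225 1797 (.cons 343 (.leaf 319 1982 (.cons 344 (.leaf 273 1989 (.leaf 367 2174 .nil)) .nil)) .nil)) .nil)) (.cons 223 (.leaf 247 1791 (.cons 249 (.leaf 225 1797 (.cons 273 (.leaf 344 1989 (.cons 295 (.leaf 274 2170 (.cons 294 (.leaf 293 2153 (.cons 321 (.leaf 345 1988 (.cons 322 (.leaf 319 2355 (.leaf 323 2363 .nil)) .nil)) .nil)) .nil)) .nil)) .nil)) .nil)) (.cons 223 (.leaf 247 1791 (.cons 249 (.leaf 225 1797 (.cons 273 (.leaf 344 1989 (.cons 295 (.leaf 274 2170 (.cons 294 (.leaf 293 2153 (.cons 321 (.leaf 345 1988 (.cons 322 (.leaf 323 2363 (.leaf 297 2352 .nil)) .nil)) .nil)) .nil)) .nil)) .nil)) .nil)) (.cons 345 (.leaf 321 1988 (.cons 223 (.leaf 247 1791 (.cons 343 (.leaf 319 1982 (.cons 344 (.leaf 367 2174 (.leaf 369 2180 .nil)) .nil)) .nil)) .nil)) (.cons 225 (.leaf 249 1797 (.cons 343 (.leaf 319 1982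 (.cons 344 (.leaf 367 2174 (.cons 345 (.leaf 321 1988 (.leaf 369 2180 .nil)) .nil)) .nil)) .nil)) (.cons 247 (.leaf 223 1791 (.cons 249 (.leaf 225 1797 (.cons 273 (.leaf 274 1979 (.cons 246 (.leaf 245 1960 (.cons 222 (.leaf 221 1771 (.cons 270 (.leaf 269 1962 (.cons 319 (.leaf 343 1982 (.cons 321 (.leaf 345 1988 (.cons 294 (.leaf 295 1780 (.cons 293 (.leaf 318 2347 (.leaf 317 1774 .nil)) .nil)) .nil)) .nil)) .nil)) .nil)) .nil)) .nil)) .nil)) .nil)) .nil)))))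
noncomputable def t128 : T := .cons 343 (.leaf 319 1982 (.cons 344 (.leaf 367 2174 (.cons 271 (.leaf 247 1983 (.cons 345 (.leaf 321 1988 (.leaf 369 2180 .nil)) .nil)) .nil)) .nil)) (.cons 343 (.leaf 319 1982 (.cons 344 (.leaf 367 2174 (.cons 345 (.leaf 321 1988 (.leaf 369 2180 .nil)) .nil)) .nil)) (.cons 247 (.leaf 223 1791 (.cons 273 (.leaf 274 1979 (.cons 245 (.leaf 246 1960 (.cons 321 (.leaf 345 1988 (.cons 344 (.leaf 271 1983 (.cons 368 (.leaf 297 2181 (.cons 367 (.leaf 343 2174 (.leaf 391 2366 .nil)) .nil)) .nil)) .nil)) .nil)) .nil)) .nil)) (.cons 247 (.leaf 223 1791 (.cons 273 (.leaf 274 1979 (.cons 245 (.leaf 246 1960 (.cons 321 (.leaf 345 1988 (.cons 344 (.leaf 271 1983 (.cons 368 (.leaf 297 2181 (.cons 391 (.leaf 367 2366 (.cons 392 (.leaf 415 2558 (.cons 393 (.leaf 369 2372 (.leaf 417 2564 .nil)) .nil)) .nil)) .nil)) .nil)) .nil)) .nil)) .nil)) .nil)) (.cons 247 (.leaf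 223 1791 (.cons 271 (.leaf 344 1983 (.cons 273 (.leaf 274 1979 (.cons 246 (.leaf 245 1960 (.cons 319 (.leaf 343 1982 (.cons 295 (.leaf 222 1783 (.cons 294 (.leaf 293 2153 (.cons 318 (.leaf 342 1974 (.cons 297 (.leaf 317 2345 (.leaf 298 2354 .nil)) .nil)) .nil)) .nil)) .nil)) .nil)) .nil)) .nil)) .nil)) (.cons 247 (.leaf 223 1791 (.cons 273 (.leaf 274 1979 (.cons 321 (.leaf 345 1988 (.cons 319 (.leaf 343 1982 (.cons 246 (.leaf 245 1960 (.cons 295 (.cons 294 (.leaf 293 2344 (.leaf 322 2355 .nil)) (.cons 222 (.leaf 271 1783 (.cons 322 (.leaf 323 2363 (.cons 298 (.leaf 299 2361 (.cons 297 (.leaf 318 2353 (.cons 346 (.leaf 347 2552 (.leaf 370 2191 .nil)) .nil)) .nil)) .nil)) .nil)) (.cons 293 (.leaf 294 2344 (.cons 271 (.leaf 222 1783 (.cons 318 (.leaf 342 1974 (.cons 297 (.leaf 317 2345 (.leaf 298 2353 .nil)) .nil)) .nil)) .nil)) .nil))) .nil)) .nil)) .nil)) .nil)) .nil)) .nil)))))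
noncomputable def t129 : T := .cons 247 (.leaf 223 1791 (.cons 273 (.leaf 274 1979 (.cons 249 (.leaf 225 1797 (.cons 246 (.leaf 245 1960 (.cons 270 (.leaf 269 1962 (.cons 321 (.leaf 345 1988 (.cons 319 (.leaf 343 1982 (.cons 222 (.leaf 221 1771 (.cons 295 (.leaf 271 1783 (.leaf 294 1780 .nil)) .nil)) .nil)) .nil)) .nil)) .nil)) .nil)) .nil)) .nil)) (.cons 319 (.leaf 343 1982 (.cons 321 (.leaf 345 1988 (.cons 249 (.leaf 225 1797 (.cons 295 (.cons 294 (.leaf 293 2344 (.leaf 322 2355 .nil)) (.cons 273 (.leaf 274 2170 (.cons 322 (.leaf 323 2363 (.cons 346 (.leaf 347 2552 (.leaf 297 1996 .nil)) .nil)) .nil)) (.cons 274 (.leaf 273 2170 (.cons 294 (.leaf 293 2344 (.cons 297 (.leaf 298 2169 (.cons 318 (.leaf 317 2345 (.cons 270 (.leaf 269 2155 (.cons 342 (.leaf 341 2538 (.cons 366 (.leaf 390 2357 (.leaf 271 2165 .nil)) .nil)) .nil)) .nil)) .nil)) .nil)) .nil)) .nil))) .nil)) .nil)) .nil))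 (.cons 247 (.leaf 223 1791 (.cons 273 (.leaf 274 1979 (.cons 249 (.leaf 225 1797 (.cons 246 (.leaf 245 1960 (.cons 270 (.leaf 269 1962 (.cons 321 (.leaf 345 1988 (.cons 222 (.leaf 221 1771 (.cons 198 (.cons 271 (.leaf 174 1396 (.leaf 295 1588 .nil)) (.cons 173 (.leaf 197 1391 (.cons 174 (.leaf 149 1199 (.cons 175 (.leaf 151 1205 (.leaf 199 1397 .nil)) .nil)) .nil)) (.cons 295 (.leaf 271 1588 (.cons 294 (.leaf 293 2344 (.cons 322 (.leaf 323 2363 (.leaf 297 2352 .nil)) .nil)) .nil)) .nil))) .nil)) .nil)) .nil)) .nil)) .nil)) .nil)) .nil)) (.cons 247 (.leaf 223 1791 (.cons 249 (.leaf 225 1797 (.cons 273 (.leaf 274 1979 (.cons 246 (.leaf 245 1960 (.cons 222 (.leaf 221 1771 (.cons 270 (.leaf 269 1962 (.cons 319 (.leaf 343 1982 (.cons 295 (.leaf 271 1783 (.leaf 294 1780 .nil)) .nil)) .nil)) .nil)) .nil)) .nil)) .nil)) .nil)) (.cons 247 (.leaf 223 1791 (.cons 273 (.leaf 274 1979 (.cons 321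 (.leaf 345 1988 (.cons 319 (.leaf 343 1982 (.cons 246 (.leaf 245 1960 (.cons 295 (.cons 294 (.leaf 293 2344 (.leaf 322 2355 .nil)) (.cons 222 (.leaf 271 1783 (.cons 322 (.leaf 323 2363 (.cons 298 (.leaf 299 2361 (.cons 297 (.leaf 318 2353 (.cons 346 (.leaf 347 2552 (.leaf 370 2191 .nil)) .nil)) .nil)) .nil)) .nil)) (.cons 293 (.leaf 294 2344 (.cons 271 (.leaf 222 1783 (.cons 318 (.leaf 342 1974 (.cons 297 (.leaf 317 2345 (.leaf 298 2353 .nil)) .nil)) .nil)) .nil)) .nil))) .nil)) .nil)) .nil)) .nil)) .nil)) (.cons 319 (.leaf 343 1982 (.cons 321 (.leaf 345 1988 (.cons 247 (.leaf 223 1791 (.cons 318 (.cons 297 (.leaf 317 2345 (.leaf 298 2353 .nil)) (.cons 294 (.leaf 293 2347 (.cons 225 (.leaf 249 1797 (.cons 295 (.leaf 322 2355 (.cons 342 (.leaf 341 2538 (.leaf 271 1974 .nil)) .nil)) .nil)) .nil)) .nil)) .nil)) .nil)) .nil)) (.cons 247 (.leaf 223 1791 (.cons 273 (.leaf 274 1979 (.cons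 249 (.leaf 225 1797 (.cons 246 (.leaf 245 1960 (.cons 270 (.leaf 269 1962 (.cons 321 (.leaf 345 1988 (.cons 319 (.leaf 343 1982 (.cons 222 (.leaf 221 1771 (.cons 297 (.cons 298 (.leaf 271 2160 (.leaf 299 2362 .nil)) (.cons 318 (.leaf 317 2345 (.cons 322 (.leaf 346 1996 (.cons 294 (.leaf 293 2347 (.cons 342 (.leaf 341 2538 (.leaf 271 1973 .nil)) .nil)) .nil)) .nil)) (.cons 298 (.leaf 299 2362 (.leaf 318 2353 .nil)) .nil))) .nil)) .nil)) .nil)) .nil)) .nil)) .nil)) .nil)) .nil)) (.cons 247 (.leaf 223 1791 (.cons 249 (.leaf 225 1797 (.cons 273 (.leaf 274 1979 (.cons 246 (.leaf 245 1960 (.cons 222 (.leaf 221 1771 (.cons 270 (.leaf 269 1962 (.cons 319 (.leaf 343 1982 (.cons 321 (.leaf 345 1988 (.cons 294 (.leaf 295 1780 (.cons 293 (.leaf 318 2347 (.leaf 317 1774 .nil)) .nil)) .nil)) .nil)) .nil)) .nil)) .nil)) .nil)) .nil)) .nil)) (.cons 247 (.leaf 223 1791 (.cons 249 (.leaf 225 1797 (.cons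 273 (.leaf 274 1979 (.cons 246 (.leaf 245 1960 (.cons 222 (.leaf 221 1771 (.cons 319 (.leaf 343 1982 (.cons 295 (.leaf 271 1783 (.cons 321 (.leaf 345 1988 (.cons 322 (.leaf 323 2363 (.cons 346 (.leaf 347 2552 (.leaf 297 1996 .nil)) .nil)) .nil)) .nil)) .nil)) .nil)) .nil)) .nil)) .nil)) .nil)) .nil))))))))
noncomputable def t130 : T := .cons 247 (.leaf 223 1791 (.cons 271 (.leaf 344 1983 (.cons 273 (.leaf 274 1979 (.cons 246 (.leaf 245 1960 (.cons 319 (.leaf 343 1982 (.cons 295 (.leaf 222 1783 (.cons 294 (.leaf 293 2153 (.cons 318 (.leaf 342 1974 (.cons 297 (.leaf 317 2345 (.leaf 298 2354 .nil)) .nil)) .nil)) .nil)) .nil)) .nil)) .nil)) .nil)) .nil)) (.cons 249 (.leaf 225 1797 (.cons 273 (.leaf 344 1989 (.cons 274 (.leaf 295 2170 (.cons 251 (.leaf 252 1985 (.cons 299 (.leaf 300 2176 (.cons 298 (.leaf 271 2168 (.cons 322 (.leaf 227 1814 (.leaf 346 2005 .nil)) .nil)) .nil)) .nil)) .nil))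 .nil)) .nil)) (.cons 225 (.leaf 249 1797 (.cons 247 (.leaf 223 1791 (.cons 343 (.leaf 319 1982 (.cons 344 (.leaf 271 1983 (.leaf 367 2174 .nil)) .nil)) .nil)) .nil)) (.cons 247 (.leaf 223 1791 (.cons 249 (.leaf 225 1797 (.cons 273 (.leaf 274 1979 (.cons 246 (.leaf 245 1960 (.cons 222 (.leaf 221 1771 (.cons 270 (.leaf 269 1962 (.cons 319 (.leaf 343 1982 (.cons 295 (.leaf 271 1783 (.leaf 294 1780 .nil)) .nil)) .nil)) .nil)) .nil)) .nil)) .nil)) .nil)) (.cons 247 (.leaf 223 1791 (.cons 249 (.leaf 225 1797 (.cons 273 (.leaf 274 1979 (.leaf 344 1989 .nil)) .nil)) .nil)) .nil))))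
noncomputable def t131 : T := .cons 247 (.leaf 223 1791 (.cons 225 (.leaf 249 1797 (.cons 344 (.leaf 271 1983 (.cons 345 (.leaf 321 1988 (.leaf 369 2180 .nil)) .nil)) .nil)) .nil)) (.cons 249 (.leaf 225 1797 (.cons 273 (.leaf 344 1989 (.cons 274 (.leaf 295 2170 (.cons 251 (.leaf 252 1985 (.cons 299 (.leaf 300 2176 (.cons 298 (.leaf 271 2168 (.cons 322 (.leaf 227 1814 (.leaf 346 2005 .nil)) .nil)) .nil)) .nil)) .nil)) .nil)) .nil)) (.cons 247 (.leaf 223 1791 (.cons 273 (.leaf 274 1979 (.cons 245 (.leaf 246 1960 (.cons 321 (.leaf 345 1988 (.cons 344 (.leaf 271 1983 (.cons 368 (.leaf 297 2181 (.cons 391 (.leaf 367 2366 (.cons 392 (.leaf 415 2558 (.cons 393 (.leaf 369 2372 (.leaf 417 2564 .nil)) .nil)) .nil)) .nil)) .nil)) .nil)) .nil)) .nil)) .nil)) (.cons 247 (.leaf 223 1791 (.cons 273 (.leaf 274 1979 (.cons 249 (.leaf 225 1797 (.cons 246 (.leaf 245 1960 (.cons 270 (.leaf 269 1962 (.cons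 321 (.leaf 345 1988 (.cons 222 (.leaf 221 1771 (.cons 198 (.cons 271 (.leaf 174 1396 (.leaf 295 1588 .nil)) (.cons 173 (.leaf 197 1391 (.cons 174 (.leaf 149 1199 (.cons 175 (.leaf 151 1205 (.leaf 199 1397 .nil)) .nil)) .nil)) (.cons 295 (.leaf 271 1588 (.cons 294 (.leaf 293 2344 (.leaf 319 1780 .nil)) .nil)) .nil))) .nil)) .nil)) .nil)) .nil)) .nil)) .nil)) .nil)) (.cons 249 (.leaf 225 1797 (.cons 223 (.leaf 247 1791 (.cons 273 (.leaf 344 1989 (.cons 295 (.leaf 274 2170 (.cons 294 (.leaf 293 2153 (.cons 321 (.leaf 345 1988 (.cons 322 (.leaf 319 2355 (.leaf 323 2363 .nil)) .nil)) .nil)) .nil)) .nil)) .nil)) .nil)) .nil))))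
noncomputable def t132 : T := .cons 223 (.leaf 247 1791 (.cons 343 (.leaf 319 1982 (.cons 344 (.leaf 367 2174 (.cons 369 (.leaf 345 2180 (.cons 368 (.leaf 393 2372 (.cons 273 (.leaf 249 1989 (.leaf 297 2181 .nil)) .nil)) .nil)) .nil)) .nil)) .nil)) (.cons 249 (.leaf 225 1797 (.cons 273 (.leaf 344 1989 (.cons 274 (.leaf 295 2170 (.cons 251 (.leaf 252 1985 (.cons 299 (.leaf 300 2176 (.cons 298 (.leaf 271 2168 (.cons 322 (.leaf 227 1814 (.leaf 346 2005 .nil)) .nil)) .nil)) .nil)) .nil)) .nil)) .nil)) (.cons 247 (.leaf 223 1791 (.cons 271 (.leaf 344 1983 (.cons 273 (.leaf 274 1979 (.cons 246 (.leaf 245 1960 (.cons 319 (.leaf 343 1982 (.cons 295 (.leaf 222 1783 (.cons 294 (.leaf 293 2153 (.cons 318 (.leaf 342 1974 (.cons 297 (.leaf 317 2345 (.leaf 298 2354 .nil)) .nil)) .nil)) .nil)) .nil)) .nil)) .nil)) .nil)) .nil)) (.cons 247 (.leaf 223 1791 (.cons 249 (.leaf 225 1797 (.cons 273 (.leaf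 274 1979 (.cons 246 (.leaf 245 1960 (.cons 222 (.leaf 221 1771 (.cons 270 (.leaf 269 1962 (.cons 319 (.leaf 343 1982 (.cons 295 (.leaf 271 1783 (.leaf 294 1780 .nil)) .nil)) .nil)) .nil)) .nil)) .nil)) .nil)) .nil)) (.cons 247 (.leaf 223 1791 (.cons 225 (.leaf 249 1797 (.cons 319 (.leaf 343 1982 (.cons 344 (.leaf 271 1983 (.cons 369 (.leaf 345 2180 (.cons 368 (.leaf 393 2372 (.cons 391 (.leaf 367 2366 (.cons 392 (.leaf 295 2367 (.leaf 415 2558 .nil)) .nil)) .nil)) .nil)) .nil)) .nil)) .nil)) .nil)) .nil))))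
noncomputable def t133 : T := .cons 249 (.leaf 225 1797 (.cons 273 (.leaf 344 1989 (.cons 274 (.leaf 247 1979 (.leaf 295 2170 .nil)) .nil)) .nil)) (.cons 249 (.leaf 225 1797 (.cons 273 (.leaf 344 1989 (.cons 274 (.leaf 295 2170 (.cons 251 (.leaf 252 1985 (.cons 299 (.leaf 300 2176 (.cons 298 (.leaf 271 2168 (.cons 322 (.leaf 227 1814 (.leaf 346 2005 .nil)) .nil)) .nil)) .nil)) .nil)) .nil)) .nil)) (.cons 247 (.leaf 223 1791 (.cons 273 (.leaf 274 1979 (.cons 245 (.leaf 246 1960 (.cons 321 (.leaf 345 1988 (.cons 344 (.leaf 271 1983 (.cons 368 (.leaf 297 2181 (.cons 367 (.leaf 343 2174 (.leaf 391 2366 .nil)) .nil)) .nil)) .nil)) .nil)) .nil)) .nil)) (.cons 247 (.leaf 223 1791 (.cons 273 (.leaf 274 1979 (.cons 249 (.leaf 225 1797 (.cons 246 (.leaf 245 1960 (.cons 270 (.leaf 269 1962 (.cons 321 (.leaf 345 1988 (.cons 222 (.leaf 221 1771 (.cons 198 (.cons 271 (.leaf 174 1396 (.leaf 295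 1588 .nil)) (.cons 173 (.leaf 197 1391 (.cons 174 (.leaf 149 1199 (.cons 175 (.leaf 151 1205 (.leaf 199 1397 .nil)) .nil)) .nil)) (.cons 295 (.leaf 271 1588 (.cons 294 (.leaf 293 2344 (.cons 322 (.leaf 323 2363 (.leaf 297 2352 .nil)) .nil)) .nil)) .nil))) .nil)) .nil)) .nil)) .nil)) .nil)) .nil)) .nil)) (.cons 247 (.leaf 223 1791 (.cons 225 (.leaf 249 1797 (.cons 344 (.leaf 271 1983 (.cons 345 (.leaf 321 1988 (.leaf 369 2180 .nil)) .nil)) .nil)) .nil)) .nil))))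
noncomputable def t134 : T := .cons 249 (.leaf 225 1797 (.cons 319 (.leaf 343 1982 (.cons 273 (.leaf 344 1989 (.cons 274 (.leaf 295 2170 (.cons 251 (.leaf 252 1985 (.cons 299 (.leaf 300 2176 (.cons 298 (.leaf 271 2168 (.leaf 297 2362 .nil)) .nil)) .nil)) .nil)) .nil)) .nil)) .nil)) (.cons 249 (.leaf 225 1797 (.cons 273 (.leaf 344 1989 (.cons 274 (.leaf 295 2170 (.cons 251 (.leaf 252 1985 (.cons 299 (.leaf 300 2176 (.cons 298 (.leaf 271 2168 (.cons 322 (.leaf 227 1814 (.leaf 346 2005 .nil)) .nil)) .nil)) .nil)) .nil)) .nil)) .nil)) (.cons 343 (.leaf 319 1982 (.cons 344 (.leaf 367 2174 (.cons 345 (.leaf 321 1988 (.leaf 369 2180 .nil)) .nil)) .nil)) (.cons 319 (.leaf 343 1982 (.cons 321 (.leaf 345 1988 (.cons 249 (.leaf 225 1797 (.cons 295 (.cons 294 (.leaf 293 2344 (.leaf 322 2355 .nil)) (.cons 273 (.leaf 274 2170 (.cons 322 (.leaf 323 2363 (.cons 346 (.leaf 347 2552 (.leaf 297 1996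 .nil)) .nil)) .nil)) (.cons 274 (.leaf 273 2170 (.cons 294 (.leaf 293 2344 (.cons 297 (.leaf 298 2169 (.cons 318 (.leaf 317 2345 (.cons 270 (.leaf 269 2155 (.cons 342 (.leaf 341 2538 (.cons 366 (.leaf 390 2357 (.leaf 271 2165 .nil)) .nil)) .nil)) .nil)) .nil)) .nil)) .nil)) .nil))) .nil)) .nil)) .nil)) .nil)))
noncomputable def t135 : T := .cons 274 (.leaf 247 1979 (.cons 251 (.leaf 252 1985 (.cons 299 (.leaf 300 2176 (.cons 322 (.cons 297 (.leaf 345 1991 (.cons 346 (.leaf 298 2005 (.leaf 323 2006 .nil)) .nil)) (.cons 297 (.leaf 345 1991 (.cons 346 (.leaf 323 2006 (.leaf 249 1996 .nil)) .nil)) (.cons 298 (.leaf 227 1814 (.leaf 271 2168 .nil)) .nil))) .nil)) .nil)) .nil)) (.cons 297 (.leaf 345 1991 (.cons 249 (.leaf 344 1990 (.cons 322 (.leaf 346 1996 (.cons 298 (.leaf 225 1804 (.cons 299 (.leaf 300 2370 (.leaf 319 2361 .nil)) .nil)) .nil)) .nil)) .nil)) (.cons 274 (.leaf 247 1979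 (.cons 251 (.leaf 252 1985 (.cons 299 (.leaf 300 2176 (.cons 322 (.cons 323 (.leaf 346 2006 (.cons 348 (.leaf 324 2012 (.leaf 347 2560 .nil)) .nil)) (.cons 298 (.leaf 227 1814 (.leaf 271 2168 .nil)) .nil)) .nil)) .nil)) .nil)) (.cons 247 (.leaf 274 1979 (.cons 246 (.leaf 245 1960 (.cons 297 (.leaf 345 1991 (.cons 249 (.leaf 344 1990 (.cons 222 (.leaf 221 1771 (.cons 225 (.leaf 226 1777 (.cons 201 (.leaf 177 1414 (.cons 200 (.leaf 176 1415 (.cons 202 (.leaf 178 1421 (.cons 199 (.leaf 223 1586 (.cons 322 (.leaf 346 1996 (.leaf 298 1804 .nil)) .nil)) .nil)) .nil)) .nil)) .nil)) .nil)) .nil)) .nil)) .nil)) .nil)) (.cons 247 (.leaf 274 1979 (.cons 246 (.leaf 245 1960 (.cons 297 (.leaf 345 1991 (.cons 249 (.leaf 344 1990 (.cons 222 (.leaf 221 1771 (.cons 225 (.leaf 226 1777 (.cons 201 (.leaf 177 1414 (.cons 200 (.leaf 176 1415 (.cons 202 (.leaf 178 1421 (.cons 199 (.leaf 223 1586 (.cons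 174 (.leaf 175 1395 (.cons 198 (.leaf 271 1396 (.leaf 173 1387 .nil)) .nil)) .nil)) .nil)) .nil)) .nil)) .nil)) .nil)) .nil)) .nil)) .nil)) .nil)) .nil))))
noncomputable def t136 : T := .cons 298 (.leaf 318 2353 (.cons 271 (.leaf 270 2160 (.cons 295 (.leaf 343 1981 (.cons 247 (.leaf 344 1980 (.cons 299 (.leaf 300 2370 (.leaf 322 2361 .nil)) .nil)) .nil)) .nil)) .nil)) (.cons 294 (.cons 293 (.leaf 318 2347 (.cons 295 (.leaf 292 2336 (.leaf 322 2355 .nil)) .nil)) (.cons 318 (.leaf 293 2347 (.cons 342 (.leaf 341 2538 (.cons 343 (.leaf 322 2546 (.cons 270 (.leaf 246 1972 (.leaf 367 2164 .nil)) .nil)) .nil)) .nil)) (.cons 322 (.leaf 295 2355 (.cons 343 (.leaf 342 2546 (.cons 323 (.leaf 344 2554 (.cons 347 (.leaf 346 2552 (.leaf 348 2560 .nil)) .nil)) .nil)) .nil)) (.cons 293 (.leaf 318 2347 (.cons 271 (.leaf 270 2154 (.cons 295 (.leaf 343 1981 (.leaf 292 2336 .nil)) .nil)) .nil)) .nil))))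 (.cons 298 (.cons 271 (.leaf 270 2160 (.cons 295 (.leaf 343 1981 (.cons 247 (.leaf 344 1980 (.cons 299 (.leaf 300 2370 (.leaf 322 2361 .nil)) .nil)) .nil)) .nil)) (.cons 271 (.leaf 270 2160 (.cons 295 (.leaf 343 1981 (.cons 247 (.leaf 344 1980 (.cons 246 (.leaf 245 1960 (.leaf 222 1783 .nil)) .nil)) .nil)) .nil)) (.cons 299 (.leaf 300 2370 (.leaf 322 2361 .nil)) .nil))) (.cons 298 (.leaf 318 2353 (.cons 271 (.leaf 270 2160 (.cons 295 (.leaf 343 1981 (.cons 247 (.leaf 344 1980 (.cons 246 (.leaf 245 1960 (.leaf 222 1783 .nil)) .nil)) .nil)) .nil)) .nil)) (.cons 298 (.leaf 318 2353 (.cons 299 (.leaf 300 2370 (.leaf 322 2361 .nil)) .nil)) .nil))))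
noncomputable def t137 : T := .cons 274 (.leaf 247 1979 (.cons 251 (.leaf 252 1985 (.cons 299 (.leaf 300 2176 (.cons 322 (.cons 323 (.leaf 346 2006 (.cons 348 (.leaf 324 2012 (.leaf 347 2560 .nil)) .nil)) (.cons 298 (.leaf 227 1814 (.leaf 271 2168 .nil)) .nil)) .nil)) .nil)) .nil)) (.cons 297 (.leaf 345 1991 (.cons 319 t136 .nil)) (.cons 297 (.leaf 345 1991 (.cons 298 (.cons 271 (.leaf 270 2160 (.cons 319 (.leaf 318 2353 (.cons 295 (.leaf 343 1981 (.cons 294 (.leaf 274 2162 (.leaf 322 2355 .nil)) .nil)) .nil)) .nil)) (.cons 299 (.leaf 300 2370 (.cons 271 (.leaf 270 2160 (.leaf 274 2168 .nil)) .nil)) (.cons 299 (.leaf 300 2370 (.cons 319 (.leaf 318 2353 (.leaf 322 2361 .nil)) .nil)) .nil))) .nil)) (.cons 247 (.leaf 274 1979 (.cons 297 (.leaf 345 1991 (.cons 246 (.leaf 245 1960 (.cons 319 (.cons 271 (.cons 270 (.leaf 298 2160 (.cons 269 (.leaf 268 1953 (.cons 295 (.leaf 343 1981 (.leaf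 344 1980 .nil)) .nil)) .nil)) (.cons 270 (.leaf 298 2160 (.cons 269 (.leaf 268 1953 (.cons 293 (.leaf 292 2146 (.leaf 294 2154 .nil)) .nil)) .nil)) (.cons 295 (.leaf 343 1981 (.leaf 344 1980 .nil)) .nil))) (.cons 318 (.leaf 298 2353 (.cons 293 (.leaf 294 2347 (.cons 317 (.leaf 292 2339 (.cons 341 (.leaf 340 2530 (.leaf 342 2538 .nil)) .nil)) .nil)) .nil)) (.cons 295 (.cons 271 (.leaf 343 1981 (.leaf 344 1980 .nil)) (.cons 294 (.leaf 322 2355 (.cons 293 (.leaf 292 2336 (.leaf 318 2347 .nil)) .nil)) .nil)) (.cons 298 (.leaf 318 2353 (.cons 271 (.leaf 270 2160 (.cons 295 (.leaf 343 1981 (.leaf 344 1980 .nil)) .nil)) .nil)) .nil)))) .nil)) .nil)) .nil)) (.cons 274 (.leaf 247 1979 (.cons 251 (.leaf 252 1985 (.cons 299 (.leaf 300 2176 (.cons 271 (.leaf 298 2168 (.cons 295 (.leaf 294 2162 (.cons 319 (.leaf 343 1981 (.cons 345 (.leaf 297 1991 (.cons 318 (.leaf 346 2544 (.cons 317 (.leaf 344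 2536 (.cons 341 (.leaf 340 2530 (.leaf 342 2538 .nil)) .nil)) .nil)) .nil)) .nil)) .nil)) .nil)) .nil)) .nil)) .nil)) (.cons 274 (.leaf 247 1979 (.cons 299 (.leaf 300 2176 (.cons 251 (.leaf 252 1985 (.cons 322 (.cons 323 (.leaf 346 2006 (.cons 348 (.leaf 324 2012 (.leaf 347 2560 .nil)) .nil)) (.cons 298 (.leaf 227 1814 (.leaf 319 2361 .nil)) .nil)) .nil)) .nil)) .nil)) (.cons 274 (.leaf 247 1979 (.cons 345 (.leaf 297 1991 (.cons 299 (.leaf 300 2176 (.cons 251 (.leaf 252 1985 (.cons 346 (.cons 323 (.leaf 322 2006 (.cons 347 (.leaf 370 2198 (.leaf 348 2563 .nil)) .nil)) (.cons 322 (.leaf 323 2006 (.cons 319 (.leaf 318 2544 (.cons 295 (.leaf 294 2355 (.cons 343 (.leaf 271 1981 (.leaf 342 2546 .nil)) .nil)) .nil)) .nil)) (.cons 319 (.leaf 318 2544 (.cons 347 (.leaf 322 2552 (.leaf 344 2555 .nil)) .nil)) (.cons 319 (.leaf 318 2544 (.cons 347 (.leaf 344 2555 (.leaf 348 2563 .nil)) .nil))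 .nil)))) .nil)) .nil)) .nil)) .nil)) .nil))))))
noncomputable def t138 : T := .cons 297 (.leaf 345 1991 (.cons 322 (.cons 249 (.leaf 344 1990 (.leaf 346 1996 .nil)) (.cons 323 (.cons 299 (.leaf 300 2369 (.cons 348 (.leaf 347 2560 (.cons 324 (.leaf 251 2012 (.leaf 349 2568 .nil)) .nil)) .nil)) (.cons 343 (.leaf 344 2554 (.cons 319 (.leaf 342 2546 (.cons 295 (.leaf 271 1981 (.leaf 294 2355 .nil)) .nil)) .nil)) .nil)) (.cons 346 (.leaf 249 1996 (.cons 319 (.leaf 347 2552 (.cons 298 (.leaf 318 2353 (.leaf 299 2361 .nil)) .nil)) .nil)) .nil))) .nil)) (.cons 274 (.leaf 247 1979 (.cons 251 (.leaf 252 1985 (.cons 299 (.leaf 300 2176 (.cons 322 (.cons 323 (.leaf 346 2006 (.cons 348 (.leaf 324 2012 (.leaf 347 2560 .nil)) .nil)) (.cons 298 (.leaf 227 1814 (.leaf 271 2168 .nil)) .nil)) .nil)) .nil)) .nil)) (.cons 297 (.leaf 345 1991 (.cons 249 (.leaf 344 1990 (.cons 322 (.leaf 346 1996 (.cons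 225 (.leaf 298 1804 (.cons 201 (.leaf 177 1414 (.cons 202 (.leaf 178 1421 (.leaf 226 1613 .nil)) .nil)) .nil)) .nil)) .nil)) .nil)) (.cons 274 (.leaf 247 1979 (.cons 251 (.leaf 252 1985 (.cons 297 (.leaf 345 1991 (.cons 249 (.leaf 344 1990 (.cons 299 (.leaf 300 2176 (.cons 271 (.leaf 298 2168 (.cons 270 (.leaf 269 1961 (.cons 294 (.leaf 293 2154 (.leaf 295 2162 .nil)) .nil)) .nil)) .nil)) .nil)) .nil)) .nil)) .nil)) (.cons 274 (.leaf 247 1979 (.cons 297 (.leaf 345 1991 (.cons 344 (.leaf 249 1990 (.cons 299 (.leaf 300 2176 (.cons 251 (.leaf 252 1985 (.cons 323 (.cons 322 (.leaf 346 2006 (.leaf 343 2554 .nil)) (.cons 348 (.leaf 324 2012 (.cons 347 (.leaf 372 2204 (.cons 370 (.leaf 346 2198 (.cons 368 (.leaf 392 2373 (.cons 371 (.leaf 394 2390 (.leaf 369 2753 .nil)) .nil)) .nil)) .nil)) .nil)) (.cons 348 (.leaf 324 2012 (.cons 322 (.leaf 343 2554 (.leaf 347 2560 .nil)) .nil)) .nil)))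 .nil)) .nil)) .nil)) .nil)) .nil)) .nil))))
noncomputable def t139 : T := .cons 274 (.leaf 247 1979 (.cons 299 (.leaf 300 2176 (.cons 251 (.leaf 252 1985 (.cons 297 (.leaf 345 1991 (.cons 249 (.leaf 344 1990 (.cons 322 (.leaf 346 1996 (.cons 298 (.leaf 227 1814 (.leaf 319 2361 .nil)) .nil)) .nil)) .nil)) .nil)) .nil)) .nil)) (.cons 274 (.leaf 247 1979 (.cons 299 (.leaf 300 2176 (.cons 251 (.leaf 252 1985 (.cons 322 (.cons 323 (.leaf 346 2006 (.cons 348 (.leaf 324 2012 (.leaf 347 2560 .nil)) .nil)) (.cons 298 (.leaf 227 1814 (.leaf 319 2361 .nil)) .nil)) .nil)) .nil)) .nil)) (.cons 297 (.leaf 345 1991 (.cons 249 (.leaf 344 1990 (.cons 322 (.leaf 346 1996 (.cons 298 (.leaf 225 1804 (.cons 299 (.leaf 300 2370 (.leaf 319 2361 .nil)) .nil)) .nil)) .nil)) .nil)) (.cons 297 (.leaf 345 1991 (.cons 247 (.leaf 274 1979 (.cons 246 (.leaf 245 1960 (.cons 249 (.leaf 344 1990 (.cons 222 (.leaf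 221 1771 (.cons 225 (.leaf 226 1777 (.cons 201 (.leaf 177 1414 (.cons 200 (.leaf 176 1415 (.cons 202 (.leaf 178 1421 (.cons 199 (.leaf 223 1586 (.cons 175 (.leaf 174 1395 (.cons 270 (.leaf 269 1962 (.leaf 198 1397 .nil)) .nil)) .nil)) .nil)) .nil)) .nil)) .nil)) .nil)) .nil)) .nil)) .nil)) .nil)) .nil)))
noncomputable def t140 : T := .cons 249 (.leaf 269 1962 (.cons 222 (.leaf 221 1771 (.cons 225 (.leaf 226 1777 (.cons 201 (.leaf 177 1414 (.cons 202 (.leaf 178 1421 (.cons 200 (.leaf 176 1415 (.cons 199 (.leaf 223 1586 (.cons 175 (.leaf 198 1397 (.leaf 174 1395 .nil)) .nil)) .nil)) .nil)) .nil)) .nil)) .nil)) .nil)) (.cons 294 (.cons 318 (.leaf 223 1781 (.cons 319 (.leaf 293 2347 (.leaf 343 1972 .nil)) .nil)) (.cons 293 (.leaf 271 2154 (.cons 222 (.leaf 317 1774 (.cons 197 (.leaf 221 1583 (.cons 198 (.leaf 173 1391 (.leaf 269 1582 .nil)) .nil)) .nil)) .nil)) (.cons 223 (.leaf 318 1781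 (.cons 199 (.leaf 175 1404 (.leaf 271 1590 .nil)) .nil)) .nil))) (.cons 294 (.cons 293 (.leaf 271 2154 (.cons 222 (.leaf 317 1774 (.cons 221 (.leaf 249 1771 (.leaf 197 1583 .nil)) .nil)) .nil)) (.cons 223 (.leaf 318 1781 (.cons 199 (.leaf 175 1404 (.leaf 222 1589 .nil)) .nil)) (.cons 318 (.leaf 223 1781 (.cons 319 (.leaf 293 2347 (.leaf 343 1972 .nil)) .nil)) .nil))) (.cons 269 (.leaf 249 1962 (.cons 268 (.leaf 271 1953 (.leaf 267 1945 .nil)) .nil)) .nil)))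
noncomputable def t141 : T := .cons 297 (.leaf 345 1991 (.cons 322 (.cons 249 (.leaf 344 1990 (.leaf 346 1996 .nil)) (.cons 323 (.cons 299 (.leaf 300 2369 (.cons 348 (.leaf 347 2560 (.cons 324 (.leaf 251 2012 (.leaf 349 2568 .nil)) .nil)) .nil)) (.cons 343 (.leaf 344 2554 (.cons 319 (.leaf 342 2546 (.cons 295 (.leaf 271 1981 (.leaf 294 2355 .nil)) .nil)) .nil)) .nil)) (.cons 346 (.leaf 249 1996 (.cons 319 (.leaf 347 2552 (.cons 294 (.leaf 295 2355 (.cons 318 (.leaf 293 2347 (.cons 342 (.leaf 341 2538 (.leaf 343 2546 .nil)) .nil)) .nil)) .nil)) .nil)) .nil))) .nil)) (.cons 274 (.leaf 247 1979 (.cons 299 (.leaf 300 2176 (.cons 251 (.leaf 252 1985 (.cons 323 (.cons 322 (.leaf 346 2006 (.cons 348 (.leaf 324 2012 (.leaf 347 2560 .nil)) .nil)) (.cons 348 (.leaf 324 2012 (.cons 347 (.leaf 372 2204 (.cons 346 (.leaf 370 2198 (.leaf 345 2563 .nil)) .nil)) .nil)) (.cons 322 (.leaf 346 2006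 (.cons 343 (.leaf 344 2554 (.cons 319 (.leaf 342 2546 (.cons 295 (.leaf 271 1981 (.leaf 294 2355 .nil)) .nil)) .nil)) .nil)) (.cons 348 (.leaf 324 2012 (.cons 347 (.leaf 372 2204 (.leaf 322 2560 .nil)) .nil)) .nil)))) .nil)) .nil)) .nil)) (.cons 247 (.leaf 274 1979 (.cons 246 (.leaf 245 1960 (.cons 270 t140 .nil)) .nil)) (.cons 247 (.leaf 274 1979 (.cons 246 (.leaf 245 1960 (.cons 270 (.cons 249 (.leaf 269 1962 (.cons 297 (.leaf 345 1991 (.leaf 344 1990 .nil)) .nil)) (.cons 345 (.leaf 297 1991 (.cons 294 (.cons 223 (.leaf 318 1781 (.cons 293 (.leaf 271 2154 (.cons 222 (.leaf 199 1589 (.leaf 317 1774 .nil)) .nil)) .nil)) (.cons 293 (.leaf 271 2154 (.cons 222 (.leaf 317 1774 (.cons 197 (.leaf 221 1583 (.cons 198 (.leaf 173 1391 (.leaf 269 1582 .nil)) .nil)) .nil)) .nil)) (.cons 223 (.leaf 318 1781 (.cons 199 (.leaf 175 1404 (.leaf 222 1589 .nil)) .nil)) (.cons 223 (.leaf 318 1781 (.cons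 199 (.leaf 175 1404 (.leaf 271 1590 .nil)) .nil)) .nil)))) .nil)) (.cons 297 (.leaf 345 1991 (.cons 249 (.leaf 344 1990 (.cons 222 (.leaf 221 1771 (.cons 322 (.leaf 346 1996 (.cons 294 (.cons 223 (.leaf 318 1781 (.leaf 199 1589 .nil)) (.cons 293 (.leaf 271 2154 (.leaf 317 1774 .nil)) .nil)) .nil)) .nil)) .nil)) .nil)) (.cons 269 (.leaf 249 1962 (.cons 268 (.leaf 271 1953 (.leaf 267 1945 .nil)) .nil)) .nil)))) .nil)) .nil)) (.cons 297 (.leaf 345 1991 (.cons 247 (.leaf 274 1979 (.cons 246 (.leaf 245 1960 (.cons 249 (.leaf 344 1990 (.cons 222 (.leaf 221 1771 (.cons 225 (.leaf 226 1777 (.cons 201 (.leaf 177 1414 (.cons 200 (.leaf 176 1415 (.cons 202 (.leaf 178 1421 (.cons 199 (.leaf 223 1586 (.cons 175 (.leaf 174 1395 (.cons 270 (.leaf 269 1962 (.leaf 198 1397 .nil)) .nil)) .nil)) .nil)) .nil)) .nil)) .nil)) .nil)) .nil)) .nil)) .nil)) .nil)) .nil))))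
noncomputable def t142 : T := .cons 274 (.leaf 247 1979 (.cons 251 (.leaf 252 1985 (.cons 299 (.leaf 300 2176 (.cons 298 (.leaf 271 2168 (.cons 322 (.leaf 227 1814 (.leaf 346 2005 .nil)) .nil)) .nil)) .nil)) .nil)) (.cons 297 (.leaf 345 1991 (.cons 249 (.leaf 344 1990 (.cons 322 (.leaf 346 1996 (.cons 298 (.leaf 225 1804 (.cons 299 (.leaf 300 2370 (.leaf 319 2361 .nil)) .nil)) .nil)) .nil)) .nil)) (.cons 297 (.leaf 345 1991 (.cons 247 (.leaf 274 1979 (.cons 246 (.leaf 245 1960 (.cons 249 (.leaf 344 1990 (.cons 222 (.leaf 221 1771 (.cons 225 (.leaf 226 1777 (.cons 201 (.leaf 177 1414 (.cons 200 (.leaf 176 1415 (.cons 202 (.leaf 178 1421 (.cons 199 (.leaf 223 1586 (.cons 322 (.leaf 346 1996 (.leaf 298 1804 .nil)) .nil)) .nil)) .nil)) .nil)) .nil)) .nil)) .nil)) .nil)) .nil)) .nil)) (.cons 274 (.leaf 247 1979 (.cons 251 (.leaf 252 1985 (.cons 299 (.leaf 300 2176 (.cons 271 (.leaf 298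 2168 (.cons 294 (.leaf 295 2162 (.cons 270 (.leaf 293 2154 (.cons 245 (.leaf 246 1963 (.cons 269 (.leaf 244 1955 (.leaf 249 1961 .nil)) .nil)) .nil)) .nil)) .nil)) .nil)) .nil)) .nil)) (.cons 297 (.leaf 345 1991 (.cons 247 (.leaf 274 1979 (.cons 246 (.leaf 245 1960 (.cons 249 (.leaf 344 1990 (.cons 222 (.leaf 221 1771 (.cons 225 (.leaf 226 1777 (.cons 201 (.leaf 177 1414 (.cons 200 (.leaf 176 1415 (.cons 202 (.leaf 178 1421 (.cons 199 (.leaf 223 1586 (.cons 175 (.leaf 174 1395 (.cons 270 (.leaf 269 1962 (.leaf 198 1397 .nil)) .nil)) .nil)) .nil)) .nil)) .nil)) .nil)) .nil)) .nil)) .nil)) .nil)) .nil)) .nil))))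
noncomputable def t143 : T := .cons 297 (.leaf 345 1991 (.cons 344 (.leaf 249 1990 (.cons 368 (.leaf 392 2373 (.cons 298 (.cons 271 (.leaf 270 2160 (.cons 319 (.leaf 318 2353 (.cons 295 (.leaf 343 2172 (.leaf 247 1980 .nil)) .nil)) .nil)) (.cons 299 (.leaf 300 2370 (.cons 319 (.leaf 318 2353 (.leaf 322 2361 .nil)) .nil)) (.cons 299 (.leaf 300 2370 (.cons 271 (.leaf 270 2160 (.leaf 274 2168 .nil)) .nil)) .nil))) .nil)) .nil)) .nil)) (.cons 297 (.leaf 345 1991 (.cons 298 (.cons 249 (.leaf 344 1990 (.cons 299 (.leaf 300 2370 (.cons 225 (.leaf 322 1804 (.cons 201 (.leaf 177 1414 (.cons 202 (.leaf 178 1421 (.leaf 226 1613 .nil)) .nil)) .nil)) .nil)) .nil)) (.cons 249 (.leaf 344 1990 (.cons 225 (.leaf 322 1804 (.cons 201 (.leaf 177 1414 (.cons 202 (.leaf 178 1421 (.leaf 226 1613 .nil)) .nil)) .nil)) .nil)) (.cons 299 (.leaf 300 2370 (.cons 319 (.leaf 318 2353 (.leaf 322 2361 .nil)) .nil))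 (.cons 299 (.leaf 300 2370 (.cons 271 (.leaf 270 2160 (.cons 319 (.leaf 318 2353 (.cons 295 (.leaf 343 1981 (.cons 344 (.leaf 247 1980 (.leaf 249 1990 .nil)) .nil)) .nil)) .nil)) .nil)) .nil)))) .nil)) (.cons 274 (.leaf 247 1979 (.cons 251 (.leaf 252 1985 (.cons 299 (.leaf 300 2176 (.cons 271 (.leaf 298 2168 (.cons 294 (.leaf 295 2162 (.cons 270 (.leaf 293 2154 (.cons 245 (.leaf 246 1963 (.cons 269 (.leaf 244 1955 (.leaf 249 1961 .nil)) .nil)) .nil)) .nil)) .nil)) .nil)) .nil)) .nil)) (.cons 297 (.leaf 345 1991 (.cons 344 (.leaf 249 1990 (.cons 368 (.leaf 392 2373 (.cons 298 (.cons 271 (.leaf 270 2160 (.cons 319 (.leaf 318 2353 (.cons 295 (.leaf 343 2172 (.cons 299 (.leaf 274 2168 (.leaf 300 2370 .nil)) .nil)) .nil)) .nil)) (.cons 271 (.leaf 270 2160 (.cons 319 (.leaf 318 2353 (.cons 295 (.leaf 343 2172 (.cons 294 (.leaf 274 2162 (.leaf 322 2355 .nil)) .nil)) .nil)) .nil)) (.cons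 299 (.leaf 300 2370 (.cons 271 (.leaf 270 2160 (.leaf 274 2168 .nil)) .nil)) (.cons 299 (.leaf 300 2370 (.cons 319 (.leaf 318 2353 (.leaf 322 2361 .nil)) .nil)) .nil)))) .nil)) .nil)) .nil)) (.cons 297 (.leaf 345 1991 (.cons 247 (.leaf 274 1979 (.cons 246 (.leaf 245 1960 (.cons 319 (.cons 271 (.cons 270 (.leaf 298 2160 (.cons 269 (.leaf 249 1961 (.leaf 268 1953 .nil)) .nil)) (.cons 295 (.leaf 343 1981 (.leaf 344 1980 .nil)) .nil)) (.cons 271 (.cons 270 (.leaf 298 2160 (.cons 269 (.leaf 268 1953 (.cons 295 (.leaf 343 1981 (.leaf 344 1980 .nil)) .nil)) .nil)) (.cons 270 (.leaf 298 2160 (.cons 269 (.leaf 268 1953 (.cons 293 (.leaf 292 2146 (.leaf 294 2154 .nil)) .nil)) .nil)) (.cons 295 (.leaf 343 1981 (.leaf 344 1980 .nil)) .nil))) (.cons 318 (.leaf 298 2353 (.cons 293 (.leaf 294 2347 (.cons 317 (.leaf 292 2339 (.cons 341 (.leaf 340 2530 (.leaf 342 2538 .nil)) .nil)) .nil)) .nil)) (.cons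 249 (.leaf 344 1990 (.cons 222 (.leaf 221 1771 (.cons 225 (.leaf 226 1777 (.cons 177 (.leaf 201 1414 (.cons 270 (.leaf 269 1962 (.cons 295 (.leaf 271 1783 (.leaf 294 1780 .nil)) .nil)) .nil)) .nil)) .nil)) .nil)) .nil)))) .nil)) .nil)) .nil)) (.cons 297 (.leaf 345 1991 (.cons 247 (.leaf 274 1979 (.cons 246 (.leaf 245 1960 (.cons 249 (.leaf 344 1990 (.cons 222 (.leaf 221 1771 (.cons 225 (.leaf 226 1777 (.cons 201 (.leaf 177 1414 (.cons 200 (.leaf 176 1415 (.cons 202 (.leaf 178 1421 (.cons 199 (.leaf 223 1586 (.cons 175 (.leaf 174 1395 (.cons 270 (.leaf 269 1962 (.leaf 198 1397 .nil)) .nil)) .nil)) .nil)) .nil)) .nil)) .nil)) .nil)) .nil)) .nil)) .nil)) .nil)) (.cons 274 (.leaf 247 1979 (.cons 251 (.leaf 252 1985 (.cons 297 (.leaf 345 1991 (.cons 299 (.leaf 300 2176 (.cons 298 (.leaf 271 2168 (.cons 227 (.leaf 203 1622 (.leaf 322 1814 .nil)) .nil)) .nil)) .nil)) .nil)) .nil)) .nil))))))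
noncomputable def t144 : T := .cons 274 (.leaf 247 1979 (.cons 251 (.leaf 252 1985 (.cons 297 (.leaf 345 1991 (.cons 299 (.leaf 300 2176 (.cons 298 (.leaf 271 2168 (.cons 322 (.leaf 227 1814 (.leaf 346 2005 .nil)) .nil)) .nil)) .nil)) .nil)) .nil)) (.cons 297 (.leaf 345 1991 (.cons 322 (.cons 299 (.cons 298 (.leaf 300 2370 (.leaf 319 2361 .nil)) (.cons 323 (.leaf 300 2369 (.cons 348 (.leaf 347 2560 (.cons 324 (.leaf 251 2012 (.leaf 349 2568 .nil)) .nil)) .nil)) (.cons 319 (.leaf 298 2361 (.cons 294 (.leaf 295 2355 (.cons 318 (.leaf 293 2347 (.cons 342 (.leaf 341 2538 (.leaf 343 2546 .nil)) .nil)) .nil)) .nil)) .nil))) (.cons 346 (.leaf 249 1996 (.cons 319 (.leaf 347 2552 (.cons 294 (.leaf 295 2355 (.cons 318 (.leaf 293 2347 (.cons 342 (.leaf 341 2538 (.leaf 343 2546 .nil)) .nil)) .nil)) .nil)) .nil)) (.cons 346 (.leaf 249 1996 (.cons 370 (.leaf 394 2383 (.leaf 298 2191 .nil)) .nil))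 .nil))) .nil)) (.cons 274 (.leaf 247 1979 (.cons 251 (.leaf 252 1985 (.cons 299 (.leaf 300 2176 (.cons 298 (.leaf 271 2168 (.cons 322 (.leaf 227 1814 (.leaf 346 2005 .nil)) .nil)) .nil)) .nil)) .nil)) (.cons 247 (.leaf 274 1979 (.cons 246 (.leaf 245 1960 (.cons 270 (.cons 249 (.leaf 269 1962 (.cons 222 (.leaf 221 1771 (.cons 225 (.leaf 226 1777 (.cons 201 (.leaf 177 1414 (.cons 202 (.leaf 178 1421 (.cons 200 (.leaf 176 1415 (.cons 199 (.leaf 223 1586 (.cons 175 (.leaf 198 1397 (.leaf 174 1395 .nil)) .nil)) .nil)) .nil)) .nil)) .nil)) .nil)) .nil)) (.cons 294 (.cons 223 (.leaf 318 1781 (.cons 293 (.leaf 271 2154 (.cons 222 (.leaf 199 1589 (.leaf 317 1774 .nil)) .nil)) .nil)) (.cons 271 (.leaf 293 2154 (.cons 297 (.leaf 345 1991 (.leaf 298 2160 .nil)) .nil)) (.cons 318 (.leaf 223 1781 (.cons 319 (.leaf 293 2347 (.leaf 343 1972 .nil)) .nil)) (.cons 223 (.leaf 318 1781 (.cons 199 (.leaf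 175 1404 (.leaf 271 1590 .nil)) .nil)) .nil)))) (.cons 269 (.leaf 249 1962 (.cons 268 (.leaf 271 1953 (.leaf 267 1945 .nil)) .nil)) .nil))) .nil)) .nil)) (.cons 274 (.leaf 247 1979 (.cons 345 (.leaf 297 1991 (.cons 299 (.leaf 300 2176 (.cons 251 (.leaf 252 1985 (.cons 319 (.cons 346 (.leaf 318 2544 (.cons 322 (.leaf 323 2006 (.leaf 347 2552 .nil)) .nil)) (.cons 295 (.cons 271 (.leaf 343 1981 (.leaf 294 2162 .nil)) (.cons 343 (.leaf 271 1981 (.cons 342 (.leaf 322 2546 (.cons 341 (.leaf 318 2538 (.leaf 340 2529 .nil)) .nil)) .nil)) (.cons 294 (.leaf 322 2355 (.cons 293 (.leaf 292 2336 (.leaf 318 2347 .nil)) .nil)) .nil))) (.cons 322 (.cons 346 (.leaf 323 2006 (.leaf 347 2552 .nil)) (.cons 295 (.leaf 294 2355 (.cons 343 (.leaf 271 1981 (.leaf 342 2546 .nil)) .nil)) .nil)) (.cons 318 (.leaf 346 2544 (.cons 293 (.leaf 294 2347 (.cons 317 (.leaf 292 2339 (.cons 341 (.leaf 340 2530 (.leaf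 342 2538 .nil)) .nil)) .nil)) .nil)) .nil)))) .nil)) .nil)) .nil)) .nil)) .nil))))
noncomputable def t145 : T := .cons 269 (.leaf 249 1962 (.cons 268 (.leaf 271 1953 (.leaf 267 1945 .nil)) .nil)) (.cons 294 (.cons 223 (.leaf 318 1781 (.cons 293 (.leaf 271 2154 (.cons 222 (.leaf 199 1589 (.leaf 317 1774 .nil)) .nil)) .nil)) (.cons 293 (.leaf 271 2154 (.cons 222 (.leaf 317 1774 (.cons 221 (.leaf 249 1771 (.leaf 197 1583 .nil)) .nil)) .nil)) (.cons 223 (.leaf 318 1781 (.cons 199 (.leaf 175 1404 (.leaf 222 1589 .nil)) .nil)) (.cons 223 (.leaf 318 1781 (.cons 199 (.leaf 175 1404 (.leaf 271 1590 .nil)) .nil)) .nil)))) (.cons 294 (.cons 223 (.leaf 318 1781 (.cons 293 (.leaf 271 2154 (.cons 222 (.leaf 199 1589 (.leaf 317 1774 .nil)) .nil)) .nil)) (.cons 293 (.leaf 271 2154 (.cons 222 (.leaf 317 1774 (.cons 197 (.leaf 221 1583 (.cons 198 (.leaf 173 1391 (.leaf 269 1582 .nil)) .nil)) .nil))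 .nil)) (.cons 223 (.leaf 318 1781 (.cons 199 (.leaf 175 1404 (.leaf 222 1589 .nil)) .nil)) (.cons 223 (.leaf 318 1781 (.cons 199 (.leaf 175 1404 (.leaf 271 1590 .nil)) .nil)) .nil)))) (.cons 249 (.leaf 269 1962 (.cons 222 (.leaf 221 1771 (.cons 225 (.leaf 226 1777 (.cons 201 (.leaf 177 1414 (.cons 202 (.leaf 178 1421 (.cons 200 (.leaf 176 1415 (.cons 199 (.leaf 223 1586 (.cons 175 (.leaf 198 1397 (.leaf 174 1395 .nil)) .nil)) .nil)) .nil)) .nil)) .nil)) .nil)) .nil)) .nil)))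
noncomputable def t146 : T := .cons 247 (.leaf 274 1979 (.cons 245 (.leaf 246 1960 (.cons 297 (.leaf 345 1991 (.cons 271 (.cons 270 (.leaf 298 2160 (.cons 269 (.leaf 244 1955 (.leaf 249 1961 .nil)) .nil)) (.cons 344 (.leaf 249 1990 (.cons 319 (.leaf 295 1980 (.cons 318 (.leaf 298 2353 (.cons 293 (.leaf 294 2347 (.cons 317 (.leaf 292 2339 (.cons 341 (.leaf 340 2530 (.leaf 342 2538 .nil)) .nil)) .nil)) .nil)) .nil)) .nil)) (.cons 270 (.leaf 298 2160 (.cons 269 (.leaf 244 1955 (.leaf 268 1953 .nil)) .nil)) (.cons 249 (.leaf 344 1990 (.cons 270 (.leaf 269 1961 (.cons 294 (.leaf 293 2154 (.cons 199 (.leaf 223 1590 (.cons 322 (.leaf 346 1996 (.cons 319 (.leaf 295 2355 (.cons 342 (.leaf 343 2546 (.leaf 318 1973 .nil)) .nil)) .nil)) .nil)) .nil)) .nil)) .nil)) .nil)))) .nil)) .nil)) .nil)) (.cons 247 (.leaf 274 1979 (.cons 246 (.leaf 245 1960 (.cons 270 t145 .nil)) .nil)) (.cons 297 (.leaf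 345 1991 (.cons 249 (.leaf 344 1990 (.cons 322 (.leaf 346 1996 (.cons 225 (.leaf 298 1804 (.cons 201 (.leaf 177 1414 (.cons 202 (.leaf 178 1421 (.leaf 226 1613 .nil)) .nil)) .nil)) .nil)) .nil)) .nil)) (.cons 247 (.leaf 274 1979 (.cons 297 (.leaf 345 1991 (.cons 246 (.leaf 245 1960 (.cons 319 (.cons 318 (.leaf 298 2353 (.cons 293 (.leaf 294 2347 (.cons 317 (.leaf 292 2339 (.cons 341 (.leaf 340 2530 (.leaf 342 2538 .nil)) .nil)) .nil)) .nil)) (.cons 271 (.cons 270 (.leaf 298 2160 (.cons 269 (.leaf 268 1953 (.cons 295 (.leaf 343 1981 (.leaf 344 1980 .nil)) .nil)) .nil)) (.cons 270 (.leaf 298 2160 (.cons 269 (.leaf 268 1953 (.cons 293 (.leaf 292 2146 (.leaf 294 2154 .nil)) .nil)) .nil)) (.cons 295 (.leaf 343 1981 (.leaf 344 1980 .nil)) .nil))) (.cons 295 (.cons 271 (.leaf 343 1981 (.leaf 344 1980 .nil)) (.cons 294 (.leaf 322 2355 (.cons 293 (.leaf 292 2336 (.leaf 318 2347 .nil)) .nil))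 .nil)) (.cons 298 (.leaf 318 2353 (.cons 271 (.leaf 270 2160 (.cons 295 (.leaf 343 1981 (.leaf 344 1980 .nil)) .nil)) .nil)) .nil)))) .nil)) .nil)) .nil)) .nil)))
noncomputable def t147 : T := .leaf 345 1991 (.cons 271 (.cons 298 (.leaf 270 2160 (.cons 319 (.leaf 318 2353 (.cons 299 (.leaf 300 2370 (.cons 295 (.leaf 343 1981 (.cons 344 (.leaf 247 1980 (.leaf 249 1990 .nil)) .nil)) .nil)) .nil)) .nil)) (.cons 344 (.leaf 249 1990 (.cons 368 (.leaf 392 2373 (.cons 319 (.cons 295 (.leaf 343 2172 (.leaf 247 1980 .nil)) (.cons 318 (.leaf 298 2353 (.cons 293 (.leaf 294 2347 (.cons 317 (.leaf 292 2339 (.cons 341 (.leaf 340 2530 (.leaf 342 2538 .nil)) .nil)) .nil)) .nil)) .nil)) .nil)) .nil)) (.cons 249 (.leaf 344 1990 (.cons 270 (.leaf 269 1961 (.cons 246 (.leaf 245 1963 (.cons 294 (.leaf 293 2154 (.cons 222 (.cons 221 (.leaf 247 1771 (.leaf 197 1583 .nil)) (.cons 295 (.leaf 198 1588 (.leaf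 319 1780 .nil)) .nil)) .nil)) .nil)) .nil)) .nil)) (.cons 270 (.leaf 298 2160 (.cons 245 (.leaf 246 1963 (.cons 269 (.leaf 244 1955 (.leaf 249 1961 .nil)) .nil)) .nil)) (.cons 270 (.leaf 298 2160 (.cons 245 (.leaf 246 1963 (.cons 269 (.leaf 244 1955 (.cons 293 (.leaf 292 2146 (.leaf 294 2154 .nil)) .nil)) .nil)) .nil)) .nil))))) .nil)
noncomputable def t148 : T := .cons 295 (.leaf 322 2355 (.cons 271 (.leaf 343 1981 (.cons 247 (.leaf 344 1980 (.cons 318 (.leaf 293 2347 (.leaf 342 1974 .nil)) .nil)) .nil)) .nil)) (.cons 318 (.leaf 293 2347 (.cons 342 (.leaf 341 2538 (.cons 343 (.leaf 322 2546 (.cons 270 (.leaf 246 1972 (.leaf 367 2164 .nil)) .nil)) .nil)) .nil)) (.cons 295 (.leaf 322 2355 (.cons 271 (.leaf 343 1981 (.cons 292 (.leaf 293 2336 (.cons 247 (.leaf 344 1980 (.cons 222 (.leaf 246 1783 (.cons 223 (.leaf 198 1591 (.cons 199 (.leaf 175 1404 (.leaf 270 1590 .nil)) .nil)) .nil))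 .nil)) .nil)) .nil)) .nil)) (.cons 293 (.leaf 318 2347 (.cons 295 (.leaf 292 2336 (.cons 271 (.leaf 343 1981 (.cons 247 (.leaf 344 1980 (.cons 270 (.leaf 273 2154 (.cons 222 (.leaf 246 1780 (.cons 223 (.leaf 199 1590 (.leaf 198 1591 .nil)) .nil)) .nil)) .nil)) .nil)) .nil)) .nil)) (.cons 322 (.leaf 295 2355 (.cons 343 (.leaf 342 2546 (.cons 323 (.leaf 344 2554 (.cons 347 (.leaf 346 2552 (.leaf 348 2560 .nil)) .nil)) .nil)) .nil)) (.cons 293 (.leaf 318 2347 (.cons 295 (.leaf 292 2336 (.leaf 322 2355 .nil)) .nil)) .nil)))))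
noncomputable def t149 : T := .cons 294 (.cons 295 (.leaf 322 2355 (.cons 271 (.leaf 343 1981 (.cons 247 (.leaf 344 1980 (.cons 318 (.leaf 293 2347 (.leaf 298 2353 .nil)) .nil)) .nil)) .nil)) (.cons 295 (.leaf 322 2355 (.cons 271 (.leaf 343 1981 (.cons 292 (.leaf 293 2336 (.cons 247 (.leaf 344 1980 (.cons 222 (.leaf 246 1783 (.cons 223 (.leaf 198 1591 (.cons 199 (.leaf 175 1404 (.leaf 270 1590 .nil)) .nil)) .nil)) .nil)) .nil)) .nil)) .nil)) (.cons 318 (.leaf 293 2347 (.leaf 298 2353 .nil)) (.cons 295 (.leaf 322 2355 (.cons 271 (.leaf 343 1981 (.cons 247 (.leaf 344 1980 (.cons 318 (.leaf 298 2353 (.leaf 342 1974 .nil)) .nil)) .nil)) .nil)) .nil)))) (.cons 322 (.cons 294 (.leaf 295 2355 (.cons 298 (.leaf 299 2361 (.cons 346 (.leaf 347 2552 (.cons 273 (.leaf 249 1996 (.leaf 370 2191 .nil)) .nil)) .nil)) .nil)) (.cons 343 (.leaf 342 2546 (.cons 295 (.leaf 271 1981 (.leaf 294 2355 .nil))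 .nil)) (.cons 298 (.leaf 299 2361 (.cons 343 (.leaf 342 2546 (.cons 323 (.leaf 344 2554 (.cons 347 (.leaf 346 2552 (.leaf 348 2560 .nil)) .nil)) .nil)) .nil)) .nil))) (.cons 294 t148 (.cons 318 (.leaf 298 2353 (.cons 293 (.leaf 294 2347 (.cons 317 (.leaf 292 2339 (.cons 341 (.leaf 340 2530 (.leaf 342 2538 .nil)) .nil)) .nil)) .nil)) (.cons 298 (.leaf 318 2353 (.cons 299 (.leaf 300 2370 (.leaf 322 2361 .nil)) .nil)) .nil))))
noncomputable def t150 : T := .cons 322 (.cons 294 (.leaf 295 2355 (.cons 299 (.leaf 298 2361 (.cons 323 (.leaf 300 2369 (.cons 343 (.leaf 342 2546 (.leaf 344 2554 .nil)) .nil)) .nil)) .nil)) (.cons 294 (.leaf 295 2355 (.cons 293 (.leaf 318 2347 (.cons 343 (.leaf 342 2546 (.cons 323 (.leaf 344 2554 (.cons 299 (.leaf 300 2369 (.cons 348 (.leaf 347 2560 (.cons 324 (.leaf 251 2012 (.leaf 349 2568 .nil)) .nil)) .nil)) .nil)) .nil)) .nil)) .nil)) (.cons 298 (.leaf 318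 2353 (.leaf 299 2361 .nil)) (.cons 294 (.leaf 295 2355 (.cons 318 (.leaf 293 2347 (.leaf 298 2353 .nil)) .nil)) .nil)))) (.cons 322 (.cons 294 (.leaf 295 2355 (.cons 298 (.leaf 299 2361 (.cons 343 (.leaf 342 2546 (.cons 323 (.leaf 344 2554 (.cons 324 (.leaf 325 2379 (.cons 348 (.leaf 347 2560 (.leaf 349 2568 .nil)) .nil)) .nil)) .nil)) .nil)) .nil)) (.cons 343 (.leaf 342 2546 (.cons 295 (.leaf 271 1981 (.leaf 294 2355 .nil)) .nil)) (.cons 299 (.leaf 298 2361 (.cons 294 (.leaf 295 2355 (.cons 323 (.leaf 300 2369 (.cons 346 (.leaf 251 2006 (.leaf 347 2552 .nil)) .nil)) .nil)) .nil)) (.cons 299 (.leaf 298 2361 (.cons 323 (.leaf 300 2369 (.cons 343 (.leaf 342 2546 (.leaf 344 2554 .nil)) .nil)) .nil)) .nil)))) (.cons 322 (.cons 294 (.leaf 295 2355 (.cons 318 (.leaf 293 2347 (.cons 342 (.leaf 341 2538 (.leaf 343 2546 .nil)) .nil)) .nil)) (.cons 294 (.leaf 295 2355 (.cons 318 (.leaf 293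 2347 (.cons 346 (.leaf 345 2544 (.leaf 347 2552 .nil)) .nil)) .nil)) (.cons 342 (.leaf 343 2546 (.cons 318 (.leaf 341 2538 (.cons 346 (.leaf 345 2544 (.leaf 347 2552 .nil)) .nil)) .nil)) (.cons 343 (.leaf 342 2546 (.cons 295 (.leaf 271 1981 (.leaf 294 2355 .nil)) .nil)) .nil)))) (.cons 318 (.leaf 298 2353 (.cons 341 (.leaf 342 2538 (.cons 317 (.leaf 340 2530 (.cons 345 (.leaf 344 2536 (.leaf 346 2544 .nil)) .nil)) .nil)) .nil)) (.cons 318 (.leaf 298 2353 (.cons 293 (.leaf 294 2347 (.cons 317 (.leaf 292 2339 (.cons 340 (.leaf 341 2530 (.cons 316 (.leaf 339 2522 (.cons 344 (.leaf 345 2536 (.leaf 343 2528 .nil)) .nil)) .nil)) .nil)) .nil)) .nil)) .nil))))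
noncomputable def t151 : T := .cons 273 (.leaf 345 1991 (.cons 322 (.cons 346 (.leaf 249 1996 (.cons 319 (.leaf 347 2552 (.cons 298 (.leaf 318 2353 (.leaf 299 2361 .nil)) .nil)) .nil)) (.cons 323 (.cons 299 (.leaf 300 2369 (.cons 348 (.leaf 347 2560 (.cons 324 (.leaf 251 2012 (.leaf 349 2568 .nil)) .nil)) .nil)) (.cons 343 (.leaf 344 2554 (.cons 319 (.leaf 342 2546 (.cons 295 (.leaf 271 1981 (.leaf 294 2355 .nil)) .nil)) .nil)) .nil)) (.cons 249 (.leaf 344 1990 (.leaf 346 1996 .nil)) .nil))) .nil)) (.cons 319 t150 (.cons 319 t149 (.cons 273 (.leaf 345 1991 (.cons 249 (.leaf 344 1990 (.cons 322 (.leaf 346 1996 (.cons 225 (.leaf 298 1804 (.cons 201 (.leaf 177 1414 (.cons 202 (.leaf 226 1613 (.leaf 178 1421 .nil)) .nil)) .nil)) .nil)) .nil)) .nil)) (.cons 273 (.leaf 345 1991 (.cons 322 (.cons 346 (.leaf 249 1996 (.cons 319 (.leaf 347 2552 (.cons 298 (.leaf 318 2353 (.leaf 299 2361 .nil))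 .nil)) .nil)) (.cons 299 (.cons 298 (.leaf 300 2370 (.leaf 319 2361 .nil)) (.cons 323 (.leaf 300 2369 (.cons 348 (.leaf 347 2560 (.cons 324 (.leaf 251 2012 (.leaf 349 2568 .nil)) .nil)) .nil)) (.cons 319 (.leaf 298 2361 (.cons 294 (.leaf 295 2355 (.cons 318 (.leaf 293 2347 (.cons 342 (.leaf 341 2538 (.leaf 343 2546 .nil)) .nil)) .nil)) .nil)) .nil))) (.cons 346 (.leaf 249 1996 (.cons 319 (.leaf 347 2552 (.cons 294 (.leaf 295 2355 (.cons 318 (.leaf 293 2347 (.cons 342 (.leaf 341 2538 (.leaf 343 2546 .nil)) .nil)) .nil)) .nil)) .nil)) (.cons 346 (.leaf 249 1996 (.cons 370 (.leaf 394 2383 (.leaf 298 2191 .nil)) .nil)) .nil)))) .nil)) (.cons 273 (.leaf 345 1991 (.cons 322 (.cons 323 (.cons 299 (.leaf 300 2369 (.cons 348 (.leaf 347 2560 (.cons 324 (.leaf 251 2012 (.leaf 349 2568 .nil)) .nil)) .nil)) (.cons 343 (.leaf 344 2554 (.cons 319 (.leaf 342 2546 (.cons 295 (.leaf 271 1981 (.leaf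 294 2355 .nil)) .nil)) .nil)) .nil)) (.cons 346 (.leaf 249 1996 (.cons 319 (.leaf 347 2552 (.cons 294 (.leaf 295 2355 (.cons 318 (.leaf 293 2347 (.cons 342 (.leaf 341 2538 (.leaf 343 2546 .nil)) .nil)) .nil)) .nil)) .nil)) (.cons 249 (.leaf 344 1990 (.leaf 346 1996 .nil)) .nil))) .nil)) (.cons 273 t147 .nil))))))
noncomputable def t152 : T := .cons 298 (.leaf 318 2353 (.cons 299 (.leaf 300 2370 (.leaf 322 2361 .nil)) .nil)) (.cons 322 (.cons 343 (.leaf 342 2546 (.cons 295 (.leaf 271 1981 (.leaf 294 2355 .nil)) .nil)) (.cons 294 (.leaf 295 2355 (.cons 298 (.leaf 299 2361 (.cons 346 (.leaf 347 2552 (.cons 273 (.leaf 249 1996 (.leaf 370 2191 .nil)) .nil)) .nil)) .nil)) (.cons 298 (.leaf 299 2361 (.cons 343 (.leaf 342 2546 (.cons 323 (.leaf 344 2554 (.cons 347 (.leaf 346 2552 (.leaf 348 2560 .nil)) .nil)) .nil)) .nil)) .nil))) (.cons 294 (.cons 295 (.leaf 322 2355 (.cons 271 (.leaf 343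 1981 (.cons 273 (.leaf 274 2162 (.cons 249 (.leaf 344 1990 (.cons 270 (.leaf 269 1961 (.leaf 293 2154 .nil)) .nil)) .nil)) .nil)) .nil)) (.cons 318 (.leaf 293 2347 (.cons 342 (.leaf 341 2538 (.cons 343 (.leaf 322 2546 (.cons 270 (.leaf 246 1972 (.leaf 367 2164 .nil)) .nil)) .nil)) .nil)) (.cons 293 (.leaf 318 2347 (.cons 295 (.leaf 292 2336 (.cons 271 (.leaf 343 1981 (.cons 273 (.leaf 270 2154 (.leaf 274 2162 .nil)) .nil)) .nil)) .nil)) (.cons 322 (.leaf 295 2355 (.cons 343 (.leaf 342 2546 (.cons 323 (.leaf 344 2554 (.cons 347 (.leaf 346 2552 (.leaf 348 2560 .nil)) .nil)) .nil)) .nil)) (.cons 293 (.leaf 318 2347 (.cons 295 (.leaf 292 2336 (.leaf 322 2355 .nil)) .nil)) .nil))))) (.cons 318 (.leaf 298 2353 (.cons 293 (.leaf 294 2347 (.cons 317 (.leaf 292 2339 (.cons 341 (.leaf 340 2530 (.leaf 342 2538 .nil)) .nil)) .nil)) .nil)) .nil)))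
noncomputable def t153 : T := .cons 318 (.leaf 298 2353 (.cons 341 (.leaf 342 2538 (.cons 317 (.leaf 340 2530 (.cons 345 (.leaf 344 2536 (.leaf 346 2544 .nil)) .nil)) .nil)) .nil)) (.cons 322 (.cons 298 (.leaf 299 2361 (.cons 346 (.leaf 347 2552 (.cons 274 (.leaf 251 2005 (.cons 369 (.leaf 345 2189 (.cons 370 (.leaf 394 2383 (.leaf 393 2382 .nil)) .nil)) .nil)) .nil)) .nil)) (.cons 294 (.leaf 295 2355 (.cons 343 (.leaf 342 2546 (.cons 323 (.leaf 344 2554 (.cons 347 (.leaf 346 2552 (.leaf 348 2560 .nil)) .nil)) .nil)) .nil)) (.cons 294 (.leaf 295 2355 (.cons 299 (.leaf 298 2361 (.cons 323 (.leaf 300 2369 (.cons 343 (.leaf 342 2546 (.leaf 344 2554 .nil)) .nil)) .nil)) .nil)) .nil))) (.cons 322 (.cons 294 (.leaf 295 2355 (.cons 318 (.leaf 293 2347 (.cons 342 (.leaf 341 2538 (.leaf 343 2546 .nil)) .nil)) .nil)) (.cons 346 (.leaf 347 2552 (.cons 294 (.leaf 295 2355 (.cons 318 (.leaf 293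 2347 (.leaf 345 2544 .nil)) .nil)) .nil)) (.cons 342 (.leaf 343 2546 (.cons 318 (.leaf 341 2538 (.cons 346 (.leaf 345 2544 (.leaf 347 2552 .nil)) .nil)) .nil)) (.cons 343 (.leaf 342 2546 (.cons 295 (.leaf 271 1981 (.leaf 294 2355 .nil)) .nil)) .nil)))) (.cons 318 (.leaf 298 2353 (.cons 293 (.leaf 294 2347 (.cons 317 (.leaf 292 2339 (.cons 344 (.leaf 345 2536 (.cons 343 (.leaf 316 2528 (.cons 322 (.leaf 342 2546 (.leaf 323 2554 .nil)) .nil)) .nil)) .nil)) .nil)) .nil)) (.cons 318 (.leaf 298 2353 (.cons 293 (.leaf 294 2347 (.cons 317 (.leaf 292 2339 (.cons 341 (.leaf 340 2530 (.leaf 342 2538 .nil)) .nil)) .nil)) .nil)) (.cons 318 (.leaf 298 2353 (.cons 293 (.leaf 294 2347 (.cons 317 (.leaf 292 2339 (.cons 340 (.leaf 341 2530 (.cons 316 (.leaf 339 2522 (.cons 344 (.leaf 345 2536 (.leaf 343 2528 .nil)) .nil)) .nil)) .nil)) .nil)) .nil)) .nil)))))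
noncomputable def t154 : T := .cons 273 (.leaf 345 1991 (.cons 249 (.leaf 344 1990 (.cons 322 (.leaf 346 1996 (.cons 298 (.leaf 225 1804 (.cons 299 (.leaf 300 2370 (.leaf 319 2361 .nil)) .nil)) .nil)) .nil)) .nil)) (.cons 319 t153 (.cons 319 t152 (.cons 273 (.leaf 345 1991 (.cons 322 (.cons 249 (.leaf 344 1990 (.leaf 346 1996 .nil)) (.cons 323 (.cons 299 (.leaf 300 2369 (.cons 348 (.leaf 347 2560 (.cons 324 (.leaf 251 2012 (.leaf 349 2568 .nil)) .nil)) .nil)) (.cons 343 (.leaf 344 2554 (.cons 319 (.leaf 342 2546 (.cons 295 (.leaf 271 1981 (.leaf 294 2355 .nil)) .nil)) .nil)) .nil)) (.cons 346 (.leaf 249 1996 (.cons 319 (.leaf 347 2552 (.cons 294 (.leaf 295 2355 (.cons 318 (.leaf 293 2347 (.cons 342 (.leaf 341 2538 (.leaf 343 2546 .nil)) .nil)) .nil)) .nil)) .nil)) .nil))) .nil)) (.cons 273 (.leaf 345 1991 (.cons 249 (.leaf 344 1990 (.cons 322 (.leaf 346 1996 (.cons 225 (.leaf 298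 1804 (.cons 201 (.leaf 177 1414 (.cons 202 (.leaf 226 1613 (.leaf 178 1421 .nil)) .nil)) .nil)) .nil)) .nil)) .nil)) (.cons 273 (.leaf 345 1991 (.cons 298 (.cons 299 (.leaf 300 2370 (.cons 319 (.leaf 318 2353 (.leaf 322 2361 .nil)) .nil)) (.cons 319 (.leaf 318 2353 (.cons 271 (.leaf 270 2160 (.cons 295 (.leaf 343 1981 (.cons 294 (.leaf 274 2162 (.leaf 322 2355 .nil)) .nil)) .nil)) .nil)) (.cons 299 (.leaf 300 2370 (.cons 271 (.leaf 270 2160 (.leaf 274 2168 .nil)) .nil)) .nil))) .nil)) (.cons 273 (.leaf 345 1991 (.cons 249 (.leaf 344 1990 (.cons 271 (.cons 270 (.leaf 269 1961 (.leaf 298 2160 .nil)) (.cons 319 (.cons 298 (.leaf 318 2353 (.cons 295 (.leaf 343 1981 (.cons 274 (.leaf 294 2162 (.leaf 299 2168 .nil)) .nil)) .nil)) (.cons 295 (.leaf 343 1981 (.cons 294 (.leaf 274 2162 (.cons 293 (.leaf 292 2336 (.leaf 318 2347 .nil)) .nil)) .nil)) (.cons 295 (.leaf 343 1981 (.cons 274 (.leaf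 294 2162 (.cons 299 (.leaf 300 2176 (.leaf 298 2168 .nil)) .nil)) .nil)) (.cons 298 (.leaf 318 2353 (.cons 299 (.leaf 274 2168 (.leaf 300 2370 .nil)) .nil)) (.cons 318 (.leaf 298 2353 (.cons 293 (.leaf 294 2347 (.cons 295 (.leaf 343 1981 (.cons 317 (.leaf 292 2339 (.cons 341 (.leaf 340 2530 (.leaf 342 2538 .nil)) .nil)) .nil)) .nil)) .nil)) .nil))))) (.cons 270 (.leaf 269 1961 (.cons 246 (.leaf 245 1963 (.cons 294 (.leaf 293 2154 (.cons 295 (.leaf 274 2162 (.cons 319 (.leaf 343 1981 (.leaf 222 1780 .nil)) .nil)) .nil)) .nil)) .nil)) .nil))) .nil)) .nil)) .nil))))))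
noncomputable def t155 : T := .cons 294 (.leaf 295 2355 (.cons 293 (.leaf 318 2347 (.cons 298 (.leaf 299 2361 (.cons 346 (.leaf 347 2552 (.cons 274 (.leaf 251 2005 (.cons 273 (.leaf 247 1979 (.leaf 249 1999 .nil)) .nil)) .nil)) .nil)) .nil)) .nil)) (.cons 299 (.leaf 298 2361 (.cons 294 (.leaf 295 2355 (.cons 293 (.leaf 318 2347 (.cons 323 (.leaf 300 2369 (.cons 348 (.leaf 347 2560 (.cons 324 (.leaf 251 2012 (.leaf 349 2568 .nil)) .nil)) .nil)) .nil)) .nil)) .nil)) (.cons 346 (.leaf 347 2552 (.cons 294 (.leaf 295 2355 (.cons 318 (.leaf 293 2347 (.leaf 345 2544 .nil)) .nil)) .nil)) (.cons 299 (.leaf 298 2361 (.cons 294 (.leaf 295 2355 (.cons 293 (.leaf 318 2347 (.cons 323 (.leaf 300 2369 (.cons 251 (.leaf 346 2006 (.cons 228 (.leaf 252 1821 (.cons 204 (.leaf 227 1629 (.cons 324 (.leaf 348 2012 (.cons 344 (.leaf 343 2554 (.leaf 345 2562 .nil)) .nil)) .nil)) .nil)) .nil)) .nil)) .nil))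 .nil)) .nil)) (.cons 346 (.leaf 347 2552 (.cons 298 (.leaf 299 2361 (.cons 274 (.leaf 251 2005 (.cons 273 (.leaf 247 1979 (.leaf 249 1999 .nil)) .nil)) .nil)) .nil)) .nil))))
noncomputable def t156 : T := .cons 322 (.cons 298 (.leaf 299 2361 (.cons 346 (.leaf 347 2552 (.cons 274 (.leaf 251 2005 (.cons 273 (.leaf 247 1979 (.leaf 249 1999 .nil)) .nil)) .nil)) .nil)) (.cons 294 (.leaf 295 2355 (.cons 318 (.leaf 293 2347 (.cons 342 (.leaf 341 2538 (.leaf 343 2546 .nil)) .nil)) .nil)) .nil)) (.cons 318 (.cons 345 (.leaf 346 2544 (.cons 317 (.leaf 344 2536 (.cons 341 (.leaf 340 2530 (.leaf 342 2538 .nil)) .nil)) .nil)) (.cons 345 (.leaf 346 2544 (.cons 293 (.leaf 294 2347 (.cons 317 (.leaf 292 2339 (.leaf 344 2536 .nil)) .nil)) .nil)) (.cons 341 (.leaf 342 2538 (.cons 293 (.leaf 294 2347 (.cons 317 (.leaf 292 2339 (.leaf 340 2530 .nil)) .nil)) .nil)) (.cons 342 (.leaf 341 2538 (.cons 294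 (.leaf 293 2347 (.cons 345 (.leaf 346 2544 (.cons 270 (.cons 343 (.leaf 246 1972 (.leaf 367 2164 .nil)) (.cons 245 (.leaf 269 1967 (.cons 246 (.leaf 221 1775 (.cons 247 (.leaf 273 1960 (.leaf 223 1781 .nil)) .nil)) .nil)) (.cons 245 (.leaf 269 1967 (.cons 247 (.leaf 271 1973 (.cons 367 (.leaf 343 2164 (.cons 366 (.leaf 391 2356 (.cons 273 (.leaf 274 1979 (.cons 389 (.leaf 365 2350 (.cons 390 (.leaf 295 2357 (.leaf 413 2542 .nil)) .nil)) .nil)) .nil)) .nil)) .nil)) .nil)) .nil))) .nil)) .nil)) .nil)) .nil)))) (.cons 322 (.cons 294 (.leaf 295 2355 (.cons 299 (.leaf 298 2361 (.cons 323 (.leaf 300 2369 (.cons 343 (.leaf 342 2546 (.leaf 344 2554 .nil)) .nil)) .nil)) .nil)) (.cons 299 (.leaf 298 2361 (.cons 294 (.leaf 295 2355 (.cons 323 (.leaf 300 2369 (.cons 346 (.leaf 251 2006 (.leaf 347 2552 .nil)) .nil)) .nil)) .nil)) (.cons 294 (.leaf 295 2355 (.cons 343 (.leaf 342 2546 (.cons 323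 (.leaf 344 2554 (.cons 347 (.leaf 346 2552 (.leaf 348 2560 .nil)) .nil)) .nil)) .nil)) (.cons 299 (.leaf 298 2361 (.cons 323 (.leaf 300 2369 (.cons 343 (.leaf 342 2546 (.leaf 344 2554 .nil)) .nil)) .nil)) (.cons 343 (.leaf 342 2546 (.cons 295 (.leaf 271 1981 (.leaf 294 2355 .nil)) .nil)) .nil))))) (.cons 318 (.cons 293 (.leaf 294 2347 (.cons 341 (.leaf 342 2538 (.cons 317 (.leaf 292 2339 (.leaf 340 2530 .nil)) .nil)) .nil)) (.cons 345 (.leaf 346 2544 (.cons 317 (.leaf 344 2536 (.cons 341 (.leaf 340 2530 (.leaf 342 2538 .nil)) .nil)) .nil)) (.cons 293 (.leaf 294 2347 (.cons 317 (.leaf 292 2339 (.cons 345 (.leaf 344 2536 (.leaf 346 2544 .nil)) .nil)) .nil)) (.cons 293 (.leaf 294 2347 (.cons 341 (.leaf 342 2538 (.cons 346 (.leaf 345 2544 (.cons 322 (.leaf 347 2552 (.cons 298 (.leaf 299 2361 (.cons 274 (.leaf 251 2005 (.cons 273 (.leaf 247 1979 (.leaf 249 1999 .nil)) .nil)) .nil)) .nil))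 .nil)) .nil)) .nil)) .nil)))) (.cons 322 t155 (.cons 322 (.cons 294 (.leaf 295 2355 (.cons 318 (.leaf 293 2347 (.cons 342 (.leaf 341 2538 (.leaf 343 2546 .nil)) .nil)) .nil)) (.cons 294 (.leaf 295 2355 (.cons 318 (.leaf 293 2347 (.cons 299 (.leaf 298 2361 (.cons 323 (.leaf 300 2369 (.cons 341 (.leaf 342 2538 (.cons 317 (.leaf 340 2530 (.cons 246 (.leaf 270 1966 (.cons 344 (.leaf 345 2536 (.cons 348 (.leaf 347 2560 (.cons 324 (.leaf 251 2012 (.leaf 349 2568 .nil)) .nil)) .nil)) .nil)) .nil)) .nil)) .nil)) .nil)) .nil)) .nil)) (.cons 294 (.leaf 295 2355 (.cons 299 (.leaf 298 2361 (.cons 293 (.leaf 318 2347 (.cons 323 (.leaf 300 2369 (.cons 348 (.leaf 347 2560 (.cons 324 (.leaf 251 2012 (.leaf 349 2568 .nil)) .nil)) .nil)) .nil)) .nil)) .nil)) (.cons 299 (.leaf 298 2361 (.cons 323 (.leaf 300 2369 (.cons 343 (.leaf 342 2546 (.leaf 344 2554 .nil)) .nil)) .nil)) .nil)))) (.cons 322 (.cons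 298 (.leaf 299 2361 (.cons 346 (.leaf 347 2552 (.cons 274 (.leaf 251 2005 (.cons 273 (.leaf 247 1979 (.leaf 249 1999 .nil)) .nil)) .nil)) .nil)) (.cons 343 (.leaf 342 2546 (.cons 271 (.leaf 295 1981 (.cons 299 (.leaf 298 2361 (.cons 323 (.leaf 300 2369 (.leaf 344 2554 .nil)) .nil)) .nil)) .nil)) (.cons 342 (.leaf 343 2546 (.cons 318 (.leaf 341 2538 (.cons 346 (.leaf 345 2544 (.leaf 347 2552 .nil)) .nil)) .nil)) .nil))) .nil))))))
noncomputable def t157 : T := .cons 342 (.leaf 343 2546 (.cons 318 (.leaf 341 2538 (.cons 293 (.leaf 294 2347 (.cons 292 (.leaf 317 2339 (.cons 298 (.leaf 297 2353 (.cons 346 (.leaf 347 2552 (.cons 274 (.leaf 251 2005 (.cons 273 (.leaf 247 1979 (.leaf 249 1999 .nil)) .nil)) .nil)) .nil)) .nil)) .nil)) .nil)) .nil)) (.cons 294 (.leaf 295 2355 (.cons 318 (.leaf 293 2347 (.cons 297 (.leaf 298 2353 (.cons 341 (.leaf 342 2538 (.cons 317 (.leaf 340 2530 (.cons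 246 (.leaf 270 1966 (.cons 346 (.leaf 347 2552 (.cons 273 (.leaf 249 1996 (.cons 247 (.leaf 274 1979 (.leaf 245 1960 .nil)) .nil)) .nil)) .nil)) .nil)) .nil)) .nil)) .nil)) .nil)) (.cons 295 (.leaf 294 2355 (.cons 271 (.leaf 343 1981 (.cons 247 (.leaf 344 1980 (.cons 222 (.leaf 246 1783 (.cons 223 (.leaf 198 1591 (.cons 175 (.leaf 199 1404 (.cons 273 (.leaf 274 1979 (.cons 346 (.leaf 347 2552 (.cons 297 (.leaf 249 1996 (.cons 298 (.leaf 270 2160 (.leaf 318 2353 .nil)) .nil)) .nil)) .nil)) .nil)) .nil)) .nil)) .nil)) .nil)) .nil)) (.cons 343 (.leaf 342 2546 (.cons 271 (.leaf 295 1981 (.cons 323 (.leaf 344 2554 (.cons 347 (.leaf 346 2552 (.leaf 348 2560 .nil)) .nil)) .nil)) .nil)) (.cons 343 (.leaf 342 2546 (.cons 295 (.leaf 271 1981 (.leaf 294 2355 .nil)) .nil)) .nil))))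
noncomputable def t158 : T := .cons 300 (.leaf 299 2369 (.cons 324 (.leaf 301 2377 (.cons 348 (.leaf 347 2560 (.leaf 349 2568 .nil)) .nil)) .nil)) (.cons 344 (.leaf 343 2554 (.cons 324 (.cons 301 (.leaf 300 2377 (.cons 325 (.leaf 302 2385 (.cons 298 (.leaf 297 2379 (.cons 350 (.leaf 349 2576 (.cons 326 (.leaf 351 2584 (.cons 253 (.leaf 277 2028 (.cons 346 (.leaf 347 2578 (.cons 274 (.leaf 251 2005 (.cons 273 (.leaf 247 1979 (.leaf 249 1999 .nil)) .nil)) .nil)) .nil)) .nil)) .nil)) .nil)) .nil)) .nil)) (.cons 301 (.leaf 300 2377 (.cons 325 (.leaf 302 2385 (.cons 298 (.leaf 297 2379 (.cons 347 (.leaf 348 2560 (.cons 346 (.leaf 326 2578 (.cons 274 (.leaf 251 2005 (.leaf 371 2196 .nil)) .nil)) .nil)) .nil)) .nil)) .nil)) (.cons 301 (.leaf 300 2377 (.cons 325 (.leaf 302 2385 (.cons 349 (.leaf 348 2568 (.leaf 350 2576 .nil)) .nil)) .nil)) (.cons 348 (.leaf 347 2560 (.leaf 349 2568 .nil))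 .nil)))) .nil)) (.cons 299 (.leaf 300 2369 (.cons 251 (.leaf 346 2006 (.cons 227 (.leaf 298 1814 (.cons 228 (.leaf 204 1629 (.leaf 252 1821 .nil)) .nil)) .nil)) .nil)) (.cons 348 (.leaf 347 2560 (.cons 324 (.leaf 349 2568 (.cons 344 (.leaf 343 2554 (.cons 298 (.cons 299 (.leaf 251 2012 (.cons 325 (.leaf 297 2379 (.leaf 326 2387 .nil)) .nil)) (.cons 297 (.leaf 325 2379 (.cons 273 (.leaf 249 1990 (.cons 270 (.leaf 271 2160 (.cons 274 (.leaf 247 1979 (.cons 251 (.leaf 252 1985 (.leaf 346 2005 .nil)) .nil)) .nil)) .nil)) .nil)) (.cons 297 (.leaf 325 2379 (.cons 273 (.leaf 249 1990 (.cons 271 (.leaf 270 2160 (.cons 274 (.leaf 247 1979 (.leaf 299 2168 .nil)) .nil)) .nil)) .nil)) (.cons 251 (.leaf 299 2012 (.cons 274 (.leaf 346 2005 (.cons 273 (.leaf 247 1979 (.leaf 252 1985 .nil)) .nil)) .nil)) .nil)))) .nil)) .nil)) .nil)) .nil)))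
noncomputable def t159 : T := .cons 299 (.cons 298 (.leaf 319 2361 (.cons 251 (.leaf 227 1814 (.cons 346 (.leaf 274 2005 (.leaf 323 2006 .nil)) .nil)) .nil)) (.cons 323 (.leaf 300 2369 (.cons 251 (.leaf 346 2006 (.cons 348 (.leaf 324 2012 (.leaf 347 2560 .nil)) .nil)) .nil)) (.cons 298 (.leaf 319 2361 (.cons 300 (.leaf 297 2370 (.leaf 301 2378 .nil)) .nil)) .nil))) (.cons 323 t158 (.cons 319 (.cons 294 (.leaf 295 2355 (.cons 293 (.leaf 318 2347 (.cons 298 (.leaf 299 2361 (.cons 342 (.leaf 343 2546 (.cons 346 (.leaf 347 2552 (.cons 274 (.leaf 251 2005 (.cons 273 (.leaf 247 1979 (.leaf 249 1999 .nil)) .nil)) .nil)) .nil)) .nil)) .nil)) .nil)) (.cons 294 (.leaf 295 2355 (.cons 318 (.leaf 293 2347 (.cons 342 (.leaf 341 2538 (.leaf 343 2546 .nil)) .nil)) .nil)) (.cons 294 (.leaf 295 2355 (.cons 293 (.leaf 318 2347 (.cons 298 (.leaf 299 2361 (.cons 346 (.leaf 347 2552 (.cons 274 (.leaf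 251 2005 (.cons 273 (.leaf 247 1979 (.leaf 249 1999 .nil)) .nil)) .nil)) .nil)) .nil)) .nil)) (.cons 298 (.leaf 299 2361 (.cons 318 (.leaf 297 2353 (.cons 342 (.leaf 341 2538 (.leaf 343 2546 .nil)) .nil)) .nil)) (.cons 294 (.leaf 295 2355 (.cons 298 (.leaf 299 2361 (.cons 342 (.leaf 343 2546 (.cons 346 (.leaf 347 2552 (.cons 274 (.leaf 251 2005 (.cons 273 (.leaf 247 1979 (.leaf 249 1999 .nil)) .nil)) .nil)) .nil)) .nil)) .nil)) .nil))))) (.cons 319 t157 (.cons 323 (.cons 299 (.leaf 300 2369 (.cons 251 (.leaf 346 2006 (.cons 348 (.leaf 324 2012 (.leaf 347 2560 .nil)) .nil)) .nil)) (.cons 343 (.leaf 344 2554 (.cons 319 (.leaf 342 2546 (.cons 295 (.leaf 271 1981 (.leaf 294 2355 .nil)) .nil)) .nil)) .nil)) (.cons 319 (.cons 294 (.leaf 295 2355 (.cons 293 (.leaf 318 2347 (.cons 299 (.leaf 298 2361 (.cons 323 (.leaf 300 2369 (.cons 343 (.leaf 342 2546 (.leaf 344 2554 .nil)) .nil)) .nil))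 .nil)) .nil)) (.cons 294 (.leaf 295 2355 (.cons 293 (.leaf 318 2347 (.cons 299 (.leaf 298 2361 (.cons 323 (.leaf 300 2369 (.cons 348 (.leaf 347 2560 (.cons 324 (.leaf 251 2012 (.leaf 349 2568 .nil)) .nil)) .nil)) .nil)) .nil)) .nil)) (.cons 343 (.leaf 342 2546 (.cons 295 (.leaf 271 1981 (.leaf 294 2355 .nil)) .nil)) (.cons 298 (.leaf 299 2361 (.cons 318 (.leaf 297 2353 (.cons 342 (.leaf 341 2538 (.leaf 343 2546 .nil)) .nil)) .nil)) .nil)))) (.cons 319 (.cons 294 (.leaf 295 2355 (.cons 318 (.leaf 293 2347 (.cons 342 (.leaf 341 2538 (.leaf 343 2546 .nil)) .nil)) .nil)) (.cons 294 (.leaf 295 2355 (.cons 298 (.leaf 299 2361 (.cons 318 (.leaf 293 2347 (.leaf 297 2353 .nil)) .nil)) .nil)) (.cons 299 (.leaf 298 2361 (.cons 323 (.leaf 300 2369 (.cons 343 (.leaf 342 2546 (.leaf 344 2554 .nil)) .nil)) .nil)) .nil))) .nil))))))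
noncomputable def t160 : T := .cons 344 (.leaf 249 1990 (.cons 368 (.leaf 392 2373 (.cons 270 (.leaf 298 2160 (.cons 245 (.leaf 246 1963 (.cons 269 (.leaf 244 1955 (.cons 293 (.leaf 292 2146 (.leaf 294 2154 .nil)) .nil)) .nil)) .nil)) .nil)) .nil)) (.cons 344 (.leaf 249 1990 (.cons 368 (.leaf 392 2373 (.cons 319 (.cons 295 (.leaf 343 2172 (.leaf 247 1980 .nil)) (.cons 318 (.leaf 298 2353 (.cons 293 (.leaf 294 2347 (.cons 317 (.leaf 292 2339 (.cons 341 (.leaf 340 2530 (.leaf 342 2538 .nil)) .nil)) .nil)) .nil)) .nil)) .nil)) .nil)) (.cons 249 (.leaf 344 1990 (.cons 270 (.leaf 269 1961 (.cons 246 (.leaf 245 1963 (.cons 294 (.leaf 293 2154 (.cons 222 (.cons 221 (.leaf 247 1771 (.leaf 197 1583 .nil)) (.cons 295 (.leaf 198 1588 (.leaf 319 1780 .nil)) .nil)) .nil)) .nil)) .nil)) .nil)) (.cons 270 (.leaf 298 2160 (.cons 245 (.leaf 246 1963 (.cons 269 (.leaf 244 1955 (.leaf 249 1961 .nil))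 .nil)) .nil)) (.cons 270 (.leaf 298 2160 (.cons 245 (.leaf 246 1963 (.cons 269 (.leaf 244 1955 (.cons 293 (.leaf 292 2146 (.leaf 294 2154 .nil)) .nil)) .nil)) .nil)) .nil))))
noncomputable def t161 : T := .cons 274 (.leaf 247 1979 (.cons 251 (.leaf 252 1985 (.cons 299 (.leaf 300 2176 (.cons 271 (.leaf 298 2168 (.cons 294 (.leaf 295 2162 (.cons 270 (.leaf 293 2154 (.cons 245 (.leaf 246 1963 (.cons 269 (.leaf 244 1955 (.leaf 249 1961 .nil)) .nil)) .nil)) .nil)) .nil)) .nil)) .nil)) .nil)) (.cons 297 (.leaf 345 1991 (.cons 271 t160 .nil)) (.cons 297 (.leaf 345 1991 (.cons 249 (.leaf 344 1990 (.cons 271 (.cons 270 (.leaf 269 1961 (.leaf 298 2160 .nil)) (.cons 319 (.cons 295 (.leaf 343 1981 (.cons 318 (.leaf 298 2353 (.cons 293 (.leaf 294 2347 (.cons 317 (.leaf 292 2339 (.cons 341 (.leaf 340 2530 (.leaf 342 2538 .nil)) .nil)) .nil)) .nil)) .nil)) (.cons 295 (.leaf 343 1981 (.cons 294 (.leaf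 274 2162 (.cons 293 (.leaf 292 2336 (.leaf 318 2347 .nil)) .nil)) .nil)) (.cons 295 (.leaf 343 1981 (.cons 274 (.leaf 294 2162 (.cons 299 (.leaf 300 2176 (.leaf 298 2168 .nil)) .nil)) .nil)) (.cons 298 (.leaf 318 2353 (.cons 299 (.leaf 274 2168 (.leaf 300 2370 .nil)) .nil)) .nil)))) (.cons 270 (.leaf 269 1961 (.cons 246 (.leaf 245 1963 (.cons 294 (.leaf 293 2154 (.cons 295 (.leaf 274 2162 (.cons 319 (.leaf 343 1981 (.leaf 222 1780 .nil)) .nil)) .nil)) .nil)) .nil)) .nil))) .nil)) .nil)) (.cons 274 (.leaf 247 1979 (.cons 251 (.leaf 252 1985 (.cons 299 (.leaf 300 2176 (.cons 271 (.leaf 298 2168 (.cons 295 (.leaf 294 2162 (.cons 319 (.leaf 343 1981 (.cons 345 (.leaf 297 1991 (.cons 318 (.leaf 346 2544 (.cons 317 (.leaf 344 2536 (.cons 341 (.leaf 340 2530 (.leaf 342 2538 .nil)) .nil)) .nil)) .nil)) .nil)) .nil)) .nil)) .nil)) .nil)) .nil)) (.cons 297 (.leaf 345 1991 (.cons 247 (.leaf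 274 1979 (.cons 246 (.leaf 245 1960 (.cons 249 (.leaf 344 1990 (.cons 222 (.leaf 221 1771 (.cons 225 (.leaf 226 1777 (.cons 201 (.leaf 177 1414 (.cons 200 (.leaf 176 1415 (.cons 202 (.leaf 178 1421 (.cons 199 (.leaf 223 1586 (.cons 175 (.leaf 174 1395 (.cons 270 (.leaf 269 1962 (.leaf 198 1397 .nil)) .nil)) .nil)) .nil)) .nil)) .nil)) .nil)) .nil)) .nil)) .nil)) .nil)) .nil)) .nil))))
noncomputable def t162 : T := .cons 274 (.leaf 247 1979 (.cons 251 (.leaf 252 1985 (.cons 299 (.leaf 300 2176 (.cons 298 (.leaf 271 2168 (.cons 322 (.leaf 227 1814 (.leaf 346 2005 .nil)) .nil)) .nil)) .nil)) .nil)) (.cons 297 (.leaf 345 1991 (.cons 249 (.leaf 344 1990 (.cons 322 (.leaf 346 1996 (.cons 225 (.leaf 298 1804 (.cons 201 (.leaf 177 1414 (.cons 202 (.leaf 178 1421 (.leaf 226 1613 .nil)) .nil)) .nil)) .nil)) .nil)) .nil)) (.cons 247 (.leaf 274 1979 (.cons 246 (.leaf 245 1960 (.cons 270 (.cons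 249 (.leaf 269 1962 (.cons 225 (.leaf 226 1777 (.cons 201 (.leaf 177 1414 (.cons 222 (.leaf 221 1771 (.cons 202 (.leaf 178 1421 (.cons 200 (.leaf 176 1415 (.cons 199 (.leaf 223 1586 (.cons 175 (.leaf 198 1397 (.leaf 174 1395 .nil)) .nil)) .nil)) .nil)) .nil)) .nil)) .nil)) .nil)) (.cons 297 (.leaf 345 1991 (.cons 271 (.leaf 298 2160 (.cons 268 (.leaf 269 1953 (.cons 294 (.leaf 293 2154 (.cons 223 (.leaf 199 1590 (.leaf 318 1781 .nil)) .nil)) .nil)) .nil)) .nil)) (.cons 297 (.leaf 345 1991 (.cons 249 (.leaf 344 1990 (.cons 221 (.leaf 222 1771 (.cons 271 (.leaf 298 2160 (.cons 294 (.leaf 293 2154 (.cons 223 (.leaf 199 1590 (.leaf 318 1781 .nil)) .nil)) .nil)) .nil)) .nil)) .nil)) (.cons 249 (.leaf 269 1962 (.cons 297 (.leaf 345 1991 (.leaf 344 1990 .nil)) .nil)) .nil)))) .nil)) .nil)) (.cons 247 (.leaf 274 1979 (.cons 246 (.leaf 245 1960 (.cons 270 (.cons 249 (.leaf 269 1962 (.cons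 297 (.leaf 345 1991 (.leaf 344 1990 .nil)) .nil)) (.cons 345 (.leaf 297 1991 (.cons 294 (.cons 223 (.leaf 318 1781 (.cons 293 (.leaf 271 2154 (.cons 222 (.leaf 199 1589 (.leaf 317 1774 .nil)) .nil)) .nil)) (.cons 293 (.leaf 271 2154 (.cons 222 (.leaf 317 1774 (.cons 197 (.leaf 221 1583 (.cons 198 (.leaf 173 1391 (.leaf 269 1582 .nil)) .nil)) .nil)) .nil)) (.cons 223 (.leaf 318 1781 (.cons 199 (.leaf 175 1404 (.leaf 222 1589 .nil)) .nil)) (.cons 223 (.leaf 318 1781 (.cons 199 (.leaf 175 1404 (.leaf 271 1590 .nil)) .nil)) .nil)))) .nil)) (.cons 297 (.leaf 345 1991 (.cons 249 (.leaf 344 1990 (.cons 222 (.leaf 221 1771 (.cons 322 (.leaf 346 1996 (.cons 294 (.cons 223 (.leaf 318 1781 (.leaf 199 1589 .nil)) (.cons 293 (.leaf 271 2154 (.leaf 317 1774 .nil)) .nil)) .nil)) .nil)) .nil)) .nil)) (.cons 269 (.leaf 249 1962 (.cons 268 (.leaf 271 1953 (.leaf 267 1945 .nil)) .nil)) .nil)))) .nil))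 .nil)) .nil)))
noncomputable def t163 : T := .cons 318 (.cons 293 (.leaf 294 2347 (.cons 317 (.leaf 292 2339 (.cons 345 (.leaf 344 2536 (.leaf 346 2544 .nil)) .nil)) .nil)) (.cons 293 (.leaf 294 2347 (.cons 317 (.leaf 292 2339 (.cons 341 (.leaf 340 2530 (.leaf 342 2538 .nil)) .nil)) .nil)) (.cons 345 (.leaf 346 2544 (.cons 317 (.leaf 344 2536 (.cons 341 (.leaf 340 2530 (.leaf 342 2538 .nil)) .nil)) .nil)) (.cons 342 (.leaf 341 2538 (.cons 294 (.leaf 293 2347 (.cons 345 (.leaf 346 2544 (.cons 297 (.leaf 298 2353 (.cons 270 (.cons 343 (.leaf 246 1972 (.leaf 367 2164 .nil)) (.cons 245 (.leaf 269 1967 (.cons 246 (.leaf 221 1775 (.cons 247 (.leaf 223 1781 (.leaf 271 1973 .nil)) .nil)) .nil)) (.cons 245 (.leaf 269 1967 (.cons 271 (.leaf 247 1973 (.cons 295 (.leaf 343 1981 (.leaf 366 2165 .nil)) .nil)) .nil)) .nil))) .nil)) .nil)) .nil)) .nil)) .nil)))) (.cons 318 (.cons 293 (.leaf 294 2347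 (.cons 298 (.leaf 297 2353 (.cons 322 (.leaf 299 2361 (.cons 346 (.leaf 345 2544 (.leaf 347 2552 .nil)) .nil)) .nil)) .nil)) (.cons 345 (.leaf 346 2544 (.cons 317 (.leaf 344 2536 (.cons 341 (.leaf 340 2530 (.leaf 342 2538 .nil)) .nil)) .nil)) (.cons 293 (.leaf 294 2347 (.cons 317 (.leaf 292 2339 (.cons 341 (.leaf 340 2530 (.leaf 342 2538 .nil)) .nil)) .nil)) .nil))) (.cons 318 (.cons 293 (.leaf 294 2347 (.cons 297 (.leaf 298 2353 (.cons 317 (.leaf 292 2339 (.cons 344 (.leaf 345 2536 (.cons 343 (.leaf 316 2528 (.cons 322 (.leaf 342 2546 (.leaf 323 2554 .nil)) .nil)) .nil)) .nil)) .nil)) .nil)) (.cons 294 (.leaf 293 2347 (.cons 295 (.leaf 322 2355 (.cons 271 (.leaf 343 1981 (.cons 247 (.leaf 344 1980 (.leaf 223 1782 .nil)) .nil)) .nil)) .nil)) (.cons 342 (.leaf 341 2538 (.cons 298 (.leaf 297 2353 (.cons 322 (.leaf 299 2361 (.leaf 343 2546 .nil)) .nil)) .nil)) (.cons 294 (.leaf 293 2347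 (.cons 295 (.leaf 322 2355 (.cons 297 (.leaf 298 2353 (.cons 341 (.leaf 342 2538 (.cons 317 (.leaf 340 2530 (.cons 270 (.leaf 246 1966 (.cons 316 (.leaf 315 2329 (.cons 292 (.leaf 291 2331 (.cons 268 (.leaf 244 1956 (.cons 269 (.leaf 267 2136 (.cons 271 (.leaf 249 1961 (.leaf 247 1953 .nil)) .nil)) .nil)) .nil)) .nil)) .nil)) .nil)) .nil)) .nil)) .nil)) .nil)) (.cons 341 (.leaf 342 2538 (.cons 293 (.leaf 294 2347 (.cons 317 (.leaf 292 2339 (.leaf 340 2530 .nil)) .nil)) .nil)) .nil))))) (.cons 322 (.cons 298 (.leaf 299 2361 (.cons 297 (.leaf 318 2353 (.cons 346 (.leaf 347 2552 (.cons 274 (.leaf 251 2005 (.cons 369 (.leaf 345 2189 (.cons 370 (.leaf 394 2383 (.leaf 393 2382 .nil)) .nil)) .nil)) .nil)) .nil)) .nil)) (.cons 298 (.leaf 299 2361 (.cons 294 (.leaf 295 2355 (.cons 318 (.leaf 293 2347 (.leaf 297 2353 .nil)) .nil)) .nil)) (.cons 346 (.leaf 347 2552 (.cons 294 (.leaf 295 2355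 (.cons 318 (.leaf 293 2347 (.leaf 345 2544 .nil)) .nil)) .nil)) (.cons 299 (.leaf 298 2361 (.cons 294 (.leaf 295 2355 (.cons 323 (.leaf 300 2369 (.cons 346 (.leaf 251 2006 (.leaf 347 2552 .nil)) .nil)) .nil)) .nil)) .nil)))) (.cons 322 (.cons 342 (.leaf 343 2546 (.cons 318 (.leaf 341 2538 (.cons 346 (.leaf 345 2544 (.leaf 347 2552 .nil)) .nil)) .nil)) (.cons 298 (.leaf 299 2361 (.cons 318 (.leaf 297 2353 (.cons 342 (.leaf 341 2538 (.leaf 343 2546 .nil)) .nil)) .nil)) (.cons 346 (.leaf 347 2552 (.cons 298 (.leaf 299 2361 (.cons 318 (.leaf 297 2353 (.leaf 345 2544 .nil)) .nil)) .nil)) (.cons 298 (.leaf 299 2361 (.cons 342 (.leaf 343 2546 (.cons 346 (.leaf 347 2552 (.cons 274 (.leaf 251 2005 (.cons 369 (.leaf 345 2190 (.cons 370 (.leaf 393 2382 (.cons 394 (.leaf 297 2383 (.cons 395 (.leaf 371 2388 (.leaf 419 2580 .nil)) .nil)) .nil)) .nil)) .nil)) .nil)) .nil)) .nil)) .nil)))) (.cons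 318 (.cons 293 (.leaf 294 2347 (.cons 342 (.leaf 341 2538 (.cons 322 (.leaf 343 2546 (.cons 346 (.leaf 345 2544 (.leaf 347 2552 .nil)) .nil)) .nil)) .nil)) (.cons 293 (.leaf 294 2347 (.cons 317 (.leaf 292 2339 (.cons 345 (.leaf 344 2536 (.leaf 346 2544 .nil)) .nil)) .nil)) (.cons 341 (.leaf 342 2538 (.cons 317 (.leaf 340 2530 (.cons 345 (.leaf 344 2536 (.leaf 346 2544 .nil)) .nil)) .nil)) (.cons 342 (.leaf 341 2538 (.cons 293 (.leaf 294 2347 (.cons 317 (.leaf 292 2339 (.cons 245 (.leaf 269 1964 (.cons 343 (.leaf 322 2546 (.cons 316 (.leaf 344 2528 (.leaf 315 2520 .nil)) .nil)) .nil)) .nil)) .nil)) .nil)) .nil)))) (.cons 322 (.cons 294 (.leaf 295 2355 (.cons 293 (.leaf 318 2347 (.cons 343 (.leaf 342 2546 (.cons 323 (.leaf 344 2554 (.cons 347 (.leaf 346 2552 (.leaf 348 2560 .nil)) .nil)) .nil)) .nil)) .nil)) (.cons 294 (.leaf 295 2355 (.cons 318 (.leaf 293 2347 (.cons 298 (.leaf 297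 2353 (.leaf 299 2361 .nil)) .nil)) .nil)) (.cons 299 (.leaf 298 2361 (.cons 323 (.leaf 300 2369 (.cons 343 (.leaf 342 2546 (.leaf 344 2554 .nil)) .nil)) .nil)) .nil))) .nil))))))
noncomputable def t164 : T := .cons 318 (.cons 293 (.leaf 294 2347 (.cons 317 (.leaf 292 2339 (.cons 345 (.leaf 344 2536 (.leaf 346 2544 .nil)) .nil)) .nil)) (.cons 297 (.leaf 298 2353 (.cons 346 (.leaf 345 2544 (.cons 322 (.leaf 347 2552 (.cons 343 (.leaf 342 2546 (.cons 271 (.leaf 295 1981 (.cons 323 (.leaf 344 2554 (.cons 299 (.leaf 251 2006 (.leaf 300 2369 .nil)) .nil)) .nil)) .nil)) .nil)) .nil)) .nil)) (.cons 342 (.leaf 341 2538 (.cons 293 (.leaf 294 2347 (.cons 292 (.leaf 317 2339 (.cons 298 (.leaf 297 2353 (.cons 322 (.leaf 299 2361 (.leaf 343 2546 .nil)) .nil)) .nil)) .nil)) .nil)) .nil))) (.cons 322 (.cons 294 (.leaf 295 2355 (.cons 343 (.leaf 342 2546 (.cons 323 (.leaf 344 2554 (.cons 347 (.leaf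 346 2552 (.leaf 348 2560 .nil)) .nil)) .nil)) .nil)) (.cons 294 (.leaf 295 2355 (.cons 298 (.leaf 299 2361 (.cons 346 (.leaf 347 2552 (.cons 274 (.leaf 251 2005 (.cons 369 (.leaf 345 2190 (.cons 370 (.leaf 393 2382 (.cons 394 (.leaf 297 2383 (.cons 395 (.leaf 371 2388 (.leaf 419 2580 .nil)) .nil)) .nil)) .nil)) .nil)) .nil)) .nil)) .nil)) (.cons 294 (.leaf 295 2355 (.cons 299 (.leaf 298 2361 (.cons 323 (.leaf 300 2369 (.cons 343 (.leaf 342 2546 (.leaf 344 2554 .nil)) .nil)) .nil)) .nil)) (.cons 299 (.leaf 298 2361 (.cons 323 (.leaf 300 2369 (.cons 343 (.leaf 342 2546 (.leaf 344 2554 .nil)) .nil)) .nil)) .nil)))) t163)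
noncomputable def t165 : T := .cons 269 (.leaf 249 1962 (.cons 268 (.leaf 271 1953 (.leaf 267 1945 .nil)) .nil)) (.cons 294 (.cons 223 (.leaf 318 1781 (.cons 293 (.leaf 271 2154 (.cons 222 (.leaf 199 1589 (.leaf 317 1774 .nil)) .nil)) .nil)) (.cons 293 (.leaf 271 2154 (.cons 222 (.leaf 317 1774 (.cons 197 (.leaf 221 1583 (.cons 198 (.leaf 173 1391 (.leaf 269 1582 .nil)) .nil)) .nil)) .nil)) (.cons 223 (.leaf 318 1781 (.cons 199 (.leaf 175 1404 (.leaf 222 1589 .nil)) .nil)) (.cons 223 (.leaf 318 1781 (.cons 199 (.leaf 175 1404 (.leaf 271 1590 .nil)) .nil)) .nil)))) (.cons 294 (.cons 223 (.leaf 318 1781 (.cons 293 (.leaf 271 2154 (.cons 222 (.leaf 199 1589 (.leaf 317 1774 .nil)) .nil)) .nil)) (.cons 293 (.leaf 271 2154 (.cons 222 (.leaf 317 1774 (.cons 221 (.leaf 249 1771 (.leaf 197 1583 .nil)) .nil)) .nil)) (.cons 223 (.leaf 318 1781 (.cons 199 (.leaf 175 1404 (.leaf 222 1589 .nil))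 .nil)) (.cons 223 (.leaf 318 1781 (.cons 199 (.leaf 175 1404 (.leaf 271 1590 .nil)) .nil)) .nil)))) (.cons 249 (.leaf 269 1962 (.cons 225 (.leaf 226 1777 (.cons 201 (.leaf 177 1414 (.cons 222 (.leaf 221 1771 (.cons 202 (.leaf 178 1421 (.cons 200 (.leaf 176 1415 (.cons 199 (.leaf 223 1586 (.cons 175 (.leaf 198 1397 (.leaf 174 1395 .nil)) .nil)) .nil)) .nil)) .nil)) .nil)) .nil)) .nil)) .nil)))
noncomputable def t166 : T := .cons 274 (.leaf 247 1979 (.cons 251 (.leaf 252 1985 (.cons 299 (.leaf 300 2176 (.cons 271 (.leaf 298 2168 (.cons 294 (.leaf 295 2162 (.cons 270 (.leaf 293 2154 (.cons 245 (.leaf 246 1963 (.cons 269 (.leaf 244 1955 (.leaf 249 1961 .nil)) .nil)) .nil)) .nil)) .nil)) .nil)) .nil)) .nil)) (.cons 297 (.leaf 345 1991 (.cons 322 (.cons 249 (.leaf 344 1990 (.leaf 346 1996 .nil)) (.cons 323 (.cons 299 (.leaf 300 2369 (.cons 348 (.leaf 347 2560 (.cons 324 (.leaf 251 2012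 (.leaf 349 2568 .nil)) .nil)) .nil)) (.cons 343 (.leaf 344 2554 (.cons 319 (.leaf 342 2546 (.cons 295 (.leaf 271 1981 (.leaf 294 2355 .nil)) .nil)) .nil)) .nil)) (.cons 346 (.leaf 249 1996 (.cons 319 (.leaf 347 2552 (.cons 298 (.leaf 318 2353 (.leaf 299 2361 .nil)) .nil)) .nil)) .nil))) .nil)) (.cons 247 (.leaf 274 1979 (.cons 245 (.leaf 246 1960 (.cons 297 (.leaf 345 1991 (.cons 271 (.cons 249 (.leaf 344 1990 (.cons 270 (.leaf 269 1961 (.leaf 298 2160 .nil)) .nil)) (.cons 344 (.leaf 249 1990 (.cons 319 (.leaf 295 1980 (.cons 318 (.leaf 298 2353 (.cons 293 (.leaf 294 2347 (.cons 317 (.leaf 292 2339 (.cons 341 (.leaf 340 2530 (.leaf 342 2538 .nil)) .nil)) .nil)) .nil)) .nil)) .nil)) (.cons 270 (.leaf 298 2160 (.cons 269 (.leaf 244 1955 (.leaf 268 1953 .nil)) .nil)) (.cons 249 (.leaf 344 1990 (.cons 270 (.leaf 269 1961 (.cons 294 (.leaf 293 2154 (.cons 199 (.leaf 223 1590 (.cons 322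 (.leaf 346 1996 (.cons 319 (.leaf 295 2355 (.cons 342 (.leaf 343 2546 (.leaf 318 1973 .nil)) .nil)) .nil)) .nil)) .nil)) .nil)) .nil)) .nil)))) .nil)) .nil)) .nil)) (.cons 274 (.leaf 247 1979 (.cons 251 (.leaf 252 1985 (.cons 299 (.leaf 300 2176 (.cons 271 (.leaf 298 2168 (.cons 295 (.leaf 294 2162 (.cons 319 (.leaf 343 1981 (.cons 345 (.leaf 297 1991 (.cons 318 (.leaf 346 2544 (.cons 317 (.leaf 344 2536 (.cons 341 (.leaf 340 2530 (.leaf 342 2538 .nil)) .nil)) .nil)) .nil)) .nil)) .nil)) .nil)) .nil)) .nil)) .nil)) (.cons 297 (.leaf 345 1991 (.cons 247 (.leaf 274 1979 (.cons 246 (.leaf 245 1960 (.cons 249 (.leaf 344 1990 (.cons 222 (.leaf 221 1771 (.cons 225 (.leaf 226 1777 (.cons 201 (.leaf 177 1414 (.cons 200 (.leaf 176 1415 (.cons 202 (.leaf 178 1421 (.cons 199 (.leaf 223 1586 (.cons 322 (.leaf 346 1996 (.leaf 298 1804 .nil)) .nil)) .nil)) .nil)) .nil)) .nil)) .nil)) .nil)) .nil))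 .nil)) .nil)) (.cons 247 (.leaf 274 1979 (.cons 246 (.leaf 245 1960 (.cons 270 t165 .nil)) .nil)) .nil)))))
noncomputable def t167 : T := .cons 296 (.cons 223 (.leaf 247 1791 (.cons 343 (.leaf 319 1982 (.cons 344 (.leaf 367 2174 (.cons 345 (.leaf 321 1988 (.leaf 369 2180 .nil)) .nil)) .nil)) .nil)) (.cons 249 (.leaf 225 1797 (.cons 319 (.leaf 343 1982 (.cons 273 (.leaf 344 1989 (.cons 274 (.leaf 295 2170 (.cons 251 (.leaf 252 1985 (.cons 299 (.leaf 300 2176 (.cons 298 (.leaf 271 2168 (.leaf 297 2362 .nil)) .nil)) .nil)) .nil)) .nil)) .nil)) .nil)) (.cons 247 (.leaf 223 1791 (.cons 273 (.leaf 274 1979 (.cons 245 (.leaf 246 1960 (.cons 321 (.leaf 345 1988 (.cons 344 (.leaf 271 1983 (.leaf 249 1989 .nil)) .nil)) .nil)) .nil)) .nil)) (.cons 247 (.leaf 223 1791 (.cons 249 (.leaf 225 1797 (.cons 273 (.leaf 274 1979 (.cons 246 (.leaf 245 1960 (.cons 270 (.leaf 269 1962 (.cons 321 (.leaf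 345 1988 (.cons 319 (.leaf 343 1982 (.cons 222 (.leaf 221 1771 (.cons 295 (.leaf 271 1783 (.leaf 294 1780 .nil)) .nil)) .nil)) .nil)) .nil)) .nil)) .nil)) .nil)) .nil)) .nil)))) (.cons 321 (.cons 273 t166 (.cons 319 t164 (.cons 273 t162 (.cons 273 t161 (.cons 322 t159 (.cons 319 t156 (.cons 297 t154 (.cons 297 t151 (.cons 273 t146 (.cons 273 t144 (.cons 273 t143 (.cons 273 t142 (.cons 273 t141 (.cons 273 t139 (.cons 273 t138 (.cons 273 t137 (.cons 273 t135 .nil))))))))))))))))) (.cons 296 t134 (.cons 296 (.cons 247 (.leaf 223 1791 (.cons 225 (.leaf 249 1797 (.cons 319 (.leaf 343 1982 (.cons 344 (.leaf 271 1983 (.cons 345 (.leaf 321 1988 (.leaf 369 2180 .nil)) .nil)) .nil)) .nil)) .nil)) (.cons 247 (.leaf 223 1791 (.cons 225 (.leaf 249 1797 (.cons 344 (.leaf 271 1983 (.cons 345 (.leaf 321 1988 (.leaf 369 2180 .nil)) .nil)) .nil)) .nil)) (.cons 343 (.leaf 319 1982 (.cons 344 (.leaf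 367 2174 (.cons 345 (.leaf 321 1988 (.leaf 369 2180 .nil)) .nil)) .nil)) (.cons 247 (.leaf 223 1791 (.cons 225 (.leaf 249 1797 (.cons 343 (.leaf 319 1982 (.cons 344 (.leaf 271 1983 (.leaf 367 2174 .nil)) .nil)) .nil)) .nil)) (.cons 319 (.leaf 343 1982 (.cons 321 (.leaf 345 1988 (.cons 247 (.leaf 223 1791 (.cons 318 (.cons 297 (.leaf 317 2345 (.leaf 298 2353 .nil)) (.cons 294 (.leaf 293 2347 (.cons 225 (.leaf 249 1797 (.cons 295 (.leaf 322 2355 (.cons 342 (.leaf 341 2538 (.leaf 271 1974 .nil)) .nil)) .nil)) .nil)) .nil)) .nil)) .nil)) .nil)) .nil))))) (.cons 296 t133 (.cons 296 t132 (.cons 296 t131 (.cons 296 t130 (.cons 296 t129 (.cons 296 t128 (.cons 296 t127 (.cons 296 t126 (.cons 296 (.cons 223 (.leaf 247 1791 (.cons 343 (.leaf 319 1982 (.cons 344 (.leaf 367 2174 (.cons 345 (.leaf 321 1988 (.leaf 369 2180 .nil)) .nil)) .nil)) .nil)) (.cons 343 (.leaf 319 1982 (.cons 344 (.leaf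 367 2174 (.cons 345 (.leaf 321 1988 (.leaf 369 2180 .nil)) .nil)) .nil)) (.cons 247 (.leaf 223 1791 (.cons 225 (.leaf 249 1797 (.cons 344 (.leaf 271 1983 (.cons 345 (.leaf 321 1988 (.leaf 369 2180 .nil)) .nil)) .nil)) .nil)) (.cons 247 (.leaf 223 1791 (.cons 225 (.leaf 249 1797 (.cons 343 (.leaf 319 1982 (.cons 344 (.leaf 271 1983 (.leaf 367 2174 .nil)) .nil)) .nil)) .nil)) (.cons 247 (.leaf 223 1791 (.cons 249 (.leaf 225 1797 (.cons 273 (.leaf 274 1979 (.cons 246 (.leaf 245 1960 (.cons 222 (.leaf 221 1771 (.cons 269 (.leaf 270 1962 (.cons 319 (.leaf 343 1982 (.cons 295 (.leaf 271 1783 (.cons 294 (.leaf 293 2153 (.cons 321 (.leaf 345 1988 (.leaf 322 2355 .nil)) .nil)) .nil)) .nil)) .nil)) .nil)) .nil)) .nil)) .nil)) .nil)) .nil))))) (.cons 296 t125 .nil)))))))))))))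
noncomputable def t168 : T := .cons 297 (.leaf 321 1796 (.cons 200 (.leaf 273 1604 (.cons 175 (.leaf 199 1407 (.cons 176 (.leaf 151 1215 (.cons 177 (.leaf 201 1413 (.leaf 153 1221 .nil)) .nil)) .nil)) .nil)) .nil)) (.cons 225 (.leaf 201 1605 (.cons 199 (.leaf 223 1599 (.cons 175 (.leaf 200 1407 (.cons 320 (.leaf 249 1797 (.cons 343 (.leaf 319 1982 (.cons 344 (.leaf 367 2174 (.cons 345 (.leaf 321 1988 (.leaf 369 2180 .nil)) .nil)) .nil)) .nil)) .nil)) .nil)) .nil)) (.cons 297 (.leaf 321 1796 (.cons 199 (.leaf 223 1599 (.cons 200 (.leaf 175 1407 (.leaf 273 1604 .nil)) .nil)) .nil)) (.cons 225 (.leaf 201 1605 (.cons 199 (.leaf 223 1599 (.cons 200 (.leaf 175 1407 (.cons 197 (.leaf 198 1576 (.cons 249 (.leaf 320 1797 (.cons 273 (.leaf 297 1604 (.leaf 176 1412 .nil)) .nil)) .nil)) .nil)) .nil)) .nil)) (.cons 297 (.leaf 321 1796 (.cons 200 (.leaf 273 1604 (.cons 201 (.leaf 177 1413 (.leaf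 225 1605 .nil)) .nil)) .nil)) (.cons 225 (.leaf 201 1605 (.cons 199 (.leaf 223 1599 (.cons 320 (.leaf 249 1797 (.cons 321 (.leaf 297 1796 (.leaf 345 1988 .nil)) .nil)) .nil)) .nil)) .nil)))))
noncomputable def t169 : T := .cons 297 (.leaf 321 1796 (.cons 200 (.leaf 273 1604 (.cons 175 (.leaf 199 1407 (.cons 176 (.leaf 151 1215 (.cons 177 (.leaf 201 1413 (.leaf 153 1221 .nil)) .nil)) .nil)) .nil)) .nil)) (.cons 295 (.leaf 319 1790 (.cons 200 (.leaf 271 1598 (.cons 175 (.leaf 199 1407 (.cons 176 (.leaf 151 1215 (.cons 177 (.leaf 201 1413 (.leaf 153 1221 .nil)) .nil)) .nil)) .nil)) .nil)) (.cons 199 (.leaf 223 1599 (.cons 200 (.leaf 175 1407 (.cons 297 (.leaf 273 1604 (.leaf 321 1796 .nil)) .nil)) .nil)) (.cons 295 (.leaf 319 1790 (.cons 271 (.leaf 200 1598 (.cons 201 (.leaf 225 1605 (.cons 297 (.leaf 321 1796 (.cons 298 (.leaf 274 2169 (.leaf 299 2171 .nil)) .nil)) .nil)) .nil)) .nil))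 (.cons 295 (.leaf 319 1790 (.cons 199 (.leaf 223 1599 (.cons 273 (.leaf 274 2170 (.cons 294 (.leaf 293 2153 (.cons 297 (.leaf 321 1796 (.cons 270 (.leaf 269 2155 (.cons 298 (.leaf 271 2160 (.cons 201 (.leaf 225 1605 (.cons 299 (.leaf 300 2179 (.cons 323 (.leaf 322 2360 (.leaf 324 2368 .nil)) .nil)) .nil)) .nil)) .nil)) .nil)) .nil)) .nil)) .nil)) .nil)) .nil))))
noncomputable def t170 : T := .cons 224 (.cons 199 (.leaf 223 1599 (.cons 225 (.leaf 201 1605 (.cons 319 (.leaf 295 1790 (.cons 320 (.leaf 249 1797 (.leaf 343 1982 .nil)) .nil)) .nil)) .nil)) (.cons 297 (.leaf 321 1796 (.cons 200 (.leaf 273 1604 (.cons 175 (.leaf 199 1407 (.cons 176 (.leaf 151 1215 (.cons 177 (.leaf 201 1413 (.leaf 153 1221 .nil)) .nil)) .nil)) .nil)) .nil)) (.cons 295 (.leaf 319 1790 (.cons 271 (.leaf 200 1598 (.cons 297 (.leaf 321 1796 (.cons 298 (.leaf 274 2169 (.leaf 299 2171 .nil)) .nil)) .nil)) .nil))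 .nil))) (.cons 320 (.cons 343 (.leaf 319 1982 (.cons 344 (.leaf 367 2174 (.cons 345 (.leaf 321 1988 (.leaf 369 2180 .nil)) .nil)) .nil)) (.cons 249 (.leaf 225 1797 (.cons 273 (.leaf 344 1989 (.cons 274 (.leaf 295 2170 (.cons 251 (.leaf 252 1985 (.cons 299 (.leaf 300 2176 (.cons 298 (.leaf 271 2168 (.cons 322 (.leaf 227 1814 (.leaf 346 2005 .nil)) .nil)) .nil)) .nil)) .nil)) .nil)) .nil)) (.cons 319 (.leaf 343 1982 (.cons 321 (.leaf 345 1988 (.cons 249 (.leaf 225 1797 (.cons 295 (.cons 294 (.leaf 293 2344 (.leaf 322 2355 .nil)) (.cons 273 (.leaf 274 2170 (.cons 322 (.leaf 323 2363 (.cons 346 (.leaf 347 2552 (.leaf 297 1996 .nil)) .nil)) .nil)) (.cons 274 (.leaf 273 2170 (.cons 294 (.leaf 293 2344 (.cons 297 (.leaf 298 2169 (.cons 318 (.leaf 317 2345 (.cons 270 (.leaf 269 2155 (.cons 342 (.leaf 341 2538 (.cons 366 (.leaf 390 2357 (.leaf 271 2165 .nil)) .nil)) .nil)) .nil)) .nil)) .nil))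 .nil)) .nil))) .nil)) .nil)) .nil)) .nil))) (.cons 224 t169 (.cons 224 t168 (.cons 320 (.cons 343 (.leaf 319 1982 (.cons 344 (.leaf 367 2174 (.cons 345 (.leaf 321 1988 (.leaf 369 2180 .nil)) .nil)) .nil)) (.cons 249 (.leaf 225 1797 (.cons 273 (.leaf 344 1989 (.cons 274 (.leaf 295 2170 (.cons 251 (.leaf 252 1985 (.cons 299 (.leaf 300 2176 (.cons 298 (.leaf 271 2168 (.cons 322 (.leaf 227 1814 (.leaf 346 2005 .nil)) .nil)) .nil)) .nil)) .nil)) .nil)) .nil)) (.cons 225 (.leaf 249 1797 (.cons 224 (.leaf 201 1605 (.cons 319 (.leaf 295 1790 (.leaf 343 1982 .nil)) .nil)) .nil)) .nil))) (.cons 224 (.cons 225 (.leaf 201 1605 (.cons 199 (.leaf 223 1599 (.cons 320 (.leaf 249 1797 (.cons 321 (.leaf 297 1796 (.leaf 345 1988 .nil)) .nil)) .nil)) .nil)) (.cons 199 (.leaf 223 1599 (.cons 200 (.leaf 175 1407 (.cons 295 (.leaf 271 1598 (.leaf 319 1790 .nil)) .nil)) .nil)) (.cons 201 (.leaf 225 1605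 (.cons 177 (.leaf 200 1413 (.cons 295 (.leaf 319 1790 (.cons 297 (.leaf 321 1796 (.cons 298 (.leaf 274 2169 (.cons 271 (.leaf 299 2171 (.leaf 270 2163 .nil)) .nil)) .nil)) .nil)) .nil)) .nil)) .nil))) (.cons 224 (.cons 199 (.leaf 223 1599 (.cons 200 (.leaf 175 1407 (.cons 201 (.leaf 177 1413 (.leaf 225 1605 .nil)) .nil)) .nil)) (.cons 295 (.leaf 319 1790 (.cons 200 (.leaf 271 1598 (.cons 273 (.leaf 274 2170 (.leaf 297 1604 .nil)) .nil)) .nil)) (.cons 199 (.leaf 223 1599 (.cons 225 (.leaf 201 1605 (.cons 319 (.leaf 295 1790 (.cons 320 (.leaf 249 1797 (.leaf 343 1982 .nil)) .nil)) .nil)) .nil)) .nil))) (.cons 224 (.cons 201 (.leaf 225 1605 (.cons 200 (.leaf 177 1413 (.cons 297 (.leaf 273 1604 (.leaf 321 1796 .nil)) .nil)) .nil)) (.cons 225 (.leaf 201 1605 (.cons 199 (.leaf 223 1599 (.cons 200 (.leaf 175 1407 (.cons 197 (.leaf 198 1576 (.cons 249 (.leaf 320 1797 (.cons 176 (.leaf 273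 1412 (.leaf 152 1220 .nil)) .nil)) .nil)) .nil)) .nil)) .nil)) (.cons 297 (.leaf 321 1796 (.cons 199 (.leaf 223 1599 (.cons 200 (.leaf 175 1407 (.leaf 273 1604 .nil)) .nil)) .nil)) (.cons 199 (.leaf 223 1599 (.cons 225 (.leaf 201 1605 (.cons 320 (.leaf 249 1797 (.cons 321 (.leaf 297 1796 (.leaf 345 1988 .nil)) .nil)) .nil)) .nil)) .nil)))) (.cons 224 (.cons 199 (.leaf 223 1599 (.cons 200 (.leaf 175 1407 (.cons 297 (.leaf 273 1604 (.leaf 321 1796 .nil)) .nil)) .nil)) (.cons 199 (.leaf 223 1599 (.cons 200 (.leaf 175 1407 (.cons 295 (.leaf 271 1598 (.leaf 319 1790 .nil)) .nil)) .nil)) (.cons 295 (.leaf 319 1790 (.cons 271 (.leaf 200 1598 (.cons 297 (.leaf 321 1796 (.cons 298 (.leaf 274 2169 (.leaf 299 2171 .nil)) .nil)) .nil)) .nil)) (.cons 199 (.leaf 223 1599 (.cons 295 (.leaf 319 1790 (.cons 273 (.leaf 274 2170 (.cons 293 (.leaf 294 2153 (.cons 321 (.leaf 297 1796 (.cons 320 (.leaf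 345 1988 (.cons 322 (.leaf 323 2363 (.cons 344 (.leaf 249 1989 (.cons 367 (.leaf 343 2174 (.cons 368 (.leaf 271 2175 (.leaf 391 2366 .nil)) .nil)) .nil)) .nil)) .nil)) .nil)) .nil)) .nil)) .nil)) .nil)) .nil)))) .nil))))))))
noncomputable def t171 : T := .cons 246 (.leaf 245 1960 (.cons 271 (.leaf 298 2160 (.cons 268 (.leaf 269 1953 (.cons 294 (.leaf 293 2154 (.cons 318 (.leaf 223 1781 (.leaf 342 1973 .nil)) .nil)) .nil)) .nil)) .nil)) (.cons 271 (.leaf 298 2160 (.cons 269 (.leaf 268 1953 (.cons 293 (.leaf 292 2146 (.leaf 294 2154 .nil)) .nil)) .nil)) (.cons 318 (.cons 320 (.leaf 298 2353 (.cons 293 (.leaf 294 2347 (.cons 317 (.leaf 292 2339 (.cons 341 (.leaf 342 2538 (.leaf 340 2530 .nil)) .nil)) .nil)) .nil)) (.cons 246 (.leaf 245 1960 (.cons 294 (.leaf 223 1781 (.leaf 343 1972 .nil)) .nil)) (.cons 320 (.leaf 298 2353 (.cons 341 (.leaf 342 2538 (.cons 317 (.leaf 340 2530 (.cons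 246 (.leaf 245 1960 (.cons 293 (.leaf 292 2339 (.leaf 269 1965 .nil)) .nil)) .nil)) .nil)) .nil)) .nil))) (.cons 271 (.cons 269 (.leaf 268 1953 (.cons 293 (.leaf 292 2146 (.leaf 294 2154 .nil)) .nil)) (.cons 246 (.leaf 245 1960 (.cons 294 (.leaf 293 2154 (.cons 318 (.leaf 223 1781 (.leaf 342 1973 .nil)) .nil)) .nil)) (.cons 245 (.leaf 246 1960 (.cons 269 (.leaf 244 1955 (.leaf 268 1953 .nil)) .nil)) .nil))) (.cons 246 (.leaf 245 1960 (.cons 298 (.leaf 271 2160 (.cons 299 (.leaf 300 2179 (.cons 320 (.leaf 318 2353 (.leaf 322 2361 .nil)) .nil)) .nil)) .nil)) .nil))))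
noncomputable def t172 : T := .cons 318 (.leaf 298 2353 (.cons 293 (.leaf 294 2347 (.cons 317 (.leaf 292 2339 (.cons 341 (.leaf 342 2538 (.leaf 340 2530 .nil)) .nil)) .nil)) .nil)) (.cons 322 (.cons 294 (.leaf 295 2355 (.cons 298 (.leaf 299 2361 (.cons 346 (.leaf 370 2191 (.leaf 347 2552 .nil)) .nil)) .nil)) (.cons 346 (.leaf 347 2552 (.cons 370 (.leaf 298 2191 (.leaf 394 2383 .nil)) .nil)) (.cons 343 (.leaf 342 2546 (.cons 323 (.leaf 344 2554 (.cons 347 (.leaf 346 2552 (.leaf 348 2560 .nil)) .nil)) .nil)) (.cons 299 (.leaf 298 2361 (.cons 294 (.leaf 295 2355 (.cons 323 (.leaf 300 2369 (.cons 343 (.leaf 342 2546 (.leaf 344 2554 .nil)) .nil)) .nil)) .nil)) .nil)))) (.cons 322 (.cons 343 (.leaf 342 2546 (.cons 323 (.leaf 344 2554 (.cons 347 (.leaf 346 2552 (.leaf 348 2560 .nil)) .nil)) .nil)) (.cons 346 (.leaf 347 2552 (.cons 294 (.leaf 295 2355 (.cons 318 (.leaf 293 2347 (.cons 270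 (.leaf 223 1781 (.cons 341 (.leaf 342 2538 (.leaf 317 1966 .nil)) .nil)) .nil)) .nil)) .nil)) (.cons 294 (.leaf 295 2355 (.cons 318 (.leaf 293 2347 (.cons 270 (.leaf 223 1781 (.leaf 343 1972 .nil)) .nil)) .nil)) .nil))) (.cons 298 (.leaf 318 2353 (.cons 299 (.leaf 300 2370 (.leaf 322 2361 .nil)) .nil)) .nil)))
noncomputable def t173 : T := .cons 270 (.cons 246 (.leaf 245 1960 (.cons 271 (.leaf 298 2160 (.leaf 295 1789 .nil)) .nil)) (.cons 318 (.cons 320 (.leaf 298 2353 (.cons 293 (.leaf 294 2347 (.cons 317 (.leaf 292 2339 (.cons 341 (.leaf 342 2538 (.leaf 340 2530 .nil)) .nil)) .nil)) .nil)) (.cons 246 (.leaf 245 1960 (.cons 294 (.leaf 223 1781 (.leaf 343 1972 .nil)) .nil)) (.cons 320 (.leaf 298 2353 (.cons 341 (.leaf 342 2538 (.cons 317 (.leaf 340 2530 (.cons 246 (.leaf 245 1960 (.cons 293 (.leaf 292 2339 (.leaf 269 1965 .nil)) .nil)) .nil)) .nil)) .nil)) .nil))) (.cons 271 (.leaf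 298 2160 (.leaf 295 1789 .nil)) (.cons 271 (.leaf 295 1789 (.cons 269 (.leaf 268 1953 (.cons 293 (.leaf 292 2146 (.leaf 294 2154 .nil)) .nil)) .nil)) .nil)))) (.cons 246 (.leaf 245 1960 (.cons 320 t172 .nil)) (.cons 271 (.leaf 295 1789 (.cons 270 (.leaf 298 2160 (.cons 269 (.leaf 268 1953 (.cons 293 (.leaf 292 2146 (.leaf 294 2154 .nil)) .nil)) .nil)) .nil)) (.cons 270 t171 (.cons 271 (.leaf 295 1789 (.cons 270 (.cons 269 (.leaf 268 1953 (.cons 293 (.leaf 292 2146 (.leaf 294 2154 .nil)) .nil)) (.cons 246 (.leaf 245 1960 (.cons 294 (.leaf 293 2154 (.cons 318 (.leaf 223 1781 (.leaf 342 1973 .nil)) .nil)) .nil)) (.cons 245 (.leaf 246 1960 (.cons 269 (.leaf 244 1955 (.leaf 268 1953 .nil)) .nil)) .nil))) .nil)) (.cons 246 (.leaf 245 1960 (.cons 295 (.leaf 271 1789 (.cons 320 (.cons 298 (.leaf 318 2353 (.cons 299 (.leaf 300 2370 (.leaf 322 2361 .nil)) .nil)) (.cons 318 (.leaf 298 2353 (.cons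 293 (.leaf 294 2347 (.cons 317 (.leaf 292 2339 (.cons 341 (.leaf 342 2538 (.leaf 340 2530 .nil)) .nil)) .nil)) .nil)) (.cons 322 (.leaf 294 2355 (.cons 343 (.leaf 342 2546 (.cons 323 (.leaf 344 2554 (.cons 347 (.leaf 346 2552 (.leaf 348 2560 .nil)) .nil)) .nil)) .nil)) .nil))) .nil)) .nil)) (.cons 271 (.leaf 295 1789 (.cons 245 (.leaf 246 1960 (.cons 270 (.leaf 298 2160 (.cons 269 (.leaf 244 1955 (.leaf 268 1953 .nil)) .nil)) .nil)) .nil)) .nil))))))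
noncomputable def t174 : T := .cons 224 (.leaf 200 1604 (.cons 321 (.leaf 345 1991 (.leaf 249 1799 .nil)) .nil)) (.cons 246 (.leaf 245 1960 (.cons 321 (.leaf 345 1991 (.cons 270 (.cons 249 (.leaf 269 1962 (.cons 271 (.leaf 298 2160 (.cons 294 (.leaf 293 2154 (.cons 223 (.leaf 199 1590 (.leaf 318 1781 .nil)) .nil)) .nil)) .nil)) (.cons 271 (.leaf 298 2160 (.cons 294 (.leaf 293 2154 (.cons 223 (.leaf 199 1590 (.leaf 318 1781 .nil)) .nil)) .nil)) (.cons 249 (.leaf 269 1962 (.cons 225 (.leaf 226 1777 (.cons 322 (.leaf 298 1804 (.leaf 346 1996 .nil)) .nil)) .nil)) (.cons 269 (.leaf 249 1962 (.cons 268 (.leaf 271 1953 (.leaf 267 1945 .nil)) .nil)) .nil)))) .nil)) .nil)) (.cons 246 (.leaf 245 1960 (.cons 200 (.leaf 224 1604 (.cons 249 (.cons 225 (.leaf 226 1777 (.cons 201 (.leaf 177 1414 (.leaf 176 1415 .nil)) .nil)) (.cons 270 (.leaf 269 1962 (.cons 271 (.leaf 298 2160 (.cons 294 (.leaf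 293 2154 (.cons 223 (.leaf 199 1590 (.leaf 318 1781 .nil)) .nil)) .nil)) .nil)) .nil)) .nil)) .nil)) (.cons 224 (.leaf 200 1604 (.cons 321 (.leaf 345 1991 (.cons 319 t173 .nil)) .nil)) .nil)))
noncomputable def t175 : T := .cons 270 (.leaf 269 1962 (.cons 222 (.leaf 221 1771 (.cons 225 (.leaf 226 1777 (.cons 201 (.leaf 177 1414 (.cons 202 (.leaf 178 1421 (.cons 223 (.leaf 224 1585 (.cons 294 (.leaf 318 1781 (.leaf 199 1589 .nil)) .nil)) .nil)) .nil)) .nil)) .nil)) .nil)) (.cons 270 (.leaf 269 1962 (.cons 222 (.leaf 221 1771 (.cons 199 (.cons 294 (.leaf 223 1589 (.cons 293 (.leaf 271 2154 (.leaf 317 1774 .nil)) .nil)) (.cons 198 (.leaf 175 1397 (.cons 173 (.leaf 197 1391 (.cons 174 (.leaf 271 1396 (.leaf 149 1199 .nil)) .nil)) .nil)) (.cons 198 (.leaf 175 1397 (.cons 173 (.leaf 197 1391 (.cons 174 (.leaf 149 1199 (.cons 200 (.leaf 201 1387 (.cons 224 (.leaf 297 1604 (.leaf 176 1412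 .nil)) .nil)) .nil)) .nil)) .nil)) .nil))) .nil)) .nil)) (.cons 225 (.leaf 226 1777 (.cons 201 (.leaf 177 1414 (.cons 178 (.leaf 202 1421 (.cons 200 (.leaf 176 1415 (.cons 297 (.leaf 224 1604 (.cons 221 (.leaf 222 1771 (.cons 321 (.leaf 345 1991 (.cons 322 (.leaf 298 1804 (.leaf 346 1996 .nil)) .nil)) .nil)) .nil)) .nil)) .nil)) .nil)) .nil)) (.cons 225 (.leaf 226 1777 (.cons 201 (.leaf 177 1414 (.cons 178 (.leaf 202 1421 (.cons 200 (.leaf 176 1415 (.cons 297 (.leaf 224 1604 (.cons 269 (.leaf 270 1962 (.cons 321 (.leaf 345 1991 (.cons 322 (.leaf 298 1804 (.leaf 346 1996 .nil)) .nil)) .nil)) .nil)) .nil)) .nil)) .nil)) .nil)) (.cons 270 (.leaf 269 1962 (.cons 222 (.leaf 221 1771 (.cons 225 (.leaf 226 1777 (.cons 201 (.leaf 177 1414 (.cons 202 (.leaf 178 1421 (.cons 200 (.leaf 176 1415 (.cons 199 (.leaf 223 1586 (.cons 175 (.leaf 198 1397 (.leaf 174 1395 .nil)) .nil)) .nil)) .nil))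 .nil)) .nil)) .nil)) .nil)) (.cons 270 (.leaf 269 1962 (.cons 222 (.leaf 221 1771 (.cons 225 (.leaf 226 1777 (.cons 297 (.cons 200 (.leaf 224 1604 (.cons 298 (.leaf 271 2160 (.leaf 322 1804 .nil)) .nil)) (.cons 298 (.leaf 271 2160 (.leaf 322 1804 .nil)) (.cons 224 (.leaf 200 1604 (.leaf 321 1799 .nil)) .nil))) .nil)) .nil)) .nil)) .nil)))))
noncomputable def t176 : T := .cons 270 (.leaf 269 1962 (.cons 225 (.leaf 226 1777 (.cons 201 (.leaf 177 1414 (.cons 202 (.leaf 178 1421 (.cons 294 (.cons 200 (.leaf 176 1415 (.cons 223 (.leaf 318 1781 (.cons 199 (.leaf 175 1404 (.leaf 271 1590 .nil)) .nil)) .nil)) (.cons 293 (.leaf 271 2154 (.cons 317 (.leaf 222 1774 (.cons 341 (.leaf 318 1966 (.leaf 365 2157 .nil)) .nil)) .nil)) (.cons 176 (.leaf 200 1415 (.cons 223 (.leaf 318 1781 (.cons 199 (.leaf 175 1404 (.leaf 222 1589 .nil)) .nil)) .nil)) (.cons 200 (.leaf 176 1415 (.cons 271 (.leaf 293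 2154 (.cons 199 (.leaf 223 1590 (.cons 174 (.leaf 175 1395 (.cons 198 (.leaf 222 1396 (.leaf 173 1387 .nil)) .nil)) .nil)) .nil)) .nil)) .nil)))) .nil)) .nil)) .nil)) .nil)) (.cons 270 (.leaf 269 1962 (.cons 297 (.cons 271 (.leaf 298 2160 (.cons 294 (.leaf 293 2154 (.cons 223 (.leaf 199 1590 (.leaf 318 1781 .nil)) .nil)) .nil)) (.cons 224 (.leaf 200 1604 (.leaf 321 1799 .nil)) .nil)) .nil)) (.cons 225 (.leaf 226 1777 (.cons 201 (.leaf 177 1414 (.cons 178 (.leaf 202 1421 (.cons 200 (.leaf 176 1415 (.cons 224 (.leaf 297 1604 (.cons 199 (.leaf 175 1407 (.cons 198 (.leaf 197 1576 (.cons 174 (.leaf 173 1387 (.cons 271 (.leaf 295 1598 (.leaf 223 1399 .nil)) .nil)) .nil)) .nil)) .nil)) .nil)) .nil)) .nil)) .nil)) (.cons 270 (.leaf 269 1962 (.cons 225 (.leaf 226 1777 (.cons 201 (.leaf 177 1414 (.cons 202 (.leaf 178 1421 (.cons 223 (.cons 199 (.leaf 175 1404 (.cons 294 (.leaf 271 1590 (.leaf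 318 1781 .nil)) .nil)) (.cons 224 (.leaf 222 1585 (.cons 203 (.leaf 204 1602 (.cons 294 (.leaf 318 1781 (.cons 271 (.leaf 293 2154 (.cons 297 (.leaf 298 2160 (.leaf 321 1799 .nil)) .nil)) .nil)) .nil)) .nil)) (.cons 199 (.leaf 175 1404 (.cons 224 (.leaf 222 1585 (.cons 297 (.leaf 321 1799 (.cons 298 (.leaf 271 2160 (.leaf 322 1804 .nil)) .nil)) .nil)) .nil)) (.cons 199 (.leaf 175 1404 (.cons 222 (.leaf 294 1589 (.leaf 224 1585 .nil)) .nil)) .nil)))) .nil)) .nil)) .nil)) .nil)) (.cons 225 (.leaf 226 1777 (.cons 201 (.leaf 177 1414 (.cons 178 (.leaf 202 1421 (.cons 200 (.leaf 176 1415 (.cons 297 (.leaf 224 1604 (.cons 269 (.leaf 270 1962 (.cons 321 (.leaf 345 1991 (.cons 322 (.leaf 298 1804 (.leaf 346 1996 .nil)) .nil)) .nil)) .nil)) .nil)) .nil)) .nil)) .nil)) .nil))))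
noncomputable def t177 : T := .cons 220 (.leaf 223 1760 (.leaf 219 1752 .nil)) (.cons 200 (.cons 224 (.leaf 297 1604 (.cons 201 (.leaf 177 1413 (.leaf 223 1577 .nil)) .nil)) (.cons 198 (.cons 174 (.leaf 271 1396 (.cons 149 (.leaf 173 1199 (.cons 150 (.leaf 223 1204 (.leaf 125 1007 .nil)) .nil)) .nil)) (.cons 199 (.leaf 201 1578 (.cons 223 (.leaf 175 1404 (.cons 271 (.leaf 176 1405 (.leaf 295 1591 .nil)) .nil)) .nil)) (.cons 199 (.leaf 201 1578 (.cons 175 (.leaf 223 1404 (.cons 151 (.leaf 174 1205 (.leaf 127 1014 .nil)) .nil)) .nil)) (.cons 174 (.leaf 271 1396 (.cons 149 (.leaf 173 1199 (.cons 150 (.leaf 125 1007 (.cons 151 (.leaf 175 1205 (.leaf 127 1013 .nil)) .nil)) .nil)) .nil)) .nil)))) (.cons 224 (.leaf 297 1604 (.cons 271 (.leaf 295 1598 (.leaf 176 1406 .nil)) .nil)) .nil))) (.cons 220 (.leaf 219 1752 (.cons 200 (.cons 224 (.leaf 297 1604 (.cons 271 (.leaf 295 1598 (.leaf 176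 1406 .nil)) .nil)) (.cons 198 (.cons 199 (.leaf 201 1578 (.leaf 197 1570 .nil)) (.cons 174 (.leaf 271 1396 (.cons 149 (.leaf 173 1199 (.cons 150 (.leaf 125 1007 (.cons 151 (.leaf 175 1205 (.leaf 127 1013 .nil)) .nil)) .nil)) .nil)) .nil)) (.cons 224 (.leaf 297 1604 (.cons 175 (.leaf 199 1407 (.cons 176 (.leaf 151 1215 (.cons 177 (.leaf 201 1413 (.leaf 153 1221 .nil)) .nil)) .nil)) .nil)) .nil))) .nil)) .nil))
noncomputable def t178 : T := .cons 200 (.leaf 297 1604 (.cons 176 (.leaf 271 1406 (.leaf 249 1412 .nil)) .nil)) (.cons 225 (.cons 226 (.leaf 227 1786 (.leaf 249 1777 .nil)) (.cons 201 (.cons 202 (.leaf 223 1585 (.cons 249 (.leaf 177 1414 (.leaf 221 1771 .nil)) .nil)) (.cons 223 (.leaf 202 1585 (.cons 175 (.leaf 199 1404 (.cons 198 (.leaf 197 1579 (.cons 174 (.leaf 150 1204 (.leaf 271 1396 .nil)) .nil)) .nil)) .nil)) (.cons 177 (.leaf 249 1414 (.leaf 153 1222 .nil)) .nil))) (.cons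 226 (.leaf 227 1786 (.leaf 223 1778 .nil)) .nil))) (.cons 200 (.leaf 297 1604 (.cons 271 (.leaf 295 1598 (.leaf 176 1406 .nil)) .nil)) (.cons 225 (.cons 226 (.leaf 227 1786 (.leaf 249 1777 .nil)) (.cons 226 (.leaf 227 1786 (.leaf 223 1778 .nil)) (.cons 201 (.cons 202 (.leaf 223 1585 (.cons 249 (.leaf 177 1414 (.leaf 221 1771 .nil)) .nil)) (.cons 223 (.leaf 202 1585 (.cons 175 (.leaf 199 1404 (.cons 198 (.leaf 197 1579 (.cons 174 (.leaf 150 1204 (.leaf 151 1205 .nil)) .nil)) .nil)) .nil)) (.cons 177 (.leaf 200 1413 (.leaf 249 1414 .nil)) .nil))) .nil))) .nil)))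
noncomputable def t179 : T := .cons 224 t178 (.cons 224 (.cons 200 (.leaf 297 1604 (.cons 176 (.leaf 271 1406 (.leaf 249 1412 .nil)) .nil)) (.cons 225 (.cons 226 (.leaf 227 1786 (.leaf 249 1777 .nil)) (.cons 201 (.cons 177 (.leaf 249 1414 (.leaf 153 1222 .nil)) (.cons 223 (.leaf 202 1585 (.cons 175 (.leaf 199 1404 (.cons 198 (.leaf 197 1579 (.cons 174 (.leaf 150 1204 (.leaf 271 1396 .nil)) .nil)) .nil)) .nil)) .nil)) (.cons 226 (.leaf 227 1786 (.leaf 223 1778 .nil)) .nil))) (.cons 225 (.cons 226 (.leaf 227 1786 (.leaf 249 1777 .nil)) (.cons 201 (.cons 177 (.leaf 200 1413 (.leaf 249 1414 .nil)) (.cons 177 (.leaf 249 1414 (.leaf 153 1222 .nil)) (.cons 223 (.leaf 202 1585 (.cons 175 (.leaf 199 1404 (.cons 198 (.leaf 197 1579 (.cons 174 (.leaf 150 1204 (.leaf 151 1205 .nil)) .nil)) .nil)) .nil)) .nil))) (.cons 226 (.leaf 227 1786 (.leaf 223 1778 .nil)) .nil))) (.cons 200 (.leaf 297 1604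 (.cons 271 (.leaf 295 1598 (.leaf 176 1406 .nil)) .nil)) .nil)))) (.cons 221 t177 (.cons 249 (.leaf 221 1771 (.cons 225 (.leaf 226 1777 (.cons 201 (.leaf 177 1414 (.cons 178 (.leaf 202 1421 (.cons 200 (.leaf 176 1415 (.cons 224 (.leaf 297 1604 (.cons 199 (.leaf 175 1407 (.cons 198 (.leaf 197 1576 (.cons 174 (.leaf 271 1396 (.leaf 173 1387 .nil)) .nil)) .nil)) .nil)) .nil)) .nil)) .nil)) .nil)) .nil)) (.cons 221 (.leaf 249 1771 (.cons 220 (.leaf 223 1760 (.leaf 219 1752 .nil)) .nil)) .nil))))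
noncomputable def t180 : T := .cons 270 (.leaf 298 2160 (.cons 269 (.leaf 244 1955 (.leaf 268 1953 .nil)) .nil)) (.cons 321 (.leaf 345 1991 (.cons 223 (.cons 199 (.leaf 175 1404 (.cons 198 (.leaf 174 1399 (.cons 200 (.leaf 224 1604 (.leaf 176 1405 .nil)) .nil)) .nil)) (.cons 199 (.leaf 175 1404 (.cons 198 (.leaf 174 1399 (.cons 200 (.leaf 176 1405 (.cons 222 (.leaf 295 1591 (.cons 221 (.leaf 220 1760 (.leaf 201 1578 .nil)) .nil)) .nil)) .nil)) .nil)) (.cons 199 (.leaf 175 1404 (.cons 198 (.leaf 174 1399 (.cons 222 (.leaf 295 1591 (.cons 221 (.leaf 220 1760 (.cons 224 (.leaf 244 1762 (.cons 197 (.leaf 196 1568 (.leaf 225 1579 .nil)) .nil)) .nil)) .nil)) .nil)) .nil)) (.cons 224 (.leaf 200 1604 (.cons 295 (.leaf 319 1789 (.cons 222 (.leaf 198 1591 (.cons 221 (.leaf 220 1760 (.leaf 244 1762 .nil)) .nil)) .nil)) .nil)) (.cons 200 (.leaf 224 1604 (.cons 199 (.leaf 175 1404 (.leaf 176 1405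 .nil)) .nil)) .nil))))) .nil)) (.cons 224 (.leaf 200 1604 (.cons 298 (.leaf 270 2160 (.cons 299 (.leaf 300 2179 (.cons 319 (.leaf 295 1789 (.cons 321 (.leaf 345 1991 (.cons 320 (.leaf 318 2353 (.leaf 322 2361 .nil)) .nil)) .nil)) .nil)) .nil)) .nil)) .nil))
noncomputable def t181 : T := .cons 270 (.cons 269 (.leaf 268 1953 (.cons 293 (.leaf 292 2146 (.leaf 294 2154 .nil)) .nil)) (.cons 245 (.leaf 246 1960 (.cons 269 (.leaf 244 1955 (.leaf 268 1953 .nil)) .nil)) (.cons 246 (.leaf 245 1960 (.cons 294 (.leaf 293 2154 (.cons 223 (.leaf 199 1590 (.leaf 318 1781 .nil)) .nil)) .nil)) .nil))) (.cons 224 (.cons 200 (.leaf 295 1598 (.leaf 297 1604 .nil)) (.cons 295 (.leaf 319 1789 (.cons 223 (.cons 198 (.leaf 222 1591 (.cons 294 (.leaf 318 1782 (.cons 293 (.leaf 270 2154 (.leaf 292 2145 .nil)) .nil)) .nil)) (.cons 198 (.leaf 222 1591 (.cons 199 (.leaf 175 1404 (.leaf 174 1399 .nil)) .nil))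 (.cons 175 (.leaf 199 1404 (.cons 294 (.leaf 318 1782 (.cons 293 (.leaf 270 2154 (.leaf 292 2145 .nil)) .nil)) .nil)) .nil))) .nil)) (.cons 200 (.leaf 297 1604 (.leaf 176 1406 .nil)) .nil))) (.cons 245 (.leaf 246 1960 (.cons 295 (.cons 319 (.leaf 343 1981 (.leaf 224 1789 .nil)) (.cons 319 (.leaf 343 1981 (.cons 318 (.leaf 342 1974 (.cons 223 (.leaf 294 1782 (.cons 198 (.leaf 222 1591 (.cons 199 (.leaf 175 1404 (.leaf 174 1399 .nil)) .nil)) .nil)) .nil)) .nil)) (.cons 223 (.cons 200 (.leaf 224 1597 (.cons 199 (.leaf 175 1404 (.leaf 176 1405 .nil)) .nil)) (.cons 199 (.leaf 175 1404 (.cons 198 (.leaf 174 1399 (.leaf 222 1591 .nil)) .nil)) (.cons 224 (.leaf 200 1597 (.cons 222 (.leaf 198 1591 (.cons 221 (.leaf 220 1760 (.leaf 244 1762 .nil)) .nil)) .nil)) .nil))) .nil))) .nil)) (.cons 270 (.cons 269 (.leaf 268 1953 (.cons 293 (.leaf 292 2146 (.leaf 294 2154 .nil)) .nil)) (.cons 246 (.leaf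 245 1960 (.cons 294 (.leaf 293 2154 (.cons 318 (.leaf 342 1973 (.cons 297 (.leaf 298 2160 (.cons 200 (.leaf 224 1604 (.cons 317 (.leaf 341 1966 (.cons 319 (.leaf 343 1972 (.cons 222 (.leaf 295 1780 (.cons 198 (.leaf 174 1396 (.cons 197 (.leaf 173 1391 (.leaf 221 1583 .nil)) .nil)) .nil)) .nil)) .nil)) .nil)) .nil)) .nil)) .nil)) .nil)) (.cons 245 (.leaf 246 1960 (.cons 269 (.leaf 244 1955 (.leaf 268 1953 .nil)) .nil)) .nil))) (.cons 245 (.leaf 246 1960 (.cons 297 t180 .nil)) (.cons 245 (.leaf 246 1960 (.cons 270 (.cons 269 (.leaf 244 1955 (.leaf 268 1953 .nil)) (.cons 294 (.leaf 293 2154 (.cons 223 (.leaf 199 1590 (.cons 297 (.leaf 298 2160 (.cons 224 (.leaf 200 1604 (.cons 295 (.leaf 319 1789 (.cons 222 (.leaf 198 1591 (.cons 221 (.leaf 220 1760 (.leaf 244 1762 .nil)) .nil)) .nil)) .nil)) .nil)) .nil)) .nil)) (.cons 269 (.leaf 268 1953 (.cons 293 (.leaf 292 2146 (.leaf 294 2154 .nil))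 .nil)) .nil))) .nil)) .nil)))))
noncomputable def t182 : T := .cons 271 (.cons 297 (.leaf 298 2160 (.cons 294 (.leaf 293 2154 (.cons 318 (.leaf 223 1781 (.leaf 342 1973 .nil)) .nil)) .nil)) (.cons 297 (.leaf 298 2160 (.cons 321 (.leaf 345 1991 (.cons 249 (.leaf 269 1961 (.leaf 224 1799 .nil)) .nil)) .nil)) (.cons 294 (.leaf 293 2154 (.cons 223 (.leaf 199 1590 (.leaf 318 1781 .nil)) .nil)) .nil))) (.cons 271 (.cons 297 (.leaf 298 2160 (.cons 294 (.leaf 293 2154 (.cons 318 (.leaf 223 1781 (.leaf 342 1973 .nil)) .nil)) .nil)) (.cons 297 (.leaf 298 2160 (.cons 321 (.leaf 345 1991 (.cons 249 (.leaf 224 1799 (.cons 222 (.leaf 221 1771 (.cons 198 (.leaf 174 1396 (.leaf 295 1588 .nil)) .nil)) .nil)) .nil)) .nil)) (.cons 294 (.leaf 293 2154 (.cons 223 (.leaf 199 1590 (.leaf 318 1781 .nil)) .nil)) .nil))) (.cons 294 (.cons 223 (.leaf 318 1781 (.cons 199 (.leaf 175 1404 (.leaf 271 1590 .nil))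 .nil)) (.cons 223 (.leaf 318 1781 (.cons 199 (.leaf 175 1404 (.leaf 222 1589 .nil)) .nil)) (.cons 293 (.leaf 271 2154 (.cons 222 (.leaf 317 1774 (.cons 197 (.leaf 221 1583 (.cons 198 (.leaf 173 1391 (.leaf 269 1582 .nil)) .nil)) .nil)) .nil)) .nil))) (.cons 249 (.leaf 269 1962 (.cons 222 (.leaf 221 1771 (.cons 225 (.leaf 226 1777 (.cons 201 (.leaf 177 1414 (.cons 202 (.leaf 178 1421 (.cons 223 (.leaf 224 1585 (.cons 199 (.leaf 175 1404 (.leaf 294 1589 .nil)) .nil)) .nil)) .nil)) .nil)) .nil)) .nil)) (.cons 269 (.leaf 249 1962 (.cons 268 (.leaf 271 1953 (.leaf 267 1945 .nil)) .nil)) .nil))))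
noncomputable def t183 : T := .cons 225 (.leaf 226 1777 (.cons 201 (.leaf 177 1414 (.cons 178 (.leaf 202 1421 (.cons 200 (.leaf 176 1415 (.cons 297 (.leaf 224 1604 (.cons 221 (.leaf 222 1771 (.cons 269 (.leaf 270 1962 (.cons 321 (.leaf 345 1991 (.cons 322 (.leaf 298 1804 (.leaf 346 1996 .nil)) .nil)) .nil)) .nil)) .nil)) .nil)) .nil)) .nil)) .nil)) (.cons 270 (.leaf 269 1962 (.cons 222 (.leaf 221 1771 (.cons 271 (.cons 198 (.leaf 174 1396 (.leaf 295 1588 .nil)) (.cons 174 (.leaf 198 1396 (.cons 293 (.leaf 294 2154 (.cons 297 (.leaf 298 2160 (.cons 224 (.leaf 200 1604 (.leaf 321 1799 .nil)) .nil)) .nil)) .nil)) (.cons 293 (.leaf 294 2154 (.cons 295 (.leaf 319 1783 (.cons 224 (.leaf 200 1598 (.cons 297 (.leaf 298 2160 (.leaf 321 1799 .nil)) .nil)) .nil)) .nil)) .nil))) .nil)) .nil)) (.cons 225 (.leaf 226 1777 (.cons 201 (.leaf 177 1414 (.cons 178 (.leaf 202 1421 (.cons 200 (.leaf 176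 1415 (.cons 297 (.leaf 224 1604 (.cons 221 (.leaf 222 1771 (.cons 321 (.leaf 345 1991 (.cons 322 (.leaf 298 1804 (.leaf 346 1996 .nil)) .nil)) .nil)) .nil)) .nil)) .nil)) .nil)) .nil)) (.cons 225 (.leaf 226 1777 (.cons 201 (.leaf 177 1414 (.cons 178 (.leaf 202 1421 (.cons 200 (.leaf 176 1415 (.cons 297 (.leaf 224 1604 (.cons 269 (.leaf 270 1962 (.cons 321 (.leaf 345 1991 (.cons 322 (.leaf 298 1804 (.leaf 346 1996 .nil)) .nil)) .nil)) .nil)) .nil)) .nil)) .nil)) .nil)) (.cons 270 (.leaf 269 1962 (.cons 225 (.leaf 226 1777 (.cons 201 (.leaf 177 1414 (.cons 222 (.leaf 221 1771 (.cons 271 (.cons 198 (.leaf 174 1396 (.leaf 295 1588 .nil)) (.cons 174 (.leaf 198 1396 (.cons 176 (.leaf 200 1415 (.cons 178 (.leaf 202 1421 (.cons 294 (.leaf 293 2154 (.cons 318 (.leaf 223 1781 (.leaf 342 1973 .nil)) .nil)) .nil)) .nil)) .nil)) (.cons 176 (.leaf 200 1415 (.cons 178 (.leaf 202 1421 (.cons 294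 (.leaf 293 2154 (.cons 295 (.leaf 319 1780 (.cons 318 (.leaf 223 1781 (.leaf 342 1973 .nil)) .nil)) .nil)) .nil)) .nil)) .nil))) .nil)) .nil)) .nil)) .nil)) (.cons 225 (.leaf 226 1777 (.cons 201 (.leaf 177 1414 (.cons 202 (.leaf 178 1421 (.cons 222 (.leaf 221 1771 (.cons 223 (.leaf 224 1585 (.cons 270 (.leaf 269 1962 (.cons 294 (.leaf 318 1781 (.cons 293 (.leaf 271 2154 (.leaf 317 1774 .nil)) .nil)) .nil)) .nil)) .nil)) .nil)) .nil)) .nil)) .nil)))))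
noncomputable def t184 : T := .cons 270 (.leaf 269 1962 (.cons 225 (.leaf 226 1777 (.cons 201 (.leaf 177 1414 (.cons 222 (.leaf 221 1771 (.cons 202 (.leaf 178 1421 (.cons 294 (.cons 293 (.leaf 271 2154 (.leaf 317 1774 .nil)) (.cons 176 (.leaf 200 1415 (.cons 317 (.leaf 293 1774 (.cons 318 (.leaf 341 1966 (.cons 319 (.leaf 295 1780 (.leaf 343 1972 .nil)) .nil)) .nil)) .nil)) (.cons 295 (.leaf 319 1780 (.cons 198 (.leaf 271 1588 (.cons 173 (.leaf 197 1391 (.cons 174 (.leaf 149 1199 (.cons 175 (.leaf 151 1205 (.leaf 199 1397 .nil)) .nil)) .nil)) .nil)) .nil)) .nil))) .nil)) .nil)) .nil)) .nil)) .nil)) (.cons 270 (.leaf 269 1962 (.cons 222 (.leaf 221 1771 (.cons 271 (.cons 198 (.leaf 174 1396 (.leaf 295 1588 .nil)) (.cons 174 (.leaf 198 1396 (.cons 293 (.leaf 294 2154 (.cons 297 (.leaf 298 2160 (.cons 224 (.leaf 200 1604 (.leaf 321 1799 .nil)) .nil)) .nil)) .nil)) (.cons 293 (.leaf 294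 2154 (.cons 295 (.leaf 319 1783 (.cons 224 (.leaf 200 1598 (.cons 297 (.leaf 298 2160 (.leaf 321 1799 .nil)) .nil)) .nil)) .nil)) .nil))) .nil)) .nil)) (.cons 225 (.leaf 226 1777 (.cons 201 (.leaf 177 1414 (.cons 178 (.leaf 202 1421 (.cons 200 (.leaf 176 1415 (.cons 297 (.leaf 224 1604 (.cons 221 (.leaf 222 1771 (.cons 321 (.leaf 345 1991 (.cons 322 (.leaf 298 1804 (.leaf 346 1996 .nil)) .nil)) .nil)) .nil)) .nil)) .nil)) .nil)) .nil)) (.cons 225 (.leaf 226 1777 (.cons 201 (.leaf 177 1414 (.cons 178 (.leaf 202 1421 (.cons 200 (.leaf 176 1415 (.cons 297 (.leaf 224 1604 (.cons 269 (.leaf 270 1962 (.cons 321 (.leaf 345 1991 (.cons 322 (.leaf 298 1804 (.leaf 346 1996 .nil)) .nil)) .nil)) .nil)) .nil)) .nil)) .nil)) .nil)) (.cons 270 (.leaf 269 1962 (.cons 225 (.leaf 226 1777 (.cons 201 (.leaf 177 1414 (.cons 222 (.leaf 221 1771 (.cons 202 (.leaf 178 1421 (.cons 271 (.cons 198 (.leaf 174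 1396 (.leaf 295 1588 .nil)) (.cons 174 (.leaf 198 1396 (.cons 294 (.leaf 293 2154 (.cons 297 (.leaf 298 2160 (.cons 321 (.leaf 345 1991 (.leaf 224 1799 .nil)) .nil)) .nil)) .nil)) (.cons 293 (.leaf 294 2154 (.cons 297 (.leaf 298 2160 (.cons 321 (.leaf 345 1991 (.leaf 224 1799 .nil)) .nil)) .nil)) .nil))) .nil)) .nil)) .nil)) .nil)) .nil)) .nil))))
noncomputable def t185 : T := .cons 249 (.leaf 269 1962 (.cons 222 (.leaf 221 1771 (.cons 225 (.leaf 226 1777 (.cons 201 (.leaf 177 1414 (.cons 271 (.cons 198 (.leaf 174 1396 (.leaf 295 1588 .nil)) (.cons 174 (.leaf 198 1396 (.cons 176 (.leaf 200 1415 (.cons 178 (.leaf 202 1421 (.cons 294 (.leaf 293 2154 (.cons 223 (.leaf 199 1589 (.leaf 318 1781 .nil)) .nil)) .nil)) .nil)) .nil)) (.cons 176 (.leaf 200 1415 (.cons 178 (.leaf 202 1421 (.cons 294 (.leaf 293 2154 (.cons 295 (.leaf 319 1780 (.cons 223 (.leaf 199 1589 (.leaf 318 1781 .nil)) .nil))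 .nil)) .nil)) .nil)) .nil))) .nil)) .nil)) .nil)) .nil)) (.cons 294 (.cons 293 (.leaf 271 2154 (.cons 222 (.leaf 317 1774 (.cons 221 (.leaf 249 1771 (.leaf 197 1583 .nil)) .nil)) .nil)) (.cons 223 (.leaf 318 1781 (.cons 199 (.leaf 175 1404 (.leaf 222 1589 .nil)) .nil)) (.cons 271 (.leaf 293 2154 (.cons 223 (.leaf 199 1590 (.leaf 318 1781 .nil)) .nil)) .nil))) (.cons 294 (.cons 271 (.leaf 293 2154 (.cons 268 (.leaf 269 1953 (.cons 297 (.leaf 298 2160 (.cons 318 (.leaf 223 1781 (.leaf 342 1973 .nil)) .nil)) .nil)) .nil)) (.cons 223 (.leaf 318 1781 (.cons 199 (.leaf 175 1404 (.leaf 222 1589 .nil)) .nil)) (.cons 271 (.leaf 293 2154 (.cons 268 (.leaf 269 1953 (.cons 297 (.leaf 298 2160 (.cons 318 (.leaf 342 1973 (.cons 317 (.leaf 341 1966 (.cons 319 (.leaf 343 1972 (.cons 222 (.leaf 295 1780 (.cons 197 (.leaf 221 1583 (.cons 198 (.leaf 174 1396 (.leaf 173 1391 .nil)) .nil)) .nil)) .nil))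 .nil)) .nil)) .nil)) .nil)) .nil)) (.cons 293 (.leaf 271 2154 (.cons 222 (.leaf 317 1774 (.cons 197 (.leaf 221 1583 (.cons 198 (.leaf 173 1391 (.leaf 269 1582 .nil)) .nil)) .nil)) .nil)) .nil)))) (.cons 249 (.leaf 269 1962 (.cons 222 (.leaf 221 1771 (.cons 225 (.leaf 226 1777 (.cons 201 (.leaf 177 1414 (.cons 200 (.leaf 176 1415 (.cons 202 (.leaf 178 1421 (.cons 199 (.leaf 223 1586 (.cons 175 (.leaf 198 1397 (.leaf 174 1395 .nil)) .nil)) .nil)) .nil)) .nil)) .nil)) .nil)) .nil)) (.cons 269 (.leaf 249 1962 (.cons 268 (.leaf 271 1953 (.leaf 267 1945 .nil)) .nil)) .nil))))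
noncomputable def t186 : T := .cons 225 (.leaf 226 1777 (.cons 222 (.leaf 221 1771 (.cons 270 (.leaf 269 1962 (.cons 201 (.leaf 177 1414 (.cons 200 (.leaf 176 1415 (.cons 202 (.leaf 178 1421 (.cons 199 (.leaf 223 1586 (.cons 175 (.leaf 224 1407 (.leaf 198 1397 .nil)) .nil)) .nil)) .nil)) .nil)) .nil)) .nil)) .nil)) (.cons 222 (.leaf 221 1771 (.cons 270 (.leaf 269 1962 (.cons 199 (.cons 175 (.leaf 223 1404 (.leaf 198 1397 .nil)) (.cons 294 (.leaf 223 1589 (.cons 293 (.leaf 317 1774 (.cons 319 (.leaf 295 1780 (.cons 318 (.leaf 343 1972 (.cons 321 (.leaf 320 2347 (.cons 297 (.leaf 345 1991 (.leaf 224 1799 .nil)) .nil)) .nil)) .nil)) .nil)) .nil)) (.cons 198 (.leaf 175 1397 (.cons 173 (.leaf 197 1391 (.cons 174 (.leaf 149 1199 (.cons 200 (.leaf 201 1387 (.cons 224 (.leaf 297 1604 (.leaf 176 1412 .nil)) .nil)) .nil)) .nil)) .nil)) .nil))) .nil)) .nil)) (.cons 225 (.leaf 226 1777 (.cons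 201 (.leaf 177 1414 (.cons 178 (.leaf 202 1421 (.cons 200 (.leaf 176 1415 (.cons 297 (.leaf 224 1604 (.cons 269 (.leaf 270 1962 (.cons 321 (.leaf 345 1991 (.cons 322 (.leaf 298 1804 (.leaf 346 1996 .nil)) .nil)) .nil)) .nil)) .nil)) .nil)) .nil)) .nil)) (.cons 225 (.leaf 226 1777 (.cons 201 (.leaf 177 1414 (.cons 178 (.leaf 202 1421 (.cons 200 (.leaf 176 1415 (.cons 297 (.leaf 224 1604 (.cons 221 (.leaf 222 1771 (.cons 321 (.leaf 345 1991 (.cons 322 (.leaf 298 1804 (.leaf 346 1996 .nil)) .nil)) .nil)) .nil)) .nil)) .nil)) .nil)) .nil)) (.cons 225 (.leaf 226 1777 (.cons 201 (.leaf 177 1414 (.cons 200 (.leaf 176 1415 (.cons 202 (.leaf 178 1421 (.cons 222 (.leaf 221 1771 (.cons 199 (.leaf 223 1586 (.cons 175 (.leaf 174 1395 (.cons 270 (.leaf 269 1962 (.leaf 198 1397 .nil)) .nil)) .nil)) .nil)) .nil)) .nil)) .nil)) .nil)) (.cons 225 (.leaf 226 1777 (.cons 201 (.leaf 177 1414 (.cons 202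 (.leaf 178 1421 (.cons 222 (.leaf 221 1771 (.cons 223 (.leaf 224 1585 (.cons 199 (.leaf 175 1404 (.cons 270 (.leaf 269 1962 (.leaf 294 1589 .nil)) .nil)) .nil)) .nil)) .nil)) .nil)) .nil)) (.cons 225 (.leaf 226 1777 (.cons 222 (.leaf 221 1771 (.cons 270 (.leaf 269 1962 (.cons 198 (.cons 175 (.leaf 199 1397 (.cons 174 (.leaf 151 1205 (.cons 149 (.leaf 173 1199 (.cons 150 (.leaf 223 1204 (.leaf 125 1007 .nil)) .nil)) .nil)) .nil)) (.cons 197 (.leaf 173 1391 (.cons 224 (.leaf 223 1579 (.cons 200 (.leaf 297 1604 (.leaf 176 1412 .nil)) .nil)) .nil)) (.cons 175 (.leaf 199 1397 (.cons 173 (.leaf 197 1391 (.cons 174 (.leaf 149 1199 (.leaf 151 1205 .nil)) .nil)) .nil)) (.cons 199 (.leaf 175 1397 (.cons 223 (.leaf 294 1589 (.cons 224 (.leaf 197 1579 (.cons 200 (.leaf 297 1604 (.leaf 176 1412 .nil)) .nil)) .nil)) .nil)) .nil)))) .nil)) .nil)) .nil)) .nil))))))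
noncomputable def t187 : T := .cons 224 (.cons 200 (.leaf 295 1598 (.leaf 297 1604 .nil)) (.cons 295 (.leaf 319 1789 (.cons 270 (.cons 269 (.leaf 249 1961 (.leaf 268 1953 .nil)) (.cons 293 (.leaf 294 2154 (.cons 297 (.leaf 298 2160 (.cons 321 (.leaf 345 1991 (.leaf 249 1799 .nil)) .nil)) .nil)) (.cons 268 (.leaf 269 1953 (.cons 294 (.leaf 293 2154 (.cons 223 (.leaf 199 1590 (.leaf 318 1782 .nil)) .nil)) .nil)) .nil))) .nil)) (.cons 200 (.leaf 297 1604 (.leaf 176 1406 .nil)) (.cons 295 (.leaf 200 1598 (.leaf 319 1789 .nil)) .nil)))) (.cons 270 (.cons 269 (.leaf 249 1961 (.leaf 268 1953 .nil)) (.cons 294 (.leaf 293 2154 (.cons 223 (.leaf 199 1590 (.cons 318 (.leaf 295 1782 (.leaf 342 1973 .nil)) .nil)) .nil)) .nil)) (.cons 295 (.cons 319 (.leaf 343 1981 (.leaf 224 1789 .nil)) (.cons 319 (.leaf 343 1981 (.cons 318 (.leaf 342 1974 (.cons 223 (.leaf 294 1782 (.cons 198 (.leaf 222 1591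 (.cons 199 (.leaf 175 1404 (.leaf 174 1399 .nil)) .nil)) .nil)) .nil)) .nil)) (.cons 223 (.cons 198 (.leaf 222 1591 (.cons 199 (.leaf 175 1404 (.leaf 174 1399 .nil)) .nil)) (.cons 224 (.leaf 200 1597 (.cons 222 (.leaf 198 1591 (.cons 221 (.leaf 220 1760 (.leaf 249 1768 .nil)) .nil)) .nil)) (.cons 200 (.leaf 224 1597 (.cons 199 (.leaf 175 1404 (.leaf 176 1405 .nil)) .nil)) .nil))) .nil))) (.cons 270 (.cons 269 (.leaf 249 1961 (.leaf 268 1953 .nil)) (.cons 297 (.leaf 298 2160 (.cons 224 (.leaf 200 1604 (.cons 321 (.leaf 345 1991 (.leaf 249 1799 .nil)) .nil)) .nil)) (.cons 269 (.leaf 268 1953 (.cons 293 (.leaf 292 2146 (.leaf 294 2154 .nil)) .nil)) .nil))) (.cons 297 (.cons 224 (.leaf 200 1604 (.cons 321 (.leaf 345 1991 (.leaf 249 1799 .nil)) .nil)) (.cons 270 (.leaf 298 2160 (.cons 269 (.leaf 249 1961 (.leaf 268 1953 .nil)) .nil)) (.cons 224 (.leaf 200 1604 (.cons 319 (.leaf 295 1789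 (.cons 298 (.leaf 270 2160 (.cons 299 (.leaf 300 2179 (.cons 321 (.leaf 345 1991 (.cons 320 (.leaf 318 2353 (.leaf 322 2361 .nil)) .nil)) .nil)) .nil)) .nil)) .nil)) .nil))) (.cons 224 (.cons 200 (.leaf 295 1598 (.leaf 297 1604 .nil)) (.cons 295 (.leaf 319 1789 (.cons 223 (.cons 198 (.leaf 222 1591 (.cons 294 (.leaf 318 1782 (.cons 293 (.leaf 270 2154 (.leaf 292 2145 .nil)) .nil)) .nil)) (.cons 198 (.leaf 222 1591 (.cons 199 (.leaf 175 1404 (.leaf 174 1399 .nil)) .nil)) (.cons 175 (.leaf 199 1404 (.cons 294 (.leaf 318 1782 (.cons 293 (.leaf 270 2154 (.leaf 292 2145 .nil)) .nil)) .nil)) .nil))) .nil)) (.cons 200 (.leaf 297 1604 (.leaf 176 1406 .nil)) .nil))) .nil)))))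
noncomputable def t188 : T := .cons 200 (.leaf 176 1405 (.cons 224 (.leaf 295 1597 (.cons 174 (.leaf 198 1399 (.cons 201 (.leaf 177 1413 (.cons 202 (.leaf 222 1586 (.leaf 203 1594 .nil)) .nil)) .nil)) .nil)) .nil)) (.cons 198 (.leaf 174 1399 (.cons 222 (.leaf 295 1591 (.cons 221 (.leaf 220 1760 (.cons 249 (.leaf 224 1768 (.leaf 246 1771 .nil)) .nil)) .nil)) .nil)) (.cons 200 (.leaf 176 1405 (.cons 224 (.leaf 295 1597 (.cons 201 (.leaf 177 1413 (.cons 202 (.leaf 222 1586 (.leaf 203 1594 .nil)) .nil)) .nil)) .nil)) (.cons 200 (.leaf 176 1405 (.cons 198 (.leaf 174 1399 (.cons 201 (.cons 177 (.leaf 224 1413 (.leaf 178 1393 .nil)) (.cons 222 (.leaf 202 1586 (.leaf 221 1578 .nil)) .nil)) .nil)) .nil)) (.cons 198 (.leaf 174 1399 (.cons 200 (.leaf 176 1405 (.cons 222 (.leaf 295 1591 (.cons 221 (.leaf 220 1760 (.leaf 201 1578 .nil)) .nil)) .nil)) .nil)) (.cons 200 (.leaf 176 1405 (.cons 224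 (.leaf 295 1597 (.cons 174 (.leaf 198 1399 (.cons 201 (.leaf 177 1413 (.cons 202 (.leaf 203 1594 (.cons 178 (.leaf 179 1401 (.cons 226 (.leaf 227 1592 (.cons 225 (.leaf 246 1778 (.cons 154 (.leaf 130 1038 (.leaf 249 1230 .nil)) .nil)) .nil)) .nil)) .nil)) .nil)) .nil)) .nil)) .nil)) .nil)))))
noncomputable def t189 : T := .cons 270 (.cons 269 (.leaf 249 1962 (.cons 268 (.leaf 245 1954 (.leaf 267 1945 .nil)) .nil)) (.cons 294 (.leaf 318 1781 (.leaf 222 1589 .nil)) .nil)) (.cons 245 (.cons 224 (.leaf 225 1769 (.leaf 244 1761 .nil)) (.cons 220 (.leaf 221 1763 (.cons 244 (.leaf 219 1755 (.cons 268 (.leaf 269 1954 (.leaf 267 1946 .nil)) .nil)) .nil)) (.cons 220 (.leaf 221 1763 (.cons 225 (.leaf 224 1769 (.cons 249 (.leaf 226 1777 (.cons 269 (.leaf 268 1954 (.leaf 270 1962 .nil)) .nil)) .nil)) .nil)) .nil))) (.cons 222 (.cons 270 (.leaf 294 1589 (.cons 249 (.leaf 221 1771 (.leaf 269 1962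 .nil)) .nil)) (.cons 270 (.leaf 294 1589 (.cons 249 (.leaf 269 1962 (.cons 225 (.leaf 226 1777 (.cons 201 (.leaf 177 1414 (.cons 202 (.leaf 200 1586 (.leaf 224 1585 .nil)) .nil)) .nil)) .nil)) .nil)) (.cons 221 (.leaf 220 1760 (.leaf 249 1771 .nil)) (.cons 221 (.leaf 220 1760 (.cons 270 (.leaf 294 1589 (.cons 197 (.cons 173 (.leaf 149 1196 (.leaf 198 1391 .nil)) (.cons 149 (.leaf 173 1196 (.cons 224 (.leaf 196 1571 (.cons 201 (.leaf 200 1577 (.cons 225 (.leaf 226 1778 (.leaf 202 1585 .nil)) .nil)) .nil)) .nil)) (.cons 196 (.leaf 224 1571 (.cons 195 (.leaf 198 1560 (.leaf 194 1552 .nil)) .nil)) .nil))) .nil)) .nil)) .nil)))) (.cons 245 (.cons 224 (.leaf 225 1769 (.leaf 244 1761 .nil)) (.cons 220 (.leaf 221 1763 (.cons 244 (.leaf 219 1755 (.cons 268 (.leaf 269 1954 (.leaf 267 1946 .nil)) .nil)) .nil)) (.cons 225 (.leaf 224 1769 (.cons 221 (.leaf 220 1763 (.cons 249 (.leaf 222 1771 (.leaf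 226 1777 .nil)) .nil)) .nil)) .nil))) (.cons 245 (.cons 220 (.leaf 221 1763 (.cons 244 (.leaf 219 1755 (.leaf 224 1761 .nil)) .nil)) (.cons 220 (.leaf 221 1763 (.cons 244 (.leaf 219 1755 (.cons 268 (.leaf 269 1954 (.leaf 267 1946 .nil)) .nil)) .nil)) (.cons 224 (.leaf 225 1769 (.cons 221 (.leaf 220 1763 (.cons 269 (.leaf 268 1954 (.cons 197 (.cons 196 (.leaf 198 1568 (.leaf 222 1571 .nil)) (.cons 270 (.leaf 173 1388 (.leaf 294 1580 .nil)) .nil)) .nil)) .nil)) .nil)) (.cons 224 (.leaf 225 1769 (.leaf 244 1761 .nil)) .nil)))) (.cons 245 (.cons 220 (.leaf 221 1763 (.cons 244 (.leaf 219 1755 (.leaf 224 1761 .nil)) .nil)) (.cons 220 (.leaf 221 1763 (.cons 244 (.leaf 219 1755 (.cons 243 (.leaf 222 1753 (.cons 267 (.leaf 268 1946 (.leaf 266 1938 .nil)) .nil)) .nil)) .nil)) (.cons 224 (.leaf 225 1769 (.leaf 244 1761 .nil)) (.cons 221 (.leaf 220 1763 (.cons 222 (.leaf 249 1771 (.cons 224 (.leaf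 225 1769 (.cons 197 (.leaf 196 1571 (.cons 270 (.leaf 294 1589 (.leaf 173 1388 .nil)) .nil)) .nil)) .nil)) .nil)) .nil)))) .nil)))))
noncomputable def t190 : T := .cons 270 (.cons 249 (.leaf 221 1771 (.leaf 269 1962 .nil)) (.cons 249 (.leaf 269 1962 (.cons 225 (.leaf 226 1777 (.cons 177 (.leaf 201 1414 (.cons 294 (.leaf 318 1781 (.cons 293 (.leaf 317 1774 (.cons 295 (.leaf 319 1780 (.cons 271 (.leaf 292 2145 (.leaf 198 1588 .nil)) .nil)) .nil)) .nil)) .nil)) .nil)) .nil)) (.cons 294 (.leaf 318 1781 (.cons 293 (.leaf 317 1774 (.cons 295 (.leaf 319 1780 (.cons 271 (.leaf 292 2145 (.leaf 198 1588 .nil)) .nil)) .nil)) .nil)) .nil))) (.cons 270 (.cons 249 (.leaf 269 1962 (.cons 225 (.leaf 226 1777 (.cons 177 (.leaf 201 1414 (.cons 294 (.leaf 318 1781 (.cons 293 (.leaf 317 1774 (.cons 295 (.leaf 319 1780 (.cons 271 (.leaf 292 2145 (.leaf 198 1588 .nil)) .nil)) .nil)) .nil)) .nil)) .nil))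 .nil)) (.cons 294 (.leaf 318 1781 (.cons 293 (.leaf 317 1774 (.cons 295 (.leaf 319 1780 (.cons 271 (.leaf 292 2145 (.leaf 198 1588 .nil)) .nil)) .nil)) .nil)) (.cons 269 (.leaf 249 1962 (.cons 198 (.leaf 293 1582 (.cons 173 (.leaf 197 1391 (.cons 174 (.leaf 150 1204 (.leaf 149 1199 .nil)) .nil)) .nil)) .nil)) (.cons 269 (.leaf 249 1962 (.cons 268 (.leaf 271 1953 (.leaf 267 1945 .nil)) .nil)) .nil)))) (.cons 221 (.leaf 220 1760 (.cons 197 (.cons 196 (.leaf 224 1571 (.cons 195 (.leaf 198 1560 (.leaf 194 1552 .nil)) .nil)) (.cons 173 (.leaf 149 1196 (.cons 270 (.leaf 198 1391 (.leaf 294 1583 .nil)) .nil)) (.cons 149 (.leaf 173 1196 (.cons 224 (.leaf 196 1571 (.cons 200 (.leaf 201 1577 (.cons 271 (.leaf 295 1597 (.leaf 176 1406 .nil)) .nil)) .nil)) .nil)) .nil))) .nil)) (.cons 221 (.leaf 220 1760 (.leaf 249 1771 .nil)) .nil)))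
noncomputable def t191 : T := .cons 245 (.cons 224 (.leaf 225 1769 (.leaf 244 1761 .nil)) (.cons 224 (.leaf 225 1769 (.cons 221 (.leaf 220 1763 (.cons 222 (.leaf 249 1768 (.cons 200 (.leaf 201 1577 (.cons 271 (.leaf 295 1597 (.leaf 176 1406 .nil)) .nil)) .nil)) .nil)) .nil)) (.cons 244 (.leaf 271 1952 (.cons 268 (.leaf 269 1954 (.leaf 267 1946 .nil)) .nil)) .nil))) (.cons 222 t190 (.cons 245 (.cons 244 (.leaf 271 1952 (.cons 268 (.leaf 269 1954 (.leaf 267 1946 .nil)) .nil)) (.cons 221 (.leaf 220 1763 (.cons 222 (.leaf 249 1771 (.cons 269 (.leaf 268 1954 (.cons 198 (.leaf 174 1390 (.leaf 293 1581 .nil)) .nil)) .nil)) .nil)) (.cons 220 (.leaf 221 1763 (.cons 244 (.leaf 271 1952 (.leaf 219 1755 .nil)) .nil)) .nil))) (.cons 245 (.cons 220 (.leaf 221 1763 (.cons 225 (.leaf 224 1769 (.cons 249 (.leaf 226 1777 (.cons 269 (.leaf 268 1954 (.leaf 270 1962 .nil)) .nil)) .nil)) .nil)) (.cons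 220 (.leaf 221 1763 (.cons 244 (.leaf 271 1952 (.leaf 219 1755 .nil)) .nil)) (.cons 224 (.leaf 225 1769 (.leaf 244 1761 .nil)) .nil))) (.cons 245 (.cons 244 (.leaf 271 1952 (.leaf 224 1761 .nil)) (.cons 225 (.leaf 224 1769 (.cons 249 (.leaf 226 1777 (.cons 269 (.leaf 268 1954 (.leaf 270 1962 .nil)) .nil)) .nil)) (.cons 244 (.leaf 271 1952 (.cons 268 (.leaf 269 1954 (.leaf 267 1946 .nil)) .nil)) .nil))) (.cons 245 (.cons 220 (.leaf 221 1763 (.cons 225 (.leaf 224 1769 (.cons 249 (.leaf 226 1777 (.cons 269 (.leaf 268 1954 (.leaf 270 1962 .nil)) .nil)) .nil)) .nil)) (.cons 220 (.leaf 221 1763 (.cons 244 (.leaf 219 1755 (.cons 268 (.leaf 269 1954 (.leaf 267 1946 .nil)) .nil)) .nil)) (.cons 225 (.leaf 224 1769 (.cons 249 (.leaf 226 1777 (.cons 269 (.leaf 268 1954 (.leaf 270 1962 .nil)) .nil)) .nil)) (.cons 224 (.leaf 225 1769 (.leaf 244 1761 .nil)) .nil)))) (.cons 245 (.cons 224 (.leaf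 225 1769 (.leaf 244 1761 .nil)) (.cons 224 (.leaf 225 1769 (.cons 221 (.leaf 220 1763 (.cons 269 (.leaf 268 1954 (.cons 200 (.cons 271 (.leaf 295 1597 (.leaf 176 1406 .nil)) (.cons 201 (.leaf 177 1413 (.leaf 222 1577 .nil)) .nil)) .nil)) .nil)) .nil)) (.cons 220 (.leaf 221 1763 (.cons 244 (.leaf 271 1952 (.leaf 219 1755 .nil)) .nil)) .nil))) (.cons 245 (.cons 220 (.leaf 221 1763 (.cons 244 (.leaf 271 1952 (.leaf 219 1755 .nil)) .nil)) (.cons 221 (.leaf 220 1763 (.cons 222 (.leaf 249 1771 (.cons 224 (.leaf 225 1769 (.cons 200 (.leaf 201 1577 (.cons 271 (.leaf 295 1597 (.leaf 176 1406 .nil)) .nil)) .nil)) .nil)) .nil)) (.cons 244 (.leaf 271 1952 (.leaf 224 1761 .nil)) (.cons 224 (.leaf 225 1769 (.leaf 244 1761 .nil)) .nil)))) .nil)))))))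
noncomputable def t192 : T := .cons 199 (.leaf 175 1404 (.cons 271 (.cons 270 (.leaf 294 1590 (.cons 269 (.leaf 249 1961 (.leaf 268 1953 .nil)) .nil)) (.cons 200 (.leaf 176 1405 (.cons 224 (.leaf 295 1597 (.cons 174 (.leaf 198 1399 (.cons 201 (.leaf 177 1413 (.cons 202 (.leaf 222 1586 (.leaf 203 1594 .nil)) .nil)) .nil)) .nil)) .nil)) .nil)) .nil)) (.cons 246 t191 (.cons 199 (.leaf 175 1404 (.cons 271 (.cons 270 (.leaf 294 1590 (.cons 269 (.leaf 249 1961 (.leaf 268 1953 .nil)) .nil)) (.cons 198 (.leaf 174 1399 (.cons 200 (.leaf 176 1405 (.cons 222 (.leaf 295 1591 (.cons 221 (.leaf 220 1760 (.leaf 201 1578 .nil)) .nil)) .nil)) .nil)) .nil)) .nil)) (.cons 199 (.leaf 175 1404 (.cons 246 t189 .nil)) (.cons 199 (.leaf 175 1404 (.cons 271 (.cons 270 (.leaf 294 1590 (.cons 269 (.leaf 249 1961 (.leaf 268 1953 .nil)) .nil)) (.cons 174 (.leaf 198 1399 (.cons 200 (.leaf 176 1405 (.cons 224 (.leaf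 295 1597 (.cons 201 (.leaf 177 1413 (.cons 202 (.leaf 203 1594 (.cons 178 (.leaf 179 1401 (.cons 226 (.leaf 227 1592 (.cons 225 (.leaf 246 1778 (.cons 154 (.leaf 130 1038 (.leaf 249 1230 .nil)) .nil)) .nil)) .nil)) .nil)) .nil)) .nil)) .nil)) .nil)) (.cons 174 (.leaf 198 1399 (.cons 294 (.leaf 270 1590 (.cons 295 (.leaf 318 1782 (.cons 319 (.leaf 343 1981 (.leaf 224 1789 .nil)) .nil)) .nil)) .nil)) .nil))) .nil)) (.cons 199 (.leaf 175 1404 (.cons 271 (.cons 198 (.leaf 174 1399 (.cons 222 (.leaf 295 1591 (.cons 221 (.leaf 220 1760 (.cons 249 (.leaf 224 1768 (.leaf 246 1771 .nil)) .nil)) .nil)) .nil)) (.cons 270 (.leaf 294 1590 (.cons 269 (.leaf 249 1961 (.leaf 268 1953 .nil)) .nil)) (.cons 174 (.leaf 198 1399 (.cons 294 (.leaf 270 1590 (.cons 295 (.leaf 318 1782 (.cons 319 (.leaf 343 1981 (.leaf 224 1789 .nil)) .nil)) .nil)) .nil)) .nil))) .nil)) (.cons 199 (.leaf 175 1404 (.cons 271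 t188 .nil)) (.cons 199 (.leaf 175 1404 (.cons 271 (.cons 270 (.leaf 294 1590 (.cons 269 (.leaf 249 1961 (.leaf 268 1953 .nil)) .nil)) (.cons 200 (.leaf 176 1405 (.cons 224 (.leaf 295 1597 (.cons 201 (.leaf 177 1413 (.cons 202 (.leaf 222 1586 (.leaf 203 1594 .nil)) .nil)) .nil)) .nil)) .nil)) .nil)) (.cons 199 (.leaf 175 1404 (.cons 271 (.cons 176 (.leaf 200 1405 (.cons 294 (.leaf 270 1590 (.cons 295 (.leaf 318 1782 (.cons 319 (.leaf 343 1981 (.leaf 224 1789 .nil)) .nil)) .nil)) .nil)) (.cons 174 (.leaf 198 1399 (.cons 294 (.leaf 270 1590 (.cons 295 (.leaf 318 1782 (.cons 319 (.leaf 343 1981 (.leaf 224 1789 .nil)) .nil)) .nil)) .nil)) (.cons 176 (.leaf 200 1405 (.cons 198 (.leaf 174 1399 (.cons 270 (.leaf 294 1590 (.cons 269 (.leaf 268 1953 (.cons 245 (.leaf 244 1955 (.cons 293 (.leaf 292 2146 (.cons 222 (.leaf 221 1581 (.leaf 246 1582 .nil)) .nil)) .nil)) .nil)) .nil)) .nil)) .nil))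 (.cons 200 (.leaf 176 1405 (.cons 224 (.leaf 295 1597 (.cons 201 (.leaf 177 1413 (.cons 202 (.leaf 222 1586 (.leaf 203 1594 .nil)) .nil)) .nil)) .nil)) .nil)))) .nil)) .nil))))))))
noncomputable def t193 : T := .cons 224 (.leaf 200 1604 (.cons 270 (.leaf 298 2160 (.cons 268 (.leaf 269 1953 (.cons 294 (.leaf 293 2154 (.cons 223 (.leaf 199 1590 (.cons 295 (.leaf 319 1789 (.leaf 318 1782 .nil)) .nil)) .nil)) .nil)) .nil)) .nil)) (.cons 270 (.leaf 298 2160 (.cons 269 (.leaf 244 1955 (.leaf 268 1953 .nil)) .nil)) (.cons 223 (.cons 224 (.leaf 200 1604 (.cons 199 (.leaf 175 1404 (.cons 198 (.leaf 174 1399 (.cons 197 (.leaf 196 1568 (.cons 222 (.leaf 295 1591 (.leaf 225 1579 .nil)) .nil)) .nil)) .nil)) .nil)) (.cons 199 (.leaf 175 1404 (.cons 176 (.leaf 200 1405 (.cons 198 (.leaf 174 1399 (.cons 295 (.leaf 222 1591 (.cons 294 (.leaf 318 1782 (.cons 319 (.leaf 343 1981 (.cons 320 (.leaf 344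 1980 (.leaf 322 2355 .nil)) .nil)) .nil)) .nil)) .nil)) .nil)) .nil)) (.cons 199 (.leaf 175 1404 (.cons 198 (.leaf 174 1399 (.cons 222 (.leaf 295 1591 (.cons 221 (.leaf 220 1760 (.cons 224 (.leaf 244 1762 (.cons 197 (.leaf 196 1568 (.leaf 225 1579 .nil)) .nil)) .nil)) .nil)) .nil)) .nil)) (.cons 224 (.leaf 200 1604 (.cons 295 (.leaf 319 1789 (.cons 222 (.leaf 198 1591 (.cons 221 (.leaf 220 1760 (.leaf 244 1762 .nil)) .nil)) .nil)) .nil)) (.cons 199 (.leaf 175 1404 (.cons 200 (.leaf 224 1604 (.leaf 176 1405 .nil)) .nil)) .nil))))) .nil))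
noncomputable def t194 : T := .cons 246 (.leaf 245 1960 (.cons 224 (.leaf 200 1604 (.cons 249 (.leaf 321 1799 (.cons 225 (.leaf 226 1777 (.cons 270 (.leaf 269 1962 (.cons 298 (.leaf 271 2160 (.leaf 322 1804 .nil)) .nil)) .nil)) .nil)) .nil)) .nil)) (.cons 246 (.leaf 245 1960 (.cons 321 (.leaf 345 1991 (.cons 249 (.cons 270 (.leaf 269 1962 (.cons 271 (.leaf 298 2160 (.cons 222 (.leaf 221 1771 (.cons 198 (.leaf 174 1396 (.leaf 295 1588 .nil)) .nil)) .nil)) .nil)) (.cons 225 (.leaf 226 1777 (.cons 322 (.leaf 298 1804 (.leaf 346 1996 .nil)) .nil)) (.cons 225 (.leaf 226 1777 (.cons 201 (.leaf 177 1414 (.cons 200 (.leaf 176 1415 (.cons 202 (.leaf 178 1421 (.cons 222 (.leaf 221 1771 (.cons 270 (.leaf 269 1962 (.cons 199 (.leaf 223 1586 (.cons 175 (.leaf 198 1397 (.leaf 174 1395 .nil)) .nil)) .nil)) .nil)) .nil)) .nil)) .nil)) .nil)) .nil))) .nil)) .nil)) (.cons 224 (.leaf 200 1604 (.cons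 321 (.leaf 345 1991 (.leaf 249 1799 .nil)) .nil)) (.cons 246 (.leaf 245 1960 (.cons 200 (.leaf 224 1604 (.cons 249 (.cons 225 (.leaf 226 1777 (.cons 270 (.leaf 269 1962 (.cons 222 (.leaf 221 1771 (.cons 198 (.cons 199 (.leaf 175 1397 (.cons 294 (.leaf 223 1589 (.cons 317 (.leaf 293 1774 (.cons 318 (.leaf 341 1966 (.cons 319 (.leaf 295 1780 (.leaf 343 1972 .nil)) .nil)) .nil)) .nil)) .nil)) (.cons 173 (.leaf 197 1391 (.cons 174 (.leaf 271 1396 (.leaf 149 1199 .nil)) .nil)) .nil)) .nil)) .nil)) .nil)) (.cons 270 (.leaf 269 1962 (.cons 271 (.leaf 298 2160 (.cons 294 (.leaf 293 2154 (.cons 223 (.leaf 199 1590 (.leaf 318 1781 .nil)) .nil)) .nil)) .nil)) (.cons 225 (.leaf 226 1777 (.cons 201 (.leaf 177 1414 (.leaf 176 1415 .nil)) .nil)) .nil))) .nil)) .nil)) (.cons 246 (.leaf 245 1960 (.cons 321 (.leaf 345 1991 (.cons 249 (.leaf 224 1799 (.cons 270 (.leaf 269 1962 (.cons 271 (.leaf 298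 2160 (.cons 222 (.leaf 221 1771 (.cons 198 (.leaf 174 1396 (.leaf 295 1588 .nil)) .nil)) .nil)) .nil)) .nil)) .nil)) .nil)) (.cons 245 (.leaf 246 1960 (.cons 321 (.leaf 345 1991 (.cons 271 t193 .nil)) .nil)) .nil)))))
noncomputable def t195 : T := .cons 273 (.leaf 274 1979 (.cons 297 t194 .nil)) (.cons 223 t192 (.cons 273 (.leaf 274 1979 (.cons 271 t187 .nil)) (.cons 273 (.leaf 274 1979 (.cons 246 (.leaf 245 1960 (.cons 249 t186 .nil)) .nil)) (.cons 273 (.leaf 274 1979 (.cons 246 (.leaf 245 1960 (.cons 270 t185 .nil)) .nil)) (.cons 273 (.leaf 274 1979 (.cons 246 (.leaf 245 1960 (.cons 249 t184 .nil)) .nil)) (.cons 273 (.leaf 274 1979 (.cons 246 (.leaf 245 1960 (.cons 249 t183 .nil)) .nil)) (.cons 273 (.leaf 274 1979 (.cons 246 (.leaf 245 1960 (.cons 270 t182 .nil)) .nil)) (.cons 273 (.leaf 274 1979 (.cons 271 t181 .nil)) (.cons 273 (.leaf 274 1979 (.cons 246 (.leaf 245 1960 (.cons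 222 t179 .nil)) .nil)) (.cons 273 (.leaf 274 1979 (.cons 246 (.leaf 245 1960 (.cons 249 t176 .nil)) .nil)) (.cons 273 (.leaf 274 1979 (.cons 246 (.leaf 245 1960 (.cons 249 t175 .nil)) .nil)) (.cons 273 (.leaf 274 1979 (.cons 297 t174 .nil)) .nil))))))))))))
noncomputable def t196 : T := .cons 320 (.cons 343 (.leaf 319 1982 (.cons 344 (.leaf 367 2174 (.cons 271 (.leaf 247 1983 (.cons 345 (.leaf 321 1988 (.leaf 369 2180 .nil)) .nil)) .nil)) .nil)) (.cons 247 (.leaf 223 1791 (.cons 225 (.leaf 249 1797 (.cons 344 (.leaf 271 1983 (.cons 345 (.leaf 321 1988 (.leaf 369 2180 .nil)) .nil)) .nil)) .nil)) (.cons 343 (.leaf 319 1982 (.cons 344 (.leaf 367 2174 (.cons 345 (.leaf 321 1988 (.leaf 369 2180 .nil)) .nil)) .nil)) (.cons 247 (.leaf 223 1791 (.cons 225 (.leaf 249 1797 (.cons 343 (.leaf 319 1982 (.cons 344 (.leaf 271 1983 (.leaf 367 2174 .nil)) .nil)) .nil)) .nil)) (.cons 319 (.leaf 343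 1982 (.cons 321 (.leaf 345 1988 (.cons 247 (.leaf 223 1791 (.cons 318 (.cons 297 (.leaf 317 2345 (.leaf 298 2353 .nil)) (.cons 294 (.leaf 293 2347 (.cons 225 (.leaf 249 1797 (.cons 295 (.leaf 322 2355 (.cons 342 (.leaf 341 2538 (.leaf 271 1974 .nil)) .nil)) .nil)) .nil)) .nil)) .nil)) .nil)) .nil)) .nil))))) (.cons 224 (.cons 201 (.leaf 225 1605 (.cons 200 (.leaf 177 1413 (.cons 271 (.leaf 295 1598 (.cons 247 (.leaf 176 1406 (.cons 320 (.leaf 223 1791 (.leaf 344 1983 .nil)) .nil)) .nil)) .nil)) .nil)) (.cons 201 (.leaf 225 1605 (.cons 200 (.leaf 177 1413 (.cons 271 (.leaf 295 1598 (.cons 247 (.leaf 176 1406 (.cons 320 (.leaf 344 1983 (.cons 321 (.leaf 297 1796 (.leaf 345 1988 .nil)) .nil)) .nil)) .nil)) .nil)) .nil)) (.cons 199 (.leaf 223 1599 (.cons 200 (.leaf 175 1407 (.cons 271 (.leaf 295 1598 (.cons 247 (.leaf 176 1406 (.cons 320 (.leaf 344 1983 (.cons 321 (.leaf 297 1796 (.leaf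 345 1988 .nil)) .nil)) .nil)) .nil)) .nil)) .nil)) (.cons 199 (.leaf 223 1599 (.cons 225 (.leaf 201 1605 (.cons 320 (.leaf 249 1797 (.cons 321 (.leaf 297 1796 (.leaf 345 1988 .nil)) .nil)) .nil)) .nil)) (.cons 199 (.leaf 223 1599 (.cons 200 (.leaf 175 1407 (.cons 201 (.leaf 177 1413 (.leaf 225 1605 .nil)) .nil)) .nil)) .nil))))) (.cons 320 (.cons 223 (.leaf 247 1791 (.cons 224 (.leaf 199 1599 (.cons 225 (.leaf 201 1605 (.leaf 249 1797 .nil)) .nil)) .nil)) (.cons 321 (.leaf 345 1988 (.cons 224 (.leaf 297 1796 (.cons 199 (.leaf 223 1599 (.cons 200 (.leaf 175 1407 (.cons 201 (.leaf 177 1413 (.leaf 225 1605 .nil)) .nil)) .nil)) .nil)) .nil)) (.cons 321 (.leaf 345 1988 (.cons 224 (.leaf 297 1796 (.cons 225 (.leaf 201 1605 (.leaf 249 1797 .nil)) .nil)) .nil)) (.cons 321 (.leaf 345 1988 (.cons 223 (.leaf 247 1791 (.cons 224 (.leaf 199 1599 (.leaf 297 1796 .nil)) .nil)) .nil)) (.cons 247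 (.leaf 223 1791 (.cons 225 (.leaf 249 1797 (.cons 343 (.leaf 319 1982 (.cons 344 (.leaf 271 1983 (.leaf 367 2174 .nil)) .nil)) .nil)) .nil)) .nil))))) (.cons 320 (.cons 225 (.leaf 249 1797 (.cons 201 (.leaf 224 1605 (.cons 345 (.leaf 321 1988 (.cons 343 (.leaf 319 1982 (.cons 344 (.leaf 367 2174 (.leaf 369 2180 .nil)) .nil)) .nil)) .nil)) .nil)) (.cons 321 (.leaf 345 1988 (.cons 224 (.leaf 297 1796 (.cons 201 (.leaf 225 1605 (.cons 200 (.leaf 177 1413 (.cons 271 (.leaf 295 1598 (.cons 175 (.leaf 199 1407 (.cons 176 (.leaf 151 1215 (.leaf 247 1406 .nil)) .nil)) .nil)) .nil)) .nil)) .nil)) .nil)) (.cons 319 (.leaf 343 1982 (.cons 224 (.leaf 295 1790 (.cons 225 (.leaf 201 1605 (.leaf 249 1797 .nil)) .nil)) .nil)) (.cons 319 (.leaf 343 1982 (.cons 224 (.leaf 295 1790 (.cons 321 (.leaf 297 1796 (.leaf 345 1988 .nil)) .nil)) .nil)) (.cons 343 (.leaf 319 1982 (.cons 344 (.leaf 367 2174 (.cons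 271 (.leaf 247 1983 (.cons 345 (.leaf 321 1988 (.leaf 369 2180 .nil)) .nil)) .nil)) .nil)) .nil))))) (.cons 224 (.cons 199 (.leaf 223 1599 (.cons 200 (.leaf 175 1407 (.cons 201 (.leaf 177 1413 (.leaf 225 1605 .nil)) .nil)) .nil)) (.cons 201 (.leaf 225 1605 (.cons 200 (.leaf 177 1413 (.cons 295 (.leaf 271 1598 (.leaf 319 1790 .nil)) .nil)) .nil)) (.cons 199 (.leaf 223 1599 (.cons 200 (.leaf 175 1407 (.cons 295 (.leaf 271 1598 (.leaf 319 1790 .nil)) .nil)) .nil)) (.cons 199 (.leaf 223 1599 (.cons 225 (.leaf 201 1605 (.cons 319 (.leaf 295 1790 (.cons 320 (.leaf 249 1797 (.leaf 343 1982 .nil)) .nil)) .nil)) .nil)) .nil)))) (.cons 320 (.cons 343 (.leaf 319 1982 (.cons 344 (.leaf 367 2174 (.cons 271 (.leaf 247 1983 (.cons 345 (.leaf 321 1988 (.leaf 369 2180 .nil)) .nil)) .nil)) .nil)) (.cons 223 (.leaf 247 1791 (.cons 224 (.leaf 199 1599 (.cons 321 (.leaf 297 1796 (.leaf 345 1988 .nil))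 .nil)) .nil)) (.cons 223 (.leaf 247 1791 (.cons 224 (.leaf 199 1599 (.cons 319 (.leaf 295 1790 (.leaf 343 1982 .nil)) .nil)) .nil)) (.cons 343 (.leaf 319 1982 (.cons 344 (.leaf 367 2174 (.cons 345 (.leaf 321 1988 (.leaf 369 2180 .nil)) .nil)) .nil)) .nil)))) (.cons 320 (.cons 343 (.leaf 319 1982 (.cons 344 (.leaf 367 2174 (.cons 345 (.leaf 321 1988 (.leaf 369 2180 .nil)) .nil)) .nil)) (.cons 223 (.leaf 247 1791 (.cons 224 (.leaf 199 1599 (.cons 225 (.leaf 201 1605 (.leaf 249 1797 .nil)) .nil)) .nil)) .nil)) .nil))))))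
noncomputable def t197 : T := .cons 224 (.cons 295 (.leaf 319 1790 (.cons 200 (.leaf 271 1598 (.cons 175 (.leaf 199 1407 (.cons 176 (.leaf 151 1215 (.cons 177 (.leaf 201 1413 (.leaf 153 1221 .nil)) .nil)) .nil)) .nil)) .nil)) (.cons 199 (.leaf 223 1599 (.cons 200 (.leaf 175 1407 (.cons 201 (.leaf 177 1413 (.leaf 225 1605 .nil)) .nil)) .nil)) (.cons 295 (.leaf 319 1790 (.cons 271 (.leaf 200 1598 (.cons 201 (.leaf 225 1605 (.cons 297 (.leaf 321 1796 (.cons 298 (.leaf 274 2169 (.leaf 299 2171 .nil)) .nil)) .nil)) .nil)) .nil)) (.cons 295 (.leaf 319 1790 (.cons 271 (.leaf 200 1598 (.cons 297 (.leaf 321 1796 (.cons 298 (.leaf 274 2169 (.leaf 299 2171 .nil)) .nil)) .nil)) .nil)) (.cons 223 (.leaf 199 1599 (.cons 320 (.leaf 247 1791 (.cons 225 (.leaf 201 1605 (.leaf 249 1797 .nil)) .nil)) .nil)) .nil))))) (.cons 224 (.cons 199 (.leaf 223 1599 (.cons 201 (.leaf 225 1605 (.cons 295 (.leaf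 319 1790 (.cons 297 (.leaf 321 1796 (.cons 298 (.leaf 274 2169 (.cons 200 (.leaf 175 1407 (.leaf 177 1413 .nil)) .nil)) .nil)) .nil)) .nil)) .nil)) (.cons 199 (.leaf 223 1599 (.cons 200 (.leaf 175 1407 (.cons 201 (.leaf 177 1413 (.leaf 225 1605 .nil)) .nil)) .nil)) (.cons 295 (.leaf 319 1790 (.cons 271 (.leaf 200 1598 (.cons 201 (.leaf 225 1605 (.cons 297 (.leaf 321 1796 (.cons 298 (.leaf 274 2169 (.leaf 299 2171 .nil)) .nil)) .nil)) .nil)) .nil)) (.cons 295 (.leaf 319 1790 (.cons 271 (.leaf 200 1598 (.cons 297 (.leaf 321 1796 (.cons 298 (.leaf 274 2169 (.leaf 299 2171 .nil)) .nil)) .nil)) .nil)) (.cons 199 (.leaf 223 1599 (.cons 201 (.leaf 225 1605 (.cons 295 (.leaf 319 1790 (.cons 297 (.leaf 321 1796 (.cons 298 (.leaf 274 2169 (.cons 271 (.leaf 299 2171 (.leaf 270 2163 .nil)) .nil)) .nil)) .nil)) .nil)) .nil)) .nil))))) t196)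
noncomputable def t198 : T := .cons 200 (.leaf 297 1604 (.cons 199 (.leaf 175 1407 (.cons 274 (.leaf 247 1979 (.cons 296 (.leaf 295 2170 (.leaf 223 1599 .nil)) .nil)) .nil)) .nil)) (.cons 274 (.leaf 247 1979 (.cons 251 (.leaf 252 1985 (.cons 296 (.leaf 295 2170 (.cons 199 (.leaf 223 1599 (.cons 321 (.leaf 297 1796 (.cons 320 (.leaf 345 1988 (.cons 343 (.leaf 319 1982 (.cons 344 (.leaf 249 1989 (.leaf 367 2174 .nil)) .nil)) .nil)) .nil)) .nil)) .nil)) .nil)) .nil)) (.cons 200 (.cons 199 (.leaf 175 1407 (.cons 274 (.leaf 247 1979 (.cons 296 (.leaf 295 2170 (.leaf 223 1599 .nil)) .nil)) .nil)) (.cons 199 (.leaf 175 1407 (.cons 295 (.leaf 271 1598 (.cons 296 (.leaf 274 2170 (.leaf 223 1599 .nil)) .nil)) .nil)) (.cons 175 (.leaf 199 1407 (.cons 176 (.leaf 151 1215 (.leaf 249 1412 .nil)) .nil)) (.cons 176 (.leaf 249 1412 (.cons 177 (.leaf 201 1413 (.leaf 153 1221 .nil)) .nil)) .nil))))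 (.cons 200 (.leaf 297 1604 (.cons 199 (.leaf 175 1407 (.cons 295 (.leaf 271 1598 (.cons 296 (.leaf 274 2170 (.leaf 223 1599 .nil)) .nil)) .nil)) .nil)) (.cons 200 (.leaf 297 1604 (.cons 175 (.leaf 199 1407 (.cons 176 (.leaf 151 1215 (.leaf 249 1412 .nil)) .nil)) .nil)) (.cons 200 (.leaf 297 1604 (.cons 176 (.leaf 249 1412 (.cons 177 (.leaf 201 1413 (.leaf 153 1221 .nil)) .nil)) .nil)) .nil)))))
noncomputable def t199 : T := .cons 295 (.leaf 296 2170 (.cons 271 (.leaf 294 2162 (.cons 299 (.leaf 300 2176 (.leaf 298 2168 .nil)) .nil)) .nil)) (.cons 299 (.leaf 300 2176 (.cons 251 (.leaf 252 1985 (.cons 227 (.cons 202 (.leaf 226 1623 (.cons 204 (.leaf 228 1629 (.cons 322 (.leaf 298 1814 (.cons 323 (.leaf 346 2006 (.cons 348 (.leaf 324 2012 (.cons 203 (.leaf 178 1431 (.leaf 180 1437 .nil)) .nil)) .nil)) .nil)) .nil)) .nil)) (.cons 202 (.leaf 226 1623 (.cons 203 (.leaf 178 1431 (.cons 204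 (.leaf 180 1437 (.leaf 228 1629 .nil)) .nil)) .nil)) (.cons 202 (.leaf 226 1623 (.cons 204 (.leaf 228 1629 (.cons 322 (.leaf 298 1814 (.cons 323 (.leaf 346 2006 (.cons 348 (.leaf 324 2012 (.cons 347 (.leaf 372 2204 (.cons 321 (.leaf 320 2560 (.cons 297 (.leaf 345 1991 (.cons 224 (.leaf 200 1604 (.leaf 249 1799 .nil)) .nil)) .nil)) .nil)) .nil)) .nil)) .nil)) .nil)) .nil)) (.cons 298 (.leaf 203 1622 (.leaf 322 1814 .nil)) .nil)))) .nil)) .nil)) (.cons 296 (.leaf 295 2170 (.cons 251 (.leaf 252 1985 (.cons 224 (.cons 297 (.leaf 200 1604 (.leaf 321 1796 .nil)) (.cons 199 (.leaf 223 1599 (.cons 200 (.leaf 175 1407 (.cons 201 (.leaf 177 1413 (.leaf 225 1605 .nil)) .nil)) .nil)) (.cons 199 (.leaf 223 1599 (.cons 321 (.leaf 297 1796 (.cons 320 (.leaf 345 1988 (.cons 343 (.leaf 319 1982 (.cons 344 (.leaf 249 1989 (.leaf 367 2174 .nil)) .nil)) .nil)) .nil)) .nil)) .nil))) .nil)) .nil)) .nil))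
noncomputable def t200 : T := .cons 199 (.leaf 223 1599 (.cons 201 (.leaf 225 1605 (.cons 295 (.leaf 319 1790 (.cons 294 (.leaf 293 2153 (.cons 297 (.leaf 321 1796 (.cons 270 (.leaf 269 2155 (.cons 298 (.leaf 271 2160 (.cons 299 (.leaf 300 2179 (.cons 323 (.leaf 322 2360 (.leaf 324 2368 .nil)) .nil)) .nil)) .nil)) .nil)) .nil)) .nil)) .nil)) .nil)) (.cons 225 (.leaf 201 1605 (.cons 199 (.leaf 223 1599 (.cons 320 (.leaf 249 1797 (.cons 345 (.leaf 321 1988 (.cons 344 (.leaf 369 2180 (.cons 271 (.leaf 247 1983 (.cons 367 (.leaf 343 2174 (.cons 368 (.leaf 295 2175 (.leaf 391 2366 .nil)) .nil)) .nil)) .nil)) .nil)) .nil)) .nil)) .nil)) (.cons 321 (.leaf 297 1796 (.cons 199 (.leaf 223 1599 (.cons 320 (.leaf 345 1988 (.cons 344 (.leaf 249 1989 (.cons 343 (.leaf 319 1982 (.leaf 367 2174 .nil)) .nil)) .nil)) .nil)) .nil)) (.cons 225 (.leaf 201 1605 (.cons 199 (.leaf 223 1599 (.cons 320 (.leaf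 249 1797 (.cons 343 (.leaf 319 1982 (.cons 344 (.leaf 367 2174 (.cons 368 (.leaf 297 2181 (.cons 369 (.leaf 345 2180 (.leaf 393 2372 .nil)) .nil)) .nil)) .nil)) .nil)) .nil)) .nil)) (.cons 297 (.leaf 321 1796 (.cons 225 (.leaf 201 1605 (.cons 249 (.leaf 320 1797 (.cons 202 (.leaf 226 1613 (.cons 298 (.leaf 322 1804 (.cons 271 (.leaf 270 2160 (.leaf 299 2171 .nil)) .nil)) .nil)) .nil)) .nil)) .nil)) .nil))))
noncomputable def t201 : T := .cons 274 (.leaf 247 1979 (.cons 296 (.leaf 295 2170 (.cons 251 (.leaf 252 1985 (.cons 299 (.leaf 300 2176 (.cons 224 (.cons 199 (.leaf 223 1599 (.cons 225 (.leaf 201 1605 (.cons 320 (.leaf 249 1797 (.cons 321 (.leaf 297 1796 (.leaf 345 1988 .nil)) .nil)) .nil)) .nil)) (.cons 199 (.leaf 223 1599 (.cons 200 (.leaf 175 1407 (.cons 176 (.leaf 249 1412 (.cons 177 (.leaf 201 1413 (.leaf 153 1221 .nil)) .nil)) .nil)) .nil)) (.cons 199 (.leaf 223 1599 (.cons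 321 (.leaf 297 1796 (.cons 320 (.leaf 345 1988 (.cons 343 (.leaf 319 1982 (.cons 344 (.leaf 249 1989 (.leaf 367 2174 .nil)) .nil)) .nil)) .nil)) .nil)) (.cons 297 (.leaf 200 1604 (.leaf 321 1796 .nil)) .nil)))) .nil)) .nil)) .nil)) .nil)) (.cons 224 (.cons 200 (.leaf 297 1604 (.cons 199 (.leaf 175 1407 (.cons 295 (.leaf 271 1598 (.cons 296 (.leaf 223 1599 (.leaf 319 1790 .nil)) .nil)) .nil)) .nil)) (.cons 296 t200 (.cons 200 (.cons 199 (.leaf 175 1407 (.cons 295 (.leaf 271 1598 (.cons 296 (.leaf 223 1599 (.leaf 319 1790 .nil)) .nil)) .nil)) (.cons 176 (.leaf 249 1412 (.cons 177 (.leaf 201 1413 (.leaf 153 1221 .nil)) .nil)) .nil)) (.cons 200 (.leaf 297 1604 (.cons 175 (.leaf 199 1407 (.cons 176 (.leaf 151 1215 (.leaf 249 1412 .nil)) .nil)) .nil)) (.cons 200 (.leaf 297 1604 (.cons 176 (.leaf 249 1412 (.cons 177 (.leaf 201 1413 (.leaf 153 1221 .nil)) .nil)) .nil)) .nil))))) (.cons 274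 t199 (.cons 274 (.leaf 247 1979 (.cons 299 (.leaf 300 2176 (.cons 251 (.leaf 252 1985 (.cons 227 (.cons 202 (.leaf 226 1623 (.cons 204 (.leaf 228 1629 (.cons 322 (.leaf 298 1814 (.cons 323 (.leaf 346 2006 (.cons 348 (.leaf 324 2012 (.cons 203 (.leaf 178 1431 (.leaf 180 1437 .nil)) .nil)) .nil)) .nil)) .nil)) .nil)) (.cons 202 (.leaf 226 1623 (.cons 203 (.leaf 178 1431 (.cons 204 (.leaf 180 1437 (.leaf 228 1629 .nil)) .nil)) .nil)) (.cons 202 (.leaf 226 1623 (.cons 204 (.leaf 228 1629 (.cons 322 (.leaf 298 1814 (.cons 323 (.leaf 346 2006 (.cons 348 (.leaf 324 2012 (.cons 347 (.leaf 372 2204 (.cons 321 (.leaf 320 2560 (.cons 297 (.leaf 345 1991 (.cons 224 (.leaf 200 1604 (.leaf 249 1799 .nil)) .nil)) .nil)) .nil)) .nil)) .nil)) .nil)) .nil)) .nil)) (.cons 298 (.leaf 203 1622 (.leaf 322 1814 .nil)) .nil)))) .nil)) .nil)) .nil)) (.cons 274 (.leaf 247 1979 (.cons 295 (.leaf 296 2170 (.cons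 271 (.leaf 294 2162 (.cons 299 (.leaf 300 2176 (.leaf 298 2168 .nil)) .nil)) .nil)) .nil)) (.cons 224 t198 .nil)))))
noncomputable def top0 : T := .cons 273 (.cons 251 (.leaf 252 1985 (.cons 247 (.leaf 248 1979 (.cons 271 (.leaf 246 1971 (.leaf 250 1977 .nil)) .nil)) .nil)) (.cons 299 (.leaf 300 2176 (.cons 247 (.leaf 248 1979 (.cons 271 (.leaf 246 1971 (.leaf 298 2168 .nil)) .nil)) .nil)) (.cons 299 (.leaf 300 2176 (.cons 251 (.leaf 252 1985 (.cons 271 (.leaf 250 1977 (.leaf 298 2168 .nil)) .nil)) .nil)) (.cons 251 (.leaf 252 1985 (.cons 299 (.leaf 300 2176 (.cons 296 (.leaf 295 2170 (.cons 248 (.leaf 247 1979 (.cons 224 (.cons 223 (.leaf 199 1599 (.cons 225 (.leaf 201 1605 (.cons 226 (.leaf 250 1784 (.cons 202 (.leaf 227 1623 (.leaf 203 1593 .nil)) .nil)) .nil)) .nil)) (.cons 297 (.leaf 200 1604 (.leaf 321 1796 .nil)) .nil)) .nil)) .nil)) .nil)) .nil)) .nil)))) (.cons 323 t55 (.cons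 273 t3 (.cons 273 t2 (.cons 273 (.cons 299 (.leaf 300 2176 (.cons 251 (.leaf 252 1985 (.cons 271 (.leaf 250 1977 (.leaf 298 2168 .nil)) .nil)) .nil)) (.cons 251 (.leaf 252 1985 (.cons 247 (.leaf 248 1979 (.cons 271 (.leaf 246 1971 (.leaf 250 1977 .nil)) .nil)) .nil)) (.cons 299 (.leaf 300 2176 (.cons 247 (.leaf 248 1979 (.cons 271 (.leaf 246 1971 (.leaf 298 2168 .nil)) .nil)) .nil)) (.cons 299 (.leaf 300 2176 (.cons 251 (.leaf 252 1985 (.cons 248 (.leaf 247 1979 (.cons 227 (.cons 298 (.leaf 203 1622 (.leaf 322 1814 .nil)) (.cons 202 (.leaf 226 1623 (.cons 203 (.leaf 178 1431 (.cons 204 (.leaf 180 1437 (.leaf 228 1629 .nil)) .nil)) .nil)) (.cons 202 (.leaf 226 1623 (.cons 204 (.leaf 228 1629 (.cons 322 (.leaf 298 1814 (.cons 323 (.leaf 346 2006 (.cons 347 (.leaf 250 2007 (.cons 348 (.leaf 324 2012 (.leaf 372 2204 .nil)) .nil)) .nil)) .nil)) .nil)) .nil)) .nil))) .nil)) .nil)) .nil))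 .nil)))) (.cons 273 (.cons 248 (.leaf 247 1979 (.cons 296 (.leaf 295 2170 (.cons 299 (.leaf 300 2176 (.cons 251 (.leaf 252 1985 (.cons 224 (.cons 223 (.leaf 199 1599 (.cons 225 (.leaf 201 1605 (.cons 226 (.leaf 250 1784 (.cons 202 (.leaf 227 1623 (.leaf 203 1593 .nil)) .nil)) .nil)) .nil)) (.cons 297 (.leaf 200 1604 (.leaf 321 1796 .nil)) .nil)) .nil)) .nil)) .nil)) .nil)) (.cons 295 (.leaf 296 2170 (.cons 247 (.leaf 248 1979 (.cons 271 (.leaf 246 1971 (.leaf 294 2162 .nil)) .nil)) .nil)) (.cons 251 (.leaf 252 1985 (.cons 247 (.leaf 248 1979 (.cons 271 (.leaf 246 1971 (.leaf 250 1977 .nil)) .nil)) .nil)) (.cons 251 (.leaf 252 1985 (.cons 250 (.leaf 271 1977 (.cons 295 (.leaf 296 2170 (.cons 299 (.leaf 300 2176 (.cons 226 (.leaf 202 1620 (.leaf 323 1815 .nil)) .nil)) .nil)) .nil)) .nil)) .nil)))) (.cons 273 t1 (.cons 273 (.cons 299 (.leaf 300 2176 (.cons 271 (.leaf 298 2168 (.cons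 295 (.leaf 296 2170 (.leaf 294 2162 .nil)) .nil)) .nil)) (.cons 251 (.leaf 252 1985 (.cons 271 (.leaf 250 1977 (.cons 295 (.leaf 296 2170 (.leaf 294 2162 .nil)) .nil)) .nil)) (.cons 299 (.leaf 300 2176 (.cons 251 (.leaf 252 1985 (.cons 271 (.leaf 250 1977 (.leaf 298 2168 .nil)) .nil)) .nil)) (.cons 299 (.leaf 300 2176 (.cons 251 (.leaf 252 1985 (.cons 296 (.leaf 295 2170 (.cons 227 (.cons 298 (.leaf 203 1622 (.leaf 322 1814 .nil)) (.cons 202 (.leaf 226 1623 (.cons 203 (.leaf 178 1431 (.cons 204 (.leaf 180 1437 (.leaf 228 1629 .nil)) .nil)) .nil)) (.cons 202 (.leaf 226 1623 (.cons 204 (.leaf 228 1629 (.cons 322 (.leaf 298 1814 (.cons 323 (.leaf 346 2006 (.cons 347 (.leaf 250 2007 (.cons 348 (.leaf 324 2012 (.leaf 372 2204 .nil)) .nil)) .nil)) .nil)) .nil)) .nil)) .nil))) .nil)) .nil)) .nil)) .nil)))) (.cons 273 t0 .nil))))))))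
noncomputable def top1 : T := .cons 273 t201 (.cons 296 t197 (.cons 247 t195 (.cons 296 (t170) (.cons 320 t167 (.cons 224 (t124) (.cons 273 t119 (.cons 296 t115 (.cons 296 (t112) (.cons 224 t107 (.cons 296 t104 (.cons 273 t102 (.cons 273 t99 (.cons 273 t95 (.cons 273 t91 (.cons 296 t88 (.cons 273 t82 (.cons 296 t78 (.cons 273 t75 (.cons 273 (t72) (.cons 296 (t68) (.cons 296 (t63) (.cons 273 t58 .nil))))))))))))))))))))))

end Vale.Agent.P062.PB.N5D6
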