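import Vale.Agent.P062.Checker

namespace Vale.Agent.P062.PB.N5D7

open Vale.Agent.P062

noncomputable def t0 : T := .cons 251 (.leaf 252 1985 (.cons 299 (.leaf 300 2176 (.cons 296 (.leaf 295 2170 (.cons 227 (.cons 298 (.leaf 203 1622 (.leaf 322 1814 .nil)) (.cons 202 (.leaf 226 1623 (.cons 203 (.leaf 178 1431 (.cons 204 (.leaf 180 1437 (.leaf 228 1629 .nil)) .nil)) .nil)) (.cons 202 (.leaf 226 1623 (.cons 322 (.leaf 298 1814 (.cons 204 (.leaf 228 1629 (.cons 323 (.leaf 346 2006 (.cons 347 (.leaf 250 2007 (.cons 348 (.leaf 324 2012 (.leaf 372 2204 .nil)) .nil)) .nil)) .nil)) .nil)) .nil)) .nil))) .nil)) .nil)) .nil)) (.cons 299 (.leaf 300 2176 (.cons 248 (.leaf 247 1979 (.cons 296 (.leaf 295 2170 (.cons 320 (.cons 249 (.leaf 225 1797 (.leaf 344 1989 .nil)) (.cons 319 (.leaf 343 1982 (.cons 321 (.leaf 345 1988 (.cons 322 (.leaf 298 2361 (.cons 347 (.leaf 346 2552 (.cons 323 (.leaf 250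 2007 (.leaf 348 2560 .nil)) .nil)) .nil)) .nil)) .nil)) .nil)) .nil)) .nil)) .nil)) (.cons 251 (.leaf 252 1985 (.cons 248 (.leaf 247 1979 (.cons 296 (.leaf 295 2170 (.cons 320 (.cons 249 (.leaf 225 1797 (.leaf 344 1989 .nil)) (.cons 321 (.leaf 345 1988 (.cons 343 (.leaf 319 1982 (.cons 344 (.leaf 367 2174 (.cons 322 (.leaf 323 2554 (.cons 298 (.leaf 346 2005 (.cons 227 (.leaf 203 1622 (.leaf 250 1813 .nil)) .nil)) .nil)) .nil)) .nil)) .nil)) (.cons 225 (.leaf 249 1797 (.cons 224 (.leaf 201 1605 (.cons 199 (.leaf 223 1599 (.cons 200 (.leaf 175 1407 (.cons 197 (.leaf 198 1576 (.cons 227 (.leaf 226 1595 (.cons 203 (.leaf 298 1622 (.cons 178 (.leaf 202 1431 (.cons 179 (.leaf 250 1430 (.leaf 154 1239 .nil)) .nil)) .nil)) .nil)) .nil)) .nil)) .nil)) .nil)) .nil)) .nil))) .nil)) .nil)) .nil)) (.cons 251 (.leaf 252 1985 (.cons 299 (.leaf 300 2176 (.cons 248 (.leaf 247 1979 (.cons 227 (.cons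 298 (.leaf 203 1622 (.leaf 322 1814 .nil)) (.cons 202 (.leaf 226 1623 (.cons 203 (.leaf 178 1431 (.cons 204 (.leaf 180 1437 (.leaf 228 1629 .nil)) .nil)) .nil)) (.cons 202 (.leaf 226 1623 (.cons 204 (.leaf 228 1629 (.cons 322 (.leaf 298 1814 (.cons 323 (.leaf 346 2006 (.cons 347 (.leaf 250 2007 (.cons 348 (.leaf 324 2012 (.leaf 372 2204 .nil)) .nil)) .nil)) .nil)) .nil)) .nil)) .nil))) .nil)) .nil)) .nil)) (.cons 251 (.leaf 252 1985 (.cons 299 (.leaf 300 2176 (.cons 296 (.leaf 295 2170 (.cons 248 (.leaf 247 1979 (.cons 227 (.cons 202 (.leaf 226 1623 (.cons 322 (.leaf 298 1814 (.cons 203 (.leaf 178 1431 (.cons 204 (.leaf 180 1437 (.leaf 228 1629 .nil)) .nil)) .nil)) .nil)) (.cons 202 (.leaf 226 1623 (.cons 203 (.leaf 178 1431 (.cons 204 (.leaf 180 1437 (.leaf 228 1629 .nil)) .nil)) .nil)) (.cons 226 (.leaf 202 1623 (.cons 228 (.leaf 204 1629 (.cons 225 (.leaf 249 1794 (.cons 201 (.leaf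 224 1605 (.leaf 200 1603 .nil)) .nil)) .nil)) .nil)) (.cons 298 (.leaf 203 1622 (.leaf 322 1814 .nil)) .nil)))) .nil)) .nil)) .nil)) .nil)) (.cons 248 (.leaf 247 1979 (.cons 296 (.leaf 295 2170 (.cons 251 (.leaf 252 1985 (.cons 299 (.leaf 300 2176 (.cons 320 (.cons 249 (.leaf 225 1797 (.leaf 344 1989 .nil)) (.cons 319 (.leaf 343 1982 (.cons 345 (.leaf 321 1988 (.cons 344 (.leaf 369 2180 (.cons 347 (.leaf 346 2555 (.cons 323 (.leaf 250 2007 (.cons 348 (.leaf 324 2012 (.leaf 372 2204 .nil)) .nil)) .nil)) .nil)) .nil)) .nil)) (.cons 225 (.leaf 249 1797 (.cons 224 (.leaf 201 1605 (.cons 199 (.leaf 223 1599 (.cons 200 (.leaf 175 1407 (.cons 197 (.leaf 198 1576 (.cons 226 (.leaf 227 1595 (.cons 250 (.leaf 202 1620 (.leaf 323 1815 .nil)) .nil)) .nil)) .nil)) .nil)) .nil)) .nil)) .nil))) .nil)) .nil)) .nil)) .nil)) .nil)))))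
noncomputable def t1 : T := .cons 251 (.leaf 252 1985 (.cons 248 (.leaf 247 1979 (.cons 271 (.leaf 250 1977 (.cons 295 (.leaf 296 2170 (.leaf 294 2162 .nil)) .nil)) .nil)) .nil)) (.cons 247 (.leaf 248 1979 (.cons 271 (.leaf 246 1971 (.cons 295 (.leaf 296 2170 (.leaf 294 2162 .nil)) .nil)) .nil)) (.cons 251 (.leaf 252 1985 (.cons 271 (.leaf 250 1977 (.cons 295 (.leaf 296 2170 (.leaf 294 2162 .nil)) .nil)) .nil)) (.cons 251 (.leaf 252 1985 (.cons 247 (.leaf 248 1979 (.cons 271 (.leaf 246 1971 (.leaf 250 1977 .nil)) .nil)) .nil)) (.cons 251 (.leaf 252 1985 (.cons 248 (.leaf 247 1979 (.cons 296 (.leaf 295 2170 (.cons 320 (.cons 249 (.leaf 225 1797 (.leaf 344 1989 .nil)) (.cons 321 (.leaf 345 1988 (.cons 343 (.leaf 319 1982 (.cons 344 (.leaf 367 2174 (.cons 322 (.leaf 323 2554 (.cons 298 (.leaf 346 2005 (.cons 227 (.leaf 203 1622 (.leaf 250 1813 .nil)) .nil)) .nil)) .nil)) .nil)) .nil))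 (.cons 225 (.leaf 249 1797 (.cons 224 (.leaf 201 1605 (.cons 199 (.leaf 223 1599 (.cons 200 (.leaf 175 1407 (.cons 197 (.leaf 198 1576 (.cons 227 (.leaf 226 1595 (.cons 203 (.leaf 298 1622 (.cons 178 (.leaf 202 1431 (.cons 179 (.leaf 250 1430 (.leaf 154 1239 .nil)) .nil)) .nil)) .nil)) .nil)) .nil)) .nil)) .nil)) .nil)) .nil))) .nil)) .nil)) .nil)) .nil))))
noncomputable def t2 : T := .cons 273 (.cons 299 (.leaf 300 2176 (.cons 271 (.leaf 298 2168 (.cons 295 (.leaf 296 2170 (.leaf 294 2162 .nil)) .nil)) .nil)) (.cons 247 (.leaf 248 1979 (.cons 271 (.leaf 246 1971 (.cons 295 (.leaf 296 2170 (.leaf 294 2162 .nil)) .nil)) .nil)) (.cons 299 (.leaf 300 2176 (.cons 247 (.leaf 248 1979 (.cons 271 (.leaf 246 1971 (.leaf 298 2168 .nil)) .nil)) .nil)) (.cons 299 (.leaf 300 2176 (.cons 248 (.leaf 247 1979 (.cons 296 (.leaf 295 2170 (.cons 320 (.cons 249 (.leaf 225 1797 (.leaf 344 1989 .nil))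 (.cons 319 (.leaf 343 1982 (.cons 321 (.leaf 345 1988 (.cons 322 (.leaf 298 2361 (.cons 347 (.leaf 346 2552 (.cons 323 (.leaf 250 2007 (.leaf 348 2560 .nil)) .nil)) .nil)) .nil)) .nil)) .nil)) .nil)) .nil)) .nil)) .nil)))) (.cons 273 t1 (.cons 273 (.cons 251 (.leaf 252 1985 (.cons 250 (.leaf 271 1977 (.cons 299 (.leaf 300 2176 (.cons 226 (.leaf 202 1620 (.leaf 323 1815 .nil)) .nil)) .nil)) .nil)) (.cons 299 (.leaf 300 2176 (.cons 271 (.leaf 298 2168 (.cons 295 (.leaf 296 2170 (.leaf 294 2162 .nil)) .nil)) .nil)) (.cons 251 (.leaf 252 1985 (.cons 271 (.leaf 250 1977 (.cons 295 (.leaf 296 2170 (.leaf 294 2162 .nil)) .nil)) .nil)) (.cons 251 (.leaf 252 1985 (.cons 299 (.leaf 300 2176 (.cons 296 (.leaf 295 2170 (.cons 227 (.cons 298 (.leaf 203 1622 (.leaf 322 1814 .nil)) (.cons 202 (.leaf 226 1623 (.cons 203 (.leaf 178 1431 (.cons 204 (.leaf 180 1437 (.leaf 228 1629 .nil)) .nil)) .nil))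 (.cons 202 (.leaf 226 1623 (.cons 322 (.leaf 298 1814 (.cons 204 (.leaf 228 1629 (.cons 323 (.leaf 346 2006 (.cons 347 (.leaf 250 2007 (.cons 348 (.leaf 324 2012 (.leaf 372 2204 .nil)) .nil)) .nil)) .nil)) .nil)) .nil)) .nil))) .nil)) .nil)) .nil)) .nil)))) (.cons 273 (.cons 299 (.leaf 300 2176 (.cons 271 (.leaf 298 2168 (.cons 295 (.leaf 296 2170 (.leaf 294 2162 .nil)) .nil)) .nil)) (.cons 247 (.leaf 248 1979 (.cons 271 (.leaf 246 1971 (.cons 295 (.leaf 296 2170 (.leaf 294 2162 .nil)) .nil)) .nil)) (.cons 299 (.leaf 300 2176 (.cons 247 (.leaf 248 1979 (.cons 271 (.leaf 246 1971 (.leaf 298 2168 .nil)) .nil)) .nil)) (.cons 251 (.leaf 252 1985 (.cons 299 (.leaf 300 2176 (.cons 296 (.leaf 295 2170 (.cons 248 (.leaf 247 1979 (.cons 227 (.cons 202 (.leaf 226 1623 (.cons 322 (.leaf 298 1814 (.cons 203 (.leaf 178 1431 (.cons 204 (.leaf 180 1437 (.leaf 228 1629 .nil)) .nil)) .nil)) .nil))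 (.cons 202 (.leaf 226 1623 (.cons 203 (.leaf 178 1431 (.cons 204 (.leaf 180 1437 (.leaf 228 1629 .nil)) .nil)) .nil)) (.cons 226 (.leaf 202 1623 (.cons 228 (.leaf 204 1629 (.cons 225 (.leaf 249 1794 (.cons 201 (.leaf 224 1605 (.leaf 200 1603 .nil)) .nil)) .nil)) .nil)) (.cons 298 (.leaf 203 1622 (.leaf 322 1814 .nil)) .nil)))) .nil)) .nil)) .nil)) .nil)) .nil)))) (.cons 273 t0 (.cons 273 (.cons 299 (.leaf 300 2176 (.cons 247 (.leaf 248 1979 (.cons 271 (.leaf 246 1971 (.leaf 298 2168 .nil)) .nil)) .nil)) (.cons 251 (.leaf 252 1985 (.cons 247 (.leaf 248 1979 (.cons 271 (.leaf 246 1971 (.leaf 250 1977 .nil)) .nil)) .nil)) (.cons 251 (.leaf 252 1985 (.cons 250 (.leaf 271 1977 (.cons 299 (.leaf 300 2176 (.cons 226 (.leaf 202 1620 (.leaf 323 1815 .nil)) .nil)) .nil)) .nil)) (.cons 251 (.leaf 252 1985 (.cons 299 (.leaf 300 2176 (.cons 248 (.leaf 247 1979 (.cons 227 (.cons 298 (.leaf 203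 1622 (.leaf 322 1814 .nil)) (.cons 202 (.leaf 226 1623 (.cons 203 (.leaf 178 1431 (.cons 204 (.leaf 180 1437 (.leaf 228 1629 .nil)) .nil)) .nil)) (.cons 202 (.leaf 226 1623 (.cons 204 (.leaf 228 1629 (.cons 322 (.leaf 298 1814 (.cons 323 (.leaf 346 2006 (.cons 347 (.leaf 250 2007 (.cons 348 (.leaf 324 2012 (.leaf 372 2204 .nil)) .nil)) .nil)) .nil)) .nil)) .nil)) .nil))) .nil)) .nil)) .nil)) .nil)))) (.cons 273 (.cons 248 (.leaf 247 1979 (.cons 296 (.leaf 295 2170 (.cons 251 (.leaf 252 1985 (.cons 299 (.leaf 300 2176 (.cons 320 (.cons 249 (.leaf 225 1797 (.leaf 344 1989 .nil)) (.cons 319 (.leaf 343 1982 (.cons 345 (.leaf 321 1988 (.cons 344 (.leaf 369 2180 (.cons 347 (.leaf 346 2555 (.cons 323 (.leaf 250 2007 (.cons 348 (.leaf 324 2012 (.leaf 372 2204 .nil)) .nil)) .nil)) .nil)) .nil)) .nil)) (.cons 225 (.leaf 249 1797 (.cons 224 (.leaf 201 1605 (.cons 199 (.leaf 223 1599 (.cons 200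 (.leaf 175 1407 (.cons 197 (.leaf 198 1576 (.cons 226 (.leaf 227 1595 (.cons 250 (.leaf 202 1620 (.leaf 323 1815 .nil)) .nil)) .nil)) .nil)) .nil)) .nil)) .nil)) .nil))) .nil)) .nil)) .nil)) .nil)) (.cons 247 (.leaf 248 1979 (.cons 271 (.leaf 246 1971 (.cons 295 (.leaf 296 2170 (.leaf 294 2162 .nil)) .nil)) .nil)) (.cons 251 (.leaf 252 1985 (.cons 250 (.leaf 271 1977 (.cons 299 (.leaf 300 2176 (.cons 226 (.leaf 202 1620 (.leaf 323 1815 .nil)) .nil)) .nil)) .nil)) .nil))) .nil))))))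
noncomputable def t3 : T := .cons 204 (.leaf 228 1629 (.cons 324 (.leaf 300 1820 (.cons 323 (.leaf 348 2012 (.cons 346 (.leaf 322 2006 (.cons 347 (.leaf 250 2007 (.leaf 370 2198 .nil)) .nil)) .nil)) .nil)) .nil)) (.cons 226 (.leaf 202 1623 (.cons 323 (.leaf 250 1815 (.cons 324 (.leaf 300 1820 (.leaf 348 2012 .nil)) .nil)) .nil)) (.cons 322 (.leaf 298 1814 (.cons 323 (.leaf 346 2006 (.cons 324 (.leaf 300 1820 (.leaf 348 2012 .nil)) .nil)) .nil)) (.cons 322 (.leaf 298 1814 (.cons 202 (.leaf 226 1623 (.cons 323 (.leaf 346 2006 (.cons 347 (.leaf 250 2007 (.cons 348 (.leaf 324 2012 (.leaf 372 2204 .nil)) .nil)) .nil)) .nil)) .nil)) (.cons 322 (.leaf 298 1814 (.cons 226 (.leaf 202 1623 (.cons 323 (.leaf 250 1815 (.leaf 346 2006 .nil)) .nil)) .nil)) (.cons 298 (.leaf 322 1814 (.cons 226 (.leaf 202 1623 (.cons 228 (.leaf 204 1629 (.cons 300 (.leaf 324 1820 (.cons 301 (.leaf 302 2195 (.cons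 325 (.leaf 326 2384 (.cons 225 (.cons 201 (.leaf 250 1615 (.leaf 200 1603 .nil)) (.cons 248 (.leaf 249 1794 (.cons 224 (.leaf 247 1786 (.cons 199 (.leaf 200 1595 (.cons 223 (.leaf 296 1599 (.leaf 250 1784 .nil)) .nil)) .nil)) .nil)) (.cons 248 (.leaf 249 1794 (.cons 224 (.leaf 247 1786 (.cons 199 (.leaf 200 1595 (.cons 223 (.leaf 296 1599 (.leaf 198 1587 .nil)) .nil)) .nil)) .nil)) (.cons 201 (.leaf 250 1615 (.cons 248 (.leaf 249 1794 (.cons 224 (.leaf 296 1605 (.leaf 247 1786 .nil)) .nil)) .nil)) .nil)))) .nil)) .nil)) .nil)) .nil)) .nil)) .nil)) .nil)))))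
noncomputable def t4 : T := .cons 299 (.cons 202 (.leaf 226 1623 (.cons 178 (.leaf 203 1431 (.cons 324 (.leaf 300 1820 (.cons 323 (.leaf 348 2012 (.cons 346 (.leaf 322 2006 (.cons 347 (.leaf 250 2007 (.leaf 370 2198 .nil)) .nil)) .nil)) .nil)) .nil)) .nil)) (.cons 204 (.leaf 228 1629 (.cons 324 (.leaf 300 1820 (.cons 323 (.leaf 348 2012 (.cons 346 (.leaf 322 2006 (.cons 347 (.leaf 250 2007 (.leaf 370 2198 .nil)) .nil)) .nil)) .nil)) .nil)) (.cons 202 (.leaf 226 1623 (.cons 203 (.leaf 178 1431 (.leaf 298 1622 .nil)) .nil)) .nil))) (.cons 299 t3 (.cons 299 (.cons 226 (.leaf 202 1623 (.cons 323 (.leaf 250 1815 (.cons 324 (.leaf 300 1820 (.leaf 348 2012 .nil)) .nil)) .nil)) (.cons 300 (.leaf 324 1820 (.cons 204 (.leaf 228 1629 (.cons 203 (.leaf 180 1437 (.cons 178 (.leaf 202 1431 (.cons 179 (.leaf 250 1430 (.leaf 154 1239 .nil)) .nil)) .nil)) .nil)) .nil)) (.cons 204 (.leaf 228 1629 (.cons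 324 (.leaf 300 1820 (.cons 323 (.leaf 348 2012 (.cons 346 (.leaf 322 2006 (.cons 347 (.leaf 250 2007 (.leaf 370 2198 .nil)) .nil)) .nil)) .nil)) .nil)) (.cons 202 (.leaf 226 1623 (.cons 203 (.leaf 178 1431 (.cons 204 (.leaf 180 1437 (.leaf 228 1629 .nil)) .nil)) .nil)) .nil)))) (.cons 203 (.leaf 298 1622 (.cons 179 (.leaf 250 1430 (.cons 180 (.leaf 204 1437 (.leaf 156 1245 .nil)) .nil)) .nil)) (.cons 203 (.leaf 298 1622 (.cons 202 (.leaf 178 1431 (.cons 204 (.leaf 180 1437 (.cons 226 (.leaf 299 1623 (.cons 205 (.leaf 206 1618 (.leaf 225 1610 .nil)) .nil)) .nil)) .nil)) .nil)) (.cons 298 (.leaf 203 1622 (.cons 322 (.leaf 299 1814 (.leaf 346 2005 .nil)) .nil)) .nil)))))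
noncomputable def t5 : T := .cons 203 (.leaf 298 1622 (.cons 179 (.leaf 250 1430 (.cons 180 (.leaf 204 1437 (.leaf 156 1245 .nil)) .nil)) .nil)) (.cons 299 (.cons 228 (.leaf 204 1629 (.cons 323 (.leaf 252 1821 (.cons 250 (.leaf 226 1815 (.leaf 347 2007 .nil)) .nil)) .nil)) (.cons 228 (.leaf 204 1629 (.cons 323 (.leaf 252 1821 (.cons 324 (.leaf 300 1820 (.leaf 348 2012 .nil)) .nil)) .nil)) (.cons 226 (.leaf 202 1623 (.cons 323 (.leaf 250 1815 (.cons 324 (.leaf 300 1820 (.leaf 348 2012 .nil)) .nil)) .nil)) (.cons 226 (.leaf 202 1623 (.cons 228 (.leaf 204 1629 (.cons 300 (.leaf 324 1820 (.cons 301 (.leaf 302 2195 (.cons 252 (.cons 253 (.leaf 254 2002 (.leaf 225 1800 .nil)) (.cons 225 (.leaf 224 1792 (.cons 200 (.leaf 201 1603 (.cons 249 (.leaf 248 1794 (.cons 229 (.leaf 250 1801 (.cons 206 (.leaf 205 1617 (.cons 230 (.leaf 207 1625 (.leaf 231 1818 .nil)) .nil)) .nil)) .nil)) .nil)) .nil))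 (.cons 253 (.leaf 254 2002 (.cons 277 (.leaf 325 1831 (.cons 250 (.leaf 278 2000 (.cons 229 (.leaf 249 1801 (.leaf 230 1809 .nil)) .nil)) .nil)) .nil)) .nil))) .nil)) .nil)) .nil)) .nil)) .nil)))) (.cons 298 (.leaf 203 1622 (.cons 322 (.leaf 299 1814 (.leaf 346 2005 .nil)) .nil)) .nil))
noncomputable def t6 : T := .cons 225 (.cons 250 (.leaf 201 1615 (.cons 202 (.leaf 178 1428 (.leaf 299 1620 .nil)) .nil)) (.cons 252 (.leaf 224 1792 (.cons 253 (.leaf 254 2002 (.leaf 228 1800 .nil)) .nil)) .nil)) (.cons 225 (.cons 201 (.leaf 250 1615 (.cons 224 (.leaf 252 1792 (.cons 248 (.leaf 296 1605 (.leaf 247 1786 .nil)) .nil)) .nil)) (.cons 201 (.leaf 250 1615 (.cons 228 (.leaf 200 1603 (.cons 204 (.leaf 299 1629 (.leaf 205 1609 .nil)) .nil)) .nil)) (.cons 252 (.leaf 224 1792 (.cons 253 (.leaf 254 2002 (.leaf 228 1800 .nil)) .nil)) .nil))) (.cons 225 (.cons 201 (.leaf 250 1615 (.cons 224 (.leaf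 252 1792 (.cons 248 (.leaf 296 1605 (.leaf 247 1786 .nil)) .nil)) .nil)) (.cons 252 (.leaf 224 1792 (.cons 253 (.leaf 254 2002 (.leaf 228 1800 .nil)) .nil)) (.cons 201 (.leaf 250 1615 (.cons 200 (.leaf 228 1603 (.cons 199 (.leaf 202 1592 (.leaf 198 1584 .nil)) .nil)) .nil)) .nil))) (.cons 299 (.leaf 202 1623 (.cons 228 (.leaf 204 1629 (.cons 300 (.leaf 324 1820 (.cons 301 (.leaf 302 2195 (.cons 277 (.leaf 278 2193 (.cons 325 (.leaf 326 2384 (.cons 253 (.leaf 252 1831 (.cons 254 (.leaf 229 1808 (.leaf 230 1837 .nil)) .nil)) .nil)) .nil)) .nil)) .nil)) .nil)) .nil)) (.cons 202 (.leaf 299 1623 (.cons 178 (.leaf 250 1428 (.leaf 154 1236 .nil)) .nil)) .nil))))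
noncomputable def t7 : T := .cons 298 (.leaf 203 1622 (.cons 226 (.cons 225 (.cons 252 (.leaf 224 1792 (.cons 202 (.leaf 299 1623 (.cons 178 (.leaf 250 1428 (.leaf 154 1236 .nil)) .nil)) .nil)) (.cons 252 (.leaf 224 1792 (.cons 253 (.leaf 254 2002 (.leaf 228 1800 .nil)) .nil)) (.cons 250 (.leaf 201 1615 (.leaf 322 1813 .nil)) .nil))) (.cons 225 (.cons 252 (.leaf 224 1792 (.cons 202 (.leaf 299 1623 (.cons 178 (.leaf 250 1428 (.leaf 154 1236 .nil)) .nil)) .nil)) (.cons 252 (.leaf 224 1792 (.cons 253 (.leaf 254 2002 (.leaf 228 1800 .nil)) .nil)) (.cons 250 (.leaf 201 1615 (.cons 202 (.leaf 178 1428 (.leaf 299 1620 .nil)) .nil)) .nil))) (.cons 225 (.cons 250 (.leaf 201 1615 (.leaf 322 1813 .nil)) (.cons 252 (.leaf 224 1792 (.cons 253 (.leaf 254 2002 (.leaf 228 1800 .nil)) .nil)) .nil)) (.cons 299 (.leaf 202 1623 (.leaf 322 1814 .nil)) .nil)))) .nil)) (.cons 298 (.cons 226 (.cons 299 (.leaf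 202 1623 (.leaf 322 1814 .nil)) (.cons 225 (.cons 250 (.leaf 201 1615 (.cons 202 (.leaf 178 1428 (.leaf 299 1620 .nil)) .nil)) (.cons 252 (.leaf 224 1792 (.cons 253 (.leaf 254 2002 (.leaf 228 1800 .nil)) .nil)) .nil)) (.cons 225 (.cons 252 (.leaf 224 1792 (.cons 201 (.leaf 250 1615 (.cons 200 (.leaf 228 1603 (.cons 199 (.leaf 202 1592 (.leaf 198 1584 .nil)) .nil)) .nil)) .nil)) (.cons 252 (.leaf 224 1792 (.cons 253 (.leaf 254 2002 (.leaf 228 1800 .nil)) .nil)) (.cons 250 (.leaf 201 1615 (.leaf 322 1813 .nil)) .nil))) (.cons 322 (.leaf 299 1814 (.leaf 346 2005 .nil)) .nil)))) (.cons 226 t6 (.cons 322 (.leaf 346 2005 (.leaf 250 1813 .nil)) (.cons 322 (.leaf 299 1814 (.leaf 346 2005 .nil)) .nil)))) (.cons 203 (.cons 202 (.leaf 178 1431 (.cons 204 (.leaf 180 1437 (.cons 226 (.leaf 299 1623 (.cons 205 (.leaf 206 1618 (.leaf 225 1610 .nil)) .nil)) .nil)) .nil)) (.cons 179 (.leaf 250 1430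 (.cons 154 (.leaf 178 1239 (.cons 155 (.leaf 130 1047 (.cons 156 (.leaf 132 1053 (.leaf 180 1245 .nil)) .nil)) .nil)) .nil)) (.cons 202 (.leaf 178 1431 (.cons 179 (.leaf 250 1430 (.cons 226 (.leaf 299 1623 (.cons 155 (.leaf 131 1046 (.cons 130 (.leaf 154 1047 (.cons 132 (.leaf 156 1053 (.cons 228 (.leaf 252 1244 (.cons 201 (.leaf 200 1600 (.leaf 229 1611 .nil)) .nil)) .nil)) .nil)) .nil)) .nil)) .nil)) .nil)) (.cons 179 (.leaf 250 1430 (.cons 180 (.leaf 204 1437 (.leaf 156 1245 .nil)) .nil)) .nil)))) (.cons 203 (.leaf 298 1622 (.cons 202 (.leaf 178 1431 (.cons 204 (.leaf 180 1437 (.cons 226 (.leaf 299 1623 (.cons 205 (.leaf 206 1618 (.leaf 225 1610 .nil)) .nil)) .nil)) .nil)) .nil)) (.cons 203 (.leaf 298 1622 (.cons 179 (.leaf 250 1430 (.cons 154 (.leaf 178 1239 (.cons 155 (.leaf 130 1047 (.cons 156 (.leaf 132 1053 (.leaf 180 1245 .nil)) .nil)) .nil)) .nil)) .nil)) (.cons 203 (.leaf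 298 1622 (.cons 179 (.leaf 250 1430 (.cons 180 (.leaf 204 1437 (.leaf 156 1245 .nil)) .nil)) .nil)) .nil)))))
noncomputable def t8 : T := .cons 225 (.cons 201 (.leaf 250 1615 (.cons 224 (.leaf 252 1792 (.cons 248 (.leaf 296 1605 (.leaf 247 1786 .nil)) .nil)) .nil)) (.cons 224 (.leaf 252 1792 (.cons 199 (.leaf 200 1595 (.cons 198 (.leaf 223 1587 (.cons 248 (.leaf 247 1786 (.cons 201 (.leaf 296 1605 (.cons 177 (.leaf 249 1414 (.leaf 153 1222 .nil)) .nil)) .nil)) .nil)) .nil)) .nil)) (.cons 201 (.leaf 250 1615 (.cons 228 (.leaf 200 1603 (.cons 204 (.leaf 299 1629 (.leaf 205 1609 .nil)) .nil)) .nil)) (.cons 322 (.leaf 299 1814 (.leaf 346 2005 .nil)) .nil)))) (.cons 225 (.cons 201 (.leaf 250 1615 (.cons 224 (.leaf 252 1792 (.cons 248 (.leaf 296 1605 (.leaf 247 1786 .nil)) .nil)) .nil)) (.cons 252 (.leaf 224 1792 (.cons 253 (.leaf 254 2002 (.leaf 228 1800 .nil)) .nil)) (.cons 250 (.leaf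 201 1615 (.leaf 322 1813 .nil)) .nil))) (.cons 225 (.cons 252 (.leaf 224 1792 (.cons 202 (.leaf 299 1623 (.cons 178 (.leaf 250 1428 (.leaf 154 1236 .nil)) .nil)) .nil)) (.cons 252 (.leaf 224 1792 (.cons 253 (.leaf 254 2002 (.leaf 228 1800 .nil)) .nil)) (.cons 250 (.leaf 201 1615 (.cons 299 (.leaf 202 1620 (.leaf 323 1812 .nil)) .nil)) .nil))) (.cons 299 (.leaf 202 1623 (.leaf 322 1814 .nil)) .nil)))
noncomputable def t9 : T := .cons 298 (.leaf 203 1622 (.cons 226 t8 .nil)) (.cons 299 (.cons 202 (.leaf 226 1623 (.cons 178 (.leaf 203 1431 (.cons 324 (.leaf 300 1820 (.cons 323 (.leaf 348 2012 (.cons 228 (.leaf 204 1629 (.leaf 252 1821 .nil)) .nil)) .nil)) .nil)) .nil)) (.cons 204 (.leaf 228 1629 (.cons 324 (.leaf 300 1820 (.cons 323 (.leaf 348 2012 (.cons 346 (.leaf 322 2006 (.cons 347 (.leaf 250 2007 (.leaf 370 2198 .nil)) .nil)) .nil)) .nil)) .nil)) (.cons 202 (.leaf 226 1623 (.cons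 178 (.leaf 203 1431 (.cons 324 (.leaf 300 1820 (.cons 323 (.leaf 348 2012 (.cons 346 (.leaf 322 2006 (.cons 347 (.leaf 250 2007 (.leaf 370 2198 .nil)) .nil)) .nil)) .nil)) .nil)) .nil)) (.cons 202 (.leaf 226 1623 (.cons 203 (.leaf 178 1431 (.cons 204 (.leaf 180 1437 (.leaf 228 1629 .nil)) .nil)) .nil)) .nil)))) (.cons 299 (.cons 226 (.leaf 202 1623 (.cons 228 (.leaf 204 1629 (.cons 298 (.leaf 322 1814 (.cons 300 (.leaf 324 1820 (.cons 301 (.leaf 302 2195 (.cons 277 (.leaf 278 2193 (.cons 325 (.leaf 326 2384 (.cons 253 (.leaf 252 1831 (.cons 254 (.leaf 229 1808 (.leaf 230 1837 .nil)) .nil)) .nil)) .nil)) .nil)) .nil)) .nil)) .nil)) .nil)) (.cons 322 (.leaf 298 1814 (.cons 323 (.leaf 346 2006 (.cons 324 (.leaf 300 1820 (.leaf 348 2012 .nil)) .nil)) .nil)) (.cons 226 (.leaf 202 1623 (.cons 228 (.leaf 204 1629 (.cons 252 (.leaf 323 1821 (.cons 253 (.leaf 254 2002 (.leaf 225 1800 .nil))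 .nil)) .nil)) .nil)) .nil))) (.cons 298 (.leaf 203 1622 (.cons 322 (.leaf 346 2005 (.leaf 250 1813 .nil)) .nil)) (.cons 203 (.leaf 298 1622 (.cons 178 (.leaf 202 1431 (.cons 204 (.leaf 180 1437 (.cons 299 (.leaf 228 1629 (.cons 324 (.leaf 300 1820 (.cons 323 (.leaf 348 2012 (.cons 250 (.leaf 226 1815 (.leaf 347 2007 .nil)) .nil)) .nil)) .nil)) .nil)) .nil)) .nil)) .nil))))
noncomputable def t10 : T := .cons 226 (.leaf 202 1623 (.cons 323 (.leaf 250 1815 (.cons 324 (.leaf 300 1820 (.leaf 348 2012 .nil)) .nil)) .nil)) (.cons 322 (.leaf 298 1814 (.cons 323 (.leaf 346 2006 (.cons 324 (.leaf 300 1820 (.leaf 348 2012 .nil)) .nil)) .nil)) (.cons 298 (.leaf 322 1814 (.cons 226 (.leaf 202 1623 (.cons 300 (.leaf 324 1820 (.cons 301 (.leaf 302 2195 (.cons 277 (.leaf 278 2193 (.cons 225 (.cons 224 (.leaf 252 1792 (.cons 250 (.leaf 201 1615 (.leaf 223 1784 .nil)) .nil)) (.cons 201 (.leaf 250 1615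 (.cons 228 (.leaf 200 1603 (.cons 248 (.leaf 249 1794 (.cons 253 (.leaf 252 1800 (.cons 229 (.leaf 254 1808 (.cons 206 (.leaf 205 1617 (.leaf 230 1645 .nil)) .nil)) .nil)) .nil)) .nil)) .nil)) (.cons 250 (.leaf 201 1615 (.cons 224 (.leaf 223 1784 (.cons 199 (.leaf 200 1595 (.cons 248 (.leaf 247 1786 (.cons 249 (.leaf 271 1978 (.leaf 228 1793 .nil)) .nil)) .nil)) .nil)) .nil)) (.cons 252 (.leaf 224 1792 (.cons 253 (.leaf 254 2002 (.leaf 228 1800 .nil)) .nil)) .nil)))) .nil)) .nil)) .nil)) .nil)) .nil)) (.cons 322 (.leaf 298 1814 (.cons 202 (.leaf 226 1623 (.cons 323 (.leaf 346 2006 (.cons 347 (.leaf 250 2007 (.cons 348 (.leaf 324 2012 (.leaf 372 2204 .nil)) .nil)) .nil)) .nil)) .nil)) (.cons 322 (.leaf 298 1814 (.cons 226 (.leaf 202 1623 (.cons 323 (.leaf 250 1815 (.leaf 346 2006 .nil)) .nil)) .nil)) .nil))))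
noncomputable def t11 : T := .cons 299 (.leaf 226 1623 (.cons 324 (.leaf 300 1820 (.cons 323 (.leaf 348 2012 (.cons 346 (.leaf 322 2006 (.cons 347 (.leaf 250 2007 (.leaf 370 2198 .nil)) .nil)) .nil)) .nil)) .nil)) (.cons 203 (.leaf 178 1431 (.cons 250 (.leaf 179 1430 (.cons 249 (.cons 248 (.leaf 247 1976 (.leaf 271 1978 .nil)) (.cons 201 (.cons 200 (.leaf 228 1600 (.cons 175 (.leaf 176 1403 (.cons 199 (.leaf 174 1395 (.cons 223 (.leaf 222 1586 (.leaf 224 1594 .nil)) .nil)) .nil)) .nil)) (.cons 225 (.leaf 177 1420 (.cons 224 (.leaf 252 1795 (.cons 223 (.leaf 200 1594 (.leaf 222 1776 .nil)) .nil)) .nil)) (.cons 225 (.leaf 177 1420 (.cons 252 (.leaf 224 1795 (.cons 228 (.leaf 229 1801 (.cons 253 (.leaf 254 2002 (.cons 277 (.leaf 278 2000 (.cons 299 (.leaf 323 1821 (.cons 300 (.leaf 324 1820 (.cons 301 (.leaf 302 2195 (.leaf 325 1831 .nil)) .nil)) .nil)) .nil)) .nil)) .nil)) .nil)) .nil))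 (.cons 228 (.leaf 200 1600 (.cons 229 (.leaf 230 1810 (.leaf 252 1801 .nil)) .nil)) .nil)))) .nil)) .nil)) .nil)) (.cons 178 (.leaf 203 1431 (.cons 226 (.leaf 250 1428 (.leaf 154 1236 .nil)) .nil)) (.cons 226 (.leaf 299 1623 (.cons 178 (.leaf 203 1431 (.leaf 154 1236 .nil)) .nil)) .nil)))
noncomputable def t12 : T := .cons 203 (.leaf 298 1622 (.cons 178 (.leaf 202 1431 (.cons 179 (.leaf 250 1430 (.leaf 154 1239 .nil)) .nil)) .nil)) (.cons 299 (.cons 226 (.leaf 202 1623 (.cons 228 (.leaf 204 1629 (.cons 252 (.leaf 323 1821 (.cons 253 (.leaf 254 2002 (.leaf 225 1800 .nil)) .nil)) .nil)) .nil)) (.cons 228 (.leaf 204 1629 (.cons 323 (.leaf 252 1821 (.cons 324 (.leaf 300 1820 (.leaf 348 2012 .nil)) .nil)) .nil)) (.cons 226 (.leaf 202 1623 (.cons 323 (.leaf 250 1815 (.cons 324 (.leaf 300 1820 (.leaf 348 2012 .nil)) .nil)) .nil)) (.cons 226 (.leaf 202 1623 (.cons 228 (.leaf 204 1629 (.cons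 300 (.leaf 324 1820 (.cons 301 (.leaf 302 2195 (.cons 252 (.cons 253 (.leaf 254 2002 (.leaf 225 1800 .nil)) (.cons 225 (.leaf 224 1792 (.cons 200 (.leaf 201 1603 (.cons 249 (.leaf 248 1794 (.cons 229 (.leaf 250 1801 (.cons 206 (.leaf 205 1617 (.cons 230 (.leaf 207 1625 (.leaf 231 1818 .nil)) .nil)) .nil)) .nil)) .nil)) .nil)) (.cons 253 (.leaf 254 2002 (.cons 277 (.leaf 325 1831 (.cons 250 (.leaf 278 2000 (.cons 229 (.leaf 249 1801 (.leaf 230 1809 .nil)) .nil)) .nil)) .nil)) .nil))) .nil)) .nil)) .nil)) .nil)) .nil)))) (.cons 203 (.leaf 298 1622 (.cons 204 (.leaf 180 1437 (.cons 178 (.leaf 202 1431 (.cons 179 (.leaf 154 1239 (.cons 176 (.leaf 177 1408 (.cons 205 (.leaf 206 1427 (.cons 228 (.leaf 299 1629 (.cons 155 (.leaf 252 1244 (.leaf 131 1052 .nil)) .nil)) .nil)) .nil)) .nil)) .nil)) .nil)) .nil)) (.cons 203 (.leaf 298 1622 (.cons 179 (.leaf 250 1430 (.cons 154 (.leaf 178 1239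 (.cons 155 (.leaf 130 1047 (.cons 156 (.leaf 132 1053 (.leaf 180 1245 .nil)) .nil)) .nil)) .nil)) .nil)) .nil)))
noncomputable def t13 : T := .cons 299 (.leaf 251 1623 (.leaf 250 1620 .nil)) (.cons 250 (.cons 178 (.leaf 251 1428 (.cons 153 (.leaf 177 1231 (.cons 154 (.leaf 129 1039 (.cons 203 (.leaf 179 1429 (.leaf 130 1044 .nil)) .nil)) .nil)) .nil)) (.cons 203 (.leaf 179 1429 (.cons 201 (.leaf 177 1423 (.cons 200 (.leaf 199 1592 (.cons 175 (.leaf 176 1403 (.cons 224 (.leaf 223 1594 (.cons 204 (.leaf 225 1601 (.cons 181 (.leaf 180 1417 (.cons 205 (.leaf 206 1618 (.leaf 182 1425 .nil)) .nil)) .nil)) .nil)) .nil)) .nil)) .nil)) .nil)) (.cons 178 (.leaf 251 1428 (.cons 153 (.leaf 177 1231 (.cons 154 (.leaf 129 1039 (.cons 155 (.leaf 131 1045 (.leaf 179 1237 .nil)) .nil)) .nil)) .nil)) (.cons 178 (.leaf 251 1428 (.cons 177 (.leaf 201 1423 (.leaf 153 1231 .nil)) .nil)) (.cons 178 (.leaf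 251 1428 (.cons 155 (.leaf 179 1237 (.cons 154 (.leaf 131 1045 (.cons 129 (.leaf 153 1039 (.cons 130 (.leaf 203 1044 (.leaf 105 847 .nil)) .nil)) .nil)) .nil)) .nil)) .nil))))) (.cons 251 (.leaf 299 1623 (.cons 178 (.leaf 203 1431 (.leaf 154 1236 .nil)) .nil)) (.cons 250 (.leaf 299 1620 (.cons 203 (.leaf 179 1429 (.cons 177 (.leaf 201 1423 (.cons 178 (.leaf 153 1231 (.cons 154 (.leaf 130 1044 (.cons 131 (.leaf 155 1045 (.cons 175 (.leaf 176 1400 (.cons 204 (.leaf 205 1419 (.cons 225 (.leaf 224 1601 (.leaf 249 1230 .nil)) .nil)) .nil)) .nil)) .nil)) .nil)) .nil)) .nil)) .nil)) .nil)))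
noncomputable def t14 : T := .cons 322 (.leaf 251 1813 (.cons 345 (.leaf 321 1998 (.cons 346 (.leaf 369 2190 (.cons 347 (.leaf 323 2004 (.leaf 371 2196 .nil)) .nil)) .nil)) .nil)) (.cons 299 (.leaf 323 1812 (.cons 225 (.leaf 201 1615 (.cons 224 (.cons 199 (.leaf 200 1595 (.cons 251 (.leaf 252 1792 (.leaf 223 1784 .nil)) .nil)) (.cons 199 (.leaf 200 1595 (.cons 223 (.leaf 198 1587 (.cons 247 (.leaf 248 1786 (.leaf 246 1778 .nil)) .nil)) .nil)) (.cons 200 (.leaf 199 1595 (.cons 248 (.leaf 247 1786 (.cons 251 (.leaf 252 1792 (.cons 271 (.leaf 295 1598 (.leaf 249 1978 .nil)) .nil)) .nil)) .nil)) (.cons 251 (.leaf 252 1792 (.leaf 223 1784 .nil)) .nil)))) .nil)) .nil)) (.cons 225 (.leaf 201 1615 (.cons 299 (.leaf 323 1812 (.cons 322 (.leaf 249 1807 (.cons 345 (.leaf 321 1998 (.cons 346 (.leaf 370 2197 (.leaf 369 2190 .nil)) .nil)) .nil)) .nil)) .nil)) (.cons 322 (.leaf 251 1813 (.cons 345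 (.leaf 321 1998 (.cons 346 (.leaf 369 2190 (.cons 370 (.leaf 299 2197 (.cons 371 (.leaf 347 2196 (.leaf 395 2388 .nil)) .nil)) .nil)) .nil)) .nil)) .nil)))
noncomputable def t15 : T := .cons 203 (.cons 250 (.leaf 298 1621 (.cons 179 (.leaf 202 1429 (.leaf 251 1430 .nil)) .nil)) (.cons 250 (.leaf 298 1621 (.cons 179 (.leaf 202 1429 (.leaf 155 1238 .nil)) .nil)) (.cons 251 (.leaf 298 1622 (.cons 202 (.leaf 178 1431 (.leaf 299 1623 .nil)) .nil)) (.cons 251 (.cons 178 (.leaf 202 1431 (.cons 179 (.leaf 250 1430 (.leaf 154 1239 .nil)) .nil)) (.cons 179 (.leaf 250 1430 (.cons 154 (.leaf 178 1239 (.cons 155 (.leaf 130 1047 (.cons 156 (.leaf 132 1053 (.leaf 180 1245 .nil)) .nil)) .nil)) .nil)) (.cons 202 (.leaf 178 1431 (.leaf 299 1623 .nil)) (.cons 179 (.leaf 250 1430 (.cons 180 (.leaf 204 1437 (.leaf 156 1245 .nil)) .nil)) .nil)))) (.cons 298 (.leaf 251 1622 (.leaf 250 1621 .nil)) .nil)))))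 (.cons 250 (.cons 203 (.leaf 298 1621 (.cons 179 (.leaf 202 1429 (.leaf 155 1238 .nil)) .nil)) (.cons 298 (.leaf 203 1621 (.cons 225 (.leaf 201 1615 (.cons 299 (.leaf 323 1812 (.cons 322 (.leaf 249 1807 (.cons 345 (.leaf 321 1998 (.cons 346 (.leaf 370 2197 (.leaf 369 2190 .nil)) .nil)) .nil)) .nil)) .nil)) .nil)) (.cons 299 (.leaf 202 1620 (.cons 323 (.leaf 347 2007 (.leaf 298 1812 .nil)) .nil)) (.cons 202 (.leaf 299 1620 (.cons 201 (.leaf 177 1423 (.cons 200 (.leaf 199 1592 (.cons 203 (.leaf 179 1429 (.cons 175 (.leaf 176 1403 (.cons 224 (.leaf 223 1594 (.cons 204 (.leaf 225 1601 (.cons 181 (.leaf 180 1417 (.cons 205 (.leaf 206 1618 (.leaf 182 1425 .nil)) .nil)) .nil)) .nil)) .nil)) .nil)) .nil)) .nil)) .nil)) .nil)))) (.cons 251 (.cons 298 (.leaf 203 1622 (.cons 322 (.leaf 299 1814 (.leaf 346 2005 .nil)) .nil)) (.cons 299 (.leaf 202 1623 (.cons 322 (.leaf 298 1814 (.cons 323 (.leaf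 346 2006 (.cons 324 (.leaf 300 1820 (.leaf 348 2012 .nil)) .nil)) .nil)) .nil)) (.cons 203 (.leaf 298 1622 (.cons 202 (.leaf 178 1431 (.cons 204 (.leaf 180 1437 (.cons 205 (.leaf 206 1618 (.leaf 225 1610 .nil)) .nil)) .nil)) .nil)) (.cons 202 (.leaf 299 1623 (.cons 178 (.leaf 203 1431 (.leaf 154 1236 .nil)) .nil)) .nil)))) (.cons 299 (.cons 251 (.leaf 202 1623 (.cons 322 (.leaf 298 1814 (.cons 323 (.leaf 250 1815 (.leaf 346 2006 .nil)) .nil)) .nil)) (.cons 323 (.cons 250 (.leaf 251 1815 (.leaf 347 2007 .nil)) (.cons 251 (.cons 324 (.leaf 300 1820 (.leaf 348 2012 .nil)) (.cons 322 (.leaf 298 1814 (.leaf 346 2006 .nil)) .nil)) (.cons 250 (.leaf 347 2007 (.leaf 298 1812 .nil)) .nil))) (.cons 250 (.leaf 202 1620 (.cons 323 (.leaf 347 2007 (.leaf 298 1812 .nil)) .nil)) (.cons 251 (.leaf 202 1623 (.cons 322 (.leaf 298 1814 (.cons 323 (.leaf 346 2006 (.cons 324 (.leaf 300 1820 (.leaf 348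 2012 .nil)) .nil)) .nil)) .nil)) (.cons 202 (.leaf 251 1623 (.leaf 250 1620 .nil)) .nil))))) (.cons 298 (.cons 251 (.leaf 203 1622 (.cons 322 (.leaf 299 1814 (.leaf 346 2005 .nil)) .nil)) (.cons 250 t14 (.cons 250 (.leaf 203 1621 (.cons 225 (.leaf 201 1615 (.cons 299 (.leaf 323 1812 (.cons 322 (.leaf 249 1807 (.cons 345 (.leaf 321 1998 (.cons 346 (.leaf 370 2197 (.leaf 369 2190 .nil)) .nil)) .nil)) .nil)) .nil)) .nil)) (.cons 203 (.leaf 251 1622 (.leaf 250 1621 .nil)) .nil)))) (.cons 203 (.cons 251 (.leaf 298 1622 (.cons 178 (.leaf 202 1431 (.cons 179 (.leaf 250 1430 (.leaf 154 1239 .nil)) .nil)) .nil)) (.cons 250 (.leaf 298 1621 (.cons 179 (.leaf 202 1429 (.leaf 155 1238 .nil)) .nil)) (.cons 251 (.leaf 298 1622 (.cons 202 (.leaf 178 1431 (.cons 204 (.leaf 180 1437 (.cons 205 (.leaf 206 1618 (.leaf 225 1610 .nil)) .nil)) .nil)) .nil)) (.cons 251 (.cons 178 (.leaf 202 1431 (.cons 179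 (.leaf 250 1430 (.leaf 154 1239 .nil)) .nil)) (.cons 179 (.leaf 250 1430 (.cons 154 (.leaf 178 1239 (.cons 155 (.leaf 130 1047 (.cons 156 (.leaf 132 1053 (.leaf 180 1245 .nil)) .nil)) .nil)) .nil)) (.cons 202 (.leaf 178 1431 (.cons 204 (.leaf 180 1437 (.cons 205 (.leaf 206 1618 (.leaf 225 1610 .nil)) .nil)) .nil)) (.cons 179 (.leaf 250 1430 (.cons 180 (.leaf 204 1437 (.leaf 156 1245 .nil)) .nil)) .nil)))) (.cons 298 (.leaf 251 1622 (.leaf 250 1621 .nil)) .nil))))) (.cons 202 t13 .nil))))))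
noncomputable def t16 : T := .cons 298 (.leaf 203 1622 (.cons 322 (.leaf 299 1814 (.leaf 346 2005 .nil)) .nil)) (.cons 299 (.cons 228 (.leaf 204 1629 (.cons 323 (.leaf 252 1821 (.cons 250 (.leaf 226 1815 (.leaf 347 2007 .nil)) .nil)) .nil)) (.cons 324 (.leaf 300 1820 (.cons 323 (.leaf 348 2012 (.cons 250 (.leaf 226 1815 (.leaf 347 2007 .nil)) .nil)) .nil)) (.cons 300 (.leaf 324 1820 (.cons 301 (.leaf 302 2195 (.cons 203 (.cons 179 (.leaf 250 1430 (.cons 154 (.leaf 178 1239 (.cons 155 (.leaf 130 1047 (.cons 156 (.leaf 132 1053 (.leaf 180 1245 .nil)) .nil)) .nil)) .nil)) (.cons 204 (.leaf 180 1437 (.leaf 228 1629 .nil)) (.cons 179 (.leaf 250 1430 (.cons 154 (.leaf 178 1239 (.cons 155 (.leaf 130 1047 (.cons 228 (.leaf 204 1629 (.leaf 252 1244 .nil)) .nil)) .nil)) .nil)) .nil))) .nil)) .nil)) (.cons 228 (.leaf 204 1629 (.cons 323 (.leaf 252 1821 (.cons 324 (.leaf 300 1820 (.leaf 348 2012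 .nil)) .nil)) .nil)) .nil)))) (.cons 299 (.cons 324 (.leaf 300 1820 (.cons 323 (.leaf 348 2012 (.cons 250 (.leaf 226 1815 (.leaf 347 2007 .nil)) .nil)) .nil)) (.cons 298 (.leaf 322 1814 (.cons 228 (.leaf 204 1629 (.cons 300 (.leaf 324 1820 (.cons 301 (.leaf 302 2195 (.cons 277 (.leaf 278 2193 (.cons 325 (.leaf 326 2384 (.cons 253 (.leaf 252 1831 (.cons 230 (.leaf 254 1837 (.cons 229 (.leaf 250 1810 (.leaf 206 1645 .nil)) .nil)) .nil)) .nil)) .nil)) .nil)) .nil)) .nil)) .nil)) (.cons 322 (.leaf 298 1814 (.cons 204 (.leaf 228 1629 (.cons 323 (.leaf 346 2006 (.cons 347 (.leaf 250 2007 (.cons 348 (.leaf 324 2012 (.leaf 372 2204 .nil)) .nil)) .nil)) .nil)) .nil)) (.cons 322 (.leaf 298 1814 (.cons 228 (.leaf 204 1629 (.cons 323 (.leaf 252 1821 (.leaf 346 2006 .nil)) .nil)) .nil)) .nil)))) (.cons 203 (.leaf 298 1622 (.cons 179 (.leaf 250 1430 (.cons 154 (.leaf 178 1239 (.cons 155 (.leaf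 130 1047 (.cons 156 (.leaf 132 1053 (.leaf 180 1245 .nil)) .nil)) .nil)) .nil)) .nil)) .nil)))
noncomputable def t17 : T := .cons 204 (.leaf 228 1629 (.cons 324 (.leaf 300 1820 (.cons 323 (.leaf 348 2012 (.cons 346 (.leaf 322 2006 (.cons 347 (.leaf 250 2007 (.leaf 370 2198 .nil)) .nil)) .nil)) .nil)) .nil)) (.cons 228 (.leaf 204 1629 (.cons 323 (.leaf 252 1821 (.cons 324 (.leaf 300 1820 (.leaf 348 2012 .nil)) .nil)) .nil)) (.cons 322 (.leaf 298 1814 (.cons 323 (.leaf 346 2006 (.cons 324 (.leaf 300 1820 (.leaf 348 2012 .nil)) .nil)) .nil)) (.cons 322 (.leaf 298 1814 (.cons 204 (.leaf 228 1629 (.cons 323 (.leaf 346 2006 (.cons 347 (.leaf 250 2007 (.cons 348 (.leaf 324 2012 (.leaf 372 2204 .nil)) .nil)) .nil)) .nil)) .nil)) (.cons 322 (.leaf 298 1814 (.cons 228 (.leaf 204 1629 (.cons 323 (.leaf 252 1821 (.leaf 346 2006 .nil)) .nil)) .nil)) (.cons 298 (.leaf 322 1814 (.cons 228 (.leaf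 204 1629 (.cons 300 (.leaf 324 1820 (.cons 301 (.leaf 302 2195 (.cons 277 (.leaf 278 2193 (.cons 325 (.leaf 326 2384 (.cons 253 (.leaf 252 1831 (.cons 230 (.leaf 254 1837 (.cons 229 (.leaf 250 1810 (.leaf 206 1645 .nil)) .nil)) .nil)) .nil)) .nil)) .nil)) .nil)) .nil)) .nil)) .nil)))))
noncomputable def t18 : T := .cons 203 (.leaf 298 1622 (.cons 178 (.leaf 202 1431 (.cons 204 (.leaf 180 1437 (.cons 299 (.leaf 228 1629 (.cons 324 (.leaf 300 1820 (.cons 179 (.leaf 250 1430 (.leaf 154 1239 .nil)) .nil)) .nil)) .nil)) .nil)) .nil)) (.cons 299 t17 (.cons 203 (.cons 179 (.leaf 250 1430 (.cons 154 (.leaf 178 1239 (.cons 155 (.leaf 130 1047 (.cons 156 (.leaf 132 1053 (.leaf 180 1245 .nil)) .nil)) .nil)) .nil)) (.cons 204 (.leaf 180 1437 (.cons 178 (.leaf 202 1431 (.cons 299 (.leaf 228 1629 (.cons 324 (.leaf 300 1820 (.cons 323 (.leaf 348 2012 (.cons 346 (.leaf 322 2006 (.cons 347 (.leaf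 250 2007 (.leaf 370 2198 .nil)) .nil)) .nil)) .nil)) .nil)) .nil)) .nil)) (.cons 178 (.leaf 202 1431 (.cons 179 (.leaf 250 1430 (.leaf 154 1239 .nil)) .nil)) (.cons 179 (.leaf 250 1430 (.cons 180 (.leaf 204 1437 (.leaf 156 1245 .nil)) .nil)) (.cons 204 (.leaf 180 1437 (.cons 178 (.leaf 202 1431 (.cons 179 (.leaf 154 1239 (.cons 176 (.leaf 177 1408 (.cons 205 (.leaf 206 1427 (.cons 228 (.leaf 299 1629 (.cons 155 (.leaf 252 1244 (.leaf 131 1052 .nil)) .nil)) .nil)) .nil)) .nil)) .nil)) .nil)) .nil))))) (.cons 203 (.leaf 298 1622 (.cons 179 (.leaf 250 1430 (.cons 154 (.leaf 178 1239 (.cons 155 (.leaf 130 1047 (.cons 156 (.leaf 132 1053 (.leaf 180 1245 .nil)) .nil)) .nil)) .nil)) .nil)) (.cons 203 (.leaf 298 1622 (.cons 204 (.leaf 180 1437 (.cons 178 (.leaf 202 1431 (.cons 179 (.leaf 154 1239 (.cons 176 (.leaf 177 1408 (.cons 205 (.leaf 206 1427 (.cons 228 (.leaf 299 1629 (.cons 155 (.leaf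 252 1244 (.leaf 131 1052 .nil)) .nil)) .nil)) .nil)) .nil)) .nil)) .nil)) .nil)) .nil))))
noncomputable def t19 : T := .cons 224 (.leaf 204 1601 (.cons 199 (.leaf 200 1595 (.cons 223 (.leaf 198 1587 (.leaf 202 1593 .nil)) .nil)) .nil)) (.cons 228 (.cons 200 (.leaf 201 1603 (.cons 204 (.leaf 205 1609 (.cons 253 (.leaf 252 1800 (.cons 229 (.leaf 249 1802 (.leaf 254 1808 .nil)) .nil)) .nil)) .nil)) (.cons 200 (.leaf 201 1603 (.cons 204 (.leaf 205 1609 (.cons 253 (.leaf 252 1800 (.cons 229 (.leaf 254 1808 (.cons 230 (.leaf 202 1619 (.leaf 231 1627 .nil)) .nil)) .nil)) .nil)) .nil)) (.cons 249 (.leaf 248 1794 (.leaf 229 1802 .nil)) (.cons 201 (.leaf 200 1603 (.cons 177 (.leaf 202 1423 (.leaf 249 1420 .nil)) .nil)) .nil)))) (.cons 249 (.cons 201 (.leaf 177 1420 (.cons 228 (.leaf 200 1603 (.leaf 248 1794 .nil)) .nil)) (.cons 201 (.leaf 177 1420 (.cons 228 (.leaf 200 1603 (.leaf 229 1802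 .nil)) .nil)) (.cons 248 (.leaf 247 1976 (.cons 201 (.leaf 177 1420 (.cons 296 (.leaf 224 1605 (.leaf 320 1797 .nil)) .nil)) .nil)) (.cons 248 (.leaf 247 1976 (.leaf 228 1794 .nil)) .nil)))) (.cons 204 (.leaf 224 1601 (.cons 205 (.leaf 206 1618 (.leaf 228 1609 .nil)) .nil)) .nil)))
noncomputable def t20 : T := .cons 204 (.cons 225 (.leaf 224 1601 (.cons 205 (.leaf 206 1618 (.leaf 228 1609 .nil)) .nil)) (.cons 251 (.leaf 180 1437 (.leaf 298 1622 .nil)) .nil)) (.cons 204 (.cons 225 (.leaf 224 1601 (.cons 205 (.leaf 206 1618 (.leaf 228 1609 .nil)) .nil)) (.cons 251 (.leaf 180 1437 (.cons 202 (.leaf 178 1431 (.cons 205 (.leaf 206 1618 (.cons 181 (.leaf 182 1425 (.cons 229 (.leaf 230 1616 (.cons 201 (.leaf 228 1608 (.cons 176 (.leaf 177 1411 (.cons 200 (.leaf 199 1592 (.leaf 175 1403 .nil)) .nil)) .nil)) .nil)) .nil)) .nil)) .nil)) .nil)) (.cons 251 (.leaf 180 1437 (.cons 202 (.leaf 178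 1431 (.cons 225 (.leaf 224 1601 (.cons 201 (.cons 228 (.leaf 200 1600 (.leaf 229 1608 .nil)) (.cons 176 (.leaf 177 1411 (.cons 200 (.leaf 199 1592 (.leaf 175 1403 .nil)) .nil)) (.cons 177 (.leaf 250 1423 (.leaf 176 1411 .nil)) .nil))) .nil)) .nil)) .nil)) (.cons 225 (.leaf 224 1601 (.cons 205 (.leaf 206 1618 (.leaf 202 1610 .nil)) .nil)) .nil)))) (.cons 250 (.leaf 298 1621 (.cons 225 t19 .nil)) (.cons 298 (.leaf 251 1622 (.leaf 250 1621 .nil)) .nil)))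
noncomputable def t21 : T := .cons 203 (.leaf 298 1621 (.cons 179 (.leaf 202 1429 (.leaf 251 1430 .nil)) .nil)) (.cons 202 (.cons 201 (.leaf 177 1423 (.cons 199 (.leaf 200 1592 (.cons 298 (.leaf 225 1615 (.cons 228 (.leaf 229 1611 (.cons 322 (.leaf 251 1813 (.cons 345 (.leaf 321 1998 (.cons 346 (.leaf 369 2190 (.cons 347 (.leaf 323 2004 (.leaf 371 2196 .nil)) .nil)) .nil)) .nil)) .nil)) .nil)) .nil)) .nil)) (.cons 178 (.leaf 251 1428 (.cons 153 (.leaf 177 1231 (.cons 154 (.leaf 129 1039 (.cons 155 (.leaf 131 1045 (.leaf 179 1237 .nil)) .nil)) .nil)) .nil)) (.cons 201 (.leaf 177 1423 (.cons 200 (.leaf 199 1592 (.cons 228 (.leaf 225 1603 (.leaf 229 1611 .nil)) .nil)) .nil)) (.cons 178 (.leaf 251 1428 (.cons 155 (.leaf 179 1237 (.cons 154 (.leaf 131 1045 (.cons 129 (.leaf 153 1039 (.cons 105 (.leaf 130 847 (.cons 225 (.leaf 249 1230 (.cons 201 (.leaf 298 1615 (.cons 200 (.leaf 199 1592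 (.leaf 228 1603 .nil)) .nil)) .nil)) .nil)) .nil)) .nil)) .nil)) .nil)) .nil)))) (.cons 202 (.cons 201 (.leaf 177 1423 (.cons 200 (.leaf 199 1592 (.cons 228 (.leaf 203 1600 (.leaf 225 1603 .nil)) .nil)) .nil)) (.cons 201 (.leaf 177 1423 (.cons 200 (.leaf 199 1592 (.cons 228 (.leaf 225 1603 (.leaf 229 1611 .nil)) .nil)) .nil)) (.cons 178 (.leaf 251 1428 (.cons 153 (.leaf 177 1231 (.cons 154 (.leaf 129 1039 (.cons 203 (.leaf 179 1429 (.leaf 130 1044 .nil)) .nil)) .nil)) .nil)) (.cons 178 (.leaf 251 1428 (.cons 155 (.leaf 179 1237 (.cons 154 (.leaf 131 1045 (.cons 129 (.leaf 153 1039 (.cons 130 (.leaf 203 1044 (.leaf 105 847 .nil)) .nil)) .nil)) .nil)) .nil)) .nil)))) (.cons 203 (.leaf 298 1621 (.cons 179 (.leaf 202 1429 (.leaf 155 1238 .nil)) .nil)) (.cons 298 (.leaf 203 1621 (.cons 225 (.leaf 201 1615 (.cons 249 (.leaf 322 1807 (.cons 248 (.leaf 247 1976 (.leaf 228 1794 .nil)) .nil))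 .nil)) .nil)) .nil))))
noncomputable def t22 : T := .cons 224 (.leaf 204 1601 (.cons 199 (.leaf 200 1595 (.cons 198 (.leaf 223 1587 (.cons 248 (.leaf 247 1786 (.cons 201 (.leaf 296 1605 (.cons 177 (.leaf 249 1420 (.leaf 153 1228 .nil)) .nil)) .nil)) .nil)) .nil)) .nil)) (.cons 228 (.cons 200 (.leaf 201 1603 (.cons 249 (.leaf 248 1794 (.leaf 229 1802 .nil)) .nil)) (.cons 200 (.leaf 201 1603 (.cons 205 (.leaf 204 1609 (.cons 229 (.leaf 206 1617 (.cons 253 (.leaf 252 1800 (.leaf 254 1808 .nil)) .nil)) .nil)) .nil)) (.cons 201 (.leaf 200 1603 (.cons 177 (.leaf 249 1420 (.leaf 153 1228 .nil)) .nil)) (.cons 249 (.leaf 248 1794 (.leaf 229 1802 .nil)) .nil)))) (.cons 249 (.cons 201 (.leaf 177 1420 (.cons 228 (.leaf 200 1603 (.leaf 248 1794 .nil)) .nil)) (.cons 201 (.leaf 177 1420 (.cons 228 (.leaf 200 1603 (.leaf 229 1802 .nil)) .nil)) (.cons 248 (.leaf 247 1976 (.cons 201 (.leaf 177 1420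 (.cons 296 (.leaf 224 1605 (.leaf 320 1797 .nil)) .nil)) .nil)) (.cons 248 (.leaf 247 1976 (.leaf 228 1794 .nil)) .nil)))) (.cons 224 (.leaf 204 1601 (.cons 199 (.leaf 200 1595 (.cons 223 (.leaf 198 1587 (.cons 247 (.leaf 248 1786 (.leaf 246 1778 .nil)) .nil)) .nil)) .nil)) (.cons 204 (.leaf 224 1601 (.cons 205 (.leaf 206 1618 (.leaf 228 1609 .nil)) .nil)) .nil))))
noncomputable def t23 : T := .cons 200 (.leaf 201 1603 (.cons 199 (.leaf 224 1595 (.cons 253 (.leaf 252 1800 (.cons 229 (.leaf 254 1808 (.cons 250 (.leaf 249 1802 (.cons 230 (.leaf 251 1810 (.cons 203 (.leaf 202 1619 (.cons 155 (.leaf 179 1238 (.cons 207 (.leaf 206 1625 (.cons 231 (.leaf 204 1627 (.leaf 208 1633 .nil)) .nil)) .nil)) .nil)) .nil)) .nil)) .nil)) .nil)) .nil)) .nil)) (.cons 201 (.leaf 200 1603 (.cons 202 (.leaf 229 1611 (.cons 177 (.leaf 250 1423 (.cons 129 (.leaf 153 1036 (.cons 252 (.leaf 253 1800 (.cons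 224 (.leaf 251 1792 (.cons 223 (.leaf 203 1593 (.leaf 222 1585 .nil)) .nil)) .nil)) .nil)) .nil)) .nil)) .nil)) (.cons 204 (.leaf 205 1609 (.cons 203 (.leaf 224 1601 (.cons 253 (.leaf 252 1800 (.cons 229 (.leaf 254 1808 (.cons 230 (.leaf 202 1619 (.leaf 231 1627 .nil)) .nil)) .nil)) .nil)) .nil)) (.cons 201 (.leaf 200 1603 (.cons 202 (.leaf 229 1611 (.cons 177 (.leaf 250 1423 (.cons 129 (.leaf 153 1036 (.cons 204 (.leaf 205 1609 (.cons 203 (.leaf 224 1601 (.leaf 176 1411 .nil)) .nil)) .nil)) .nil)) .nil)) .nil)) (.cons 204 (.leaf 205 1609 (.cons 200 (.leaf 201 1603 (.cons 224 (.leaf 199 1595 (.leaf 203 1601 .nil)) .nil)) .nil)) (.cons 201 (.leaf 200 1603 (.cons 202 (.leaf 229 1611 (.cons 177 (.leaf 250 1423 (.cons 129 (.leaf 153 1036 (.cons 204 (.leaf 205 1609 (.cons 252 (.leaf 253 1800 (.cons 251 (.leaf 180 1438 (.leaf 224 1792 .nil)) .nil)) .nil)) .nil)) .nil)) .nil)) .nil)) (.cons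 201 (.leaf 200 1603 (.cons 202 (.leaf 229 1611 (.cons 177 (.leaf 250 1423 (.cons 129 (.leaf 153 1036 (.cons 204 (.leaf 205 1609 (.cons 176 (.leaf 203 1411 (.cons 152 (.leaf 249 1223 (.cons 252 (.leaf 253 1800 (.cons 180 (.leaf 251 1438 (.cons 179 (.leaf 155 1247 (.cons 178 (.leaf 181 1418 (.leaf 151 1211 .nil)) .nil)) .nil)) .nil)) .nil)) .nil)) .nil)) .nil)) .nil)) .nil)) .nil)) .nil))))))
noncomputable def t24 : T := .cons 224 (.cons 203 (.leaf 204 1601 (.cons 202 (.leaf 223 1593 (.cons 248 (.leaf 247 1786 (.cons 201 (.leaf 296 1605 (.cons 177 (.leaf 200 1413 (.leaf 249 1414 .nil)) .nil)) .nil)) .nil)) .nil)) (.cons 199 (.leaf 200 1595 (.cons 203 (.leaf 204 1601 (.cons 223 (.leaf 198 1587 (.leaf 202 1593 .nil)) .nil)) .nil)) (.cons 199 (.leaf 200 1595 (.cons 248 (.leaf 247 1786 (.cons 201 (.leaf 296 1605 (.cons 177 (.leaf 249 1414 (.leaf 153 1222 .nil)) .nil)) .nil)) .nil)) (.cons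 203 (.leaf 204 1601 (.cons 202 (.leaf 223 1593 (.cons 248 (.leaf 247 1786 (.cons 201 (.leaf 296 1605 (.cons 177 (.leaf 249 1414 (.leaf 250 1423 .nil)) .nil)) .nil)) .nil)) .nil)) .nil)))) (.cons 228 (.cons 204 (.leaf 205 1609 (.cons 248 (.leaf 249 1794 (.cons 252 (.leaf 253 1800 (.cons 180 (.leaf 251 1438 (.cons 155 (.leaf 179 1247 (.cons 156 (.leaf 131 1055 (.cons 157 (.leaf 133 1061 (.leaf 181 1253 .nil)) .nil)) .nil)) .nil)) .nil)) .nil)) .nil)) (.cons 200 (.leaf 201 1603 (.cons 204 (.leaf 205 1609 (.cons 252 (.leaf 253 1800 (.cons 180 (.leaf 251 1438 (.cons 155 (.leaf 179 1247 (.cons 156 (.leaf 131 1055 (.cons 157 (.leaf 133 1061 (.leaf 181 1253 .nil)) .nil)) .nil)) .nil)) .nil)) .nil)) .nil)) (.cons 249 (.leaf 248 1794 (.cons 200 (.leaf 201 1603 (.cons 205 (.leaf 204 1609 (.cons 229 (.leaf 206 1617 (.leaf 250 1802 .nil)) .nil)) .nil)) .nil)) (.cons 200 (.leaf 201 1603 (.cons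 249 (.leaf 248 1794 (.cons 229 (.leaf 250 1802 (.cons 253 (.leaf 252 1800 (.leaf 254 1808 .nil)) .nil)) .nil)) .nil)) .nil)))) (.cons 228 t23 (.cons 224 (.cons 199 (.leaf 200 1595 (.cons 198 (.leaf 223 1587 (.cons 248 (.leaf 247 1786 (.cons 228 (.leaf 249 1794 (.cons 205 (.leaf 204 1609 (.cons 229 (.leaf 206 1617 (.cons 253 (.leaf 252 1800 (.leaf 254 1808 .nil)) .nil)) .nil)) .nil)) .nil)) .nil)) .nil)) (.cons 251 (.leaf 252 1792 (.cons 199 (.leaf 200 1595 (.cons 223 (.leaf 198 1587 (.leaf 250 1784 .nil)) .nil)) .nil)) (.cons 251 (.leaf 252 1792 (.cons 223 (.leaf 250 1784 (.cons 247 (.leaf 248 1786 (.leaf 246 1778 .nil)) .nil)) .nil)) (.cons 248 (.leaf 247 1786 (.cons 199 (.leaf 200 1595 (.cons 223 (.leaf 296 1599 (.leaf 198 1587 .nil)) .nil)) .nil)) (.cons 248 (.leaf 247 1786 (.cons 199 (.leaf 200 1595 (.cons 203 (.leaf 204 1601 (.cons 228 (.leaf 249 1794 (.cons 253 (.leaf 252 1800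 (.cons 229 (.leaf 254 1808 (.cons 206 (.leaf 205 1617 (.cons 230 (.leaf 202 1619 (.leaf 207 1625 .nil)) .nil)) .nil)) .nil)) .nil)) .nil)) .nil)) .nil)) .nil))))) (.cons 224 (.cons 199 (.leaf 200 1595 (.cons 198 (.leaf 223 1587 (.cons 204 (.leaf 203 1601 (.cons 228 (.leaf 205 1609 (.cons 252 (.leaf 251 1792 (.leaf 253 1800 .nil)) .nil)) .nil)) .nil)) .nil)) (.cons 248 (.leaf 247 1786 (.cons 201 (.leaf 296 1605 (.cons 177 (.leaf 200 1413 (.leaf 153 1222 .nil)) .nil)) .nil)) (.cons 203 (.leaf 204 1601 (.cons 202 (.leaf 223 1593 (.cons 251 (.leaf 178 1431 (.leaf 252 1792 .nil)) .nil)) .nil)) .nil))) (.cons 224 (.cons 199 (.leaf 200 1595 (.cons 223 (.leaf 198 1587 (.cons 247 (.leaf 248 1786 (.leaf 246 1778 .nil)) .nil)) .nil)) (.cons 199 (.leaf 200 1595 (.cons 223 (.leaf 198 1587 (.cons 251 (.leaf 252 1792 (.leaf 250 1784 .nil)) .nil)) .nil)) (.cons 247 (.leaf 248 1786 (.cons 223 (.leaf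 246 1778 (.cons 251 (.leaf 252 1792 (.leaf 250 1784 .nil)) .nil)) .nil)) (.cons 248 (.leaf 247 1786 (.cons 201 (.leaf 296 1605 (.cons 177 (.leaf 200 1413 (.leaf 249 1414 .nil)) .nil)) .nil)) .nil)))) (.cons 224 (.cons 248 (.leaf 247 1786 (.cons 201 (.leaf 296 1605 (.cons 177 (.leaf 249 1414 (.leaf 153 1222 .nil)) .nil)) .nil)) (.cons 203 (.leaf 204 1601 (.cons 202 (.leaf 223 1593 (.cons 251 (.leaf 178 1431 (.leaf 252 1792 .nil)) .nil)) .nil)) .nil)) .nil))))))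
noncomputable def t25 : T := .cons 251 (.leaf 298 1622 (.cons 179 (.leaf 250 1430 (.cons 178 (.leaf 202 1431 (.leaf 154 1239 .nil)) .nil)) .nil)) (.cons 250 (.leaf 298 1621 (.cons 179 (.leaf 202 1429 (.leaf 155 1238 .nil)) .nil)) (.cons 251 (.leaf 298 1622 (.cons 178 (.leaf 202 1431 (.cons 179 (.leaf 154 1239 (.cons 180 (.leaf 204 1437 (.leaf 156 1245 .nil)) .nil)) .nil)) .nil)) (.cons 251 (.cons 178 (.leaf 202 1431 (.cons 179 (.leaf 250 1430 (.leaf 154 1239 .nil)) .nil)) (.cons 202 (.leaf 178 1431 (.cons 204 (.leaf 180 1437 (.cons 205 (.leaf 206 1618 (.cons 181 (.leaf 182 1425 (.cons 229 (.leaf 230 1616 (.cons 201 (.leaf 228 1608 (.cons 176 (.leaf 177 1411 (.cons 200 (.leaf 199 1592 (.leaf 175 1403 .nil)) .nil)) .nil)) .nil)) .nil)) .nil)) .nil)) .nil)) (.cons 179 (.leaf 250 1430 (.cons 154 (.leaf 178 1239 (.cons 155 (.leaf 130 1047 (.cons 156 (.leaf 132 1053 (.leaf 180 1245 .nil))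 .nil)) .nil)) .nil)) (.cons 179 (.leaf 250 1430 (.cons 180 (.leaf 204 1437 (.leaf 156 1245 .nil)) .nil)) .nil)))) (.cons 298 (.leaf 251 1622 (.leaf 250 1621 .nil)) .nil))))
noncomputable def t26 : T := .cons 201 (.cons 202 (.leaf 177 1423 (.leaf 229 1611 .nil)) (.cons 225 (.leaf 200 1603 (.cons 153 (.leaf 177 1228 (.cons 204 (.leaf 205 1609 (.cons 249 (.leaf 248 1794 (.leaf 229 1802 .nil)) .nil)) .nil)) .nil)) (.cons 225 (.leaf 200 1603 (.cons 153 (.leaf 177 1228 (.cons 204 (.leaf 205 1609 (.cons 203 (.leaf 224 1601 (.cons 179 (.leaf 202 1429 (.leaf 155 1238 .nil)) .nil)) .nil)) .nil)) .nil)) (.cons 200 (.leaf 225 1603 (.cons 202 (.leaf 199 1592 (.leaf 203 1600 .nil)) .nil)) .nil)))) (.cons 225 (.cons 201 (.leaf 200 1603 (.cons 153 (.leaf 177 1228 (.cons 204 (.leaf 205 1609 (.cons 203 (.leaf 224 1601 (.cons 179 (.leaf 202 1429 (.leaf 155 1238 .nil)) .nil)) .nil)) .nil)) .nil)) (.cons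 204 (.leaf 205 1609 (.cons 248 (.leaf 249 1794 (.cons 224 (.leaf 203 1601 (.leaf 247 1786 .nil)) .nil)) .nil)) (.cons 201 (.leaf 200 1603 (.cons 177 (.leaf 202 1423 (.leaf 249 1420 .nil)) .nil)) .nil))) (.cons 202 (.cons 179 (.leaf 203 1429 (.cons 155 (.leaf 178 1237 (.cons 229 (.leaf 201 1611 (.cons 205 (.leaf 206 1617 (.cons 204 (.leaf 225 1609 (.cons 180 (.leaf 252 1247 (.cons 156 (.leaf 131 1055 (.leaf 253 1252 .nil)) .nil)) .nil)) .nil)) .nil)) .nil)) .nil)) (.cons 203 (.leaf 179 1429 (.cons 229 (.leaf 230 1619 (.cons 205 (.leaf 206 1617 (.cons 204 (.leaf 225 1609 (.cons 177 (.leaf 178 1419 (.cons 181 (.leaf 182 1425 (.cons 157 (.leaf 133 1062 (.leaf 252 1254 .nil)) .nil)) .nil)) .nil)) .nil)) .nil)) .nil)) (.cons 201 (.leaf 177 1423 (.leaf 229 1611 .nil)) (.cons 177 (.leaf 201 1423 (.cons 178 (.leaf 153 1231 (.cons 179 (.leaf 203 1429 (.leaf 155 1237 .nil)) .nil)) .nil)) .nil))))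 (.cons 229 (.leaf 249 1802 (.cons 201 (.leaf 202 1611 (.cons 206 (.leaf 205 1617 (.cons 230 (.leaf 207 1625 (.cons 254 (.leaf 253 1808 (.leaf 255 1816 .nil)) .nil)) .nil)) .nil)) .nil)) (.cons 249 (.leaf 229 1802 (.cons 248 (.leaf 247 1976 (.leaf 225 1794 .nil)) .nil)) .nil))))
noncomputable def t27 : T := .cons 228 (.cons 204 (.leaf 205 1609 (.cons 180 (.leaf 252 1438 (.leaf 156 1246 .nil)) .nil)) (.cons 204 (.leaf 205 1609 (.cons 156 (.leaf 180 1246 (.cons 248 (.leaf 249 1794 (.cons 224 (.leaf 247 1786 (.cons 199 (.leaf 200 1595 (.cons 223 (.leaf 296 1599 (.leaf 198 1587 .nil)) .nil)) .nil)) .nil)) .nil)) .nil)) (.cons 200 (.leaf 201 1603 (.cons 224 (.leaf 199 1595 (.leaf 252 1792 .nil)) .nil)) .nil))) (.cons 228 (.cons 200 (.leaf 201 1603 (.cons 204 (.leaf 205 1609 (.cons 180 (.leaf 252 1438 (.leaf 156 1246 .nil)) .nil)) .nil)) (.cons 201 (.leaf 200 1603 (.cons 205 (.leaf 204 1609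 (.cons 229 (.leaf 202 1611 (.leaf 206 1617 .nil)) .nil)) .nil)) (.cons 253 (.leaf 252 1800 (.cons 201 (.leaf 200 1603 (.cons 229 (.leaf 202 1611 (.leaf 254 1808 .nil)) .nil)) .nil)) (.cons 252 (.leaf 253 1800 (.cons 204 (.leaf 180 1438 (.leaf 205 1609 .nil)) .nil)) .nil)))) (.cons 228 (.cons 201 (.leaf 200 1603 (.cons 205 (.leaf 204 1609 (.cons 229 (.leaf 202 1611 (.leaf 206 1617 .nil)) .nil)) .nil)) (.cons 248 (.leaf 249 1794 (.cons 204 (.leaf 205 1609 (.cons 156 (.leaf 180 1246 (.cons 224 (.leaf 247 1786 (.cons 199 (.leaf 200 1595 (.cons 223 (.leaf 296 1599 (.leaf 198 1587 .nil)) .nil)) .nil)) .nil)) .nil)) .nil)) (.cons 248 (.leaf 249 1794 (.cons 205 (.leaf 204 1609 (.cons 224 (.leaf 247 1786 (.cons 201 (.leaf 296 1605 (.cons 229 (.leaf 202 1611 (.leaf 206 1617 .nil)) .nil)) .nil)) .nil)) .nil)) (.cons 248 (.leaf 249 1794 (.cons 200 (.leaf 201 1603 (.cons 224 (.leaf 199 1595 (.leaf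 247 1786 .nil)) .nil)) .nil)) .nil)))) (.cons 224 (.leaf 252 1792 (.cons 199 (.leaf 200 1595 (.cons 198 (.leaf 223 1587 (.cons 248 (.leaf 247 1786 (.cons 201 (.leaf 296 1605 (.cons 177 (.leaf 249 1414 (.leaf 153 1222 .nil)) .nil)) .nil)) .nil)) .nil)) .nil)) (.cons 252 (.leaf 224 1792 (.cons 253 (.leaf 254 2002 (.leaf 228 1800 .nil)) .nil)) .nil))))
noncomputable def t28 : T := .cons 203 (.leaf 298 1622 (.cons 204 (.leaf 180 1437 (.cons 205 (.leaf 206 1618 (.cons 225 (.leaf 224 1601 (.leaf 228 1609 .nil)) .nil)) .nil)) .nil)) (.cons 225 t27 (.cons 203 (.leaf 298 1622 (.cons 178 (.leaf 202 1431 (.cons 179 (.leaf 154 1239 (.cons 180 (.leaf 204 1437 (.leaf 156 1245 .nil)) .nil)) .nil)) .nil)) (.cons 203 (.leaf 298 1622 (.cons 179 (.cons 178 (.leaf 202 1431 (.leaf 154 1239 .nil)) (.cons 156 (.leaf 180 1245 (.cons 155 (.leaf 132 1053 (.cons 130 (.leaf 154 1047 (.cons 131 (.leaf 202 1046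 (.leaf 106 855 .nil)) .nil)) .nil)) .nil)) (.cons 154 (.leaf 178 1239 (.cons 155 (.leaf 130 1047 (.cons 156 (.leaf 132 1053 (.leaf 180 1245 .nil)) .nil)) .nil)) (.cons 156 (.leaf 180 1245 (.cons 155 (.leaf 132 1053 (.cons 202 (.leaf 178 1431 (.leaf 131 1046 .nil)) .nil)) .nil)) .nil)))) .nil)) (.cons 203 (.leaf 298 1622 (.cons 178 (.leaf 202 1431 (.cons 154 (.leaf 179 1239 (.cons 225 (.cons 224 (.leaf 204 1601 (.leaf 252 1792 .nil)) (.cons 228 (.cons 200 (.leaf 201 1603 (.cons 205 (.leaf 204 1609 (.cons 229 (.leaf 206 1617 (.cons 253 (.leaf 252 1800 (.leaf 254 1808 .nil)) .nil)) .nil)) .nil)) (.cons 201 (.leaf 200 1603 (.cons 249 (.leaf 248 1794 (.leaf 177 1229 .nil)) .nil)) (.cons 205 (.leaf 204 1609 (.cons 229 (.leaf 206 1617 (.cons 253 (.leaf 252 1800 (.leaf 254 1808 .nil)) .nil)) .nil)) .nil))) (.cons 224 (.leaf 204 1601 (.cons 199 (.leaf 200 1595 (.cons 198 (.leaf 223 1587 (.cons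 248 (.leaf 247 1786 (.cons 201 (.leaf 296 1605 (.cons 177 (.leaf 249 1229 (.leaf 153 1222 .nil)) .nil)) .nil)) .nil)) .nil)) .nil)) (.cons 252 (.leaf 224 1792 (.cons 253 (.leaf 254 2002 (.leaf 228 1800 .nil)) .nil)) .nil)))) .nil)) .nil)) .nil)) .nil))))
noncomputable def t29 : T := .cons 224 (.cons 199 (.leaf 200 1595 (.cons 198 (.leaf 223 1587 (.cons 248 (.leaf 247 1786 (.cons 201 (.leaf 296 1605 (.cons 177 (.leaf 249 1414 (.leaf 153 1222 .nil)) .nil)) .nil)) .nil)) .nil)) (.cons 251 (.leaf 252 1792 (.cons 199 (.leaf 200 1595 (.cons 223 (.leaf 198 1587 (.leaf 250 1784 .nil)) .nil)) .nil)) (.cons 248 (.leaf 247 1786 (.cons 201 (.leaf 296 1605 (.cons 177 (.leaf 200 1413 (.leaf 249 1414 .nil)) .nil)) .nil)) (.cons 248 (.leaf 247 1786 (.cons 201 (.leaf 296 1605 (.cons 177 (.leaf 249 1414 (.leaf 153 1222 .nil)) .nil)) .nil)) .nil)))) (.cons 228 (.cons 204 (.leaf 205 1609 (.cons 248 (.leaf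 249 1794 (.cons 201 (.leaf 200 1603 (.cons 202 (.leaf 229 1611 (.cons 250 (.leaf 177 1423 (.leaf 298 1615 .nil)) .nil)) .nil)) .nil)) .nil)) (.cons 204 (.leaf 205 1609 (.cons 248 (.leaf 249 1794 (.cons 252 (.leaf 253 1800 (.cons 180 (.leaf 251 1438 (.cons 155 (.leaf 179 1247 (.cons 156 (.leaf 131 1055 (.cons 157 (.leaf 133 1061 (.leaf 181 1253 .nil)) .nil)) .nil)) .nil)) .nil)) .nil)) .nil)) (.cons 201 (.leaf 200 1603 (.cons 202 (.leaf 229 1611 (.cons 250 (.leaf 177 1423 (.leaf 298 1615 .nil)) .nil)) .nil)) .nil))) (.cons 224 (.cons 247 (.leaf 248 1786 (.cons 199 (.leaf 200 1595 (.cons 223 (.leaf 198 1587 (.leaf 246 1778 .nil)) .nil)) .nil)) (.cons 251 (.leaf 252 1792 (.cons 199 (.leaf 200 1595 (.cons 223 (.leaf 198 1587 (.leaf 250 1784 .nil)) .nil)) .nil)) (.cons 251 (.leaf 252 1792 (.cons 223 (.leaf 250 1784 (.cons 247 (.leaf 248 1786 (.leaf 246 1778 .nil)) .nil)) .nil)) (.cons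 199 (.leaf 200 1595 (.cons 248 (.leaf 247 1786 (.cons 228 (.leaf 249 1794 (.cons 252 (.leaf 251 1792 (.leaf 253 1800 .nil)) .nil)) .nil)) .nil)) .nil)))) (.cons 228 (.cons 204 (.leaf 205 1609 (.cons 252 (.leaf 253 1800 (.cons 251 (.leaf 180 1438 (.leaf 224 1792 .nil)) .nil)) .nil)) (.cons 201 (.leaf 200 1603 (.cons 202 (.leaf 229 1611 (.cons 250 (.leaf 177 1423 (.leaf 298 1615 .nil)) .nil)) .nil)) .nil)) (.cons 228 (.cons 200 (.leaf 201 1603 (.cons 204 (.leaf 205 1609 (.cons 224 (.leaf 199 1595 (.cons 248 (.leaf 247 1786 (.leaf 249 1794 .nil)) .nil)) .nil)) .nil)) (.cons 200 (.leaf 201 1603 (.cons 224 (.leaf 199 1595 (.cons 252 (.leaf 251 1792 (.leaf 253 1800 .nil)) .nil)) .nil)) (.cons 252 (.leaf 253 1800 (.cons 204 (.leaf 205 1609 (.cons 251 (.leaf 180 1438 (.leaf 224 1792 .nil)) .nil)) .nil)) (.cons 201 (.leaf 200 1603 (.cons 202 (.leaf 229 1611 (.cons 204 (.leaf 205 1609 (.cons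 248 (.leaf 249 1794 (.cons 252 (.leaf 253 1800 (.cons 180 (.leaf 251 1438 (.cons 155 (.leaf 179 1247 (.cons 156 (.leaf 131 1055 (.cons 157 (.leaf 133 1061 (.leaf 181 1253 .nil)) .nil)) .nil)) .nil)) .nil)) .nil)) .nil)) .nil)) .nil)) .nil)))) (.cons 228 (.cons 204 (.leaf 205 1609 (.cons 248 (.leaf 249 1794 (.cons 224 (.leaf 247 1786 (.cons 201 (.leaf 296 1605 (.cons 153 (.leaf 177 1222 (.cons 229 (.leaf 202 1611 (.cons 253 (.leaf 252 1800 (.leaf 254 1808 .nil)) .nil)) .nil)) .nil)) .nil)) .nil)) .nil)) (.cons 252 (.leaf 253 1800 (.cons 204 (.leaf 205 1609 (.cons 251 (.leaf 180 1438 (.leaf 224 1792 .nil)) .nil)) .nil)) (.cons 249 (.leaf 248 1794 (.cons 204 (.leaf 205 1609 (.cons 250 (.leaf 229 1802 (.cons 201 (.leaf 177 1420 (.leaf 298 1615 .nil)) .nil)) .nil)) .nil)) (.cons 249 (.leaf 248 1794 (.cons 229 (.leaf 250 1802 (.cons 253 (.leaf 252 1800 (.leaf 254 1808 .nil)) .nil)) .nil))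 .nil)))) (.cons 228 (.cons 200 (.leaf 201 1603 (.cons 204 (.leaf 205 1609 (.cons 224 (.leaf 199 1595 (.cons 248 (.leaf 247 1786 (.leaf 249 1794 .nil)) .nil)) .nil)) .nil)) (.cons 204 (.leaf 205 1609 (.cons 248 (.leaf 249 1794 (.cons 224 (.leaf 247 1786 (.cons 199 (.leaf 200 1595 (.cons 223 (.leaf 296 1599 (.leaf 198 1587 .nil)) .nil)) .nil)) .nil)) .nil)) (.cons 200 (.leaf 201 1603 (.cons 199 (.leaf 224 1595 (.cons 205 (.leaf 204 1609 (.cons 229 (.leaf 206 1617 (.cons 250 (.leaf 249 1802 (.cons 230 (.leaf 251 1810 (.cons 254 (.leaf 253 1808 (.leaf 255 1816 .nil)) .nil)) .nil)) .nil)) .nil)) .nil)) .nil)) (.cons 201 (.leaf 200 1603 (.cons 202 (.leaf 229 1611 (.cons 250 (.leaf 177 1423 (.leaf 298 1615 .nil)) .nil)) .nil)) (.cons 249 (.leaf 248 1794 (.cons 204 (.leaf 205 1609 (.cons 250 (.leaf 229 1802 (.cons 201 (.leaf 177 1420 (.leaf 298 1615 .nil)) .nil)) .nil)) .nil)) .nil))))) .nil))))))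
noncomputable def t30 : T := .cons 203 (.cons 298 (.leaf 251 1622 (.leaf 250 1621 .nil)) (.cons 250 (.leaf 298 1621 (.cons 179 (.leaf 202 1429 (.leaf 155 1238 .nil)) .nil)) (.cons 251 (.leaf 298 1622 (.cons 204 (.leaf 180 1437 (.cons 205 (.leaf 206 1618 (.cons 225 (.leaf 224 1601 (.leaf 228 1609 .nil)) .nil)) .nil)) .nil)) (.cons 251 (.cons 179 (.leaf 250 1430 (.cons 154 (.leaf 178 1239 (.cons 155 (.leaf 130 1047 (.cons 156 (.leaf 132 1053 (.leaf 180 1245 .nil)) .nil)) .nil)) .nil)) (.cons 204 (.leaf 180 1437 (.cons 202 (.leaf 178 1431 (.cons 205 (.leaf 206 1618 (.leaf 225 1610 .nil)) .nil)) .nil)) (.cons 204 (.leaf 180 1437 (.cons 205 (.leaf 206 1618 (.cons 225 (.leaf 224 1601 (.leaf 228 1609 .nil)) .nil)) .nil)) (.cons 179 (.leaf 250 1430 (.cons 154 (.leaf 178 1239 (.cons 155 (.leaf 130 1047 (.cons 132 (.leaf 156 1053 (.cons 131 (.leaf 202 1046 (.leaf 108 861 .nil)) .nil)) .nil))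 .nil)) .nil)) .nil)))) .nil)))) (.cons 225 (.cons 228 (.cons 200 (.leaf 201 1603 (.cons 199 (.leaf 224 1595 (.cons 205 (.leaf 204 1609 (.cons 229 (.leaf 206 1617 (.cons 253 (.leaf 252 1800 (.leaf 254 1808 .nil)) .nil)) .nil)) .nil)) .nil)) (.cons 204 (.leaf 205 1609 (.cons 248 (.leaf 249 1794 (.cons 224 (.leaf 247 1786 (.cons 199 (.leaf 200 1595 (.cons 223 (.leaf 296 1599 (.leaf 198 1587 .nil)) .nil)) .nil)) .nil)) .nil)) (.cons 249 (.leaf 248 1794 (.cons 204 (.leaf 205 1609 (.cons 229 (.leaf 250 1802 (.cons 253 (.leaf 252 1800 (.leaf 254 1808 .nil)) .nil)) .nil)) .nil)) (.cons 201 (.leaf 200 1603 (.cons 202 (.leaf 229 1611 (.cons 250 (.leaf 177 1423 (.leaf 298 1615 .nil)) .nil)) .nil)) .nil)))) t29) (.cons 251 t28 (.cons 250 (.cons 203 (.leaf 298 1621 (.cons 179 (.leaf 202 1429 (.leaf 155 1238 .nil)) .nil)) (.cons 225 (.cons 228 (.cons 200 (.leaf 201 1603 (.cons 224 (.leaf 199 1595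 (.cons 248 (.leaf 247 1786 (.leaf 249 1794 .nil)) .nil)) .nil)) (.cons 249 (.leaf 248 1794 (.leaf 229 1802 .nil)) (.cons 201 (.leaf 298 1615 (.leaf 200 1603 .nil)) .nil))) (.cons 228 (.cons 249 (.leaf 248 1794 (.leaf 229 1802 .nil)) (.cons 253 (.leaf 252 1800 (.cons 205 (.leaf 204 1609 (.cons 229 (.leaf 206 1617 (.leaf 254 1808 .nil)) .nil)) .nil)) (.cons 248 (.leaf 249 1794 (.cons 204 (.leaf 205 1609 (.cons 224 (.leaf 247 1786 (.cons 199 (.leaf 200 1595 (.cons 223 (.leaf 296 1599 (.leaf 198 1587 .nil)) .nil)) .nil)) .nil)) .nil)) .nil))) (.cons 201 (.leaf 298 1615 (.cons 177 (.leaf 202 1423 (.leaf 153 1228 .nil)) .nil)) .nil))) (.cons 228 t26 (.cons 298 (.leaf 203 1621 (.cons 225 (.leaf 201 1615 (.cons 249 (.leaf 322 1807 (.cons 248 (.leaf 247 1976 (.leaf 228 1794 .nil)) .nil)) .nil)) .nil)) .nil)))) (.cons 203 t25 (.cons 225 t24 (.cons 203 (.cons 251 (.leaf 298 1622 (.cons 178 (.leaf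 202 1431 (.cons 179 (.leaf 250 1430 (.leaf 154 1239 .nil)) .nil)) .nil)) (.cons 250 (.leaf 298 1621 (.cons 179 (.leaf 202 1429 (.leaf 155 1238 .nil)) .nil)) (.cons 251 (.leaf 298 1622 (.cons 178 (.leaf 202 1431 (.cons 179 (.leaf 154 1239 (.cons 180 (.leaf 204 1437 (.leaf 156 1245 .nil)) .nil)) .nil)) .nil)) (.cons 251 (.cons 178 (.leaf 202 1431 (.cons 179 (.leaf 250 1430 (.leaf 154 1239 .nil)) .nil)) (.cons 179 (.leaf 250 1430 (.cons 154 (.leaf 178 1239 (.cons 155 (.leaf 130 1047 (.cons 156 (.leaf 132 1053 (.leaf 180 1245 .nil)) .nil)) .nil)) .nil)) (.cons 202 (.leaf 178 1431 (.cons 204 (.leaf 180 1437 (.cons 205 (.leaf 206 1618 (.leaf 225 1610 .nil)) .nil)) .nil)) (.cons 179 (.leaf 250 1430 (.cons 180 (.leaf 204 1437 (.leaf 156 1245 .nil)) .nil)) .nil)))) (.cons 298 (.leaf 251 1622 (.leaf 250 1621 .nil)) .nil))))) (.cons 203 (.cons 250 (.leaf 298 1621 (.cons 179 (.leaf 251 1430 (.leaf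 155 1238 .nil)) .nil)) (.cons 251 (.cons 204 (.leaf 180 1437 (.cons 205 (.leaf 206 1618 (.cons 225 (.leaf 224 1601 (.leaf 228 1609 .nil)) .nil)) .nil)) (.cons 179 (.leaf 250 1430 (.cons 154 (.leaf 178 1239 (.cons 155 (.leaf 130 1047 (.cons 156 (.leaf 132 1053 (.leaf 180 1245 .nil)) .nil)) .nil)) .nil)) (.cons 179 (.leaf 250 1430 (.cons 154 (.leaf 178 1239 (.cons 155 (.leaf 130 1047 (.cons 132 (.leaf 156 1053 (.cons 131 (.leaf 108 861 (.cons 228 (.leaf 252 1244 (.leaf 204 1052 .nil)) .nil)) .nil)) .nil)) .nil)) .nil)) .nil))) (.cons 250 (.leaf 298 1621 (.cons 179 (.leaf 155 1238 (.cons 225 t22 .nil)) .nil)) (.cons 251 (.leaf 298 1622 (.cons 204 (.leaf 180 1437 (.cons 205 (.leaf 206 1618 (.cons 225 (.leaf 224 1601 (.leaf 228 1609 .nil)) .nil)) .nil)) .nil)) .nil)))) (.cons 250 t21 (.cons 203 t20 .nil)))))))))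
noncomputable def t31 : T := .cons 203 (.leaf 178 1431 (.cons 250 (.leaf 179 1430 (.cons 226 (.leaf 299 1620 (.cons 201 (.leaf 177 1423 (.cons 200 (.leaf 199 1592 (.leaf 228 1600 .nil)) .nil)) .nil)) .nil)) .nil)) (.cons 203 (.leaf 178 1431 (.cons 250 (.leaf 179 1430 (.cons 249 (.cons 248 (.leaf 247 1976 (.leaf 271 1978 .nil)) (.cons 201 (.cons 225 (.leaf 177 1420 (.cons 224 (.leaf 252 1795 (.cons 223 (.leaf 200 1594 (.leaf 222 1776 .nil)) .nil)) .nil)) (.cons 225 (.leaf 177 1420 (.cons 252 (.leaf 224 1795 (.cons 228 (.leaf 229 1801 (.cons 253 (.leaf 254 2002 (.cons 277 (.leaf 278 2000 (.cons 299 (.leaf 323 1821 (.cons 300 (.leaf 324 1820 (.cons 301 (.leaf 302 2195 (.leaf 325 1831 .nil)) .nil)) .nil)) .nil)) .nil)) .nil)) .nil)) .nil)) (.cons 228 (.leaf 200 1600 (.cons 229 (.leaf 230 1810 (.leaf 252 1801 .nil)) .nil)) (.cons 200 (.leaf 228 1600 (.cons 175 (.leaf 176 1403 (.cons 199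 (.leaf 174 1395 (.cons 223 (.leaf 222 1586 (.leaf 224 1594 .nil)) .nil)) .nil)) .nil)) .nil)))) .nil)) .nil)) .nil)) (.cons 178 (.leaf 203 1431 (.cons 226 (.leaf 250 1428 (.leaf 154 1236 .nil)) .nil)) (.cons 299 (.leaf 226 1623 (.cons 324 (.leaf 300 1820 (.cons 323 (.leaf 348 2012 (.cons 346 (.leaf 322 2006 (.cons 347 (.leaf 250 2007 (.leaf 370 2198 .nil)) .nil)) .nil)) .nil)) .nil)) (.cons 226 (.leaf 299 1623 (.cons 178 (.leaf 203 1431 (.leaf 154 1236 .nil)) .nil)) .nil))))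
noncomputable def t32 : T := .cons 203 (.leaf 178 1431 (.cons 204 (.leaf 180 1437 (.cons 226 (.leaf 299 1623 (.cons 205 (.leaf 206 1618 (.leaf 225 1610 .nil)) .nil)) .nil)) .nil)) (.cons 299 (.leaf 226 1623 (.cons 228 (.leaf 204 1629 (.cons 323 (.leaf 252 1821 (.cons 324 (.leaf 300 1820 (.leaf 348 2012 .nil)) .nil)) .nil)) .nil)) (.cons 203 (.leaf 178 1431 (.cons 204 (.leaf 180 1437 (.cons 201 (.cons 229 (.leaf 228 1608 (.cons 176 (.leaf 177 1411 (.cons 205 (.leaf 230 1616 (.cons 225 (.leaf 224 1602 (.leaf 226 1610 .nil)) .nil)) .nil)) .nil)) (.cons 225 (.leaf 224 1602 (.cons 176 (.leaf 177 1411 (.cons 175 (.leaf 200 1403 (.cons 205 (.leaf 226 1610 (.cons 182 (.leaf 181 1425 (.cons 206 (.leaf 183 1433 (.cons 230 (.leaf 229 1616 (.leaf 231 1624 .nil)) .nil)) .nil)) .nil)) .nil)) .nil)) .nil)) (.cons 228 (.leaf 200 1600 (.leaf 229 1608 .nil)) (.cons 200 (.leaf 228 1600 (.cons 176 (.leaf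 175 1403 (.leaf 177 1411 .nil)) .nil)) .nil)))) .nil)) .nil)) (.cons 203 (.leaf 178 1431 (.cons 204 (.leaf 180 1437 (.cons 228 (.leaf 299 1629 (.cons 201 (.leaf 200 1600 (.leaf 229 1608 .nil)) .nil)) .nil)) .nil)) (.cons 226 (.leaf 299 1623 (.cons 178 (.leaf 203 1431 (.leaf 154 1236 .nil)) .nil)) .nil))))
noncomputable def t33 : T := .cons 179 (.leaf 250 1430 (.cons 154 (.leaf 178 1239 (.cons 155 (.leaf 130 1047 (.cons 156 (.leaf 132 1053 (.leaf 180 1245 .nil)) .nil)) .nil)) .nil)) (.cons 202 (.leaf 178 1431 (.cons 204 (.leaf 180 1437 (.cons 201 (.cons 176 (.leaf 177 1411 (.cons 200 (.leaf 228 1600 (.leaf 175 1403 .nil)) .nil)) (.cons 225 (.leaf 224 1602 (.cons 176 (.leaf 177 1411 (.cons 175 (.leaf 200 1403 (.cons 205 (.leaf 226 1610 (.cons 182 (.leaf 181 1425 (.cons 206 (.leaf 183 1433 (.cons 230 (.leaf 229 1616 (.leaf 231 1624 .nil)) .nil)) .nil)) .nil)) .nil)) .nil)) .nil)) (.cons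 229 (.leaf 228 1608 (.cons 176 (.leaf 177 1411 (.cons 205 (.leaf 230 1616 (.cons 225 (.leaf 224 1602 (.leaf 226 1610 .nil)) .nil)) .nil)) .nil)) (.cons 228 (.leaf 200 1600 (.leaf 229 1608 .nil)) .nil)))) .nil)) .nil)) (.cons 179 (.leaf 250 1430 (.cons 154 (.leaf 178 1239 (.cons 155 (.leaf 130 1047 (.cons 132 (.leaf 156 1053 (.cons 131 (.leaf 108 861 (.cons 228 (.leaf 252 1244 (.leaf 204 1052 .nil)) .nil)) .nil)) .nil)) .nil)) .nil)) (.cons 179 (.leaf 250 1430 (.cons 180 (.leaf 204 1437 (.leaf 156 1245 .nil)) .nil)) .nil)))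
noncomputable def t34 : T := .cons 180 (.leaf 204 1437 (.cons 178 (.leaf 202 1431 (.cons 179 (.leaf 250 1430 (.leaf 154 1239 .nil)) .nil)) .nil)) (.cons 180 (.leaf 204 1437 (.cons 202 (.leaf 178 1431 (.cons 299 (.leaf 226 1623 (.cons 324 (.leaf 300 1820 (.cons 323 (.leaf 348 2012 (.cons 346 (.leaf 322 2006 (.cons 347 (.leaf 250 2007 (.leaf 370 2198 .nil)) .nil)) .nil)) .nil)) .nil)) .nil)) .nil)) (.cons 179 (.leaf 250 1430 (.cons 154 (.leaf 178 1239 (.cons 155 (.leaf 130 1047 (.cons 156 (.leaf 132 1053 (.leaf 180 1245 .nil)) .nil)) .nil)) .nil)) (.cons 204 (.leaf 180 1437 (.cons 178 (.leaf 202 1431 (.cons 179 (.leaf 154 1239 (.cons 176 (.leaf 177 1408 (.cons 205 (.leaf 206 1427 (.cons 228 (.leaf 299 1629 (.cons 155 (.leaf 252 1244 (.leaf 131 1052 .nil)) .nil)) .nil)) .nil)) .nil)) .nil)) .nil)) (.cons 178 (.leaf 202 1431 (.cons 179 (.leaf 250 1430 (.leaf 154 1239 .nil)) .nil)) (.cons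 204 (.leaf 180 1437 (.cons 299 (.leaf 228 1629 (.cons 324 (.leaf 300 1820 (.cons 323 (.leaf 348 2012 (.cons 250 (.leaf 226 1815 (.leaf 347 2007 .nil)) .nil)) .nil)) .nil)) .nil)) .nil)))))
noncomputable def t35 : T := .cons 203 t34 (.cons 203 t33 (.cons 299 (.cons 226 (.leaf 202 1623 (.cons 228 (.leaf 204 1629 (.cons 252 (.leaf 323 1821 (.cons 253 (.leaf 254 2002 (.leaf 225 1800 .nil)) .nil)) .nil)) .nil)) (.cons 228 (.leaf 204 1629 (.cons 323 (.leaf 252 1821 (.cons 324 (.leaf 300 1820 (.leaf 348 2012 .nil)) .nil)) .nil)) (.cons 226 (.leaf 202 1623 (.cons 323 (.leaf 250 1815 (.cons 324 (.leaf 300 1820 (.leaf 348 2012 .nil)) .nil)) .nil)) (.cons 226 (.leaf 202 1623 (.cons 228 (.leaf 204 1629 (.cons 300 (.leaf 324 1820 (.cons 301 (.leaf 302 2195 (.cons 252 (.cons 253 (.leaf 254 2002 (.leaf 225 1800 .nil)) (.cons 225 (.leaf 224 1792 (.cons 200 (.leaf 201 1603 (.cons 249 (.leaf 248 1794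 (.cons 229 (.leaf 250 1801 (.cons 206 (.leaf 205 1617 (.cons 230 (.leaf 207 1625 (.leaf 231 1818 .nil)) .nil)) .nil)) .nil)) .nil)) .nil)) (.cons 253 (.leaf 254 2002 (.cons 277 (.leaf 325 1831 (.cons 250 (.leaf 278 2000 (.cons 229 (.leaf 249 1801 (.leaf 230 1809 .nil)) .nil)) .nil)) .nil)) .nil))) .nil)) .nil)) .nil)) .nil)) .nil)))) (.cons 203 (.cons 178 (.leaf 202 1431 (.cons 204 (.leaf 180 1437 (.cons 299 (.leaf 228 1629 (.cons 324 (.leaf 300 1820 (.cons 179 (.leaf 250 1430 (.leaf 154 1239 .nil)) .nil)) .nil)) .nil)) .nil)) (.cons 178 (.leaf 202 1431 (.cons 204 (.leaf 180 1437 (.cons 299 (.leaf 228 1629 (.cons 324 (.leaf 300 1820 (.cons 323 (.leaf 348 2012 (.cons 346 (.leaf 322 2006 (.cons 347 (.leaf 250 2007 (.leaf 370 2198 .nil)) .nil)) .nil)) .nil)) .nil)) .nil)) .nil)) (.cons 178 (.leaf 202 1431 (.cons 179 (.leaf 250 1430 (.leaf 154 1239 .nil)) .nil)) (.cons 204 (.leaf 180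 1437 (.cons 179 (.leaf 250 1430 (.cons 228 (.leaf 299 1629 (.cons 155 (.leaf 252 1244 (.leaf 131 1052 .nil)) .nil)) .nil)) .nil)) (.cons 178 (.leaf 202 1431 (.cons 179 (.leaf 154 1239 (.cons 180 (.leaf 204 1437 (.leaf 156 1245 .nil)) .nil)) .nil)) .nil))))) (.cons 202 t32 (.cons 299 (.cons 324 (.leaf 300 1820 (.cons 323 (.leaf 348 2012 (.cons 250 (.leaf 226 1815 (.leaf 347 2007 .nil)) .nil)) .nil)) (.cons 300 (.leaf 324 1820 (.cons 301 (.leaf 302 2195 (.cons 203 (.cons 179 (.leaf 250 1430 (.cons 154 (.leaf 178 1239 (.cons 155 (.leaf 130 1047 (.cons 156 (.leaf 132 1053 (.leaf 180 1245 .nil)) .nil)) .nil)) .nil)) (.cons 204 (.leaf 180 1437 (.leaf 228 1629 .nil)) (.cons 179 (.leaf 250 1430 (.cons 154 (.leaf 178 1239 (.cons 155 (.leaf 130 1047 (.cons 228 (.leaf 204 1629 (.leaf 252 1244 .nil)) .nil)) .nil)) .nil)) .nil))) .nil)) .nil)) (.cons 228 (.leaf 204 1629 (.cons 323 (.leaf 252 1821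 (.cons 250 (.leaf 226 1815 (.leaf 347 2007 .nil)) .nil)) .nil)) (.cons 228 (.leaf 204 1629 (.cons 323 (.leaf 252 1821 (.cons 324 (.leaf 300 1820 (.leaf 348 2012 .nil)) .nil)) .nil)) .nil)))) (.cons 203 (.cons 179 (.leaf 250 1430 (.cons 180 (.leaf 204 1437 (.leaf 156 1245 .nil)) .nil)) (.cons 180 (.leaf 204 1437 (.cons 202 (.leaf 178 1431 (.cons 299 (.leaf 226 1623 (.cons 324 (.leaf 300 1820 (.cons 323 (.leaf 348 2012 (.cons 346 (.leaf 322 2006 (.cons 347 (.leaf 250 2007 (.leaf 370 2198 .nil)) .nil)) .nil)) .nil)) .nil)) .nil)) .nil)) (.cons 202 (.leaf 178 1431 (.cons 204 (.leaf 180 1437 (.cons 226 (.leaf 299 1623 (.cons 205 (.leaf 206 1618 (.leaf 225 1610 .nil)) .nil)) .nil)) .nil)) (.cons 178 (.leaf 202 1431 (.cons 179 (.leaf 250 1430 (.leaf 154 1239 .nil)) .nil)) .nil)))) (.cons 202 t31 .nil)))))))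
noncomputable def t36 : T := .cons 203 (.leaf 178 1431 (.cons 204 (.leaf 180 1437 (.cons 226 (.leaf 299 1623 (.cons 205 (.leaf 206 1618 (.leaf 225 1610 .nil)) .nil)) .nil)) .nil)) (.cons 299 (.leaf 226 1623 (.cons 228 (.leaf 204 1629 (.cons 323 (.leaf 252 1821 (.cons 324 (.leaf 300 1820 (.leaf 348 2012 .nil)) .nil)) .nil)) .nil)) (.cons 203 (.leaf 178 1431 (.cons 204 (.leaf 180 1437 (.cons 201 (.cons 176 (.leaf 177 1411 (.cons 200 (.leaf 228 1600 (.leaf 175 1403 .nil)) .nil)) (.cons 176 (.leaf 177 1411 (.cons 200 (.leaf 175 1403 (.cons 224 (.leaf 223 1594 (.leaf 225 1602 .nil)) .nil)) .nil)) (.cons 176 (.leaf 177 1411 (.cons 229 (.leaf 228 1608 (.cons 205 (.leaf 230 1616 (.cons 225 (.leaf 224 1602 (.leaf 226 1610 .nil)) .nil)) .nil)) .nil)) (.cons 228 (.leaf 200 1600 (.leaf 229 1608 .nil)) .nil)))) .nil)) .nil)) (.cons 203 (.leaf 178 1431 (.cons 204 (.leaf 180 1437 (.cons 228 (.leaf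 299 1629 (.cons 201 (.leaf 200 1600 (.leaf 229 1608 .nil)) .nil)) .nil)) .nil)) (.cons 226 (.leaf 299 1623 (.cons 178 (.leaf 203 1431 (.leaf 154 1236 .nil)) .nil)) .nil))))
noncomputable def t37 : T := .cons 299 (.leaf 251 1623 (.leaf 250 1620 .nil)) (.cons 250 (.cons 201 (.leaf 177 1423 (.cons 200 (.leaf 199 1592 (.cons 228 (.leaf 225 1603 (.leaf 229 1611 .nil)) .nil)) .nil)) (.cons 178 (.leaf 251 1428 (.cons 153 (.leaf 177 1231 (.cons 154 (.leaf 129 1039 (.cons 155 (.leaf 131 1045 (.leaf 179 1237 .nil)) .nil)) .nil)) .nil)) (.cons 178 (.leaf 251 1428 (.cons 155 (.leaf 179 1237 (.cons 154 (.leaf 131 1045 (.cons 129 (.leaf 153 1039 (.cons 130 (.leaf 105 847 (.cons 225 (.leaf 249 1230 (.leaf 201 1038 .nil)) .nil)) .nil)) .nil)) .nil)) .nil)) .nil))) (.cons 251 (.leaf 299 1623 (.cons 178 (.leaf 154 1236 (.cons 228 (.cons 201 (.leaf 229 1611 (.cons 225 (.leaf 200 1603 (.cons 252 (.leaf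 224 1792 (.leaf 253 1800 .nil)) .nil)) .nil)) (.cons 225 (.cons 252 (.leaf 224 1792 (.leaf 253 1800 .nil)) (.cons 204 (.leaf 205 1609 (.cons 248 (.leaf 249 1794 (.cons 224 (.leaf 247 1786 (.cons 199 (.leaf 200 1595 (.cons 223 (.leaf 296 1599 (.leaf 198 1587 .nil)) .nil)) .nil)) .nil)) .nil)) (.cons 204 (.leaf 205 1609 (.cons 180 (.leaf 252 1438 (.leaf 156 1246 .nil)) .nil)) .nil))) (.cons 229 (.leaf 201 1611 (.cons 205 (.leaf 206 1617 (.cons 254 (.leaf 253 1808 (.cons 230 (.leaf 255 1816 (.cons 157 (.leaf 181 1260 (.cons 231 (.leaf 252 1818 (.cons 232 (.leaf 204 1635 (.cons 208 (.leaf 207 1633 (.leaf 209 1641 .nil)) .nil)) .nil)) .nil)) .nil)) .nil)) .nil)) .nil)) (.cons 201 (.leaf 229 1611 (.cons 200 (.leaf 199 1592 (.leaf 225 1603 .nil)) .nil)) .nil)))) .nil)) .nil)) (.cons 250 (.leaf 299 1620 (.cons 201 (.leaf 177 1423 (.cons 200 (.leaf 199 1592 (.cons 228 (.leaf 225 1603 (.leaf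 229 1611 .nil)) .nil)) .nil)) .nil)) .nil)))
noncomputable def t38 : T := .cons 224 (.cons 247 (.leaf 248 1786 (.cons 199 (.leaf 200 1595 (.cons 223 (.leaf 198 1587 (.leaf 246 1778 .nil)) .nil)) .nil)) (.cons 199 (.leaf 200 1595 (.cons 223 (.leaf 198 1587 (.cons 251 (.leaf 252 1792 (.leaf 250 1784 .nil)) .nil)) .nil)) (.cons 247 (.leaf 248 1786 (.cons 223 (.leaf 246 1778 (.cons 251 (.leaf 252 1792 (.leaf 250 1784 .nil)) .nil)) .nil)) (.cons 199 (.leaf 200 1595 (.cons 248 (.leaf 247 1786 (.cons 201 (.leaf 296 1605 (.cons 177 (.leaf 249 1414 (.leaf 153 1222 .nil)) .nil)) .nil)) .nil)) .nil)))) (.cons 228 (.cons 200 (.leaf 201 1603 (.cons 204 (.leaf 205 1609 (.cons 249 (.leaf 248 1794 (.cons 250 (.leaf 229 1802 (.cons 298 (.leaf 322 1807 (.cons 299 (.leaf 251 1629 (.leaf 323 1812 .nil)) .nil)) .nil)) .nil)) .nil)) .nil)) (.cons 253 (.leaf 252 1800 (.cons 200 (.leaf 201 1603 (.cons 205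 (.leaf 204 1609 (.cons 229 (.leaf 206 1617 (.leaf 254 1808 .nil)) .nil)) .nil)) .nil)) (.cons 249 (.leaf 248 1794 (.cons 204 (.leaf 205 1609 (.cons 229 (.leaf 250 1802 (.cons 253 (.leaf 252 1800 (.leaf 254 1808 .nil)) .nil)) .nil)) .nil)) (.cons 249 (.leaf 248 1794 (.cons 200 (.leaf 201 1603 (.cons 229 (.leaf 250 1802 (.cons 253 (.leaf 252 1800 (.leaf 254 1808 .nil)) .nil)) .nil)) .nil)) (.cons 201 (.leaf 200 1603 (.cons 204 (.leaf 205 1609 (.cons 249 (.leaf 248 1794 (.cons 250 (.leaf 177 1420 (.leaf 298 1615 .nil)) .nil)) .nil)) .nil)) .nil))))) (.cons 228 (.cons 204 (.leaf 205 1609 (.cons 251 (.leaf 299 1629 (.cons 180 (.leaf 252 1438 (.leaf 156 1246 .nil)) .nil)) .nil)) (.cons 201 (.leaf 200 1603 (.cons 204 (.leaf 205 1609 (.cons 250 (.leaf 298 1615 (.cons 177 (.leaf 249 1420 (.leaf 153 1228 .nil)) .nil)) .nil)) .nil)) (.cons 252 (.leaf 253 1800 (.cons 200 (.leaf 201 1603 (.cons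 224 (.leaf 199 1595 (.leaf 251 1792 .nil)) .nil)) .nil)) .nil))) (.cons 228 (.cons 200 (.leaf 201 1603 (.cons 199 (.leaf 224 1595 (.cons 205 (.leaf 204 1609 (.cons 229 (.leaf 206 1617 (.cons 253 (.leaf 252 1800 (.leaf 254 1808 .nil)) .nil)) .nil)) .nil)) .nil)) (.cons 204 (.leaf 205 1609 (.cons 249 (.leaf 248 1794 (.cons 229 (.leaf 250 1802 (.cons 253 (.leaf 252 1800 (.leaf 254 1808 .nil)) .nil)) .nil)) .nil)) (.cons 248 (.leaf 249 1794 (.cons 224 (.leaf 247 1786 (.cons 199 (.leaf 200 1595 (.cons 223 (.leaf 296 1599 (.leaf 198 1587 .nil)) .nil)) .nil)) .nil)) .nil))) (.cons 224 (.cons 199 (.leaf 200 1595 (.cons 223 (.leaf 198 1587 (.cons 247 (.leaf 248 1786 (.leaf 246 1778 .nil)) .nil)) .nil)) (.cons 199 (.leaf 200 1595 (.cons 223 (.leaf 198 1587 (.cons 251 (.leaf 252 1792 (.leaf 250 1784 .nil)) .nil)) .nil)) (.cons 251 (.leaf 252 1792 (.cons 223 (.leaf 250 1784 (.cons 247 (.leaf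 248 1786 (.leaf 246 1778 .nil)) .nil)) .nil)) (.cons 248 (.leaf 247 1786 (.cons 201 (.leaf 296 1605 (.cons 177 (.leaf 200 1413 (.leaf 153 1222 .nil)) .nil)) .nil)) .nil)))) (.cons 228 (.cons 200 (.leaf 201 1603 (.cons 204 (.leaf 205 1609 (.cons 249 (.leaf 248 1794 (.cons 250 (.leaf 229 1802 (.cons 298 (.leaf 322 1807 (.cons 299 (.leaf 251 1629 (.leaf 323 1812 .nil)) .nil)) .nil)) .nil)) .nil)) .nil)) (.cons 201 (.leaf 200 1603 (.cons 204 (.leaf 205 1609 (.cons 250 (.leaf 298 1615 (.cons 177 (.leaf 249 1420 (.leaf 153 1228 .nil)) .nil)) .nil)) .nil)) (.cons 201 (.leaf 200 1603 (.cons 204 (.leaf 205 1609 (.cons 250 (.leaf 298 1615 (.cons 153 (.leaf 177 1228 (.cons 251 (.leaf 299 1629 (.cons 156 (.leaf 180 1246 (.cons 224 (.leaf 223 1784 (.cons 248 (.leaf 296 1605 (.leaf 247 1786 .nil)) .nil)) .nil)) .nil)) .nil)) .nil)) .nil)) .nil)) (.cons 248 (.leaf 249 1794 (.cons 224 (.leaf 247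 1786 (.cons 199 (.leaf 200 1595 (.cons 223 (.leaf 296 1599 (.leaf 198 1587 .nil)) .nil)) .nil)) .nil)) (.cons 249 (.leaf 248 1794 (.cons 204 (.leaf 205 1609 (.cons 250 (.leaf 229 1802 (.cons 201 (.leaf 177 1420 (.leaf 298 1615 .nil)) .nil)) .nil)) .nil)) .nil))))) (.cons 228 (.cons 249 (.leaf 248 1794 (.cons 204 (.leaf 205 1609 (.cons 229 (.leaf 250 1802 (.cons 253 (.leaf 252 1800 (.leaf 254 1808 .nil)) .nil)) .nil)) .nil)) (.cons 204 (.leaf 205 1609 (.cons 251 (.leaf 299 1629 (.cons 180 (.leaf 252 1438 (.leaf 156 1246 .nil)) .nil)) .nil)) (.cons 249 (.leaf 248 1794 (.cons 204 (.leaf 205 1609 (.cons 250 (.leaf 229 1802 (.cons 201 (.leaf 177 1420 (.leaf 298 1615 .nil)) .nil)) .nil)) .nil)) (.cons 248 (.leaf 249 1794 (.cons 224 (.leaf 247 1786 (.cons 252 (.leaf 251 1792 (.leaf 253 1800 .nil)) .nil)) .nil)) .nil)))) .nil))))))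
noncomputable def t39 : T := .cons 224 (.leaf 252 1792 (.cons 199 (.leaf 200 1595 (.cons 198 (.leaf 223 1587 (.cons 248 (.leaf 247 1786 (.cons 201 (.leaf 296 1605 (.cons 177 (.leaf 249 1414 (.leaf 153 1222 .nil)) .nil)) .nil)) .nil)) .nil)) .nil)) (.cons 228 (.cons 200 (.leaf 201 1603 (.cons 204 (.leaf 205 1609 (.cons 180 (.leaf 252 1438 (.leaf 156 1246 .nil)) .nil)) .nil)) (.cons 201 (.leaf 200 1603 (.cons 205 (.leaf 204 1609 (.cons 229 (.leaf 202 1611 (.leaf 206 1617 .nil)) .nil)) .nil)) (.cons 253 (.leaf 252 1800 (.cons 201 (.leaf 200 1603 (.cons 229 (.leaf 202 1611 (.leaf 254 1808 .nil)) .nil)) .nil)) (.cons 252 (.leaf 253 1800 (.cons 204 (.leaf 180 1438 (.leaf 205 1609 .nil)) .nil)) .nil)))) (.cons 228 (.cons 201 (.leaf 200 1603 (.cons 205 (.leaf 204 1609 (.cons 229 (.leaf 202 1611 (.leaf 206 1617 .nil)) .nil)) .nil)) (.cons 248 (.leaf 249 1794 (.cons 204 (.leaf 205 1609 (.cons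 156 (.leaf 180 1246 (.cons 224 (.leaf 247 1786 (.cons 199 (.leaf 200 1595 (.cons 223 (.leaf 296 1599 (.leaf 198 1587 .nil)) .nil)) .nil)) .nil)) .nil)) .nil)) (.cons 248 (.leaf 249 1794 (.cons 205 (.leaf 204 1609 (.cons 224 (.leaf 247 1786 (.cons 201 (.leaf 296 1605 (.cons 229 (.leaf 202 1611 (.leaf 206 1617 .nil)) .nil)) .nil)) .nil)) .nil)) (.cons 248 (.leaf 249 1794 (.cons 200 (.leaf 201 1603 (.cons 224 (.leaf 199 1595 (.leaf 247 1786 .nil)) .nil)) .nil)) .nil)))) (.cons 252 (.leaf 224 1792 (.cons 253 (.leaf 254 2002 (.leaf 228 1800 .nil)) .nil)) .nil)))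
noncomputable def t40 : T := .cons 228 (.cons 204 (.leaf 205 1609 (.cons 248 (.leaf 249 1794 (.cons 252 (.leaf 253 1800 (.cons 180 (.leaf 251 1438 (.cons 155 (.leaf 179 1247 (.cons 156 (.leaf 131 1055 (.cons 157 (.leaf 133 1061 (.leaf 181 1253 .nil)) .nil)) .nil)) .nil)) .nil)) .nil)) .nil)) (.cons 201 (.leaf 200 1603 (.cons 202 (.leaf 229 1611 (.cons 250 (.leaf 177 1423 (.leaf 298 1615 .nil)) .nil)) .nil)) .nil)) (.cons 224 (.cons 199 (.leaf 200 1595 (.cons 223 (.leaf 198 1587 (.cons 247 (.leaf 248 1786 (.leaf 246 1778 .nil)) .nil)) .nil)) (.cons 251 (.leaf 252 1792 (.cons 199 (.leaf 200 1595 (.cons 223 (.leaf 198 1587 (.leaf 250 1784 .nil)) .nil)) .nil)) (.cons 251 (.leaf 252 1792 (.cons 223 (.leaf 250 1784 (.cons 247 (.leaf 248 1786 (.leaf 246 1778 .nil)) .nil)) .nil)) (.cons 199 (.leaf 200 1595 (.cons 248 (.leaf 247 1786 (.cons 228 (.leaf 249 1794 (.cons 252 (.leaf 251 1792 (.leaf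 253 1800 .nil)) .nil)) .nil)) .nil)) .nil)))) (.cons 228 (.cons 204 (.leaf 205 1609 (.cons 252 (.leaf 253 1800 (.cons 251 (.leaf 180 1438 (.leaf 224 1792 .nil)) .nil)) .nil)) (.cons 201 (.leaf 200 1603 (.cons 202 (.leaf 229 1611 (.cons 250 (.leaf 177 1423 (.leaf 298 1615 .nil)) .nil)) .nil)) .nil)) (.cons 228 (.cons 200 (.leaf 201 1603 (.cons 204 (.leaf 205 1609 (.cons 224 (.leaf 199 1595 (.cons 248 (.leaf 247 1786 (.leaf 249 1794 .nil)) .nil)) .nil)) .nil)) (.cons 200 (.leaf 201 1603 (.cons 204 (.leaf 205 1609 (.cons 252 (.leaf 253 1800 (.cons 180 (.leaf 251 1438 (.cons 155 (.leaf 179 1247 (.cons 156 (.leaf 131 1055 (.cons 157 (.leaf 133 1061 (.leaf 181 1253 .nil)) .nil)) .nil)) .nil)) .nil)) .nil)) .nil)) (.cons 204 (.leaf 205 1609 (.cons 248 (.leaf 249 1794 (.cons 224 (.leaf 247 1786 (.cons 199 (.leaf 200 1595 (.cons 223 (.leaf 296 1599 (.leaf 198 1587 .nil)) .nil)) .nil)) .nil))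 .nil)) (.cons 204 (.leaf 205 1609 (.cons 248 (.leaf 249 1794 (.cons 252 (.leaf 253 1800 (.cons 180 (.leaf 251 1438 (.cons 155 (.leaf 179 1247 (.cons 156 (.leaf 131 1055 (.cons 157 (.leaf 133 1061 (.leaf 181 1253 .nil)) .nil)) .nil)) .nil)) .nil)) .nil)) .nil)) (.cons 200 (.leaf 201 1603 (.cons 224 (.leaf 199 1595 (.cons 252 (.leaf 251 1792 (.leaf 253 1800 .nil)) .nil)) .nil)) .nil))))) (.cons 228 (.cons 204 (.leaf 205 1609 (.cons 248 (.leaf 249 1794 (.cons 224 (.leaf 247 1786 (.cons 201 (.leaf 296 1605 (.leaf 200 1603 .nil)) .nil)) .nil)) .nil)) (.cons 249 (.leaf 248 1794 (.cons 204 (.leaf 205 1609 (.cons 229 (.leaf 250 1802 (.cons 253 (.leaf 252 1800 (.leaf 254 1808 .nil)) .nil)) .nil)) .nil)) (.cons 201 (.leaf 200 1603 (.cons 202 (.leaf 229 1611 (.cons 250 (.leaf 177 1423 (.leaf 298 1615 .nil)) .nil)) .nil)) .nil))) (.cons 228 (.cons 204 (.leaf 205 1609 (.cons 248 (.leaf 249 1794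 (.cons 224 (.leaf 247 1786 (.cons 201 (.leaf 296 1605 (.cons 153 (.leaf 177 1222 (.cons 229 (.leaf 202 1611 (.cons 253 (.leaf 252 1800 (.leaf 254 1808 .nil)) .nil)) .nil)) .nil)) .nil)) .nil)) .nil)) (.cons 204 (.leaf 205 1609 (.cons 252 (.leaf 253 1800 (.cons 251 (.leaf 180 1438 (.leaf 224 1792 .nil)) .nil)) .nil)) (.cons 204 (.leaf 205 1609 (.cons 248 (.leaf 249 1794 (.cons 224 (.leaf 247 1786 (.cons 201 (.leaf 296 1605 (.cons 153 (.leaf 177 1222 (.cons 202 (.leaf 229 1611 (.cons 223 (.leaf 222 1585 (.cons 250 (.leaf 298 1615 (.leaf 251 1784 .nil)) .nil)) .nil)) .nil)) .nil)) .nil)) .nil)) .nil)) (.cons 248 (.leaf 249 1794 (.cons 224 (.leaf 247 1786 (.cons 252 (.leaf 251 1792 (.leaf 253 1800 .nil)) .nil)) .nil)) (.cons 249 (.leaf 248 1794 (.cons 204 (.leaf 205 1609 (.cons 229 (.leaf 250 1802 (.cons 253 (.leaf 252 1800 (.leaf 254 1808 .nil)) .nil)) .nil)) .nil)) .nil))))) (.cons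 228 (.cons 204 (.leaf 205 1609 (.cons 248 (.leaf 249 1794 (.cons 224 (.leaf 247 1786 (.cons 199 (.leaf 200 1595 (.cons 223 (.leaf 296 1599 (.leaf 198 1587 .nil)) .nil)) .nil)) .nil)) .nil)) (.cons 200 (.leaf 201 1603 (.cons 199 (.leaf 224 1595 (.cons 205 (.leaf 204 1609 (.cons 229 (.leaf 206 1617 (.cons 250 (.leaf 249 1802 (.cons 230 (.leaf 251 1810 (.cons 254 (.leaf 253 1808 (.leaf 255 1816 .nil)) .nil)) .nil)) .nil)) .nil)) .nil)) .nil)) (.cons 201 (.leaf 200 1603 (.cons 202 (.leaf 229 1611 (.cons 250 (.leaf 177 1423 (.leaf 298 1615 .nil)) .nil)) .nil)) (.cons 249 (.leaf 248 1794 (.cons 204 (.leaf 205 1609 (.cons 250 (.leaf 229 1802 (.cons 201 (.leaf 177 1420 (.leaf 298 1615 .nil)) .nil)) .nil)) .nil)) .nil)))) .nil))))))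
noncomputable def t41 : T := .cons 225 (.cons 298 (.leaf 201 1615 (.cons 249 (.leaf 322 1807 (.cons 248 (.leaf 247 1976 (.leaf 228 1794 .nil)) .nil)) .nil)) (.cons 299 (.leaf 202 1620 (.cons 323 (.leaf 347 2007 (.leaf 298 1812 .nil)) .nil)) (.cons 202 (.leaf 299 1620 (.cons 177 (.leaf 201 1423 (.cons 178 (.leaf 153 1231 (.cons 154 (.leaf 249 1230 (.cons 155 (.leaf 131 1045 (.leaf 179 1237 .nil)) .nil)) .nil)) .nil)) .nil)) .nil))) (.cons 225 (.cons 201 (.leaf 298 1615 (.cons 153 (.leaf 177 1228 (.cons 200 (.leaf 228 1603 (.cons 199 (.leaf 202 1592 (.leaf 224 1595 .nil)) .nil)) .nil)) .nil)) (.cons 228 (.cons 249 (.leaf 248 1794 (.leaf 229 1802 .nil)) (.cons 253 (.leaf 252 1800 (.cons 205 (.leaf 204 1609 (.cons 229 (.leaf 206 1617 (.leaf 254 1808 .nil)) .nil)) .nil)) (.cons 248 (.leaf 249 1794 (.cons 204 (.leaf 205 1609 (.cons 224 (.leaf 247 1786 (.cons 199 (.leaf 200 1595 (.cons 223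 (.leaf 296 1599 (.leaf 198 1587 .nil)) .nil)) .nil)) .nil)) .nil)) .nil))) (.cons 201 (.leaf 298 1615 (.cons 177 (.leaf 202 1423 (.leaf 249 1420 .nil)) .nil)) .nil))) (.cons 225 (.cons 228 (.cons 249 (.leaf 248 1794 (.leaf 229 1802 .nil)) (.cons 253 (.leaf 252 1800 (.cons 205 (.leaf 204 1609 (.cons 201 (.leaf 298 1615 (.leaf 200 1603 .nil)) .nil)) .nil)) .nil)) (.cons 228 (.cons 249 (.leaf 248 1794 (.leaf 229 1802 .nil)) (.cons 253 (.leaf 252 1800 (.cons 205 (.leaf 204 1609 (.cons 229 (.leaf 206 1617 (.leaf 254 1808 .nil)) .nil)) .nil)) (.cons 248 (.leaf 249 1794 (.cons 204 (.leaf 205 1609 (.cons 224 (.leaf 247 1786 (.cons 199 (.leaf 200 1595 (.cons 223 (.leaf 296 1599 (.leaf 198 1587 .nil)) .nil)) .nil)) .nil)) .nil)) .nil))) (.cons 201 (.leaf 298 1615 (.cons 153 (.leaf 177 1228 (.cons 200 (.leaf 228 1603 (.cons 199 (.leaf 224 1595 (.leaf 198 1584 .nil)) .nil)) .nil)) .nil)) (.cons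 201 (.leaf 298 1615 (.cons 177 (.leaf 249 1420 (.leaf 153 1228 .nil)) .nil)) .nil)))) (.cons 299 (.leaf 202 1620 (.cons 323 (.leaf 347 2007 (.leaf 298 1812 .nil)) .nil)) (.cons 202 (.leaf 299 1620 (.cons 201 (.leaf 177 1423 (.cons 200 (.leaf 199 1592 (.cons 228 (.leaf 225 1603 (.leaf 229 1611 .nil)) .nil)) .nil)) .nil)) .nil))))
noncomputable def t42 : T := .cons 224 (.cons 247 (.leaf 248 1786 (.cons 199 (.leaf 200 1595 (.cons 223 (.leaf 198 1587 (.leaf 246 1778 .nil)) .nil)) .nil)) (.cons 199 (.leaf 200 1595 (.cons 223 (.leaf 198 1587 (.cons 251 (.leaf 252 1792 (.leaf 250 1784 .nil)) .nil)) .nil)) (.cons 247 (.leaf 248 1786 (.cons 223 (.leaf 246 1778 (.cons 251 (.leaf 252 1792 (.leaf 250 1784 .nil)) .nil)) .nil)) (.cons 199 (.leaf 200 1595 (.cons 248 (.leaf 247 1786 (.cons 201 (.leaf 296 1605 (.cons 153 (.leaf 177 1222 (.cons 250 (.leaf 298 1615 (.cons 252 (.leaf 251 1792 (.cons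 228 (.leaf 249 1794 (.leaf 253 1800 .nil)) .nil)) .nil)) .nil)) .nil)) .nil)) .nil)) .nil)))) (.cons 228 (.cons 248 (.leaf 249 1794 (.cons 224 (.leaf 247 1786 (.cons 252 (.leaf 251 1792 (.leaf 253 1800 .nil)) .nil)) .nil)) (.cons 252 (.leaf 253 1800 (.cons 200 (.leaf 201 1603 (.cons 224 (.leaf 199 1595 (.leaf 251 1792 .nil)) .nil)) .nil)) (.cons 200 (.leaf 201 1603 (.cons 224 (.leaf 199 1595 (.cons 248 (.leaf 247 1786 (.leaf 249 1794 .nil)) .nil)) .nil)) (.cons 204 (.leaf 205 1609 (.cons 251 (.leaf 299 1629 (.cons 180 (.leaf 252 1438 (.leaf 156 1246 .nil)) .nil)) .nil)) .nil)))) (.cons 250 (.cons 201 (.leaf 298 1615 (.cons 202 (.leaf 299 1620 (.leaf 177 1423 .nil)) .nil)) (.cons 201 (.leaf 298 1615 (.cons 177 (.leaf 202 1423 (.leaf 249 1420 .nil)) .nil)) (.cons 202 (.leaf 299 1620 (.cons 178 (.leaf 251 1428 (.cons 153 (.leaf 177 1231 (.cons 154 (.leaf 129 1039 (.leaf 249 1230 .nil))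 .nil)) .nil)) .nil)) (.cons 298 (.leaf 201 1615 (.cons 299 (.leaf 323 1812 (.cons 224 (.cons 199 (.leaf 200 1595 (.cons 251 (.leaf 322 1813 (.leaf 252 1792 .nil)) .nil)) (.cons 199 (.leaf 200 1595 (.cons 198 (.leaf 223 1587 (.cons 247 (.leaf 248 1786 (.cons 322 (.leaf 249 1807 (.cons 345 (.leaf 321 1998 (.cons 346 (.leaf 370 2197 (.leaf 369 2190 .nil)) .nil)) .nil)) .nil)) .nil)) .nil)) (.cons 199 (.leaf 200 1595 (.cons 251 (.leaf 252 1792 (.leaf 223 1784 .nil)) .nil)) (.cons 251 (.leaf 322 1813 (.leaf 252 1792 .nil)) .nil)))) .nil)) .nil)) .nil)))) (.cons 228 (.cons 200 (.leaf 201 1603 (.cons 199 (.leaf 224 1595 (.cons 205 (.leaf 204 1609 (.cons 229 (.leaf 206 1617 (.cons 253 (.leaf 252 1800 (.leaf 254 1808 .nil)) .nil)) .nil)) .nil)) .nil)) (.cons 204 (.leaf 205 1609 (.cons 249 (.leaf 248 1794 (.cons 229 (.leaf 250 1802 (.cons 253 (.leaf 252 1800 (.leaf 254 1808 .nil)) .nil)) .nil))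 .nil)) (.cons 201 (.leaf 200 1603 (.cons 202 (.leaf 229 1611 (.cons 250 (.leaf 299 1620 (.leaf 177 1423 .nil)) .nil)) .nil)) (.cons 201 (.leaf 200 1603 (.cons 204 (.leaf 205 1609 (.cons 249 (.leaf 248 1794 (.cons 250 (.leaf 177 1420 (.leaf 298 1615 .nil)) .nil)) .nil)) .nil)) .nil)))) (.cons 250 (.cons 201 (.leaf 298 1615 (.cons 202 (.leaf 299 1620 (.leaf 177 1423 .nil)) .nil)) (.cons 201 (.leaf 298 1615 (.cons 177 (.leaf 202 1423 (.leaf 249 1420 .nil)) .nil)) (.cons 299 (.leaf 202 1620 (.cons 323 (.leaf 251 1815 (.leaf 347 2007 .nil)) .nil)) (.cons 298 (.leaf 201 1615 (.cons 249 (.leaf 322 1807 (.cons 248 (.leaf 247 1976 (.leaf 228 1794 .nil)) .nil)) .nil)) .nil)))) (.cons 251 (.cons 202 (.leaf 299 1623 (.cons 178 (.leaf 250 1428 (.leaf 154 1236 .nil)) .nil)) (.cons 252 (.leaf 224 1792 (.cons 253 (.leaf 254 2002 (.leaf 228 1800 .nil)) .nil)) .nil)) .nil)))))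
noncomputable def t43 : T := .cons 225 t42 (.cons 250 t41 (.cons 225 (.cons 228 (.cons 204 (.leaf 205 1609 (.cons 252 (.leaf 253 1800 (.cons 251 (.leaf 180 1438 (.leaf 224 1792 .nil)) .nil)) .nil)) (.cons 204 (.leaf 205 1609 (.cons 248 (.leaf 249 1794 (.cons 224 (.leaf 247 1786 (.cons 201 (.leaf 296 1605 (.leaf 200 1603 .nil)) .nil)) .nil)) .nil)) (.cons 201 (.leaf 200 1603 (.cons 202 (.leaf 229 1611 (.cons 250 (.leaf 177 1423 (.leaf 298 1615 .nil)) .nil)) .nil)) .nil))) (.cons 224 (.cons 199 (.leaf 200 1595 (.cons 223 (.leaf 198 1587 (.cons 247 (.leaf 248 1786 (.leaf 246 1778 .nil)) .nil)) .nil)) (.cons 199 (.leaf 200 1595 (.cons 223 (.leaf 198 1587 (.cons 251 (.leaf 252 1792 (.leaf 250 1784 .nil)) .nil)) .nil)) (.cons 247 (.leaf 248 1786 (.cons 223 (.leaf 246 1778 (.cons 251 (.leaf 252 1792 (.leaf 250 1784 .nil)) .nil)) .nil)) (.cons 199 (.leaf 200 1595 (.cons 248 (.leaf 247 1786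 (.cons 201 (.leaf 296 1605 (.cons 177 (.leaf 249 1414 (.leaf 153 1222 .nil)) .nil)) .nil)) .nil)) .nil)))) t40)) (.cons 251 (.cons 299 (.leaf 202 1623 (.cons 322 (.leaf 298 1814 (.cons 323 (.leaf 346 2006 (.cons 228 (.leaf 204 1629 (.leaf 252 1821 .nil)) .nil)) .nil)) .nil)) (.cons 225 t39 (.cons 299 (.cons 322 (.leaf 298 1814 (.cons 323 (.leaf 346 2006 (.cons 228 (.leaf 204 1629 (.leaf 252 1821 .nil)) .nil)) .nil)) (.cons 322 (.leaf 298 1814 (.cons 323 (.leaf 346 2006 (.cons 324 (.leaf 300 1820 (.leaf 348 2012 .nil)) .nil)) .nil)) (.cons 228 (.leaf 204 1629 (.cons 252 (.leaf 323 1821 (.cons 253 (.leaf 254 2002 (.leaf 225 1800 .nil)) .nil)) .nil)) (.cons 228 (.leaf 204 1629 (.cons 298 (.leaf 322 1814 (.cons 300 (.leaf 324 1820 (.cons 301 (.leaf 302 2195 (.cons 277 (.leaf 278 2193 (.cons 325 (.leaf 326 2384 (.cons 253 (.leaf 252 1831 (.cons 254 (.leaf 229 1808 (.leaf 230 1837 .nil))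 .nil)) .nil)) .nil)) .nil)) .nil)) .nil)) .nil)) .nil)))) (.cons 299 (.leaf 202 1623 (.cons 322 (.leaf 298 1814 (.cons 323 (.leaf 346 2006 (.cons 324 (.leaf 300 1820 (.leaf 348 2012 .nil)) .nil)) .nil)) .nil)) .nil)))) (.cons 225 (.cons 228 (.cons 204 (.leaf 205 1609 (.cons 248 (.leaf 249 1794 (.cons 224 (.leaf 247 1786 (.cons 199 (.leaf 200 1595 (.cons 223 (.leaf 296 1599 (.leaf 198 1587 .nil)) .nil)) .nil)) .nil)) .nil)) (.cons 204 (.leaf 205 1609 (.cons 251 (.leaf 299 1629 (.cons 180 (.leaf 252 1438 (.leaf 156 1246 .nil)) .nil)) .nil)) (.cons 248 (.leaf 249 1794 (.cons 224 (.leaf 247 1786 (.cons 252 (.leaf 251 1792 (.leaf 253 1800 .nil)) .nil)) .nil)) .nil))) t38) (.cons 299 (.cons 202 (.leaf 251 1623 (.leaf 250 1620 .nil)) (.cons 323 (.cons 250 (.leaf 251 1815 (.leaf 347 2007 .nil)) (.cons 251 (.cons 324 (.leaf 300 1820 (.leaf 348 2012 .nil)) (.cons 322 (.leaf 298 1814 (.leaf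 346 2006 .nil)) .nil)) (.cons 250 (.leaf 347 2007 (.leaf 298 1812 .nil)) .nil))) (.cons 250 (.leaf 202 1620 (.cons 323 (.leaf 347 2007 (.leaf 298 1812 .nil)) .nil)) (.cons 251 (.leaf 202 1623 (.cons 322 (.leaf 298 1814 (.cons 323 (.leaf 346 2006 (.cons 324 (.leaf 300 1820 (.leaf 348 2012 .nil)) .nil)) .nil)) .nil)) .nil)))) (.cons 202 t37 .nil))))))
noncomputable def t44 : T := .cons 299 (.leaf 202 1620 (.cons 323 (.leaf 347 2007 (.leaf 298 1812 .nil)) .nil)) (.cons 202 (.leaf 299 1620 (.cons 179 (.leaf 203 1429 (.cons 155 (.leaf 178 1237 (.cons 228 (.cons 229 (.leaf 201 1611 (.leaf 249 1802 .nil)) (.cons 225 (.cons 200 (.leaf 201 1603 (.cons 199 (.leaf 224 1595 (.cons 204 (.leaf 205 1609 (.cons 252 (.leaf 253 1800 (.leaf 180 1247 .nil)) .nil)) .nil)) .nil)) (.cons 204 (.leaf 205 1609 (.cons 252 (.leaf 253 1800 (.leaf 180 1247 .nil)) .nil)) (.cons 200 (.leaf 201 1603 (.cons 224 (.leaf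 199 1595 (.cons 248 (.leaf 247 1786 (.leaf 249 1794 .nil)) .nil)) .nil)) .nil))) (.cons 229 (.leaf 201 1611 (.cons 205 (.leaf 206 1617 (.cons 204 (.leaf 225 1609 (.cons 180 (.leaf 252 1247 (.cons 156 (.leaf 131 1055 (.leaf 253 1252 .nil)) .nil)) .nil)) .nil)) .nil)) (.cons 249 (.leaf 229 1802 (.cons 248 (.leaf 247 1976 (.leaf 225 1794 .nil)) .nil)) .nil)))) .nil)) .nil)) .nil)) (.cons 203 (.leaf 298 1621 (.cons 179 (.leaf 202 1429 (.leaf 155 1238 .nil)) .nil)) (.cons 298 (.leaf 203 1621 (.cons 225 (.leaf 201 1615 (.cons 249 (.leaf 322 1807 (.cons 248 (.leaf 247 1976 (.leaf 228 1794 .nil)) .nil)) .nil)) .nil)) .nil)))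
noncomputable def t45 : T := .cons 202 (.leaf 299 1620 (.cons 203 (.leaf 179 1429 (.leaf 298 1621 .nil)) .nil)) (.cons 299 (.leaf 202 1620 (.cons 323 (.leaf 347 2007 (.leaf 298 1812 .nil)) .nil)) (.cons 203 (.leaf 298 1621 (.cons 179 (.leaf 202 1429 (.leaf 155 1238 .nil)) .nil)) (.cons 298 (.leaf 203 1621 (.cons 322 (.cons 345 (.leaf 321 1998 (.cons 346 (.leaf 369 2190 (.cons 347 (.leaf 323 2004 (.leaf 371 2196 .nil)) .nil)) .nil)) (.cons 345 (.leaf 321 1998 (.cons 346 (.leaf 369 2190 (.cons 370 (.leaf 299 2197 (.cons 371 (.leaf 347 2196 (.leaf 395 2388 .nil)) .nil)) .nil)) .nil)) (.cons 299 (.leaf 323 1812 (.cons 345 (.leaf 321 1998 (.cons 346 (.leaf 370 2197 (.leaf 369 2190 .nil)) .nil)) .nil)) (.cons 323 (.leaf 299 1812 (.leaf 347 2004 .nil)) .nil)))) .nil)) (.cons 202 (.leaf 299 1620 (.cons 178 (.cons 153 (.leaf 177 1231 (.cons 154 (.leaf 129 1039 (.cons 179 (.leaf 203 1429 (.leaf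 155 1237 .nil)) .nil)) .nil)) (.cons 153 (.leaf 177 1231 (.cons 154 (.leaf 129 1039 (.cons 249 (.leaf 225 1230 (.cons 247 (.leaf 248 1976 (.cons 130 (.leaf 203 1044 (.cons 131 (.leaf 155 1045 (.leaf 107 853 .nil)) .nil)) .nil)) .nil)) .nil)) .nil)) (.cons 153 (.leaf 177 1231 (.cons 154 (.leaf 129 1039 (.cons 155 (.leaf 131 1045 (.leaf 179 1237 .nil)) .nil)) .nil)) (.cons 153 (.leaf 177 1231 (.cons 154 (.leaf 129 1039 (.cons 203 (.leaf 179 1429 (.leaf 130 1044 .nil)) .nil)) .nil)) (.cons 179 (.leaf 203 1429 (.leaf 155 1237 .nil)) .nil))))) .nil)) .nil))))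
noncomputable def t46 : T := .cons 225 (.cons 201 (.leaf 298 1615 (.cons 177 (.leaf 202 1423 (.leaf 249 1420 .nil)) .nil)) (.cons 228 (.cons 249 (.leaf 248 1794 (.leaf 229 1802 .nil)) (.cons 202 (.leaf 299 1620 (.cons 205 (.leaf 204 1609 (.cons 229 (.leaf 206 1617 (.cons 253 (.leaf 252 1800 (.leaf 254 1808 .nil)) .nil)) .nil)) .nil)) (.cons 202 (.leaf 299 1620 (.cons 204 (.leaf 205 1609 (.cons 248 (.leaf 249 1794 (.cons 224 (.leaf 247 1786 (.cons 199 (.leaf 200 1595 (.cons 223 (.leaf 296 1599 (.leaf 198 1587 .nil)) .nil)) .nil)) .nil)) .nil)) .nil)) .nil))) (.cons 201 (.leaf 298 1615 (.cons 153 (.leaf 177 1228 (.cons 200 (.leaf 228 1603 (.cons 199 (.leaf 202 1592 (.leaf 224 1595 .nil)) .nil)) .nil)) .nil)) (.cons 201 (.leaf 298 1615 (.cons 177 (.leaf 249 1420 (.leaf 153 1228 .nil)) .nil)) .nil)))) (.cons 225 (.cons 201 (.leaf 298 1615 (.cons 177 (.leaf 202 1423 (.leaf 249 1420 .nil))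 .nil)) (.cons 228 (.cons 249 (.leaf 248 1794 (.leaf 229 1802 .nil)) (.cons 253 (.leaf 252 1800 (.cons 205 (.leaf 204 1609 (.cons 229 (.leaf 206 1617 (.leaf 254 1808 .nil)) .nil)) .nil)) (.cons 248 (.leaf 249 1794 (.cons 204 (.leaf 205 1609 (.cons 224 (.leaf 247 1786 (.cons 199 (.leaf 200 1595 (.cons 223 (.leaf 296 1599 (.leaf 198 1587 .nil)) .nil)) .nil)) .nil)) .nil)) .nil))) (.cons 201 (.leaf 298 1615 (.cons 153 (.leaf 177 1228 (.cons 200 (.leaf 228 1603 (.cons 199 (.leaf 202 1592 (.leaf 224 1595 .nil)) .nil)) .nil)) .nil)) .nil))) (.cons 225 (.cons 201 (.leaf 298 1615 (.cons 177 (.leaf 249 1420 (.leaf 153 1228 .nil)) .nil)) (.cons 228 (.cons 253 (.leaf 252 1800 (.cons 205 (.leaf 204 1609 (.cons 229 (.leaf 206 1617 (.leaf 249 1802 .nil)) .nil)) .nil)) (.cons 253 (.leaf 252 1800 (.cons 205 (.leaf 204 1609 (.cons 229 (.leaf 206 1617 (.leaf 254 1808 .nil)) .nil)) .nil)) (.cons 248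 (.leaf 249 1794 (.cons 204 (.leaf 205 1609 (.cons 224 (.leaf 247 1786 (.cons 199 (.leaf 200 1595 (.cons 223 (.leaf 296 1599 (.leaf 198 1587 .nil)) .nil)) .nil)) .nil)) .nil)) (.cons 249 (.leaf 248 1794 (.leaf 229 1802 .nil)) .nil)))) (.cons 201 (.leaf 298 1615 (.cons 153 (.leaf 177 1228 (.cons 200 (.leaf 228 1603 (.cons 199 (.leaf 224 1595 (.leaf 198 1584 .nil)) .nil)) .nil)) .nil)) .nil))) (.cons 202 (.leaf 299 1620 (.cons 201 (.leaf 177 1423 (.cons 200 (.leaf 199 1592 (.cons 228 (.leaf 225 1603 (.leaf 229 1611 .nil)) .nil)) .nil)) .nil)) (.cons 299 (.leaf 202 1620 (.cons 323 (.leaf 347 2007 (.leaf 298 1812 .nil)) .nil)) .nil))))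
noncomputable def t47 : T := .cons 250 (.leaf 249 1802 (.cons 253 (.leaf 254 1808 (.cons 225 (.leaf 252 1800 (.cons 201 (.leaf 298 1615 (.leaf 200 1603 .nil)) .nil)) .nil)) .nil)) (.cons 253 (.leaf 254 1808 (.cons 225 (.leaf 252 1800 (.cons 200 (.leaf 201 1603 (.cons 224 (.leaf 199 1595 (.cons 248 (.leaf 247 1786 (.leaf 249 1794 .nil)) .nil)) .nil)) .nil)) .nil)) (.cons 250 (.leaf 249 1802 (.cons 298 (.leaf 203 1621 (.cons 225 (.leaf 201 1615 (.cons 206 (.leaf 205 1617 (.cons 230 (.leaf 207 1625 (.cons 255 (.leaf 254 1816 (.cons 322 (.cons 231 (.leaf 256 1824 (.cons 323 (.leaf 299 1812 (.leaf 347 2004 .nil)) .nil)) (.cons 345 (.leaf 321 1998 (.cons 346 (.leaf 369 2190 (.cons 370 (.leaf 299 2197 (.cons 371 (.leaf 347 2196 (.leaf 395 2388 .nil)) .nil)) .nil)) .nil)) (.cons 231 (.leaf 256 1824 (.cons 345 (.leaf 321 1998 (.cons 346 (.leaf 369 2190 (.cons 347 (.leaf 323 2004 (.leaf 371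 2196 .nil)) .nil)) .nil)) .nil)) (.cons 231 (.leaf 256 1824 (.cons 299 (.leaf 323 1812 (.cons 345 (.leaf 321 1998 (.cons 346 (.leaf 370 2197 (.leaf 369 2190 .nil)) .nil)) .nil)) .nil)) .nil)))) .nil)) .nil)) .nil)) .nil)) .nil)) .nil)) (.cons 250 (.leaf 249 1802 (.cons 298 (.leaf 203 1621 (.cons 225 (.leaf 201 1615 (.cons 323 (.leaf 299 1812 (.cons 322 (.leaf 347 2004 (.cons 206 (.leaf 205 1617 (.cons 321 (.leaf 345 1998 (.cons 301 (.cons 230 (.leaf 207 1625 (.cons 253 (.leaf 252 1800 (.leaf 277 1645 .nil)) .nil)) (.cons 324 (.leaf 300 2377 (.cons 325 (.leaf 302 2385 (.cons 349 (.leaf 348 2568 (.leaf 350 2576 .nil)) .nil)) .nil)) .nil)) .nil)) .nil)) .nil)) .nil)) .nil)) .nil)) .nil)) (.cons 254 (.leaf 253 1808 (.cons 206 (.leaf 205 1617 (.cons 230 (.leaf 207 1625 (.leaf 255 1816 .nil)) .nil)) .nil)) .nil))))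
noncomputable def t48 : T := .cons 298 (.leaf 203 1621 (.cons 225 (.leaf 201 1615 (.cons 253 (.leaf 252 1800 (.cons 229 (.leaf 249 1802 (.leaf 254 1808 .nil)) .nil)) .nil)) .nil)) (.cons 298 (.leaf 203 1621 (.cons 225 (.leaf 201 1615 (.cons 253 (.leaf 252 1800 (.cons 229 (.leaf 254 1808 (.cons 322 (.cons 299 (.leaf 323 1812 (.cons 345 (.leaf 321 1998 (.cons 346 (.leaf 370 2197 (.leaf 369 2190 .nil)) .nil)) .nil)) (.cons 345 (.leaf 321 1998 (.cons 346 (.leaf 369 2190 (.cons 370 (.leaf 299 2197 (.cons 371 (.leaf 347 2196 (.leaf 395 2388 .nil)) .nil)) .nil)) .nil)) (.cons 345 (.leaf 321 1998 (.cons 346 (.leaf 369 2190 (.cons 347 (.leaf 323 2004 (.leaf 371 2196 .nil)) .nil)) .nil)) (.cons 323 (.leaf 299 1812 (.leaf 347 2004 .nil)) .nil)))) .nil)) .nil)) .nil)) .nil)) (.cons 249 (.leaf 229 1802 (.cons 248 (.leaf 247 1976 (.leaf 225 1794 .nil)) .nil)) (.cons 229 (.leaf 249 1802 (.cons 203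 (.leaf 298 1621 (.cons 155 (.leaf 179 1238 (.cons 254 (.leaf 253 1808 (.cons 230 (.leaf 255 1816 (.cons 207 (.leaf 206 1625 (.cons 231 (.leaf 204 1627 (.leaf 208 1633 .nil)) .nil)) .nil)) .nil)) .nil)) .nil)) .nil)) (.cons 298 (.leaf 203 1621 (.cons 225 (.leaf 201 1615 (.cons 249 (.leaf 322 1807 (.leaf 248 1794 .nil)) .nil)) .nil)) .nil))))
noncomputable def t49 : T := .cons 250 (.leaf 249 1802 (.cons 254 (.leaf 253 1808 (.cons 298 (.leaf 203 1621 (.cons 230 (.leaf 255 1816 (.cons 322 (.cons 299 (.leaf 323 1812 (.cons 345 (.leaf 321 1998 (.cons 346 (.leaf 370 2197 (.leaf 369 2190 .nil)) .nil)) .nil)) (.cons 345 (.leaf 321 1998 (.cons 346 (.leaf 369 2190 (.cons 370 (.leaf 299 2197 (.cons 371 (.leaf 347 2196 (.leaf 395 2388 .nil)) .nil)) .nil)) .nil)) (.cons 345 (.leaf 321 1998 (.cons 346 (.leaf 369 2190 (.cons 347 (.leaf 323 2004 (.leaf 371 2196 .nil)) .nil)) .nil)) (.cons 206 (.leaf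 205 1617 (.leaf 207 1625 .nil)) .nil)))) .nil)) .nil)) .nil)) .nil)) (.cons 250 (.leaf 249 1802 (.cons 254 (.leaf 253 1808 (.cons 298 (.leaf 203 1621 (.cons 230 (.leaf 255 1816 (.cons 322 (.cons 299 (.leaf 323 1812 (.cons 345 (.leaf 321 1998 (.cons 346 (.leaf 370 2197 (.leaf 369 2190 .nil)) .nil)) .nil)) (.cons 345 (.leaf 321 1998 (.cons 346 (.leaf 369 2190 (.cons 370 (.leaf 299 2197 (.cons 371 (.leaf 347 2196 (.leaf 395 2388 .nil)) .nil)) .nil)) .nil)) (.cons 345 (.leaf 321 1998 (.cons 346 (.leaf 369 2190 (.cons 347 (.leaf 323 2004 (.leaf 371 2196 .nil)) .nil)) .nil)) (.cons 323 (.leaf 299 1812 (.leaf 347 2004 .nil)) .nil)))) .nil)) .nil)) .nil)) .nil)) (.cons 206 (.leaf 205 1617 (.cons 230 (.leaf 207 1625 (.cons 254 (.leaf 253 1808 (.leaf 255 1816 .nil)) .nil)) .nil)) (.cons 250 (.leaf 249 1802 (.cons 206 (.leaf 205 1617 (.cons 298 (.leaf 203 1621 (.cons 230 (.leaf 207 1625 (.cons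 322 (.cons 299 (.leaf 323 1812 (.cons 345 (.leaf 321 1998 (.cons 346 (.leaf 370 2197 (.leaf 369 2190 .nil)) .nil)) .nil)) (.cons 345 (.leaf 321 1998 (.cons 346 (.leaf 369 2190 (.cons 370 (.leaf 299 2197 (.cons 371 (.leaf 347 2196 (.leaf 395 2388 .nil)) .nil)) .nil)) .nil)) (.cons 345 (.leaf 321 1998 (.cons 346 (.leaf 369 2190 (.cons 347 (.leaf 323 2004 (.leaf 371 2196 .nil)) .nil)) .nil)) (.cons 323 (.leaf 299 1812 (.leaf 347 2004 .nil)) .nil)))) .nil)) .nil)) .nil)) .nil)) (.cons 250 (.leaf 249 1802 (.cons 203 (.leaf 298 1621 (.cons 205 (.leaf 206 1617 (.cons 179 (.leaf 155 1238 (.cons 253 (.leaf 254 1808 (.cons 181 (.cons 156 (.leaf 180 1255 (.cons 157 (.leaf 252 1254 (.leaf 132 1063 .nil)) .nil)) (.cons 157 (.leaf 252 1254 (.cons 158 (.leaf 134 1069 (.leaf 182 1261 .nil)) .nil)) (.cons 180 (.leaf 156 1255 (.cons 182 (.leaf 158 1261 (.cons 204 (.leaf 277 1447 (.leaf 183 1434 .nil))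 .nil)) .nil)) .nil))) .nil)) .nil)) .nil)) .nil)) .nil)) .nil))))
noncomputable def t50 : T := .cons 229 (.cons 254 (.leaf 253 1808 (.cons 206 (.leaf 205 1617 (.cons 230 (.leaf 207 1625 (.leaf 255 1816 .nil)) .nil)) .nil)) (.cons 253 (.leaf 254 1808 (.cons 225 (.leaf 252 1800 (.cons 200 (.leaf 201 1603 (.cons 224 (.leaf 199 1595 (.cons 248 (.leaf 247 1786 (.leaf 249 1794 .nil)) .nil)) .nil)) .nil)) .nil)) (.cons 250 (.leaf 249 1802 (.cons 203 (.leaf 298 1621 (.cons 155 (.leaf 179 1238 (.cons 206 (.leaf 205 1617 (.cons 230 (.leaf 207 1625 (.cons 231 (.leaf 204 1627 (.cons 255 (.leaf 254 1816 (.leaf 256 1824 .nil)) .nil)) .nil)) .nil)) .nil)) .nil)) .nil)) (.cons 250 (.leaf 249 1802 (.cons 205 (.leaf 206 1617 (.cons 225 (.leaf 204 1609 (.cons 201 (.leaf 298 1615 (.leaf 200 1603 .nil)) .nil)) .nil)) .nil)) .nil)))) (.cons 229 t49 (.cons 225 (.cons 204 (.leaf 205 1609 (.cons 248 (.leaf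 249 1794 (.cons 224 (.leaf 203 1601 (.leaf 247 1786 .nil)) .nil)) .nil)) (.cons 201 (.leaf 200 1603 (.cons 204 (.leaf 205 1609 (.cons 203 (.leaf 224 1601 (.cons 250 (.leaf 298 1621 (.cons 177 (.leaf 249 1420 (.leaf 153 1228 .nil)) .nil)) .nil)) .nil)) .nil)) (.cons 248 (.leaf 249 1794 (.cons 224 (.leaf 247 1786 (.cons 199 (.leaf 200 1595 (.cons 223 (.leaf 296 1599 (.leaf 198 1587 .nil)) .nil)) .nil)) .nil)) (.cons 201 (.leaf 200 1603 (.cons 204 (.leaf 205 1609 (.cons 224 (.leaf 203 1601 (.cons 248 (.leaf 296 1605 (.leaf 247 1786 .nil)) .nil)) .nil)) .nil)) (.cons 201 (.leaf 200 1603 (.cons 204 (.leaf 205 1609 (.cons 249 (.leaf 248 1794 (.cons 250 (.leaf 177 1420 (.leaf 298 1615 .nil)) .nil)) .nil)) .nil)) .nil))))) (.cons 225 (.cons 200 (.leaf 201 1603 (.cons 204 (.leaf 205 1609 (.cons 224 (.leaf 199 1595 (.leaf 203 1601 .nil)) .nil)) .nil)) (.cons 248 (.leaf 249 1794 (.cons 224 (.leaf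 247 1786 (.cons 199 (.leaf 200 1595 (.cons 223 (.leaf 296 1599 (.leaf 198 1587 .nil)) .nil)) .nil)) .nil)) (.cons 204 (.leaf 205 1609 (.cons 224 (.leaf 203 1601 (.cons 248 (.leaf 247 1786 (.leaf 249 1794 .nil)) .nil)) .nil)) (.cons 200 (.leaf 201 1603 (.cons 205 (.leaf 204 1609 (.cons 229 (.leaf 206 1617 (.cons 253 (.leaf 252 1800 (.leaf 254 1808 .nil)) .nil)) .nil)) .nil)) .nil)))) (.cons 250 t48 (.cons 253 (.cons 225 (.leaf 252 1800 (.cons 200 (.leaf 201 1603 (.cons 204 (.leaf 205 1609 (.cons 224 (.leaf 199 1595 (.leaf 203 1601 .nil)) .nil)) .nil)) .nil)) (.cons 229 (.leaf 254 1808 (.cons 205 (.leaf 206 1617 (.cons 180 (.cons 156 (.leaf 204 1252 (.leaf 181 1255 .nil)) (.cons 181 (.leaf 156 1255 (.cons 157 (.leaf 252 1254 (.cons 158 (.leaf 182 1261 (.leaf 134 1069 .nil)) .nil)) .nil)) (.cons 277 (.leaf 204 1447 (.cons 302 (.leaf 278 1644 (.cons 301 (.leaf 326 1836 (.cons 300 (.leaf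 299 2195 (.leaf 324 1830 .nil)) .nil)) .nil)) .nil)) .nil))) .nil)) .nil)) (.cons 229 (.leaf 254 1808 (.cons 205 (.leaf 206 1617 (.cons 204 (.leaf 225 1609 (.cons 180 (.leaf 156 1252 (.leaf 277 1447 .nil)) .nil)) .nil)) .nil)) (.cons 252 (.leaf 225 1800 (.cons 254 (.leaf 229 1808 (.leaf 255 1819 .nil)) .nil)) .nil)))) (.cons 229 t47 (.cons 225 (.cons 248 (.leaf 249 1794 (.cons 224 (.leaf 247 1786 (.cons 199 (.leaf 200 1595 (.cons 223 (.leaf 296 1599 (.leaf 198 1587 .nil)) .nil)) .nil)) .nil)) (.cons 200 (.leaf 201 1603 (.cons 205 (.leaf 204 1609 (.cons 229 (.leaf 206 1617 (.cons 253 (.leaf 252 1800 (.leaf 254 1808 .nil)) .nil)) .nil)) .nil)) (.cons 204 (.leaf 205 1609 (.cons 249 (.leaf 248 1794 (.cons 229 (.leaf 250 1802 (.cons 253 (.leaf 252 1800 (.leaf 254 1808 .nil)) .nil)) .nil)) .nil)) .nil))) .nil)))))))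
noncomputable def t51 : T := .cons 201 (.leaf 200 1603 (.cons 249 (.leaf 248 1794 (.cons 204 (.leaf 205 1609 (.cons 177 (.cons 152 (.leaf 176 1223 (.cons 153 (.leaf 128 1031 (.cons 154 (.leaf 130 1037 (.leaf 178 1229 .nil)) .nil)) .nil)) (.cons 152 (.leaf 176 1223 (.cons 128 (.leaf 153 1031 (.cons 229 (.leaf 202 1611 (.cons 253 (.leaf 252 1800 (.leaf 254 1808 .nil)) .nil)) .nil)) .nil)) (.cons 154 (.leaf 178 1229 (.cons 153 (.leaf 130 1037 (.cons 128 (.leaf 152 1031 (.cons 129 (.leaf 202 1036 (.leaf 104 839 .nil)) .nil)) .nil)) .nil)) (.cons 154 (.leaf 178 1229 (.cons 153 (.leaf 130 1037 (.cons 129 (.leaf 202 1036 (.cons 128 (.leaf 104 839 (.cons 155 (.leaf 156 1027 (.cons 252 (.leaf 253 1800 (.cons 179 (.leaf 203 1244 (.leaf 180 1247 .nil)) .nil)) .nil)) .nil)) .nil)) .nil)) .nil)) (.cons 152 (.leaf 176 1223 (.cons 154 (.leaf 178 1229 (.cons 229 (.leaf 202 1611 (.cons 253 (.leaf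 252 1800 (.leaf 254 1808 .nil)) .nil)) .nil)) .nil)) .nil))))) .nil)) .nil)) .nil)) (.cons 205 (.leaf 204 1609 (.cons 229 (.leaf 206 1617 (.cons 253 (.leaf 252 1800 (.leaf 254 1808 .nil)) .nil)) .nil)) (.cons 201 (.leaf 200 1603 (.cons 229 (.leaf 202 1611 (.cons 253 (.leaf 252 1800 (.leaf 254 1808 .nil)) .nil)) .nil)) (.cons 201 (.leaf 200 1603 (.cons 205 (.leaf 204 1609 (.cons 229 (.leaf 202 1611 (.leaf 206 1617 .nil)) .nil)) .nil)) (.cons 201 (.leaf 200 1603 (.cons 249 (.leaf 248 1794 (.cons 204 (.leaf 205 1609 (.cons 177 (.cons 154 (.leaf 178 1229 (.cons 153 (.leaf 130 1037 (.cons 128 (.leaf 152 1031 (.cons 129 (.leaf 202 1036 (.leaf 104 839 .nil)) .nil)) .nil)) .nil)) (.cons 176 (.leaf 152 1223 (.cons 203 (.leaf 202 1411 (.cons 179 (.leaf 178 1408 (.cons 155 (.leaf 252 1244 (.leaf 131 1052 .nil)) .nil)) .nil)) .nil)) (.cons 152 (.leaf 176 1223 (.cons 153 (.leaf 128 1031 (.cons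 129 (.leaf 202 1036 (.cons 130 (.leaf 154 1037 (.leaf 106 845 .nil)) .nil)) .nil)) .nil)) (.cons 154 (.leaf 178 1229 (.cons 153 (.leaf 130 1037 (.cons 129 (.leaf 202 1036 (.cons 128 (.leaf 104 839 (.cons 155 (.leaf 156 1027 (.cons 252 (.leaf 253 1800 (.cons 179 (.leaf 203 1244 (.leaf 180 1247 .nil)) .nil)) .nil)) .nil)) .nil)) .nil)) .nil)) (.cons 154 (.leaf 178 1229 (.cons 152 (.leaf 176 1223 (.cons 153 (.leaf 128 1031 (.leaf 130 1037 .nil)) .nil)) .nil)) .nil))))) .nil)) .nil)) .nil)) .nil))))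
noncomputable def t52 : T := .cons 228 (.cons 205 (.leaf 204 1609 (.cons 229 (.leaf 206 1617 (.cons 253 (.leaf 252 1800 (.leaf 254 1808 .nil)) .nil)) .nil)) (.cons 248 (.leaf 249 1794 (.cons 224 (.leaf 247 1786 (.cons 199 (.leaf 200 1595 (.cons 223 (.leaf 296 1599 (.leaf 198 1587 .nil)) .nil)) .nil)) .nil)) .nil)) (.cons 224 (.cons 199 (.leaf 200 1595 (.cons 203 (.leaf 204 1601 (.cons 223 (.leaf 198 1587 (.leaf 202 1593 .nil)) .nil)) .nil)) (.cons 203 (.leaf 204 1601 (.cons 202 (.leaf 223 1593 (.cons 248 (.leaf 247 1786 (.cons 201 (.leaf 296 1605 (.cons 177 (.leaf 200 1413 (.leaf 249 1414 .nil)) .nil)) .nil)) .nil)) .nil)) (.cons 203 (.leaf 204 1601 (.cons 202 (.leaf 223 1593 (.cons 248 (.leaf 247 1786 (.cons 201 (.leaf 296 1605 (.cons 177 (.leaf 249 1414 (.leaf 153 1222 .nil)) .nil)) .nil)) .nil)) .nil)) (.cons 199 (.leaf 200 1595 (.cons 198 (.leaf 223 1587 (.cons 248 (.leaf 247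 1786 (.cons 201 (.leaf 296 1605 (.cons 177 (.leaf 249 1414 (.leaf 153 1222 .nil)) .nil)) .nil)) .nil)) .nil)) (.cons 199 (.leaf 200 1595 (.cons 203 (.leaf 204 1601 (.cons 248 (.leaf 247 1786 (.cons 201 (.leaf 296 1605 (.cons 177 (.leaf 249 1414 (.leaf 153 1222 .nil)) .nil)) .nil)) .nil)) .nil)) .nil))))) (.cons 228 t51 (.cons 228 (.cons 200 (.leaf 201 1603 (.cons 204 (.leaf 205 1609 (.cons 224 (.leaf 199 1595 (.leaf 203 1601 .nil)) .nil)) .nil)) (.cons 201 (.leaf 200 1603 (.cons 229 (.leaf 202 1611 (.cons 253 (.leaf 252 1800 (.leaf 254 1808 .nil)) .nil)) .nil)) (.cons 204 (.leaf 205 1609 (.cons 203 (.leaf 224 1601 (.cons 253 (.leaf 252 1800 (.cons 229 (.leaf 254 1808 (.cons 230 (.leaf 202 1619 (.leaf 231 1627 .nil)) .nil)) .nil)) .nil)) .nil)) .nil))) (.cons 228 (.cons 204 (.leaf 205 1609 (.cons 203 (.leaf 224 1601 (.cons 253 (.leaf 252 1800 (.cons 229 (.leaf 254 1808 (.cons 202 (.leaf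 201 1608 (.leaf 230 1619 .nil)) .nil)) .nil)) .nil)) .nil)) (.cons 248 (.leaf 249 1794 (.cons 224 (.leaf 247 1786 (.cons 201 (.leaf 296 1605 (.cons 153 (.leaf 177 1222 (.cons 202 (.leaf 229 1611 (.cons 223 (.leaf 203 1593 (.leaf 222 1585 .nil)) .nil)) .nil)) .nil)) .nil)) .nil)) (.cons 204 (.leaf 205 1609 (.cons 224 (.leaf 203 1601 (.cons 248 (.leaf 247 1786 (.leaf 249 1794 .nil)) .nil)) .nil)) (.cons 205 (.leaf 204 1609 (.cons 229 (.leaf 206 1617 (.cons 253 (.leaf 252 1800 (.leaf 254 1808 .nil)) .nil)) .nil)) .nil)))) (.cons 228 (.cons 201 (.leaf 200 1603 (.cons 229 (.leaf 202 1611 (.cons 253 (.leaf 252 1800 (.leaf 254 1808 .nil)) .nil)) .nil)) (.cons 248 (.leaf 249 1794 (.cons 224 (.leaf 247 1786 (.cons 199 (.leaf 200 1595 (.cons 223 (.leaf 296 1599 (.leaf 198 1587 .nil)) .nil)) .nil)) .nil)) (.cons 248 (.leaf 249 1794 (.cons 224 (.leaf 247 1786 (.cons 201 (.leaf 296 1605 (.cons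 153 (.leaf 177 1222 (.cons 202 (.leaf 229 1611 (.cons 223 (.leaf 203 1593 (.leaf 222 1585 .nil)) .nil)) .nil)) .nil)) .nil)) .nil)) .nil))) .nil)))))
noncomputable def t53 : T := .cons 250 (.cons 299 (.leaf 202 1620 (.cons 323 (.leaf 347 2007 (.leaf 298 1812 .nil)) .nil)) (.cons 298 (.leaf 203 1621 (.cons 225 (.leaf 201 1615 (.cons 249 (.leaf 322 1807 (.cons 248 (.leaf 247 1976 (.leaf 228 1794 .nil)) .nil)) .nil)) .nil)) (.cons 202 (.leaf 299 1620 (.cons 179 (.leaf 203 1429 (.cons 155 (.leaf 178 1237 (.cons 228 (.cons 229 (.leaf 201 1611 (.leaf 249 1802 .nil)) (.cons 249 (.leaf 229 1802 (.cons 248 (.leaf 247 1976 (.leaf 225 1794 .nil)) .nil)) (.cons 201 (.leaf 177 1423 (.cons 200 (.leaf 199 1592 (.leaf 225 1603 .nil)) .nil)) .nil))) .nil)) .nil)) .nil)) .nil))) (.cons 225 t52 (.cons 228 t50 (.cons 250 (.cons 203 (.leaf 298 1621 (.cons 179 (.leaf 202 1429 (.leaf 155 1238 .nil)) .nil))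 (.cons 298 (.leaf 203 1621 (.cons 322 (.cons 345 (.leaf 321 1998 (.cons 346 (.leaf 369 2190 (.cons 347 (.leaf 323 2004 (.leaf 371 2196 .nil)) .nil)) .nil)) (.cons 345 (.leaf 321 1998 (.cons 346 (.leaf 369 2190 (.cons 370 (.leaf 299 2197 (.cons 371 (.leaf 347 2196 (.leaf 395 2388 .nil)) .nil)) .nil)) .nil)) (.cons 299 (.leaf 323 1812 (.cons 345 (.leaf 321 1998 (.cons 346 (.leaf 370 2197 (.leaf 369 2190 .nil)) .nil)) .nil)) (.cons 323 (.leaf 299 1812 (.leaf 347 2004 .nil)) .nil)))) .nil)) (.cons 299 (.leaf 202 1620 (.cons 323 (.leaf 347 2007 (.leaf 298 1812 .nil)) .nil)) (.cons 202 (.leaf 299 1620 (.cons 177 (.leaf 201 1423 (.cons 178 (.leaf 153 1231 (.cons 179 (.leaf 203 1429 (.leaf 155 1237 .nil)) .nil)) .nil)) .nil)) .nil)))) (.cons 250 t46 (.cons 250 t45 (.cons 250 t44 .nil))))))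
noncomputable def t54 : T := .cons 299 (.cons 204 (.leaf 228 1629 (.cons 322 (.leaf 298 1814 (.cons 226 (.leaf 202 1623 (.cons 323 (.leaf 250 1815 (.leaf 346 2006 .nil)) .nil)) .nil)) .nil)) (.cons 204 (.leaf 228 1629 (.cons 180 (.leaf 203 1437 (.cons 324 (.leaf 300 1820 (.cons 323 (.leaf 348 2012 (.cons 346 (.leaf 322 2006 (.cons 347 (.leaf 250 2007 (.leaf 370 2198 .nil)) .nil)) .nil)) .nil)) .nil)) .nil)) (.cons 202 (.leaf 226 1623 (.cons 203 (.leaf 178 1431 (.leaf 298 1622 .nil)) .nil)) .nil))) (.cons 299 (.cons 202 (.leaf 226 1623 (.cons 298 (.leaf 322 1814 (.cons 324 (.leaf 300 1820 (.cons 323 (.leaf 348 2012 (.cons 347 (.leaf 250 2007 (.leaf 371 2199 .nil)) .nil)) .nil)) .nil)) .nil)) (.cons 322 (.leaf 298 1814 (.cons 323 (.leaf 346 2006 (.cons 324 (.leaf 300 1820 (.leaf 348 2012 .nil)) .nil)) .nil)) (.cons 226 (.leaf 202 1623 (.cons 204 (.leaf 228 1629 (.cons 323 (.leaf 250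 1815 (.cons 324 (.leaf 300 1820 (.leaf 348 2012 .nil)) .nil)) .nil)) .nil)) (.cons 226 (.leaf 202 1623 (.cons 228 (.leaf 204 1629 (.cons 298 (.leaf 322 1814 (.cons 300 (.leaf 324 1820 (.cons 301 (.leaf 302 2195 (.cons 277 (.leaf 278 2193 (.cons 325 (.leaf 326 2384 (.cons 253 (.leaf 252 1831 (.cons 254 (.leaf 229 1808 (.leaf 230 1837 .nil)) .nil)) .nil)) .nil)) .nil)) .nil)) .nil)) .nil)) .nil)) (.cons 322 (.leaf 298 1814 (.cons 204 (.leaf 228 1629 (.cons 226 (.leaf 202 1623 (.cons 323 (.leaf 250 1815 (.leaf 346 2006 .nil)) .nil)) .nil)) .nil)) .nil))))) (.cons 299 (.cons 204 (.leaf 228 1629 (.cons 180 (.leaf 203 1437 (.cons 324 (.leaf 300 1820 (.cons 323 (.leaf 348 2012 (.cons 346 (.leaf 322 2006 (.cons 347 (.leaf 250 2007 (.leaf 370 2198 .nil)) .nil)) .nil)) .nil)) .nil)) .nil)) (.cons 202 (.leaf 226 1623 (.cons 178 (.leaf 203 1431 (.cons 324 (.leaf 300 1820 (.cons 323 (.leaf 348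 2012 (.cons 346 (.leaf 322 2006 (.cons 347 (.leaf 250 2007 (.leaf 370 2198 .nil)) .nil)) .nil)) .nil)) .nil)) .nil)) (.cons 202 (.leaf 226 1623 (.cons 203 (.leaf 178 1431 (.cons 204 (.leaf 180 1437 (.leaf 228 1629 .nil)) .nil)) .nil)) (.cons 226 (.leaf 202 1623 (.cons 204 (.leaf 228 1629 (.cons 323 (.leaf 250 1815 (.cons 324 (.leaf 300 1820 (.leaf 348 2012 .nil)) .nil)) .nil)) .nil)) .nil)))) (.cons 203 (.leaf 298 1622 (.cons 179 (.leaf 250 1430 (.cons 154 (.leaf 178 1239 (.cons 155 (.leaf 130 1047 (.cons 156 (.leaf 132 1053 (.leaf 180 1245 .nil)) .nil)) .nil)) .nil)) .nil)) (.cons 203 (.leaf 298 1622 (.cons 202 (.leaf 178 1431 (.cons 204 (.leaf 180 1437 (.cons 226 (.leaf 299 1623 (.cons 205 (.leaf 206 1618 (.leaf 225 1610 .nil)) .nil)) .nil)) .nil)) .nil)) .nil))))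
noncomputable def t55 : T := .cons 251 t54 (.cons 226 t53 (.cons 226 t43 (.cons 251 (.cons 203 (.leaf 298 1622 (.cons 178 (.leaf 202 1431 (.cons 179 (.leaf 154 1239 (.cons 180 (.leaf 204 1437 (.leaf 156 1245 .nil)) .nil)) .nil)) .nil)) (.cons 299 (.cons 226 (.leaf 202 1623 (.cons 322 (.leaf 298 1814 (.cons 323 (.leaf 346 2006 (.cons 228 (.leaf 204 1629 (.leaf 252 1821 .nil)) .nil)) .nil)) .nil)) (.cons 228 (.leaf 204 1629 (.cons 323 (.leaf 252 1821 (.cons 324 (.leaf 300 1820 (.leaf 348 2012 .nil)) .nil)) .nil)) (.cons 322 (.leaf 298 1814 (.cons 323 (.leaf 346 2006 (.cons 324 (.leaf 300 1820 (.leaf 348 2012 .nil)) .nil)) .nil)) (.cons 226 (.leaf 202 1623 (.cons 228 (.leaf 204 1629 (.cons 298 (.leaf 322 1814 (.cons 300 (.leaf 324 1820 (.cons 301 (.leaf 302 2195 (.cons 277 (.leaf 278 2193 (.cons 325 (.leaf 326 2384 (.cons 253 (.leaf 252 1831 (.cons 254 (.leaf 229 1808 (.leaf 230 1837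 .nil)) .nil)) .nil)) .nil)) .nil)) .nil)) .nil)) .nil)) .nil)) .nil)))) (.cons 202 t36 (.cons 298 (.leaf 203 1622 (.cons 322 (.leaf 299 1814 (.leaf 346 2005 .nil)) .nil)) .nil)))) (.cons 251 t35 (.cons 226 (t30) (.cons 251 t18 (.cons 251 t16 (.cons 226 t15 (.cons 251 t12 (.cons 251 (.cons 202 (.cons 299 (.leaf 226 1623 (.cons 324 (.leaf 300 1820 (.cons 323 (.leaf 348 2012 (.cons 346 (.leaf 322 2006 (.cons 347 (.leaf 250 2007 (.leaf 370 2198 .nil)) .nil)) .nil)) .nil)) .nil)) (.cons 203 (.leaf 178 1431 (.leaf 298 1622 .nil)) .nil)) (.cons 202 t11 (.cons 299 t10 (.cons 298 (.leaf 203 1622 (.cons 322 (.leaf 299 1814 (.leaf 346 2005 .nil)) .nil)) (.cons 203 (.leaf 298 1622 (.cons 178 (.leaf 202 1431 (.cons 179 (.leaf 250 1430 (.leaf 154 1239 .nil)) .nil)) .nil)) .nil))))) (.cons 251 t9 (.cons 251 t7 (.cons 251 t5 (.cons 251 t4 .nil))))))))))))))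
noncomputable def t56 : T := .cons 248 (.leaf 247 1979 (.cons 251 (.leaf 252 1985 (.cons 271 (.leaf 250 1977 (.cons 295 (.leaf 296 2170 (.leaf 294 2162 .nil)) .nil)) .nil)) .nil)) (.cons 247 (.leaf 248 1979 (.cons 271 (.leaf 246 1971 (.cons 295 (.leaf 296 2170 (.leaf 294 2162 .nil)) .nil)) .nil)) (.cons 251 (.leaf 252 1985 (.cons 250 (.leaf 271 1977 (.cons 299 (.leaf 300 2176 (.cons 226 (.leaf 202 1620 (.leaf 323 1815 .nil)) .nil)) .nil)) .nil)) (.cons 248 (.leaf 247 1979 (.cons 296 (.leaf 295 2170 (.cons 251 (.leaf 252 1985 (.cons 299 (.leaf 300 2176 (.cons 227 (.cons 202 (.leaf 226 1623 (.cons 322 (.leaf 298 1814 (.cons 203 (.leaf 178 1431 (.cons 204 (.leaf 180 1437 (.leaf 228 1629 .nil)) .nil)) .nil)) .nil)) (.cons 202 (.leaf 226 1623 (.cons 203 (.leaf 178 1431 (.cons 204 (.leaf 180 1437 (.leaf 228 1629 .nil)) .nil)) .nil)) (.cons 226 (.leaf 202 1623 (.cons 228 (.leaf 204 1629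 (.cons 225 (.leaf 249 1794 (.cons 201 (.leaf 224 1605 (.leaf 200 1603 .nil)) .nil)) .nil)) .nil)) (.cons 298 (.leaf 203 1622 (.leaf 322 1814 .nil)) .nil)))) .nil)) .nil)) .nil)) .nil)) .nil)))
noncomputable def t57 : T := .cons 199 (.leaf 223 1599 (.cons 175 (.leaf 200 1407 (.cons 321 (.leaf 297 1796 (.cons 320 (.leaf 345 1988 (.cons 249 (.leaf 225 1797 (.cons 273 (.leaf 344 1989 (.cons 274 (.leaf 247 1979 (.leaf 295 2170 .nil)) .nil)) .nil)) .nil)) .nil)) .nil)) .nil)) (.cons 223 (.leaf 199 1599 (.cons 247 (.leaf 320 1791 (.cons 273 (.leaf 274 1979 (.cons 200 (.leaf 297 1604 (.cons 176 (.leaf 271 1406 (.leaf 249 1412 .nil)) .nil)) .nil)) .nil)) .nil)) (.cons 225 (.leaf 201 1605 (.cons 249 (.leaf 320 1797 (.cons 297 (.leaf 321 1796 (.cons 200 (.leaf 273 1604 (.cons 175 (.leaf 199 1407 (.cons 176 (.leaf 151 1215 (.leaf 152 1220 .nil)) .nil)) .nil)) .nil)) .nil)) .nil)) (.cons 225 (.leaf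 201 1605 (.cons 199 (.leaf 223 1599 (.cons 200 (.leaf 175 1407 (.cons 197 (.leaf 198 1576 (.cons 226 (.leaf 227 1595 (.cons 249 (.leaf 320 1797 (.cons 176 (.leaf 273 1412 (.leaf 152 1220 .nil)) .nil)) .nil)) .nil)) .nil)) .nil)) .nil)) (.cons 225 (.leaf 201 1605 (.cons 249 (.leaf 320 1797 (.cons 297 (.leaf 321 1796 (.cons 200 (.leaf 273 1604 (.cons 176 (.leaf 152 1220 (.cons 151 (.leaf 175 1215 (.cons 153 (.leaf 177 1221 (.cons 247 (.leaf 271 1406 (.cons 226 (.leaf 227 1786 (.leaf 246 1777 .nil)) .nil)) .nil)) .nil)) .nil)) .nil)) .nil)) .nil)) .nil)) (.cons 225 (.leaf 201 1605 (.cons 199 (.leaf 223 1599 (.cons 320 (.leaf 249 1797 (.cons 321 (.leaf 297 1796 (.leaf 345 1988 .nil)) .nil)) .nil)) .nil)) (.cons 297 (.leaf 321 1796 (.cons 200 (.leaf 273 1604 (.cons 175 (.leaf 199 1407 (.cons 176 (.leaf 151 1215 (.cons 201 (.leaf 177 1413 (.leaf 225 1605 .nil)) .nil)) .nil)) .nil)) .nil))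 .nil))))))
noncomputable def t58 : T := .cons 223 (.leaf 247 1791 (.cons 199 (.leaf 224 1599 (.cons 343 (.leaf 319 1982 (.cons 344 (.leaf 367 2174 (.cons 273 (.leaf 249 1989 (.cons 368 (.leaf 297 2181 (.cons 369 (.leaf 345 2180 (.leaf 393 2372 .nil)) .nil)) .nil)) .nil)) .nil)) .nil)) .nil)) (.cons 321 (.leaf 345 1988 (.cons 297 (.leaf 224 1796 (.cons 343 (.leaf 319 1982 (.cons 344 (.leaf 367 2174 (.cons 273 (.leaf 249 1989 (.leaf 368 2181 .nil)) .nil)) .nil)) .nil)) .nil)) (.cons 223 (.leaf 247 1791 (.cons 199 (.leaf 224 1599 (.cons 345 (.leaf 321 1988 (.cons 344 (.leaf 369 2180 (.cons 273 (.leaf 249 1989 (.cons 367 (.leaf 343 2174 (.cons 368 (.leaf 297 2181 (.leaf 391 2366 .nil)) .nil)) .nil)) .nil)) .nil)) .nil)) .nil)) (.cons 223 (.leaf 247 1791 (.cons 199 (.leaf 224 1599 (.cons 345 (.leaf 321 1988 (.cons 344 (.leaf 369 2180 (.cons 273 (.leaf 249 1989 (.cons 274 (.leaf 295 2170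 (.cons 251 (.leaf 252 1985 (.cons 250 (.leaf 271 1977 (.cons 299 (.leaf 300 2176 (.cons 226 (.leaf 202 1620 (.leaf 323 1815 .nil)) .nil)) .nil)) .nil)) .nil)) .nil)) .nil)) .nil)) .nil)) .nil)) (.cons 223 (.leaf 247 1791 (.cons 199 (.leaf 224 1599 (.cons 343 (.leaf 319 1982 (.cons 344 (.leaf 367 2174 (.cons 273 (.leaf 249 1989 (.cons 274 (.leaf 295 2170 (.cons 251 (.leaf 252 1985 (.cons 250 (.leaf 271 1977 (.cons 299 (.leaf 300 2176 (.cons 226 (.leaf 202 1620 (.leaf 323 1815 .nil)) .nil)) .nil)) .nil)) .nil)) .nil)) .nil)) .nil)) .nil)) .nil)) (.cons 321 (.leaf 345 1988 (.cons 223 (.leaf 247 1791 (.cons 224 (.leaf 199 1599 (.leaf 297 1796 .nil)) .nil)) .nil)) (.cons 247 (.leaf 223 1791 (.cons 273 (.leaf 274 1979 (.cons 245 (.leaf 246 1960 (.cons 344 (.leaf 271 1983 (.leaf 249 1989 .nil)) .nil)) .nil)) .nil)) .nil))))))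
noncomputable def t59 : T := .cons 247 (.leaf 223 1791 (.cons 225 (.leaf 249 1797 (.cons 344 (.leaf 271 1983 (.cons 343 (.leaf 319 1982 (.leaf 367 2174 .nil)) .nil)) .nil)) .nil)) (.cons 249 (.leaf 225 1797 (.cons 273 (.leaf 344 1989 (.cons 319 (.leaf 343 1982 (.cons 321 (.leaf 345 1988 (.cons 224 (.leaf 297 1796 (.cons 199 (.leaf 223 1599 (.cons 200 (.leaf 175 1407 (.leaf 176 1412 .nil)) .nil)) .nil)) .nil)) .nil)) .nil)) .nil)) (.cons 247 (.leaf 223 1791 (.cons 273 (.leaf 274 1979 (.cons 245 (.leaf 246 1960 (.cons 344 (.leaf 271 1983 (.cons 297 (.leaf 368 2181 (.cons 321 (.leaf 224 1796 (.leaf 345 1988 .nil)) .nil)) .nil)) .nil)) .nil)) .nil)) (.cons 249 (.leaf 225 1797 (.cons 273 (.leaf 344 1989 (.cons 247 (.leaf 274 1979 (.cons 319 (.leaf 343 1982 (.cons 321 (.leaf 345 1988 (.cons 297 (.leaf 224 1796 (.cons 250 (.leaf 226 1805 (.cons 271 (.leaf 251 1978 (.leaf 270 1969 .nil))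 .nil)) .nil)) .nil)) .nil)) .nil)) .nil)) .nil)) (.cons 247 (.leaf 223 1791 (.cons 249 (.leaf 225 1797 (.cons 250 (.leaf 274 1976 (.cons 271 (.leaf 251 1978 (.leaf 270 1970 .nil)) .nil)) .nil)) .nil)) .nil))))
noncomputable def t60 : T := .cons 223 (.leaf 247 1791 (.cons 343 (.leaf 319 1982 (.cons 344 (.leaf 367 2174 (.cons 273 (.leaf 249 1989 (.cons 274 (.leaf 295 2170 (.cons 251 (.leaf 252 1985 (.cons 250 (.leaf 271 1977 (.cons 297 (.leaf 368 2181 (.cons 226 (.leaf 202 1614 (.cons 299 (.leaf 323 1815 (.leaf 300 2176 .nil)) .nil)) .nil)) .nil)) .nil)) .nil)) .nil)) .nil)) .nil)) .nil)) (.cons 249 (.leaf 225 1797 (.cons 273 (.leaf 344 1989 (.cons 274 (.leaf 295 2170 (.cons 251 (.leaf 252 1985 (.cons 250 (.leaf 271 1977 (.cons 227 (.leaf 228 1793 (.cons 179 (.leaf 203 1430 (.cons 299 (.leaf 300 2176 (.cons 226 (.leaf 202 1620 (.leaf 323 1815 .nil)) .nil)) .nil)) .nil)) .nil)) .nil))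 .nil)) .nil)) .nil)) (.cons 247 (.leaf 223 1791 (.cons 273 (.leaf 274 1979 (.cons 245 (.leaf 246 1960 (.cons 344 (.leaf 271 1983 (.cons 345 (.leaf 321 1988 (.leaf 369 2180 .nil)) .nil)) .nil)) .nil)) .nil)) (.cons 247 (.leaf 223 1791 (.cons 249 (.leaf 225 1797 (.cons 250 (.leaf 274 1976 (.cons 271 (.leaf 251 1978 (.leaf 270 1970 .nil)) .nil)) .nil)) .nil)) (.cons 249 (.leaf 225 1797 (.cons 223 (.leaf 247 1791 (.cons 344 (.leaf 273 1989 (.cons 345 (.leaf 321 1988 (.leaf 369 2180 .nil)) .nil)) .nil)) .nil)) .nil))))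
noncomputable def t61 : T := .cons 224 (.cons 223 (.leaf 199 1599 (.cons 225 (.leaf 201 1605 (.cons 295 (.leaf 319 1790 (.cons 273 (.leaf 274 2170 (.cons 294 (.leaf 293 2153 (.cons 297 (.leaf 200 1604 (.leaf 321 1796 .nil)) .nil)) .nil)) .nil)) .nil)) .nil)) (.cons 223 (.leaf 199 1599 (.cons 247 (.leaf 320 1791 (.cons 273 (.leaf 274 1979 (.cons 200 (.leaf 297 1604 (.cons 176 (.leaf 271 1406 (.leaf 249 1412 .nil)) .nil)) .nil)) .nil)) .nil)) (.cons 225 (.leaf 201 1605 (.cons 320 (.leaf 249 1797 (.cons 321 (.leaf 297 1796 (.leaf 345 1988 .nil)) .nil)) .nil)) (.cons 295 (.leaf 319 1790 (.cons 199 (.leaf 223 1599 (.cons 200 (.leaf 175 1407 (.leaf 271 1598 .nil)) .nil)) .nil)) .nil)))) (.cons 224 (.cons 199 (.leaf 223 1599 (.cons 200 (.leaf 175 1407 (.cons 201 (.leaf 177 1413 (.leaf 225 1605 .nil)) .nil)) .nil)) (.cons 201 (.leaf 225 1605 (.cons 200 (.leaf 177 1413 (.cons 295 (.leaf 271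 1598 (.leaf 319 1790 .nil)) .nil)) .nil)) (.cons 295 (.leaf 319 1790 (.cons 200 (.leaf 271 1598 (.cons 273 (.leaf 274 2170 (.leaf 297 1604 .nil)) .nil)) .nil)) (.cons 201 (.leaf 225 1605 (.cons 223 (.leaf 199 1599 (.cons 295 (.leaf 319 1790 (.cons 273 (.leaf 274 2170 (.cons 294 (.leaf 293 2153 (.cons 297 (.leaf 321 1796 (.cons 270 (.leaf 269 2155 (.cons 318 (.leaf 317 2346 (.cons 247 (.leaf 246 1781 (.leaf 271 1782 .nil)) .nil)) .nil)) .nil)) .nil)) .nil)) .nil)) .nil)) .nil)) .nil)))) (.cons 320 t60 (.cons 224 (.cons 199 (.leaf 223 1599 (.cons 200 (.leaf 175 1407 (.cons 201 (.leaf 177 1413 (.leaf 225 1605 .nil)) .nil)) .nil)) (.cons 199 (.leaf 223 1599 (.cons 175 (.leaf 200 1407 (.cons 319 (.leaf 295 1790 (.cons 320 (.leaf 343 1982 (.cons 321 (.leaf 297 1796 (.leaf 345 1988 .nil)) .nil)) .nil)) .nil)) .nil)) (.cons 225 (.leaf 201 1605 (.cons 320 (.leaf 249 1797 (.cons 321 (.leaf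 297 1796 (.leaf 345 1988 .nil)) .nil)) .nil)) .nil))) (.cons 320 t59 (.cons 320 t58 (.cons 224 (.cons 201 (.leaf 225 1605 (.cons 200 (.leaf 177 1413 (.cons 175 (.leaf 199 1407 (.cons 151 (.leaf 176 1215 (.cons 273 (.leaf 297 1604 (.cons 274 (.leaf 247 1979 (.leaf 295 2170 .nil)) .nil)) .nil)) .nil)) .nil)) .nil)) (.cons 225 (.leaf 201 1605 (.cons 199 (.leaf 223 1599 (.cons 200 (.leaf 175 1407 (.cons 197 (.leaf 198 1576 (.cons 226 (.leaf 227 1595 (.cons 249 (.leaf 320 1797 (.cons 273 (.leaf 297 1604 (.leaf 176 1412 .nil)) .nil)) .nil)) .nil)) .nil)) .nil)) .nil)) (.cons 295 (.leaf 319 1790 (.cons 200 (.leaf 271 1598 (.cons 273 (.leaf 274 2170 (.leaf 297 1604 .nil)) .nil)) .nil)) (.cons 199 (.leaf 223 1599 (.cons 225 (.leaf 201 1605 (.cons 319 (.leaf 295 1790 (.cons 320 (.leaf 249 1797 (.leaf 343 1982 .nil)) .nil)) .nil)) .nil)) .nil)))) (.cons 224 t57 (.cons 320 (.cons 225 (.leaf 249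 1797 (.cons 201 (.leaf 224 1605 (.cons 343 (.leaf 319 1982 (.cons 344 (.leaf 367 2174 (.cons 345 (.leaf 321 1988 (.leaf 369 2180 .nil)) .nil)) .nil)) .nil)) .nil)) (.cons 249 (.leaf 225 1797 (.cons 273 (.leaf 344 1989 (.cons 274 (.leaf 247 1979 (.leaf 295 2170 .nil)) .nil)) .nil)) (.cons 321 (.leaf 345 1988 (.cons 297 (.leaf 224 1796 (.cons 343 (.leaf 319 1982 (.cons 344 (.leaf 367 2174 (.cons 368 (.leaf 273 2181 (.leaf 392 2373 .nil)) .nil)) .nil)) .nil)) .nil)) (.cons 321 (.leaf 345 1988 (.cons 224 (.leaf 297 1796 (.cons 225 (.leaf 201 1605 (.leaf 249 1797 .nil)) .nil)) .nil)) .nil)))) (.cons 224 (.cons 295 (.leaf 319 1790 (.cons 199 (.leaf 223 1599 (.cons 200 (.leaf 175 1407 (.leaf 271 1598 .nil)) .nil)) .nil)) (.cons 225 (.leaf 201 1605 (.cons 199 (.leaf 223 1599 (.cons 200 (.leaf 175 1407 (.cons 197 (.leaf 198 1576 (.cons 226 (.leaf 227 1595 (.cons 249 (.leaf 320 1797 (.cons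 176 (.leaf 273 1412 (.leaf 152 1220 .nil)) .nil)) .nil)) .nil)) .nil)) .nil)) .nil)) (.cons 295 (.leaf 319 1790 (.cons 200 (.leaf 271 1598 (.cons 175 (.leaf 199 1407 (.cons 176 (.leaf 151 1215 (.cons 177 (.leaf 201 1413 (.leaf 153 1221 .nil)) .nil)) .nil)) .nil)) .nil)) (.cons 295 (.leaf 319 1790 (.cons 200 (.leaf 271 1598 (.cons 201 (.leaf 177 1413 (.leaf 225 1605 .nil)) .nil)) .nil)) (.cons 225 (.leaf 201 1605 (.cons 199 (.leaf 223 1599 (.cons 319 (.leaf 295 1790 (.cons 320 (.leaf 249 1797 (.leaf 343 1982 .nil)) .nil)) .nil)) .nil)) .nil))))) .nil)))))))))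
noncomputable def t62 : T := .cons 297 (.leaf 321 1796 (.cons 200 (.leaf 273 1604 (.cons 175 (.leaf 199 1407 (.cons 176 (.leaf 151 1215 (.cons 201 (.leaf 177 1413 (.leaf 225 1605 .nil)) .nil)) .nil)) .nil)) .nil)) (.cons 297 (.leaf 321 1796 (.cons 200 (.leaf 273 1604 (.cons 175 (.leaf 199 1407 (.cons 176 (.leaf 151 1215 (.cons 177 (.leaf 201 1413 (.leaf 153 1221 .nil)) .nil)) .nil)) .nil)) .nil)) (.cons 223 (.leaf 199 1599 (.cons 247 (.leaf 320 1791 (.cons 273 (.leaf 274 1979 (.cons 200 (.leaf 297 1604 (.cons 176 (.leaf 249 1412 (.leaf 152 1214 .nil)) .nil)) .nil)) .nil)) .nil)) (.cons 199 (.leaf 223 1599 (.cons 175 (.leaf 200 1407 (.cons 225 (.leaf 201 1605 (.cons 319 (.leaf 295 1790 (.cons 320 (.leaf 249 1797 (.leaf 343 1982 .nil)) .nil)) .nil)) .nil)) .nil)) (.cons 201 (.leaf 225 1605 (.cons 177 (.leaf 200 1413 (.cons 295 (.leaf 319 1790 (.cons 274 (.leaf 273 2170 (.cons 321 (.leaf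 297 1796 (.cons 320 (.leaf 345 1988 (.cons 247 (.leaf 223 1791 (.cons 250 (.leaf 249 1976 (.cons 226 (.leaf 202 1423 (.cons 323 (.leaf 322 2363 (.cons 299 (.leaf 251 1815 (.leaf 347 2007 .nil)) .nil)) .nil)) .nil)) .nil)) .nil)) .nil)) .nil)) .nil)) .nil)) .nil)) (.cons 225 (.leaf 201 1605 (.cons 320 (.leaf 249 1797 (.cons 321 (.leaf 297 1796 (.leaf 345 1988 .nil)) .nil)) .nil)) .nil)))))
noncomputable def t63 : T := .cons 199 (.leaf 223 1599 (.cons 175 (.leaf 200 1407 (.cons 225 (.leaf 201 1605 (.cons 320 (.leaf 249 1797 (.cons 345 (.leaf 321 1988 (.cons 344 (.leaf 369 2180 (.cons 271 (.leaf 247 1983 (.cons 367 (.leaf 343 2174 (.cons 368 (.leaf 295 2175 (.leaf 391 2366 .nil)) .nil)) .nil)) .nil)) .nil)) .nil)) .nil)) .nil)) .nil)) (.cons 225 (.leaf 201 1605 (.cons 320 (.leaf 249 1797 (.cons 321 (.leaf 297 1796 (.leaf 345 1988 .nil)) .nil)) .nil)) (.cons 223 (.leaf 199 1599 (.cons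 320 (.leaf 247 1791 (.cons 297 (.leaf 321 1796 (.cons 273 (.leaf 200 1604 (.cons 344 (.leaf 249 1989 (.leaf 368 2181 .nil)) .nil)) .nil)) .nil)) .nil)) (.cons 223 (.leaf 199 1599 (.cons 201 (.leaf 225 1605 (.cons 200 (.leaf 177 1413 (.cons 202 (.leaf 203 1594 (.cons 221 (.leaf 222 1577 (.cons 247 (.leaf 320 1791 (.cons 271 (.leaf 295 1597 (.leaf 176 1406 .nil)) .nil)) .nil)) .nil)) .nil)) .nil)) .nil)) (.cons 297 (.leaf 321 1796 (.cons 200 (.leaf 273 1604 (.cons 175 (.leaf 199 1407 (.cons 176 (.leaf 151 1215 (.cons 201 (.leaf 177 1413 (.leaf 225 1605 .nil)) .nil)) .nil)) .nil)) .nil)) .nil))))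
noncomputable def t64 : T := .cons 223 (.leaf 247 1791 (.cons 343 (.leaf 319 1982 (.cons 344 (.leaf 367 2174 (.cons 273 (.leaf 249 1989 (.cons 274 (.leaf 295 2170 (.cons 251 (.leaf 252 1985 (.cons 250 (.leaf 271 1977 (.cons 297 (.leaf 368 2181 (.cons 226 (.leaf 202 1614 (.cons 299 (.leaf 323 1815 (.leaf 300 2176 .nil)) .nil)) .nil)) .nil)) .nil)) .nil)) .nil)) .nil)) .nil)) .nil)) (.cons 321 (.leaf 345 1988 (.cons 297 (.leaf 224 1796 (.cons 343 (.leaf 319 1982 (.cons 344 (.leaf 367 2174 (.cons 273 (.leaf 249 1989 (.leaf 368 2181 .nil)) .nil)) .nil)) .nil)) .nil)) (.cons 223 (.leaf 247 1791 (.cons 199 (.leaf 224 1599 (.cons 345 (.leaf 321 1988 (.cons 344 (.leaf 369 2180 (.cons 273 (.leaf 249 1989 (.cons 367 (.leaf 343 2174 (.cons 368 (.leaf 297 2181 (.leaf 391 2366 .nil)) .nil)) .nil)) .nil)) .nil)) .nil)) .nil)) (.cons 223 (.leaf 247 1791 (.cons 199 (.leaf 224 1599 (.cons 345 (.leaf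 321 1988 (.cons 344 (.leaf 369 2180 (.cons 273 (.leaf 249 1989 (.cons 274 (.leaf 295 2170 (.cons 251 (.leaf 252 1985 (.cons 250 (.leaf 271 1977 (.cons 299 (.leaf 300 2176 (.cons 226 (.leaf 202 1620 (.leaf 323 1815 .nil)) .nil)) .nil)) .nil)) .nil)) .nil)) .nil)) .nil)) .nil)) .nil)) (.cons 321 (.leaf 345 1988 (.cons 223 (.leaf 247 1791 (.cons 224 (.leaf 199 1599 (.leaf 297 1796 .nil)) .nil)) .nil)) .nil))))
noncomputable def t65 : T := .cons 320 (.cons 223 (.leaf 247 1791 (.cons 343 (.leaf 319 1982 (.cons 344 (.leaf 367 2174 (.cons 345 (.leaf 321 1988 (.leaf 369 2180 .nil)) .nil)) .nil)) .nil)) (.cons 249 (.leaf 225 1797 (.cons 273 (.leaf 344 1989 (.cons 319 (.leaf 343 1982 (.cons 321 (.leaf 345 1988 (.cons 224 (.leaf 297 1796 (.cons 199 (.leaf 223 1599 (.cons 200 (.leaf 175 1407 (.leaf 176 1412 .nil)) .nil)) .nil)) .nil)) .nil)) .nil)) .nil)) (.cons 247 (.leaf 223 1791 (.cons 249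 (.leaf 225 1797 (.cons 250 (.leaf 274 1976 (.cons 271 (.leaf 344 1983 (.leaf 251 1978 .nil)) .nil)) .nil)) .nil)) (.cons 249 (.leaf 225 1797 (.cons 273 (.leaf 344 1989 (.cons 247 (.leaf 274 1979 (.cons 319 (.leaf 343 1982 (.cons 321 (.leaf 345 1988 (.cons 297 (.leaf 224 1796 (.cons 250 (.leaf 226 1805 (.cons 271 (.leaf 251 1978 (.leaf 270 1969 .nil)) .nil)) .nil)) .nil)) .nil)) .nil)) .nil)) .nil)) (.cons 247 (.leaf 223 1791 (.cons 249 (.leaf 225 1797 (.cons 250 (.leaf 274 1976 (.cons 271 (.leaf 251 1978 (.leaf 270 1970 .nil)) .nil)) .nil)) .nil)) .nil))))) (.cons 224 (.cons 199 (.leaf 223 1599 (.cons 175 (.leaf 200 1407 (.cons 321 (.leaf 297 1796 (.cons 320 (.leaf 345 1988 (.cons 249 (.leaf 225 1797 (.cons 273 (.leaf 344 1989 (.cons 295 (.leaf 274 2170 (.leaf 319 1790 .nil)) .nil)) .nil)) .nil)) .nil)) .nil)) .nil)) (.cons 199 (.leaf 223 1599 (.cons 225 (.leaf 201 1605 (.cons 320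 (.leaf 249 1797 (.cons 321 (.leaf 297 1796 (.leaf 345 1988 .nil)) .nil)) .nil)) .nil)) (.cons 295 (.leaf 319 1790 (.cons 199 (.leaf 223 1599 (.cons 273 (.leaf 274 2170 (.cons 200 (.leaf 175 1407 (.leaf 271 1598 .nil)) .nil)) .nil)) .nil)) (.cons 295 (.leaf 319 1790 (.cons 200 (.leaf 271 1598 (.cons 273 (.leaf 274 2170 (.leaf 297 1604 .nil)) .nil)) .nil)) .nil)))) (.cons 224 (.cons 199 (.leaf 223 1599 (.cons 201 (.leaf 225 1605 (.cons 319 (.leaf 295 1790 (.cons 320 (.leaf 343 1982 (.cons 321 (.leaf 297 1796 (.leaf 345 1988 .nil)) .nil)) .nil)) .nil)) .nil)) (.cons 199 (.leaf 223 1599 (.cons 200 (.leaf 175 1407 (.cons 201 (.leaf 177 1413 (.leaf 225 1605 .nil)) .nil)) .nil)) (.cons 295 (.leaf 319 1790 (.cons 200 (.leaf 271 1598 (.cons 273 (.leaf 274 2170 (.leaf 297 1604 .nil)) .nil)) .nil)) .nil))) (.cons 320 (.cons 225 (.leaf 249 1797 (.cons 319 (.leaf 343 1982 (.cons 345 (.leaf 321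 1988 (.cons 344 (.leaf 369 2180 (.cons 247 (.leaf 271 1983 (.cons 273 (.leaf 274 1979 (.cons 317 (.leaf 318 2536 (.cons 346 (.leaf 347 2555 (.cons 368 (.leaf 297 2181 (.cons 391 (.leaf 367 2366 (.cons 392 (.leaf 295 2367 (.leaf 415 2558 .nil)) .nil)) .nil)) .nil)) .nil)) .nil)) .nil)) .nil)) .nil)) .nil)) .nil)) (.cons 249 (.leaf 225 1797 (.cons 273 (.leaf 344 1989 (.cons 274 (.leaf 247 1979 (.leaf 295 2170 .nil)) .nil)) .nil)) (.cons 321 (.leaf 345 1988 (.cons 297 (.leaf 224 1796 (.cons 343 (.leaf 319 1982 (.cons 344 (.leaf 367 2174 (.cons 368 (.leaf 273 2181 (.leaf 392 2373 .nil)) .nil)) .nil)) .nil)) .nil)) (.cons 321 (.leaf 345 1988 (.cons 224 (.leaf 297 1796 (.cons 225 (.leaf 201 1605 (.leaf 249 1797 .nil)) .nil)) .nil)) .nil)))) (.cons 224 (.cons 199 (.leaf 223 1599 (.cons 225 (.leaf 201 1605 (.cons 200 (.leaf 175 1407 (.cons 197 (.leaf 198 1576 (.cons 226 (.leaf 227 1595 (.cons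 249 (.leaf 320 1797 (.cons 273 (.leaf 297 1604 (.leaf 176 1412 .nil)) .nil)) .nil)) .nil)) .nil)) .nil)) .nil)) (.cons 295 (.leaf 319 1790 (.cons 200 (.leaf 271 1598 (.cons 273 (.leaf 274 2170 (.leaf 297 1604 .nil)) .nil)) .nil)) (.cons 199 (.leaf 223 1599 (.cons 225 (.leaf 201 1605 (.cons 319 (.leaf 295 1790 (.cons 320 (.leaf 249 1797 (.leaf 343 1982 .nil)) .nil)) .nil)) .nil)) .nil))) (.cons 320 t64 (.cons 224 t63 (.cons 224 t62 (.cons 320 (.cons 223 (.leaf 247 1791 (.cons 343 (.leaf 319 1982 (.cons 344 (.leaf 367 2174 (.cons 345 (.leaf 321 1988 (.leaf 369 2180 .nil)) .nil)) .nil)) .nil)) (.cons 225 (.leaf 249 1797 (.cons 201 (.leaf 224 1605 (.cons 343 (.leaf 319 1982 (.cons 344 (.leaf 367 2174 (.cons 345 (.leaf 321 1988 (.leaf 369 2180 .nil)) .nil)) .nil)) .nil)) .nil)) (.cons 223 (.leaf 247 1791 (.cons 199 (.leaf 224 1599 (.cons 345 (.leaf 321 1988 (.cons 344 (.leaf 369 2180 (.cons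 273 (.leaf 249 1989 (.cons 274 (.leaf 295 2170 (.cons 251 (.leaf 252 1985 (.cons 250 (.leaf 271 1977 (.cons 299 (.leaf 300 2176 (.cons 226 (.leaf 202 1620 (.leaf 323 1815 .nil)) .nil)) .nil)) .nil)) .nil)) .nil)) .nil)) .nil)) .nil)) .nil)) (.cons 223 (.leaf 247 1791 (.cons 224 (.leaf 199 1599 (.cons 319 (.leaf 295 1790 (.leaf 343 1982 .nil)) .nil)) .nil)) .nil)))) .nil))))))))
noncomputable def t66 : T := .cons 199 (.leaf 223 1599 (.cons 175 (.leaf 200 1407 (.cons 225 (.leaf 201 1605 (.cons 320 (.leaf 249 1797 (.cons 345 (.leaf 321 1988 (.cons 344 (.leaf 369 2180 (.cons 271 (.leaf 247 1983 (.cons 367 (.leaf 343 2174 (.cons 368 (.leaf 295 2175 (.leaf 391 2366 .nil)) .nil)) .nil)) .nil)) .nil)) .nil)) .nil)) .nil)) .nil)) (.cons 201 (.leaf 225 1605 (.cons 177 (.leaf 200 1413 (.cons 321 (.leaf 297 1796 (.cons 320 (.leaf 345 1988 (.cons 247 (.leaf 223 1791 (.cons 343 (.leaf 319 1982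 (.cons 344 (.leaf 271 1983 (.leaf 367 2174 .nil)) .nil)) .nil)) .nil)) .nil)) .nil)) .nil)) (.cons 295 (.leaf 319 1790 (.cons 271 (.leaf 200 1598 (.cons 321 (.leaf 297 1796 (.cons 320 (.leaf 345 1988 (.cons 344 (.leaf 247 1983 (.leaf 368 2175 .nil)) .nil)) .nil)) .nil)) .nil)) (.cons 295 (.leaf 319 1790 (.cons 199 (.leaf 223 1599 (.cons 200 (.leaf 175 1407 (.leaf 271 1598 .nil)) .nil)) .nil)) (.cons 199 (.leaf 223 1599 (.cons 225 (.leaf 201 1605 (.cons 320 (.leaf 249 1797 (.cons 321 (.leaf 297 1796 (.leaf 345 1988 .nil)) .nil)) .nil)) .nil)) .nil))))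
noncomputable def t67 : T := .cons 224 t66 (.cons 320 (.cons 223 (.leaf 247 1791 (.cons 343 (.leaf 319 1982 (.cons 344 (.leaf 367 2174 (.cons 273 (.leaf 249 1989 (.cons 274 (.leaf 295 2170 (.cons 251 (.leaf 252 1985 (.cons 250 (.leaf 271 1977 (.cons 297 (.leaf 368 2181 (.cons 226 (.leaf 202 1614 (.cons 299 (.leaf 323 1815 (.leaf 300 2176 .nil)) .nil)) .nil)) .nil)) .nil)) .nil)) .nil)) .nil)) .nil)) .nil)) (.cons 225 (.leaf 249 1797 (.cons 343 (.leaf 319 1982 (.cons 344 (.leaf 367 2174 (.cons 345 (.leaf 321 1988 (.leaf 369 2180 .nil)) .nil)) .nil)) .nil)) (.cons 223 (.leaf 247 1791 (.cons 343 (.leaf 319 1982 (.cons 344 (.leaf 367 2174 (.cons 345 (.leaf 321 1988 (.leaf 369 2180 .nil)) .nil)) .nil)) .nil)) (.cons 247 (.leaf 223 1791 (.cons 225 (.leaf 249 1797 (.cons 344 (.leaf 271 1983 (.cons 345 (.leaf 321 1988 (.leaf 369 2180 .nil)) .nil)) .nil)) .nil)) (.cons 247 (.leaf 223 1791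 (.cons 249 (.leaf 225 1797 (.cons 250 (.leaf 274 1976 (.cons 271 (.leaf 251 1978 (.leaf 270 1970 .nil)) .nil)) .nil)) .nil)) .nil))))) (.cons 224 (.cons 201 (.leaf 225 1605 (.cons 200 (.leaf 177 1413 (.cons 175 (.leaf 199 1407 (.cons 151 (.leaf 176 1215 (.cons 273 (.leaf 297 1604 (.cons 274 (.leaf 247 1979 (.leaf 295 2170 .nil)) .nil)) .nil)) .nil)) .nil)) .nil)) (.cons 199 (.leaf 223 1599 (.cons 200 (.leaf 175 1407 (.cons 201 (.leaf 177 1413 (.leaf 225 1605 .nil)) .nil)) .nil)) (.cons 295 (.leaf 319 1790 (.cons 199 (.leaf 223 1599 (.cons 200 (.leaf 175 1407 (.leaf 271 1598 .nil)) .nil)) .nil)) (.cons 201 (.leaf 225 1605 (.cons 200 (.leaf 177 1413 (.cons 295 (.leaf 271 1598 (.leaf 319 1790 .nil)) .nil)) .nil)) (.cons 223 (.leaf 199 1599 (.cons 225 (.leaf 201 1605 (.cons 295 (.leaf 319 1790 (.cons 273 (.leaf 274 2170 (.cons 294 (.leaf 293 2153 (.cons 297 (.leaf 321 1796 (.cons 318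 (.leaf 317 2346 (.cons 247 (.leaf 271 1782 (.cons 226 (.leaf 227 1786 (.cons 202 (.leaf 203 1593 (.leaf 249 1613 .nil)) .nil)) .nil)) .nil)) .nil)) .nil)) .nil)) .nil)) .nil)) .nil)) .nil))))) t65))
noncomputable def t68 : T := .cons 223 (.leaf 247 1791 (.cons 319 (.leaf 343 1982 (.cons 345 (.leaf 321 1988 (.cons 344 (.leaf 369 2180 (.cons 273 (.leaf 249 1989 (.cons 274 (.leaf 295 2170 (.cons 251 (.leaf 252 1985 (.cons 250 (.leaf 271 1977 (.cons 299 (.leaf 300 2176 (.cons 226 (.leaf 202 1620 (.leaf 323 1815 .nil)) .nil)) .nil)) .nil)) .nil)) .nil)) .nil)) .nil)) .nil)) .nil)) (.cons 249 (.leaf 225 1797 (.cons 273 (.leaf 344 1989 (.cons 274 (.leaf 295 2170 (.cons 251 (.leaf 252 1985 (.cons 250 (.leaf 271 1977 (.cons 223 (.leaf 224 1787 (.cons 299 (.leaf 300 2176 (.cons 226 (.leaf 202 1620 (.leaf 323 1815 .nil)) .nil)) .nil)) .nil)) .nil)) .nil)) .nil)) .nil)) (.cons 223 (.leaf 247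 1791 (.cons 224 (.leaf 199 1599 (.cons 319 (.leaf 295 1790 (.leaf 343 1982 .nil)) .nil)) .nil)) (.cons 249 (.leaf 225 1797 (.cons 273 (.leaf 344 1989 (.cons 274 (.leaf 247 1979 (.leaf 295 2170 .nil)) .nil)) .nil)) (.cons 247 (.leaf 223 1791 (.cons 225 (.leaf 249 1797 (.cons 344 (.leaf 271 1983 (.cons 343 (.leaf 319 1982 (.leaf 367 2174 .nil)) .nil)) .nil)) .nil)) .nil))))
noncomputable def t69 : T := .cons 199 (.leaf 223 1599 (.cons 225 (.leaf 201 1605 (.cons 320 (.leaf 249 1797 (.cons 321 (.leaf 297 1796 (.leaf 345 1988 .nil)) .nil)) .nil)) .nil)) (.cons 297 (.leaf 321 1796 (.cons 200 (.leaf 273 1604 (.cons 175 (.leaf 199 1407 (.cons 176 (.leaf 151 1215 (.cons 177 (.leaf 201 1413 (.leaf 153 1221 .nil)) .nil)) .nil)) .nil)) .nil)) (.cons 223 (.leaf 199 1599 (.cons 247 (.leaf 320 1791 (.cons 273 (.leaf 274 1979 (.cons 200 (.leaf 297 1604 (.cons 176 (.leaf 249 1412 (.leaf 152 1214 .nil))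 .nil)) .nil)) .nil)) .nil)) (.cons 199 (.leaf 223 1599 (.cons 225 (.leaf 201 1605 (.cons 200 (.leaf 175 1407 (.cons 197 (.leaf 198 1576 (.cons 226 (.leaf 227 1595 (.cons 249 (.leaf 320 1797 (.cons 176 (.leaf 273 1412 (.leaf 152 1220 .nil)) .nil)) .nil)) .nil)) .nil)) .nil)) .nil)) (.cons 201 (.leaf 225 1605 (.cons 177 (.leaf 200 1413 (.cons 319 (.leaf 295 1790 (.cons 320 (.leaf 343 1982 (.cons 345 (.leaf 321 1988 (.cons 344 (.leaf 369 2180 (.cons 273 (.leaf 249 1989 (.cons 274 (.leaf 247 1979 (.cons 251 (.leaf 252 1985 (.cons 299 (.leaf 300 2176 (.cons 347 (.leaf 346 2555 (.cons 323 (.leaf 250 2007 (.cons 348 (.leaf 324 2012 (.leaf 372 2204 .nil)) .nil)) .nil)) .nil)) .nil)) .nil)) .nil)) .nil)) .nil)) .nil)) .nil)) .nil)) .nil)) .nil))))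
noncomputable def t70 : T := .cons 201 (.leaf 225 1605 (.cons 177 (.leaf 200 1413 (.cons 321 (.leaf 297 1796 (.cons 320 (.leaf 345 1988 (.cons 247 (.leaf 223 1791 (.cons 273 (.leaf 274 1979 (.cons 344 (.leaf 271 1983 (.leaf 249 1989 .nil)) .nil)) .nil)) .nil)) .nil)) .nil)) .nil)) (.cons 225 (.leaf 201 1605 (.cons 320 (.leaf 249 1797 (.cons 321 (.leaf 297 1796 (.leaf 345 1988 .nil)) .nil)) .nil)) (.cons 223 (.leaf 199 1599 (.cons 247 (.leaf 320 1791 (.cons 273 (.leaf 274 1979 (.cons 200 (.leaf 297 1604 (.cons 176 (.leaf 271 1406 (.leaf 249 1412 .nil)) .nil)) .nil)) .nil)) .nil)) (.cons 223 (.leaf 199 1599 (.cons 201 (.leaf 225 1605 (.cons 177 (.leaf 200 1413 (.cons 320 (.leaf 247 1791 (.cons 345 (.leaf 321 1988 (.cons 344 (.leaf 369 2180 (.cons 273 (.leaf 249 1989 (.cons 274 (.leaf 295 2170 (.cons 251 (.leaf 252 1985 (.cons 250 (.leaf 271 1977 (.cons 226 (.leaf 202 1423 (.cons 299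 (.leaf 323 1815 (.leaf 300 2176 .nil)) .nil)) .nil)) .nil)) .nil)) .nil)) .nil)) .nil)) .nil)) .nil)) .nil)) .nil)) (.cons 297 (.leaf 321 1796 (.cons 200 (.leaf 273 1604 (.cons 175 (.leaf 199 1407 (.cons 176 (.leaf 151 1215 (.cons 201 (.leaf 177 1413 (.leaf 225 1605 .nil)) .nil)) .nil)) .nil)) .nil)) .nil))))
noncomputable def t71 : T := .cons 223 (.leaf 247 1791 (.cons 319 (.leaf 343 1982 (.cons 345 (.leaf 321 1988 (.cons 344 (.leaf 369 2180 (.cons 273 (.leaf 249 1989 (.cons 317 (.leaf 318 2536 (.cons 346 (.leaf 347 2555 (.cons 368 (.leaf 297 2181 (.cons 391 (.leaf 367 2366 (.cons 392 (.leaf 295 2367 (.leaf 415 2558 .nil)) .nil)) .nil)) .nil)) .nil)) .nil)) .nil)) .nil)) .nil)) .nil)) (.cons 321 (.leaf 345 1988 (.cons 297 (.leaf 224 1796 (.cons 343 (.leaf 319 1982 (.cons 344 (.leaf 367 2174 (.cons 273 (.leaf 249 1989 (.leaf 368 2181 .nil)) .nil)) .nil)) .nil)) .nil)) (.cons 247 (.leaf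 223 1791 (.cons 271 (.leaf 344 1983 (.cons 319 (.leaf 343 1982 (.cons 295 (.leaf 224 1789 (.cons 222 (.leaf 246 1783 (.cons 318 (.leaf 342 1974 (.cons 317 (.leaf 316 2337 (.leaf 297 2345 .nil)) .nil)) .nil)) .nil)) .nil)) .nil)) .nil)) (.cons 247 (.leaf 223 1791 (.cons 271 (.leaf 344 1983 (.cons 273 (.leaf 274 1979 (.cons 321 (.leaf 345 1988 (.cons 224 (.leaf 297 1796 (.cons 200 (.leaf 295 1598 (.leaf 176 1406 .nil)) .nil)) .nil)) .nil)) .nil)) .nil)) (.cons 321 (.leaf 345 1988 (.cons 223 (.leaf 247 1791 (.cons 224 (.leaf 199 1599 (.leaf 297 1796 .nil)) .nil)) .nil)) (.cons 247 (.leaf 223 1791 (.cons 271 (.leaf 344 1983 (.cons 273 (.leaf 274 1979 (.cons 319 (.leaf 343 1982 (.cons 295 (.leaf 224 1789 (.cons 222 (.leaf 246 1783 (.cons 293 (.leaf 294 2153 (.cons 318 (.leaf 342 1974 (.cons 317 (.leaf 316 2337 (.leaf 292 2339 .nil)) .nil)) .nil)) .nil)) .nil)) .nil)) .nil)) .nil)) .nil))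 .nil)))))
noncomputable def t72 : T := .cons 225 (.leaf 249 1797 (.cons 201 (.leaf 224 1605 (.cons 343 (.leaf 319 1982 (.cons 344 (.leaf 367 2174 (.cons 247 (.leaf 271 1983 (.cons 273 (.leaf 274 1979 (.cons 368 (.leaf 297 2181 (.cons 369 (.leaf 345 2180 (.leaf 393 2372 .nil)) .nil)) .nil)) .nil)) .nil)) .nil)) .nil)) .nil)) (.cons 321 (.leaf 345 1988 (.cons 297 (.leaf 224 1796 (.cons 343 (.leaf 319 1982 (.cons 344 (.leaf 367 2174 (.cons 368 (.leaf 273 2181 (.leaf 392 2373 .nil)) .nil)) .nil)) .nil)) .nil)) (.cons 225 (.leaf 249 1797 (.cons 224 (.leaf 201 1605 (.cons 321 (.leaf 297 1796 (.leaf 345 1988 .nil)) .nil)) .nil)) (.cons 225 (.leaf 249 1797 (.cons 201 (.leaf 224 1605 (.cons 343 (.leaf 319 1982 (.cons 344 (.leaf 367 2174 (.cons 271 (.leaf 247 1983 (.cons 368 (.leaf 295 2175 (.cons 297 (.leaf 273 2181 (.cons 269 (.leaf 270 2152 (.cons 392 (.leaf 321 2373 (.cons 393 (.leaf 369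 2372 (.leaf 417 2564 .nil)) .nil)) .nil)) .nil)) .nil)) .nil)) .nil)) .nil)) .nil)) .nil)) (.cons 249 (.leaf 225 1797 (.cons 273 (.leaf 344 1989 (.cons 274 (.leaf 247 1979 (.leaf 295 2170 .nil)) .nil)) .nil)) .nil))))
noncomputable def t73 : T := .cons 199 (.leaf 223 1599 (.cons 201 (.leaf 225 1605 (.cons 319 (.leaf 295 1790 (.cons 320 (.leaf 343 1982 (.cons 321 (.leaf 297 1796 (.leaf 345 1988 .nil)) .nil)) .nil)) .nil)) .nil)) (.cons 201 (.leaf 225 1605 (.cons 177 (.leaf 200 1413 (.cons 319 (.leaf 295 1790 (.cons 320 (.leaf 343 1982 (.cons 321 (.leaf 297 1796 (.leaf 345 1988 .nil)) .nil)) .nil)) .nil)) .nil)) (.cons 199 (.leaf 223 1599 (.cons 175 (.leaf 200 1407 (.cons 319 (.leaf 295 1790 (.cons 320 (.leaf 343 1982 (.cons 321 (.leaf 297 1796 (.leaf 345 1988 .nil)) .nil)) .nil)) .nil)) .nil)) (.cons 223 (.leaf 199 1599 (.cons 320 (.leaf 247 1791 (.cons 321 (.leaf 297 1796 (.leaf 345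 1988 .nil)) .nil)) .nil)) (.cons 223 (.leaf 199 1599 (.cons 247 (.leaf 320 1791 (.cons 295 (.leaf 319 1790 (.cons 271 (.leaf 200 1597 (.cons 225 (.leaf 201 1605 (.cons 226 (.leaf 227 1786 (.leaf 246 1778 .nil)) .nil)) .nil)) .nil)) .nil)) .nil)) (.cons 295 (.leaf 319 1790 (.cons 199 (.leaf 223 1599 (.cons 200 (.leaf 175 1407 (.leaf 271 1598 .nil)) .nil)) .nil)) .nil)))))
noncomputable def t74 : T := .cons 199 (.leaf 223 1599 (.cons 175 (.leaf 200 1407 (.cons 295 (.leaf 319 1790 (.cons 273 (.leaf 274 2170 (.cons 293 (.leaf 294 2153 (.cons 321 (.leaf 297 1796 (.cons 320 (.leaf 345 1988 (.cons 249 (.leaf 225 1797 (.leaf 344 1989 .nil)) .nil)) .nil)) .nil)) .nil)) .nil)) .nil)) .nil)) (.cons 199 (.leaf 223 1599 (.cons 175 (.leaf 200 1407 (.cons 225 (.leaf 201 1605 (.cons 320 (.leaf 249 1797 (.cons 321 (.leaf 297 1796 (.leaf 345 1988 .nil)) .nil)) .nil)) .nil)) .nil)) (.cons 201 (.leaf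 225 1605 (.cons 177 (.leaf 200 1413 (.cons 319 (.leaf 295 1790 (.cons 320 (.leaf 343 1982 (.cons 345 (.leaf 321 1988 (.cons 344 (.leaf 369 2180 (.cons 273 (.leaf 249 1989 (.cons 274 (.leaf 247 1979 (.cons 251 (.leaf 252 1985 (.cons 299 (.leaf 300 2176 (.cons 347 (.leaf 346 2555 (.cons 323 (.leaf 250 2007 (.cons 348 (.leaf 324 2012 (.leaf 372 2204 .nil)) .nil)) .nil)) .nil)) .nil)) .nil)) .nil)) .nil)) .nil)) .nil)) .nil)) .nil)) .nil)) (.cons 295 (.leaf 319 1790 (.cons 271 (.leaf 200 1598 (.cons 321 (.leaf 297 1796 (.cons 320 (.leaf 345 1988 (.cons 247 (.leaf 223 1788 (.leaf 344 1983 .nil)) .nil)) .nil)) .nil)) .nil)) (.cons 295 (.leaf 319 1790 (.cons 200 (.leaf 271 1598 (.cons 273 (.leaf 274 2170 (.leaf 297 1604 .nil)) .nil)) .nil)) (.cons 223 (.leaf 199 1599 (.cons 320 (.leaf 247 1791 (.cons 321 (.leaf 297 1796 (.leaf 345 1988 .nil)) .nil)) .nil)) .nil)))))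
noncomputable def t75 : T := .cons 224 t74 (.cons 320 (.cons 223 (.leaf 247 1791 (.cons 343 (.leaf 319 1982 (.cons 344 (.leaf 367 2174 (.cons 273 (.leaf 249 1989 (.cons 274 (.leaf 295 2170 (.cons 251 (.leaf 252 1985 (.cons 250 (.leaf 271 1977 (.cons 297 (.leaf 368 2181 (.cons 226 (.leaf 202 1614 (.cons 299 (.leaf 323 1815 (.leaf 300 2176 .nil)) .nil)) .nil)) .nil)) .nil)) .nil)) .nil)) .nil)) .nil)) .nil)) (.cons 225 (.leaf 249 1797 (.cons 343 (.leaf 319 1982 (.cons 344 (.leaf 367 2174 (.cons 345 (.leaf 321 1988 (.leaf 369 2180 .nil)) .nil)) .nil)) .nil)) (.cons 223 (.leaf 247 1791 (.cons 343 (.leaf 319 1982 (.cons 344 (.leaf 367 2174 (.cons 345 (.leaf 321 1988 (.leaf 369 2180 .nil)) .nil)) .nil)) .nil)) (.cons 247 (.leaf 223 1791 (.cons 249 (.leaf 225 1797 (.cons 250 (.leaf 274 1976 (.cons 271 (.leaf 344 1983 (.leaf 251 1978 .nil)) .nil)) .nil)) .nil)) (.cons 247 (.leaf 223 1791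 (.cons 249 (.leaf 225 1797 (.cons 250 (.leaf 274 1976 (.cons 271 (.leaf 251 1978 (.leaf 270 1970 .nil)) .nil)) .nil)) .nil)) .nil))))) (.cons 224 (.cons 199 (.leaf 223 1599 (.cons 200 (.leaf 175 1407 (.cons 201 (.leaf 177 1413 (.leaf 225 1605 .nil)) .nil)) .nil)) (.cons 295 (.leaf 319 1790 (.cons 200 (.leaf 271 1598 (.cons 273 (.leaf 274 2170 (.leaf 297 1604 .nil)) .nil)) .nil)) (.cons 201 (.leaf 225 1605 (.cons 223 (.leaf 199 1599 (.cons 295 (.leaf 319 1790 (.cons 273 (.leaf 274 2170 (.cons 294 (.leaf 293 2153 (.cons 297 (.leaf 321 1796 (.cons 270 (.leaf 269 2155 (.cons 318 (.leaf 317 2346 (.cons 247 (.leaf 246 1781 (.leaf 271 1782 .nil)) .nil)) .nil)) .nil)) .nil)) .nil)) .nil)) .nil)) .nil)) .nil))) (.cons 224 t73 (.cons 320 (.cons 223 (.leaf 247 1791 (.cons 343 (.leaf 319 1982 (.cons 344 (.leaf 367 2174 (.cons 345 (.leaf 321 1988 (.leaf 369 2180 .nil)) .nil)) .nil)) .nil)) (.cons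 225 (.leaf 249 1797 (.cons 224 (.leaf 201 1605 (.cons 321 (.leaf 297 1796 (.leaf 345 1988 .nil)) .nil)) .nil)) (.cons 247 (.leaf 223 1791 (.cons 249 (.leaf 225 1797 (.cons 250 (.leaf 274 1976 (.cons 271 (.leaf 344 1983 (.leaf 251 1978 .nil)) .nil)) .nil)) .nil)) .nil))) (.cons 224 (.cons 295 (.leaf 319 1790 (.cons 199 (.leaf 223 1599 (.cons 273 (.leaf 274 2170 (.cons 200 (.leaf 175 1407 (.leaf 271 1598 .nil)) .nil)) .nil)) .nil)) (.cons 225 (.leaf 201 1605 (.cons 320 (.leaf 249 1797 (.cons 321 (.leaf 297 1796 (.leaf 345 1988 .nil)) .nil)) .nil)) .nil)) (.cons 320 t72 (.cons 224 (.cons 201 (.leaf 225 1605 (.cons 200 (.leaf 177 1413 (.cons 175 (.leaf 199 1407 (.cons 151 (.leaf 176 1215 (.cons 273 (.leaf 297 1604 (.cons 274 (.leaf 247 1979 (.leaf 295 2170 .nil)) .nil)) .nil)) .nil)) .nil)) .nil)) (.cons 223 (.leaf 199 1599 (.cons 247 (.leaf 320 1791 (.cons 273 (.leaf 274 1979 (.cons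 200 (.leaf 297 1604 (.cons 176 (.leaf 271 1406 (.leaf 249 1412 .nil)) .nil)) .nil)) .nil)) .nil)) (.cons 201 (.leaf 225 1605 (.cons 177 (.leaf 200 1413 (.cons 319 (.leaf 295 1790 (.cons 320 (.leaf 343 1982 (.cons 247 (.leaf 223 1791 (.cons 273 (.leaf 274 1979 (.cons 344 (.leaf 271 1983 (.leaf 249 1989 .nil)) .nil)) .nil)) .nil)) .nil)) .nil)) .nil)) (.cons 199 (.leaf 223 1599 (.cons 225 (.leaf 201 1605 (.cons 319 (.leaf 295 1790 (.cons 320 (.leaf 249 1797 (.leaf 343 1982 .nil)) .nil)) .nil)) .nil)) .nil)))) (.cons 320 t71 (.cons 224 t70 (.cons 224 t69 (.cons 320 t68 .nil)))))))))))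
noncomputable def t76 : T := .cons 248 (.leaf 247 1979 (.cons 251 (.leaf 252 1985 (.cons 299 (.leaf 300 2176 (.cons 323 (.cons 250 (.leaf 226 1815 (.leaf 347 2007 .nil)) (.cons 324 (.leaf 348 2012 (.cons 346 (.leaf 322 2006 (.cons 347 (.leaf 370 2198 (.cons 344 (.leaf 345 2561 (.cons 320 (.leaf 249 1989 (.cons 343 (.leaf 319 1982 (.leaf 367 2174 .nil)) .nil)) .nil)) .nil)) .nil)) .nil)) (.cons 226 (.leaf 250 1815 (.cons 227 (.leaf 202 1623 (.cons 204 (.leaf 228 1629 (.cons 203 (.leaf 180 1437 (.cons 205 (.leaf 206 1618 (.cons 224 (.leaf 225 1601 (.cons 199 (.leaf 223 1599 (.cons 200 (.leaf 175 1407 (.leaf 297 1604 .nil)) .nil)) .nil)) .nil)) .nil)) .nil)) .nil)) .nil)) .nil))) .nil)) .nil)) .nil)) (.cons 251 (.leaf 252 1985 (.cons 250 (.leaf 271 1977 (.cons 299 (.leaf 300 2176 (.cons 226 (.leaf 202 1620 (.leaf 323 1815 .nil)) .nil)) .nil)) .nil)) (.cons 248 (.leaf 247 1979 (.cons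 299 (.leaf 300 2176 (.cons 224 (.cons 199 (.leaf 223 1599 (.cons 225 (.leaf 201 1605 (.cons 200 (.leaf 175 1407 (.leaf 297 1604 .nil)) .nil)) .nil)) (.cons 225 (.leaf 201 1605 (.cons 320 (.leaf 249 1797 (.cons 321 (.leaf 345 1988 (.cons 343 (.leaf 319 1982 (.cons 344 (.leaf 367 2174 (.cons 323 (.leaf 322 2554 (.cons 347 (.leaf 250 2007 (.cons 370 (.leaf 346 2198 (.cons 371 (.leaf 394 2390 (.cons 372 (.leaf 348 2204 (.leaf 396 2396 .nil)) .nil)) .nil)) .nil)) .nil)) .nil)) .nil)) .nil)) .nil)) .nil)) (.cons 297 (.leaf 200 1604 (.leaf 321 1796 .nil)) .nil))) .nil)) .nil)) (.cons 247 (.leaf 248 1979 (.cons 251 (.leaf 252 1985 (.cons 271 (.leaf 246 1971 (.leaf 250 1977 .nil)) .nil)) .nil)) (.cons 248 (.leaf 247 1979 (.cons 251 (.leaf 252 1985 (.cons 299 (.leaf 300 2176 (.cons 224 (.cons 321 (.leaf 297 1796 (.cons 199 (.leaf 223 1599 (.cons 225 (.leaf 201 1605 (.cons 320 (.leaf 249 1797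 (.leaf 345 1988 .nil)) .nil)) .nil)) .nil)) (.cons 225 (.leaf 201 1605 (.cons 320 (.leaf 249 1797 (.cons 343 (.leaf 319 1982 (.cons 344 (.leaf 367 2174 (.cons 345 (.leaf 321 1988 (.leaf 369 2180 .nil)) .nil)) .nil)) .nil)) .nil)) (.cons 297 (.leaf 200 1604 (.leaf 321 1796 .nil)) (.cons 225 (.leaf 201 1605 (.cons 199 (.leaf 223 1599 (.cons 200 (.leaf 175 1407 (.leaf 297 1604 .nil)) .nil)) .nil)) .nil)))) .nil)) .nil)) .nil)) .nil))))
noncomputable def t77 : T := .cons 344 (.leaf 249 1989 (.cons 297 (.leaf 368 2181 (.cons 343 (.leaf 367 2174 (.cons 248 (.leaf 319 1982 (.cons 224 (.leaf 200 1604 (.leaf 321 1796 .nil)) .nil)) .nil)) .nil)) .nil)) (.cons 248 (.cons 223 (.leaf 247 1791 (.cons 224 (.leaf 199 1599 (.cons 297 (.leaf 200 1604 (.leaf 321 1796 .nil)) .nil)) .nil)) (.cons 223 (.leaf 247 1791 (.cons 224 (.leaf 199 1599 (.cons 225 (.leaf 201 1605 (.leaf 249 1797 .nil)) .nil)) .nil))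 (.cons 247 (.leaf 223 1791 (.cons 246 (.leaf 245 1960 (.cons 249 (.leaf 225 1797 (.cons 222 (.leaf 221 1771 (.cons 319 (.leaf 343 1982 (.cons 321 (.leaf 345 1988 (.cons 271 (.leaf 295 1783 (.cons 250 (.leaf 251 1978 (.cons 226 (.leaf 297 1805 (.leaf 227 1785 .nil)) .nil)) .nil)) .nil)) .nil)) .nil)) .nil)) .nil)) .nil)) (.cons 225 (.leaf 249 1797 (.cons 224 (.leaf 201 1605 (.cons 319 (.leaf 295 1790 (.leaf 343 1982 .nil)) .nil)) .nil)) .nil)))) (.cons 344 (.cons 297 (.leaf 368 2181 (.cons 343 (.leaf 367 2174 (.cons 248 (.leaf 319 1982 (.cons 224 (.leaf 200 1604 (.leaf 321 1796 .nil)) .nil)) .nil)) .nil)) (.cons 247 (.leaf 271 1983 (.cons 248 (.leaf 223 1791 (.cons 343 (.leaf 319 1982 (.leaf 367 2174 .nil)) .nil)) .nil)) (.cons 368 (.leaf 297 2181 (.cons 271 (.leaf 247 1983 (.leaf 295 2175 .nil)) .nil)) .nil))) (.cons 344 (.leaf 249 1989 (.cons 368 (.leaf 297 2181 (.cons 271 (.leaf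 247 1983 (.leaf 295 2175 .nil)) .nil)) .nil)) (.cons 344 (.leaf 249 1989 (.cons 247 (.leaf 271 1983 (.cons 248 (.leaf 223 1791 (.cons 343 (.leaf 319 1982 (.leaf 367 2174 .nil)) .nil)) .nil)) .nil)) .nil))))
noncomputable def t78 : T := .cons 274 (.leaf 295 2170 (.cons 248 (.leaf 247 1979 (.cons 251 (.leaf 252 1985 (.cons 299 (.leaf 300 2176 (.cons 323 (.cons 250 (.leaf 226 1815 (.leaf 347 2007 .nil)) (.cons 324 (.leaf 348 2012 (.cons 346 (.leaf 322 2006 (.cons 347 (.leaf 370 2198 (.cons 344 (.leaf 345 2561 (.cons 320 (.leaf 249 1989 (.cons 343 (.leaf 319 1982 (.leaf 367 2174 .nil)) .nil)) .nil)) .nil)) .nil)) .nil)) (.cons 226 (.leaf 250 1815 (.cons 227 (.leaf 202 1623 (.cons 204 (.leaf 228 1629 (.cons 203 (.leaf 180 1437 (.cons 205 (.leaf 206 1618 (.cons 224 (.leaf 225 1601 (.cons 199 (.leaf 223 1599 (.cons 200 (.leaf 175 1407 (.leaf 297 1604 .nil)) .nil)) .nil)) .nil)) .nil)) .nil))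 .nil)) .nil)) .nil))) .nil)) .nil)) .nil)) .nil)) (.cons 320 t77 (.cons 274 t76 (.cons 274 (.leaf 295 2170 (.cons 251 (.leaf 252 1985 (.cons 250 (.leaf 271 1977 (.cons 299 (.leaf 300 2176 (.cons 226 (.leaf 202 1620 (.leaf 323 1815 .nil)) .nil)) .nil)) .nil)) .nil)) (.cons 320 (.cons 344 (.leaf 249 1989 (.cons 297 (.leaf 368 2181 (.cons 343 (.leaf 367 2174 (.cons 248 (.leaf 319 1982 (.cons 224 (.leaf 200 1604 (.leaf 321 1796 .nil)) .nil)) .nil)) .nil)) .nil)) (.cons 274 (.leaf 295 2170 (.cons 248 (.leaf 247 1979 (.cons 225 (.leaf 249 1797 (.cons 224 (.leaf 201 1605 (.cons 297 (.leaf 200 1604 (.leaf 321 1796 .nil)) .nil)) .nil)) .nil)) .nil)) (.cons 274 (.leaf 295 2170 (.cons 247 (.leaf 248 1979 (.cons 271 (.leaf 246 1971 (.leaf 344 1983 .nil)) .nil)) .nil)) (.cons 344 (.leaf 249 1989 (.cons 368 (.leaf 297 2181 (.cons 271 (.leaf 247 1983 (.leaf 295 2175 .nil)) .nil)) .nil)) .nil))))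 .nil))))
noncomputable def t79 : T := .cons 249 (.leaf 344 1989 (.cons 225 (.leaf 201 1606 (.leaf 248 1797 .nil)) .nil)) (.cons 344 (.cons 297 (.leaf 368 2181 (.cons 343 (.leaf 367 2174 (.cons 248 (.leaf 319 1982 (.cons 224 (.leaf 200 1604 (.leaf 321 1796 .nil)) .nil)) .nil)) .nil)) (.cons 247 (.leaf 271 1983 (.cons 248 (.leaf 223 1791 (.cons 343 (.leaf 319 1982 (.leaf 367 2174 .nil)) .nil)) .nil)) (.cons 368 (.leaf 297 2181 (.cons 271 (.leaf 247 1983 (.leaf 295 2175 .nil)) .nil)) .nil))) (.cons 248 (.cons 223 (.leaf 247 1791 (.cons 224 (.leaf 199 1599 (.cons 297 (.leaf 200 1604 (.leaf 321 1796 .nil)) .nil)) .nil)) (.cons 247 (.leaf 223 1791 (.cons 246 (.leaf 245 1960 (.cons 249 (.leaf 225 1797 (.cons 222 (.leaf 221 1771 (.cons 270 (.leaf 269 1962 (.cons 319 (.leaf 343 1982 (.cons 295 (.leaf 271 1783 (.leaf 294 1780 .nil)) .nil)) .nil)) .nil)) .nil)) .nil)) .nil)) (.cons 225 (.leaf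 249 1797 (.cons 224 (.leaf 201 1605 (.cons 319 (.leaf 295 1790 (.leaf 343 1982 .nil)) .nil)) .nil)) .nil))) (.cons 344 (.leaf 249 1989 (.cons 368 (.leaf 297 2181 (.cons 271 (.leaf 247 1983 (.leaf 295 2175 .nil)) .nil)) .nil)) .nil)))
noncomputable def t80 : T := .cons 274 (.leaf 295 2170 (.cons 248 (.leaf 247 1979 (.cons 299 (.leaf 300 2176 (.cons 224 (.cons 199 (.leaf 223 1599 (.cons 225 (.leaf 201 1605 (.cons 297 (.leaf 200 1604 (.leaf 321 1796 .nil)) .nil)) .nil)) (.cons 225 (.leaf 201 1605 (.cons 199 (.leaf 223 1599 (.cons 200 (.leaf 175 1407 (.cons 249 (.leaf 320 1797 (.leaf 176 1412 .nil)) .nil)) .nil)) .nil)) (.cons 199 (.leaf 223 1599 (.cons 225 (.leaf 201 1605 (.cons 297 (.leaf 321 1796 (.cons 320 (.leaf 249 1797 (.cons 343 (.leaf 319 1982 (.cons 344 (.leaf 367 2174 (.leaf 368 2181 .nil)) .nil)) .nil)) .nil)) .nil)) .nil)) (.cons 297 (.leaf 200 1604 (.leaf 321 1796 .nil))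 .nil)))) .nil)) .nil)) .nil)) (.cons 320 t79 (.cons 274 (.cons 248 (.leaf 247 1979 (.cons 299 (.leaf 300 2176 (.cons 224 (.cons 199 (.leaf 223 1599 (.cons 225 (.leaf 201 1605 (.cons 200 (.leaf 175 1407 (.leaf 297 1604 .nil)) .nil)) .nil)) (.cons 225 (.leaf 201 1605 (.cons 199 (.leaf 223 1599 (.cons 200 (.leaf 175 1407 (.cons 249 (.leaf 320 1797 (.leaf 176 1412 .nil)) .nil)) .nil)) .nil)) (.cons 199 (.leaf 223 1599 (.cons 225 (.leaf 201 1605 (.cons 297 (.leaf 321 1796 (.cons 320 (.leaf 249 1797 (.cons 343 (.leaf 319 1982 (.cons 344 (.leaf 367 2174 (.leaf 368 2181 .nil)) .nil)) .nil)) .nil)) .nil)) .nil)) (.cons 297 (.leaf 200 1604 (.leaf 321 1796 .nil)) .nil)))) .nil)) .nil)) (.cons 251 (.leaf 252 1985 (.cons 250 (.leaf 271 1977 (.cons 299 (.leaf 300 2176 (.cons 226 (.leaf 202 1620 (.leaf 323 1815 .nil)) .nil)) .nil)) .nil)) (.cons 247 (.leaf 248 1979 (.cons 251 (.leaf 252 1985 (.cons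 271 (.leaf 246 1971 (.leaf 250 1977 .nil)) .nil)) .nil)) .nil))) (.cons 274 (.leaf 295 2170 (.cons 251 (.leaf 252 1985 (.cons 250 (.leaf 271 1977 (.cons 299 (.leaf 300 2176 (.cons 226 (.leaf 202 1620 (.leaf 323 1815 .nil)) .nil)) .nil)) .nil)) .nil)) .nil)))
noncomputable def t81 : T := .cons 199 (.leaf 223 1599 (.cons 200 (.leaf 175 1407 (.cons 177 (.leaf 201 1413 (.cons 153 (.leaf 176 1221 (.cons 273 (.leaf 297 1604 (.cons 274 (.leaf 247 1979 (.leaf 295 2170 .nil)) .nil)) .nil)) .nil)) .nil)) .nil)) (.cons 297 (.leaf 321 1796 (.cons 200 (.leaf 273 1604 (.cons 175 (.leaf 199 1407 (.cons 176 (.leaf 151 1215 (.cons 271 (.leaf 295 1598 (.leaf 247 1406 .nil)) .nil)) .nil)) .nil)) .nil)) (.cons 199 (.leaf 223 1599 (.cons 200 (.leaf 175 1407 (.cons 177 (.leaf 201 1413 (.cons 176 (.leaf 153 1221 (.cons 271 (.leaf 295 1598 (.leaf 247 1406 .nil)) .nil)) .nil)) .nil)) .nil)) (.cons 297 (.leaf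 321 1796 (.cons 200 (.leaf 273 1604 (.cons 177 (.leaf 201 1413 (.cons 176 (.leaf 153 1221 (.cons 271 (.leaf 295 1598 (.leaf 247 1406 .nil)) .nil)) .nil)) .nil)) .nil)) (.cons 223 (.leaf 199 1599 (.cons 320 (.leaf 247 1791 (.cons 321 (.leaf 297 1796 (.leaf 345 1988 .nil)) .nil)) .nil)) (.cons 297 (.leaf 321 1796 (.cons 200 (.leaf 273 1604 (.cons 175 (.leaf 199 1407 (.cons 176 (.leaf 151 1215 (.cons 177 (.leaf 201 1413 (.leaf 153 1221 .nil)) .nil)) .nil)) .nil)) .nil)) .nil)))))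
noncomputable def t82 : T := .cons 223 (.leaf 199 1599 (.cons 247 (.leaf 320 1791 (.cons 295 (.leaf 319 1790 (.cons 271 (.leaf 200 1597 (.cons 198 (.leaf 222 1591 (.cons 294 (.leaf 318 1782 (.cons 293 (.leaf 292 2145 (.leaf 273 2153 .nil)) .nil)) .nil)) .nil)) .nil)) .nil)) .nil)) (.cons 223 (.leaf 199 1599 (.cons 247 (.leaf 320 1791 (.cons 273 (.leaf 274 1979 (.cons 200 (.leaf 297 1604 (.cons 176 (.leaf 271 1406 (.leaf 249 1412 .nil)) .nil)) .nil)) .nil)) .nil)) (.cons 295 (.leaf 319 1790 (.cons 200 (.leaf 271 1598 (.cons 273 (.leaf 274 2170 (.leaf 297 1604 .nil)) .nil)) .nil)) (.cons 223 (.leaf 199 1599 (.cons 247 (.leaf 320 1791 (.cons 273 (.leaf 274 1979 (.cons 245 (.leaf 246 1960 (.cons 295 (.leaf 319 1790 (.cons 294 (.leaf 293 2153 (.cons 271 (.leaf 318 1782 (.cons 222 (.leaf 198 1591 (.cons 221 (.leaf 220 1760 (.leaf 249 1768 .nil)) .nil)) .nil)) .nil)) .nil)) .nil)) .nil))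 .nil)) .nil)) (.cons 223 (.leaf 199 1599 (.cons 247 (.leaf 320 1791 (.cons 295 (.leaf 319 1790 (.cons 271 (.leaf 200 1597 (.cons 198 (.leaf 222 1591 (.cons 294 (.leaf 318 1782 (.cons 293 (.leaf 292 2145 (.cons 269 (.leaf 268 2147 (.cons 270 (.leaf 249 1961 (.leaf 297 2152 .nil)) .nil)) .nil)) .nil)) .nil)) .nil)) .nil)) .nil)) .nil)) (.cons 223 (.leaf 199 1599 (.cons 247 (.leaf 320 1791 (.cons 273 (.leaf 274 1979 (.cons 200 (.leaf 297 1604 (.cons 176 (.leaf 249 1412 (.leaf 152 1214 .nil)) .nil)) .nil)) .nil)) .nil)) .nil)))))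
noncomputable def t83 : T := .cons 247 (.leaf 223 1791 (.cons 271 (.leaf 344 1983 (.cons 273 (.leaf 274 1979 (.cons 246 (.leaf 245 1960 (.cons 319 (.leaf 343 1982 (.cons 295 (.leaf 222 1783 (.cons 293 (.leaf 294 2153 (.cons 318 (.leaf 342 1974 (.cons 317 (.leaf 316 2337 (.leaf 297 2345 .nil)) .nil)) .nil)) .nil)) .nil)) .nil)) .nil)) .nil)) .nil)) (.cons 343 (.leaf 319 1982 (.cons 344 (.leaf 367 2174 (.cons 345 (.leaf 321 1988 (.leaf 369 2180 .nil)) .nil)) .nil)) (.cons 247 (.leaf 223 1791 (.cons 273 (.leaf 274 1979 (.cons 245 (.leaf 246 1960 (.cons 344 (.leaf 271 1983 (.leaf 249 1989 .nil)) .nil)) .nil)) .nil)) (.cons 247 (.leaf 223 1791 (.cons 273 (.leaf 274 1979 (.cons 321 (.leaf 345 1988 (.cons 319 (.leaf 343 1982 (.cons 246 (.leaf 245 1960 (.cons 294 (.cons 293 (.leaf 295 2344 (.leaf 318 2347 .nil)) (.cons 293 (.leaf 318 2347 (.cons 270 (.leaf 271 2154 (.cons 222 (.leaf 317 1774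 (.cons 198 (.leaf 269 1582 (.cons 197 (.leaf 173 1391 (.leaf 221 1583 .nil)) .nil)) .nil)) .nil)) .nil)) (.cons 295 (.leaf 322 2355 (.cons 222 (.leaf 271 1783 (.leaf 270 1780 .nil)) .nil)) .nil))) .nil)) .nil)) .nil)) .nil)) .nil)) .nil)))
noncomputable def t84 : T := .cons 224 (.cons 199 (.leaf 223 1599 (.cons 200 (.leaf 175 1407 (.cons 177 (.leaf 201 1413 (.cons 153 (.leaf 176 1221 (.cons 273 (.leaf 297 1604 (.cons 274 (.leaf 247 1979 (.leaf 295 2170 .nil)) .nil)) .nil)) .nil)) .nil)) .nil)) (.cons 297 (.leaf 321 1796 (.cons 200 (.leaf 273 1604 (.cons 175 (.leaf 199 1407 (.cons 176 (.leaf 151 1215 (.cons 177 (.leaf 201 1413 (.leaf 153 1221 .nil)) .nil)) .nil)) .nil)) .nil)) (.cons 295 (.leaf 319 1790 (.cons 200 (.leaf 271 1598 (.cons 273 (.leaf 274 2170 (.leaf 297 1604 .nil)) .nil)) .nil)) (.cons 199 (.leaf 223 1599 (.cons 200 (.leaf 175 1407 (.cons 177 (.leaf 201 1413 (.cons 176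 (.leaf 153 1221 (.cons 271 (.leaf 295 1598 (.leaf 247 1406 .nil)) .nil)) .nil)) .nil)) .nil)) (.cons 295 (.leaf 319 1790 (.cons 223 (.leaf 199 1599 (.cons 273 (.leaf 274 2170 (.cons 294 (.leaf 293 2153 (.cons 297 (.leaf 321 1796 (.cons 270 (.leaf 269 2155 (.cons 318 (.leaf 317 2346 (.cons 247 (.leaf 271 1782 (.leaf 246 1781 .nil)) .nil)) .nil)) .nil)) .nil)) .nil)) .nil)) .nil)) .nil))))) (.cons 320 t83 (.cons 320 (.cons 223 (.leaf 247 1791 (.cons 224 (.leaf 199 1599 (.cons 321 (.leaf 297 1796 (.leaf 345 1988 .nil)) .nil)) .nil)) (.cons 319 (.leaf 343 1982 (.cons 295 (.leaf 224 1790 (.cons 321 (.leaf 345 1988 (.cons 294 (.leaf 293 2344 (.leaf 322 2355 .nil)) .nil)) .nil)) .nil)) (.cons 223 (.leaf 247 1791 (.cons 224 (.leaf 199 1599 (.cons 319 (.leaf 295 1790 (.leaf 343 1982 .nil)) .nil)) .nil)) (.cons 223 (.leaf 247 1791 (.cons 343 (.leaf 319 1982 (.cons 344 (.leaf 367 2174 (.cons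 345 (.leaf 321 1988 (.leaf 369 2180 .nil)) .nil)) .nil)) .nil)) .nil)))) (.cons 224 (.cons 199 (.leaf 223 1599 (.cons 200 (.leaf 175 1407 (.cons 295 (.leaf 271 1598 (.leaf 319 1790 .nil)) .nil)) .nil)) (.cons 297 (.leaf 321 1796 (.cons 200 (.leaf 273 1604 (.cons 175 (.leaf 199 1407 (.cons 176 (.leaf 151 1215 (.cons 177 (.leaf 201 1413 (.leaf 153 1221 .nil)) .nil)) .nil)) .nil)) .nil)) (.cons 295 (.leaf 319 1790 (.cons 200 (.leaf 271 1598 (.cons 273 (.leaf 274 2170 (.leaf 297 1604 .nil)) .nil)) .nil)) (.cons 199 (.leaf 223 1599 (.cons 295 (.leaf 319 1790 (.cons 273 (.leaf 274 2170 (.cons 321 (.leaf 297 1796 (.cons 293 (.leaf 294 2153 (.cons 320 (.leaf 345 1988 (.cons 322 (.leaf 323 2363 (.cons 344 (.leaf 249 1989 (.cons 367 (.leaf 343 2174 (.cons 368 (.leaf 271 2175 (.leaf 391 2366 .nil)) .nil)) .nil)) .nil)) .nil)) .nil)) .nil)) .nil)) .nil)) .nil)) .nil)))) (.cons 320 (.cons 223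 (.leaf 247 1791 (.cons 199 (.leaf 224 1599 (.cons 343 (.leaf 319 1982 (.cons 344 (.leaf 367 2174 (.cons 273 (.leaf 249 1989 (.cons 368 (.leaf 297 2181 (.cons 369 (.leaf 345 2180 (.leaf 393 2372 .nil)) .nil)) .nil)) .nil)) .nil)) .nil)) .nil)) (.cons 321 (.leaf 345 1988 (.cons 297 (.leaf 224 1796 (.cons 343 (.leaf 319 1982 (.cons 344 (.leaf 367 2174 (.cons 273 (.leaf 249 1989 (.leaf 368 2181 .nil)) .nil)) .nil)) .nil)) .nil)) (.cons 223 (.leaf 247 1791 (.cons 224 (.leaf 199 1599 (.cons 297 (.leaf 321 1796 (.cons 273 (.leaf 200 1604 (.cons 344 (.leaf 249 1989 (.leaf 368 2181 .nil)) .nil)) .nil)) .nil)) .nil)) (.cons 223 (.leaf 247 1791 (.cons 224 (.leaf 199 1599 (.cons 321 (.leaf 297 1796 (.leaf 345 1988 .nil)) .nil)) .nil)) (.cons 247 (.leaf 223 1791 (.cons 273 (.leaf 274 1979 (.cons 245 (.leaf 246 1960 (.cons 344 (.leaf 271 1983 (.leaf 249 1989 .nil)) .nil)) .nil)) .nil)) .nil)))))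 (.cons 320 (.cons 319 (.leaf 343 1982 (.cons 295 (.leaf 224 1790 (.cons 273 (.leaf 274 2170 (.cons 294 (.leaf 293 2153 (.cons 321 (.leaf 345 1988 (.leaf 322 2355 .nil)) .nil)) .nil)) .nil)) .nil)) (.cons 319 (.leaf 343 1982 (.cons 295 (.leaf 224 1790 (.cons 273 (.leaf 274 2170 (.cons 293 (.leaf 294 2153 (.cons 344 (.leaf 249 1989 (.cons 368 (.leaf 271 2175 (.leaf 297 2181 .nil)) .nil)) .nil)) .nil)) .nil)) .nil)) (.cons 345 (.leaf 321 1988 (.cons 344 (.leaf 369 2180 (.cons 273 (.leaf 249 1989 (.cons 247 (.leaf 274 1979 (.leaf 271 1983 .nil)) .nil)) .nil)) .nil)) (.cons 319 (.leaf 343 1982 (.cons 295 (.leaf 224 1790 (.cons 321 (.leaf 345 1988 (.cons 294 (.leaf 293 2344 (.leaf 322 2355 .nil)) .nil)) .nil)) .nil)) .nil)))) (.cons 224 t82 (.cons 224 t81 (.cons 320 (.cons 319 (.leaf 343 1982 (.cons 295 (.leaf 224 1790 (.cons 273 (.leaf 274 2170 (.cons 294 (.leaf 293 2153 (.cons 321 (.leaf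 345 1988 (.leaf 322 2355 .nil)) .nil)) .nil)) .nil)) .nil)) (.cons 345 (.leaf 321 1988 (.cons 344 (.leaf 369 2180 (.cons 273 (.leaf 249 1989 (.cons 247 (.leaf 274 1979 (.leaf 223 1791 .nil)) .nil)) .nil)) .nil)) (.cons 319 (.leaf 343 1982 (.cons 295 (.leaf 224 1790 (.cons 273 (.leaf 274 2170 (.cons 293 (.leaf 294 2153 (.cons 247 (.leaf 223 1791 (.cons 246 (.leaf 245 1960 (.cons 271 (.leaf 344 1980 (.leaf 222 1783 .nil)) .nil)) .nil)) .nil)) .nil)) .nil)) .nil)) (.cons 319 (.leaf 343 1982 (.cons 295 (.leaf 224 1790 (.cons 321 (.leaf 345 1988 (.cons 294 (.leaf 293 2344 (.leaf 322 2355 .nil)) .nil)) .nil)) .nil)) .nil)))) .nil))))))))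
noncomputable def t85 : T := .cons 297 (.leaf 321 1796 (.cons 200 (.leaf 273 1604 (.cons 175 (.leaf 199 1407 (.cons 176 (.leaf 151 1215 (.cons 271 (.leaf 295 1598 (.leaf 247 1406 .nil)) .nil)) .nil)) .nil)) .nil)) (.cons 223 (.leaf 199 1599 (.cons 320 (.leaf 247 1791 (.cons 297 (.leaf 321 1796 (.cons 273 (.leaf 200 1604 (.cons 344 (.leaf 249 1989 (.leaf 368 2181 .nil)) .nil)) .nil)) .nil)) .nil)) (.cons 199 (.leaf 223 1599 (.cons 200 (.leaf 175 1407 (.cons 177 (.leaf 201 1413 (.cons 176 (.leaf 153 1221 (.cons 271 (.leaf 295 1598 (.leaf 247 1406 .nil)) .nil)) .nil)) .nil)) .nil)) (.cons 297 (.leaf 321 1796 (.cons 200 (.leaf 273 1604 (.cons 177 (.leaf 201 1413 (.cons 176 (.leaf 153 1221 (.cons 271 (.leaf 295 1598 (.leaf 247 1406 .nil)) .nil)) .nil)) .nil)) .nil)) (.cons 223 (.leaf 199 1599 (.cons 247 (.leaf 320 1791 (.cons 273 (.leaf 274 1979 (.cons 245 (.leaf 246 1960 (.cons 295 (.leaf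 319 1790 (.cons 294 (.leaf 293 2153 (.cons 271 (.leaf 318 1782 (.cons 222 (.leaf 198 1591 (.cons 221 (.leaf 220 1760 (.leaf 249 1768 .nil)) .nil)) .nil)) .nil)) .nil)) .nil)) .nil)) .nil)) .nil)) (.cons 295 (.leaf 319 1790 (.cons 200 (.leaf 271 1598 (.cons 273 (.leaf 274 2170 (.leaf 297 1604 .nil)) .nil)) .nil)) .nil)))))
noncomputable def t86 : T := .cons 248 (.leaf 247 1979 (.cons 251 (.leaf 252 1985 (.cons 299 (.leaf 300 2176 (.cons 224 (.cons 321 (.leaf 297 1796 (.cons 199 (.leaf 223 1599 (.cons 225 (.leaf 201 1605 (.cons 320 (.leaf 249 1797 (.leaf 345 1988 .nil)) .nil)) .nil)) .nil)) (.cons 250 (.leaf 271 1977 (.cons 223 (.leaf 199 1599 (.leaf 249 1787 .nil)) .nil)) (.cons 297 (.leaf 200 1604 (.leaf 321 1796 .nil)) .nil))) .nil)) .nil)) .nil)) (.cons 251 (.leaf 252 1985 (.cons 250 (.leaf 271 1977 (.cons 299 (.leaf 300 2176 (.cons 226 (.leaf 202 1620 (.leaf 323 1815 .nil)) .nil))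 .nil)) .nil)) (.cons 248 (.leaf 247 1979 (.cons 299 (.leaf 300 2176 (.cons 224 (.cons 199 (.leaf 223 1599 (.cons 225 (.leaf 201 1605 (.cons 320 (.leaf 249 1797 (.cons 321 (.leaf 297 1796 (.leaf 345 1988 .nil)) .nil)) .nil)) .nil)) (.cons 225 (.leaf 201 1605 (.cons 199 (.leaf 223 1599 (.cons 200 (.leaf 175 1407 (.cons 249 (.leaf 320 1797 (.leaf 176 1412 .nil)) .nil)) .nil)) .nil)) (.cons 297 (.leaf 200 1604 (.leaf 321 1796 .nil)) .nil))) .nil)) .nil)) (.cons 247 (.leaf 248 1979 (.cons 251 (.leaf 252 1985 (.cons 271 (.leaf 246 1971 (.leaf 250 1977 .nil)) .nil)) .nil)) .nil)))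
noncomputable def t87 : T := .cons 248 (.cons 223 (.leaf 247 1791 (.cons 224 (.leaf 199 1599 (.cons 297 (.leaf 200 1604 (.leaf 321 1796 .nil)) .nil)) .nil)) (.cons 247 (.leaf 223 1791 (.cons 246 (.leaf 245 1960 (.cons 249 (.leaf 225 1797 (.leaf 344 1989 .nil)) .nil)) .nil)) (.cons 225 (.leaf 249 1797 (.cons 224 (.leaf 201 1605 (.cons 321 (.leaf 297 1796 (.leaf 345 1988 .nil)) .nil)) .nil)) .nil))) (.cons 344 (.cons 247 (.leaf 271 1983 (.cons 223 (.leaf 248 1791 (.cons 368 (.leaf 297 2181 (.cons 391 (.leaf 367 2366 (.cons 392 (.leaf 415 2558 (.cons 393 (.leaf 369 2372 (.leaf 417 2564 .nil)) .nil)) .nil)) .nil)) .nil)) .nil)) (.cons 345 (.leaf 369 2180 (.cons 247 (.leaf 271 1983 (.cons 248 (.leaf 223 1791 (.leaf 321 1988 .nil)) .nil)) .nil)) (.cons 368 (.leaf 297 2181 (.cons 369 (.leaf 345 2180 (.leaf 393 2372 .nil)) .nil)) (.cons 368 (.leaf 297 2181 (.cons 271 (.leaf 247 1983 (.leaf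 295 2175 .nil)) .nil)) .nil)))) (.cons 248 (.cons 223 (.leaf 247 1791 (.cons 224 (.leaf 199 1599 (.cons 297 (.leaf 200 1604 (.leaf 321 1796 .nil)) .nil)) .nil)) (.cons 247 (.leaf 223 1791 (.cons 246 (.leaf 245 1960 (.cons 249 (.leaf 225 1797 (.cons 221 (.leaf 222 1771 (.cons 270 (.leaf 269 1962 (.cons 250 (.leaf 271 1969 (.cons 227 (.leaf 226 1785 (.cons 251 (.leaf 252 1986 (.leaf 228 1793 .nil)) .nil)) .nil)) .nil)) .nil)) .nil)) .nil)) .nil)) (.cons 225 (.leaf 249 1797 (.cons 224 (.leaf 201 1605 (.cons 321 (.leaf 297 1796 (.leaf 345 1988 .nil)) .nil)) .nil)) .nil))) (.cons 344 (.leaf 249 1989 (.cons 368 (.leaf 297 2181 (.cons 271 (.leaf 247 1983 (.leaf 295 2175 .nil)) .nil)) .nil)) (.cons 344 (.leaf 249 1989 (.cons 345 (.leaf 369 2180 (.cons 247 (.leaf 271 1983 (.cons 248 (.leaf 223 1791 (.leaf 321 1988 .nil)) .nil)) .nil)) .nil)) (.cons 344 (.leaf 249 1989 (.cons 368 (.leaf 297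 2181 (.cons 369 (.leaf 345 2180 (.leaf 393 2372 .nil)) .nil)) .nil)) .nil)))))
noncomputable def t88 : T := .cons 320 (.cons 249 (.leaf 344 1989 (.cons 225 (.leaf 201 1606 (.leaf 248 1797 .nil)) .nil)) (.cons 274 (.leaf 295 2170 (.cons 247 (.leaf 248 1979 (.cons 271 (.leaf 246 1971 (.leaf 344 1983 .nil)) .nil)) .nil)) (.cons 248 (.cons 223 (.leaf 247 1791 (.cons 224 (.leaf 199 1599 (.cons 297 (.leaf 200 1604 (.leaf 321 1796 .nil)) .nil)) .nil)) (.cons 225 (.leaf 249 1797 (.cons 224 (.leaf 201 1605 (.cons 321 (.leaf 297 1796 (.leaf 345 1988 .nil)) .nil)) .nil)) (.cons 247 (.leaf 274 1979 (.leaf 223 1791 .nil)) .nil))) (.cons 344 (.leaf 249 1989 (.cons 247 (.leaf 271 1983 (.cons 345 (.leaf 369 2180 (.cons 368 (.leaf 297 2181 (.cons 391 (.leaf 367 2366 (.cons 392 (.leaf 415 2558 (.cons 295 (.leaf 274 2170 (.leaf 319 2367 .nil)) .nil)) .nil)) .nil)) .nil)) .nil)) .nil)) .nil)))) (.cons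 320 t87 (.cons 274 t86 (.cons 274 (.leaf 295 2170 (.cons 251 (.leaf 252 1985 (.cons 250 (.leaf 271 1977 (.cons 299 (.leaf 300 2176 (.cons 226 (.leaf 202 1620 (.leaf 323 1815 .nil)) .nil)) .nil)) .nil)) .nil)) (.cons 274 (.leaf 295 2170 (.cons 248 (.leaf 247 1979 (.cons 251 (.leaf 252 1985 (.cons 299 (.leaf 300 2176 (.cons 224 (.cons 321 (.leaf 297 1796 (.cons 199 (.leaf 223 1599 (.cons 225 (.leaf 201 1605 (.cons 320 (.leaf 249 1797 (.leaf 345 1988 .nil)) .nil)) .nil)) .nil)) (.cons 225 (.leaf 201 1605 (.cons 199 (.leaf 223 1599 (.cons 200 (.leaf 175 1407 (.cons 249 (.leaf 320 1797 (.leaf 176 1412 .nil)) .nil)) .nil)) .nil)) (.cons 297 (.leaf 200 1604 (.leaf 321 1796 .nil)) .nil))) .nil)) .nil)) .nil)) .nil)) .nil))))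
noncomputable def t89 : T := .cons 295 (.leaf 319 1790 (.cons 200 (.leaf 271 1598 (.cons 273 (.leaf 274 2170 (.leaf 297 1604 .nil)) .nil)) .nil)) (.cons 201 (.leaf 225 1605 (.cons 200 (.leaf 177 1413 (.cons 175 (.leaf 199 1407 (.cons 151 (.leaf 176 1215 (.cons 273 (.leaf 297 1604 (.cons 274 (.leaf 247 1979 (.cons 251 (.leaf 252 1985 (.cons 250 (.leaf 271 1977 (.cons 299 (.leaf 300 2176 (.cons 226 (.leaf 202 1620 (.leaf 323 1815 .nil)) .nil)) .nil)) .nil)) .nil)) .nil)) .nil)) .nil)) .nil)) .nil)) (.cons 225 (.leaf 201 1605 (.cons 249 (.leaf 320 1797 (.cons 295 (.leaf 319 1790 (.cons 274 (.leaf 273 2170 (.cons 247 (.leaf 250 1976 (.cons 226 (.leaf 227 1786 (.leaf 246 1777 .nil)) .nil)) .nil)) .nil)) .nil)) .nil)) (.cons 225 (.leaf 201 1605 (.cons 249 (.leaf 320 1797 (.cons 295 (.leaf 319 1790 (.cons 271 (.leaf 200 1598 (.cons 250 (.leaf 251 1978 (.cons 247 (.leaf 274 1976 (.leaf 270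 1970 .nil)) .nil)) .nil)) .nil)) .nil)) .nil)) (.cons 225 (.leaf 201 1605 (.cons 249 (.leaf 320 1797 (.cons 295 (.leaf 319 1790 (.cons 271 (.leaf 200 1598 (.cons 250 (.leaf 251 1978 (.cons 270 (.leaf 269 1961 (.leaf 273 1969 .nil)) .nil)) .nil)) .nil)) .nil)) .nil)) .nil))))
noncomputable def t90 : T := .cons 320 (.cons 249 (.leaf 225 1797 (.cons 273 (.leaf 344 1989 (.cons 274 (.leaf 247 1979 (.leaf 295 2170 .nil)) .nil)) .nil)) (.cons 343 (.leaf 319 1982 (.cons 344 (.leaf 367 2174 (.cons 345 (.leaf 321 1988 (.leaf 369 2180 .nil)) .nil)) .nil)) (.cons 249 (.leaf 225 1797 (.cons 321 (.leaf 345 1988 (.cons 319 (.leaf 343 1982 (.cons 294 (.cons 295 (.leaf 293 2344 (.leaf 322 2355 .nil)) (.cons 318 (.leaf 293 2347 (.cons 317 (.leaf 297 2345 (.cons 341 (.leaf 340 2530 (.leaf 342 2538 .nil)) .nil)) .nil)) (.cons 322 (.leaf 295 2355 (.cons 346 (.leaf 347 2552 (.cons 297 (.leaf 273 1996 (.cons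 317 (.leaf 318 2345 (.cons 323 (.leaf 324 2371 (.cons 299 (.leaf 251 2006 (.leaf 300 2369 .nil)) .nil)) .nil)) .nil)) .nil)) .nil)) .nil))) .nil)) .nil)) .nil)) .nil))) (.cons 320 (.cons 225 (.leaf 249 1797 (.cons 224 (.leaf 201 1605 (.cons 321 (.leaf 297 1796 (.leaf 345 1988 .nil)) .nil)) .nil)) (.cons 321 (.leaf 345 1988 (.cons 297 (.leaf 224 1796 (.cons 343 (.leaf 319 1982 (.cons 344 (.leaf 367 2174 (.cons 368 (.leaf 273 2181 (.leaf 392 2373 .nil)) .nil)) .nil)) .nil)) .nil)) (.cons 249 (.leaf 225 1797 (.cons 273 (.leaf 344 1989 (.cons 247 (.leaf 274 1979 (.cons 246 (.leaf 245 1960 (.cons 221 (.leaf 222 1771 (.cons 270 (.leaf 269 1962 (.cons 250 (.leaf 271 1969 (.cons 227 (.leaf 226 1785 (.cons 251 (.leaf 252 1986 (.leaf 228 1793 .nil)) .nil)) .nil)) .nil)) .nil)) .nil)) .nil)) .nil)) .nil)) .nil))) (.cons 224 (.cons 201 (.leaf 225 1605 (.cons 177 (.leaf 200 1413 (.cons 319 (.leaf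 295 1790 (.cons 320 (.leaf 343 1982 (.cons 321 (.leaf 297 1796 (.leaf 345 1988 .nil)) .nil)) .nil)) .nil)) .nil)) (.cons 201 (.leaf 225 1605 (.cons 200 (.leaf 177 1413 (.cons 175 (.leaf 199 1407 (.cons 151 (.leaf 176 1215 (.cons 273 (.leaf 297 1604 (.cons 274 (.leaf 247 1979 (.cons 251 (.leaf 252 1985 (.cons 250 (.leaf 271 1977 (.cons 299 (.leaf 300 2176 (.cons 226 (.leaf 202 1620 (.leaf 323 1815 .nil)) .nil)) .nil)) .nil)) .nil)) .nil)) .nil)) .nil)) .nil)) .nil)) (.cons 295 (.leaf 319 1790 (.cons 200 (.leaf 271 1598 (.cons 175 (.leaf 199 1407 (.cons 176 (.leaf 151 1215 (.cons 177 (.leaf 201 1413 (.leaf 153 1221 .nil)) .nil)) .nil)) .nil)) .nil)) (.cons 295 (.leaf 319 1790 (.cons 273 (.leaf 274 2170 (.cons 297 (.leaf 200 1604 (.leaf 321 1796 .nil)) .nil)) .nil)) (.cons 201 (.leaf 225 1605 (.cons 319 (.leaf 295 1790 (.cons 320 (.leaf 343 1982 (.cons 321 (.leaf 297 1796 (.leaf 345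 1988 .nil)) .nil)) .nil)) .nil)) .nil))))) (.cons 224 t89 (.cons 224 (.cons 297 (.leaf 321 1796 (.cons 200 (.leaf 273 1604 (.cons 175 (.leaf 199 1407 (.cons 176 (.leaf 151 1215 (.cons 201 (.leaf 177 1413 (.leaf 225 1605 .nil)) .nil)) .nil)) .nil)) .nil)) (.cons 297 (.leaf 321 1796 (.cons 200 (.leaf 273 1604 (.cons 175 (.leaf 199 1407 (.cons 176 (.leaf 151 1215 (.cons 271 (.leaf 295 1598 (.leaf 247 1406 .nil)) .nil)) .nil)) .nil)) .nil)) (.cons 201 (.leaf 225 1605 (.cons 200 (.leaf 177 1413 (.cons 175 (.leaf 199 1407 (.cons 176 (.leaf 151 1215 (.cons 271 (.leaf 295 1598 (.leaf 247 1406 .nil)) .nil)) .nil)) .nil)) .nil)) (.cons 225 (.leaf 201 1605 (.cons 320 (.leaf 249 1797 (.cons 321 (.leaf 297 1796 (.leaf 345 1988 .nil)) .nil)) .nil)) .nil)))) (.cons 320 (.cons 319 (.leaf 343 1982 (.cons 295 (.leaf 224 1790 (.cons 273 (.leaf 274 2170 (.cons 294 (.leaf 293 2153 (.cons 321 (.leaf 345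 1988 (.leaf 322 2355 .nil)) .nil)) .nil)) .nil)) .nil)) (.cons 319 (.leaf 343 1982 (.cons 295 (.leaf 224 1790 (.cons 273 (.leaf 274 2170 (.cons 293 (.leaf 294 2153 (.cons 344 (.leaf 249 1989 (.cons 368 (.leaf 271 2175 (.leaf 297 2181 .nil)) .nil)) .nil)) .nil)) .nil)) .nil)) (.cons 345 (.leaf 321 1988 (.cons 344 (.leaf 369 2180 (.cons 273 (.leaf 249 1989 (.cons 247 (.leaf 274 1979 (.leaf 271 1983 .nil)) .nil)) .nil)) .nil)) (.cons 319 (.leaf 343 1982 (.cons 295 (.leaf 224 1790 (.cons 321 (.leaf 345 1988 (.cons 294 (.leaf 293 2344 (.leaf 322 2355 .nil)) .nil)) .nil)) .nil)) .nil)))) (.cons 320 (.cons 319 (.leaf 343 1982 (.cons 295 (.leaf 224 1790 (.cons 273 (.leaf 274 2170 (.cons 294 (.leaf 293 2153 (.cons 321 (.leaf 345 1988 (.leaf 322 2355 .nil)) .nil)) .nil)) .nil)) .nil)) (.cons 345 (.leaf 321 1988 (.cons 344 (.leaf 369 2180 (.cons 273 (.leaf 249 1989 (.cons 247 (.leaf 274 1979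 (.leaf 271 1983 .nil)) .nil)) .nil)) .nil)) (.cons 319 (.leaf 343 1982 (.cons 295 (.leaf 224 1790 (.cons 273 (.leaf 274 2170 (.cons 293 (.leaf 294 2153 (.cons 344 (.leaf 249 1989 (.cons 271 (.leaf 247 1980 (.leaf 368 2175 .nil)) .nil)) .nil)) .nil)) .nil)) .nil)) (.cons 319 (.leaf 343 1982 (.cons 295 (.leaf 224 1790 (.cons 321 (.leaf 345 1988 (.cons 294 (.leaf 293 2344 (.leaf 322 2355 .nil)) .nil)) .nil)) .nil)) .nil)))) .nil))))))
noncomputable def t91 : T := .cons 297 (.leaf 321 1796 (.cons 200 (.leaf 273 1604 (.cons 175 (.leaf 199 1407 (.cons 176 (.leaf 151 1215 (.cons 201 (.leaf 177 1413 (.leaf 225 1605 .nil)) .nil)) .nil)) .nil)) .nil)) (.cons 295 (.leaf 319 1790 (.cons 200 (.leaf 271 1598 (.cons 175 (.leaf 199 1407 (.cons 176 (.leaf 151 1215 (.cons 177 (.leaf 201 1413 (.leaf 153 1221 .nil)) .nil)) .nil)) .nil)) .nil)) (.cons 295 (.leaf 319 1790 (.cons 273 (.leaf 274 2170 (.cons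 297 (.leaf 200 1604 (.leaf 321 1796 .nil)) .nil)) .nil)) (.cons 295 (.leaf 319 1790 (.cons 273 (.leaf 274 2170 (.cons 297 (.leaf 321 1796 (.cons 294 (.leaf 293 2153 (.cons 270 (.leaf 269 2155 (.cons 225 (.leaf 201 1605 (.cons 318 (.leaf 317 2346 (.cons 247 (.cons 246 (.leaf 245 1960 (.cons 342 (.leaf 271 1973 (.cons 226 (.leaf 227 1786 (.leaf 249 1777 .nil)) .nil)) .nil)) (.cons 226 (.leaf 227 1786 (.cons 249 (.leaf 202 1613 (.cons 271 (.leaf 250 1969 (.leaf 342 1973 .nil)) .nil)) .nil)) (.cons 246 (.leaf 245 1960 (.cons 226 (.leaf 227 1786 (.leaf 249 1777 .nil)) .nil)) (.cons 246 (.leaf 245 1960 (.cons 342 (.leaf 271 1973 (.cons 365 (.leaf 341 2158 (.cons 366 (.leaf 389 2350 (.cons 367 (.leaf 343 2164 (.leaf 391 2356 .nil)) .nil)) .nil)) .nil)) .nil)) .nil)))) .nil)) .nil)) .nil)) .nil)) .nil)) .nil)) .nil)) .nil)))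
noncomputable def t92 : T := .cons 224 (.cons 295 (.leaf 319 1790 (.cons 200 (.leaf 271 1598 (.cons 273 (.leaf 274 2170 (.leaf 297 1604 .nil)) .nil)) .nil)) (.cons 225 (.leaf 201 1605 (.cons 320 (.leaf 249 1797 (.cons 321 (.leaf 297 1796 (.leaf 345 1988 .nil)) .nil)) .nil)) (.cons 295 (.leaf 319 1790 (.cons 200 (.leaf 271 1598 (.cons 175 (.leaf 199 1407 (.cons 176 (.leaf 151 1215 (.cons 177 (.leaf 201 1413 (.leaf 153 1221 .nil)) .nil)) .nil)) .nil)) .nil)) .nil))) (.cons 320 (.cons 225 (.leaf 249 1797 (.cons 224 (.leaf 201 1605 (.cons 321 (.leaf 297 1796 (.leaf 345 1988 .nil)) .nil)) .nil)) (.cons 225 (.leaf 249 1797 (.cons 224 (.leaf 201 1605 (.cons 295 (.leaf 319 1790 (.cons 271 (.leaf 200 1598 (.cons 344 (.leaf 247 1983 (.leaf 368 2175 .nil)) .nil)) .nil)) .nil)) .nil)) (.cons 319 (.leaf 343 1982 (.cons 224 (.leaf 295 1790 (.cons 321 (.leaf 297 1796 (.leaf 345 1988 .nil)) .nil))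 .nil)) (.cons 225 (.leaf 249 1797 (.cons 343 (.leaf 319 1982 (.cons 344 (.leaf 367 2174 (.cons 345 (.leaf 321 1988 (.leaf 369 2180 .nil)) .nil)) .nil)) .nil)) .nil)))) (.cons 224 t91 t90))
noncomputable def t93 : T := .cons 344 (.leaf 249 1989 (.cons 247 (.leaf 271 1983 (.cons 248 (.leaf 223 1791 (.cons 345 (.leaf 321 1988 (.leaf 369 2180 .nil)) .nil)) .nil)) .nil)) (.cons 248 (.cons 223 (.leaf 247 1791 (.cons 224 (.leaf 199 1599 (.cons 297 (.leaf 200 1604 (.leaf 321 1796 .nil)) .nil)) .nil)) (.cons 247 (.leaf 223 1791 (.cons 246 (.leaf 245 1960 (.cons 249 (.leaf 225 1797 (.cons 221 (.leaf 222 1771 (.cons 270 (.leaf 269 1962 (.cons 250 (.leaf 271 1969 (.cons 227 (.leaf 226 1785 (.cons 251 (.leaf 252 1986 (.leaf 228 1793 .nil)) .nil)) .nil)) .nil)) .nil)) .nil)) .nil)) .nil)) (.cons 225 (.leaf 249 1797 (.cons 224 (.leaf 201 1605 (.cons 321 (.leaf 297 1796 (.leaf 345 1988 .nil)) .nil))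 .nil)) .nil))) (.cons 344 (.cons 247 (.leaf 271 1983 (.cons 248 (.leaf 223 1791 (.cons 345 (.leaf 321 1988 (.leaf 369 2180 .nil)) .nil)) .nil)) (.cons 368 (.leaf 297 2181 (.cons 271 (.leaf 247 1983 (.leaf 295 2175 .nil)) .nil)) (.cons 368 (.leaf 297 2181 (.cons 367 (.leaf 343 2174 (.leaf 391 2366 .nil)) .nil)) .nil))) (.cons 344 (.leaf 249 1989 (.cons 368 (.leaf 297 2181 (.cons 271 (.leaf 247 1983 (.leaf 295 2175 .nil)) .nil)) .nil)) (.cons 344 (.leaf 249 1989 (.cons 368 (.leaf 297 2181 (.cons 367 (.leaf 343 2174 (.leaf 391 2366 .nil)) .nil)) .nil)) .nil))))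
noncomputable def t94 : T := .cons 274 (.leaf 295 2170 (.cons 248 (.leaf 247 1979 (.cons 251 (.leaf 252 1985 (.cons 299 (.leaf 300 2176 (.cons 224 (.cons 297 (.leaf 200 1604 (.leaf 321 1796 .nil)) (.cons 250 (.leaf 271 1977 (.cons 223 (.leaf 199 1599 (.leaf 249 1787 .nil)) .nil)) .nil)) .nil)) .nil)) .nil)) .nil)) (.cons 320 t93 (.cons 320 (.cons 344 (.leaf 249 1989 (.cons 247 (.leaf 271 1983 (.cons 248 (.leaf 274 1979 (.leaf 223 1791 .nil)) .nil)) .nil)) (.cons 248 (.cons 223 (.leaf 247 1791 (.cons 224 (.leaf 199 1599 (.cons 297 (.leaf 200 1604 (.leaf 321 1796 .nil)) .nil)) .nil)) (.cons 225 (.leaf 249 1797 (.cons 224 (.leaf 201 1605 (.cons 321 (.leaf 297 1796 (.leaf 345 1988 .nil)) .nil)) .nil)) (.cons 247 (.leaf 274 1979 (.leaf 223 1791 .nil)) .nil))) (.cons 344 (.cons 247 (.leaf 271 1983 (.cons 248 (.leaf 274 1979 (.leaf 223 1791 .nil)) .nil)) (.cons 368 (.leaf 297 2181 (.cons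 367 (.leaf 343 2174 (.leaf 391 2366 .nil)) .nil)) .nil)) (.cons 344 (.leaf 249 1989 (.cons 368 (.leaf 297 2181 (.cons 367 (.leaf 343 2174 (.leaf 391 2366 .nil)) .nil)) .nil)) .nil)))) (.cons 274 (.leaf 295 2170 (.cons 251 (.leaf 252 1985 (.cons 250 (.leaf 271 1977 (.cons 299 (.leaf 300 2176 (.cons 226 (.leaf 202 1620 (.leaf 323 1815 .nil)) .nil)) .nil)) .nil)) .nil)) (.cons 274 (.leaf 295 2170 (.cons 248 (.leaf 247 1979 (.cons 251 (.leaf 252 1985 (.cons 299 (.leaf 300 2176 (.cons 224 (.cons 297 (.leaf 200 1604 (.leaf 321 1796 .nil)) (.cons 225 (.leaf 201 1605 (.cons 199 (.leaf 223 1599 (.cons 200 (.leaf 175 1407 (.cons 249 (.leaf 320 1797 (.leaf 176 1412 .nil)) .nil)) .nil)) .nil)) (.cons 321 (.leaf 297 1796 (.cons 199 (.leaf 223 1599 (.cons 225 (.leaf 201 1605 (.cons 320 (.leaf 249 1797 (.leaf 345 1988 .nil)) .nil)) .nil)) .nil)) .nil))) .nil)) .nil)) .nil)) .nil)) .nil))))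
noncomputable def t95 : T := .leaf 247 1979 (.cons 299 (.leaf 300 2176 (.cons 224 (.cons 225 (.leaf 201 1605 (.cons 320 (.leaf 249 1797 (.cons 321 (.leaf 345 1988 (.cons 343 (.leaf 319 1982 (.cons 344 (.leaf 367 2174 (.cons 323 (.leaf 322 2554 (.cons 347 (.leaf 250 2007 (.cons 370 (.leaf 346 2198 (.cons 371 (.leaf 394 2390 (.cons 372 (.leaf 348 2204 (.leaf 396 2396 .nil)) .nil)) .nil)) .nil)) .nil)) .nil)) .nil)) .nil)) .nil)) .nil)) (.cons 251 (.leaf 252 1985 (.cons 199 (.leaf 223 1599 (.cons 200 (.leaf 175 1407 (.cons 176 (.leaf 249 1412 (.cons 177 (.leaf 201 1413 (.leaf 153 1221 .nil)) .nil)) .nil)) .nil)) .nil)) (.cons 251 (.leaf 252 1985 (.cons 199 (.leaf 223 1599 (.cons 200 (.leaf 175 1407 (.cons 249 (.leaf 176 1412 (.cons 320 (.leaf 225 1797 (.leaf 344 1989 .nil)) .nil)) .nil)) .nil)) .nil)) (.cons 251 (.leaf 252 1985 (.cons 199 (.leaf 223 1599 (.cons 175 (.leaf 200 1407 (.cons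 201 (.leaf 225 1605 (.cons 250 (.leaf 271 1977 (.cons 226 (.leaf 202 1620 (.leaf 323 1815 .nil)) .nil)) .nil)) .nil)) .nil)) .nil)) .nil)))) .nil)) .nil)
noncomputable def t96 : T := .cons 248 t95 (.cons 251 (.leaf 252 1985 (.cons 250 (.leaf 271 1977 (.cons 299 (.leaf 300 2176 (.cons 226 (.leaf 202 1620 (.leaf 323 1815 .nil)) .nil)) .nil)) .nil)) (.cons 248 (.leaf 247 1979 (.cons 299 (.leaf 300 2176 (.cons 224 (.cons 225 (.leaf 201 1605 (.cons 320 (.leaf 249 1797 (.cons 321 (.leaf 345 1988 (.cons 343 (.leaf 319 1982 (.cons 344 (.leaf 367 2174 (.cons 323 (.leaf 322 2554 (.cons 347 (.leaf 250 2007 (.cons 370 (.leaf 346 2198 (.cons 371 (.leaf 394 2390 (.cons 372 (.leaf 348 2204 (.leaf 396 2396 .nil)) .nil)) .nil)) .nil)) .nil)) .nil)) .nil)) .nil)) .nil)) .nil)) (.cons 199 (.leaf 223 1599 (.cons 200 (.leaf 175 1407 (.cons 176 (.leaf 249 1412 (.cons 177 (.leaf 201 1413 (.leaf 153 1221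 .nil)) .nil)) .nil)) .nil)) (.cons 199 (.leaf 223 1599 (.cons 200 (.leaf 175 1407 (.cons 249 (.leaf 176 1412 (.cons 320 (.leaf 225 1797 (.leaf 344 1989 .nil)) .nil)) .nil)) .nil)) (.cons 201 (.leaf 225 1605 (.cons 199 (.leaf 223 1599 (.cons 200 (.leaf 175 1407 (.leaf 177 1413 .nil)) .nil)) .nil)) .nil)))) .nil)) .nil)) (.cons 247 (.leaf 248 1979 (.cons 251 (.leaf 252 1985 (.cons 271 (.leaf 246 1971 (.leaf 250 1977 .nil)) .nil)) .nil)) (.cons 248 (.leaf 247 1979 (.cons 251 (.leaf 252 1985 (.cons 299 (.leaf 300 2176 (.cons 224 (.cons 199 (.leaf 223 1599 (.cons 200 (.leaf 175 1407 (.cons 201 (.leaf 177 1413 (.leaf 225 1605 .nil)) .nil)) .nil)) (.cons 199 (.leaf 223 1599 (.cons 200 (.leaf 175 1407 (.cons 176 (.leaf 249 1412 (.cons 177 (.leaf 201 1413 (.leaf 153 1221 .nil)) .nil)) .nil)) .nil)) (.cons 199 (.leaf 223 1599 (.cons 200 (.leaf 175 1407 (.cons 249 (.leaf 176 1412 (.cons 320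 (.leaf 225 1797 (.leaf 344 1989 .nil)) .nil)) .nil)) .nil)) (.cons 225 (.leaf 201 1605 (.cons 320 (.leaf 249 1797 (.cons 343 (.leaf 319 1982 (.cons 344 (.leaf 367 2174 (.cons 345 (.leaf 321 1988 (.leaf 369 2180 .nil)) .nil)) .nil)) .nil)) .nil)) .nil)))) .nil)) .nil)) .nil)) .nil))))
noncomputable def t97 : T := .cons 248 (.cons 225 (.leaf 249 1797 (.cons 224 (.leaf 201 1605 (.cons 319 (.leaf 295 1790 (.leaf 343 1982 .nil)) .nil)) .nil)) (.cons 247 (.leaf 223 1791 (.cons 245 (.leaf 246 1960 (.cons 344 (.leaf 271 1983 (.cons 345 (.leaf 321 1988 (.leaf 369 2180 .nil)) .nil)) .nil)) .nil)) .nil)) (.cons 248 (.cons 225 (.leaf 249 1797 (.cons 224 (.leaf 201 1605 (.cons 319 (.leaf 295 1790 (.leaf 343 1982 .nil)) .nil)) .nil)) (.cons 319 (.leaf 343 1982 (.cons 224 (.leaf 295 1790 (.cons 223 (.leaf 199 1599 (.leaf 247 1791 .nil)) .nil)) .nil)) (.cons 247 (.leaf 223 1791 (.cons 246 (.leaf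 245 1960 (.cons 249 (.leaf 225 1797 (.cons 221 (.leaf 222 1771 (.cons 270 (.leaf 269 1962 (.cons 250 (.leaf 271 1969 (.cons 227 (.leaf 226 1785 (.cons 251 (.leaf 252 1986 (.leaf 228 1793 .nil)) .nil)) .nil)) .nil)) .nil)) .nil)) .nil)) .nil)) .nil))) (.cons 248 (.cons 319 (.leaf 343 1982 (.cons 224 (.leaf 295 1790 (.cons 223 (.leaf 199 1599 (.leaf 247 1791 .nil)) .nil)) .nil)) (.cons 319 (.leaf 343 1982 (.cons 224 (.leaf 295 1790 (.cons 345 (.leaf 321 1988 (.cons 199 (.leaf 223 1599 (.cons 200 (.leaf 175 1407 (.cons 201 (.leaf 177 1413 (.leaf 225 1605 .nil)) .nil)) .nil)) .nil)) .nil)) .nil)) (.cons 247 (.leaf 223 1791 (.cons 245 (.leaf 246 1960 (.cons 344 (.leaf 271 1983 (.cons 345 (.leaf 321 1988 (.leaf 369 2180 .nil)) .nil)) .nil)) .nil)) (.cons 319 (.leaf 343 1982 (.cons 295 (.leaf 224 1790 (.cons 294 (.leaf 293 2153 (.cons 321 (.leaf 345 1988 (.leaf 322 2355 .nil)) .nil)) .nil))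 .nil)) .nil)))) (.cons 344 (.leaf 249 1989 (.cons 247 (.leaf 271 1983 (.cons 367 (.leaf 343 2174 (.cons 368 (.leaf 391 2366 (.cons 369 (.leaf 345 2180 (.leaf 393 2372 .nil)) .nil)) .nil)) .nil)) .nil)) (.cons 344 (.leaf 249 1989 (.cons 343 (.leaf 367 2174 (.cons 248 (.leaf 319 1982 (.cons 345 (.leaf 321 1988 (.leaf 369 2180 .nil)) .nil)) .nil)) .nil)) (.cons 344 (.leaf 249 1989 (.cons 247 (.leaf 271 1983 (.cons 248 (.leaf 223 1791 (.cons 345 (.leaf 321 1988 (.leaf 369 2180 .nil)) .nil)) .nil)) .nil)) .nil)))))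
noncomputable def t98 : T := .cons 274 (.leaf 295 2170 (.cons 248 (.leaf 247 1979 (.cons 299 (.leaf 300 2176 (.cons 224 (.cons 225 (.leaf 201 1605 (.cons 320 (.leaf 249 1797 (.cons 321 (.leaf 345 1988 (.cons 343 (.leaf 319 1982 (.cons 344 (.leaf 367 2174 (.cons 323 (.leaf 322 2554 (.cons 347 (.leaf 250 2007 (.cons 370 (.leaf 346 2198 (.cons 371 (.leaf 394 2390 (.cons 372 (.leaf 348 2204 (.leaf 396 2396 .nil)) .nil)) .nil)) .nil)) .nil)) .nil)) .nil)) .nil)) .nil)) .nil)) (.cons 199 (.leaf 223 1599 (.cons 200 (.leaf 175 1407 (.cons 176 (.leaf 249 1412 (.cons 177 (.leaf 201 1413 (.leaf 153 1221 .nil)) .nil)) .nil)) .nil)) (.cons 199 (.leaf 223 1599 (.cons 200 (.leaf 175 1407 (.cons 249 (.leaf 176 1412 (.cons 320 (.leaf 225 1797 (.leaf 344 1989 .nil)) .nil)) .nil)) .nil)) (.cons 251 (.leaf 252 1985 (.cons 199 (.leaf 223 1599 (.cons 175 (.leaf 200 1407 (.cons 201 (.leaf 225 1605 (.cons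 250 (.leaf 271 1977 (.cons 226 (.leaf 202 1620 (.leaf 323 1815 .nil)) .nil)) .nil)) .nil)) .nil)) .nil)) .nil)))) .nil)) .nil)) .nil)) (.cons 320 t97 (.cons 274 t96 (.cons 274 (.leaf 295 2170 (.cons 251 (.leaf 252 1985 (.cons 250 (.leaf 271 1977 (.cons 299 (.leaf 300 2176 (.cons 226 (.leaf 202 1620 (.leaf 323 1815 .nil)) .nil)) .nil)) .nil)) .nil)) (.cons 274 (.leaf 295 2170 (.cons 248 (.leaf 247 1979 (.cons 299 (.leaf 300 2176 (.cons 224 (.cons 199 (.leaf 223 1599 (.cons 200 (.leaf 175 1407 (.cons 201 (.leaf 177 1413 (.leaf 225 1605 .nil)) .nil)) .nil)) (.cons 199 (.leaf 223 1599 (.cons 200 (.leaf 175 1407 (.cons 176 (.leaf 249 1412 (.cons 177 (.leaf 201 1413 (.leaf 153 1221 .nil)) .nil)) .nil)) .nil)) (.cons 199 (.leaf 223 1599 (.cons 200 (.leaf 175 1407 (.cons 249 (.leaf 176 1412 (.cons 320 (.leaf 225 1797 (.leaf 344 1989 .nil)) .nil)) .nil)) .nil)) (.cons 225 (.leaf 201 1605 (.cons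 320 (.leaf 249 1797 (.cons 321 (.leaf 345 1988 (.cons 343 (.leaf 319 1982 (.cons 344 (.leaf 367 2174 (.cons 323 (.leaf 322 2554 (.cons 347 (.leaf 250 2007 (.cons 370 (.leaf 346 2198 (.cons 371 (.leaf 394 2390 (.cons 372 (.leaf 348 2204 (.leaf 396 2396 .nil)) .nil)) .nil)) .nil)) .nil)) .nil)) .nil)) .nil)) .nil)) .nil)) .nil)))) .nil)) .nil)) .nil)) (.cons 274 (.leaf 295 2170 (.cons 248 (.leaf 247 1979 (.cons 251 (.leaf 252 1985 (.cons 299 (.leaf 300 2176 (.cons 224 (.cons 199 (.leaf 223 1599 (.cons 200 (.leaf 175 1407 (.cons 201 (.leaf 177 1413 (.leaf 225 1605 .nil)) .nil)) .nil)) (.cons 199 (.leaf 223 1599 (.cons 200 (.leaf 175 1407 (.cons 176 (.leaf 249 1412 (.cons 177 (.leaf 201 1413 (.leaf 153 1221 .nil)) .nil)) .nil)) .nil)) (.cons 199 (.leaf 223 1599 (.cons 200 (.leaf 175 1407 (.cons 249 (.leaf 176 1412 (.cons 320 (.leaf 225 1797 (.leaf 344 1989 .nil)) .nil)) .nil)) .nil))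 (.cons 225 (.leaf 201 1605 (.cons 320 (.leaf 249 1797 (.cons 343 (.leaf 319 1982 (.cons 344 (.leaf 367 2174 (.cons 345 (.leaf 321 1988 (.leaf 369 2180 .nil)) .nil)) .nil)) .nil)) .nil)) .nil)))) .nil)) .nil)) .nil)) .nil)) .nil)))))
noncomputable def t99 : T := .cons 248 (.cons 247 (.leaf 223 1791 (.cons 246 (.leaf 245 1960 (.cons 249 (.leaf 225 1797 (.leaf 344 1989 .nil)) .nil)) .nil)) (.cons 247 (.leaf 223 1791 (.cons 245 (.leaf 246 1960 (.cons 271 (.leaf 344 1983 (.cons 319 (.leaf 343 1982 (.cons 224 (.leaf 295 1789 (.cons 200 (.leaf 297 1604 (.leaf 176 1406 .nil)) .nil)) .nil)) .nil)) .nil)) .nil)) (.cons 247 (.leaf 223 1791 (.cons 249 (.leaf 225 1797 (.cons 246 (.leaf 245 1960 (.cons 222 (.leaf 221 1771 (.cons 270 (.leaf 269 1962 (.cons 319 (.leaf 343 1982 (.cons 295 (.leaf 224 1790 (.leaf 271 1783 .nil)) .nil)) .nil)) .nil)) .nil)) .nil)) .nil)) (.cons 249 (.leaf 225 1797 (.leaf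 344 1989 .nil)) .nil)))) (.cons 248 (.cons 247 (.leaf 223 1791 (.cons 249 (.leaf 225 1797 (.cons 246 (.leaf 245 1960 (.cons 222 (.leaf 221 1771 (.cons 270 (.leaf 269 1962 (.cons 319 (.leaf 343 1982 (.cons 295 (.leaf 224 1790 (.leaf 271 1783 .nil)) .nil)) .nil)) .nil)) .nil)) .nil)) .nil)) (.cons 319 (.leaf 343 1982 (.cons 224 (.leaf 295 1790 (.cons 223 (.leaf 199 1599 (.leaf 247 1791 .nil)) .nil)) .nil)) (.cons 319 (.leaf 343 1982 (.cons 224 (.leaf 295 1790 (.cons 225 (.leaf 201 1605 (.leaf 249 1797 .nil)) .nil)) .nil)) (.cons 225 (.leaf 249 1797 (.cons 223 (.leaf 247 1791 (.cons 224 (.leaf 199 1599 (.leaf 201 1605 .nil)) .nil)) .nil)) (.cons 249 (.leaf 225 1797 (.cons 247 (.leaf 223 1791 (.cons 246 (.leaf 245 1960 (.cons 222 (.leaf 221 1771 (.cons 270 (.leaf 269 1962 (.cons 319 (.leaf 343 1982 (.cons 295 (.leaf 271 1783 (.leaf 294 1780 .nil)) .nil)) .nil)) .nil)) .nil)) .nil)) .nil))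 .nil))))) (.cons 344 (.cons 297 (.leaf 368 2181 (.cons 343 (.leaf 367 2174 (.cons 319 (.leaf 248 1982 (.cons 318 (.leaf 317 2345 (.cons 345 (.leaf 369 2180 (.leaf 346 2547 .nil)) .nil)) .nil)) .nil)) .nil)) (.cons 343 (.leaf 367 2174 (.cons 247 (.leaf 271 1983 (.cons 248 (.leaf 223 1791 (.leaf 319 1982 .nil)) .nil)) .nil)) (.cons 368 (.leaf 297 2181 (.cons 271 (.leaf 247 1983 (.leaf 295 2175 .nil)) .nil)) .nil))) (.cons 344 (.leaf 249 1989 (.cons 368 (.leaf 297 2181 (.cons 271 (.leaf 247 1983 (.leaf 295 2175 .nil)) .nil)) .nil)) (.cons 248 (.cons 319 (.leaf 343 1982 (.cons 224 (.leaf 295 1790 (.cons 223 (.leaf 199 1599 (.leaf 247 1791 .nil)) .nil)) .nil)) (.cons 225 (.leaf 249 1797 (.cons 223 (.leaf 247 1791 (.cons 224 (.leaf 199 1599 (.leaf 201 1605 .nil)) .nil)) .nil)) (.cons 249 (.leaf 225 1797 (.leaf 344 1989 .nil)) .nil))) (.cons 344 (.leaf 249 1989 (.cons 368 (.leaf 297 2181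 (.cons 367 (.leaf 343 2174 (.leaf 391 2366 .nil)) .nil)) .nil)) .nil)))))
noncomputable def t100 : T := .cons 274 (.leaf 295 2170 (.cons 247 (.leaf 248 1979 (.cons 251 (.leaf 252 1985 (.cons 271 (.leaf 246 1971 (.leaf 250 1977 .nil)) .nil)) .nil)) .nil)) (.cons 320 t99 (.cons 274 (.cons 247 (.leaf 248 1979 (.cons 251 (.leaf 252 1985 (.cons 271 (.leaf 246 1971 (.leaf 250 1977 .nil)) .nil)) .nil)) (.cons 251 (.leaf 252 1985 (.cons 250 (.leaf 271 1977 (.cons 299 (.leaf 300 2176 (.cons 226 (.leaf 202 1620 (.leaf 323 1815 .nil)) .nil)) .nil)) .nil)) (.cons 248 (.leaf 247 1979 (.cons 299 (.leaf 300 2176 (.cons 224 (.cons 199 (.leaf 223 1599 (.cons 200 (.leaf 175 1407 (.leaf 297 1604 .nil)) .nil)) (.cons 199 (.leaf 223 1599 (.cons 225 (.leaf 201 1605 (.cons 320 (.leaf 249 1797 (.cons 343 (.leaf 319 1982 (.cons 344 (.leaf 367 2174 (.cons 368 (.leaf 297 2181 (.cons 369 (.leaf 345 2180 (.leaf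 393 2372 .nil)) .nil)) .nil)) .nil)) .nil)) .nil)) .nil)) (.cons 200 (.leaf 297 1604 (.cons 201 (.leaf 177 1413 (.leaf 225 1605 .nil)) .nil)) (.cons 199 (.leaf 223 1599 (.cons 200 (.leaf 175 1407 (.cons 201 (.leaf 177 1413 (.leaf 225 1605 .nil)) .nil)) .nil)) .nil)))) .nil)) .nil)) .nil))) (.cons 274 (.leaf 295 2170 (.cons 251 (.leaf 252 1985 (.cons 250 (.leaf 271 1977 (.cons 299 (.leaf 300 2176 (.cons 226 (.leaf 202 1620 (.leaf 323 1815 .nil)) .nil)) .nil)) .nil)) .nil)) (.cons 274 (.leaf 295 2170 (.cons 248 (.leaf 247 1979 (.cons 299 (.leaf 300 2176 (.cons 224 (.cons 199 (.leaf 223 1599 (.cons 200 (.leaf 175 1407 (.leaf 297 1604 .nil)) .nil)) (.cons 199 (.leaf 223 1599 (.cons 225 (.leaf 201 1605 (.cons 320 (.leaf 249 1797 (.cons 343 (.leaf 319 1982 (.cons 344 (.leaf 367 2174 (.cons 368 (.leaf 297 2181 (.cons 369 (.leaf 345 2180 (.leaf 393 2372 .nil)) .nil)) .nil)) .nil)) .nil))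 .nil)) .nil)) (.cons 200 (.leaf 297 1604 (.cons 201 (.leaf 177 1413 (.leaf 225 1605 .nil)) .nil)) (.cons 199 (.leaf 223 1599 (.cons 200 (.leaf 175 1407 (.cons 201 (.leaf 177 1413 (.leaf 225 1605 .nil)) .nil)) .nil)) .nil)))) .nil)) .nil)) .nil)) .nil))))
noncomputable def t101 : T := .cons 201 (.leaf 225 1605 (.cons 223 (.leaf 199 1599 (.cons 247 (.leaf 320 1791 (.cons 200 (.leaf 177 1413 (.cons 176 (.leaf 271 1406 (.leaf 152 1214 .nil)) .nil)) .nil)) .nil)) .nil)) (.cons 295 (.leaf 319 1790 (.cons 200 (.leaf 271 1598 (.cons 175 (.leaf 199 1407 (.cons 176 (.leaf 151 1215 (.cons 177 (.leaf 201 1413 (.leaf 153 1221 .nil)) .nil)) .nil)) .nil)) .nil)) (.cons 295 (.leaf 319 1790 (.cons 200 (.leaf 271 1598 (.cons 201 (.leaf 177 1413 (.leaf 225 1605 .nil)) .nil)) .nil)) (.cons 199 (.leaf 223 1599 (.cons 200 (.leaf 175 1407 (.cons 295 (.leaf 271 1598 (.leaf 319 1790 .nil)) .nil)) .nil)) (.cons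 201 (.leaf 225 1605 (.cons 223 (.leaf 199 1599 (.cons 247 (.leaf 320 1791 (.cons 273 (.leaf 274 1979 (.cons 245 (.leaf 246 1960 (.cons 295 (.leaf 319 1790 (.cons 294 (.leaf 293 2153 (.cons 271 (.leaf 318 1782 (.cons 222 (.leaf 198 1591 (.cons 221 (.leaf 220 1760 (.leaf 244 1762 .nil)) .nil)) .nil)) .nil)) .nil)) .nil)) .nil)) .nil)) .nil)) .nil)) (.cons 223 (.leaf 199 1599 (.cons 201 (.leaf 225 1605 (.cons 177 (.leaf 200 1413 (.cons 319 (.leaf 295 1790 (.cons 320 (.leaf 247 1791 (.leaf 343 1982 .nil)) .nil)) .nil)) .nil)) .nil)) .nil)))))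
noncomputable def t102 : T := .cons 201 (.leaf 225 1605 (.cons 223 (.leaf 199 1599 (.cons 297 (.leaf 321 1796 (.cons 320 (.leaf 247 1791 (.cons 343 (.leaf 319 1982 (.cons 200 (.leaf 177 1413 (.leaf 273 1604 .nil)) .nil)) .nil)) .nil)) .nil)) .nil)) (.cons 201 (.leaf 225 1605 (.cons 200 (.leaf 177 1413 (.cons 297 (.leaf 273 1604 (.leaf 321 1796 .nil)) .nil)) .nil)) (.cons 223 (.leaf 199 1599 (.cons 201 (.leaf 225 1605 (.cons 177 (.leaf 200 1413 (.cons 320 (.leaf 247 1791 (.cons 343 (.leaf 319 1982 (.cons 344 (.leaf 367 2174 (.cons 345 (.leaf 321 1988 (.leaf 369 2180 .nil)) .nil)) .nil)) .nil)) .nil)) .nil)) .nil)) (.cons 199 (.leaf 223 1599 (.cons 200 (.leaf 175 1407 (.cons 297 (.leaf 273 1604 (.leaf 321 1796 .nil)) .nil)) .nil)) (.cons 223 (.leaf 199 1599 (.cons 201 (.leaf 225 1605 (.cons 200 (.leaf 177 1413 (.cons 202 (.leaf 203 1594 (.cons 221 (.leaf 222 1577 (.cons 247 (.leaf 320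 1791 (.cons 176 (.leaf 271 1406 (.leaf 152 1214 .nil)) .nil)) .nil)) .nil)) .nil)) .nil)) .nil)) (.cons 201 (.leaf 225 1605 (.cons 223 (.leaf 199 1599 (.cons 320 (.leaf 247 1791 (.cons 321 (.leaf 297 1796 (.leaf 345 1988 .nil)) .nil)) .nil)) .nil)) .nil)))))
noncomputable def t103 : T := .cons 247 (.leaf 223 1791 (.cons 271 (.leaf 344 1983 (.cons 273 (.leaf 274 1979 (.cons 246 (.leaf 245 1960 (.cons 319 (.leaf 343 1982 (.cons 295 (.leaf 222 1783 (.cons 293 (.leaf 294 2153 (.cons 318 (.leaf 342 1974 (.cons 317 (.leaf 316 2337 (.leaf 297 2345 .nil)) .nil)) .nil)) .nil)) .nil)) .nil)) .nil)) .nil)) .nil)) (.cons 343 (.leaf 319 1982 (.cons 344 (.leaf 367 2174 (.cons 345 (.leaf 321 1988 (.leaf 369 2180 .nil)) .nil)) .nil)) (.cons 247 (.leaf 223 1791 (.cons 273 (.leaf 274 1979 (.cons 245 (.leaf 246 1960 (.cons 344 (.leaf 271 1983 (.cons 345 (.leaf 321 1988 (.leaf 369 2180 .nil)) .nil))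 .nil)) .nil)) .nil)) (.cons 247 (.leaf 223 1791 (.cons 273 (.leaf 274 1979 (.cons 321 (.leaf 345 1988 (.cons 319 (.leaf 343 1982 (.cons 246 (.leaf 245 1960 (.cons 294 (.cons 293 (.leaf 295 2344 (.leaf 318 2347 .nil)) (.cons 293 (.leaf 318 2347 (.cons 270 (.leaf 271 2154 (.cons 222 (.leaf 317 1774 (.cons 198 (.leaf 269 1582 (.cons 197 (.leaf 173 1391 (.leaf 221 1583 .nil)) .nil)) .nil)) .nil)) .nil)) (.cons 295 (.leaf 322 2355 (.cons 222 (.leaf 271 1783 (.leaf 270 1780 .nil)) .nil)) .nil))) .nil)) .nil)) .nil)) .nil)) .nil)) .nil)))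
noncomputable def t104 : T := .cons 224 (.cons 199 (.leaf 223 1599 (.cons 200 (.leaf 175 1407 (.cons 295 (.leaf 271 1598 (.leaf 319 1790 .nil)) .nil)) .nil)) (.cons 199 (.leaf 223 1599 (.cons 200 (.leaf 175 1407 (.cons 201 (.leaf 177 1413 (.leaf 225 1605 .nil)) .nil)) .nil)) (.cons 295 (.leaf 319 1790 (.cons 200 (.leaf 271 1598 (.cons 297 (.leaf 273 1604 (.leaf 321 1796 .nil)) .nil)) .nil)) (.cons 201 (.leaf 225 1605 (.cons 223 (.leaf 199 1599 (.cons 247 (.leaf 320 1791 (.cons 273 (.leaf 274 1979 (.cons 245 (.leaf 246 1960 (.cons 295 (.leaf 319 1790 (.cons 294 (.leaf 293 2153 (.cons 271 (.leaf 318 1782 (.cons 222 (.leaf 198 1591 (.cons 221 (.leaf 220 1760 (.leaf 244 1762 .nil)) .nil)) .nil)) .nil)) .nil)) .nil)) .nil)) .nil)) .nil)) .nil)) .nil)))) (.cons 320 t103 (.cons 224 (.cons 201 (.leaf 225 1605 (.cons 223 (.leaf 199 1599 (.cons 295 (.leaf 319 1790 (.cons 273 (.leaf 274 2170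 (.cons 294 (.leaf 293 2153 (.cons 297 (.leaf 200 1604 (.leaf 321 1796 .nil)) .nil)) .nil)) .nil)) .nil)) .nil)) (.cons 199 (.leaf 223 1599 (.cons 200 (.leaf 175 1407 (.cons 201 (.leaf 177 1413 (.leaf 225 1605 .nil)) .nil)) .nil)) (.cons 295 (.leaf 319 1790 (.cons 200 (.leaf 271 1598 (.cons 297 (.leaf 273 1604 (.leaf 321 1796 .nil)) .nil)) .nil)) (.cons 201 (.leaf 225 1605 (.cons 223 (.leaf 199 1599 (.cons 295 (.leaf 319 1790 (.cons 273 (.leaf 274 2170 (.cons 294 (.leaf 293 2153 (.cons 297 (.leaf 321 1796 (.cons 270 (.leaf 269 2155 (.cons 318 (.leaf 317 2346 (.cons 247 (.leaf 246 1781 (.leaf 271 1782 .nil)) .nil)) .nil)) .nil)) .nil)) .nil)) .nil)) .nil)) .nil)) .nil)))) (.cons 224 t102 (.cons 224 (.cons 201 (.leaf 225 1605 (.cons 200 (.leaf 177 1413 (.cons 297 (.leaf 273 1604 (.leaf 321 1796 .nil)) .nil)) .nil)) (.cons 199 (.leaf 223 1599 (.cons 200 (.leaf 175 1407 (.cons 295 (.leaf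 271 1598 (.leaf 319 1790 .nil)) .nil)) .nil)) (.cons 199 (.leaf 223 1599 (.cons 201 (.leaf 225 1605 (.cons 319 (.leaf 295 1790 (.cons 320 (.leaf 343 1982 (.cons 321 (.leaf 297 1796 (.leaf 345 1988 .nil)) .nil)) .nil)) .nil)) .nil)) .nil))) (.cons 224 (.cons 201 (.leaf 225 1605 (.cons 177 (.leaf 200 1413 (.cons 319 (.leaf 295 1790 (.cons 320 (.leaf 343 1982 (.cons 321 (.leaf 297 1796 (.leaf 345 1988 .nil)) .nil)) .nil)) .nil)) .nil)) (.cons 199 (.leaf 223 1599 (.cons 200 (.leaf 175 1407 (.cons 201 (.leaf 177 1413 (.leaf 225 1605 .nil)) .nil)) .nil)) (.cons 223 (.leaf 199 1599 (.cons 247 (.leaf 320 1791 (.cons 295 (.leaf 319 1790 (.cons 271 (.leaf 200 1597 (.cons 198 (.leaf 222 1591 (.cons 294 (.leaf 318 1782 (.cons 293 (.leaf 292 2145 (.cons 269 (.leaf 268 2147 (.cons 297 (.leaf 321 1796 (.leaf 270 2152 .nil)) .nil)) .nil)) .nil)) .nil)) .nil)) .nil)) .nil)) .nil)) (.cons 223 (.leaf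 199 1599 (.cons 201 (.leaf 225 1605 (.cons 320 (.leaf 247 1791 (.cons 321 (.leaf 297 1796 (.leaf 345 1988 .nil)) .nil)) .nil)) .nil)) .nil)))) (.cons 224 (.cons 199 (.leaf 223 1599 (.cons 200 (.leaf 175 1407 (.cons 201 (.leaf 177 1413 (.leaf 225 1605 .nil)) .nil)) .nil)) (.cons 201 (.leaf 225 1605 (.cons 200 (.leaf 177 1413 (.cons 297 (.leaf 273 1604 (.leaf 321 1796 .nil)) .nil)) .nil)) (.cons 199 (.leaf 223 1599 (.cons 200 (.leaf 175 1407 (.cons 297 (.leaf 273 1604 (.leaf 321 1796 .nil)) .nil)) .nil)) (.cons 223 (.leaf 199 1599 (.cons 201 (.leaf 225 1605 (.cons 320 (.leaf 247 1791 (.cons 321 (.leaf 297 1796 (.leaf 345 1988 .nil)) .nil)) .nil)) .nil)) .nil)))) (.cons 224 (.cons 201 (.leaf 225 1605 (.cons 319 (.leaf 295 1790 (.cons 320 (.leaf 343 1982 (.cons 321 (.leaf 297 1796 (.leaf 345 1988 .nil)) .nil)) .nil)) .nil)) (.cons 297 (.leaf 321 1796 (.cons 200 (.leaf 273 1604 (.cons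 201 (.leaf 177 1413 (.leaf 225 1605 .nil)) .nil)) .nil)) (.cons 295 (.leaf 319 1790 (.cons 200 (.leaf 271 1598 (.cons 175 (.leaf 199 1407 (.cons 176 (.leaf 151 1215 (.cons 177 (.leaf 201 1413 (.leaf 153 1221 .nil)) .nil)) .nil)) .nil)) .nil)) (.cons 295 (.leaf 319 1790 (.cons 200 (.leaf 271 1598 (.cons 297 (.leaf 273 1604 (.leaf 321 1796 .nil)) .nil)) .nil)) .nil)))) (.cons 224 t101 .nil))))))))
noncomputable def t105 : T := .cons 199 (.leaf 223 1599 (.cons 225 (.leaf 201 1605 (.cons 200 (.leaf 175 1407 (.cons 197 (.leaf 198 1576 (.cons 226 (.leaf 227 1595 (.cons 249 (.leaf 320 1797 (.cons 176 (.leaf 273 1412 (.leaf 152 1220 .nil)) .nil)) .nil)) .nil)) .nil)) .nil)) .nil)) (.cons 295 (.leaf 319 1790 (.cons 200 (.leaf 271 1598 (.cons 175 (.leaf 199 1407 (.cons 176 (.leaf 151 1215 (.cons 177 (.leaf 201 1413 (.leaf 153 1221 .nil)) .nil)) .nil)) .nil)) .nil)) (.cons 295 (.leaf 319 1790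 (.cons 200 (.leaf 271 1598 (.cons 201 (.leaf 177 1413 (.leaf 225 1605 .nil)) .nil)) .nil)) (.cons 295 (.leaf 319 1790 (.cons 199 (.leaf 223 1599 (.cons 200 (.leaf 175 1407 (.leaf 271 1598 .nil)) .nil)) .nil)) (.cons 223 (.leaf 199 1599 (.cons 201 (.leaf 225 1605 (.cons 247 (.leaf 320 1791 (.cons 273 (.leaf 274 1979 (.cons 245 (.leaf 246 1960 (.cons 295 (.leaf 319 1790 (.cons 294 (.leaf 293 2153 (.cons 271 (.leaf 318 1782 (.cons 222 (.leaf 198 1591 (.cons 221 (.leaf 220 1760 (.leaf 249 1768 .nil)) .nil)) .nil)) .nil)) .nil)) .nil)) .nil)) .nil)) .nil)) .nil)) .nil))))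
noncomputable def t106 : T := .cons 199 (.leaf 223 1599 (.cons 225 (.leaf 201 1605 (.cons 320 (.leaf 249 1797 (.cons 321 (.leaf 297 1796 (.leaf 345 1988 .nil)) .nil)) .nil)) .nil)) (.cons 199 (.leaf 223 1599 (.cons 319 (.leaf 295 1790 (.cons 320 (.leaf 343 1982 (.cons 321 (.leaf 297 1796 (.leaf 345 1988 .nil)) .nil)) .nil)) .nil)) (.cons 201 (.leaf 225 1605 (.cons 319 (.leaf 295 1790 (.cons 320 (.leaf 343 1982 (.cons 321 (.leaf 297 1796 (.leaf 345 1988 .nil)) .nil)) .nil)) .nil)) (.cons 199 (.leaf 223 1599 (.cons 225 (.leaf 201 1605 (.cons 200 (.leaf 175 1407 (.cons 197 (.leaf 198 1576 (.cons 226 (.leaf 227 1595 (.cons 249 (.leaf 320 1797 (.cons 273 (.leaf 297 1604 (.leaf 176 1412 .nil)) .nil)) .nil)) .nil)) .nil)) .nil)) .nil)) (.cons 199 (.leaf 223 1599 (.cons 225 (.leaf 201 1605 (.cons 200 (.leaf 175 1407 (.cons 197 (.leaf 198 1576 (.cons 226 (.leaf 227 1595 (.cons 249 (.leaf 320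 1797 (.cons 176 (.leaf 273 1412 (.leaf 152 1220 .nil)) .nil)) .nil)) .nil)) .nil)) .nil)) .nil)) (.cons 199 (.leaf 223 1599 (.cons 200 (.leaf 175 1407 (.cons 201 (.leaf 177 1413 (.leaf 225 1605 .nil)) .nil)) .nil)) .nil)))))
noncomputable def t107 : T := .cons 321 (.leaf 345 1988 (.cons 319 (.leaf 343 1982 (.cons 249 (.leaf 225 1797 (.cons 247 (.leaf 223 1791 (.cons 246 (.cons 221 (.leaf 222 1771 (.cons 245 (.leaf 273 1960 (.leaf 220 1763 .nil)) .nil)) (.cons 222 (.leaf 221 1771 (.cons 269 (.leaf 270 1962 (.cons 295 (.leaf 271 1783 (.cons 294 (.leaf 293 2344 (.leaf 322 2355 .nil)) .nil)) .nil)) .nil)) (.cons 245 (.leaf 273 1960 (.cons 269 (.leaf 268 1954 (.leaf 270 1962 .nil)) .nil)) .nil))) .nil)) .nil)) .nil)) .nil)) (.cons 321 (.leaf 345 1988 (.cons 319 (.leaf 343 1982 (.cons 249 (.leaf 225 1797 (.cons 294 (.cons 295 (.leaf 293 2344 (.leaf 322 2355 .nil)) (.cons 318 (.leaf 293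 2347 (.cons 317 (.leaf 297 2345 (.cons 341 (.leaf 340 2530 (.leaf 342 2538 .nil)) .nil)) .nil)) (.cons 322 (.leaf 295 2355 (.cons 346 (.leaf 347 2552 (.cons 297 (.leaf 273 1996 (.cons 317 (.leaf 318 2345 (.cons 323 (.leaf 324 2371 (.cons 299 (.leaf 251 2006 (.leaf 300 2369 .nil)) .nil)) .nil)) .nil)) .nil)) .nil)) .nil))) .nil)) .nil)) .nil)) (.cons 247 (.leaf 223 1791 (.cons 273 (.leaf 274 1979 (.cons 321 (.leaf 345 1988 (.cons 319 (.leaf 343 1982 (.cons 246 (.leaf 245 1960 (.cons 294 (.cons 293 (.leaf 295 2344 (.leaf 318 2347 .nil)) (.cons 293 (.leaf 318 2347 (.cons 270 (.leaf 271 2154 (.cons 222 (.leaf 317 1774 (.cons 198 (.leaf 269 1582 (.cons 197 (.leaf 173 1391 (.leaf 221 1583 .nil)) .nil)) .nil)) .nil)) .nil)) (.cons 295 (.leaf 322 2355 (.cons 222 (.leaf 271 1783 (.leaf 270 1780 .nil)) .nil)) .nil))) .nil)) .nil)) .nil)) .nil)) .nil)) (.cons 247 (.leaf 223 1791 (.cons 249 (.leaf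 225 1797 (.cons 250 (.leaf 274 1976 (.cons 271 (.leaf 251 1978 (.leaf 270 1970 .nil)) .nil)) .nil)) .nil)) .nil)))
noncomputable def t108 : T := .cons 224 (.cons 199 (.leaf 223 1599 (.cons 200 (.leaf 175 1407 (.cons 295 (.leaf 271 1598 (.leaf 319 1790 .nil)) .nil)) .nil)) (.cons 199 (.leaf 223 1599 (.cons 200 (.leaf 175 1407 (.cons 201 (.leaf 177 1413 (.leaf 225 1605 .nil)) .nil)) .nil)) (.cons 201 (.leaf 225 1605 (.cons 319 (.leaf 295 1790 (.cons 320 (.leaf 343 1982 (.cons 321 (.leaf 297 1796 (.leaf 345 1988 .nil)) .nil)) .nil)) .nil)) .nil))) (.cons 320 t107 (.cons 224 (.cons 199 (.leaf 223 1599 (.cons 200 (.leaf 175 1407 (.cons 295 (.leaf 271 1598 (.leaf 319 1790 .nil)) .nil)) .nil)) (.cons 297 (.leaf 321 1796 (.cons 200 (.leaf 273 1604 (.cons 201 (.leaf 177 1413 (.leaf 225 1605 .nil)) .nil)) .nil)) (.cons 201 (.leaf 225 1605 (.cons 223 (.leaf 199 1599 (.cons 295 (.leaf 319 1790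 (.cons 273 (.leaf 274 2170 (.cons 294 (.leaf 293 2153 (.cons 297 (.leaf 321 1796 (.cons 270 (.leaf 269 2155 (.cons 318 (.leaf 317 2346 (.cons 247 (.leaf 246 1781 (.leaf 271 1782 .nil)) .nil)) .nil)) .nil)) .nil)) .nil)) .nil)) .nil)) .nil)) .nil))) (.cons 320 (.cons 225 (.leaf 249 1797 (.cons 224 (.leaf 201 1605 (.cons 321 (.leaf 297 1796 (.leaf 345 1988 .nil)) .nil)) .nil)) (.cons 223 (.leaf 247 1791 (.cons 224 (.leaf 199 1599 (.cons 321 (.leaf 297 1796 (.leaf 345 1988 .nil)) .nil)) .nil)) (.cons 247 (.leaf 223 1791 (.cons 249 (.leaf 225 1797 (.cons 250 (.leaf 274 1976 (.cons 271 (.leaf 251 1978 (.leaf 270 1970 .nil)) .nil)) .nil)) .nil)) .nil))) (.cons 224 (.cons 295 (.leaf 319 1790 (.cons 200 (.leaf 271 1598 (.cons 297 (.leaf 273 1604 (.leaf 321 1796 .nil)) .nil)) .nil)) (.cons 225 (.leaf 201 1605 (.cons 249 (.leaf 320 1797 (.cons 297 (.leaf 321 1796 (.cons 200 (.leaf 273 1604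 (.cons 175 (.leaf 199 1407 (.cons 176 (.leaf 151 1215 (.leaf 152 1220 .nil)) .nil)) .nil)) .nil)) .nil)) .nil)) (.cons 201 (.leaf 225 1605 (.cons 200 (.leaf 177 1413 (.cons 295 (.leaf 271 1598 (.leaf 319 1790 .nil)) .nil)) .nil)) (.cons 201 (.leaf 225 1605 (.cons 319 (.leaf 295 1790 (.cons 320 (.leaf 343 1982 (.cons 321 (.leaf 297 1796 (.leaf 345 1988 .nil)) .nil)) .nil)) .nil)) .nil)))) (.cons 224 (.cons 295 (.leaf 319 1790 (.cons 200 (.leaf 271 1598 (.cons 297 (.leaf 273 1604 (.leaf 321 1796 .nil)) .nil)) .nil)) (.cons 199 (.leaf 223 1599 (.cons 200 (.leaf 175 1407 (.cons 297 (.leaf 273 1604 (.leaf 321 1796 .nil)) .nil)) .nil)) (.cons 295 (.leaf 319 1790 (.cons 199 (.leaf 223 1599 (.cons 200 (.leaf 175 1407 (.leaf 271 1598 .nil)) .nil)) .nil)) (.cons 199 (.leaf 223 1599 (.cons 319 (.leaf 295 1790 (.cons 320 (.leaf 343 1982 (.cons 321 (.leaf 297 1796 (.leaf 345 1988 .nil)) .nil))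 .nil)) .nil)) .nil)))) (.cons 224 (.cons 199 (.leaf 223 1599 (.cons 225 (.leaf 201 1605 (.cons 200 (.leaf 175 1407 (.cons 197 (.leaf 198 1576 (.cons 226 (.leaf 227 1595 (.cons 249 (.leaf 320 1797 (.cons 273 (.leaf 297 1604 (.leaf 176 1412 .nil)) .nil)) .nil)) .nil)) .nil)) .nil)) .nil)) (.cons 201 (.leaf 225 1605 (.cons 200 (.leaf 177 1413 (.cons 175 (.leaf 199 1407 (.cons 151 (.leaf 176 1215 (.cons 273 (.leaf 297 1604 (.cons 274 (.leaf 247 1979 (.leaf 295 2170 .nil)) .nil)) .nil)) .nil)) .nil)) .nil)) (.cons 295 (.leaf 319 1790 (.cons 199 (.leaf 223 1599 (.cons 200 (.leaf 175 1407 (.leaf 271 1598 .nil)) .nil)) .nil)) (.cons 201 (.leaf 225 1605 (.cons 200 (.leaf 177 1413 (.cons 295 (.leaf 271 1598 (.leaf 319 1790 .nil)) .nil)) .nil)) (.cons 199 (.leaf 223 1599 (.cons 225 (.leaf 201 1605 (.cons 319 (.leaf 295 1790 (.cons 320 (.leaf 249 1797 (.leaf 343 1982 .nil)) .nil)) .nil)) .nil))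 .nil))))) (.cons 224 t106 (.cons 224 t105 .nil))))))))
noncomputable def t109 : T := .cons 344 (.cons 247 (.leaf 271 1983 (.cons 367 (.leaf 343 2174 (.cons 368 (.leaf 391 2366 (.cons 273 (.leaf 249 1989 (.leaf 297 2181 .nil)) .nil)) .nil)) .nil)) (.cons 271 (.leaf 247 1983 (.cons 368 (.leaf 295 2175 (.cons 367 (.leaf 343 2174 (.leaf 391 2366 .nil)) .nil)) .nil)) (.cons 273 (.leaf 249 1989 (.cons 343 (.leaf 367 2174 (.cons 368 (.leaf 297 2181 (.cons 369 (.leaf 345 2180 (.leaf 393 2372 .nil)) .nil)) .nil)) .nil)) (.cons 271 (.leaf 247 1983 (.cons 273 (.leaf 249 1989 (.cons 368 (.leaf 295 2175 (.leaf 297 2181 .nil)) .nil)) .nil)) (.cons 271 (.leaf 247 1983 (.cons 273 (.leaf 249 1989 (.cons 274 (.leaf 295 2170 (.cons 251 (.leaf 252 1985 (.leaf 250 1977 .nil)) .nil)) .nil)) .nil)) .nil))))) (.cons 248 (.cons 225 (.leaf 249 1797 (.cons 343 (.leaf 319 1982 (.cons 344 (.leaf 367 2174 (.cons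 345 (.leaf 321 1988 (.leaf 369 2180 .nil)) .nil)) .nil)) .nil)) (.cons 247 (.leaf 223 1791 (.cons 249 (.leaf 225 1797 (.cons 250 (.leaf 274 1976 (.cons 271 (.leaf 344 1983 (.leaf 251 1978 .nil)) .nil)) .nil)) .nil)) (.cons 223 (.leaf 247 1791 (.cons 343 (.leaf 319 1982 (.cons 344 (.leaf 367 2174 (.cons 345 (.leaf 321 1988 (.leaf 369 2180 .nil)) .nil)) .nil)) .nil)) (.cons 247 (.leaf 223 1791 (.cons 249 (.leaf 225 1797 (.cons 250 (.leaf 274 1976 (.cons 271 (.leaf 251 1978 (.leaf 270 1970 .nil)) .nil)) .nil)) .nil)) .nil)))) (.cons 344 (.cons 249 (.leaf 273 1989 (.cons 248 (.leaf 225 1797 (.cons 345 (.leaf 321 1988 (.leaf 369 2180 .nil)) .nil)) .nil)) (.cons 343 (.leaf 367 2174 (.cons 248 (.leaf 319 1982 (.cons 345 (.leaf 321 1988 (.leaf 369 2180 .nil)) .nil)) .nil)) (.cons 249 (.leaf 273 1989 (.cons 248 (.leaf 225 1797 (.cons 343 (.leaf 319 1982 (.leaf 367 2174 .nil)) .nil)) .nil))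 (.cons 273 (.leaf 249 1989 (.cons 343 (.leaf 367 2174 (.cons 368 (.leaf 297 2181 (.cons 369 (.leaf 345 2180 (.leaf 393 2372 .nil)) .nil)) .nil)) .nil)) .nil)))) (.cons 344 (.cons 247 (.leaf 271 1983 (.cons 223 (.leaf 248 1791 (.cons 273 (.leaf 249 1989 (.cons 295 (.leaf 274 2170 (.cons 293 (.leaf 294 2153 (.cons 368 (.leaf 297 2181 (.cons 391 (.leaf 367 2366 (.cons 392 (.leaf 319 2367 (.leaf 415 2558 .nil)) .nil)) .nil)) .nil)) .nil)) .nil)) .nil)) .nil)) (.cons 247 (.leaf 271 1983 (.cons 248 (.leaf 223 1791 (.cons 345 (.leaf 321 1988 (.leaf 369 2180 .nil)) .nil)) .nil)) (.cons 273 (.leaf 249 1989 (.cons 297 (.leaf 368 2181 (.cons 345 (.leaf 369 2180 (.cons 321 (.leaf 248 1988 (.cons 346 (.leaf 370 2188 (.cons 319 (.leaf 318 2544 (.leaf 347 2555 .nil)) .nil)) .nil)) .nil)) .nil)) .nil)) (.cons 247 (.leaf 271 1983 (.cons 273 (.leaf 249 1989 (.cons 274 (.leaf 295 2170 (.cons 251 (.leaf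 252 1985 (.cons 297 (.leaf 368 2181 (.cons 299 (.leaf 300 2176 (.cons 345 (.leaf 369 2180 (.cons 250 (.leaf 321 1997 (.cons 226 (.leaf 202 1620 (.leaf 323 1815 .nil)) .nil)) .nil)) .nil)) .nil)) .nil)) .nil)) .nil)) .nil)) .nil)))) (.cons 344 (.cons 247 (.leaf 271 1983 (.cons 273 (.leaf 249 1989 (.cons 274 (.leaf 248 1979 (.leaf 295 2170 .nil)) .nil)) .nil)) (.cons 343 (.leaf 367 2174 (.cons 247 (.leaf 271 1983 (.cons 248 (.leaf 223 1791 (.leaf 319 1982 .nil)) .nil)) .nil)) (.cons 273 (.leaf 249 1989 (.cons 274 (.leaf 295 2170 (.cons 247 (.leaf 248 1979 (.cons 251 (.leaf 252 1985 (.cons 299 (.leaf 300 2176 (.cons 343 (.leaf 367 2174 (.cons 368 (.leaf 297 2181 (.cons 393 (.leaf 369 2372 (.cons 392 (.leaf 417 2564 (.cons 415 (.leaf 391 2558 (.cons 416 (.leaf 319 2559 (.leaf 439 2750 .nil)) .nil)) .nil)) .nil)) .nil)) .nil)) .nil)) .nil)) .nil)) .nil)) .nil)) (.cons 273 (.leaf 249 1989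 (.cons 274 (.leaf 295 2170 (.cons 251 (.leaf 252 1985 (.cons 250 (.leaf 271 1977 (.cons 297 (.leaf 368 2181 (.cons 202 (.leaf 226 1614 (.cons 299 (.leaf 300 2176 (.cons 323 (.leaf 347 2007 (.cons 322 (.leaf 346 2006 (.cons 321 (.leaf 324 2371 (.leaf 343 2554 .nil)) .nil)) .nil)) .nil)) .nil)) .nil)) .nil)) .nil)) .nil)) .nil)) .nil)))) (.cons 344 (.cons 247 (.leaf 271 1983 (.cons 223 (.leaf 248 1791 (.cons 367 (.leaf 343 2174 (.cons 368 (.leaf 391 2366 (.cons 369 (.leaf 345 2180 (.leaf 393 2372 .nil)) .nil)) .nil)) .nil)) .nil)) (.cons 345 (.leaf 369 2180 (.cons 247 (.leaf 271 1983 (.cons 248 (.leaf 223 1791 (.leaf 321 1988 .nil)) .nil)) .nil)) (.cons 343 (.leaf 367 2174 (.cons 247 (.leaf 271 1983 (.cons 248 (.leaf 223 1791 (.leaf 319 1982 .nil)) .nil)) .nil)) (.cons 345 (.leaf 369 2180 (.cons 248 (.leaf 321 1988 (.cons 343 (.leaf 319 1982 (.leaf 367 2174 .nil)) .nil)) .nil)) (.cons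 271 (.leaf 247 1983 (.cons 368 (.leaf 295 2175 (.cons 367 (.leaf 343 2174 (.leaf 391 2366 .nil)) .nil)) .nil)) .nil))))) .nil)))))
noncomputable def t110 : T := .cons 199 (.leaf 223 1599 (.cons 225 (.leaf 201 1605 (.cons 320 (.leaf 249 1797 (.cons 321 (.leaf 297 1796 (.leaf 345 1988 .nil)) .nil)) .nil)) .nil)) (.cons 297 (.leaf 321 1796 (.cons 199 (.leaf 223 1599 (.cons 200 (.leaf 175 1407 (.leaf 273 1604 .nil)) .nil)) .nil)) (.cons 199 (.leaf 223 1599 (.cons 175 (.leaf 200 1407 (.cons 225 (.leaf 201 1605 (.cons 320 (.leaf 249 1797 (.cons 343 (.leaf 319 1982 (.cons 344 (.leaf 367 2174 (.cons 345 (.leaf 321 1988 (.leaf 369 2180 .nil)) .nil)) .nil)) .nil)) .nil)) .nil)) .nil)) (.cons 199 (.leaf 223 1599 (.cons 200 (.leaf 175 1407 (.cons 201 (.leaf 177 1413 (.leaf 225 1605 .nil)) .nil)) .nil)) (.cons 225 (.leaf 201 1605 (.cons 249 (.leaf 320 1797 (.cons 297 (.leaf 321 1796 (.cons 273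 (.leaf 200 1604 (.cons 226 (.leaf 202 1613 (.cons 227 (.leaf 228 1794 (.cons 203 (.leaf 204 1601 (.cons 251 (.leaf 252 1792 (.cons 250 (.leaf 271 1978 (.leaf 223 1784 .nil)) .nil)) .nil)) .nil)) .nil)) .nil)) .nil)) .nil)) .nil)) (.cons 297 (.leaf 321 1796 (.cons 200 (.leaf 273 1604 (.cons 201 (.leaf 177 1413 (.leaf 225 1605 .nil)) .nil)) .nil)) .nil)))))
noncomputable def t111 : T := .cons 320 (.cons 249 (.leaf 225 1797 (.cons 273 (.leaf 344 1989 (.cons 274 (.leaf 295 2170 (.cons 251 (.leaf 252 1985 (.cons 250 (.leaf 271 1977 (.cons 227 (.leaf 228 1793 (.cons 179 (.leaf 203 1430 (.cons 299 (.leaf 300 2176 (.cons 226 (.leaf 202 1620 (.leaf 323 1815 .nil)) .nil)) .nil)) .nil)) .nil)) .nil)) .nil)) .nil)) .nil)) (.cons 343 (.leaf 319 1982 (.cons 344 (.leaf 367 2174 (.cons 345 (.leaf 321 1988 (.leaf 369 2180 .nil)) .nil)) .nil)) (.cons 321 (.leaf 345 1988 (.cons 319 (.leaf 343 1982 (.cons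 249 (.leaf 225 1797 (.cons 294 (.cons 295 (.leaf 293 2344 (.leaf 322 2355 .nil)) (.cons 318 (.leaf 293 2347 (.cons 317 (.leaf 297 2345 (.cons 341 (.leaf 340 2530 (.leaf 342 2538 .nil)) .nil)) .nil)) (.cons 322 (.leaf 295 2355 (.cons 346 (.leaf 347 2552 (.cons 297 (.leaf 273 1996 (.cons 317 (.leaf 318 2345 (.cons 323 (.leaf 324 2371 (.cons 299 (.leaf 251 2006 (.leaf 300 2369 .nil)) .nil)) .nil)) .nil)) .nil)) .nil)) .nil))) .nil)) .nil)) .nil)) .nil))) (.cons 224 (.cons 297 (.leaf 321 1796 (.cons 200 (.leaf 273 1604 (.cons 201 (.leaf 177 1413 (.leaf 225 1605 .nil)) .nil)) .nil)) (.cons 295 (.leaf 319 1790 (.cons 200 (.leaf 271 1598 (.cons 297 (.leaf 273 1604 (.leaf 321 1796 .nil)) .nil)) .nil)) (.cons 295 (.leaf 319 1790 (.cons 199 (.leaf 223 1599 (.cons 200 (.leaf 175 1407 (.leaf 271 1598 .nil)) .nil)) .nil)) (.cons 295 (.leaf 319 1790 (.cons 273 (.leaf 274 2170 (.cons 297 (.leaf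 321 1796 (.cons 294 (.leaf 293 2153 (.cons 270 (.leaf 269 2155 (.cons 225 (.leaf 201 1605 (.cons 223 (.leaf 199 1599 (.cons 318 (.leaf 317 2346 (.cons 249 (.cons 250 (.leaf 271 1969 (.leaf 251 1787 .nil)) (.cons 222 (.leaf 221 1768 (.cons 198 (.leaf 197 1579 (.cons 246 (.leaf 245 1770 (.leaf 271 1588 .nil)) .nil)) .nil)) (.cons 250 (.leaf 251 1787 (.leaf 222 1776 .nil)) .nil))) .nil)) .nil)) .nil)) .nil)) .nil)) .nil)) .nil)) .nil)) .nil)))) (.cons 224 t110 (.cons 224 (.cons 199 (.leaf 223 1599 (.cons 225 (.leaf 201 1605 (.cons 320 (.leaf 249 1797 (.cons 321 (.leaf 297 1796 (.leaf 345 1988 .nil)) .nil)) .nil)) .nil)) (.cons 199 (.leaf 223 1599 (.cons 175 (.leaf 200 1407 (.cons 319 (.leaf 295 1790 (.cons 320 (.leaf 343 1982 (.cons 321 (.leaf 297 1796 (.leaf 345 1988 .nil)) .nil)) .nil)) .nil)) .nil)) (.cons 201 (.leaf 225 1605 (.cons 200 (.leaf 177 1413 (.cons 295 (.leaf 271 1598 (.leaf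 319 1790 .nil)) .nil)) .nil)) .nil))) (.cons 224 (.cons 199 (.leaf 223 1599 (.cons 225 (.leaf 201 1605 (.cons 200 (.leaf 175 1407 (.cons 295 (.leaf 271 1598 (.leaf 319 1790 .nil)) .nil)) .nil)) .nil)) (.cons 199 (.leaf 223 1599 (.cons 200 (.leaf 175 1407 (.cons 201 (.leaf 177 1413 (.leaf 225 1605 .nil)) .nil)) .nil)) (.cons 199 (.leaf 223 1599 (.cons 200 (.leaf 175 1407 (.cons 295 (.leaf 271 1598 (.leaf 319 1790 .nil)) .nil)) .nil)) (.cons 295 (.leaf 319 1790 (.cons 200 (.leaf 271 1598 (.cons 201 (.leaf 177 1413 (.leaf 225 1605 .nil)) .nil)) .nil)) (.cons 199 (.leaf 223 1599 (.cons 225 (.leaf 201 1605 (.cons 319 (.leaf 295 1790 (.cons 320 (.leaf 249 1797 (.leaf 343 1982 .nil)) .nil)) .nil)) .nil)) .nil))))) (.cons 224 (.cons 199 (.leaf 223 1599 (.cons 295 (.leaf 319 1790 (.cons 273 (.leaf 274 2170 (.cons 200 (.leaf 175 1407 (.leaf 271 1598 .nil)) .nil)) .nil)) .nil)) (.cons 199 (.leaf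 223 1599 (.cons 200 (.leaf 175 1407 (.cons 297 (.leaf 273 1604 (.leaf 321 1796 .nil)) .nil)) .nil)) (.cons 295 (.leaf 319 1790 (.cons 200 (.leaf 271 1598 (.cons 297 (.leaf 273 1604 (.leaf 321 1796 .nil)) .nil)) .nil)) (.cons 199 (.leaf 223 1599 (.cons 295 (.leaf 319 1790 (.cons 273 (.leaf 274 2170 (.cons 321 (.leaf 297 1796 (.cons 293 (.leaf 294 2153 (.cons 320 (.leaf 345 1988 (.cons 322 (.leaf 323 2363 (.cons 344 (.leaf 249 1989 (.cons 367 (.leaf 343 2174 (.cons 368 (.leaf 271 2175 (.leaf 391 2366 .nil)) .nil)) .nil)) .nil)) .nil)) .nil)) .nil)) .nil)) .nil)) .nil)) (.cons 295 (.leaf 319 1790 (.cons 199 (.leaf 223 1599 (.cons 200 (.leaf 175 1407 (.leaf 271 1598 .nil)) .nil)) .nil)) .nil))))) (.cons 224 (.cons 199 (.leaf 223 1599 (.cons 225 (.leaf 201 1605 (.cons 320 (.leaf 249 1797 (.cons 321 (.leaf 297 1796 (.leaf 345 1988 .nil)) .nil)) .nil)) .nil)) (.cons 199 (.leaf 223 1599 (.cons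 200 (.leaf 175 1407 (.cons 297 (.leaf 273 1604 (.leaf 321 1796 .nil)) .nil)) .nil)) (.cons 225 (.leaf 201 1605 (.cons 199 (.leaf 223 1599 (.cons 200 (.leaf 175 1407 (.cons 197 (.leaf 198 1576 (.cons 226 (.leaf 227 1595 (.cons 249 (.leaf 320 1797 (.cons 176 (.leaf 273 1412 (.leaf 152 1220 .nil)) .nil)) .nil)) .nil)) .nil)) .nil)) .nil)) (.cons 201 (.leaf 225 1605 (.cons 200 (.leaf 177 1413 (.cons 297 (.leaf 273 1604 (.leaf 321 1796 .nil)) .nil)) .nil)) .nil)))) (.cons 224 (.cons 199 (.leaf 223 1599 (.cons 201 (.leaf 225 1605 (.cons 319 (.leaf 295 1790 (.cons 320 (.leaf 343 1982 (.cons 321 (.leaf 297 1796 (.leaf 345 1988 .nil)) .nil)) .nil)) .nil)) .nil)) (.cons 297 (.leaf 321 1796 (.cons 200 (.leaf 273 1604 (.cons 201 (.leaf 177 1413 (.leaf 225 1605 .nil)) .nil)) .nil)) (.cons 199 (.leaf 223 1599 (.cons 200 (.leaf 175 1407 (.cons 295 (.leaf 271 1598 (.leaf 319 1790 .nil)) .nil)) .nil))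 .nil))) .nil)))))))
noncomputable def t112 : T := .cons 247 (.leaf 274 1979 (.cons 223 (.leaf 320 1791 (.cons 199 (.leaf 175 1404 (.leaf 224 1599 .nil)) .nil)) .nil)) (.cons 224 (.cons 199 (.leaf 223 1599 (.cons 201 (.leaf 225 1605 (.cons 200 (.leaf 175 1407 (.leaf 177 1413 .nil)) .nil)) .nil)) (.cons 199 (.leaf 223 1599 (.cons 201 (.leaf 225 1605 (.cons 321 (.leaf 297 1796 (.cons 320 (.leaf 345 1988 (.cons 343 (.leaf 319 1982 (.cons 344 (.leaf 249 1989 (.leaf 367 2174 .nil)) .nil)) .nil)) .nil)) .nil)) .nil)) (.cons 297 (.leaf 200 1604 (.leaf 321 1796 .nil)) .nil))) (.cons 274 (.leaf 247 1979 (.cons 251 (.leaf 252 1985 (.cons 299 (.leaf 300 2176 (.cons 224 (.cons 297 (.leaf 200 1604 (.leaf 321 1796 .nil)) (.cons 199 (.leaf 223 1599 (.cons 200 (.leaf 175 1407 (.cons 201 (.leaf 177 1413 (.leaf 225 1605 .nil)) .nil)) .nil)) (.cons 297 (.leaf 321 1796 (.cons 201 (.leaf 225 1605 (.cons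 223 (.leaf 199 1599 (.cons 250 (.leaf 249 1787 (.cons 226 (.leaf 202 1620 (.leaf 323 1815 .nil)) .nil)) .nil)) .nil)) .nil)) .nil))) .nil)) .nil)) .nil)) (.cons 247 (.leaf 274 1979 (.cons 245 (.leaf 246 1960 (.cons 320 (.leaf 223 1791 (.cons 249 (.leaf 225 1797 (.leaf 344 1989 .nil)) .nil)) .nil)) .nil)) (.cons 274 (.leaf 247 1979 (.cons 251 (.leaf 252 1985 (.cons 299 (.leaf 300 2176 (.cons 320 (.cons 249 (.leaf 225 1797 (.leaf 344 1989 .nil)) (.cons 321 (.leaf 345 1988 (.cons 343 (.leaf 319 1982 (.cons 344 (.leaf 367 2174 (.cons 323 (.leaf 322 2554 (.cons 348 (.leaf 324 2012 (.cons 297 (.leaf 224 1796 (.leaf 368 2181 .nil)) .nil)) .nil)) .nil)) .nil)) .nil)) (.cons 225 (.leaf 249 1797 (.cons 224 (.leaf 201 1605 (.cons 297 (.leaf 200 1604 (.leaf 321 1796 .nil)) .nil)) .nil)) .nil))) .nil)) .nil)) .nil)) .nil))))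
noncomputable def t113 : T := .cons 248 (.cons 223 (.leaf 247 1791 (.cons 224 (.leaf 199 1599 (.cons 297 (.leaf 200 1604 (.leaf 321 1796 .nil)) .nil)) .nil)) (.cons 223 (.leaf 247 1791 (.cons 224 (.leaf 199 1599 (.cons 225 (.leaf 201 1605 (.leaf 249 1797 .nil)) .nil)) .nil)) (.cons 223 (.leaf 247 1791 (.cons 319 (.leaf 343 1982 (.cons 345 (.leaf 321 1988 (.cons 344 (.leaf 249 1989 (.leaf 369 2180 .nil)) .nil)) .nil)) .nil)) (.cons 319 (.leaf 343 1982 (.cons 224 (.leaf 295 1790 (.cons 297 (.leaf 200 1604 (.leaf 321 1796 .nil)) .nil)) .nil)) .nil)))) (.cons 248 (.cons 319 (.leaf 343 1982 (.cons 224 (.leaf 295 1790 (.cons 297 (.leaf 200 1604 (.leaf 321 1796 .nil)) .nil)) .nil)) (.cons 223 (.leaf 247 1791 (.cons 224 (.leaf 199 1599 (.cons 225 (.leaf 201 1605 (.leaf 249 1797 .nil)) .nil)) .nil)) (.cons 249 (.leaf 225 1797 (.cons 247 (.leaf 223 1791 (.cons 246 (.leaf 245 1960 (.cons 222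 (.leaf 221 1771 (.cons 270 (.leaf 269 1962 (.cons 319 (.leaf 343 1982 (.cons 321 (.leaf 345 1988 (.cons 294 (.leaf 295 1780 (.cons 293 (.leaf 318 2347 (.leaf 317 1774 .nil)) .nil)) .nil)) .nil)) .nil)) .nil)) .nil)) .nil)) .nil)) .nil))) (.cons 248 (.cons 223 (.leaf 247 1791 (.cons 224 (.leaf 199 1599 (.cons 297 (.leaf 200 1604 (.leaf 321 1796 .nil)) .nil)) .nil)) (.cons 319 (.leaf 343 1982 (.cons 224 (.leaf 295 1790 (.cons 223 (.leaf 199 1599 (.leaf 247 1791 .nil)) .nil)) .nil)) (.cons 345 (.leaf 321 1988 (.cons 223 (.leaf 247 1791 (.cons 319 (.leaf 343 1982 (.cons 344 (.leaf 369 2180 (.cons 317 (.leaf 318 2536 (.cons 346 (.leaf 347 2555 (.cons 368 (.leaf 297 2181 (.cons 391 (.leaf 367 2366 (.cons 392 (.leaf 295 2367 (.leaf 415 2558 .nil)) .nil)) .nil)) .nil)) .nil)) .nil)) .nil)) .nil)) .nil)) (.cons 321 (.leaf 345 1988 (.cons 224 (.leaf 297 1796 (.cons 319 (.leaf 295 1790 (.leaf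 343 1982 .nil)) .nil)) .nil)) .nil)))) (.cons 344 (.leaf 249 1989 (.cons 343 (.leaf 367 2174 (.cons 368 (.leaf 297 2181 (.cons 369 (.leaf 345 2180 (.leaf 393 2372 .nil)) .nil)) .nil)) .nil)) (.cons 249 (.leaf 344 1989 (.cons 225 (.leaf 201 1606 (.leaf 248 1797 .nil)) .nil)) .nil))))
noncomputable def t114 : T := .cons 274 (.leaf 295 2170 (.cons 248 (.leaf 247 1979 (.cons 251 (.leaf 252 1985 (.cons 299 (.leaf 300 2176 (.cons 320 (.cons 343 (.leaf 319 1982 (.cons 344 (.leaf 249 1989 (.leaf 367 2174 .nil)) .nil)) (.cons 343 (.leaf 319 1982 (.cons 344 (.leaf 367 2174 (.cons 345 (.leaf 321 1988 (.leaf 369 2180 .nil)) .nil)) .nil)) (.cons 225 (.leaf 249 1797 (.cons 224 (.leaf 201 1605 (.cons 297 (.leaf 200 1604 (.leaf 321 1796 .nil)) .nil)) .nil)) .nil))) .nil)) .nil)) .nil)) .nil)) (.cons 320 t113 (.cons 248 t112 (.cons 274 (.leaf 295 2170 (.cons 251 (.leaf 252 1985 (.cons 299 (.leaf 300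 2176 (.cons 323 (.cons 250 (.leaf 226 1815 (.leaf 347 2007 .nil)) (.cons 322 (.leaf 346 2006 (.cons 324 (.leaf 348 2012 (.cons 321 (.leaf 297 2371 (.cons 344 (.leaf 345 2562 (.cons 320 (.leaf 249 1989 (.leaf 343 2554 .nil)) .nil)) .nil)) .nil)) .nil)) .nil)) .nil)) .nil)) .nil)) (.cons 274 (.leaf 295 2170 (.cons 248 (.leaf 247 1979 (.cons 251 (.leaf 252 1985 (.cons 299 (.leaf 300 2176 (.cons 224 (.cons 297 (.leaf 200 1604 (.leaf 321 1796 .nil)) (.cons 201 (.leaf 225 1605 (.cons 223 (.leaf 199 1599 (.cons 250 (.leaf 249 1787 (.cons 226 (.leaf 202 1620 (.leaf 323 1815 .nil)) .nil)) .nil)) .nil)) .nil)) .nil)) .nil)) .nil)) .nil)) (.cons 274 (.leaf 295 2170 (.cons 248 (.leaf 247 1979 (.cons 299 (.leaf 300 2176 (.cons 251 (.leaf 252 1985 (.cons 224 (.cons 199 (.leaf 223 1599 (.cons 321 (.leaf 297 1796 (.cons 320 (.leaf 345 1988 (.cons 343 (.leaf 319 1982 (.cons 344 (.leaf 367 2174 (.cons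 201 (.leaf 225 1605 (.cons 323 (.leaf 322 2554 (.cons 250 (.leaf 226 1815 (.leaf 347 2007 .nil)) .nil)) .nil)) .nil)) .nil)) .nil)) .nil)) .nil)) (.cons 199 (.leaf 223 1599 (.cons 200 (.leaf 175 1407 (.cons 201 (.leaf 177 1413 (.leaf 225 1605 .nil)) .nil)) .nil)) (.cons 297 (.leaf 200 1604 (.leaf 321 1796 .nil)) .nil))) .nil)) .nil)) .nil)) .nil)) (.cons 274 (.leaf 295 2170 (.cons 248 (.leaf 247 1979 (.cons 251 (.leaf 252 1985 (.cons 299 (.leaf 300 2176 (.cons 320 (.cons 319 (.leaf 343 1982 (.cons 345 (.leaf 321 1988 (.cons 344 (.leaf 249 1989 (.leaf 369 2180 .nil)) .nil)) .nil)) (.cons 319 (.leaf 343 1982 (.cons 345 (.leaf 321 1988 (.cons 344 (.leaf 369 2180 (.cons 347 (.leaf 346 2555 (.cons 323 (.leaf 250 2007 (.cons 348 (.leaf 324 2012 (.leaf 372 2204 .nil)) .nil)) .nil)) .nil)) .nil)) .nil)) (.cons 225 (.leaf 249 1797 (.cons 224 (.leaf 201 1605 (.cons 199 (.leaf 223 1599 (.cons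 200 (.leaf 175 1407 (.cons 197 (.leaf 198 1576 (.cons 226 (.leaf 227 1595 (.cons 250 (.leaf 202 1620 (.leaf 323 1815 .nil)) .nil)) .nil)) .nil)) .nil)) .nil)) .nil)) .nil))) .nil)) .nil)) .nil)) .nil)) (.cons 274 (.leaf 295 2170 (.cons 248 (.leaf 247 1979 (.cons 251 (.leaf 252 1985 (.cons 299 (.leaf 300 2176 (.cons 323 (.cons 250 (.leaf 226 1815 (.leaf 347 2007 .nil)) (.cons 324 (.leaf 348 2012 (.cons 346 (.leaf 322 2006 (.cons 347 (.leaf 370 2198 (.cons 344 (.leaf 345 2561 (.cons 320 (.leaf 249 1989 (.cons 343 (.leaf 319 1982 (.leaf 367 2174 .nil)) .nil)) .nil)) .nil)) .nil)) .nil)) (.cons 226 (.leaf 250 1815 (.cons 227 (.leaf 202 1623 (.cons 204 (.leaf 228 1629 (.cons 203 (.leaf 180 1437 (.cons 205 (.leaf 206 1618 (.cons 224 (.leaf 225 1601 (.cons 199 (.leaf 223 1599 (.cons 200 (.leaf 175 1407 (.leaf 297 1604 .nil)) .nil)) .nil)) .nil)) .nil)) .nil)) .nil)) .nil)) .nil))) .nil))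 .nil)) .nil)) .nil)) .nil)))))))
noncomputable def t115 : T := .cons 225 (.leaf 201 1605 (.cons 199 (.leaf 223 1599 (.cons 320 (.leaf 249 1797 (.cons 321 (.leaf 297 1796 (.leaf 345 1988 .nil)) .nil)) .nil)) .nil)) (.cons 225 (.leaf 201 1605 (.cons 249 (.leaf 320 1797 (.cons 295 (.leaf 319 1790 (.cons 200 (.leaf 271 1598 (.cons 175 (.leaf 199 1407 (.cons 176 (.leaf 151 1215 (.leaf 152 1220 .nil)) .nil)) .nil)) .nil)) .nil)) .nil)) (.cons 223 (.leaf 199 1599 (.cons 247 (.leaf 320 1791 (.cons 295 (.leaf 319 1790 (.cons 200 (.leaf 271 1597 (.cons 176 (.leaf 152 1214 (.cons 177 (.leaf 201 1413 (.leaf 153 1221 .nil)) .nil)) .nil)) .nil)) .nil)) .nil)) (.cons 225 (.leaf 201 1605 (.cons 249 (.leaf 320 1797 (.cons 295 (.leaf 319 1790 (.cons 271 (.leaf 200 1598 (.cons 250 (.leaf 251 1978 (.cons 270 (.leaf 269 1961 (.leaf 247 1970 .nil)) .nil)) .nil)) .nil)) .nil)) .nil)) (.cons 223 (.leaf 199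 1599 (.cons 247 (.leaf 320 1791 (.cons 295 (.leaf 319 1790 (.cons 271 (.leaf 200 1597 (.cons 198 (.leaf 222 1591 (.cons 294 (.leaf 318 1782 (.cons 293 (.leaf 292 2145 (.cons 269 (.leaf 268 2147 (.cons 270 (.leaf 249 1961 (.leaf 297 2152 .nil)) .nil)) .nil)) .nil)) .nil)) .nil)) .nil)) .nil)) .nil)) (.cons 295 (.leaf 319 1790 (.cons 199 (.leaf 223 1599 (.cons 200 (.leaf 175 1407 (.leaf 271 1598 .nil)) .nil)) .nil)) .nil)))))
noncomputable def t116 : T := .cons 320 (.cons 319 (.leaf 343 1982 (.cons 224 (.leaf 295 1790 (.cons 321 (.leaf 297 1796 (.leaf 345 1988 .nil)) .nil)) .nil)) (.cons 249 (.leaf 225 1797 (.cons 343 (.leaf 319 1982 (.cons 344 (.leaf 273 1989 (.leaf 367 2174 .nil)) .nil)) .nil)) (.cons 225 (.leaf 249 1797 (.cons 224 (.leaf 201 1605 (.cons 321 (.leaf 297 1796 (.leaf 345 1988 .nil)) .nil)) .nil)) .nil))) (.cons 224 (.cons 295 (.leaf 319 1790 (.cons 200 (.leaf 271 1598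 (.cons 297 (.leaf 273 1604 (.leaf 321 1796 .nil)) .nil)) .nil)) (.cons 199 (.leaf 223 1599 (.cons 200 (.leaf 175 1407 (.cons 201 (.leaf 177 1413 (.leaf 225 1605 .nil)) .nil)) .nil)) (.cons 199 (.leaf 223 1599 (.cons 201 (.leaf 225 1605 (.cons 319 (.leaf 295 1790 (.cons 320 (.leaf 343 1982 (.cons 321 (.leaf 297 1796 (.leaf 345 1988 .nil)) .nil)) .nil)) .nil)) .nil)) .nil))) (.cons 320 (.cons 223 (.leaf 247 1791 (.cons 199 (.leaf 224 1599 (.cons 345 (.leaf 321 1988 (.cons 344 (.leaf 369 2180 (.cons 273 (.leaf 249 1989 (.cons 367 (.leaf 343 2174 (.cons 368 (.leaf 297 2181 (.leaf 391 2366 .nil)) .nil)) .nil)) .nil)) .nil)) .nil)) .nil)) (.cons 247 (.leaf 223 1791 (.cons 271 (.leaf 344 1983 (.cons 319 (.leaf 343 1982 (.cons 295 (.leaf 224 1789 (.cons 222 (.leaf 246 1783 (.cons 318 (.leaf 342 1974 (.cons 317 (.leaf 316 2337 (.leaf 297 2345 .nil)) .nil)) .nil)) .nil)) .nil)) .nil)) .nil))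 (.cons 321 (.leaf 345 1988 (.cons 224 (.leaf 297 1796 (.cons 319 (.leaf 295 1790 (.leaf 343 1982 .nil)) .nil)) .nil)) (.cons 321 (.leaf 345 1988 (.cons 223 (.leaf 247 1791 (.cons 224 (.leaf 199 1599 (.leaf 297 1796 .nil)) .nil)) .nil)) (.cons 247 (.leaf 223 1791 (.cons 319 (.leaf 343 1982 (.cons 344 (.leaf 271 1983 (.cons 345 (.leaf 321 1988 (.leaf 369 2180 .nil)) .nil)) .nil)) .nil)) .nil))))) (.cons 224 (.cons 201 (.leaf 225 1605 (.cons 200 (.leaf 177 1413 (.cons 295 (.leaf 271 1598 (.leaf 319 1790 .nil)) .nil)) .nil)) (.cons 223 (.leaf 199 1599 (.cons 247 (.leaf 320 1791 (.cons 295 (.leaf 319 1790 (.cons 200 (.leaf 271 1597 (.cons 176 (.leaf 152 1214 (.cons 177 (.leaf 201 1413 (.leaf 153 1221 .nil)) .nil)) .nil)) .nil)) .nil)) .nil)) (.cons 199 (.leaf 223 1599 (.cons 200 (.leaf 175 1407 (.cons 201 (.leaf 177 1413 (.leaf 225 1605 .nil)) .nil)) .nil)) (.cons 223 (.leaf 199 1599 (.cons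 247 (.leaf 320 1791 (.cons 295 (.leaf 319 1790 (.cons 200 (.leaf 271 1597 (.cons 176 (.leaf 152 1214 (.cons 151 (.leaf 175 1215 (.cons 273 (.leaf 297 1604 (.leaf 249 1412 .nil)) .nil)) .nil)) .nil)) .nil)) .nil)) .nil)) (.cons 199 (.leaf 223 1599 (.cons 225 (.leaf 201 1605 (.cons 319 (.leaf 295 1790 (.cons 320 (.leaf 249 1797 (.leaf 343 1982 .nil)) .nil)) .nil)) .nil)) .nil))))) (.cons 224 (.cons 201 (.leaf 225 1605 (.cons 200 (.leaf 177 1413 (.cons 297 (.leaf 273 1604 (.leaf 321 1796 .nil)) .nil)) .nil)) (.cons 199 (.leaf 223 1599 (.cons 200 (.leaf 175 1407 (.cons 297 (.leaf 273 1604 (.leaf 321 1796 .nil)) .nil)) .nil)) (.cons 223 (.leaf 199 1599 (.cons 201 (.leaf 225 1605 (.cons 200 (.leaf 177 1413 (.cons 202 (.leaf 203 1594 (.cons 221 (.leaf 222 1577 (.cons 247 (.leaf 320 1791 (.cons 271 (.leaf 295 1597 (.leaf 176 1406 .nil)) .nil)) .nil)) .nil)) .nil)) .nil)) .nil)) (.cons 199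 (.leaf 223 1599 (.cons 225 (.leaf 201 1605 (.cons 320 (.leaf 249 1797 (.cons 321 (.leaf 297 1796 (.leaf 345 1988 .nil)) .nil)) .nil)) .nil)) .nil)))) (.cons 224 (.cons 199 (.leaf 223 1599 (.cons 200 (.leaf 175 1407 (.cons 201 (.leaf 177 1413 (.leaf 225 1605 .nil)) .nil)) .nil)) (.cons 199 (.leaf 223 1599 (.cons 200 (.leaf 175 1407 (.cons 297 (.leaf 273 1604 (.leaf 321 1796 .nil)) .nil)) .nil)) (.cons 225 (.leaf 201 1605 (.cons 249 (.leaf 320 1797 (.cons 297 (.leaf 321 1796 (.cons 200 (.leaf 273 1604 (.cons 175 (.leaf 199 1407 (.cons 176 (.leaf 151 1215 (.leaf 152 1220 .nil)) .nil)) .nil)) .nil)) .nil)) .nil)) (.cons 225 (.leaf 201 1605 (.cons 249 (.leaf 320 1797 (.cons 297 (.leaf 321 1796 (.cons 200 (.leaf 273 1604 (.cons 176 (.leaf 152 1220 (.cons 151 (.leaf 175 1215 (.cons 153 (.leaf 177 1221 (.cons 247 (.leaf 271 1406 (.cons 226 (.leaf 227 1786 (.leaf 246 1777 .nil)) .nil)) .nil))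 .nil)) .nil)) .nil)) .nil)) .nil)) .nil)) (.cons 225 (.leaf 201 1605 (.cons 199 (.leaf 223 1599 (.cons 320 (.leaf 249 1797 (.cons 321 (.leaf 297 1796 (.leaf 345 1988 .nil)) .nil)) .nil)) .nil)) .nil))))) (.cons 224 t115 .nil))))))
noncomputable def t117 : T := .cons 224 (.cons 199 (.leaf 223 1599 (.cons 200 (.leaf 175 1407 (.cons 295 (.leaf 271 1598 (.leaf 319 1790 .nil)) .nil)) .nil)) (.cons 201 (.leaf 225 1605 (.cons 200 (.leaf 177 1413 (.cons 297 (.leaf 273 1604 (.leaf 321 1796 .nil)) .nil)) .nil)) (.cons 199 (.leaf 223 1599 (.cons 225 (.leaf 201 1605 (.cons 320 (.leaf 249 1797 (.cons 321 (.leaf 297 1796 (.leaf 345 1988 .nil)) .nil)) .nil)) .nil)) .nil))) (.cons 320 (.cons 249 (.leaf 225 1797 (.cons 343 (.leaf 319 1982 (.cons 344 (.leaf 273 1989 (.leaf 367 2174 .nil)) .nil)) .nil)) (.cons 247 (.leaf 223 1791 (.cons 319 (.leaf 343 1982 (.cons 344 (.leaf 271 1983 (.cons 345 (.leaf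 321 1988 (.leaf 369 2180 .nil)) .nil)) .nil)) .nil)) (.cons 249 (.leaf 225 1797 (.cons 223 (.leaf 247 1791 (.cons 344 (.leaf 273 1989 (.cons 345 (.leaf 321 1988 (.leaf 369 2180 .nil)) .nil)) .nil)) .nil)) (.cons 321 (.leaf 345 1988 (.cons 319 (.leaf 343 1982 (.cons 249 (.leaf 225 1797 (.cons 247 (.leaf 223 1791 (.cons 246 (.cons 221 (.leaf 222 1771 (.cons 245 (.leaf 273 1960 (.leaf 220 1763 .nil)) .nil)) (.cons 222 (.leaf 221 1771 (.cons 269 (.leaf 270 1962 (.cons 295 (.leaf 271 1783 (.cons 294 (.leaf 293 2344 (.leaf 322 2355 .nil)) .nil)) .nil)) .nil)) (.cons 245 (.leaf 273 1960 (.cons 269 (.leaf 268 1954 (.leaf 270 1962 .nil)) .nil)) .nil))) .nil)) .nil)) .nil)) .nil)) .nil)))) (.cons 224 (.cons 295 (.leaf 319 1790 (.cons 200 (.leaf 271 1598 (.cons 297 (.leaf 273 1604 (.leaf 321 1796 .nil)) .nil)) .nil)) (.cons 223 (.leaf 199 1599 (.cons 225 (.leaf 201 1605 (.cons 297 (.leaf 321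 1796 (.cons 222 (.cons 221 (.leaf 249 1768 (.cons 197 (.leaf 196 1571 (.leaf 198 1579 .nil)) .nil)) (.cons 246 (.leaf 245 1770 (.cons 197 (.leaf 198 1579 (.cons 226 (.leaf 247 1778 (.cons 202 (.leaf 203 1593 (.cons 251 (.leaf 250 1784 (.cons 227 (.leaf 299 1623 (.leaf 252 1792 .nil)) .nil)) .nil)) .nil)) .nil)) .nil)) (.cons 249 (.leaf 221 1768 (.leaf 250 1776 .nil)) .nil))) .nil)) .nil)) .nil)) (.cons 295 (.leaf 319 1790 (.cons 199 (.leaf 223 1599 (.cons 200 (.leaf 175 1407 (.leaf 271 1598 .nil)) .nil)) .nil)) .nil))) t116))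
noncomputable def t118 : T := .cons 295 (.leaf 319 1790 (.cons 273 (.leaf 274 2170 (.cons 297 (.leaf 321 1796 (.cons 294 (.leaf 293 2153 (.cons 270 (.leaf 269 2155 (.cons 225 (.leaf 201 1605 (.cons 223 (.leaf 199 1599 (.cons 318 (.leaf 317 2346 (.cons 246 (.leaf 247 1781 (.cons 245 (.leaf 271 1963 (.leaf 222 1770 .nil)) .nil)) .nil)) .nil)) .nil)) .nil)) .nil)) .nil)) .nil)) .nil)) (.cons 223 (.leaf 199 1599 (.cons 225 (.leaf 201 1605 (.cons 297 (.leaf 321 1796 (.cons 222 (.cons 221 (.leaf 249 1768 (.cons 197 (.leaf 196 1571 (.leaf 198 1579 .nil)) .nil)) (.cons 246 (.leaf 245 1770 (.cons 197 (.leaf 198 1579 (.cons 226 (.leaf 247 1778 (.cons 202 (.leaf 203 1593 (.cons 251 (.leaf 250 1784 (.cons 227 (.leaf 299 1623 (.leaf 252 1792 .nil)) .nil)) .nil)) .nil)) .nil)) .nil)) (.cons 249 (.leaf 221 1768 (.leaf 250 1776 .nil)) .nil))) .nil)) .nil)) .nil)) (.cons 295 (.leaf 319 1790 (.cons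 273 (.leaf 274 2170 (.cons 297 (.leaf 321 1796 (.cons 294 (.leaf 293 2153 (.cons 270 (.leaf 269 2155 (.cons 225 (.leaf 201 1605 (.cons 318 (.leaf 317 2346 (.cons 247 (.cons 246 (.leaf 245 1960 (.cons 342 (.leaf 271 1973 (.cons 226 (.leaf 227 1786 (.leaf 249 1777 .nil)) .nil)) .nil)) (.cons 226 (.leaf 227 1786 (.cons 249 (.leaf 202 1613 (.cons 271 (.leaf 250 1969 (.leaf 342 1973 .nil)) .nil)) .nil)) (.cons 246 (.leaf 245 1960 (.cons 226 (.leaf 227 1786 (.leaf 249 1777 .nil)) .nil)) (.cons 246 (.leaf 245 1960 (.cons 342 (.leaf 271 1973 (.cons 365 (.leaf 341 2158 (.cons 366 (.leaf 389 2350 (.cons 367 (.leaf 343 2164 (.leaf 391 2356 .nil)) .nil)) .nil)) .nil)) .nil)) .nil)))) .nil)) .nil)) .nil)) .nil)) .nil)) .nil)) .nil)) (.cons 295 (.leaf 319 1790 (.cons 223 (.leaf 199 1599 (.cons 273 (.leaf 274 2170 (.cons 294 (.leaf 293 2153 (.cons 297 (.leaf 321 1796 (.cons 270 (.leaf 269 2155 (.cons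 318 (.leaf 317 2346 (.cons 247 (.leaf 271 1782 (.leaf 246 1781 .nil)) .nil)) .nil)) .nil)) .nil)) .nil)) .nil)) .nil)) (.cons 295 (.leaf 319 1790 (.cons 273 (.leaf 274 2170 (.cons 225 (.leaf 201 1605 (.cons 223 (.leaf 199 1599 (.cons 294 (.leaf 293 2153 (.cons 226 (.cons 247 (.leaf 246 1778 (.leaf 227 1786 .nil)) (.cons 202 (.leaf 203 1593 (.cons 250 (.leaf 251 1784 (.cons 249 (.leaf 222 1776 (.leaf 178 1422 .nil)) .nil)) .nil)) .nil)) .nil)) .nil)) .nil)) .nil)) .nil)) (.cons 295 (.leaf 319 1790 (.cons 273 (.leaf 274 2170 (.cons 297 (.leaf 321 1796 (.cons 294 (.leaf 293 2153 (.cons 270 (.leaf 269 2155 (.cons 225 (.leaf 201 1605 (.cons 223 (.leaf 199 1599 (.cons 318 (.leaf 317 2346 (.cons 249 (.cons 250 (.leaf 271 1969 (.leaf 222 1776 .nil)) (.cons 222 (.leaf 221 1768 (.cons 198 (.leaf 197 1579 (.cons 246 (.leaf 245 1770 (.leaf 271 1588 .nil)) .nil)) .nil)) (.cons 250 (.leaf 271 1969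 (.leaf 251 1787 .nil)) (.cons 250 (.leaf 222 1776 (.leaf 251 1787 .nil)) .nil)))) .nil)) .nil)) .nil)) .nil)) .nil)) .nil)) .nil)) .nil)) (.cons 295 (.leaf 319 1790 (.cons 223 (.leaf 199 1599 (.cons 225 (.leaf 201 1605 (.cons 273 (.leaf 274 2170 (.cons 294 (.leaf 293 2153 (.cons 297 (.leaf 321 1796 (.cons 318 (.leaf 317 2346 (.cons 247 (.leaf 271 1782 (.cons 226 (.leaf 227 1786 (.cons 202 (.leaf 203 1593 (.leaf 249 1613 .nil)) .nil)) .nil)) .nil)) .nil)) .nil)) .nil)) .nil)) .nil)) .nil)) .nil))))))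
noncomputable def t119 : T := .cons 295 (.leaf 319 1790 (.cons 200 (.leaf 271 1598 (.cons 297 (.leaf 273 1604 (.leaf 321 1796 .nil)) .nil)) .nil)) (.cons 297 (.leaf 321 1796 (.cons 200 (.leaf 273 1604 (.cons 201 (.leaf 177 1413 (.leaf 225 1605 .nil)) .nil)) .nil)) (.cons 295 (.leaf 319 1790 (.cons 273 (.leaf 274 2170 (.cons 200 (.leaf 271 1598 (.cons 201 (.leaf 177 1413 (.leaf 225 1605 .nil)) .nil)) .nil)) .nil)) (.cons 295 (.leaf 319 1790 (.cons 200 (.leaf 271 1598 (.cons 201 (.leaf 177 1413 (.leaf 225 1605 .nil)) .nil)) .nil)) (.cons 295 (.leaf 319 1790 (.cons 273 (.leaf 274 2170 (.cons 297 (.leaf 321 1796 (.cons 294 (.leaf 293 2153 (.cons 270 (.leaf 269 2155 (.cons 225 (.leaf 201 1605 (.cons 318 (.leaf 317 2346 (.cons 247 (.cons 246 (.leaf 245 1960 (.leaf 223 1781 .nil)) (.cons 226 (.leaf 227 1786 (.cons 249 (.leaf 202 1613 (.cons 271 (.leaf 250 1969 (.leaf 223 1782 .nil)) .nil))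 .nil)) (.cons 246 (.leaf 245 1960 (.cons 342 (.leaf 271 1973 (.cons 226 (.leaf 227 1786 (.leaf 249 1777 .nil)) .nil)) .nil)) .nil))) .nil)) .nil)) .nil)) .nil)) .nil)) .nil)) .nil)) .nil))))
noncomputable def t120 : T := .cons 295 (.leaf 319 1790 (.cons 200 (.leaf 271 1598 (.cons 297 (.leaf 273 1604 (.leaf 321 1796 .nil)) .nil)) .nil)) (.cons 201 (.leaf 225 1605 (.cons 200 (.leaf 177 1413 (.cons 297 (.leaf 273 1604 (.leaf 321 1796 .nil)) .nil)) .nil)) (.cons 295 (.leaf 319 1790 (.cons 273 (.leaf 274 2170 (.cons 200 (.leaf 271 1598 (.cons 201 (.leaf 177 1413 (.leaf 225 1605 .nil)) .nil)) .nil)) .nil)) (.cons 295 (.leaf 319 1790 (.cons 273 (.leaf 274 2170 (.cons 297 (.leaf 321 1796 (.cons 294 (.leaf 293 2153 (.cons 270 (.leaf 269 2155 (.cons 225 (.leaf 201 1605 (.cons 318 (.leaf 317 2346 (.cons 247 (.cons 246 (.leaf 245 1960 (.cons 342 (.leaf 271 1973 (.cons 226 (.leaf 227 1786 (.leaf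 249 1777 .nil)) .nil)) .nil)) (.cons 226 (.leaf 227 1786 (.cons 249 (.leaf 202 1613 (.cons 271 (.leaf 250 1969 (.leaf 342 1973 .nil)) .nil)) .nil)) (.cons 246 (.leaf 245 1960 (.cons 226 (.leaf 227 1786 (.leaf 249 1777 .nil)) .nil)) (.cons 246 (.leaf 245 1960 (.cons 342 (.leaf 271 1973 (.cons 365 (.leaf 341 2158 (.cons 366 (.leaf 389 2350 (.cons 367 (.leaf 343 2164 (.leaf 391 2356 .nil)) .nil)) .nil)) .nil)) .nil)) .nil)))) .nil)) .nil)) .nil)) .nil)) .nil)) .nil)) .nil)) (.cons 295 (.leaf 319 1790 (.cons 200 (.leaf 271 1598 (.cons 175 (.leaf 199 1407 (.cons 176 (.leaf 151 1215 (.cons 177 (.leaf 201 1413 (.leaf 153 1221 .nil)) .nil)) .nil)) .nil)) .nil)) .nil))))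
noncomputable def t121 : T := .cons 295 (.leaf 319 1790 (.cons 200 (.leaf 271 1598 (.cons 175 (.leaf 199 1407 (.cons 176 (.leaf 151 1215 (.cons 177 (.leaf 201 1413 (.leaf 153 1221 .nil)) .nil)) .nil)) .nil)) .nil)) (.cons 295 (.leaf 319 1790 (.cons 200 (.leaf 271 1598 (.cons 201 (.leaf 177 1413 (.leaf 225 1605 .nil)) .nil)) .nil)) (.cons 199 (.leaf 223 1599 (.cons 200 (.leaf 175 1407 (.cons 201 (.leaf 177 1413 (.leaf 225 1605 .nil)) .nil)) .nil)) (.cons 295 (.leaf 319 1790 (.cons 199 (.leaf 223 1599 (.cons 200 (.leaf 175 1407 (.leaf 271 1598 .nil)) .nil)) .nil)) (.cons 223 (.leaf 199 1599 (.cons 225 (.leaf 201 1605 (.cons 297 (.leaf 321 1796 (.cons 222 (.cons 221 (.leaf 249 1768 (.cons 197 (.leaf 196 1571 (.leaf 198 1579 .nil)) .nil)) (.cons 246 (.leaf 245 1770 (.cons 197 (.leaf 198 1579 (.cons 226 (.leaf 247 1778 (.cons 202 (.leaf 203 1593 (.cons 251 (.leaf 250 1784 (.cons 227 (.leaf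 299 1623 (.leaf 252 1792 .nil)) .nil)) .nil)) .nil)) .nil)) .nil)) (.cons 249 (.leaf 221 1768 (.leaf 250 1776 .nil)) .nil))) .nil)) .nil)) .nil)) .nil))))
noncomputable def t122 : T := .cons 248 (.cons 199 (.leaf 223 1599 (.cons 200 (.leaf 175 1407 (.cons 201 (.leaf 177 1413 (.leaf 225 1605 .nil)) .nil)) .nil)) (.cons 297 (.leaf 321 1796 (.cons 200 (.leaf 273 1604 (.cons 201 (.leaf 177 1413 (.leaf 225 1605 .nil)) .nil)) .nil)) (.cons 297 (.leaf 321 1796 (.cons 199 (.leaf 223 1599 (.cons 200 (.leaf 175 1407 (.leaf 273 1604 .nil)) .nil)) .nil)) (.cons 223 (.leaf 199 1599 (.cons 225 (.leaf 201 1605 (.cons 297 (.leaf 321 1796 (.cons 222 (.cons 221 (.leaf 249 1768 (.cons 197 (.leaf 196 1571 (.leaf 198 1579 .nil)) .nil)) (.cons 246 (.leaf 245 1770 (.cons 197 (.leaf 198 1579 (.cons 226 (.leaf 247 1778 (.cons 202 (.leaf 203 1593 (.cons 251 (.leaf 250 1784 (.cons 227 (.leaf 299 1623 (.leaf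 252 1792 .nil)) .nil)) .nil)) .nil)) .nil)) .nil)) (.cons 249 (.leaf 221 1768 (.leaf 250 1776 .nil)) .nil))) .nil)) .nil)) .nil)) .nil)))) (.cons 248 t121 (.cons 248 t120 (.cons 248 (.cons 199 (.leaf 223 1599 (.cons 200 (.leaf 175 1407 (.cons 295 (.leaf 271 1598 (.leaf 319 1790 .nil)) .nil)) .nil)) (.cons 199 (.leaf 223 1599 (.cons 200 (.leaf 175 1407 (.cons 297 (.leaf 273 1604 (.leaf 321 1796 .nil)) .nil)) .nil)) (.cons 295 (.leaf 319 1790 (.cons 200 (.leaf 271 1598 (.cons 297 (.leaf 273 1604 (.leaf 321 1796 .nil)) .nil)) .nil)) (.cons 223 (.leaf 199 1599 (.cons 295 (.leaf 319 1790 (.cons 273 (.leaf 274 2170 (.cons 294 (.leaf 293 2153 (.cons 297 (.leaf 321 1796 (.cons 270 (.leaf 269 2155 (.cons 318 (.leaf 317 2346 (.cons 247 (.leaf 246 1781 (.leaf 271 1782 .nil)) .nil)) .nil)) .nil)) .nil)) .nil)) .nil)) .nil)) .nil)))) (.cons 248 t119 (.cons 248 t118 (.cons 248 (.cons 295 (.leaf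 319 1790 (.cons 200 (.leaf 271 1598 (.cons 175 (.leaf 199 1407 (.cons 176 (.leaf 151 1215 (.cons 177 (.leaf 201 1413 (.leaf 153 1221 .nil)) .nil)) .nil)) .nil)) .nil)) (.cons 199 (.leaf 223 1599 (.cons 200 (.leaf 175 1407 (.cons 201 (.leaf 177 1413 (.leaf 225 1605 .nil)) .nil)) .nil)) (.cons 295 (.leaf 319 1790 (.cons 200 (.leaf 271 1598 (.cons 201 (.leaf 177 1413 (.leaf 225 1605 .nil)) .nil)) .nil)) (.cons 295 (.leaf 319 1790 (.cons 199 (.leaf 223 1599 (.cons 200 (.leaf 175 1407 (.leaf 271 1598 .nil)) .nil)) .nil)) (.cons 295 (.leaf 319 1790 (.cons 273 (.leaf 274 2170 (.cons 225 (.leaf 201 1605 (.cons 223 (.leaf 199 1599 (.cons 294 (.leaf 293 2153 (.cons 226 (.cons 247 (.leaf 246 1778 (.leaf 227 1786 .nil)) (.cons 202 (.leaf 203 1593 (.cons 250 (.leaf 251 1784 (.cons 249 (.leaf 222 1776 (.leaf 178 1422 .nil)) .nil)) .nil)) .nil)) .nil)) .nil)) .nil)) .nil)) .nil)) .nil))))) (.cons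 248 (.cons 295 (.leaf 319 1790 (.cons 273 (.leaf 274 2170 (.cons 297 (.leaf 200 1604 (.leaf 321 1796 .nil)) .nil)) .nil)) (.cons 297 (.leaf 321 1796 (.cons 200 (.leaf 273 1604 (.cons 201 (.leaf 177 1413 (.leaf 225 1605 .nil)) .nil)) .nil)) (.cons 295 (.leaf 319 1790 (.cons 199 (.leaf 223 1599 (.cons 200 (.leaf 175 1407 (.leaf 271 1598 .nil)) .nil)) .nil)) (.cons 295 (.leaf 319 1790 (.cons 273 (.leaf 274 2170 (.cons 297 (.leaf 321 1796 (.cons 294 (.leaf 293 2153 (.cons 270 (.leaf 269 2155 (.cons 225 (.leaf 201 1605 (.cons 223 (.leaf 199 1599 (.cons 318 (.leaf 317 2346 (.cons 249 (.cons 250 (.leaf 271 1969 (.leaf 222 1776 .nil)) (.cons 222 (.leaf 221 1768 (.cons 198 (.leaf 197 1579 (.cons 246 (.leaf 245 1770 (.leaf 271 1588 .nil)) .nil)) .nil)) (.cons 250 (.leaf 271 1969 (.leaf 251 1787 .nil)) (.cons 250 (.leaf 222 1776 (.leaf 251 1787 .nil)) .nil)))) .nil)) .nil)) .nil)) .nil)) .nil))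 .nil)) .nil)) .nil)) .nil)))) (.cons 248 (.cons 295 (.leaf 319 1790 (.cons 199 (.leaf 223 1599 (.cons 200 (.leaf 175 1407 (.leaf 271 1598 .nil)) .nil)) .nil)) (.cons 297 (.leaf 321 1796 (.cons 200 (.leaf 273 1604 (.cons 201 (.leaf 177 1413 (.leaf 225 1605 .nil)) .nil)) .nil)) (.cons 223 (.leaf 199 1599 (.cons 225 (.leaf 201 1605 (.cons 295 (.leaf 319 1790 (.cons 273 (.leaf 274 2170 (.cons 294 (.leaf 293 2153 (.cons 297 (.leaf 321 1796 (.cons 318 (.leaf 317 2346 (.cons 247 (.leaf 271 1782 (.cons 226 (.leaf 227 1786 (.cons 202 (.leaf 203 1593 (.leaf 249 1613 .nil)) .nil)) .nil)) .nil)) .nil)) .nil)) .nil)) .nil)) .nil)) .nil)) .nil))) .nil))))))))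
noncomputable def t123 : T := .cons 201 (.leaf 249 1606 (.cons 274 (.leaf 295 2170 (.cons 251 (.leaf 252 1985 (.cons 299 (.leaf 300 2176 (.cons 226 (.cons 202 (.leaf 227 1623 (.leaf 250 1620 .nil)) (.cons 227 (.leaf 202 1623 (.cons 204 (.leaf 228 1629 (.leaf 203 1601 .nil)) .nil)) (.cons 250 (.leaf 323 1815 (.leaf 271 1977 .nil)) .nil))) .nil)) .nil)) .nil)) .nil)) (.cons 249 (.leaf 201 1606 (.cons 226 (.cons 297 (.leaf 200 1607 (.leaf 202 1613 .nil)) (.cons 227 (.cons 203 (.leaf 204 1601 (.cons 202 (.leaf 223 1593 (.cons 251 (.leaf 178 1431 (.leaf 299 1623 .nil)) .nil)) .nil)) (.cons 199 (.leaf 200 1595 (.cons 203 (.leaf 204 1601 (.cons 223 (.leaf 198 1587 (.leaf 202 1593 .nil)) .nil)) .nil)) (.cons 199 (.leaf 200 1595 (.cons 223 (.leaf 198 1587 (.cons 247 (.leaf 271 1596 (.leaf 246 1778 .nil)) .nil)) .nil)) (.cons 199 (.leaf 200 1595 (.cons 203 (.leaf 204 1601 (.cons 251 (.leaf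 252 1792 (.cons 202 (.leaf 178 1431 (.leaf 299 1623 .nil)) .nil)) .nil)) .nil)) .nil)))) (.cons 200 (.leaf 297 1607 (.cons 152 (.leaf 176 1220 (.cons 199 (.leaf 227 1595 (.cons 198 (.leaf 197 1576 (.leaf 223 1587 .nil)) .nil)) .nil)) .nil)) (.cons 202 (.leaf 297 1613 (.cons 203 (.leaf 223 1593 (.cons 204 (.leaf 227 1601 (.leaf 205 1610 .nil)) .nil)) .nil)) .nil)))) .nil)) (.cons 274 (.leaf 295 2170 (.cons 251 (.leaf 252 1985 (.cons 299 (.leaf 300 2176 (.cons 226 (.cons 202 (.leaf 227 1623 (.leaf 250 1620 .nil)) (.cons 202 (.leaf 227 1623 (.cons 223 (.leaf 203 1593 (.cons 198 (.leaf 199 1587 (.cons 222 (.leaf 197 1579 (.leaf 201 1585 .nil)) .nil)) .nil)) .nil)) (.cons 250 (.leaf 323 1815 (.leaf 271 1977 .nil)) .nil))) .nil)) .nil)) .nil)) (.cons 274 (.leaf 295 2170 (.cons 251 (.leaf 252 1985 (.cons 299 (.leaf 300 2176 (.cons 226 (.cons 202 (.leaf 227 1623 (.leaf 250 1620 .nil)) (.cons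 202 (.leaf 227 1623 (.cons 223 (.leaf 203 1593 (.cons 198 (.leaf 199 1587 (.cons 222 (.leaf 197 1579 (.cons 246 (.leaf 245 1770 (.leaf 247 1778 .nil)) .nil)) .nil)) .nil)) .nil)) (.cons 250 (.leaf 323 1815 (.leaf 271 1977 .nil)) .nil))) .nil)) .nil)) .nil)) (.cons 249 (.leaf 201 1606 (.cons 295 (.leaf 274 2170 (.cons 294 (.leaf 293 2153 (.cons 297 (.leaf 200 1607 (.cons 318 (.leaf 317 2346 (.cons 321 (.leaf 322 2352 (.cons 345 (.leaf 369 2183 (.cons 344 (.leaf 368 2182 (.cons 346 (.leaf 370 2188 (.cons 343 (.leaf 319 2547 (.cons 366 (.leaf 367 2738 (.cons 342 (.leaf 271 2165 (.leaf 365 2730 .nil)) .nil)) .nil)) .nil)) .nil)) .nil)) .nil)) .nil)) .nil)) .nil)) .nil)) .nil)) (.cons 249 (.leaf 201 1606 (.cons 297 (.leaf 200 1607 (.cons 226 (.leaf 202 1613 (.cons 321 (.leaf 250 1805 (.cons 345 (.leaf 369 2183 (.cons 346 (.leaf 322 1996 (.leaf 370 2188 .nil)) .nil)) .nil)) .nil)) .nil))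 .nil)) .nil)))))
noncomputable def t124 : T := .cons 274 (.leaf 295 2170 (.cons 251 (.leaf 252 1985 (.cons 299 (.leaf 300 2176 (.cons 226 (.cons 202 (.leaf 227 1623 (.leaf 250 1620 .nil)) (.cons 202 (.leaf 227 1623 (.cons 223 (.leaf 203 1593 (.cons 198 (.leaf 199 1587 (.cons 222 (.leaf 197 1579 (.leaf 201 1585 .nil)) .nil)) .nil)) .nil)) (.cons 250 (.leaf 323 1815 (.leaf 223 1784 .nil)) .nil))) .nil)) .nil)) .nil)) (.cons 249 (.leaf 201 1606 (.cons 297 (.leaf 200 1607 (.cons 226 (.leaf 202 1613 (.cons 321 (.leaf 250 1805 (.cons 345 (.leaf 369 2183 (.cons 346 (.leaf 322 1996 (.leaf 370 2188 .nil)) .nil)) .nil)) .nil)) .nil)) .nil)) (.cons 274 (.leaf 295 2170 (.cons 251 (.leaf 252 1985 (.cons 299 (.leaf 300 2176 (.cons 226 (.cons 202 (.leaf 227 1623 (.leaf 250 1620 .nil)) (.cons 202 (.leaf 227 1623 (.cons 223 (.leaf 203 1593 (.cons 198 (.leaf 199 1587 (.cons 222 (.leaf 197 1579 (.cons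 246 (.leaf 245 1770 (.leaf 247 1778 .nil)) .nil)) .nil)) .nil)) .nil)) (.cons 250 (.leaf 323 1815 (.leaf 223 1784 .nil)) .nil))) .nil)) .nil)) .nil)) (.cons 249 (.leaf 201 1606 (.cons 295 (.leaf 274 2170 (.cons 294 (.leaf 293 2153 (.cons 297 (.leaf 200 1607 (.cons 321 (.leaf 322 2352 (.cons 270 (.leaf 269 2155 (.cons 318 (.leaf 317 2346 (.cons 345 (.leaf 369 2183 (.cons 346 (.leaf 370 2188 (.cons 344 (.leaf 368 2182 (.cons 343 (.leaf 319 2547 (.cons 367 (.leaf 342 2164 (.leaf 366 2738 .nil)) .nil)) .nil)) .nil)) .nil)) .nil)) .nil)) .nil)) .nil)) .nil)) .nil)) .nil)) .nil)))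
noncomputable def t125 : T := .cons 297 (.leaf 269 2155 (.cons 321 (.leaf 322 2352 (.cons 345 (.leaf 369 2183 (.cons 318 (.leaf 317 2346 (.cons 346 (.leaf 370 2188 (.cons 344 (.leaf 368 2182 (.cons 343 (.leaf 319 2547 (.cons 367 (.leaf 342 2164 (.leaf 366 2738 .nil)) .nil)) .nil)) .nil)) .nil)) .nil)) .nil)) .nil)) (.cons 246 (.cons 222 (.leaf 319 1780 (.cons 223 (.leaf 245 1770 (.leaf 199 1589 .nil)) .nil)) (.cons 245 (.leaf 271 1963 (.cons 318 (.leaf 221 1775 (.cons 317 (.leaf 297 2346 (.leaf 341 1966 .nil)) .nil)) .nil)) (.cons 319 (.leaf 222 1780 (.cons 343 (.leaf 367 2173 (.leaf 271 1975 .nil)) .nil)) .nil))) (.cons 246 (.cons 222 (.leaf 319 1780 (.cons 223 (.leaf 245 1770 (.leaf 199 1589 .nil)) .nil)) (.cons 245 (.leaf 271 1963 (.cons 221 (.leaf 318 1775 (.cons 197 (.leaf 269 1580 (.leaf 173 1388 .nil)) .nil)) .nil)) (.cons 222 (.leaf 319 1780 (.cons 197 (.leaf 221 1583 (.cons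 198 (.leaf 223 1579 (.leaf 271 1588 .nil)) .nil)) .nil)) .nil))) (.cons 269 (.leaf 297 2155 (.cons 268 (.leaf 271 2144 (.leaf 267 2136 .nil)) .nil)) .nil)))
noncomputable def t126 : T := .cons 202 (.leaf 222 1585 (.cons 203 (.leaf 200 1594 (.leaf 204 1602 .nil)) .nil)) (.cons 247 (.cons 271 (.leaf 199 1596 (.leaf 200 1597 .nil)) (.cons 226 (.leaf 246 1778 (.cons 199 (.leaf 198 1587 (.cons 200 (.leaf 227 1595 (.cons 202 (.leaf 203 1593 (.cons 152 (.leaf 176 1214 (.cons 175 (.leaf 174 1395 (.cons 151 (.leaf 127 1020 (.leaf 128 1021 .nil)) .nil)) .nil)) .nil)) .nil)) .nil)) .nil)) (.cons 271 (.leaf 200 1597 (.leaf 318 1782 .nil)) (.cons 271 (.leaf 199 1596 (.leaf 318 1782 .nil)) .nil)))) (.cons 247 (.cons 271 (.leaf 199 1596 (.leaf 200 1597 .nil)) (.cons 226 (.leaf 246 1778 (.cons 199 (.leaf 198 1587 (.cons 227 (.leaf 200 1595 (.cons 204 (.leaf 203 1601 (.cons 228 (.leaf 205 1609 (.cons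 251 (.leaf 299 1629 (.leaf 252 1792 .nil)) .nil)) .nil)) .nil)) .nil)) .nil)) (.cons 271 (.leaf 200 1597 (.leaf 318 1782 .nil)) (.cons 271 (.leaf 199 1596 (.leaf 318 1782 .nil)) .nil)))) (.cons 202 (.leaf 222 1585 (.cons 203 (.leaf 204 1602 (.leaf 226 1593 .nil)) .nil)) (.cons 247 (.cons 271 (.leaf 199 1596 (.leaf 200 1597 .nil)) (.cons 202 (.leaf 222 1585 (.cons 226 (.leaf 246 1778 (.cons 199 (.leaf 198 1587 (.cons 200 (.leaf 227 1592 (.cons 152 (.leaf 176 1214 (.cons 175 (.leaf 174 1395 (.cons 151 (.leaf 127 1020 (.leaf 128 1021 .nil)) .nil)) .nil)) .nil)) .nil)) .nil)) .nil)) (.cons 271 (.leaf 200 1597 (.leaf 318 1782 .nil)) (.cons 271 (.leaf 199 1596 (.leaf 318 1782 .nil)) .nil)))) .nil))))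
noncomputable def t127 : T := .cons 295 (.leaf 274 2170 (.cons 201 (.leaf 249 1606 (.cons 294 (.leaf 293 2153 (.cons 223 t126 .nil)) .nil)) .nil)) (.cons 249 (.leaf 201 1606 (.cons 226 (.cons 200 (.leaf 297 1607 (.cons 152 (.leaf 176 1220 (.cons 199 (.leaf 227 1595 (.cons 198 (.leaf 197 1576 (.leaf 223 1587 .nil)) .nil)) .nil)) .nil)) (.cons 227 (.cons 203 (.leaf 204 1601 (.cons 202 (.leaf 223 1593 (.cons 251 (.leaf 178 1431 (.leaf 299 1623 .nil)) .nil)) .nil)) (.cons 199 (.leaf 200 1595 (.cons 203 (.leaf 204 1601 (.cons 223 (.leaf 198 1587 (.leaf 202 1593 .nil)) .nil)) .nil)) (.cons 199 (.leaf 200 1595 (.cons 223 (.leaf 198 1587 (.cons 247 (.leaf 271 1596 (.leaf 246 1778 .nil)) .nil)) .nil)) (.cons 199 (.leaf 200 1595 (.cons 203 (.leaf 204 1601 (.cons 251 (.leaf 252 1792 (.cons 202 (.leaf 178 1431 (.leaf 299 1623 .nil)) .nil)) .nil)) .nil)) .nil)))) (.cons 202 (.leaf 297 1613 (.cons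 203 (.leaf 223 1593 (.cons 204 (.leaf 227 1601 (.leaf 205 1610 .nil)) .nil)) .nil)) (.cons 297 (.leaf 200 1607 (.leaf 202 1613 .nil)) .nil)))) .nil)) (.cons 295 (.leaf 274 2170 (.cons 294 (.leaf 293 2153 (.cons 270 t125 .nil)) .nil)) (.cons 249 (.leaf 201 1606 (.cons 295 (.leaf 274 2170 (.cons 294 (.leaf 293 2153 (.cons 297 (.leaf 200 1607 (.cons 318 (.leaf 317 2346 (.cons 321 (.leaf 322 2352 (.cons 345 (.leaf 369 2183 (.cons 344 (.leaf 368 2182 (.cons 346 (.leaf 370 2188 (.cons 343 (.leaf 319 2547 (.cons 270 (.leaf 269 2155 (.cons 367 (.leaf 342 2164 (.leaf 366 2738 .nil)) .nil)) .nil)) .nil)) .nil)) .nil)) .nil)) .nil)) .nil)) .nil)) .nil)) .nil)) .nil)))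
noncomputable def t128 : T := .cons 249 (.leaf 201 1606 (.cons 295 (.leaf 274 2170 (.cons 294 (.leaf 293 2153 (.cons 297 (.leaf 200 1607 (.cons 318 (.leaf 317 2346 (.cons 321 (.leaf 322 2352 (.cons 345 (.leaf 369 2183 (.cons 344 (.leaf 368 2182 (.cons 346 (.leaf 370 2188 (.cons 343 (.leaf 319 2547 (.cons 270 (.leaf 269 2155 (.cons 367 (.leaf 342 2164 (.leaf 366 2738 .nil)) .nil)) .nil)) .nil)) .nil)) .nil)) .nil)) .nil)) .nil)) .nil)) .nil)) .nil)) (.cons 249 (.leaf 201 1606 (.cons 250 (.cons 251 (.leaf 252 1986 (.cons 223 (.leaf 222 1776 (.leaf 226 1784 .nil)) .nil)) (.cons 200 (.leaf 297 1607 (.cons 152 (.leaf 176 1220 (.cons 223 (.leaf 222 1776 (.cons 271 (.leaf 270 1969 (.cons 247 (.leaf 199 1596 (.leaf 295 1597 .nil)) .nil)) .nil)) .nil)) .nil)) (.cons 251 (.leaf 252 1986 (.cons 270 (.leaf 271 1969 (.cons 297 (.leaf 200 1607 (.cons 321 (.leaf 226 1805 (.cons 345 (.leaf 369 2183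 (.cons 346 (.leaf 322 1996 (.leaf 370 2188 .nil)) .nil)) .nil)) .nil)) .nil)) .nil)) .nil))) .nil)) (.cons 274 (.leaf 295 2170 (.cons 251 (.leaf 252 1985 (.cons 271 (.leaf 250 1977 (.cons 246 (.leaf 247 1971 (.cons 270 (.leaf 245 1963 (.cons 269 (.leaf 297 2152 (.cons 293 (.leaf 292 2146 (.leaf 294 2154 .nil)) .nil)) .nil)) .nil)) .nil)) .nil)) .nil)) (.cons 249 (.leaf 201 1606 (.cons 200 (.leaf 297 1607 (.cons 176 (.leaf 152 1220 (.cons 250 (.cons 223 (.leaf 222 1776 (.cons 251 (.leaf 252 1986 (.leaf 226 1784 .nil)) .nil)) (.cons 223 (.leaf 222 1776 (.cons 271 (.leaf 270 1969 (.cons 199 (.leaf 247 1596 (.cons 198 (.leaf 197 1576 (.leaf 226 1587 .nil)) .nil)) .nil)) .nil)) (.cons 251 (.leaf 252 1986 (.cons 271 (.leaf 270 1969 (.leaf 274 1977 .nil)) .nil)) .nil))) .nil)) .nil)) .nil)) (.cons 274 (.leaf 295 2170 (.cons 201 (.leaf 249 1606 (.cons 251 (.leaf 252 1985 (.cons 250 (.leaf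 271 1977 (.cons 226 (.leaf 223 1784 (.cons 299 (.leaf 323 1815 (.leaf 300 2176 .nil)) .nil)) .nil)) .nil)) .nil)) .nil)) .nil))))
noncomputable def t129 : T := .cons 274 (.leaf 295 2170 (.cons 201 (.leaf 249 1606 (.cons 251 (.leaf 252 1985 (.cons 299 (.leaf 300 2176 (.cons 271 (.leaf 250 1977 (.cons 246 (.leaf 247 1971 (.cons 270 (.leaf 245 1963 (.cons 269 (.leaf 297 2152 (.cons 293 (.leaf 292 2146 (.leaf 294 2154 .nil)) .nil)) .nil)) .nil)) .nil)) .nil)) .nil)) .nil)) .nil)) (.cons 249 (.leaf 201 1606 (.cons 226 (.cons 202 (.leaf 297 1613 (.cons 203 (.leaf 223 1593 (.cons 204 (.leaf 227 1601 (.leaf 205 1610 .nil)) .nil)) .nil)) (.cons 223 (.cons 199 (.leaf 198 1587 (.cons 247 (.leaf 271 1596 (.leaf 246 1778 .nil)) .nil)) (.cons 250 (.leaf 222 1776 (.leaf 251 1784 .nil)) .nil)) (.cons 202 (.leaf 297 1613 (.cons 178 (.leaf 154 1230 (.leaf 250 1422 .nil)) .nil)) .nil))) .nil)) (.cons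 274 (.leaf 295 2170 (.cons 251 (.leaf 252 1985 (.cons 299 (.leaf 300 2176 (.cons 226 (.cons 202 (.leaf 227 1623 (.leaf 250 1620 .nil)) (.cons 202 (.leaf 227 1623 (.cons 223 (.leaf 203 1593 (.cons 198 (.leaf 199 1587 (.cons 222 (.leaf 197 1579 (.leaf 201 1585 .nil)) .nil)) .nil)) .nil)) (.cons 250 (.leaf 323 1815 (.leaf 271 1977 .nil)) .nil))) .nil)) .nil)) .nil)) (.cons 274 (.leaf 295 2170 (.cons 251 (.leaf 252 1985 (.cons 299 (.leaf 300 2176 (.cons 226 (.cons 202 (.leaf 227 1623 (.leaf 250 1620 .nil)) (.cons 202 (.leaf 227 1623 (.cons 223 (.leaf 203 1593 (.cons 198 (.leaf 199 1587 (.cons 222 (.leaf 197 1579 (.cons 246 (.leaf 245 1770 (.leaf 247 1778 .nil)) .nil)) .nil)) .nil)) .nil)) (.cons 250 (.leaf 323 1815 (.leaf 271 1977 .nil)) .nil))) .nil)) .nil)) .nil)) (.cons 295 (.leaf 274 2170 (.cons 294 (.leaf 293 2153 (.cons 270 (.cons 297 (.leaf 269 2155 (.cons 321 (.leaf 322 2352 (.cons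 345 (.leaf 369 2183 (.cons 318 (.leaf 317 2346 (.cons 346 (.leaf 370 2188 (.cons 344 (.leaf 368 2182 (.cons 343 (.leaf 319 2547 (.cons 367 (.leaf 342 2164 (.leaf 366 2738 .nil)) .nil)) .nil)) .nil)) .nil)) .nil)) .nil)) .nil)) (.cons 246 (.cons 319 (.leaf 222 1780 (.cons 245 (.leaf 271 1963 (.cons 318 (.leaf 221 1775 (.leaf 343 1972 .nil)) .nil)) .nil)) (.cons 271 (.leaf 245 1963 (.cons 249 (.leaf 201 1606 (.leaf 250 1969 .nil)) .nil)) (.cons 222 (.leaf 319 1780 (.cons 223 (.leaf 245 1770 (.leaf 199 1589 .nil)) .nil)) (.cons 319 (.leaf 222 1780 (.cons 343 (.leaf 367 2173 (.leaf 271 1975 .nil)) .nil)) .nil)))) (.cons 269 (.leaf 297 2155 (.cons 268 (.leaf 271 2144 (.leaf 267 2136 .nil)) .nil)) .nil))) .nil)) .nil)) (.cons 274 (.leaf 295 2170 (.cons 251 (.leaf 252 1985 (.cons 299 (.leaf 300 2176 (.cons 226 (.cons 202 (.leaf 227 1623 (.leaf 250 1620 .nil)) (.cons 202 (.leaf 227 1623 (.cons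 223 (.leaf 203 1593 (.cons 198 (.leaf 199 1587 (.cons 222 (.leaf 197 1579 (.leaf 201 1585 .nil)) .nil)) .nil)) .nil)) (.cons 250 (.leaf 323 1815 (.leaf 223 1784 .nil)) .nil))) .nil)) .nil)) .nil)) (.cons 274 (.leaf 295 2170 (.cons 201 (.leaf 249 1606 (.cons 251 (.leaf 252 1985 (.cons 299 (.leaf 300 2176 (.cons 223 (.cons 222 (.leaf 202 1585 (.cons 197 (.leaf 198 1579 (.cons 221 (.leaf 196 1571 (.cons 245 (.leaf 244 1762 (.leaf 246 1770 .nil)) .nil)) .nil)) .nil)) (.cons 247 (.cons 271 (.leaf 199 1596 (.leaf 246 1971 .nil)) (.cons 199 (.leaf 271 1596 (.cons 198 (.leaf 226 1587 (.cons 197 (.leaf 196 1568 (.leaf 222 1579 .nil)) .nil)) .nil)) (.cons 246 (.leaf 226 1778 (.cons 245 (.leaf 222 1770 (.leaf 244 1761 .nil)) .nil)) .nil))) (.cons 226 (.cons 202 (.leaf 227 1623 (.leaf 203 1593 .nil)) (.cons 199 (.leaf 198 1587 (.cons 247 (.leaf 271 1596 (.leaf 246 1778 .nil)) .nil)) .nil)) (.cons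 202 (.leaf 222 1585 (.cons 203 (.leaf 204 1602 (.leaf 226 1593 .nil)) .nil)) .nil)))) .nil)) .nil)) .nil)) .nil)) .nil))))))
noncomputable def t130 : T := .cons 200 (.leaf 297 1607 (.cons 176 (.leaf 152 1220 (.cons 223 (.cons 247 (.leaf 199 1596 (.leaf 295 1597 .nil)) (.cons 222 (.leaf 250 1776 (.cons 197 (.leaf 198 1579 (.cons 221 (.leaf 196 1571 (.cons 245 (.leaf 244 1762 (.leaf 246 1770 .nil)) .nil)) .nil)) .nil)) .nil)) .nil)) .nil)) (.cons 297 (.leaf 200 1607 (.cons 270 (.leaf 269 2152 (.cons 294 (.leaf 293 2154 (.cons 246 (.leaf 245 1963 (.cons 295 (.cons 222 (.leaf 198 1588 (.leaf 319 1780 .nil)) (.cons 198 (.leaf 222 1588 (.cons 318 (.leaf 317 2346 (.cons 247 (.leaf 223 1781 (.leaf 342 1973 .nil)) .nil)) .nil)) (.cons 318 (.leaf 317 2346 (.cons 247 (.leaf 223 1781 (.leaf 342 1973 .nil)) .nil)) .nil))) .nil)) .nil)) .nil)) .nil)) (.cons 270 (.leaf 250 1969 (.cons 245 (.leaf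 246 1963 (.cons 269 (.leaf 244 1955 (.leaf 297 2152 .nil)) .nil)) .nil)) (.cons 250 (.leaf 270 1969 (.cons 251 (.leaf 252 1986 (.cons 223 (.leaf 222 1776 (.cons 247 (.leaf 199 1596 (.cons 295 (.leaf 200 1597 (.cons 294 (.leaf 293 2153 (.leaf 318 1782 .nil)) .nil)) .nil)) .nil)) .nil)) .nil)) .nil)))
noncomputable def t131 : T := .cons 246 (.cons 245 (.leaf 222 1770 (.cons 247 (.leaf 226 1778 (.leaf 244 1761 .nil)) .nil)) (.cons 226 (.leaf 247 1778 (.cons 199 (.leaf 198 1587 (.cons 202 (.leaf 203 1593 (.cons 154 (.leaf 178 1230 (.cons 227 (.leaf 200 1595 (.cons 251 (.leaf 299 1623 (.leaf 250 1784 .nil)) .nil)) .nil)) .nil)) .nil)) .nil)) (.cons 245 (.leaf 222 1770 (.cons 247 (.leaf 244 1761 (.cons 199 (.leaf 271 1596 (.cons 175 (.leaf 270 1398 (.cons 150 (.leaf 174 1207 (.cons 151 (.leaf 126 1015 (.cons 152 (.leaf 128 1021 (.leaf 176 1213 .nil)) .nil)) .nil)) .nil)) .nil)) .nil)) .nil))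 (.cons 222 (.leaf 245 1770 (.leaf 250 1776 .nil)) .nil)))) (.cons 226 (.cons 199 (.leaf 198 1587 (.cons 247 (.leaf 271 1596 (.leaf 246 1778 .nil)) .nil)) (.cons 202 (.leaf 203 1593 (.cons 154 (.leaf 178 1230 (.cons 246 (.leaf 247 1778 (.cons 251 (.leaf 250 1784 (.cons 227 (.leaf 299 1623 (.leaf 252 1792 .nil)) .nil)) .nil)) .nil)) .nil)) (.cons 198 (.leaf 199 1587 (.cons 202 (.leaf 203 1593 (.cons 154 (.leaf 178 1230 (.cons 251 (.leaf 250 1784 (.cons 227 (.leaf 299 1623 (.leaf 252 1792 .nil)) .nil)) .nil)) .nil)) .nil)) .nil))) (.cons 246 (.cons 245 (.leaf 222 1770 (.cons 247 (.leaf 226 1778 (.leaf 244 1761 .nil)) .nil)) (.cons 222 (.leaf 245 1770 (.cons 198 (.leaf 197 1579 (.cons 199 (.leaf 226 1587 (.cons 175 (.leaf 151 1206 (.leaf 270 1397 .nil)) .nil)) .nil)) .nil)) (.cons 226 (.leaf 247 1778 (.cons 199 (.leaf 198 1587 (.cons 202 (.leaf 203 1593 (.cons 154 (.leaf 178 1230 (.cons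 227 (.leaf 200 1595 (.cons 251 (.leaf 299 1623 (.leaf 252 1792 .nil)) .nil)) .nil)) .nil)) .nil)) .nil)) (.cons 245 (.leaf 222 1770 (.cons 247 (.leaf 244 1761 (.cons 199 (.leaf 271 1596 (.cons 175 (.leaf 270 1398 (.cons 150 (.leaf 174 1207 (.cons 151 (.leaf 126 1015 (.cons 152 (.leaf 128 1021 (.leaf 176 1213 .nil)) .nil)) .nil)) .nil)) .nil)) .nil)) .nil)) .nil)))) (.cons 222 (.leaf 250 1776 (.cons 197 (.leaf 198 1579 (.cons 221 (.leaf 196 1571 (.cons 245 (.leaf 244 1762 (.leaf 246 1770 .nil)) .nil)) .nil)) .nil)) (.cons 250 (.leaf 222 1776 (.cons 251 (.leaf 226 1784 (.leaf 252 1795 .nil)) .nil)) .nil))))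
noncomputable def t132 : T := .cons 222 (.leaf 250 1776 (.cons 197 (.leaf 198 1579 (.cons 201 (.leaf 202 1585 (.cons 221 (.leaf 196 1571 (.leaf 200 1577 .nil)) .nil)) .nil)) .nil)) (.cons 226 (.cons 198 (.leaf 199 1587 (.cons 202 (.leaf 203 1593 (.cons 154 (.leaf 178 1230 (.cons 246 (.leaf 247 1778 (.cons 251 (.leaf 250 1784 (.cons 227 (.leaf 299 1623 (.leaf 252 1792 .nil)) .nil)) .nil)) .nil)) .nil)) .nil)) (.cons 199 (.leaf 198 1587 (.cons 247 (.leaf 271 1596 (.leaf 246 1778 .nil)) .nil)) (.cons 202 (.leaf 203 1593 (.cons 154 (.leaf 178 1230 (.cons 246 (.leaf 247 1778 (.cons 251 (.leaf 250 1784 (.cons 227 (.leaf 299 1623 (.leaf 252 1792 .nil)) .nil)) .nil)) .nil)) .nil)) (.cons 198 (.leaf 199 1587 (.cons 202 (.leaf 203 1593 (.cons 154 (.leaf 178 1230 (.cons 251 (.leaf 250 1784 (.cons 227 (.leaf 299 1623 (.leaf 252 1792 .nil)) .nil)) .nil)) .nil)) .nil)) .nil)))) (.cons 226 (.cons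 202 (.leaf 203 1593 (.cons 154 (.leaf 178 1230 (.cons 222 (.leaf 201 1585 (.cons 246 (.leaf 245 1770 (.leaf 247 1778 .nil)) .nil)) .nil)) .nil)) (.cons 199 (.leaf 198 1587 (.cons 247 (.leaf 271 1596 (.leaf 246 1778 .nil)) .nil)) (.cons 198 (.leaf 199 1587 (.cons 202 (.leaf 203 1593 (.cons 222 (.leaf 197 1579 (.leaf 201 1585 .nil)) .nil)) .nil)) .nil))) (.cons 222 (.leaf 250 1776 (.cons 197 (.leaf 198 1579 (.cons 221 (.leaf 196 1571 (.cons 245 (.leaf 244 1762 (.leaf 246 1770 .nil)) .nil)) .nil)) .nil)) (.cons 222 (.leaf 250 1776 (.cons 246 (.leaf 245 1770 (.cons 201 (.leaf 202 1585 (.cons 200 (.leaf 221 1577 (.cons 152 (.leaf 176 1220 (.cons 226 (.leaf 247 1778 (.cons 227 (.leaf 199 1595 (.leaf 228 1603 .nil)) .nil)) .nil)) .nil)) .nil)) .nil)) .nil)) .nil))))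
noncomputable def t133 : T := .cons 273 (.leaf 201 1606 (.cons 226 (.cons 200 (.leaf 297 1607 (.cons 152 (.leaf 176 1220 (.cons 199 (.leaf 227 1595 (.cons 198 (.leaf 197 1576 (.leaf 223 1587 .nil)) .nil)) .nil)) .nil)) (.cons 250 (.cons 223 (.leaf 222 1776 (.leaf 251 1784 .nil)) (.cons 223 (.leaf 222 1776 (.cons 202 (.leaf 203 1593 (.leaf 178 1422 .nil)) .nil)) (.cons 251 (.leaf 252 1986 (.cons 202 (.leaf 178 1428 (.cons 299 (.leaf 227 1623 (.leaf 323 1815 .nil)) .nil)) .nil)) .nil))) (.cons 297 (.leaf 200 1607 (.leaf 202 1613 .nil)) .nil))) .nil)) (.cons 223 t132 (.cons 223 t131 (.cons 273 (.leaf 201 1606 (.cons 297 (.leaf 200 1607 (.cons 226 (.leaf 202 1613 (.cons 321 (.leaf 250 1805 (.cons 345 (.leaf 369 2183 (.cons 346 (.leaf 322 1996 (.leaf 370 2188 .nil)) .nil)) .nil)) .nil)) .nil)) .nil)) (.cons 273 (.leaf 201 1606 (.cons 226 (.cons 202 (.leaf 297 1613 (.cons 203 (.leaf 223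 1593 (.cons 204 (.leaf 227 1601 (.leaf 205 1610 .nil)) .nil)) .nil)) (.cons 223 (.cons 199 (.leaf 198 1587 (.cons 247 (.leaf 271 1596 (.leaf 246 1778 .nil)) .nil)) (.cons 250 (.leaf 222 1776 (.leaf 251 1784 .nil)) .nil)) (.cons 202 (.leaf 297 1613 (.cons 178 (.leaf 154 1230 (.leaf 250 1422 .nil)) .nil)) .nil))) .nil)) (.cons 273 (.leaf 201 1606 (.cons 226 (.cons 297 (.leaf 200 1607 (.leaf 202 1613 .nil)) (.cons 227 (.cons 203 (.leaf 204 1601 (.cons 202 (.leaf 223 1593 (.cons 251 (.leaf 178 1431 (.leaf 299 1623 .nil)) .nil)) .nil)) (.cons 199 (.leaf 200 1595 (.cons 203 (.leaf 204 1601 (.cons 223 (.leaf 198 1587 (.leaf 202 1593 .nil)) .nil)) .nil)) (.cons 199 (.leaf 200 1595 (.cons 223 (.leaf 198 1587 (.cons 247 (.leaf 271 1596 (.leaf 246 1778 .nil)) .nil)) .nil)) (.cons 199 (.leaf 200 1595 (.cons 203 (.leaf 204 1601 (.cons 251 (.leaf 252 1792 (.cons 202 (.leaf 178 1431 (.leaf 299 1623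 .nil)) .nil)) .nil)) .nil)) .nil)))) (.cons 200 (.leaf 297 1607 (.cons 152 (.leaf 176 1220 (.cons 199 (.leaf 227 1595 (.cons 198 (.leaf 197 1576 (.leaf 223 1587 .nil)) .nil)) .nil)) .nil)) (.cons 202 (.leaf 297 1613 (.cons 203 (.leaf 223 1593 (.cons 204 (.leaf 227 1601 (.leaf 205 1610 .nil)) .nil)) .nil)) .nil)))) .nil)) (.cons 273 (.leaf 201 1606 (.cons 271 t130 .nil)) .nil))))))
noncomputable def t134 : T := .cons 269 (.leaf 297 2155 (.cons 268 (.leaf 271 2144 (.leaf 267 2136 .nil)) .nil)) (.cons 246 (.cons 222 (.leaf 319 1780 (.cons 223 (.leaf 245 1770 (.leaf 199 1589 .nil)) .nil)) (.cons 245 (.leaf 271 1963 (.cons 318 (.leaf 221 1775 (.cons 317 (.leaf 297 2346 (.leaf 341 1966 .nil)) .nil)) .nil)) (.cons 319 (.leaf 222 1780 (.cons 343 (.leaf 367 2173 (.leaf 271 1975 .nil)) .nil)) .nil))) (.cons 246 (.cons 319 (.leaf 222 1780 (.cons 245 (.leaf 271 1963 (.cons 221 (.leaf 318 1775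 (.cons 197 (.leaf 269 1580 (.leaf 173 1388 .nil)) .nil)) .nil)) .nil)) (.cons 245 (.leaf 271 1963 (.cons 221 (.leaf 318 1775 (.cons 197 (.leaf 269 1580 (.leaf 173 1388 .nil)) .nil)) .nil)) (.cons 222 (.leaf 319 1780 (.cons 223 (.leaf 245 1770 (.leaf 199 1589 .nil)) .nil)) (.cons 319 (.leaf 222 1780 (.cons 343 (.leaf 367 2173 (.leaf 271 1975 .nil)) .nil)) .nil)))) (.cons 297 (.leaf 269 2155 (.cons 321 (.leaf 322 2352 (.cons 345 (.leaf 369 2183 (.cons 318 (.leaf 317 2346 (.cons 346 (.leaf 370 2188 (.cons 344 (.leaf 368 2182 (.cons 343 (.leaf 319 2547 (.cons 367 (.leaf 342 2164 (.leaf 366 2738 .nil)) .nil)) .nil)) .nil)) .nil)) .nil)) .nil)) .nil)) .nil)))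
noncomputable def t135 : T := .cons 249 (.leaf 201 1606 (.cons 297 (.leaf 200 1607 (.cons 295 (.leaf 274 2170 (.cons 294 (.leaf 293 2153 (.cons 202 (.leaf 226 1613 (.cons 270 (.leaf 269 2155 (.cons 250 (.leaf 271 1969 (.cons 222 (.leaf 223 1776 (.cons 246 (.leaf 319 1780 (.cons 221 (.leaf 197 1583 (.cons 318 (.leaf 317 2346 (.leaf 245 1775 .nil)) .nil)) .nil)) .nil)) .nil)) .nil)) .nil)) .nil)) .nil)) .nil)) .nil)) (.cons 295 (.leaf 274 2170 (.cons 294 (.leaf 293 2153 (.cons 270 t134 .nil)) .nil)) (.cons 249 (.leaf 201 1606 (.cons 297 (.leaf 200 1607 (.cons 226 (.leaf 202 1613 (.cons 321 (.leaf 250 1805 (.cons 345 (.leaf 369 2183 (.cons 346 (.leaf 322 1996 (.leaf 370 2188 .nil)) .nil)) .nil)) .nil)) .nil)) .nil)) (.cons 295 (.leaf 274 2170 (.cons 201 (.leaf 249 1606 (.cons 294 (.leaf 293 2153 (.cons 223 (.cons 202 (.leaf 222 1585 (.cons 203 (.leaf 200 1594 (.leaf 204 1602 .nil)) .nil))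 (.cons 247 (.cons 271 (.leaf 199 1596 (.leaf 200 1597 .nil)) (.cons 226 (.leaf 246 1778 (.cons 199 (.leaf 198 1587 (.cons 200 (.leaf 227 1595 (.cons 202 (.leaf 203 1593 (.cons 152 (.leaf 176 1214 (.cons 175 (.leaf 174 1395 (.cons 151 (.leaf 127 1020 (.leaf 128 1021 .nil)) .nil)) .nil)) .nil)) .nil)) .nil)) .nil)) (.cons 271 (.leaf 200 1597 (.leaf 318 1782 .nil)) (.cons 271 (.leaf 199 1596 (.leaf 318 1782 .nil)) .nil)))) (.cons 247 (.cons 271 (.leaf 199 1596 (.leaf 200 1597 .nil)) (.cons 246 (.leaf 226 1778 (.cons 245 (.leaf 222 1770 (.leaf 244 1761 .nil)) .nil)) .nil)) (.cons 202 (.leaf 222 1585 (.cons 203 (.leaf 204 1602 (.leaf 226 1593 .nil)) .nil)) .nil)))) .nil)) .nil)) .nil)) .nil)))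
noncomputable def t136 : T := .cons 222 (.leaf 250 1776 (.cons 197 (.leaf 198 1579 (.cons 221 (.leaf 196 1571 (.cons 245 (.leaf 244 1762 (.leaf 246 1770 .nil)) .nil)) .nil)) .nil)) (.cons 226 (.cons 198 (.leaf 199 1587 (.cons 202 (.leaf 203 1593 (.cons 154 (.leaf 178 1230 (.cons 246 (.leaf 247 1778 (.cons 251 (.leaf 250 1784 (.cons 227 (.leaf 299 1623 (.leaf 252 1792 .nil)) .nil)) .nil)) .nil)) .nil)) .nil)) (.cons 199 (.leaf 198 1587 (.cons 247 (.leaf 271 1596 (.leaf 246 1778 .nil)) .nil)) (.cons 202 (.leaf 203 1593 (.cons 154 (.leaf 178 1230 (.cons 246 (.leaf 247 1778 (.cons 251 (.leaf 250 1784 (.cons 227 (.leaf 299 1623 (.leaf 252 1792 .nil)) .nil)) .nil)) .nil)) .nil)) (.cons 198 (.leaf 199 1587 (.cons 202 (.leaf 203 1593 (.cons 154 (.leaf 178 1230 (.cons 251 (.leaf 250 1784 (.cons 227 (.leaf 299 1623 (.leaf 252 1792 .nil)) .nil)) .nil)) .nil)) .nil)) .nil)))) (.cons 246 (.cons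 226 (.leaf 247 1778 (.cons 199 (.leaf 198 1587 (.cons 202 (.leaf 203 1593 (.cons 154 (.leaf 178 1230 (.cons 227 (.leaf 200 1595 (.cons 251 (.leaf 299 1623 (.leaf 252 1792 .nil)) .nil)) .nil)) .nil)) .nil)) .nil)) (.cons 222 (.leaf 245 1770 (.cons 198 (.leaf 197 1579 (.cons 199 (.leaf 226 1587 (.cons 175 (.leaf 151 1206 (.leaf 270 1397 .nil)) .nil)) .nil)) .nil)) (.cons 245 (.leaf 222 1770 (.cons 247 (.leaf 244 1761 (.cons 199 (.leaf 271 1596 (.cons 175 (.leaf 270 1398 (.cons 150 (.leaf 174 1207 (.cons 151 (.leaf 126 1015 (.cons 152 (.leaf 128 1021 (.leaf 176 1213 .nil)) .nil)) .nil)) .nil)) .nil)) .nil)) .nil)) (.cons 222 (.leaf 245 1770 (.cons 198 (.leaf 197 1579 (.cons 247 (.leaf 226 1778 (.cons 174 (.leaf 150 1204 (.leaf 271 1396 .nil)) .nil)) .nil)) .nil)) .nil)))) (.cons 250 (.leaf 222 1776 (.cons 251 (.leaf 226 1784 (.leaf 252 1795 .nil)) .nil)) .nil)))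
noncomputable def t137 : T := .cons 226 (.cons 198 (.leaf 199 1587 (.cons 202 (.leaf 203 1593 (.cons 154 (.leaf 178 1230 (.cons 246 (.leaf 247 1778 (.cons 251 (.leaf 250 1784 (.cons 227 (.leaf 299 1623 (.leaf 252 1792 .nil)) .nil)) .nil)) .nil)) .nil)) .nil)) (.cons 199 (.leaf 198 1587 (.cons 247 (.leaf 271 1596 (.leaf 246 1778 .nil)) .nil)) (.cons 202 (.leaf 203 1593 (.cons 154 (.leaf 178 1230 (.cons 246 (.leaf 247 1778 (.cons 251 (.leaf 250 1784 (.cons 227 (.leaf 299 1623 (.leaf 252 1792 .nil)) .nil)) .nil)) .nil)) .nil)) (.cons 198 (.leaf 199 1587 (.cons 202 (.leaf 203 1593 (.cons 154 (.leaf 178 1230 (.cons 251 (.leaf 250 1784 (.cons 227 (.leaf 299 1623 (.leaf 252 1792 .nil)) .nil)) .nil)) .nil)) .nil)) .nil)))) (.cons 222 (.cons 197 (.leaf 198 1579 (.cons 201 (.leaf 202 1585 (.cons 221 (.leaf 196 1571 (.leaf 200 1577 .nil)) .nil)) .nil)) (.cons 246 (.leaf 245 1770 (.cons 201 (.leaf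 202 1585 (.cons 200 (.leaf 221 1577 (.cons 152 (.leaf 176 1220 (.cons 226 (.leaf 247 1778 (.cons 227 (.leaf 199 1595 (.leaf 228 1603 .nil)) .nil)) .nil)) .nil)) .nil)) .nil)) (.cons 197 (.leaf 198 1579 (.cons 221 (.leaf 196 1571 (.cons 245 (.leaf 244 1762 (.leaf 246 1770 .nil)) .nil)) .nil)) (.cons 246 (.leaf 245 1770 (.cons 198 (.leaf 197 1579 (.cons 247 (.leaf 226 1778 (.cons 174 (.leaf 150 1204 (.leaf 271 1396 .nil)) .nil)) .nil)) .nil)) .nil)))) (.cons 222 (.leaf 250 1776 (.cons 197 (.leaf 198 1579 (.cons 201 (.leaf 202 1585 (.cons 221 (.leaf 196 1571 (.leaf 200 1577 .nil)) .nil)) .nil)) .nil)) (.cons 222 (.leaf 250 1776 (.cons 197 (.leaf 198 1579 (.cons 221 (.leaf 196 1571 (.cons 245 (.leaf 244 1762 (.leaf 246 1770 .nil)) .nil)) .nil)) .nil)) (.cons 222 (.leaf 250 1776 (.cons 246 (.leaf 245 1770 (.cons 201 (.leaf 202 1585 (.cons 200 (.leaf 221 1577 (.cons 152 (.leaf 176 1220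 (.cons 226 (.leaf 247 1778 (.cons 227 (.leaf 199 1595 (.leaf 228 1603 .nil)) .nil)) .nil)) .nil)) .nil)) .nil)) .nil)) .nil))))
noncomputable def t138 : T := .cons 273 (.leaf 201 1606 (.cons 297 (.leaf 200 1607 (.cons 226 (.leaf 202 1613 (.cons 321 (.leaf 250 1805 (.cons 345 (.leaf 369 2183 (.cons 346 (.leaf 322 1996 (.leaf 370 2188 .nil)) .nil)) .nil)) .nil)) .nil)) .nil)) (.cons 223 t137 (.cons 223 t136 (.cons 273 (.leaf 201 1606 (.cons 226 (.cons 297 (.leaf 200 1607 (.leaf 202 1613 .nil)) (.cons 227 (.cons 203 (.leaf 204 1601 (.cons 202 (.leaf 223 1593 (.cons 251 (.leaf 178 1431 (.leaf 299 1623 .nil)) .nil)) .nil)) (.cons 199 (.leaf 200 1595 (.cons 203 (.leaf 204 1601 (.cons 223 (.leaf 198 1587 (.leaf 202 1593 .nil)) .nil)) .nil)) (.cons 199 (.leaf 200 1595 (.cons 223 (.leaf 198 1587 (.cons 247 (.leaf 271 1596 (.leaf 246 1778 .nil)) .nil)) .nil)) (.cons 199 (.leaf 200 1595 (.cons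 203 (.leaf 204 1601 (.cons 251 (.leaf 252 1792 (.cons 202 (.leaf 178 1431 (.leaf 299 1623 .nil)) .nil)) .nil)) .nil)) .nil)))) (.cons 200 (.leaf 297 1607 (.cons 152 (.leaf 176 1220 (.cons 199 (.leaf 227 1595 (.cons 198 (.leaf 197 1576 (.leaf 223 1587 .nil)) .nil)) .nil)) .nil)) (.cons 202 (.leaf 297 1613 (.cons 203 (.leaf 223 1593 (.cons 204 (.leaf 227 1601 (.leaf 205 1610 .nil)) .nil)) .nil)) .nil)))) .nil)) (.cons 273 (.leaf 201 1606 (.cons 250 (.cons 251 (.leaf 252 1986 (.cons 271 (.leaf 270 1969 (.leaf 274 1977 .nil)) .nil)) (.cons 223 (.leaf 222 1776 (.cons 271 (.leaf 270 1969 (.cons 247 (.leaf 199 1596 (.cons 246 (.leaf 274 1971 (.leaf 226 1778 .nil)) .nil)) .nil)) .nil)) (.cons 251 (.leaf 252 1986 (.cons 223 (.leaf 222 1776 (.leaf 226 1784 .nil)) .nil)) .nil))) .nil)) (.cons 273 (.leaf 201 1606 (.cons 297 (.leaf 200 1607 (.cons 271 (.cons 270 (.leaf 250 1969 (.leaf 269 2152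 .nil)) (.cons 223 (.cons 247 (.leaf 199 1596 (.cons 274 (.leaf 246 1971 (.cons 250 (.leaf 251 1977 (.leaf 222 1776 .nil)) .nil)) .nil)) (.cons 247 (.leaf 199 1596 (.cons 246 (.leaf 274 1971 (.cons 245 (.leaf 244 1952 (.leaf 222 1770 .nil)) .nil)) .nil)) (.cons 247 (.leaf 199 1596 (.cons 274 (.leaf 246 1971 (.cons 251 (.leaf 252 1985 (.leaf 250 1977 .nil)) .nil)) .nil)) (.cons 250 (.leaf 222 1776 (.cons 251 (.leaf 252 1986 (.leaf 274 1977 .nil)) .nil)) (.cons 222 (.leaf 250 1776 (.cons 197 (.leaf 198 1579 (.cons 199 (.leaf 247 1596 (.cons 221 (.leaf 196 1571 (.cons 245 (.leaf 244 1762 (.leaf 246 1770 .nil)) .nil)) .nil)) .nil)) .nil)) .nil))))) (.cons 270 (.leaf 269 2152 (.cons 246 (.leaf 245 1963 (.cons 247 (.leaf 274 1971 (.cons 223 (.leaf 199 1596 (.cons 294 (.leaf 293 2154 (.leaf 318 1781 .nil)) .nil)) .nil)) .nil)) .nil)) .nil))) .nil)) .nil)) .nil)))))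
noncomputable def t139 : T := .cons 197 (.leaf 198 1579 (.cons 202 (.leaf 201 1585 (.cons 226 (.leaf 203 1593 (.cons 245 (.leaf 246 1770 (.cons 250 (.leaf 251 1784 (.cons 274 (.leaf 299 1620 (.cons 273 (.leaf 295 2170 (.leaf 297 1614 .nil)) .nil)) .nil)) .nil)) .nil)) .nil)) .nil)) (.cons 201 (.leaf 202 1585 (.cons 221 (.leaf 200 1577 (.cons 245 (.leaf 244 1762 (.leaf 246 1770 .nil)) .nil)) .nil)) (.cons 198 (.leaf 197 1579 (.cons 199 (.leaf 226 1587 (.cons 245 (.leaf 246 1770 (.cons 221 (.leaf 244 1762 (.cons 220 (.leaf 200 1569 (.leaf 219 1561 .nil)) .nil)) .nil)) .nil)) .nil)) (.cons 198 (.leaf 197 1579 (.cons 199 (.leaf 226 1587 (.cons 201 (.leaf 202 1585 (.cons 200 (.leaf 221 1577 (.cons 174 (.leaf 173 1387 (.cons 150 (.leaf 126 1012 (.cons 149 (.leaf 125 1007 (.cons 151 (.leaf 127 1013 (.cons 175 (.leaf 246 1205 (.cons 148 (.leaf 147 1176 (.leaf 176 1184 .nil)) .nil)) .nil))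 .nil)) .nil)) .nil)) .nil)) .nil)) .nil)) .nil)) (.cons 198 (.leaf 197 1579 (.cons 199 (.leaf 226 1587 (.cons 201 (.leaf 202 1585 (.cons 200 (.leaf 221 1577 (.cons 174 (.leaf 173 1387 (.cons 150 (.leaf 126 1012 (.cons 149 (.leaf 125 1007 (.cons 177 (.leaf 178 1393 (.cons 129 (.leaf 153 1030 (.cons 151 (.leaf 127 1013 (.cons 152 (.leaf 128 1001 (.leaf 176 1192 .nil)) .nil)) .nil)) .nil)) .nil)) .nil)) .nil)) .nil)) .nil)) .nil)) .nil)) .nil))))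
noncomputable def t140 : T := .cons 222 (.cons 201 (.leaf 202 1585 (.cons 197 (.leaf 198 1579 (.cons 221 (.leaf 196 1571 (.leaf 200 1577 .nil)) .nil)) .nil)) (.cons 201 (.leaf 202 1585 (.cons 221 (.leaf 200 1577 (.cons 245 (.leaf 244 1762 (.leaf 246 1770 .nil)) .nil)) .nil)) (.cons 197 (.leaf 198 1579 (.cons 221 (.leaf 196 1571 (.cons 245 (.leaf 244 1762 (.leaf 246 1770 .nil)) .nil)) .nil)) (.cons 198 (.leaf 197 1579 (.cons 246 (.leaf 245 1770 (.cons 201 (.leaf 202 1585 (.cons 174 (.cons 247 (.leaf 150 1204 (.leaf 271 1396 .nil)) (.cons 149 (.leaf 173 1199 (.cons 150 (.leaf 125 1007 (.cons 151 (.leaf 127 1013 (.leaf 175 1205 .nil)) .nil)) .nil)) (.cons 149 (.leaf 173 1199 (.cons 175 (.leaf 151 1205 (.cons 247 (.leaf 271 1396 (.cons 270 (.leaf 199 1397 (.cons 269 (.leaf 293 1582 (.cons 294 (.leaf 318 1781 (.cons 295 (.leaf 297 2155 (.leaf 319 1780 .nil)) .nil)) .nil)) .nil)) .nil))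 .nil)) .nil)) .nil))) .nil)) .nil)) .nil)) .nil)))) (.cons 226 (.cons 198 (.leaf 199 1587 (.cons 202 (.leaf 203 1593 (.cons 250 (.leaf 251 1784 (.cons 274 (.leaf 299 1620 (.cons 273 (.leaf 295 2170 (.leaf 297 1614 .nil)) .nil)) .nil)) .nil)) .nil)) (.cons 202 (.leaf 203 1593 (.cons 246 (.leaf 247 1778 (.cons 250 (.leaf 251 1784 (.cons 274 (.leaf 299 1620 (.cons 273 (.leaf 295 2170 (.leaf 297 1614 .nil)) .nil)) .nil)) .nil)) .nil)) (.cons 199 (.leaf 198 1587 (.cons 247 (.leaf 271 1596 (.leaf 246 1778 .nil)) .nil)) .nil))) (.cons 222 (.cons 197 (.leaf 198 1579 (.cons 202 (.leaf 201 1585 (.cons 226 (.leaf 203 1593 (.cons 245 (.leaf 246 1770 (.cons 250 (.leaf 251 1784 (.cons 274 (.leaf 299 1620 (.cons 273 (.leaf 295 2170 (.leaf 297 1614 .nil)) .nil)) .nil)) .nil)) .nil)) .nil)) .nil)) (.cons 197 (.leaf 198 1579 (.cons 196 (.leaf 221 1571 (.cons 202 (.leaf 201 1585 (.cons 226 (.leaf 203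 1593 (.cons 250 (.leaf 251 1784 (.cons 274 (.leaf 299 1620 (.cons 273 (.leaf 295 2170 (.leaf 297 1614 .nil)) .nil)) .nil)) .nil)) .nil)) .nil)) .nil)) (.cons 197 (.leaf 198 1579 (.cons 221 (.leaf 196 1571 (.cons 245 (.leaf 244 1762 (.leaf 246 1770 .nil)) .nil)) .nil)) (.cons 246 (.leaf 245 1770 (.cons 201 (.leaf 202 1585 (.cons 200 (.leaf 221 1577 (.cons 226 (.leaf 247 1778 (.cons 227 (.leaf 228 1603 (.cons 251 (.leaf 250 1784 (.leaf 252 1792 .nil)) .nil)) .nil)) .nil)) .nil)) .nil)) .nil)))) (.cons 222 t139 (.cons 226 (.cons 246 (.leaf 247 1778 (.cons 222 (.leaf 245 1770 (.cons 251 (.leaf 250 1784 (.cons 227 (.leaf 252 1792 (.cons 199 (.leaf 200 1595 (.cons 151 (.leaf 175 1206 (.cons 204 (.leaf 203 1601 (.cons 228 (.leaf 299 1629 (.leaf 205 1609 .nil)) .nil)) .nil)) .nil)) .nil)) .nil)) .nil)) .nil)) (.cons 246 (.leaf 247 1778 (.cons 222 (.leaf 245 1770 (.cons 201 (.leaf 202 1585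 (.cons 200 (.leaf 221 1577 (.cons 227 (.leaf 199 1595 (.leaf 228 1603 .nil)) .nil)) .nil)) .nil)) .nil)) (.cons 202 (.leaf 203 1593 (.cons 201 (.leaf 222 1585 (.cons 250 (.leaf 251 1784 (.cons 177 (.leaf 153 1228 (.leaf 274 1423 .nil)) .nil)) .nil)) .nil)) (.cons 251 (.leaf 250 1784 (.cons 202 (.leaf 203 1593 (.cons 227 (.leaf 299 1623 (.leaf 252 1792 .nil)) .nil)) .nil)) .nil)))) (.cons 226 (.cons 198 (.leaf 199 1587 (.cons 246 (.leaf 247 1778 (.cons 251 (.leaf 250 1784 (.cons 227 (.leaf 252 1792 (.cons 204 (.leaf 203 1601 (.cons 228 (.leaf 299 1629 (.leaf 205 1609 .nil)) .nil)) .nil)) .nil)) .nil)) .nil)) (.cons 251 (.leaf 250 1784 (.cons 227 (.leaf 252 1792 (.cons 204 (.leaf 203 1601 (.cons 228 (.leaf 299 1629 (.leaf 205 1609 .nil)) .nil)) .nil)) .nil)) (.cons 199 (.leaf 198 1587 (.cons 247 (.leaf 271 1596 (.leaf 246 1778 .nil)) .nil)) .nil))) (.cons 226 (.cons 198 (.leaf 199 1587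 (.cons 202 (.leaf 203 1593 (.cons 250 (.leaf 251 1784 (.cons 274 (.leaf 299 1620 (.cons 273 (.leaf 295 2170 (.leaf 297 1614 .nil)) .nil)) .nil)) .nil)) .nil)) (.cons 202 (.leaf 203 1593 (.cons 201 (.leaf 222 1585 (.cons 250 (.leaf 251 1784 (.cons 177 (.leaf 153 1228 (.leaf 274 1423 .nil)) .nil)) .nil)) .nil)) (.cons 199 (.leaf 198 1587 (.cons 227 (.leaf 200 1595 (.cons 251 (.leaf 250 1784 (.leaf 252 1792 .nil)) .nil)) .nil)) (.cons 199 (.leaf 198 1587 (.cons 203 (.leaf 202 1593 (.cons 227 (.leaf 200 1595 (.leaf 204 1601 .nil)) .nil)) .nil)) .nil)))) .nil))))))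
noncomputable def t141 : T := .cons 252 (.leaf 251 1792 (.cons 199 (.leaf 200 1595 (.cons 204 (.leaf 203 1601 (.cons 228 (.leaf 205 1609 (.leaf 253 1800 .nil)) .nil)) .nil)) .nil)) (.cons 200 (.leaf 199 1595 (.cons 228 (.cons 205 (.leaf 204 1609 (.cons 229 (.leaf 206 1617 (.cons 253 (.leaf 252 1800 (.leaf 254 1808 .nil)) .nil)) .nil)) (.cons 253 (.leaf 252 1800 (.cons 229 (.leaf 254 1808 (.cons 206 (.leaf 205 1617 (.cons 230 (.leaf 207 1625 (.cons 158 (.leaf 182 1262 (.cons 202 (.leaf 203 1619 (.cons 250 (.leaf 249 1802 (.cons 274 (.leaf 299 1620 (.cons 273 (.leaf 295 2170 (.leaf 297 1614 .nil)) .nil)) .nil)) .nil)) .nil)) .nil)) .nil)) .nil)) .nil)) (.cons 203 (.leaf 204 1601 (.cons 253 (.leaf 252 1800 (.cons 229 (.leaf 254 1808 (.cons 202 (.leaf 230 1619 (.cons 250 (.leaf 249 1802 (.cons 179 (.leaf 155 1238 (.leaf 274 1429 .nil)) .nil)) .nil)) .nil)) .nil)) .nil)) (.cons 204 (.leaf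 203 1601 (.leaf 205 1609 .nil)) .nil)))) .nil)) (.cons 251 (.leaf 252 1792 (.cons 199 (.leaf 200 1595 (.cons 202 (.leaf 299 1623 (.cons 178 (.leaf 203 1431 (.leaf 250 1428 .nil)) .nil)) .nil)) .nil)) (.cons 204 (.leaf 203 1601 (.cons 228 (.leaf 205 1609 (.cons 200 (.leaf 199 1595 (.cons 250 (.cons 249 (.leaf 229 1802 (.cons 152 (.leaf 176 1220 (.cons 273 (.leaf 297 1607 (.cons 202 (.leaf 178 1422 (.cons 274 (.leaf 299 1620 (.leaf 295 2170 .nil)) .nil)) .nil)) .nil)) .nil)) (.cons 229 (.leaf 249 1802 (.cons 230 (.leaf 251 1810 (.cons 254 (.leaf 253 1808 (.leaf 255 1816 .nil)) .nil)) .nil)) (.cons 299 (.leaf 251 1629 (.cons 274 (.leaf 202 1620 (.cons 273 (.leaf 295 2170 (.leaf 300 2176 .nil)) .nil)) .nil)) .nil))) .nil)) .nil)) .nil)) (.cons 251 (.leaf 252 1792 (.cons 199 (.leaf 200 1595 (.cons 202 (.leaf 299 1623 (.cons 178 (.leaf 250 1428 (.leaf 154 1236 .nil)) .nil)) .nil)) .nil))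 (.cons 251 (.leaf 252 1792 (.cons 202 (.leaf 299 1623 (.cons 178 (.leaf 203 1431 (.leaf 250 1428 .nil)) .nil)) .nil)) .nil)))))
noncomputable def t142 : T := .cons 223 (.cons 198 (.leaf 199 1587 (.cons 222 (.leaf 197 1579 (.cons 250 (.leaf 249 1776 (.leaf 251 1784 .nil)) .nil)) .nil)) (.cons 251 (.leaf 250 1784 (.cons 202 (.leaf 203 1593 (.cons 227 (.leaf 299 1623 (.leaf 252 1792 .nil)) .nil)) .nil)) (.cons 198 (.leaf 199 1587 (.cons 222 (.leaf 197 1579 (.cons 246 (.leaf 245 1770 (.leaf 247 1778 .nil)) .nil)) .nil)) .nil))) (.cons 227 t141 (.cons 223 (.cons 198 (.leaf 199 1587 (.cons 222 (.leaf 197 1579 (.cons 250 (.leaf 249 1776 (.leaf 251 1784 .nil)) .nil)) .nil)) (.cons 198 (.leaf 199 1587 (.cons 222 (.leaf 197 1579 (.cons 246 (.leaf 245 1770 (.leaf 247 1778 .nil)) .nil)) .nil)) (.cons 250 (.leaf 251 1784 (.cons 222 (.leaf 249 1776 (.cons 246 (.leaf 245 1770 (.leaf 247 1778 .nil))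 .nil)) .nil)) (.cons 199 (.leaf 198 1587 (.cons 247 (.leaf 271 1596 (.leaf 246 1778 .nil)) .nil)) .nil)))) (.cons 223 (.cons 199 (.leaf 198 1587 (.cons 247 (.leaf 271 1596 (.leaf 246 1778 .nil)) .nil)) (.cons 246 (.leaf 247 1778 (.cons 202 (.leaf 203 1593 (.cons 222 (.leaf 245 1770 (.cons 197 (.leaf 198 1579 (.cons 221 (.leaf 196 1571 (.cons 149 (.leaf 173 1196 (.cons 249 (.leaf 250 1776 (.cons 154 (.leaf 178 1230 (.cons 273 (.leaf 297 1613 (.cons 294 (.leaf 270 1583 (.cons 295 (.leaf 274 2170 (.leaf 293 2153 .nil)) .nil)) .nil)) .nil)) .nil)) .nil)) .nil)) .nil)) .nil)) .nil)) .nil)) (.cons 199 (.leaf 198 1587 (.cons 203 (.leaf 202 1593 (.cons 227 (.leaf 200 1595 (.leaf 204 1601 .nil)) .nil)) .nil)) (.cons 247 (.leaf 246 1778 (.cons 199 (.leaf 271 1596 (.cons 203 (.leaf 202 1593 (.cons 227 (.leaf 200 1595 (.leaf 204 1601 .nil)) .nil)) .nil)) .nil)) .nil)))) (.cons 227 (.cons 251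 (.leaf 252 1792 (.cons 199 (.leaf 200 1595 (.cons 202 (.leaf 299 1623 (.cons 178 (.leaf 203 1431 (.leaf 154 1236 .nil)) .nil)) .nil)) .nil)) (.cons 203 (.leaf 204 1601 (.cons 199 (.leaf 200 1595 (.cons 223 (.leaf 198 1587 (.leaf 202 1593 .nil)) .nil)) .nil)) (.cons 251 (.leaf 252 1792 (.cons 199 (.leaf 200 1595 (.cons 202 (.leaf 299 1623 (.cons 154 (.leaf 178 1236 (.cons 223 (.leaf 198 1587 (.cons 247 (.leaf 271 1596 (.leaf 246 1778 .nil)) .nil)) .nil)) .nil)) .nil)) .nil)) (.cons 251 (.leaf 252 1792 (.cons 202 (.leaf 299 1623 (.cons 178 (.leaf 203 1431 (.leaf 154 1236 .nil)) .nil)) .nil)) (.cons 204 (.leaf 203 1601 (.cons 199 (.leaf 200 1595 (.cons 198 (.leaf 223 1587 (.cons 228 (.leaf 205 1609 (.cons 251 (.leaf 299 1629 (.leaf 252 1792 .nil)) .nil)) .nil)) .nil)) .nil)) .nil))))) (.cons 251 (.cons 250 (.leaf 223 1784 (.cons 202 (.leaf 178 1428 (.cons 299 (.leaf 227 1623 (.leaf 274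 1620 .nil)) .nil)) .nil)) (.cons 227 (.leaf 252 1792 (.cons 202 (.leaf 299 1623 (.cons 178 (.leaf 203 1431 (.leaf 154 1236 .nil)) .nil)) .nil)) (.cons 250 (.leaf 223 1784 (.cons 252 (.leaf 249 1795 (.leaf 253 1803 .nil)) .nil)) .nil))) .nil)))))
noncomputable def t143 : T := .cons 250 (.leaf 270 1969 (.cons 200 (.leaf 297 1607 (.cons 152 (.leaf 176 1220 (.cons 223 (.leaf 222 1776 (.cons 247 (.leaf 199 1596 (.leaf 295 1597 .nil)) .nil)) .nil)) .nil)) .nil)) (.cons 200 (.leaf 297 1607 (.cons 176 (.leaf 152 1220 (.cons 223 (.cons 247 (.leaf 199 1596 (.leaf 295 1597 .nil)) (.cons 222 (.leaf 250 1776 (.cons 197 (.leaf 198 1579 (.cons 221 (.leaf 196 1571 (.cons 245 (.leaf 244 1762 (.leaf 246 1770 .nil)) .nil)) .nil)) .nil)) .nil)) .nil)) .nil)) (.cons 297 (.leaf 200 1607 (.cons 270 (.leaf 269 2152 (.cons 294 (.leaf 293 2154 (.cons 246 (.leaf 245 1963 (.cons 295 (.cons 222 (.leaf 198 1588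 (.leaf 319 1780 .nil)) (.cons 198 (.leaf 222 1588 (.cons 318 (.leaf 317 2346 (.cons 247 (.leaf 223 1781 (.leaf 342 1973 .nil)) .nil)) .nil)) (.cons 318 (.leaf 317 2346 (.cons 247 (.leaf 223 1781 (.leaf 342 1973 .nil)) .nil)) .nil))) .nil)) .nil)) .nil)) .nil)) (.cons 270 (.leaf 250 1969 (.cons 245 (.leaf 246 1963 (.cons 269 (.leaf 244 1955 (.leaf 297 2152 .nil)) .nil)) .nil)) (.cons 250 (.leaf 270 1969 (.cons 251 (.leaf 252 1986 (.cons 223 (.leaf 222 1776 (.cons 247 (.leaf 199 1596 (.cons 295 (.leaf 200 1597 (.cons 294 (.leaf 293 2153 (.leaf 318 1782 .nil)) .nil)) .nil)) .nil)) .nil)) .nil)) .nil))))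
noncomputable def t144 : T := .cons 249 (.leaf 201 1606 (.cons 271 (.cons 270 (.leaf 250 1969 (.cons 245 (.leaf 246 1963 (.cons 269 (.leaf 244 1955 (.leaf 297 2152 .nil)) .nil)) .nil)) (.cons 274 (.leaf 295 2170 (.cons 251 (.leaf 252 1985 (.leaf 250 1977 .nil)) .nil)) (.cons 274 (.leaf 295 2170 (.cons 246 (.leaf 247 1971 (.cons 251 (.leaf 252 1985 (.cons 270 (.leaf 245 1963 (.cons 269 (.leaf 297 2152 (.cons 293 (.leaf 292 2146 (.leaf 294 2154 .nil)) .nil)) .nil)) .nil)) .nil)) .nil)) .nil))) .nil)) (.cons 249 (.leaf 201 1606 (.cons 271 t143 .nil)) (.cons 274 (.leaf 295 2170 (.cons 251 (.leaf 252 1985 (.cons 271 (.leaf 250 1977 (.cons 246 (.leaf 247 1971 (.cons 270 (.leaf 245 1963 (.cons 269 (.leaf 297 2152 (.cons 293 (.leaf 292 2146 (.leaf 294 2154 .nil)) .nil)) .nil)) .nil)) .nil)) .nil)) .nil)) (.cons 249 (.leaf 201 1606 (.cons 297 (.leaf 200 1607 (.cons 271 (.cons 270 (.leaf 250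 1969 (.leaf 269 2152 .nil)) (.cons 223 (.cons 247 (.leaf 199 1596 (.cons 274 (.leaf 246 1971 (.cons 250 (.leaf 251 1977 (.leaf 222 1776 .nil)) .nil)) .nil)) (.cons 247 (.leaf 199 1596 (.cons 246 (.leaf 274 1971 (.cons 245 (.leaf 244 1952 (.leaf 222 1770 .nil)) .nil)) .nil)) (.cons 247 (.leaf 199 1596 (.cons 274 (.leaf 246 1971 (.cons 251 (.leaf 252 1985 (.leaf 250 1977 .nil)) .nil)) .nil)) (.cons 250 (.leaf 222 1776 (.cons 251 (.leaf 252 1986 (.leaf 274 1977 .nil)) .nil)) (.cons 222 (.leaf 250 1776 (.cons 197 (.leaf 198 1579 (.cons 199 (.leaf 247 1596 (.cons 221 (.leaf 196 1571 (.cons 245 (.leaf 244 1762 (.leaf 246 1770 .nil)) .nil)) .nil)) .nil)) .nil)) .nil))))) (.cons 270 (.leaf 269 2152 (.cons 246 (.leaf 245 1963 (.cons 247 (.leaf 274 1971 (.cons 223 (.leaf 199 1596 (.cons 294 (.leaf 293 2154 (.leaf 318 1781 .nil)) .nil)) .nil)) .nil)) .nil)) .nil))) .nil)) .nil)) (.cons 249 (.leaf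 201 1606 (.cons 295 (.leaf 274 2170 (.cons 294 (.leaf 293 2153 (.cons 297 (.leaf 200 1607 (.cons 321 (.leaf 322 2352 (.cons 270 (.leaf 269 2155 (.cons 318 (.leaf 317 2346 (.cons 345 (.leaf 369 2183 (.cons 346 (.leaf 370 2188 (.cons 344 (.leaf 368 2182 (.cons 343 (.leaf 319 2547 (.cons 367 (.leaf 342 2164 (.leaf 366 2738 .nil)) .nil)) .nil)) .nil)) .nil)) .nil)) .nil)) .nil)) .nil)) .nil)) .nil)) .nil)) (.cons 274 (.leaf 295 2170 (.cons 201 (.leaf 249 1606 (.cons 251 (.leaf 252 1985 (.cons 271 (.leaf 250 1977 (.cons 247 (.leaf 246 1971 (.cons 223 (.leaf 199 1596 (.cons 202 (.leaf 222 1585 (.cons 203 (.leaf 200 1594 (.leaf 204 1602 .nil)) .nil)) .nil)) .nil)) .nil)) .nil)) .nil)) .nil)) .nil)))))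
noncomputable def t145 : T := .cons 226 (.cons 198 (.leaf 199 1587 (.cons 202 (.leaf 203 1593 (.cons 250 (.leaf 251 1784 (.cons 274 (.leaf 299 1620 (.cons 177 (.leaf 201 1423 (.cons 178 (.leaf 153 1231 (.cons 154 (.leaf 249 1230 (.cons 155 (.leaf 131 1045 (.leaf 179 1237 .nil)) .nil)) .nil)) .nil)) .nil)) .nil)) .nil)) .nil)) (.cons 202 (.leaf 203 1593 (.cons 246 (.leaf 247 1778 (.cons 250 (.leaf 251 1784 (.cons 274 (.leaf 299 1620 (.cons 177 (.leaf 201 1423 (.cons 178 (.leaf 153 1231 (.cons 154 (.leaf 249 1230 (.cons 155 (.leaf 131 1045 (.leaf 179 1237 .nil)) .nil)) .nil)) .nil)) .nil)) .nil)) .nil)) .nil)) (.cons 199 (.leaf 198 1587 (.cons 247 (.leaf 271 1596 (.leaf 246 1778 .nil)) .nil)) .nil))) (.cons 222 (.cons 201 (.leaf 202 1585 (.cons 197 (.leaf 198 1579 (.cons 221 (.leaf 196 1571 (.leaf 200 1577 .nil)) .nil)) .nil)) (.cons 201 (.leaf 202 1585 (.cons 221 (.leaf 200 1577 (.cons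 245 (.leaf 244 1762 (.leaf 246 1770 .nil)) .nil)) .nil)) (.cons 197 (.leaf 198 1579 (.cons 221 (.leaf 196 1571 (.cons 245 (.leaf 244 1762 (.leaf 246 1770 .nil)) .nil)) .nil)) (.cons 198 (.leaf 197 1579 (.cons 246 (.leaf 245 1770 (.cons 201 (.leaf 202 1585 (.cons 249 (.leaf 250 1776 (.cons 174 (.cons 247 (.leaf 150 1204 (.leaf 271 1396 .nil)) (.cons 175 (.leaf 151 1205 (.cons 149 (.leaf 173 1199 (.cons 150 (.leaf 125 1007 (.cons 199 (.leaf 126 1012 (.leaf 270 1397 .nil)) .nil)) .nil)) .nil)) (.cons 271 (.leaf 247 1396 (.cons 149 (.leaf 173 1199 (.cons 175 (.leaf 151 1205 (.cons 270 (.leaf 199 1397 (.leaf 295 1588 .nil)) .nil)) .nil)) .nil)) .nil))) .nil)) .nil)) .nil)) .nil)) .nil)))) (.cons 222 (.cons 197 (.leaf 198 1579 (.cons 221 (.leaf 196 1571 (.cons 245 (.leaf 244 1762 (.leaf 246 1770 .nil)) .nil)) .nil)) (.cons 201 (.leaf 202 1585 (.cons 197 (.leaf 198 1579 (.cons 221 (.leaf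 196 1571 (.leaf 200 1577 .nil)) .nil)) .nil)) (.cons 246 (.leaf 245 1770 (.cons 226 (.leaf 247 1778 (.cons 202 (.leaf 201 1585 (.leaf 203 1593 .nil)) .nil)) .nil)) .nil))) (.cons 222 (.cons 197 (.leaf 198 1579 (.cons 202 (.leaf 201 1585 (.cons 226 (.leaf 203 1593 (.cons 250 (.leaf 249 1776 (.leaf 251 1784 .nil)) .nil)) .nil)) .nil)) (.cons 201 (.leaf 202 1585 (.cons 221 (.leaf 200 1577 (.cons 245 (.leaf 244 1762 (.leaf 246 1770 .nil)) .nil)) .nil)) (.cons 197 (.leaf 198 1579 (.cons 221 (.leaf 196 1571 (.cons 245 (.leaf 244 1762 (.leaf 246 1770 .nil)) .nil)) .nil)) .nil))) (.cons 222 (.cons 245 (.leaf 246 1770 (.cons 197 (.leaf 198 1579 (.cons 221 (.leaf 196 1571 (.leaf 244 1762 .nil)) .nil)) .nil)) (.cons 246 (.leaf 245 1770 (.cons 226 (.leaf 247 1778 (.cons 250 (.leaf 249 1776 (.leaf 251 1784 .nil)) .nil)) .nil)) (.cons 198 (.leaf 197 1579 (.cons 226 (.leaf 199 1587 (.cons 250 (.leaf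 249 1776 (.leaf 251 1784 .nil)) .nil)) .nil)) .nil))) (.cons 226 (.cons 202 (.leaf 203 1593 (.cons 201 (.leaf 222 1585 (.cons 247 (.leaf 246 1778 (.cons 199 (.leaf 271 1596 (.cons 200 (.leaf 227 1592 (.cons 152 (.leaf 176 1214 (.cons 175 (.leaf 174 1395 (.cons 151 (.leaf 127 1020 (.leaf 128 1021 .nil)) .nil)) .nil)) .nil)) .nil)) .nil)) .nil)) .nil)) (.cons 250 (.leaf 251 1784 (.cons 222 (.leaf 249 1776 (.cons 246 (.leaf 245 1770 (.leaf 247 1778 .nil)) .nil)) .nil)) (.cons 202 (.leaf 203 1593 (.cons 201 (.leaf 222 1585 (.cons 250 (.leaf 251 1784 (.cons 177 (.leaf 153 1228 (.leaf 274 1423 .nil)) .nil)) .nil)) .nil)) (.cons 251 (.leaf 250 1784 (.cons 202 (.leaf 203 1593 (.cons 227 (.leaf 299 1623 (.leaf 252 1792 .nil)) .nil)) .nil)) .nil)))) (.cons 226 (.cons 198 (.leaf 199 1587 (.cons 202 (.leaf 203 1593 (.cons 222 (.leaf 197 1579 (.leaf 201 1585 .nil)) .nil)) .nil)) (.cons 198 (.leaf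 199 1587 (.cons 222 (.leaf 197 1579 (.cons 250 (.leaf 249 1776 (.leaf 251 1784 .nil)) .nil)) .nil)) (.cons 202 (.leaf 203 1593 (.cons 201 (.leaf 222 1585 (.cons 250 (.leaf 251 1784 (.cons 177 (.leaf 153 1228 (.leaf 274 1423 .nil)) .nil)) .nil)) .nil)) (.cons 198 (.leaf 199 1587 (.cons 202 (.leaf 203 1593 (.cons 250 (.leaf 251 1784 (.cons 274 (.leaf 299 1620 (.cons 177 (.leaf 201 1423 (.cons 178 (.leaf 153 1231 (.cons 154 (.leaf 249 1230 (.cons 155 (.leaf 131 1045 (.leaf 179 1237 .nil)) .nil)) .nil)) .nil)) .nil)) .nil)) .nil)) .nil)) .nil)))) .nil))))))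
noncomputable def t146 : T := .cons 274 (.leaf 295 2170 (.cons 251 (.leaf 252 1985 (.cons 299 (.leaf 300 2176 (.cons 226 (.cons 202 (.leaf 227 1623 (.leaf 250 1620 .nil)) (.cons 202 (.leaf 227 1623 (.cons 223 (.leaf 203 1593 (.cons 198 (.leaf 199 1587 (.cons 222 (.leaf 197 1579 (.leaf 201 1585 .nil)) .nil)) .nil)) .nil)) (.cons 250 (.leaf 323 1815 (.leaf 271 1977 .nil)) .nil))) .nil)) .nil)) .nil)) (.cons 249 (.leaf 201 1606 (.cons 226 (.cons 200 (.leaf 297 1607 (.cons 152 (.leaf 176 1220 (.cons 199 (.leaf 227 1595 (.cons 198 (.leaf 197 1576 (.leaf 223 1587 .nil)) .nil)) .nil)) .nil)) (.cons 250 (.cons 223 (.leaf 222 1776 (.leaf 251 1784 .nil)) (.cons 223 (.leaf 222 1776 (.cons 202 (.leaf 203 1593 (.leaf 178 1422 .nil)) .nil)) (.cons 251 (.leaf 252 1986 (.cons 202 (.leaf 178 1428 (.cons 299 (.leaf 227 1623 (.leaf 323 1815 .nil)) .nil)) .nil)) .nil))) (.cons 297 (.leaf 200 1607 (.leaf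 202 1613 .nil)) .nil))) .nil)) (.cons 274 (.leaf 295 2170 (.cons 251 (.leaf 252 1985 (.cons 250 (.leaf 271 1977 (.cons 299 (.leaf 300 2176 (.cons 226 (.leaf 202 1620 (.leaf 323 1815 .nil)) .nil)) .nil)) .nil)) .nil)) (.cons 249 (.leaf 201 1606 (.cons 295 (.leaf 274 2170 (.cons 294 (.leaf 293 2153 (.cons 297 (.leaf 200 1607 (.cons 202 (.leaf 226 1613 (.cons 270 (.leaf 269 2155 (.cons 250 (.leaf 271 1969 (.cons 222 (.leaf 223 1776 (.cons 246 (.leaf 319 1780 (.cons 221 (.leaf 197 1583 (.cons 318 (.leaf 317 2346 (.leaf 245 1775 .nil)) .nil)) .nil)) .nil)) .nil)) .nil)) .nil)) .nil)) .nil)) .nil)) .nil)) (.cons 249 (.leaf 201 1606 (.cons 295 (.leaf 274 2170 (.cons 294 (.leaf 293 2153 (.cons 297 (.leaf 200 1607 (.cons 318 (.leaf 317 2346 (.cons 321 (.leaf 322 2352 (.cons 345 (.leaf 369 2183 (.cons 344 (.leaf 368 2182 (.cons 346 (.leaf 370 2188 (.cons 343 (.leaf 319 2547 (.cons 270 (.leaf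 269 2155 (.cons 367 (.leaf 342 2164 (.leaf 366 2738 .nil)) .nil)) .nil)) .nil)) .nil)) .nil)) .nil)) .nil)) .nil)) .nil)) .nil)) .nil)) .nil))))
noncomputable def t147 : T := .cons 273 t146 (.cons 223 (.cons 222 (.cons 197 (.leaf 198 1579 (.cons 201 (.leaf 202 1585 (.cons 246 (.leaf 245 1770 (.cons 226 (.leaf 247 1778 (.cons 250 (.leaf 249 1776 (.leaf 251 1784 .nil)) .nil)) .nil)) .nil)) .nil)) (.cons 246 (.leaf 245 1770 (.cons 226 (.leaf 247 1778 (.cons 201 (.leaf 202 1585 (.cons 200 (.leaf 221 1577 (.cons 227 (.leaf 199 1595 (.leaf 228 1603 .nil)) .nil)) .nil)) .nil)) .nil)) (.cons 198 (.leaf 197 1579 (.cons 226 (.leaf 199 1587 (.cons 250 (.leaf 249 1776 (.leaf 251 1784 .nil)) .nil)) .nil)) (.cons 201 (.leaf 202 1585 (.cons 221 (.leaf 200 1577 (.cons 245 (.leaf 244 1762 (.leaf 246 1770 .nil)) .nil)) .nil)) .nil)))) t145) (.cons 273 (.cons 249 (.leaf 201 1606 (.cons 295 (.leaf 274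 2170 (.cons 294 (.leaf 293 2153 (.cons 297 (.leaf 200 1607 (.cons 318 (.leaf 317 2346 (.cons 321 (.leaf 322 2352 (.cons 345 (.leaf 369 2183 (.cons 344 (.leaf 368 2182 (.cons 346 (.leaf 370 2188 (.cons 343 (.leaf 319 2547 (.cons 270 (.leaf 269 2155 (.cons 367 (.leaf 342 2164 (.leaf 366 2738 .nil)) .nil)) .nil)) .nil)) .nil)) .nil)) .nil)) .nil)) .nil)) .nil)) .nil)) .nil)) (.cons 249 (.leaf 201 1606 (.cons 297 (.leaf 200 1607 (.cons 226 (.leaf 202 1613 (.cons 321 (.leaf 250 1805 (.cons 345 (.leaf 369 2183 (.cons 346 (.leaf 322 1996 (.leaf 370 2188 .nil)) .nil)) .nil)) .nil)) .nil)) .nil)) (.cons 274 (.leaf 295 2170 (.cons 251 (.leaf 252 1985 (.cons 250 (.leaf 271 1977 (.cons 299 (.leaf 300 2176 (.cons 226 (.leaf 202 1620 (.leaf 323 1815 .nil)) .nil)) .nil)) .nil)) .nil)) .nil))) (.cons 273 t144 (.cons 226 t142 (.cons 223 (.cons 226 (.cons 198 (.leaf 199 1587 (.cons 222 (.leaf 197 1579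 (.cons 246 (.leaf 245 1770 (.leaf 247 1778 .nil)) .nil)) .nil)) (.cons 202 (.leaf 203 1593 (.cons 246 (.leaf 247 1778 (.cons 250 (.leaf 251 1784 (.cons 274 (.leaf 299 1620 (.cons 273 (.leaf 295 2170 (.leaf 297 1614 .nil)) .nil)) .nil)) .nil)) .nil)) (.cons 198 (.leaf 199 1587 (.cons 202 (.leaf 203 1593 (.cons 250 (.leaf 251 1784 (.cons 274 (.leaf 299 1620 (.cons 273 (.leaf 295 2170 (.leaf 297 1614 .nil)) .nil)) .nil)) .nil)) .nil)) .nil))) t140) (.cons 249 t138 (.cons 273 t135 (.cons 249 t133 (.cons 273 t129 (.cons 273 t128 (.cons 273 t127 (.cons 273 t124 (.cons 273 t123 .nil)))))))))))))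
noncomputable def t148 : T := .cons 223 (.leaf 247 1791 (.cons 199 (.leaf 224 1599 (.cons 343 (.leaf 319 1982 (.cons 344 (.leaf 367 2174 (.cons 273 (.leaf 249 1989 (.cons 368 (.leaf 297 2181 (.cons 369 (.leaf 345 2180 (.leaf 393 2372 .nil)) .nil)) .nil)) .nil)) .nil)) .nil)) .nil)) (.cons 321 (.leaf 345 1988 (.cons 297 (.leaf 224 1796 (.cons 343 (.leaf 319 1982 (.cons 344 (.leaf 367 2174 (.cons 273 (.leaf 249 1989 (.leaf 368 2181 .nil)) .nil)) .nil)) .nil)) .nil)) (.cons 223 (.leaf 247 1791 (.cons 224 (.leaf 199 1599 (.cons 297 (.leaf 321 1796 (.cons 273 (.leaf 200 1604 (.cons 344 (.leaf 249 1989 (.leaf 368 2181 .nil)) .nil)) .nil)) .nil)) .nil)) (.cons 247 (.leaf 223 1791 (.cons 273 (.leaf 274 1979 (.cons 245 (.leaf 246 1960 (.cons 319 (.leaf 343 1982 (.cons 321 (.leaf 345 1988 (.cons 297 (.leaf 224 1796 (.cons 318 (.leaf 317 2345 (.cons 294 (.leaf 293 2347 (.cons 342 (.leaf 341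 2538 (.cons 270 (.leaf 271 1973 (.leaf 269 1967 .nil)) .nil)) .nil)) .nil)) .nil)) .nil)) .nil)) .nil)) .nil)) .nil)) (.cons 223 (.leaf 247 1791 (.cons 343 (.leaf 319 1982 (.cons 344 (.leaf 367 2174 (.cons 345 (.leaf 321 1988 (.leaf 369 2180 .nil)) .nil)) .nil)) .nil)) .nil))))
noncomputable def t149 : T := .cons 320 (.cons 223 (.leaf 247 1791 (.cons 249 (.leaf 225 1797 (.cons 344 (.leaf 273 1989 (.cons 345 (.leaf 321 1988 (.leaf 369 2180 .nil)) .nil)) .nil)) .nil)) (.cons 249 (.leaf 225 1797 (.cons 343 (.leaf 319 1982 (.cons 344 (.leaf 273 1989 (.leaf 367 2174 .nil)) .nil)) .nil)) (.cons 247 (.leaf 223 1791 (.cons 273 (.leaf 274 1979 (.cons 245 (.leaf 246 1960 (.cons 321 (.leaf 345 1988 (.cons 344 (.leaf 271 1983 (.cons 343 (.leaf 319 1982 (.leaf 367 2174 .nil)) .nil)) .nil)) .nil)) .nil)) .nil)) (.cons 247 (.leaf 223 1791 (.cons 249 (.leaf 225 1797 (.cons 250 (.leaf 274 1976 (.cons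 271 (.leaf 251 1978 (.leaf 270 1970 .nil)) .nil)) .nil)) .nil)) .nil)))) (.cons 224 (.cons 201 (.leaf 225 1605 (.cons 200 (.leaf 177 1413 (.cons 297 (.leaf 273 1604 (.leaf 321 1796 .nil)) .nil)) .nil)) (.cons 297 (.leaf 321 1796 (.cons 199 (.leaf 223 1599 (.cons 200 (.leaf 175 1407 (.leaf 273 1604 .nil)) .nil)) .nil)) (.cons 225 (.leaf 201 1605 (.cons 199 (.leaf 223 1599 (.cons 175 (.leaf 200 1407 (.cons 320 (.leaf 249 1797 (.cons 343 (.leaf 319 1982 (.cons 344 (.leaf 367 2174 (.cons 345 (.leaf 321 1988 (.leaf 369 2180 .nil)) .nil)) .nil)) .nil)) .nil)) .nil)) .nil)) (.cons 225 (.leaf 201 1605 (.cons 199 (.leaf 223 1599 (.cons 200 (.leaf 175 1407 (.cons 197 (.leaf 198 1576 (.cons 226 (.leaf 227 1595 (.cons 249 (.leaf 320 1797 (.cons 273 (.leaf 297 1604 (.leaf 176 1412 .nil)) .nil)) .nil)) .nil)) .nil)) .nil)) .nil)) (.cons 225 (.leaf 201 1605 (.cons 199 (.leaf 223 1599 (.cons 320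 (.leaf 249 1797 (.cons 321 (.leaf 297 1796 (.leaf 345 1988 .nil)) .nil)) .nil)) .nil)) .nil))))) (.cons 224 (.cons 199 (.leaf 223 1599 (.cons 200 (.leaf 175 1407 (.cons 201 (.leaf 177 1413 (.leaf 225 1605 .nil)) .nil)) .nil)) (.cons 201 (.leaf 225 1605 (.cons 200 (.leaf 177 1413 (.cons 297 (.leaf 273 1604 (.leaf 321 1796 .nil)) .nil)) .nil)) (.cons 199 (.leaf 223 1599 (.cons 200 (.leaf 175 1407 (.cons 297 (.leaf 273 1604 (.leaf 321 1796 .nil)) .nil)) .nil)) (.cons 201 (.leaf 225 1605 (.cons 223 (.leaf 199 1599 (.cons 297 (.leaf 321 1796 (.cons 320 (.leaf 247 1791 (.cons 343 (.leaf 319 1982 (.cons 344 (.leaf 367 2174 (.cons 368 (.leaf 273 2181 (.cons 369 (.leaf 345 2180 (.leaf 393 2372 .nil)) .nil)) .nil)) .nil)) .nil)) .nil)) .nil)) .nil)) .nil)))) (.cons 320 (.cons 225 (.leaf 249 1797 (.cons 224 (.leaf 201 1605 (.cons 321 (.leaf 297 1796 (.leaf 345 1988 .nil)) .nil)) .nil)) (.cons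 247 (.leaf 223 1791 (.cons 249 (.leaf 225 1797 (.cons 250 (.leaf 274 1976 (.cons 271 (.leaf 344 1983 (.leaf 251 1978 .nil)) .nil)) .nil)) .nil)) (.cons 223 (.leaf 247 1791 (.cons 224 (.leaf 199 1599 (.cons 321 (.leaf 297 1796 (.leaf 345 1988 .nil)) .nil)) .nil)) .nil))) (.cons 320 t148 (.cons 320 (.cons 225 (.leaf 249 1797 (.cons 343 (.leaf 319 1982 (.cons 344 (.leaf 367 2174 (.cons 345 (.leaf 321 1988 (.leaf 369 2180 .nil)) .nil)) .nil)) .nil)) (.cons 321 (.leaf 345 1988 (.cons 297 (.leaf 224 1796 (.cons 343 (.leaf 319 1982 (.cons 344 (.leaf 367 2174 (.cons 368 (.leaf 273 2181 (.leaf 392 2373 .nil)) .nil)) .nil)) .nil)) .nil)) (.cons 249 (.leaf 225 1797 (.cons 343 (.leaf 319 1982 (.cons 344 (.leaf 273 1989 (.leaf 367 2174 .nil)) .nil)) .nil)) (.cons 249 (.leaf 225 1797 (.cons 273 (.leaf 344 1989 (.cons 247 (.leaf 274 1979 (.cons 246 (.leaf 245 1960 (.cons 221 (.leaf 222 1771 (.cons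 270 (.leaf 269 1962 (.cons 250 (.leaf 271 1969 (.cons 227 (.leaf 226 1785 (.cons 251 (.leaf 252 1986 (.leaf 228 1793 .nil)) .nil)) .nil)) .nil)) .nil)) .nil)) .nil)) .nil)) .nil)) (.cons 321 (.leaf 345 1988 (.cons 224 (.leaf 297 1796 (.cons 225 (.leaf 201 1605 (.leaf 249 1797 .nil)) .nil)) .nil)) .nil))))) (.cons 320 (.cons 247 (.leaf 223 1791 (.cons 249 (.leaf 225 1797 (.cons 250 (.leaf 274 1976 (.cons 271 (.leaf 344 1983 (.leaf 251 1978 .nil)) .nil)) .nil)) .nil)) (.cons 249 (.leaf 225 1797 (.cons 343 (.leaf 319 1982 (.cons 344 (.leaf 273 1989 (.leaf 367 2174 .nil)) .nil)) .nil)) (.cons 247 (.leaf 223 1791 (.cons 273 (.leaf 274 1979 (.cons 245 (.leaf 246 1960 (.cons 319 (.leaf 343 1982 (.cons 344 (.leaf 271 1983 (.cons 368 (.leaf 297 2181 (.cons 369 (.leaf 345 2180 (.leaf 393 2372 .nil)) .nil)) .nil)) .nil)) .nil)) .nil)) .nil)) (.cons 223 (.leaf 247 1791 (.cons 224 (.leaf 199 1599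 (.cons 225 (.leaf 201 1605 (.leaf 249 1797 .nil)) .nil)) .nil)) .nil)))) .nil))))))
noncomputable def t150 : T := .cons 320 (.cons 249 (.leaf 225 1797 (.cons 343 (.leaf 319 1982 (.cons 344 (.leaf 273 1989 (.leaf 367 2174 .nil)) .nil)) .nil)) (.cons 247 (.leaf 223 1791 (.cons 273 (.leaf 274 1979 (.cons 245 (.leaf 246 1960 (.cons 321 (.leaf 345 1988 (.cons 344 (.leaf 271 1983 (.cons 297 (.leaf 224 1796 (.leaf 368 2181 .nil)) .nil)) .nil)) .nil)) .nil)) .nil)) (.cons 223 (.leaf 247 1791 (.cons 224 (.leaf 199 1599 (.cons 321 (.leaf 297 1796 (.leaf 345 1988 .nil)) .nil)) .nil)) .nil))) (.cons 224 (.cons 297 (.leaf 321 1796 (.cons 200 (.leaf 273 1604 (.cons 201 (.leaf 177 1413 (.leaf 225 1605 .nil)) .nil)) .nil)) (.cons 297 (.leaf 321 1796 (.cons 199 (.leaf 223 1599 (.cons 200 (.leaf 175 1407 (.leaf 273 1604 .nil)) .nil)) .nil)) (.cons 199 (.leaf 223 1599 (.cons 200 (.leaf 175 1407 (.cons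 201 (.leaf 177 1413 (.leaf 225 1605 .nil)) .nil)) .nil)) (.cons 223 (.leaf 199 1599 (.cons 225 (.leaf 201 1605 (.cons 297 (.leaf 321 1796 (.cons 222 (.cons 221 (.leaf 249 1768 (.cons 197 (.leaf 196 1571 (.leaf 198 1579 .nil)) .nil)) (.cons 246 (.leaf 245 1770 (.cons 197 (.leaf 198 1579 (.cons 226 (.leaf 247 1778 (.cons 202 (.leaf 203 1593 (.cons 251 (.leaf 250 1784 (.cons 227 (.leaf 299 1623 (.leaf 252 1792 .nil)) .nil)) .nil)) .nil)) .nil)) .nil)) (.cons 249 (.leaf 221 1768 (.leaf 250 1776 .nil)) .nil))) .nil)) .nil)) .nil)) .nil)))) t149)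
noncomputable def t151 : T := .cons 271 (.leaf 250 1969 (.cons 245 (.leaf 246 1963 (.cons 269 (.leaf 244 1955 (.leaf 268 2144 .nil)) .nil)) .nil)) (.cons 222 (.cons 224 (.leaf 250 1776 (.cons 197 (.leaf 198 1579 (.cons 196 (.leaf 221 1571 (.cons 246 (.leaf 245 1770 (.cons 294 (.leaf 293 2153 (.leaf 319 1780 .nil)) .nil)) .nil)) .nil)) .nil)) (.cons 224 (.leaf 250 1776 (.cons 197 (.leaf 198 1579 (.cons 221 (.leaf 196 1571 (.cons 245 (.leaf 246 1770 (.leaf 244 1762 .nil)) .nil)) .nil)) .nil)) (.cons 294 (.leaf 293 2153 (.cons 246 (.leaf 319 1780 (.leaf 199 1589 .nil)) .nil)) (.cons 224 (.leaf 250 1776 (.cons 197 (.leaf 198 1579 (.cons 221 (.leaf 196 1571 (.cons 245 (.leaf 244 1762 (.cons 294 (.leaf 293 2153 (.leaf 269 1580 .nil)) .nil)) .nil)) .nil)) .nil)) .nil)))) (.cons 271 (.cons 245 (.leaf 246 1963 (.cons 269 (.leaf 244 1955 (.leaf 268 2144 .nil)) .nil)) (.cons 294 (.leaf 293 2153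 (.cons 246 (.leaf 245 1963 (.cons 222 (.leaf 198 1588 (.leaf 319 1780 .nil)) .nil)) .nil)) (.cons 293 (.leaf 294 2153 (.cons 269 (.leaf 292 2146 (.leaf 268 2144 .nil)) .nil)) .nil))) (.cons 294 (.leaf 293 2153 (.cons 250 (.leaf 271 1969 (.cons 224 (.leaf 222 1776 (.cons 251 (.leaf 252 1986 (.leaf 226 1784 .nil)) .nil)) .nil)) .nil)) .nil)))
noncomputable def t152 : T := .cons 250 (.leaf 222 1776 (.cons 251 (.leaf 252 1986 (.leaf 226 1784 .nil)) .nil)) (.cons 226 (.cons 199 (.leaf 198 1587 (.cons 202 (.leaf 203 1593 (.cons 178 (.leaf 250 1422 (.leaf 154 1230 .nil)) .nil)) .nil)) (.cons 199 (.leaf 198 1587 (.cons 202 (.leaf 203 1593 (.cons 227 (.leaf 200 1595 (.cons 251 (.leaf 299 1623 (.leaf 252 1792 .nil)) .nil)) .nil)) .nil)) (.cons 251 (.leaf 250 1784 (.cons 198 (.leaf 199 1587 (.cons 227 (.leaf 252 1792 (.cons 204 (.leaf 203 1601 (.cons 228 (.leaf 299 1629 (.leaf 205 1609 .nil))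 .nil)) .nil)) .nil)) .nil)) (.cons 251 (.leaf 250 1784 (.cons 202 (.leaf 203 1593 (.cons 227 (.leaf 299 1623 (.leaf 252 1792 .nil)) .nil)) .nil)) (.cons 251 (.leaf 250 1784 (.cons 199 (.leaf 198 1587 (.cons 227 (.leaf 200 1595 (.leaf 252 1792 .nil)) .nil)) .nil)) .nil))))) (.cons 226 (.cons 198 (.leaf 199 1587 (.cons 222 (.leaf 197 1579 (.cons 246 (.leaf 245 1770 (.leaf 247 1778 .nil)) .nil)) .nil)) (.cons 202 (.leaf 203 1593 (.cons 246 (.leaf 247 1778 (.cons 222 (.leaf 245 1770 (.cons 154 (.leaf 178 1230 (.cons 197 (.leaf 198 1579 (.cons 221 (.leaf 196 1571 (.leaf 270 1583 .nil)) .nil)) .nil)) .nil)) .nil)) .nil)) (.cons 199 (.leaf 198 1587 (.cons 202 (.leaf 203 1593 (.cons 227 (.leaf 200 1595 (.cons 251 (.leaf 299 1623 (.leaf 252 1792 .nil)) .nil)) .nil)) .nil)) (.cons 246 (.leaf 247 1778 (.cons 202 (.leaf 203 1593 (.cons 222 (.leaf 245 1770 (.cons 270 (.leaf 319 1780 (.leaf 199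 1589 .nil)) .nil)) .nil)) .nil)) .nil)))) (.cons 222 (.leaf 250 1776 (.cons 197 (.leaf 198 1579 (.cons 221 (.leaf 196 1571 (.cons 245 (.leaf 246 1770 (.leaf 244 1762 .nil)) .nil)) .nil)) .nil)) .nil)))
noncomputable def t153 : T := .cons 271 (.leaf 247 1788 (.cons 250 (.leaf 270 1969 (.cons 224 (.leaf 222 1776 (.cons 251 (.leaf 252 1986 (.leaf 226 1784 .nil)) .nil)) .nil)) .nil)) (.cons 294 (.leaf 293 2153 (.cons 224 t152 .nil)) (.cons 270 t151 (.cons 271 (.leaf 247 1788 (.cons 270 (.cons 245 (.leaf 246 1963 (.cons 269 (.leaf 244 1955 (.leaf 268 2144 .nil)) .nil)) (.cons 294 (.leaf 293 2153 (.cons 246 (.leaf 245 1963 (.cons 222 (.leaf 198 1588 (.leaf 319 1780 .nil)) .nil)) .nil)) (.cons 293 (.leaf 294 2153 (.cons 269 (.leaf 292 2146 (.leaf 268 2144 .nil)) .nil)) .nil))) .nil)) (.cons 271 (.leaf 247 1788 (.cons 250 (.leaf 270 1969 (.cons 251 (.leaf 252 1986 (.cons 226 (.leaf 224 1784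 (.cons 202 (.leaf 178 1428 (.cons 299 (.leaf 227 1623 (.leaf 323 1815 .nil)) .nil)) .nil)) .nil)) .nil)) .nil)) (.cons 294 (.leaf 293 2153 (.cons 247 (.leaf 271 1788 (.cons 224 (.cons 250 (.leaf 222 1776 (.cons 251 (.leaf 252 1986 (.leaf 226 1784 .nil)) .nil)) (.cons 222 (.leaf 250 1776 (.cons 197 (.leaf 198 1579 (.cons 221 (.leaf 196 1571 (.cons 245 (.leaf 246 1770 (.leaf 244 1762 .nil)) .nil)) .nil)) .nil)) (.cons 226 (.leaf 246 1778 (.cons 199 (.leaf 198 1587 (.cons 227 (.leaf 200 1595 (.cons 203 (.leaf 202 1593 (.leaf 204 1601 .nil)) .nil)) .nil)) .nil)) .nil))) .nil)) .nil)) .nil)))))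
noncomputable def t154 : T := .cons 320 (.leaf 344 1989 (.cons 225 (.leaf 201 1606 (.leaf 297 1798 .nil)) .nil)) (.cons 294 (.leaf 293 2153 (.cons 225 (.leaf 201 1606 (.cons 270 (.cons 271 (.leaf 250 1969 (.cons 245 (.leaf 246 1963 (.cons 269 (.leaf 244 1955 (.leaf 297 2152 .nil)) .nil)) .nil)) (.cons 271 (.leaf 250 1969 (.cons 245 (.leaf 246 1963 (.cons 269 (.leaf 244 1955 (.leaf 268 2144 .nil)) .nil)) .nil)) (.cons 297 (.leaf 269 2155 (.cons 200 (.leaf 224 1607 (.cons 226 (.leaf 202 1613 (.cons 321 (.leaf 322 2352 (.leaf 250 1805 .nil)) .nil)) .nil)) .nil)) (.cons 271 (.leaf 250 1969 (.cons 246 (.leaf 245 1963 (.cons 222 (.leaf 198 1588 (.leaf 319 1780 .nil)) .nil)) .nil)) (.cons 269 (.leaf 297 2155 (.cons 268 (.leaf 271 2144 (.leaf 267 2136 .nil)) .nil)) .nil))))) .nil)) .nil)) (.cons 294 (.leaf 293 2153 (.cons 344 (.leaf 320 1989 (.cons 270 (.cons 250 (.leaf 271 1969 (.cons 251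 (.leaf 252 1986 (.cons 297 (.leaf 269 2155 (.cons 321 (.leaf 322 2352 (.leaf 226 1805 .nil)) .nil)) .nil)) .nil)) (.cons 297 (.leaf 269 2155 (.cons 321 (.leaf 322 2352 (.cons 345 (.leaf 369 2183 (.leaf 368 2182 .nil)) .nil)) .nil)) (.cons 271 (.leaf 250 1969 (.cons 246 (.leaf 245 1963 (.cons 319 (.leaf 222 1780 (.leaf 343 1975 .nil)) .nil)) .nil)) .nil))) .nil)) .nil)) (.cons 320 (.leaf 344 1989 (.cons 225 (.leaf 201 1606 (.cons 223 t153 .nil)) .nil)) .nil)))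
noncomputable def t155 : T := .cons 270 (.leaf 269 2155 (.cons 249 (.cons 271 (.leaf 250 1969 (.cons 246 (.leaf 245 1963 (.cons 222 (.leaf 198 1588 (.leaf 319 1780 .nil)) .nil)) .nil)) (.cons 225 (.leaf 201 1606 (.leaf 320 1798 .nil)) .nil)) .nil)) (.cons 321 (.leaf 322 2352 (.cons 345 (.leaf 369 2183 (.cons 344 (.leaf 368 2182 (.cons 249 (.leaf 320 1989 (.cons 225 (.leaf 201 1606 (.cons 226 (.leaf 202 1613 (.leaf 250 1805 .nil)) .nil)) .nil)) .nil)) .nil)) .nil)) (.cons 270 (.leaf 269 2155 (.cons 321 (.leaf 322 2352 (.cons 345 (.leaf 369 2183 (.cons 346 (.leaf 370 2188 (.cons 246 (.cons 245 (.leaf 271 1963 (.cons 221 (.leaf 318 1775 (.cons 197 (.leaf 222 1583 (.leaf 173 1388 .nil)) .nil)) .nil)) (.cons 222 (.leaf 319 1780 (.cons 197 (.leaf 221 1583 (.cons 198 (.leaf 173 1391 (.cons 199 (.leaf 223 1589 (.leaf 175 1397 .nil)) .nil)) .nil)) .nil)) (.cons 245 (.leaf 271 1963 (.cons 318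 (.leaf 221 1775 (.cons 223 (.leaf 247 1781 (.cons 343 (.leaf 319 1972 (.cons 344 (.leaf 368 2182 (.cons 367 (.leaf 342 2164 (.leaf 366 2738 .nil)) .nil)) .nil)) .nil)) .nil)) .nil)) (.cons 319 (.leaf 222 1780 (.cons 343 (.leaf 367 2173 (.leaf 271 1975 .nil)) .nil)) .nil)))) .nil)) .nil)) .nil)) .nil)) .nil))
noncomputable def t156 : T := .cons 320 (.leaf 249 1989 (.cons 271 (.leaf 247 1983 (.leaf 368 2175 .nil)) .nil)) (.cons 342 (.cons 343 (.leaf 345 2539 (.cons 319 (.leaf 367 2173 (.cons 366 (.leaf 271 2165 (.leaf 390 2357 .nil)) .nil)) .nil)) (.cons 343 (.leaf 345 2539 (.cons 319 (.leaf 367 2173 (.cons 271 (.leaf 247 1974 (.leaf 368 2172 .nil)) .nil)) .nil)) (.cons 366 (.leaf 271 2165 (.cons 365 (.leaf 389 2350 (.cons 367 (.leaf 391 2356 (.cons 368 (.leaf 345 2729 (.cons 341 (.leaf 369 2731 (.leaf 340 2723 .nil)) .nil)) .nil)) .nil)) .nil)) (.cons 343 (.leaf 345 2539 (.cons 319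 (.leaf 367 2173 (.cons 366 (.leaf 390 2357 (.cons 365 (.leaf 389 2350 (.cons 364 (.leaf 341 2722 (.leaf 363 2713 .nil)) .nil)) .nil)) .nil)) .nil)) (.cons 366 (.leaf 271 2165 (.cons 319 (.leaf 390 2357 (.cons 367 (.leaf 343 2173 (.leaf 391 2356 .nil)) .nil)) .nil)) (.cons 366 (.leaf 271 2165 (.cons 319 (.leaf 390 2357 (.cons 343 (.leaf 345 2539 (.cons 365 (.leaf 389 2350 (.cons 364 (.leaf 341 2722 (.leaf 363 2713 .nil)) .nil)) .nil)) .nil)) .nil)) .nil)))))) (.cons 320 (.leaf 249 1989 (.cons 345 (.leaf 369 2180 (.leaf 319 2536 .nil)) .nil)) .nil))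
noncomputable def t157 : T := .cons 317 (.leaf 297 2346 (.cons 316 (.leaf 319 2337 (.leaf 315 2329 .nil)) .nil)) (.cons 320 (.cons 344 (.leaf 249 1989 (.cons 271 (.leaf 247 1983 (.leaf 368 2175 .nil)) .nil)) (.cons 321 (.cons 322 (.leaf 297 2352 (.leaf 323 2363 .nil)) (.cons 319 (.cons 343 (.leaf 367 2173 (.cons 341 (.leaf 342 2538 (.cons 345 (.leaf 346 2544 (.cons 369 (.leaf 297 2183 (.leaf 393 2375 .nil)) .nil)) .nil)) .nil)) (.cons 343 (.leaf 367 2173 (.cons 345 (.leaf 346 2544 (.cons 369 (.leaf 297 2183 (.leaf 393 2375 .nil)) .nil)) .nil)) (.cons 342 (.leaf 341 2538 (.cons 271 (.leaf 247 1974 (.leaf 366 2165 .nil)) .nil)) .nil))) (.cons 322 (.leaf 323 2363 (.leaf 319 2355 .nil)) .nil))) (.cons 249 (.leaf 344 1989 (.cons 225 (.leaf 201 1606 (.leaf 297 1798 .nil)) .nil)) .nil))) (.cons 317 (.cons 316 (.leaf 319 2337 (.leaf 315 2329 .nil)) (.cons 344 t156 (.cons 316 (.leaf 315 2329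 (.cons 344 (.cons 320 (.leaf 249 1989 (.cons 271 (.leaf 247 1983 (.leaf 368 2175 .nil)) .nil)) (.cons 342 (.cons 343 (.leaf 345 2539 (.leaf 341 2531 .nil)) (.cons 366 (.leaf 271 2165 (.cons 389 (.leaf 365 2350 (.cons 390 (.leaf 413 2542 (.cons 391 (.leaf 367 2356 (.leaf 415 2548 .nil)) .nil)) .nil)) .nil)) .nil)) (.cons 320 (.leaf 249 1989 (.cons 343 (.leaf 367 2174 (.cons 342 (.leaf 345 2539 (.leaf 341 2531 .nil)) .nil)) .nil)) .nil))) .nil)) .nil))) (.cons 297 (.leaf 317 2346 (.cons 321 (.leaf 322 2352 (.cons 345 (.leaf 369 2183 (.cons 344 (.leaf 368 2182 (.cons 249 (.leaf 320 1989 (.cons 225 (.leaf 201 1606 (.cons 226 (.leaf 202 1613 (.leaf 250 1805 .nil)) .nil)) .nil)) .nil)) .nil)) .nil)) .nil)) .nil)))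
noncomputable def t158 : T := .cons 270 (.leaf 250 1969 (.cons 269 (.leaf 292 2146 (.leaf 268 2144 .nil)) .nil)) (.cons 225 (.leaf 201 1606 (.cons 319 (.cons 320 (.leaf 344 1989 (.cons 343 (.leaf 367 2173 (.cons 342 (.leaf 366 2166 (.cons 247 (.leaf 223 1788 (.leaf 318 1974 .nil)) .nil)) .nil)) .nil)) (.cons 343 (.leaf 367 2173 (.cons 342 (.leaf 366 2166 (.cons 247 (.leaf 318 1974 (.cons 223 (.leaf 199 1596 (.cons 222 (.leaf 198 1591 (.cons 224 (.leaf 200 1597 (.leaf 250 1776 .nil)) .nil)) .nil)) .nil)) .nil)) .nil)) (.cons 320 (.leaf 344 1989 (.cons 247 (.leaf 223 1788 (.cons 318 (.leaf 342 1974 (.cons 317 (.leaf 316 2337 (.leaf 292 2339 .nil)) .nil)) .nil)) .nil)) (.cons 320 (.leaf 344 1989 (.cons 343 (.leaf 367 2173 (.cons 342 (.leaf 366 2166 (.cons 321 (.leaf 322 2546 (.cons 341 (.leaf 318 2538 (.leaf 340 2529 .nil)) .nil)) .nil)) .nil)) .nil)) (.cons 344 (.leaf 320 1989 (.cons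 343 (.leaf 367 2173 (.leaf 368 2172 .nil)) .nil)) .nil))))) .nil)) (.cons 225 (.leaf 201 1606 (.cons 319 (.cons 320 (.leaf 344 1989 (.cons 343 (.leaf 367 2173 (.cons 342 (.leaf 366 2166 (.cons 247 (.leaf 223 1788 (.leaf 318 1974 .nil)) .nil)) .nil)) .nil)) (.cons 343 (.leaf 367 2173 (.cons 342 (.leaf 366 2166 (.cons 318 (.leaf 247 1974 (.cons 317 (.leaf 316 2337 (.cons 344 (.leaf 368 2172 (.leaf 345 2539 .nil)) .nil)) .nil)) .nil)) .nil)) (.cons 343 (.leaf 367 2173 (.cons 342 (.leaf 366 2166 (.cons 247 (.leaf 318 1974 (.cons 223 (.leaf 199 1596 (.leaf 320 1788 .nil)) .nil)) .nil)) .nil)) (.cons 320 (.leaf 344 1989 (.cons 247 (.leaf 223 1788 (.cons 318 (.leaf 342 1974 (.cons 317 (.leaf 316 2337 (.leaf 292 2339 .nil)) .nil)) .nil)) .nil)) (.cons 343 (.leaf 367 2173 (.cons 344 (.leaf 320 1989 (.leaf 368 2172 .nil)) .nil)) .nil))))) .nil)) (.cons 320 (.leaf 344 1989 (.cons 223 (.leaf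 247 1788 (.cons 225 (.leaf 201 1606 (.cons 250 (.leaf 270 1969 (.cons 224 (.leaf 222 1776 (.cons 251 (.leaf 252 1986 (.leaf 226 1784 .nil)) .nil)) .nil)) .nil)) .nil)) .nil)) .nil)))
noncomputable def t159 : T := .cons 270 (.cons 294 (.leaf 293 2153 (.cons 246 (.leaf 245 1963 (.cons 222 (.leaf 198 1588 (.leaf 319 1780 .nil)) .nil)) .nil)) (.cons 246 (.leaf 245 1963 (.cons 222 (.leaf 198 1588 (.cons 319 (.leaf 247 1783 (.leaf 343 1975 .nil)) .nil)) .nil)) (.cons 293 (.leaf 294 2153 (.cons 269 (.leaf 292 2146 (.leaf 268 2144 .nil)) .nil)) .nil))) (.cons 320 (.cons 344 (.leaf 247 1983 (.leaf 249 1989 .nil)) (.cons 247 (.leaf 223 1788 (.cons 246 (.cons 319 (.leaf 222 1783 (.cons 244 (.leaf 245 1952 (.cons 342 (.leaf 318 1974 (.cons 343 (.leaf 367 2173 (.leaf 270 1975 .nil)) .nil)) .nil)) .nil)) (.cons 319 (.leaf 222 1783 (.cons 343 (.leaf 367 2173 (.leaf 270 1975 .nil)) .nil)) (.cons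 319 (.leaf 222 1783 (.cons 244 (.leaf 245 1952 (.cons 342 (.leaf 318 1974 (.cons 343 (.leaf 367 2173 (.leaf 366 2166 .nil)) .nil)) .nil)) .nil)) (.cons 245 (.leaf 244 1952 (.leaf 270 1963 .nil)) .nil)))) .nil)) (.cons 344 (.leaf 249 1989 (.leaf 368 2175 .nil)) .nil))) (.cons 293 (.leaf 294 2153 (.cons 247 (.cons 223 (.leaf 199 1596 (.leaf 320 1788 .nil)) (.cons 223 (.leaf 199 1596 (.cons 200 (.leaf 224 1597 (.cons 222 (.leaf 198 1591 (.cons 319 (.leaf 246 1783 (.cons 342 (.leaf 318 1974 (.cons 343 (.leaf 367 2173 (.leaf 366 2166 .nil)) .nil)) .nil)) .nil)) .nil)) .nil)) (.cons 319 (.cons 344 (.leaf 320 1980 (.cons 343 (.leaf 367 2173 (.leaf 368 2172 .nil)) .nil)) (.cons 343 (.leaf 367 2173 (.cons 342 (.leaf 318 1974 (.leaf 366 2166 .nil)) .nil)) (.cons 320 (.leaf 344 1980 (.cons 222 (.leaf 246 1783 (.cons 318 (.leaf 342 1974 (.cons 317 (.leaf 316 2337 (.leaf 292 2339 .nil)) .nil))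 .nil)) .nil)) .nil))) .nil))) .nil)) (.cons 270 (.cons 294 (.leaf 293 2153 (.cons 246 (.leaf 245 1963 (.cons 222 (.leaf 198 1588 (.leaf 319 1780 .nil)) .nil)) .nil)) (.cons 245 (.leaf 246 1963 (.cons 269 (.leaf 244 1955 (.leaf 268 2144 .nil)) .nil)) (.cons 293 (.leaf 294 2153 (.cons 269 (.leaf 292 2146 (.leaf 268 2144 .nil)) .nil)) .nil))) (.cons 270 (.cons 293 (.leaf 294 2153 (.cons 245 (.leaf 246 1963 (.cons 269 (.leaf 244 1955 (.leaf 292 2146 .nil)) .nil)) .nil)) (.cons 269 (.leaf 268 2144 (.cons 245 (.leaf 244 1955 (.leaf 246 1963 .nil)) .nil)) (.cons 294 (.leaf 293 2153 (.cons 246 (.leaf 245 1963 (.cons 222 (.leaf 198 1588 (.cons 197 (.leaf 221 1583 (.cons 223 (.leaf 199 1589 (.cons 247 (.leaf 320 1788 (.leaf 318 1781 .nil)) .nil)) .nil)) .nil)) .nil)) .nil)) (.cons 293 (.leaf 294 2153 (.cons 269 (.leaf 292 2146 (.leaf 268 2144 .nil)) .nil)) .nil)))) (.cons 293 (.leaf 294 2153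 (.cons 249 t158 .nil)) (.cons 293 (.leaf 294 2153 (.cons 270 (.cons 246 (.leaf 245 1963 (.cons 269 (.leaf 292 2146 (.leaf 268 2144 .nil)) .nil)) (.cons 246 (.leaf 245 1963 (.cons 249 (.leaf 250 1969 (.cons 319 (.leaf 343 1975 (.cons 320 (.leaf 344 1989 (.cons 247 (.leaf 223 1788 (.cons 318 (.leaf 342 1974 (.cons 317 (.leaf 316 2337 (.leaf 292 2339 .nil)) .nil)) .nil)) .nil)) .nil)) .nil)) .nil)) (.cons 269 (.leaf 292 2146 (.leaf 268 2144 .nil)) (.cons 245 (.leaf 246 1963 (.cons 269 (.leaf 244 1955 (.leaf 268 2144 .nil)) .nil)) .nil)))) .nil)) .nil))))))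
noncomputable def t160 : T := .cons 246 (.cons 245 (.leaf 271 1963 (.cons 221 (.leaf 318 1775 (.cons 197 (.leaf 222 1583 (.leaf 269 1580 .nil)) .nil)) .nil)) (.cons 222 (.leaf 319 1780 (.cons 197 (.leaf 221 1583 (.cons 198 (.leaf 173 1391 (.cons 199 (.leaf 223 1589 (.leaf 175 1397 .nil)) .nil)) .nil)) .nil)) (.cons 245 (.leaf 271 1963 (.cons 318 (.leaf 221 1775 (.cons 341 (.leaf 317 1966 (.cons 342 (.leaf 269 1967 (.leaf 365 2158 .nil)) .nil)) .nil)) .nil)) (.cons 271 (.leaf 245 1963 (.cons 269 (.leaf 297 2152 (.leaf 268 2144 .nil)) .nil)) .nil)))) (.cons 246 (.cons 245 (.leaf 271 1963 (.cons 221 (.leaf 318 1775 (.cons 197 (.leaf 222 1583 (.leaf 173 1388 .nil)) .nil)) .nil)) (.cons 319 (.leaf 222 1780 (.cons 343 (.leaf 367 2173 (.leaf 318 1972 .nil)) .nil)) (.cons 271 (.leaf 245 1963 (.cons 249 (.leaf 250 1969 (.cons 225 (.leaf 201 1606 (.cons 297 (.leaf 320 1798 (.cons 200 (.leaf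 224 1607 (.cons 202 (.leaf 226 1613 (.cons 318 (.leaf 317 2346 (.cons 247 (.leaf 223 1781 (.leaf 342 1973 .nil)) .nil)) .nil)) .nil)) .nil)) .nil)) .nil)) .nil)) (.cons 271 (.leaf 245 1963 (.cons 222 (.leaf 198 1588 (.leaf 319 1780 .nil)) .nil)) .nil)))) (.cons 246 (.cons 319 (.leaf 222 1780 (.cons 343 (.leaf 367 2173 (.leaf 271 1975 .nil)) .nil)) (.cons 319 (.leaf 222 1780 (.cons 343 (.leaf 367 2173 (.leaf 318 1972 .nil)) .nil)) (.cons 271 (.leaf 245 1963 (.cons 222 (.leaf 198 1588 (.cons 197 (.leaf 221 1583 (.cons 223 (.leaf 199 1589 (.cons 247 (.leaf 320 1788 (.leaf 318 1781 .nil)) .nil)) .nil)) .nil)) .nil)) (.cons 245 (.leaf 271 1963 (.cons 221 (.leaf 318 1775 (.cons 197 (.leaf 269 1580 (.leaf 173 1388 .nil)) .nil)) .nil)) .nil)))) (.cons 297 (.leaf 269 2155 (.cons 318 (.leaf 317 2346 (.cons 322 (.leaf 321 2352 (.cons 342 (.cons 365 (.leaf 341 2158 (.cons 366 (.leaf 389 2350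 (.cons 319 (.leaf 390 2357 (.cons 246 (.leaf 222 1780 (.leaf 343 1972 .nil)) .nil)) .nil)) .nil)) (.cons 365 (.leaf 341 2158 (.cons 366 (.leaf 389 2350 (.cons 390 (.leaf 319 2357 (.cons 391 (.leaf 367 2356 (.leaf 415 2548 .nil)) .nil)) .nil)) .nil)) (.cons 343 (.leaf 367 2164 (.cons 246 (.leaf 319 1972 (.cons 221 (.leaf 245 1775 (.cons 222 (.leaf 197 1583 (.cons 223 (.leaf 199 1589 (.leaf 247 1781 .nil)) .nil)) .nil)) .nil)) .nil)) (.cons 367 (.leaf 343 2164 (.cons 365 (.leaf 341 2158 (.cons 366 (.leaf 389 2350 (.leaf 391 2356 .nil)) .nil)) .nil)) .nil)))) .nil)) .nil)) .nil)) (.cons 269 (.leaf 297 2155 (.cons 268 (.leaf 271 2144 (.leaf 267 2136 .nil)) .nil)) .nil))))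
noncomputable def t161 : T := .cons 321 (.leaf 322 2352 (.cons 345 (.leaf 369 2183 (.cons 317 (.leaf 318 2346 (.cons 344 (.leaf 368 2182 (.cons 249 (.leaf 320 1989 (.cons 270 (.leaf 269 2155 (.cons 250 (.leaf 271 1969 (.leaf 226 1805 .nil)) .nil)) .nil)) .nil)) .nil)) .nil)) .nil)) (.cons 270 (.leaf 269 2155 (.cons 318 (.leaf 317 2346 (.cons 271 (.cons 247 (.leaf 223 1782 (.leaf 342 1973 .nil)) (.cons 245 (.leaf 246 1963 (.cons 249 (.leaf 250 1969 (.cons 225 (.leaf 201 1606 (.leaf 320 1798 .nil)) .nil)) .nil)) .nil)) .nil)) .nil)) (.cons 321 (.leaf 322 2352 (.cons 345 (.leaf 369 2183 (.cons 317 (.leaf 318 2346 (.cons 344 (.leaf 368 2182 (.cons 249 (.leaf 320 1989 (.cons 225 (.leaf 201 1606 (.cons 226 (.leaf 202 1613 (.leaf 250 1805 .nil)) .nil)) .nil)) .nil)) .nil)) .nil)) .nil)) (.cons 321 (.leaf 322 2352 (.cons 345 (.leaf 369 2183 (.cons 344 (.leaf 368 2182 (.cons 249 (.leaf 320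 1989 (.cons 225 (.leaf 201 1606 (.cons 226 (.leaf 202 1613 (.leaf 250 1805 .nil)) .nil)) .nil)) .nil)) .nil)) .nil)) (.cons 270 (.leaf 269 2155 (.cons 321 (.leaf 322 2352 (.cons 345 (.leaf 369 2183 (.cons 318 (.leaf 317 2346 (.cons 346 (.leaf 370 2188 (.cons 246 (.cons 223 (.leaf 247 1781 (.cons 222 (.leaf 199 1589 (.cons 197 (.leaf 221 1583 (.cons 198 (.leaf 271 1588 (.leaf 173 1391 .nil)) .nil)) .nil)) .nil)) (.cons 221 (.leaf 245 1775 (.cons 222 (.leaf 197 1583 (.cons 223 (.leaf 199 1589 (.leaf 247 1781 .nil)) .nil)) .nil)) (.cons 245 (.leaf 271 1963 (.leaf 221 1775 .nil)) (.cons 223 (.leaf 247 1781 (.cons 222 (.leaf 199 1589 (.cons 271 (.leaf 245 1963 (.leaf 198 1588 .nil)) .nil)) .nil)) .nil)))) .nil)) .nil)) .nil)) .nil)) .nil)) .nil))))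
noncomputable def t162 : T := .cons 297 (.leaf 269 2155 (.cons 321 (.leaf 322 2352 (.cons 345 (.leaf 369 2183 (.cons 318 (.leaf 317 2346 (.cons 344 (.leaf 368 2182 (.cons 346 (.leaf 370 2188 (.cons 343 (.leaf 319 2547 (.cons 367 (.leaf 342 2164 (.leaf 366 2738 .nil)) .nil)) .nil)) .nil)) .nil)) .nil)) .nil)) .nil)) (.cons 246 (.cons 222 (.leaf 319 1780 (.cons 271 (.leaf 245 1963 (.leaf 198 1588 .nil)) .nil)) (.cons 222 (.leaf 319 1780 (.cons 197 (.leaf 221 1583 (.cons 198 (.leaf 173 1391 (.cons 199 (.leaf 223 1589 (.leaf 175 1397 .nil)) .nil)) .nil)) .nil)) (.cons 245 (.leaf 271 1963 (.cons 221 (.leaf 318 1775 (.cons 197 (.leaf 222 1583 (.leaf 173 1388 .nil)) .nil)) .nil)) (.cons 245 (.leaf 271 1963 (.cons 318 (.leaf 221 1775 (.cons 317 (.leaf 297 2346 (.leaf 341 1966 .nil)) .nil)) .nil)) .nil)))) (.cons 246 (.cons 222 (.leaf 319 1780 (.cons 271 (.leaf 245 1963 (.leaf 198 1588 .nil))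 .nil)) (.cons 222 (.leaf 319 1780 (.cons 197 (.leaf 221 1583 (.cons 198 (.leaf 173 1391 (.cons 199 (.leaf 223 1589 (.leaf 175 1397 .nil)) .nil)) .nil)) .nil)) (.cons 271 (.leaf 245 1963 (.cons 222 (.leaf 198 1588 (.cons 197 (.leaf 221 1583 (.cons 223 (.leaf 199 1589 (.cons 247 (.leaf 318 1781 (.cons 224 (.leaf 200 1597 (.cons 225 (.leaf 226 1778 (.cons 249 (.leaf 201 1606 (.leaf 250 1776 .nil)) .nil)) .nil)) .nil)) .nil)) .nil)) .nil)) .nil)) (.cons 245 (.leaf 271 1963 (.cons 221 (.leaf 318 1775 (.cons 197 (.leaf 269 1580 (.leaf 173 1388 .nil)) .nil)) .nil)) .nil)))) (.cons 269 (.leaf 297 2155 (.cons 268 (.leaf 271 2144 (.leaf 267 2136 .nil)) .nil)) .nil)))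
noncomputable def t163 : T := .cons 321 (.leaf 322 2352 (.cons 270 (.leaf 269 2155 (.cons 318 (.leaf 317 2346 (.cons 345 (.leaf 369 2183 (.cons 344 (.leaf 368 2182 (.cons 346 (.leaf 370 2188 (.cons 343 (.leaf 319 2547 (.cons 367 (.leaf 320 2174 (.leaf 342 2164 .nil)) .nil)) .nil)) .nil)) .nil)) .nil)) .nil)) .nil)) (.cons 318 (.leaf 317 2346 (.cons 270 (.leaf 269 2155 (.cons 343 (.cons 319 (.leaf 367 2173 (.leaf 246 1972 .nil)) (.cons 246 (.leaf 319 1972 (.cons 221 (.leaf 245 1775 (.cons 222 (.leaf 197 1583 (.cons 223 (.leaf 199 1589 (.leaf 247 1781 .nil)) .nil)) .nil)) .nil)) (.cons 342 (.leaf 367 2164 (.cons 365 (.leaf 341 2158 (.cons 366 (.leaf 389 2350 (.cons 344 (.leaf 345 2730 (.cons 320 (.leaf 249 1989 (.leaf 368 2181 .nil)) .nil)) .nil)) .nil)) .nil)) .nil))) .nil)) .nil)) (.cons 321 (.leaf 322 2352 (.cons 345 (.leaf 369 2183 (.cons 344 (.leaf 368 2182 (.cons 249 (.leaf 320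 1989 (.cons 225 (.leaf 201 1606 (.cons 226 (.leaf 202 1613 (.leaf 250 1805 .nil)) .nil)) .nil)) .nil)) .nil)) .nil)) (.cons 318 (.leaf 317 2346 (.cons 270 (.leaf 269 2155 (.cons 321 (.leaf 322 2352 (.cons 345 (.leaf 369 2183 (.cons 344 (.leaf 368 2182 (.cons 346 (.leaf 370 2188 (.cons 343 (.leaf 319 2547 (.cons 367 (.leaf 342 2164 (.leaf 366 2738 .nil)) .nil)) .nil)) .nil)) .nil)) .nil)) .nil)) .nil)) (.cons 318 (.leaf 317 2346 (.cons 270 (.leaf 269 2155 (.cons 321 (.leaf 322 2352 (.cons 345 (.leaf 369 2183 (.cons 346 (.leaf 370 2188 (.cons 319 (.leaf 320 2544 (.cons 343 (.leaf 367 2173 (.leaf 246 1972 .nil)) .nil)) .nil)) .nil)) .nil)) .nil)) .nil)) (.cons 318 (.leaf 317 2346 (.cons 270 (.leaf 269 2155 (.cons 322 (.leaf 321 2352 (.cons 342 (.cons 365 (.leaf 341 2158 (.cons 366 (.leaf 389 2350 (.cons 319 (.leaf 390 2357 (.cons 246 (.leaf 222 1780 (.leaf 343 1972 .nil)) .nil)) .nil))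 .nil)) (.cons 365 (.leaf 341 2158 (.cons 366 (.leaf 389 2350 (.cons 390 (.leaf 319 2357 (.cons 391 (.leaf 367 2356 (.leaf 415 2548 .nil)) .nil)) .nil)) .nil)) (.cons 343 (.leaf 367 2164 (.cons 246 (.leaf 319 1972 (.cons 221 (.leaf 245 1775 (.cons 222 (.leaf 197 1583 (.cons 223 (.leaf 199 1589 (.leaf 247 1781 .nil)) .nil)) .nil)) .nil)) .nil)) (.cons 367 (.leaf 343 2164 (.cons 365 (.leaf 341 2158 (.cons 366 (.leaf 389 2350 (.leaf 391 2356 .nil)) .nil)) .nil)) .nil)))) .nil)) .nil)) .nil)) .nil)))))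
noncomputable def t164 : T := .cons 249 (.cons 270 (.leaf 250 1969 (.cons 269 (.leaf 297 2152 (.leaf 268 2144 .nil)) .nil)) (.cons 225 (.leaf 201 1606 (.cons 320 (.leaf 344 1989 (.leaf 297 1798 .nil)) .nil)) (.cons 225 (.leaf 201 1606 (.cons 250 (.leaf 270 1969 (.cons 251 (.leaf 252 1986 (.cons 320 (.leaf 344 1989 (.cons 223 (.leaf 247 1788 (.cons 224 (.leaf 222 1776 (.leaf 226 1784 .nil)) .nil)) .nil)) .nil)) .nil)) .nil)) .nil))) (.cons 270 (.cons 246 (.leaf 245 1963 (.cons 222 (.leaf 198 1588 (.cons 319 (.leaf 247 1783 (.leaf 343 1975 .nil)) .nil)) .nil)) (.cons 269 (.leaf 297 2152 (.leaf 268 2144 .nil)) .nil)) (.cons 247 (.cons 223 (.leaf 199 1596 (.leaf 320 1788 .nil)) (.cons 223 (.leaf 199 1596 (.cons 200 (.leaf 224 1597 (.cons 222 (.leaf 198 1591 (.cons 319 (.leaf 246 1783 (.cons 342 (.leaf 318 1974 (.cons 343 (.leaf 367 2173 (.leaf 366 2166 .nil)) .nil)) .nil)) .nil)) .nil))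 .nil)) (.cons 319 (.cons 320 (.leaf 344 1980 (.cons 222 (.leaf 246 1783 (.cons 318 (.leaf 342 1974 (.cons 317 (.leaf 316 2337 (.leaf 297 2345 .nil)) .nil)) .nil)) .nil)) (.cons 222 (.leaf 246 1783 (.cons 342 (.leaf 318 1974 (.cons 343 (.leaf 367 2173 (.leaf 366 2166 .nil)) .nil)) .nil)) (.cons 344 (.leaf 320 1980 (.cons 343 (.leaf 367 2173 (.leaf 368 2172 .nil)) .nil)) .nil))) .nil))) (.cons 270 (.cons 245 (.leaf 246 1963 (.cons 269 (.leaf 244 1955 (.leaf 297 2152 .nil)) .nil)) (.cons 245 (.leaf 246 1963 (.cons 249 (.leaf 250 1969 (.cons 225 (.leaf 201 1606 (.cons 320 (.leaf 344 1989 (.leaf 297 1798 .nil)) .nil)) .nil)) .nil)) (.cons 269 (.leaf 297 2152 (.leaf 268 2144 .nil)) (.cons 245 (.leaf 246 1963 (.cons 269 (.leaf 244 1955 (.leaf 268 2144 .nil)) .nil)) .nil)))) (.cons 320 (.cons 344 (.leaf 247 1983 (.leaf 249 1989 .nil)) (.cons 247 (.leaf 223 1788 (.cons 246 (.cons 222 (.leaf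 319 1783 (.cons 270 (.leaf 245 1963 (.leaf 198 1588 .nil)) .nil)) (.cons 222 (.leaf 319 1783 (.cons 198 (.leaf 270 1588 (.leaf 174 1396 .nil)) .nil)) (.cons 319 (.leaf 222 1783 (.cons 244 (.leaf 245 1952 (.cons 342 (.leaf 318 1974 (.cons 343 (.leaf 367 2173 (.leaf 366 2166 .nil)) .nil)) .nil)) .nil)) (.cons 245 (.leaf 244 1952 (.leaf 270 1963 .nil)) .nil)))) .nil)) (.cons 344 (.leaf 249 1989 (.leaf 368 2175 .nil)) .nil))) .nil))))
noncomputable def t165 : T := .leaf 367 2173 (.cons 271 (.cons 344 (.leaf 368 2172 (.cons 320 (.leaf 247 1980 (.cons 345 (.leaf 369 2180 (.cons 318 (.leaf 317 2536 (.leaf 346 2547 .nil)) .nil)) .nil)) .nil)) (.cons 342 (.leaf 366 2166 (.cons 247 (.leaf 318 1974 (.cons 223 (.leaf 199 1596 (.leaf 320 1788 .nil)) .nil)) .nil)) (.cons 342 (.leaf 366 2166 (.cons 318 (.leaf 247 1974 (.cons 316 (.leaf 317 2337 (.cons 344 (.leaf 368 2172 (.cons 345 (.leaf 346 2547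 (.cons 321 (.leaf 322 2545 (.cons 369 (.leaf 297 2183 (.leaf 370 2736 .nil)) .nil)) .nil)) .nil)) .nil)) .nil)) .nil)) (.cons 344 (.leaf 368 2172 (.cons 342 (.leaf 366 2166 (.cons 345 (.cons 321 (.leaf 322 2545 (.cons 369 (.leaf 297 2183 (.leaf 320 2180 .nil)) .nil)) (.cons 321 (.leaf 322 2545 (.cons 369 (.leaf 297 2183 (.leaf 370 2736 .nil)) .nil)) (.cons 318 (.leaf 346 2547 (.leaf 317 2539 .nil)) .nil))) .nil)) .nil)) (.cons 344 (.leaf 368 2172 (.cons 320 (.leaf 247 1980 (.cons 342 (.leaf 366 2166 (.cons 321 (.leaf 322 2546 (.leaf 341 2537 .nil)) .nil)) .nil)) .nil)) .nil))))) .nil)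
noncomputable def t166 : T := .leaf 367 2173 (.cons 271 (.cons 344 (.leaf 368 2172 (.cons 320 (.leaf 247 1980 (.cons 345 (.leaf 369 2180 (.cons 318 (.leaf 317 2536 (.leaf 346 2547 .nil)) .nil)) .nil)) .nil)) (.cons 342 (.leaf 366 2166 (.cons 247 (.leaf 318 1974 (.cons 222 (.leaf 246 1783 (.cons 223 (.leaf 199 1596 (.leaf 320 1788 .nil)) .nil)) .nil)) .nil)) (.cons 344 (.leaf 368 2172 (.cons 342 (.leaf 366 2166 (.cons 345 (.cons 321 (.leaf 322 2545 (.cons 369 (.leaf 297 2183 (.leaf 320 2180 .nil)) .nil)) (.cons 321 (.leaf 322 2545 (.cons 369 (.leaf 297 2183 (.leaf 370 2736 .nil)) .nil)) (.cons 318 (.leaf 346 2547 (.leaf 317 2539 .nil)) .nil))) .nil)) .nil)) (.cons 344 (.leaf 368 2172 (.cons 342 (.leaf 366 2166 (.cons 345 (.cons 321 (.leaf 322 2545 (.cons 369 (.leaf 297 2183 (.leaf 370 2736 .nil)) .nil)) (.cons 318 (.leaf 247 1974 (.leaf 346 2547 .nil)) .nil)) .nil)) .nil)) (.cons 344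 (.leaf 368 2172 (.cons 320 (.leaf 247 1980 (.cons 342 (.leaf 366 2166 (.cons 321 (.leaf 322 2546 (.leaf 341 2537 .nil)) .nil)) .nil)) .nil)) .nil))))) .nil)
noncomputable def t167 : T := .cons 293 (.cons 320 (.leaf 321 2344 (.leaf 292 2336 .nil)) (.cons 316 (.leaf 317 2338 (.cons 268 (.leaf 269 2147 (.cons 292 (.leaf 267 2139 (.leaf 315 2330 .nil)) .nil)) .nil)) (.cons 317 (.leaf 316 2338 (.cons 269 (.leaf 268 2147 (.cons 318 (.leaf 297 2346 (.cons 245 (.leaf 221 1772 (.leaf 342 1964 .nil)) .nil)) .nil)) .nil)) .nil))) (.cons 293 (.cons 268 (.leaf 269 2147 (.cons 292 (.leaf 267 2139 (.leaf 320 2336 .nil)) .nil)) (.cons 268 (.leaf 269 2147 (.cons 292 (.leaf 267 2139 (.cons 316 (.leaf 317 2338 (.leaf 315 2330 .nil)) .nil)) .nil)) (.cons 269 (.leaf 268 2147 (.cons 270 (.leaf 297 2155 (.cons 317 (.leaf 316 2338 (.cons 246 (.leaf 222 1780 (.leaf 341 1965 .nil)) .nil)) .nil)) .nil)) (.cons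 320 (.leaf 321 2344 (.leaf 292 2336 .nil)) .nil)))) (.cons 318 (.cons 317 (.leaf 297 2346 (.leaf 316 2337 .nil)) (.cons 270 (.leaf 246 1972 (.cons 269 (.leaf 297 2155 (.cons 267 (.leaf 268 2136 (.cons 342 (.leaf 245 1967 (.cons 341 (.leaf 365 2158 (.cons 320 (.leaf 321 2538 (.leaf 340 2529 .nil)) .nil)) .nil)) .nil)) .nil)) .nil)) (.cons 317 (.leaf 316 2337 (.cons 270 (.leaf 246 1972 (.cons 320 (.cons 321 (.leaf 322 2355 (.cons 341 (.leaf 340 2530 (.leaf 342 2538 .nil)) .nil)) (.cons 345 (.leaf 344 2536 (.cons 321 (.leaf 322 2355 (.leaf 346 2544 .nil)) .nil)) (.cons 344 (.leaf 345 2536 (.cons 341 (.leaf 340 2530 (.cons 365 (.leaf 342 2158 (.leaf 389 2349 .nil)) .nil)) .nil)) .nil))) .nil)) .nil)) .nil))) (.cons 270 (.cons 246 (.leaf 222 1780 (.leaf 318 1972 .nil)) (.cons 269 (.leaf 297 2155 (.cons 268 (.leaf 293 2147 (.leaf 267 2136 .nil)) .nil)) .nil)) (.cons 293 (.cons 320 (.leaf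 321 2344 (.leaf 292 2336 .nil)) (.cons 316 (.leaf 317 2338 (.cons 268 (.leaf 269 2147 (.cons 292 (.leaf 267 2139 (.leaf 315 2330 .nil)) .nil)) .nil)) (.cons 320 (.leaf 321 2344 (.cons 317 (.leaf 316 2338 (.cons 269 (.leaf 268 2147 (.cons 318 (.cons 245 (.leaf 221 1772 (.leaf 342 1964 .nil)) (.cons 221 (.leaf 245 1772 (.cons 270 (.leaf 246 1972 (.cons 341 (.leaf 340 2530 (.leaf 365 2157 .nil)) .nil)) .nil)) (.cons 246 (.leaf 270 1972 (.cons 341 (.leaf 340 2530 (.cons 342 (.leaf 366 2156 (.cons 344 (.leaf 345 2536 (.cons 365 (.leaf 364 2722 (.leaf 389 2349 .nil)) .nil)) .nil)) .nil)) .nil)) .nil))) .nil)) .nil)) .nil)) .nil))) (.cons 293 (.cons 317 (.leaf 316 2338 (.cons 320 (.leaf 321 2344 (.leaf 292 2336 .nil)) .nil)) (.cons 316 (.leaf 317 2338 (.cons 292 (.leaf 315 2330 (.cons 267 (.leaf 268 2139 (.cons 291 (.leaf 318 2328 (.leaf 266 2131 .nil)) .nil)) .nil)) .nil)) (.cons 320 (.leaf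 321 2344 (.leaf 292 2336 .nil)) (.cons 317 (.leaf 316 2338 (.cons 297 (.leaf 318 2346 (.cons 321 (.leaf 320 2344 (.leaf 322 2352 .nil)) .nil)) .nil)) .nil)))) (.cons 321 (.cons 320 (.leaf 293 2344 (.leaf 322 2355 .nil)) (.cons 297 (.leaf 322 2352 (.cons 270 (.leaf 269 2155 (.cons 246 (.leaf 222 1780 (.leaf 318 1972 .nil)) .nil)) .nil)) (.cons 293 (.leaf 320 2344 (.cons 316 (.leaf 317 2338 (.cons 292 (.leaf 315 2330 (.cons 318 (.leaf 291 2328 (.cons 270 (.leaf 246 1972 (.cons 269 (.leaf 297 2155 (.cons 245 (.leaf 221 1772 (.leaf 342 1967 .nil)) .nil)) .nil)) .nil)) .nil)) .nil)) .nil)) .nil))) .nil))))))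
noncomputable def t168 : T := .cons 293 (.cons 317 (.leaf 316 2338 (.cons 297 (.leaf 318 2346 (.cons 321 (.leaf 320 2344 (.leaf 322 2352 .nil)) .nil)) .nil)) (.cons 271 (.leaf 292 2145 (.cons 317 (.leaf 316 2338 (.cons 318 (.leaf 297 2346 (.cons 247 (.leaf 223 1782 (.leaf 342 1974 .nil)) .nil)) .nil)) .nil)) (.cons 292 (.leaf 271 2145 (.leaf 320 2336 .nil)) .nil))) (.cons 318 (.cons 270 (.cons 269 (.leaf 297 2155 (.cons 268 (.leaf 271 2144 (.leaf 267 2136 .nil)) .nil)) (.cons 246 (.leaf 222 1780 (.cons 221 (.leaf 245 1775 (.cons 247 (.leaf 223 1781 (.cons 342 (.leaf 271 1973 (.cons 365 (.leaf 341 2158 (.cons 366 (.leaf 390 2357 (.leaf 389 2350 .nil)) .nil)) .nil)) .nil)) .nil)) .nil)) (.cons 222 (.leaf 246 1780 (.cons 269 (.leaf 297 2155 (.cons 267 (.leaf 268 2136 (.cons 342 (.leaf 245 1967 (.cons 365 (.leaf 341 2158 (.cons 366 (.leaf 390 2357 (.leaf 389 2350 .nil)) .nil)) .nil))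 .nil)) .nil)) .nil)) .nil))) (.cons 317 (.leaf 316 2337 (.cons 320 (.cons 321 (.leaf 322 2355 (.cons 341 (.leaf 340 2530 (.leaf 342 2538 .nil)) .nil)) (.cons 321 (.leaf 322 2355 (.cons 345 (.leaf 344 2536 (.leaf 346 2544 .nil)) .nil)) (.cons 340 (.leaf 341 2530 (.cons 344 (.leaf 345 2536 (.cons 271 (.leaf 247 1980 (.leaf 368 2175 .nil)) .nil)) .nil)) .nil))) .nil)) (.cons 317 (.leaf 297 2346 (.leaf 316 2337 .nil)) .nil))) (.cons 293 (.cons 269 (.leaf 268 2147 (.cons 270 (.leaf 297 2155 (.cons 222 (.leaf 246 1780 (.cons 317 (.leaf 316 2338 (.cons 341 (.leaf 365 2157 (.cons 340 (.leaf 364 2150 (.cons 342 (.leaf 366 2156 (.cons 318 (.leaf 339 2521 (.leaf 245 1964 .nil)) .nil)) .nil)) .nil)) .nil)) .nil)) .nil)) .nil)) (.cons 268 (.leaf 269 2147 (.cons 292 (.leaf 271 2145 (.leaf 267 2139 .nil)) .nil)) (.cons 292 (.leaf 271 2145 (.cons 316 (.leaf 317 2338 (.leaf 315 2330 .nil)) .nil))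 .nil))) (.cons 293 (.cons 292 (.leaf 271 2145 (.leaf 320 2336 .nil)) (.cons 269 (.leaf 268 2147 (.cons 270 (.leaf 297 2155 (.cons 246 (.leaf 222 1780 (.cons 317 (.leaf 316 2338 (.leaf 341 1965 .nil)) .nil)) .nil)) .nil)) .nil)) (.cons 293 (.cons 292 (.leaf 271 2145 (.leaf 320 2336 .nil)) (.cons 269 (.leaf 268 2147 (.cons 297 (.leaf 270 2155 (.cons 321 (.leaf 320 2344 (.leaf 322 2352 .nil)) .nil)) .nil)) (.cons 292 (.leaf 271 2145 (.cons 268 (.leaf 269 2147 (.leaf 267 2139 .nil)) .nil)) .nil))) (.cons 293 (.cons 320 (.leaf 321 2344 (.leaf 292 2336 .nil)) (.cons 268 (.leaf 269 2147 (.cons 292 (.leaf 267 2139 (.cons 316 (.leaf 317 2338 (.leaf 315 2330 .nil)) .nil)) .nil)) (.cons 321 (.leaf 320 2344 (.cons 268 (.leaf 269 2147 (.cons 297 (.leaf 322 2352 (.cons 317 (.leaf 316 2338 (.leaf 318 2346 .nil)) .nil)) .nil)) .nil)) .nil))) (.cons 293 (.cons 292 (.leaf 271 2145 (.leaf 320 2336 .nil))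 (.cons 320 (.leaf 321 2344 (.cons 317 (.leaf 316 2338 (.cons 269 (.leaf 268 2147 (.cons 344 (.cons 271 (.leaf 247 1980 (.leaf 368 2175 .nil)) (.cons 345 (.leaf 369 2180 (.leaf 318 2536 .nil)) .nil)) .nil)) .nil)) .nil)) (.cons 292 (.leaf 271 2145 (.cons 268 (.leaf 269 2147 (.leaf 267 2139 .nil)) .nil)) (.cons 320 (.leaf 321 2344 (.leaf 292 2336 .nil)) .nil)))) .nil))))))
noncomputable def t169 : T := .cons 343 (.leaf 367 2173 (.cons 271 (.cons 270 (.leaf 246 1975 (.cons 269 (.leaf 297 2152 (.leaf 268 2144 .nil)) .nil)) (.cons 344 (.leaf 368 2172 (.cons 320 (.leaf 247 1980 (.cons 345 (.leaf 369 2180 (.cons 318 (.leaf 317 2536 (.leaf 346 2547 .nil)) .nil)) .nil)) .nil)) .nil)) .nil)) (.cons 294 t168 (.cons 343 (.leaf 367 2173 (.cons 271 (.cons 270 (.leaf 246 1975 (.cons 269 (.leaf 297 2152 (.leaf 268 2144 .nil)) .nil)) (.cons 342 (.leaf 366 2166 (.cons 318 (.leaf 247 1974 (.cons 316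 (.leaf 317 2337 (.cons 344 (.leaf 368 2172 (.cons 345 (.leaf 346 2547 (.cons 321 (.leaf 322 2545 (.cons 369 (.leaf 297 2183 (.leaf 370 2736 .nil)) .nil)) .nil)) .nil)) .nil)) .nil)) .nil)) (.cons 270 (.leaf 246 1975 (.cons 269 (.leaf 268 2144 (.cons 342 (.leaf 366 2166 (.cons 244 (.leaf 245 1955 (.cons 292 (.leaf 293 2146 (.cons 318 (.leaf 247 1974 (.cons 317 (.leaf 316 2337 (.cons 344 (.leaf 368 2172 (.leaf 345 2539 .nil)) .nil)) .nil)) .nil)) .nil)) .nil)) .nil)) .nil)) .nil))) .nil)) (.cons 343 (.leaf 367 2173 (.cons 294 t167 .nil)) (.cons 343 (.leaf 367 2173 (.cons 271 (.cons 342 (.leaf 366 2166 (.cons 344 (.leaf 368 2172 (.cons 320 (.leaf 247 1980 (.cons 321 (.leaf 322 2546 (.leaf 341 2537 .nil)) .nil)) .nil)) .nil)) (.cons 270 (.leaf 246 1975 (.cons 269 (.leaf 297 2152 (.leaf 268 2144 .nil)) .nil)) .nil)) .nil)) (.cons 343 (.leaf 367 2173 (.cons 271 (.cons 270 (.leaf 246 1975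 (.cons 269 (.leaf 297 2152 (.leaf 268 2144 .nil)) .nil)) (.cons 342 (.leaf 366 2166 (.cons 247 (.leaf 318 1974 (.cons 222 (.leaf 246 1783 (.cons 223 (.leaf 199 1596 (.leaf 320 1788 .nil)) .nil)) .nil)) .nil)) (.cons 342 (.leaf 366 2166 (.cons 247 (.leaf 318 1974 (.cons 223 (.leaf 199 1596 (.leaf 320 1788 .nil)) .nil)) .nil)) .nil))) .nil)) (.cons 343 t166 (.cons 343 (.leaf 367 2173 (.cons 271 (.cons 246 (.leaf 270 1975 (.cons 247 (.leaf 222 1783 (.cons 223 (.leaf 199 1596 (.leaf 320 1788 .nil)) .nil)) .nil)) (.cons 270 (.leaf 246 1975 (.cons 269 (.leaf 268 2144 (.cons 293 (.leaf 292 2146 (.cons 245 (.leaf 244 1955 (.cons 342 (.leaf 366 2166 (.cons 318 (.leaf 294 1967 (.leaf 317 1964 .nil)) .nil)) .nil)) .nil)) .nil)) .nil)) (.cons 344 (.leaf 368 2172 (.cons 320 (.leaf 247 1980 (.cons 345 (.leaf 369 2180 (.cons 318 (.leaf 317 2536 (.leaf 346 2547 .nil)) .nil)) .nil)) .nil)) .nil)))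 .nil)) (.cons 343 t165 .nil))))))))
noncomputable def t170 : T := .cons 316 (.leaf 319 2337 (.leaf 315 2329 .nil)) (.cons 344 (.cons 320 (.leaf 249 1989 (.cons 271 (.leaf 247 1983 (.leaf 368 2175 .nil)) .nil)) (.cons 342 (.cons 343 (.leaf 345 2539 (.cons 319 (.leaf 367 2173 (.cons 366 (.leaf 271 2165 (.leaf 390 2357 .nil)) .nil)) .nil)) (.cons 271 (.leaf 366 2165 (.cons 247 (.leaf 223 1782 (.leaf 319 1974 .nil)) .nil)) (.cons 343 (.leaf 345 2539 (.cons 319 (.leaf 367 2173 (.cons 271 (.leaf 247 1974 (.leaf 368 2172 .nil)) .nil)) .nil)) (.cons 343 (.leaf 345 2539 (.cons 319 (.leaf 367 2173 (.cons 366 (.leaf 390 2357 (.cons 365 (.leaf 389 2350 (.cons 364 (.leaf 341 2722 (.leaf 363 2713 .nil)) .nil)) .nil)) .nil)) .nil)) (.cons 271 (.leaf 366 2165 (.cons 247 (.leaf 223 1782 (.leaf 270 1973 .nil)) .nil)) .nil))))) (.cons 320 (.leaf 249 1989 (.cons 345 (.leaf 369 2180 (.leaf 319 2536 .nil))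 .nil)) .nil))) (.cons 316 (.leaf 315 2329 (.cons 344 (.cons 320 (.leaf 249 1989 (.cons 271 (.leaf 247 1983 (.leaf 368 2175 .nil)) .nil)) (.cons 342 (.cons 343 (.leaf 345 2539 (.leaf 341 2531 .nil)) (.cons 271 (.leaf 366 2165 (.cons 247 (.leaf 223 1782 (.leaf 270 1973 .nil)) .nil)) .nil)) (.cons 320 (.leaf 249 1989 (.cons 343 (.leaf 367 2174 (.cons 342 (.leaf 345 2539 (.leaf 341 2531 .nil)) .nil)) .nil)) .nil))) .nil)) .nil))
noncomputable def t171 : T := .cons 317 (.leaf 297 2346 (.cons 316 (.leaf 319 2337 (.leaf 315 2329 .nil)) .nil)) (.cons 317 t170 (.cons 320 (.cons 344 (.leaf 249 1989 (.cons 271 (.leaf 247 1983 (.leaf 368 2175 .nil)) .nil)) (.cons 321 (.cons 322 (.leaf 297 2352 (.leaf 323 2363 .nil)) (.cons 319 (.cons 343 (.leaf 367 2173 (.cons 341 (.leaf 342 2538 (.cons 345 (.leaf 346 2544 (.cons 369 (.leaf 297 2183 (.leaf 393 2375 .nil)) .nil)) .nil)) .nil)) (.cons 342 (.leaf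 341 2538 (.cons 271 (.leaf 247 1974 (.leaf 366 2165 .nil)) .nil)) (.cons 343 (.leaf 367 2173 (.cons 345 (.leaf 346 2544 (.cons 369 (.leaf 297 2183 (.leaf 393 2375 .nil)) .nil)) .nil)) .nil))) (.cons 322 (.leaf 323 2363 (.leaf 319 2355 .nil)) .nil))) (.cons 249 (.leaf 344 1989 (.cons 225 (.leaf 201 1606 (.leaf 297 1798 .nil)) .nil)) .nil))) (.cons 297 (.leaf 317 2346 (.cons 321 (.leaf 322 2352 (.cons 345 (.leaf 369 2183 (.cons 344 (.leaf 368 2182 (.cons 249 (.leaf 320 1989 (.cons 225 (.leaf 201 1606 (.cons 226 (.leaf 202 1613 (.leaf 250 1805 .nil)) .nil)) .nil)) .nil)) .nil)) .nil)) .nil)) .nil)))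
noncomputable def t172 : T := .cons 273 (.leaf 274 2170 (.cons 294 (.leaf 293 2153 (.cons 318 t171 .nil)) .nil)) (.cons 319 t169 (.cons 273 (.leaf 274 2170 (.cons 271 t164 .nil)) (.cons 273 (.leaf 274 2170 (.cons 294 (.leaf 293 2153 (.cons 297 t163 .nil)) .nil)) (.cons 273 (.leaf 274 2170 (.cons 294 (.leaf 293 2153 (.cons 270 t162 .nil)) .nil)) (.cons 273 (.leaf 274 2170 (.cons 294 (.leaf 293 2153 (.cons 297 t161 .nil)) .nil)) (.cons 273 (.leaf 274 2170 (.cons 294 (.leaf 293 2153 (.cons 270 t160 .nil)) .nil)) (.cons 273 (.leaf 274 2170 (.cons 271 t159 .nil)) (.cons 273 (.leaf 274 2170 (.cons 294 (.leaf 293 2153 (.cons 318 t157 .nil)) .nil)) (.cons 273 (.leaf 274 2170 (.cons 294 (.leaf 293 2153 (.cons 297 t155 .nil)) .nil)) (.cons 273 (.leaf 274 2170 (.cons 294 (.leaf 293 2153 (.cons 297 (.cons 270 (.leaf 269 2155 (.cons 249 (.cons 271 (.leaf 250 1969 (.cons 246 (.leaf 245 1963 (.cons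 222 (.leaf 198 1588 (.leaf 319 1780 .nil)) .nil)) .nil)) (.cons 225 (.leaf 201 1606 (.leaf 320 1798 .nil)) .nil)) .nil)) (.cons 321 (.leaf 322 2352 (.cons 345 (.leaf 369 2183 (.cons 317 (.leaf 318 2346 (.cons 344 (.leaf 368 2182 (.cons 249 (.leaf 320 1989 (.cons 225 (.leaf 201 1606 (.cons 226 (.leaf 202 1613 (.leaf 250 1805 .nil)) .nil)) .nil)) .nil)) .nil)) .nil)) .nil)) (.cons 270 (.leaf 269 2155 (.cons 318 (.leaf 317 2346 (.cons 321 (.leaf 322 2352 (.cons 345 (.leaf 369 2183 (.cons 344 (.leaf 368 2182 (.cons 346 (.leaf 370 2188 (.cons 343 (.leaf 319 2547 (.cons 367 (.leaf 342 2164 (.leaf 366 2738 .nil)) .nil)) .nil)) .nil)) .nil)) .nil)) .nil)) .nil)) .nil))) .nil)) .nil)) (.cons 273 (.leaf 274 2170 (.cons 249 t154 .nil)) .nil)))))))))))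
noncomputable def t173 : T := .cons 199 (.leaf 223 1599 (.cons 200 (.leaf 175 1407 (.cons 201 (.leaf 177 1413 (.leaf 225 1605 .nil)) .nil)) .nil)) (.cons 225 (.leaf 201 1605 (.cons 249 (.leaf 320 1797 (.cons 295 (.leaf 319 1790 (.cons 200 (.leaf 271 1598 (.cons 175 (.leaf 199 1407 (.cons 176 (.leaf 151 1215 (.leaf 152 1220 .nil)) .nil)) .nil)) .nil)) .nil)) .nil)) (.cons 199 (.leaf 223 1599 (.cons 200 (.leaf 175 1407 (.cons 177 (.leaf 201 1413 (.cons 176 (.leaf 153 1221 (.cons 271 (.leaf 295 1598 (.leaf 247 1406 .nil)) .nil)) .nil)) .nil)) .nil)) (.cons 225 (.leaf 201 1605 (.cons 249 (.leaf 320 1797 (.cons 295 (.leaf 319 1790 (.cons 271 (.leaf 200 1598 (.cons 250 (.leaf 251 1978 (.cons 247 (.leaf 274 1976 (.leaf 270 1970 .nil)) .nil)) .nil)) .nil)) .nil)) .nil)) (.cons 199 (.leaf 223 1599 (.cons 200 (.leaf 175 1407 (.cons 271 (.leaf 295 1598 (.cons 247 (.leaf 176 1406 (.cons 320 (.leaf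 344 1983 (.cons 249 (.leaf 225 1797 (.cons 250 (.leaf 274 1976 (.leaf 251 1978 .nil)) .nil)) .nil)) .nil)) .nil)) .nil)) .nil)) (.cons 223 (.leaf 199 1599 (.cons 201 (.leaf 225 1605 (.cons 319 (.leaf 295 1790 (.cons 320 (.leaf 247 1791 (.leaf 343 1982 .nil)) .nil)) .nil)) .nil)) .nil)))))
noncomputable def t174 : T := .cons 224 (.cons 199 (.leaf 223 1599 (.cons 175 (.leaf 200 1407 (.cons 319 (.leaf 295 1790 (.cons 320 (.leaf 343 1982 (.cons 321 (.leaf 297 1796 (.leaf 345 1988 .nil)) .nil)) .nil)) .nil)) .nil)) (.cons 201 (.leaf 225 1605 (.cons 177 (.leaf 200 1413 (.cons 319 (.leaf 295 1790 (.cons 320 (.leaf 343 1982 (.cons 321 (.leaf 297 1796 (.leaf 345 1988 .nil)) .nil)) .nil)) .nil)) .nil)) (.cons 199 (.leaf 223 1599 (.cons 200 (.leaf 175 1407 (.cons 201 (.leaf 177 1413 (.leaf 225 1605 .nil)) .nil)) .nil)) (.cons 223 (.leaf 199 1599 (.cons 225 (.leaf 201 1605 (.cons 297 (.leaf 321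 1796 (.cons 222 (.cons 249 (.leaf 320 1797 (.leaf 221 1768 .nil)) (.cons 247 (.leaf 320 1791 (.cons 246 (.leaf 245 1769 (.leaf 226 1778 .nil)) .nil)) (.cons 249 (.leaf 221 1768 (.leaf 250 1776 .nil)) .nil))) .nil)) .nil)) .nil)) .nil)))) (.cons 320 (.cons 223 (.leaf 247 1791 (.cons 343 (.leaf 319 1982 (.cons 344 (.leaf 367 2174 (.cons 345 (.leaf 321 1988 (.leaf 369 2180 .nil)) .nil)) .nil)) .nil)) (.cons 225 (.leaf 249 1797 (.cons 343 (.leaf 319 1982 (.cons 344 (.leaf 367 2174 (.cons 345 (.leaf 321 1988 (.leaf 369 2180 .nil)) .nil)) .nil)) .nil)) (.cons 247 (.leaf 223 1791 (.cons 249 (.leaf 225 1797 (.cons 250 (.leaf 274 1976 (.cons 271 (.leaf 344 1983 (.leaf 251 1978 .nil)) .nil)) .nil)) .nil)) (.cons 247 (.leaf 223 1791 (.cons 249 (.leaf 225 1797 (.cons 250 (.leaf 274 1976 (.cons 271 (.leaf 251 1978 (.leaf 270 1970 .nil)) .nil)) .nil)) .nil)) .nil)))) (.cons 224 (.cons 295 (.leaf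 319 1790 (.cons 199 (.leaf 223 1599 (.cons 200 (.leaf 175 1407 (.leaf 271 1598 .nil)) .nil)) .nil)) (.cons 295 (.leaf 319 1790 (.cons 200 (.leaf 271 1598 (.cons 175 (.leaf 199 1407 (.cons 176 (.leaf 151 1215 (.cons 177 (.leaf 201 1413 (.leaf 153 1221 .nil)) .nil)) .nil)) .nil)) .nil)) (.cons 295 (.leaf 319 1790 (.cons 200 (.leaf 271 1598 (.cons 201 (.leaf 177 1413 (.leaf 225 1605 .nil)) .nil)) .nil)) (.cons 223 (.leaf 199 1599 (.cons 225 (.leaf 201 1605 (.cons 297 (.leaf 321 1796 (.cons 222 (.cons 249 (.leaf 221 1768 (.leaf 250 1776 .nil)) (.cons 246 (.leaf 245 1770 (.cons 197 (.leaf 198 1579 (.cons 226 (.leaf 247 1778 (.cons 202 (.leaf 203 1593 (.cons 251 (.leaf 250 1784 (.cons 227 (.leaf 299 1623 (.leaf 252 1792 .nil)) .nil)) .nil)) .nil)) .nil)) .nil)) (.cons 221 (.leaf 249 1768 (.cons 197 (.leaf 196 1571 (.leaf 198 1579 .nil)) .nil)) .nil))) .nil)) .nil)) .nil)) .nil)))) (.cons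 320 (.cons 225 (.leaf 249 1797 (.cons 201 (.leaf 224 1605 (.cons 343 (.leaf 319 1982 (.cons 344 (.leaf 367 2174 (.cons 345 (.leaf 321 1988 (.leaf 369 2180 .nil)) .nil)) .nil)) .nil)) .nil)) (.cons 225 (.leaf 249 1797 (.cons 201 (.leaf 224 1605 (.cons 345 (.leaf 321 1988 (.cons 344 (.leaf 369 2180 (.cons 367 (.leaf 343 2174 (.cons 271 (.leaf 247 1983 (.cons 368 (.leaf 295 2175 (.leaf 391 2366 .nil)) .nil)) .nil)) .nil)) .nil)) .nil)) .nil)) (.cons 225 (.leaf 249 1797 (.cons 224 (.leaf 201 1605 (.cons 295 (.leaf 319 1790 (.cons 271 (.leaf 200 1598 (.cons 344 (.leaf 247 1983 (.leaf 368 2175 .nil)) .nil)) .nil)) .nil)) .nil)) (.cons 319 (.leaf 343 1982 (.cons 224 (.leaf 295 1790 (.cons 321 (.leaf 297 1796 (.leaf 345 1988 .nil)) .nil)) .nil)) (.cons 343 (.leaf 319 1982 (.cons 344 (.leaf 367 2174 (.cons 345 (.leaf 321 1988 (.leaf 369 2180 .nil)) .nil)) .nil)) .nil))))) (.cons 224 (.cons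 199 (.leaf 223 1599 (.cons 175 (.leaf 200 1407 (.cons 319 (.leaf 295 1790 (.cons 320 (.leaf 343 1982 (.cons 321 (.leaf 297 1796 (.leaf 345 1988 .nil)) .nil)) .nil)) .nil)) .nil)) (.cons 199 (.leaf 223 1599 (.cons 200 (.leaf 175 1407 (.cons 201 (.leaf 177 1413 (.leaf 225 1605 .nil)) .nil)) .nil)) (.cons 225 (.leaf 201 1605 (.cons 320 (.leaf 249 1797 (.cons 321 (.leaf 297 1796 (.leaf 345 1988 .nil)) .nil)) .nil)) .nil))) (.cons 224 (.cons 199 (.leaf 223 1599 (.cons 200 (.leaf 175 1407 (.cons 201 (.leaf 177 1413 (.leaf 225 1605 .nil)) .nil)) .nil)) (.cons 225 (.leaf 201 1605 (.cons 320 (.leaf 249 1797 (.cons 321 (.leaf 297 1796 (.leaf 345 1988 .nil)) .nil)) .nil)) (.cons 199 (.leaf 223 1599 (.cons 200 (.leaf 175 1407 (.cons 177 (.leaf 201 1413 (.cons 176 (.leaf 153 1221 (.cons 271 (.leaf 295 1598 (.leaf 247 1406 .nil)) .nil)) .nil)) .nil)) .nil)) (.cons 199 (.leaf 223 1599 (.cons 200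 (.leaf 175 1407 (.cons 271 (.leaf 295 1598 (.cons 247 (.leaf 176 1406 (.cons 320 (.leaf 344 1983 (.cons 321 (.leaf 297 1796 (.leaf 345 1988 .nil)) .nil)) .nil)) .nil)) .nil)) .nil)) .nil)))) (.cons 320 (.cons 223 (.leaf 247 1791 (.cons 224 (.leaf 199 1599 (.cons 321 (.leaf 297 1796 (.leaf 345 1988 .nil)) .nil)) .nil)) (.cons 343 (.leaf 319 1982 (.cons 344 (.leaf 367 2174 (.cons 345 (.leaf 321 1988 (.leaf 369 2180 .nil)) .nil)) .nil)) (.cons 223 (.leaf 247 1791 (.cons 224 (.leaf 199 1599 (.cons 319 (.leaf 295 1790 (.leaf 343 1982 .nil)) .nil)) .nil)) .nil))) (.cons 224 t173 .nil)))))))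
noncomputable def t175 : T := .cons 247 (.leaf 248 1979 (.cons 251 (.leaf 252 1985 (.cons 271 (.leaf 246 1971 (.leaf 250 1977 .nil)) .nil)) .nil)) (.cons 251 (.leaf 252 1985 (.cons 250 (.leaf 271 1977 (.cons 299 (.leaf 300 2176 (.cons 226 (.leaf 202 1620 (.leaf 323 1815 .nil)) .nil)) .nil)) .nil)) (.cons 248 (.leaf 247 1979 (.cons 299 (.leaf 300 2176 (.cons 224 (.cons 199 (.leaf 223 1599 (.cons 225 (.leaf 201 1605 (.cons 320 (.leaf 249 1797 (.cons 343 (.leaf 319 1982 (.cons 344 (.leaf 367 2174 (.cons 368 (.leaf 297 2181 (.cons 369 (.leaf 345 2180 (.leaf 393 2372 .nil)) .nil)) .nil)) .nil)) .nil)) .nil)) .nil)) (.cons 225 (.leaf 201 1605 (.cons 320 (.leaf 249 1797 (.cons 321 (.leaf 345 1988 (.cons 343 (.leaf 319 1982 (.cons 344 (.leaf 367 2174 (.cons 323 (.leaf 322 2554 (.cons 347 (.leaf 250 2007 (.cons 370 (.leaf 346 2198 (.cons 371 (.leaf 394 2390 (.cons 372 (.leaf 348 2204 (.leaf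 396 2396 .nil)) .nil)) .nil)) .nil)) .nil)) .nil)) .nil)) .nil)) .nil)) .nil)) (.cons 297 (.leaf 200 1604 (.leaf 321 1796 .nil)) .nil))) .nil)) .nil)) (.cons 248 (.leaf 247 1979 (.cons 299 (.leaf 300 2176 (.cons 224 (.cons 297 (.leaf 200 1604 (.leaf 321 1796 .nil)) (.cons 225 (.leaf 201 1605 (.cons 199 (.leaf 223 1599 (.cons 200 (.leaf 175 1407 (.cons 249 (.leaf 320 1797 (.leaf 176 1412 .nil)) .nil)) .nil)) .nil)) (.cons 225 (.leaf 201 1605 (.cons 199 (.leaf 223 1599 (.cons 320 (.leaf 249 1797 (.cons 343 (.leaf 319 1982 (.cons 344 (.leaf 367 2174 (.cons 368 (.leaf 297 2181 (.cons 369 (.leaf 345 2180 (.leaf 393 2372 .nil)) .nil)) .nil)) .nil)) .nil)) .nil)) .nil)) .nil))) .nil)) .nil)) .nil)))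
noncomputable def t176 : T := .cons 344 (.leaf 249 1989 (.cons 247 (.leaf 271 1983 (.cons 223 (.leaf 248 1791 (.cons 368 (.leaf 297 2181 (.cons 391 (.leaf 367 2366 (.cons 392 (.leaf 415 2558 (.cons 393 (.leaf 369 2372 (.leaf 417 2564 .nil)) .nil)) .nil)) .nil)) .nil)) .nil)) .nil)) (.cons 248 (.cons 223 (.leaf 247 1791 (.cons 224 (.leaf 199 1599 (.cons 297 (.leaf 200 1604 (.leaf 321 1796 .nil)) .nil)) .nil)) (.cons 223 (.leaf 247 1791 (.cons 224 (.leaf 199 1599 (.cons 225 (.leaf 201 1605 (.leaf 249 1797 .nil)) .nil)) .nil)) (.cons 247 (.leaf 223 1791 (.cons 246 (.leaf 245 1960 (.cons 249 (.leaf 225 1797 (.cons 222 (.leaf 221 1771 (.cons 269 (.leaf 270 1962 (.cons 321 (.leaf 345 1988 (.cons 319 (.leaf 343 1982 (.cons 271 (.leaf 295 1783 (.cons 250 (.leaf 251 1978 (.cons 226 (.leaf 297 1805 (.leaf 227 1785 .nil)) .nil)) .nil)) .nil)) .nil)) .nil)) .nil)) .nil)) .nil)) .nil)) (.cons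 249 (.leaf 225 1797 (.cons 321 (.leaf 345 1988 (.cons 224 (.leaf 297 1796 (.cons 200 (.leaf 176 1412 (.cons 175 (.leaf 199 1407 (.cons 177 (.leaf 201 1413 (.cons 271 (.leaf 295 1598 (.cons 250 (.leaf 251 1978 (.leaf 270 1969 .nil)) .nil)) .nil)) .nil)) .nil)) .nil)) .nil)) .nil)) .nil)))) (.cons 344 (.cons 247 (.leaf 271 1983 (.cons 223 (.leaf 248 1791 (.cons 368 (.leaf 297 2181 (.cons 391 (.leaf 367 2366 (.cons 392 (.leaf 415 2558 (.cons 393 (.leaf 369 2372 (.leaf 417 2564 .nil)) .nil)) .nil)) .nil)) .nil)) .nil)) (.cons 345 (.leaf 369 2180 (.cons 247 (.leaf 271 1983 (.cons 248 (.leaf 223 1791 (.leaf 321 1988 .nil)) .nil)) .nil)) (.cons 297 (.leaf 368 2181 (.cons 345 (.leaf 369 2180 (.cons 248 (.leaf 321 1988 (.cons 223 (.leaf 247 1791 (.cons 224 (.leaf 199 1599 (.leaf 200 1604 .nil)) .nil)) .nil)) .nil)) .nil)) (.cons 297 (.leaf 368 2181 (.cons 345 (.leaf 369 2180 (.cons 321 (.leaf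 248 1988 (.cons 346 (.leaf 370 2188 (.cons 319 (.leaf 318 2544 (.leaf 347 2555 .nil)) .nil)) .nil)) .nil)) .nil)) (.cons 368 (.leaf 297 2181 (.cons 271 (.leaf 247 1983 (.leaf 295 2175 .nil)) .nil)) .nil))))) (.cons 344 (.leaf 249 1989 (.cons 368 (.leaf 297 2181 (.cons 271 (.leaf 247 1983 (.leaf 295 2175 .nil)) .nil)) .nil)) (.cons 344 (.leaf 249 1989 (.cons 345 (.leaf 369 2180 (.cons 247 (.leaf 271 1983 (.cons 248 (.leaf 223 1791 (.leaf 321 1988 .nil)) .nil)) .nil)) .nil)) (.cons 344 (.leaf 249 1989 (.cons 297 (.leaf 368 2181 (.cons 345 (.leaf 369 2180 (.cons 248 (.leaf 321 1988 (.cons 223 (.leaf 247 1791 (.cons 224 (.leaf 199 1599 (.leaf 200 1604 .nil)) .nil)) .nil)) .nil)) .nil)) .nil)) (.cons 344 (.leaf 249 1989 (.cons 297 (.leaf 368 2181 (.cons 345 (.leaf 369 2180 (.cons 321 (.leaf 248 1988 (.cons 346 (.leaf 370 2188 (.cons 319 (.leaf 318 2544 (.leaf 347 2555 .nil)) .nil)) .nil))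 .nil)) .nil)) .nil)) .nil))))))
noncomputable def t177 : T := .cons 274 (.leaf 295 2170 (.cons 247 (.leaf 248 1979 (.cons 251 (.leaf 252 1985 (.cons 271 (.leaf 246 1971 (.leaf 250 1977 .nil)) .nil)) .nil)) .nil)) (.cons 320 t176 (.cons 274 t175 (.cons 274 (.leaf 295 2170 (.cons 251 (.leaf 252 1985 (.cons 250 (.leaf 271 1977 (.cons 299 (.leaf 300 2176 (.cons 226 (.leaf 202 1620 (.leaf 323 1815 .nil)) .nil)) .nil)) .nil)) .nil)) (.cons 274 (.leaf 295 2170 (.cons 248 (.leaf 247 1979 (.cons 299 (.leaf 300 2176 (.cons 224 (.cons 225 (.leaf 201 1605 (.cons 320 (.leaf 249 1797 (.cons 321 (.leaf 297 1796 (.leaf 345 1988 .nil)) .nil)) .nil)) (.cons 225 (.leaf 201 1605 (.cons 320 (.leaf 249 1797 (.cons 321 (.leaf 345 1988 (.cons 343 (.leaf 319 1982 (.cons 344 (.leaf 367 2174 (.cons 323 (.leaf 322 2554 (.cons 347 (.leaf 250 2007 (.cons 370 (.leaf 346 2198 (.cons 371 (.leaf 394 2390 (.cons 372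 (.leaf 348 2204 (.leaf 396 2396 .nil)) .nil)) .nil)) .nil)) .nil)) .nil)) .nil)) .nil)) .nil)) .nil)) (.cons 297 (.leaf 200 1604 (.leaf 321 1796 .nil)) (.cons 200 (.leaf 297 1604 (.cons 199 (.leaf 175 1407 (.leaf 223 1599 .nil)) .nil)) .nil)))) .nil)) .nil)) .nil)) (.cons 274 (.leaf 295 2170 (.cons 248 (.leaf 247 1979 (.cons 299 (.leaf 300 2176 (.cons 224 (.cons 200 (.leaf 297 1604 (.cons 199 (.leaf 175 1407 (.leaf 223 1599 .nil)) .nil)) (.cons 225 (.leaf 201 1605 (.cons 199 (.leaf 223 1599 (.cons 200 (.leaf 175 1407 (.cons 249 (.leaf 320 1797 (.leaf 176 1412 .nil)) .nil)) .nil)) .nil)) (.cons 225 (.leaf 201 1605 (.cons 199 (.leaf 223 1599 (.cons 320 (.leaf 249 1797 (.cons 343 (.leaf 319 1982 (.cons 344 (.leaf 367 2174 (.cons 368 (.leaf 297 2181 (.cons 369 (.leaf 345 2180 (.leaf 393 2372 .nil)) .nil)) .nil)) .nil)) .nil)) .nil)) .nil)) (.cons 297 (.leaf 200 1604 (.leaf 321 1796 .nil))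 .nil)))) .nil)) .nil)) .nil)) .nil)))))
noncomputable def top0 : T := .cons 273 t56 (.cons 227 t55 t2)
noncomputable def top1 : T := .cons 273 t177 (.cons 248 (t174) (.cons 295 t172 (.cons 248 t150 (.cons 224 (.cons 248 (.cons 223 (.leaf 199 1599 (.cons 295 (.leaf 319 1790 (.cons 225 (.leaf 201 1605 (.cons 297 (.leaf 321 1796 (.cons 273 (.leaf 274 2170 (.leaf 200 1604 .nil)) .nil)) .nil)) .nil)) .nil)) (.cons 201 (.leaf 225 1605 (.cons 200 (.leaf 177 1413 (.cons 297 (.leaf 273 1604 (.leaf 321 1796 .nil)) .nil)) .nil)) (.cons 295 (.leaf 319 1790 (.cons 199 (.leaf 223 1599 (.cons 200 (.leaf 175 1407 (.leaf 271 1598 .nil)) .nil)) .nil)) (.cons 223 (.leaf 199 1599 (.cons 295 (.leaf 319 1790 (.cons 225 (.leaf 201 1605 (.cons 297 (.leaf 321 1796 (.cons 273 (.leaf 274 2170 (.cons 294 (.leaf 293 2153 (.cons 270 (.leaf 269 2155 (.cons 318 (.leaf 317 2346 (.cons 246 (.leaf 247 1781 (.cons 245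 (.leaf 271 1963 (.leaf 222 1770 .nil)) .nil)) .nil)) .nil)) .nil)) .nil)) .nil)) .nil)) .nil)) .nil)) .nil)))) (.cons 225 t147 t122)) (.cons 248 t117 (.cons 273 t114 (.cons 248 (.cons 224 (.cons 199 (.leaf 223 1599 (.cons 295 (.leaf 319 1790 (.cons 273 (.leaf 274 2170 (.cons 200 (.leaf 175 1407 (.leaf 271 1598 .nil)) .nil)) .nil)) .nil)) (.cons 225 (.leaf 201 1605 (.cons 199 (.leaf 223 1599 (.cons 320 (.leaf 249 1797 (.cons 321 (.leaf 297 1796 (.leaf 345 1988 .nil)) .nil)) .nil)) .nil)) (.cons 295 (.leaf 319 1790 (.cons 200 (.leaf 271 1598 (.cons 297 (.leaf 273 1604 (.leaf 321 1796 .nil)) .nil)) .nil)) .nil))) t111) (.cons 320 (.cons 344 (.cons 249 (.leaf 273 1989 (.cons 248 (.leaf 225 1797 (.cons 345 (.leaf 321 1988 (.leaf 369 2180 .nil)) .nil)) .nil)) (.cons 247 (.leaf 271 1983 (.cons 223 (.leaf 248 1791 (.cons 367 (.leaf 343 2174 (.cons 368 (.leaf 391 2366 (.cons 369 (.leaf 345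 2180 (.leaf 393 2372 .nil)) .nil)) .nil)) .nil)) .nil)) (.cons 247 (.leaf 271 1983 (.cons 223 (.leaf 248 1791 (.cons 273 (.leaf 249 1989 (.cons 295 (.leaf 274 2170 (.cons 293 (.leaf 294 2153 (.cons 368 (.leaf 297 2181 (.cons 391 (.leaf 367 2366 (.cons 392 (.leaf 319 2367 (.leaf 415 2558 .nil)) .nil)) .nil)) .nil)) .nil)) .nil)) .nil)) .nil)) (.cons 247 (.leaf 271 1983 (.cons 273 (.leaf 249 1989 (.cons 274 (.leaf 295 2170 (.cons 251 (.leaf 252 1985 (.cons 297 (.leaf 368 2181 (.cons 299 (.leaf 300 2176 (.cons 345 (.leaf 369 2180 (.cons 250 (.leaf 321 1997 (.cons 226 (.leaf 202 1620 (.leaf 323 1815 .nil)) .nil)) .nil)) .nil)) .nil)) .nil)) .nil)) .nil)) .nil)) .nil)))) (.cons 248 t107 t109)) (.cons 248 t108 (.cons 248 t104 (.cons 273 t100 (.cons 273 t98 (.cons 273 t94 (.cons 248 t92 (.cons 273 t88 (.cons 248 (.cons 224 t85 t84) (.cons 273 t80 (.cons 273 t78 (.cons 248 t75 (.cons 248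 t67 (.cons 248 (t61) .nil)))))))))))))))))))))

end Vale.Agent.P062.PB.N5D7
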