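import Vale.Agent.P062.Checker

namespace Vale.Agent.P062.PB.N5D9

open Vale.Agent.P062

noncomputable def t0 : T := .cons 204 (.leaf 180 1438 (.cons 227 (.leaf 299 1629 (.cons 203 (.leaf 298 1622 (.cons 155 (.leaf 179 1244 (.cons 202 (.leaf 178 1431 (.cons 201 (.leaf 200 1600 (.leaf 229 1608 .nil)) .nil)) .nil)) .nil)) .nil)) .nil)) (.cons 204 (.leaf 180 1438 (.cons 229 (.cons 230 (.leaf 231 1818 (.cons 250 (.leaf 227 1810 (.leaf 249 1801 .nil)) .nil)) (.cons 250 (.leaf 249 1801 (.cons 253 (.leaf 254 2002 (.cons 277 (.leaf 278 2000 (.leaf 301 1639 .nil)) .nil)) .nil)) (.cons 230 (.leaf 231 1818 (.cons 254 (.leaf 253 2002 (.cons 227 (.leaf 255 1816 (.cons 203 (.leaf 298 1622 (.leaf 202 1619 .nil)) .nil)) .nil)) .nil)) .nil))) .nil)) (.cons 253 (.leaf 254 2002 (.cons 299 (.leaf 323 1821 (.cons 277 (.cons 250 (.leaf 278 2000 (.cons 229 (.leaf 249 1801 (.leaf 230 1809 .nil)) .nil)) (.cons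 301 (.leaf 325 1831 (.cons 300 (.leaf 302 2195 (.cons 298 (.leaf 278 2193 (.cons 322 (.leaf 227 1814 (.leaf 346 2005 .nil)) .nil)) .nil)) .nil)) (.cons 301 (.leaf 325 1831 (.cons 302 (.leaf 300 2195 (.cons 229 (.leaf 326 1836 (.cons 230 (.leaf 231 1818 (.leaf 250 1809 .nil)) .nil)) .nil)) .nil)) .nil))) .nil)) .nil)) (.cons 253 (.leaf 254 2002 (.cons 204 (.leaf 180 1438 (.cons 299 (.leaf 323 1821 (.cons 277 (.cons 301 (.leaf 325 1831 (.leaf 229 1639 .nil)) (.cons 250 (.leaf 278 2000 (.cons 229 (.leaf 249 1801 (.leaf 230 1809 .nil)) .nil)) (.cons 278 (.leaf 250 2000 (.cons 279 (.leaf 280 2019 (.cons 301 (.leaf 325 1831 (.cons 300 (.leaf 302 2201 (.leaf 298 2193 .nil)) .nil)) .nil)) .nil)) .nil))) .nil)) .nil)) .nil)) (.cons 299 (.leaf 323 1821 (.cons 204 (.leaf 180 1438 (.leaf 227 1629 .nil)) .nil)) .nil))))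
noncomputable def t1 : T := .cons 321 (.leaf 345 1988 (.cons 224 (.leaf 297 1796 (.cons 319 (.leaf 295 1790 (.leaf 343 1982 .nil)) .nil)) .nil)) (.cons 319 (.leaf 343 1982 (.cons 223 (.leaf 247 1791 (.cons 224 (.leaf 295 1790 (.cons 200 (.leaf 297 1604 (.leaf 176 1412 .nil)) .nil)) .nil)) .nil)) (.cons 321 (.leaf 345 1988 (.cons 297 (.leaf 224 1796 (.cons 247 (.leaf 223 1791 (.cons 246 (.leaf 245 1960 (.cons 221 (.leaf 222 1771 (.cons 270 (.leaf 269 1962 (.cons 271 (.leaf 298 2160 (.cons 294 (.leaf 293 2154 (.cons 322 (.leaf 346 1996 (.leaf 295 2352 .nil)) .nil)) .nil)) .nil)) .nil)) .nil)) .nil)) .nil)) .nil)) (.cons 321 (.leaf 345 1988 (.cons 247 (.leaf 223 1791 (.cons 246 (.leaf 245 1960 (.cons 222 (.leaf 221 1771 (.cons 319 (.leaf 343 1982 (.cons 270 (.leaf 269 1962 (.cons 295 (.leaf 224 1790 (.leaf 271 1783 .nil)) .nil)) .nil)) .nil)) .nil)) .nil)) .nil)) (.cons 321 (.leaf 345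 1988 (.cons 247 (.leaf 223 1791 (.cons 246 (.leaf 245 1960 (.cons 222 (.leaf 221 1771 (.cons 319 (.leaf 343 1982 (.cons 270 (.leaf 269 1962 (.cons 295 (.leaf 271 1783 (.leaf 294 1780 .nil)) .nil)) .nil)) .nil)) .nil)) .nil)) .nil)) (.cons 321 (.leaf 345 1988 (.cons 297 (.leaf 224 1796 (.cons 223 (.leaf 247 1791 (.cons 319 (.leaf 343 1982 (.cons 298 (.leaf 299 2362 (.leaf 318 2353 .nil)) .nil)) .nil)) .nil)) .nil)) .nil)))))
noncomputable def t2 : T := .cons 227 (.cons 204 (.leaf 228 1629 (.cons 180 (.leaf 203 1437 (.cons 298 (.leaf 322 1814 (.cons 297 (.leaf 300 2179 (.cons 271 (.leaf 270 2160 (.leaf 296 2171 .nil)) .nil)) .nil)) .nil)) .nil)) (.cons 202 (.leaf 226 1623 (.cons 178 (.leaf 203 1431 (.cons 298 (.leaf 322 1814 (.cons 297 (.leaf 300 2179 (.cons 271 (.leaf 270 2160 (.leaf 296 2171 .nil)) .nil)) .nil)) .nil)) .nil)) (.cons 228 (.leaf 204 1629 (.leaf 323 1821 .nil)) .nil)))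 (.cons 298 (.cons 297 (.leaf 300 2179 (.cons 271 (.leaf 270 2160 (.leaf 296 2171 .nil)) .nil)) (.cons 322 (.leaf 227 1814 (.cons 346 (.leaf 323 2006 (.leaf 370 2197 .nil)) .nil)) .nil)) (.cons 227 (.cons 204 (.leaf 228 1629 (.cons 180 (.leaf 203 1437 (.cons 298 (.leaf 322 1814 (.cons 297 (.leaf 300 2179 (.cons 271 (.leaf 270 2160 (.leaf 296 2171 .nil)) .nil)) .nil)) .nil)) .nil)) (.cons 226 (.leaf 202 1623 (.cons 224 (.leaf 225 1792 (.cons 253 (.leaf 254 1811 (.cons 298 (.leaf 322 1814 (.cons 297 (.leaf 300 2179 (.cons 271 (.leaf 270 2160 (.leaf 296 2171 .nil)) .nil)) .nil)) .nil)) .nil)) .nil)) (.cons 202 (.leaf 226 1623 (.cons 203 (.leaf 178 1431 (.cons 204 (.leaf 180 1437 (.leaf 228 1629 .nil)) .nil)) .nil)) .nil))) (.cons 323 (.leaf 228 1821 (.cons 347 (.cons 322 (.leaf 346 2006 (.cons 372 (.leaf 348 2204 (.cons 371 (.leaf 396 2396 (.cons 298 (.leaf 395 2391 (.cons 297 (.leaf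 300 2179 (.cons 271 (.leaf 270 2160 (.leaf 296 2171 .nil)) .nil)) .nil)) .nil)) .nil)) .nil)) (.cons 372 (.leaf 348 2204 (.cons 371 (.leaf 396 2396 (.cons 394 (.leaf 370 2390 (.cons 395 (.leaf 418 2582 (.cons 298 (.leaf 322 2391 (.cons 297 (.leaf 300 2179 (.cons 271 (.leaf 270 2160 (.leaf 296 2171 .nil)) .nil)) .nil)) .nil)) .nil)) .nil)) .nil)) (.cons 370 (.leaf 346 2198 (.cons 371 (.leaf 394 2390 (.cons 372 (.leaf 348 2204 (.leaf 396 2396 .nil)) .nil)) .nil)) (.cons 346 (.leaf 322 2006 (.leaf 370 2198 .nil)) .nil)))) .nil)) (.cons 228 (.leaf 323 1821 (.cons 204 (.leaf 180 1438 (.leaf 227 1629 .nil)) .nil)) .nil))))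
noncomputable def t3 : T := .cons 254 (.leaf 274 2002 (.cons 231 (.leaf 230 1817 (.cons 255 (.leaf 232 1825 (.cons 279 (.leaf 278 2008 (.leaf 280 2016 .nil)) .nil)) .nil)) .nil)) (.cons 250 (.cons 226 (.leaf 225 1803 (.cons 202 (.leaf 178 1428 (.cons 227 (.leaf 299 1623 (.cons 229 (.leaf 230 1809 (.cons 228 (.leaf 249 1801 (.leaf 201 1611 .nil)) .nil)) .nil)) .nil)) .nil)) (.cons 229 (.leaf 230 1809 (.cons 228 (.leaf 249 1801 (.cons 204 (.leaf 180 1438 (.cons 277 (.leaf 278 2000 (.leaf 301 1639 .nil)) .nil)) .nil)) .nil)) (.cons 226 (.leaf 225 1803 (.cons 202 (.leaf 178 1428 (.cons 299 (.leaf 227 1623 (.leaf 274 1620 .nil)) .nil)) .nil)) .nil))) (.cons 250 (.cons 229 (.leaf 230 1809 (.cons 228 (.leaf 249 1801 (.cons 204 (.leaf 180 1438 (.cons 277 (.leaf 278 2000 (.leaf 301 1639 .nil)) .nil)) .nil)) .nil)) (.cons 226 (.leaf 225 1803 (.cons 178 (.leaf 202 1428 (.cons 254 (.leaf 227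 1811 (.cons 278 (.leaf 277 2000 (.leaf 279 2008 .nil)) .nil)) .nil)) .nil)) (.cons 226 (.leaf 225 1803 (.cons 202 (.leaf 178 1428 (.cons 227 (.leaf 299 1623 (.leaf 254 1811 .nil)) .nil)) .nil)) .nil))) (.cons 254 (.leaf 274 2002 (.cons 227 (.leaf 226 1811 (.cons 228 (.leaf 255 1819 (.cons 204 (.leaf 180 1438 (.leaf 299 1629 .nil)) .nil)) .nil)) .nil)) .nil)))
noncomputable def t4 : T := .cons 274 (.leaf 273 1985 (.cons 253 (.leaf 254 2002 (.cons 250 (.cons 225 (.leaf 226 1803 (.cons 229 (.leaf 230 1809 (.cons 249 (.leaf 224 1795 (.leaf 228 1801 .nil)) .nil)) .nil)) (.cons 229 (.leaf 230 1809 (.cons 228 (.leaf 249 1801 (.cons 204 (.leaf 180 1438 (.cons 277 (.leaf 278 2000 (.leaf 301 1639 .nil)) .nil)) .nil)) .nil)) (.cons 225 (.leaf 226 1803 (.cons 249 (.leaf 224 1795 (.cons 248 (.leaf 247 1976 (.leaf 271 1978 .nil)) .nil)) .nil)) (.cons 226 (.leaf 225 1803 (.cons 202 (.leaf 178 1428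 (.leaf 299 1620 .nil)) .nil)) .nil)))) .nil)) .nil)) (.cons 250 (.cons 249 (.leaf 273 1986 (.cons 224 (.leaf 225 1795 (.cons 228 (.leaf 229 1801 (.cons 204 (.leaf 180 1438 (.cons 248 (.leaf 271 1978 (.leaf 223 1787 .nil)) .nil)) .nil)) .nil)) .nil)) (.cons 226 (.cons 202 (.leaf 178 1428 (.cons 225 (.leaf 253 1803 (.cons 224 (.leaf 223 1784 (.leaf 227 1792 .nil)) .nil)) .nil)) (.cons 202 (.leaf 178 1428 (.cons 299 (.leaf 227 1623 (.leaf 323 1815 .nil)) .nil)) (.cons 225 (.leaf 253 1803 (.cons 224 (.leaf 223 1784 (.leaf 227 1792 .nil)) .nil)) (.cons 178 (.leaf 202 1428 (.cons 253 (.leaf 225 1803 (.cons 230 (.leaf 229 1809 (.cons 254 (.leaf 231 1817 (.cons 278 (.leaf 277 2000 (.leaf 279 2008 .nil)) .nil)) .nil)) .nil)) .nil)) .nil)))) (.cons 249 (.leaf 273 1986 (.cons 228 (.leaf 229 1801 (.cons 248 (.leaf 271 1978 (.leaf 227 1793 .nil)) .nil)) .nil)) (.cons 249 (.leaf 273 1986 (.cons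 224 (.leaf 225 1795 (.cons 248 (.leaf 271 1978 (.leaf 223 1787 .nil)) .nil)) .nil)) .nil)))) (.cons 253 t3 (.cons 273 (.leaf 274 1985 (.cons 299 t2 .nil)) (.cons 273 (.leaf 274 1985 (.cons 250 (.leaf 249 1986 (.cons 226 (.cons 225 (.leaf 253 1803 (.cons 224 (.leaf 223 1784 (.leaf 227 1792 .nil)) .nil)) (.cons 202 (.leaf 178 1428 (.cons 299 (.leaf 227 1623 (.leaf 323 1815 .nil)) .nil)) (.cons 178 (.leaf 202 1428 (.cons 253 (.leaf 225 1803 (.cons 230 (.leaf 229 1809 (.cons 254 (.leaf 231 1817 (.cons 278 (.leaf 277 2000 (.leaf 279 2008 .nil)) .nil)) .nil)) .nil)) .nil)) .nil))) .nil)) .nil)) (.cons 273 (.leaf 274 1985 (.cons 249 (.leaf 250 1986 (.cons 296 (.cons 225 (.leaf 201 1606 (.cons 320 (.leaf 248 1797 (.leaf 344 1989 .nil)) .nil)) (.cons 225 (.leaf 201 1606 (.cons 297 (.cons 224 (.leaf 200 1607 (.cons 321 (.leaf 248 1796 (.cons 345 (.leaf 369 2183 (.cons 346 (.leaf 322 1996 (.leaf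 370 2188 .nil)) .nil)) .nil)) .nil)) (.cons 298 (.leaf 322 1804 (.cons 271 (.leaf 270 2160 (.leaf 299 2171 .nil)) .nil)) (.cons 224 (.leaf 200 1607 (.cons 248 (.leaf 321 1796 (.cons 295 (.leaf 319 1790 (.cons 294 (.leaf 293 2153 (.cons 270 (.leaf 269 2155 (.cons 271 (.leaf 298 2160 (.cons 246 (.leaf 245 1963 (.cons 222 (.leaf 198 1588 (.cons 221 (.leaf 223 1768 (.leaf 247 1771 .nil)) .nil)) .nil)) .nil)) .nil)) .nil)) .nil)) .nil)) .nil)) .nil))) .nil)) (.cons 320 (.leaf 344 1989 (.cons 248 t1 .nil)) (.cons 320 (.leaf 344 1989 (.cons 225 (.leaf 201 1606 (.leaf 297 1798 .nil)) .nil)) .nil)))) .nil)) .nil)) (.cons 274 (.leaf 273 1985 (.cons 253 (.leaf 254 2002 (.cons 250 (.cons 225 (.leaf 226 1803 (.cons 229 (.leaf 230 1809 (.cons 249 (.leaf 224 1795 (.leaf 228 1801 .nil)) .nil)) .nil)) (.cons 229 (.leaf 230 1809 (.cons 228 (.leaf 249 1801 (.cons 204 (.leaf 180 1438 (.cons 277 (.leaf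 278 2000 (.leaf 301 1639 .nil)) .nil)) .nil)) .nil)) (.cons 225 (.leaf 226 1803 (.cons 249 (.leaf 224 1795 (.cons 248 (.leaf 247 1976 (.leaf 271 1978 .nil)) .nil)) .nil)) (.cons 226 (.leaf 225 1803 (.cons 202 (.leaf 178 1428 (.cons 177 (.leaf 201 1423 (.cons 203 (.leaf 179 1429 (.cons 227 (.leaf 298 1621 (.cons 204 (.leaf 180 1437 (.cons 205 (.leaf 206 1618 (.cons 229 (.leaf 230 1616 (.cons 181 (.leaf 182 1425 (.cons 228 (.leaf 157 1254 (.cons 277 (.leaf 278 2000 (.leaf 301 1639 .nil)) .nil)) .nil)) .nil)) .nil)) .nil)) .nil)) .nil)) .nil)) .nil)) .nil)) .nil)))) .nil)) .nil)) (.cons 274 (.leaf 273 1985 (.cons 228 t0 .nil)) .nil)))))))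
noncomputable def t5 : T := .cons 203 (.leaf 298 1622 (.cons 178 (.leaf 202 1431 (.cons 204 (.leaf 180 1437 (.cons 179 (.leaf 154 1239 (.leaf 250 1430 .nil)) .nil)) .nil)) .nil)) (.cons 299 (.cons 226 (.leaf 202 1623 (.cons 228 (.leaf 204 1629 (.cons 298 (.leaf 322 1814 (.cons 300 (.leaf 324 1820 (.cons 301 (.leaf 302 2195 (.cons 277 (.leaf 278 2193 (.cons 325 (.leaf 326 2384 (.cons 253 (.leaf 252 1831 (.cons 254 (.leaf 229 1808 (.leaf 230 1837 .nil)) .nil)) .nil)) .nil)) .nil)) .nil)) .nil)) .nil)) .nil)) (.cons 228 (.leaf 204 1629 (.cons 298 (.leaf 322 1814 (.cons 300 (.leaf 324 1820 (.cons 252 (.leaf 323 1821 (.cons 253 (.leaf 254 2002 (.cons 301 (.leaf 302 2195 (.cons 277 (.leaf 278 2193 (.leaf 325 1831 .nil)) .nil)) .nil)) .nil)) .nil)) .nil)) .nil)) (.cons 226 (.leaf 202 1623 (.cons 250 (.leaf 323 1815 (.cons 298 (.leaf 322 1813 (.cons 225 (.leaf 201 1615 (.cons 252 (.leaf 224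 1792 (.leaf 253 1803 .nil)) .nil)) .nil)) .nil)) .nil)) (.cons 226 (.leaf 202 1623 (.cons 204 (.leaf 228 1629 (.cons 323 (.leaf 250 1815 (.cons 324 (.leaf 300 1820 (.leaf 348 2012 .nil)) .nil)) .nil)) .nil)) .nil)))) (.cons 299 (.cons 202 (.leaf 226 1623 (.cons 178 (.leaf 203 1431 (.cons 228 (.leaf 204 1629 (.cons 323 (.leaf 252 1821 (.cons 324 (.leaf 300 1820 (.leaf 348 2012 .nil)) .nil)) .nil)) .nil)) .nil)) (.cons 228 (.leaf 204 1629 (.cons 252 (.leaf 323 1821 (.cons 253 (.leaf 254 2002 (.cons 300 (.leaf 324 1820 (.cons 301 (.leaf 302 2195 (.cons 277 (.leaf 325 1831 (.cons 250 (.leaf 278 2000 (.cons 229 (.leaf 230 1809 (.leaf 249 1801 .nil)) .nil)) .nil)) .nil)) .nil)) .nil)) .nil)) .nil)) (.cons 202 (.leaf 226 1623 (.cons 203 (.leaf 178 1431 (.cons 250 (.leaf 179 1430 (.cons 323 (.leaf 347 2007 (.cons 324 (.leaf 300 1820 (.leaf 348 2012 .nil)) .nil)) .nil)) .nil)) .nil)) (.cons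 226 (.leaf 202 1623 (.cons 204 (.leaf 228 1629 (.cons 203 (.leaf 180 1437 (.cons 250 (.leaf 323 1815 (.leaf 179 1430 .nil)) .nil)) .nil)) .nil)) (.cons 202 (.leaf 226 1623 (.cons 203 (.leaf 178 1431 (.cons 204 (.leaf 180 1437 (.leaf 228 1629 .nil)) .nil)) .nil)) .nil))))) (.cons 203 (.leaf 298 1622 (.cons 178 (.leaf 202 1431 (.cons 179 (.leaf 154 1239 (.cons 180 (.leaf 204 1437 (.leaf 156 1245 .nil)) .nil)) .nil)) .nil)) (.cons 203 (.leaf 298 1622 (.cons 179 (.leaf 250 1430 (.cons 154 (.leaf 178 1239 (.cons 155 (.leaf 130 1047 (.cons 156 (.leaf 180 1245 (.leaf 132 1053 .nil)) .nil)) .nil)) .nil)) .nil)) .nil))))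
noncomputable def t6 : T := .cons 273 (.leaf 252 1985 (.cons 299 (.leaf 300 2176 (.cons 247 (.leaf 248 1979 (.cons 271 (.leaf 246 1971 (.leaf 250 1977 .nil)) .nil)) .nil)) .nil)) (.cons 227 t5 (.cons 273 (.cons 299 (.leaf 300 2176 (.cons 247 (.leaf 248 1979 (.cons 271 (.leaf 246 1971 (.leaf 250 1977 .nil)) .nil)) .nil)) (.cons 299 (.leaf 300 2176 (.cons 296 (.leaf 295 2170 (.cons 248 (.leaf 247 1979 (.cons 227 (.cons 202 (.leaf 226 1623 (.cons 228 (.leaf 204 1629 (.cons 203 (.leaf 178 1431 (.leaf 298 1622 .nil)) .nil)) .nil)) (.cons 202 (.leaf 226 1623 (.cons 228 (.leaf 204 1629 (.cons 249 (.leaf 250 1793 (.cons 201 (.leaf 225 1606 (.cons 203 (.leaf 178 1431 (.leaf 200 1600 .nil)) .nil)) .nil)) .nil)) .nil)) (.cons 202 (.leaf 226 1623 (.cons 228 (.leaf 204 1629 (.cons 249 (.leaf 250 1793 (.cons 225 (.leaf 201 1606 (.leaf 320 1797 .nil)) .nil)) .nil)) .nil)) (.cons 298 (.leaf 203 1622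 (.leaf 322 1814 .nil)) .nil)))) .nil)) .nil)) .nil)) (.cons 271 (.leaf 250 1977 (.cons 295 (.leaf 296 2170 (.leaf 294 2162 .nil)) .nil)) (.cons 299 (.leaf 300 2176 (.cons 247 (.leaf 248 1979 (.cons 271 (.leaf 246 1971 (.leaf 298 2168 .nil)) .nil)) .nil)) .nil)))) (.cons 273 (.leaf 252 1985 (.cons 299 (.leaf 300 2176 (.cons 247 (.leaf 248 1979 (.cons 271 (.leaf 246 1971 (.leaf 298 2168 .nil)) .nil)) .nil)) .nil)) (.cons 273 (.leaf 252 1985 (.cons 271 (.leaf 250 1977 (.cons 295 (.leaf 296 2170 (.leaf 294 2162 .nil)) .nil)) .nil)) .nil))))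
noncomputable def t7 : T := .cons 322 (.leaf 346 2005 (.cons 250 (.leaf 227 1813 (.cons 323 (.leaf 347 2004 (.cons 226 (.leaf 299 1812 (.cons 225 (.leaf 201 1615 (.leaf 249 1807 .nil)) .nil)) .nil)) .nil)) .nil)) (.cons 227 (.leaf 203 1622 (.cons 299 (.cons 228 (.leaf 204 1629 (.cons 300 (.leaf 324 1820 (.cons 252 (.leaf 323 1821 (.cons 253 (.leaf 254 2002 (.cons 301 (.leaf 302 2195 (.cons 277 (.leaf 278 2193 (.leaf 325 1831 .nil)) .nil)) .nil)) .nil)) .nil)) .nil)) (.cons 228 (.leaf 204 1629 (.cons 300 (.leaf 324 1820 (.cons 301 (.leaf 302 2195 (.cons 277 (.leaf 278 2193 (.cons 325 (.leaf 326 2384 (.cons 253 (.leaf 252 1831 (.cons 230 (.leaf 254 1837 (.cons 229 (.leaf 250 1810 (.leaf 206 1645 .nil)) .nil)) .nil)) .nil)) .nil)) .nil)) .nil)) .nil)) (.cons 324 (.leaf 300 1820 (.cons 323 (.leaf 348 2012 (.cons 347 (.leaf 250 2007 (.leaf 371 2199 .nil)) .nil)) .nil)) (.cons 228 (.leaf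 204 1629 (.cons 323 (.leaf 252 1821 (.cons 250 (.leaf 226 1812 (.leaf 347 2007 .nil)) .nil)) .nil)) .nil)))) .nil)) (.cons 322 (.leaf 346 2005 (.cons 250 (.cons 323 (.leaf 347 2004 (.cons 226 (.leaf 299 1812 (.cons 225 (.leaf 201 1615 (.leaf 249 1807 .nil)) .nil)) .nil)) (.cons 249 (.leaf 225 1807 (.cons 248 (.leaf 247 1976 (.leaf 271 1978 .nil)) .nil)) (.cons 323 (.leaf 347 2004 (.cons 226 (.leaf 299 1812 (.cons 321 (.leaf 297 1806 (.leaf 345 1998 .nil)) .nil)) .nil)) .nil))) .nil)) (.cons 322 (.leaf 346 2005 (.cons 227 (.leaf 203 1622 (.leaf 250 1813 .nil)) .nil)) (.cons 322 (.leaf 346 2005 (.cons 227 (.leaf 203 1622 (.leaf 299 1814 .nil)) .nil)) .nil))))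
noncomputable def t8 : T := .cons 273 (.leaf 252 1985 (.cons 299 (.leaf 300 2176 (.cons 247 (.leaf 248 1979 (.cons 271 (.leaf 246 1971 (.leaf 250 1977 .nil)) .nil)) .nil)) .nil)) (.cons 298 t7 (.cons 273 (.cons 299 (.leaf 300 2176 (.cons 247 (.leaf 248 1979 (.cons 271 (.leaf 246 1971 (.leaf 250 1977 .nil)) .nil)) .nil)) (.cons 299 (.leaf 300 2176 (.cons 296 (.leaf 295 2170 (.cons 248 (.leaf 247 1979 (.cons 320 (.cons 249 (.leaf 225 1797 (.leaf 344 1989 .nil)) (.cons 319 (.leaf 343 1982 (.cons 345 (.leaf 321 1988 (.cons 344 (.leaf 369 2180 (.cons 297 (.leaf 368 2181 (.leaf 298 2362 .nil)) .nil)) .nil)) .nil)) (.cons 225 (.leaf 249 1797 (.cons 201 (.leaf 224 1605 (.cons 319 (.leaf 343 1982 (.cons 321 (.leaf 345 1988 (.cons 322 (.leaf 298 2361 (.cons 346 (.leaf 323 2006 (.leaf 347 2552 .nil)) .nil)) .nil)) .nil)) .nil)) .nil)) .nil))) .nil)) .nil)) .nil)) (.cons 271 (.leaf 250 1977 (.cons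 295 (.leaf 296 2170 (.leaf 294 2162 .nil)) .nil)) .nil))) (.cons 273 (.leaf 252 1985 (.cons 271 (.leaf 250 1977 (.cons 295 (.leaf 296 2170 (.leaf 294 2162 .nil)) .nil)) .nil)) (.cons 273 (.leaf 252 1985 (.cons 299 (.leaf 300 2176 (.cons 247 (.leaf 248 1979 (.cons 271 (.leaf 246 1971 (.leaf 298 2168 .nil)) .nil)) .nil)) .nil)) (.cons 273 (.leaf 252 1985 (.cons 299 (.leaf 300 2176 (.cons 296 (.leaf 295 2170 (.cons 248 (.leaf 247 1979 (.cons 320 (.cons 249 (.leaf 225 1797 (.leaf 344 1989 .nil)) (.cons 319 (.leaf 343 1982 (.cons 345 (.leaf 321 1988 (.cons 344 (.leaf 369 2180 (.cons 297 (.leaf 368 2181 (.leaf 298 2362 .nil)) .nil)) .nil)) .nil)) (.cons 225 (.leaf 249 1797 (.cons 201 (.leaf 224 1605 (.cons 319 (.leaf 343 1982 (.cons 321 (.leaf 345 1988 (.cons 322 (.leaf 298 2361 (.cons 346 (.leaf 323 2006 (.leaf 347 2552 .nil)) .nil)) .nil)) .nil)) .nil)) .nil)) .nil))) .nil)) .nil)) .nil))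 .nil)) .nil)))))
noncomputable def t9 : T := .cons 203 (.leaf 298 1622 (.cons 179 (.leaf 250 1430 (.cons 178 (.leaf 202 1431 (.leaf 154 1239 .nil)) .nil)) .nil)) (.cons 299 (.cons 324 (.leaf 300 1820 (.cons 323 (.leaf 228 1821 (.leaf 348 2012 .nil)) .nil)) (.cons 324 (.leaf 300 1820 (.cons 323 (.leaf 348 2012 (.cons 347 (.leaf 250 2007 (.cons 370 (.leaf 346 2198 (.cons 371 (.leaf 298 2199 (.leaf 394 2390 .nil)) .nil)) .nil)) .nil)) .nil)) (.cons 228 (.leaf 204 1629 (.cons 300 (.leaf 324 1820 (.cons 301 (.leaf 302 2195 (.cons 277 (.leaf 325 1831 (.cons 250 (.leaf 278 2000 (.cons 229 (.leaf 230 1809 (.leaf 249 1801 .nil)) .nil)) .nil)) .nil)) .nil)) .nil)) (.cons 228 (.leaf 204 1629 (.leaf 323 1821 .nil)) .nil)))) (.cons 203 (.leaf 298 1622 (.cons 178 (.leaf 202 1431 (.cons 179 (.leaf 154 1239 (.cons 180 (.leaf 204 1437 (.leaf 156 1245 .nil)) .nil)) .nil)) .nil)) (.cons 203 (.cons 179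 (.leaf 250 1430 (.cons 178 (.leaf 202 1431 (.leaf 154 1239 .nil)) .nil)) (.cons 202 (.leaf 178 1431 (.cons 204 (.leaf 180 1437 (.cons 228 (.leaf 299 1629 (.cons 201 (.leaf 200 1600 (.leaf 229 1608 .nil)) .nil)) .nil)) .nil)) (.cons 179 (.leaf 250 1430 (.cons 155 (.leaf 228 1244 (.cons 130 (.leaf 154 1047 (.cons 156 (.leaf 180 1245 (.leaf 132 1053 .nil)) .nil)) .nil)) .nil)) .nil))) .nil)))
noncomputable def t10 : T := .cons 321 (.leaf 345 1988 (.cons 297 (.leaf 224 1796 (.cons 223 (.leaf 247 1791 (.cons 319 (.leaf 343 1982 (.cons 298 (.leaf 299 2362 (.leaf 318 2353 .nil)) .nil)) .nil)) .nil)) .nil)) (.cons 247 (.leaf 223 1791 (.cons 246 (.leaf 245 1960 (.cons 222 (.leaf 221 1771 (.cons 269 (.leaf 270 1962 (.cons 319 (.leaf 343 1982 (.cons 295 (.leaf 224 1790 (.leaf 271 1783 .nil)) .nil)) .nil)) .nil)) .nil)) .nil)) (.cons 321 (.leaf 345 1988 (.cons 297 (.leaf 224 1796 (.cons 247 (.leaf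 223 1791 (.cons 246 (.leaf 245 1960 (.cons 270 (.leaf 269 1962 (.cons 271 (.leaf 298 2160 (.cons 222 (.leaf 221 1771 (.cons 198 (.leaf 174 1396 (.leaf 295 1588 .nil)) .nil)) .nil)) .nil)) .nil)) .nil)) .nil)) .nil)) (.cons 321 (.leaf 345 1988 (.cons 224 (.leaf 297 1796 (.cons 319 (.leaf 295 1790 (.leaf 343 1982 .nil)) .nil)) .nil)) (.cons 321 (.leaf 345 1988 (.cons 247 (.leaf 223 1791 (.cons 246 (.leaf 245 1960 (.cons 222 (.leaf 221 1771 (.cons 319 (.leaf 343 1982 (.cons 270 (.leaf 269 1962 (.cons 295 (.leaf 271 1783 (.leaf 294 1780 .nil)) .nil)) .nil)) .nil)) .nil)) .nil)) .nil)) .nil))))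
noncomputable def t11 : T := .cons 320 (.leaf 344 1989 (.cons 225 (.leaf 201 1606 (.leaf 248 1797 .nil)) .nil)) (.cons 225 (.leaf 201 1606 (.cons 226 (.cons 202 (.leaf 297 1613 (.cons 227 (.leaf 299 1623 (.leaf 224 1792 .nil)) .nil)) (.cons 297 (.leaf 202 1613 (.cons 224 (.leaf 200 1607 (.cons 248 (.leaf 321 1796 (.cons 295 (.leaf 319 1790 (.cons 294 (.leaf 293 2153 (.cons 246 (.leaf 247 1777 (.cons 270 (.leaf 269 2155 (.cons 271 (.leaf 245 1963 (.leaf 298 2160 .nil)) .nil)) .nil)) .nil)) .nil)) .nil)) .nil)) .nil)) (.cons 202 (.leaf 297 1613 (.cons 154 (.leaf 178 1230 (.cons 227 (.leaf 299 1623 (.cons 228 (.leaf 248 1794 (.cons 204 (.leaf 180 1438 (.leaf 205 1609 .nil)) .nil)) .nil)) .nil)) .nil)) (.cons 227 (.leaf 224 1792 (.cons 202 (.leaf 299 1623 (.cons 178 (.leaf 203 1431 (.leaf 154 1236 .nil)) .nil)) .nil)) (.cons 224 (.leaf 227 1792 (.cons 200 (.leaf 297 1607 (.cons 176 (.leaf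 248 1412 (.leaf 152 1220 .nil)) .nil)) .nil)) .nil))))) .nil)) (.cons 320 (.leaf 344 1989 (.cons 248 t10 .nil)) (.cons 320 (.leaf 344 1989 (.cons 225 (.leaf 201 1606 (.leaf 297 1798 .nil)) .nil)) .nil)))
noncomputable def t12 : T := .cons 226 (.cons 202 (.leaf 299 1623 (.cons 178 (.leaf 203 1431 (.leaf 154 1236 .nil)) .nil)) (.cons 225 (.leaf 224 1792 (.cons 253 (.leaf 254 1811 (.leaf 228 1800 .nil)) .nil)) .nil)) (.cons 274 (.leaf 273 1985 (.cons 203 (.leaf 298 1622 (.cons 178 (.leaf 202 1431 (.cons 179 (.leaf 154 1239 (.cons 180 (.leaf 204 1437 (.leaf 156 1245 .nil)) .nil)) .nil)) .nil)) .nil)) (.cons 273 (.leaf 274 1985 (.cons 299 (.cons 226 (.leaf 202 1623 (.cons 225 (.leaf 224 1792 (.cons 228 (.leaf 204 1629 (.leaf 323 1821 .nil)) .nil)) .nil)) (.cons 226 (.leaf 202 1623 (.cons 224 (.leaf 225 1792 (.cons 253 (.leaf 254 1811 (.cons 300 (.leaf 324 1820 (.cons 297 (.leaf 298 2179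 (.cons 248 (.leaf 200 1604 (.cons 321 (.leaf 296 1796 (.leaf 345 1991 .nil)) .nil)) .nil)) .nil)) .nil)) .nil)) .nil)) (.cons 228 (.leaf 204 1629 (.leaf 323 1821 .nil)) .nil))) .nil)) (.cons 274 (.leaf 273 1985 (.cons 203 (.leaf 298 1622 (.cons 180 (.leaf 204 1437 (.cons 179 (.leaf 156 1245 (.cons 154 (.leaf 178 1239 (.cons 155 (.leaf 228 1244 (.leaf 130 1047 .nil)) .nil)) .nil)) .nil)) .nil)) .nil)) .nil)))
noncomputable def t13 : T := .cons 254 (.leaf 274 2002 (.cons 231 (.leaf 230 1817 (.cons 255 (.leaf 232 1825 (.cons 279 (.leaf 278 2008 (.leaf 280 2016 .nil)) .nil)) .nil)) .nil)) (.cons 250 (.cons 225 (.leaf 226 1803 (.cons 249 (.leaf 224 1795 (.cons 248 (.leaf 271 1978 (.cons 177 (.leaf 201 1414 (.cons 227 (.leaf 228 1793 (.cons 274 (.leaf 247 1976 (.cons 203 (.leaf 298 1622 (.leaf 179 1430 .nil)) .nil)) .nil)) .nil)) .nil)) .nil)) .nil)) (.cons 229 (.leaf 230 1809 (.cons 228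 (.leaf 249 1801 (.cons 204 (.leaf 180 1438 (.cons 277 (.leaf 278 2000 (.leaf 301 1639 .nil)) .nil)) .nil)) .nil)) (.cons 226 (.leaf 225 1803 (.cons 202 (.leaf 178 1428 (.cons 299 (.leaf 227 1623 (.leaf 274 1620 .nil)) .nil)) .nil)) .nil))) (.cons 250 (.cons 229 (.leaf 230 1809 (.cons 228 (.leaf 249 1801 (.cons 204 (.leaf 180 1438 (.cons 277 (.leaf 278 2000 (.leaf 301 1639 .nil)) .nil)) .nil)) .nil)) (.cons 226 (.leaf 225 1803 (.cons 178 (.leaf 202 1428 (.cons 254 (.leaf 227 1811 (.cons 278 (.leaf 277 2000 (.leaf 279 2008 .nil)) .nil)) .nil)) .nil)) (.cons 226 (.leaf 225 1803 (.cons 202 (.leaf 178 1428 (.cons 227 (.leaf 299 1623 (.leaf 254 1811 .nil)) .nil)) .nil)) .nil))) (.cons 254 (.leaf 274 2002 (.cons 227 (.leaf 226 1811 (.cons 228 (.leaf 255 1819 (.cons 204 (.leaf 180 1438 (.leaf 299 1629 .nil)) .nil)) .nil)) .nil)) .nil)))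
noncomputable def t14 : T := .cons 203 (.leaf 298 1622 (.cons 179 (.leaf 250 1430 (.cons 178 (.leaf 202 1431 (.leaf 154 1239 .nil)) .nil)) .nil)) (.cons 299 (.cons 324 (.leaf 300 1820 (.cons 323 (.leaf 228 1821 (.leaf 348 2012 .nil)) .nil)) (.cons 324 (.leaf 300 1820 (.cons 323 (.leaf 348 2012 (.cons 347 (.leaf 250 2007 (.cons 370 (.leaf 346 2198 (.cons 371 (.leaf 298 2199 (.leaf 394 2390 .nil)) .nil)) .nil)) .nil)) .nil)) (.cons 228 (.leaf 204 1629 (.cons 226 (.leaf 202 1623 (.leaf 225 1800 .nil)) .nil)) .nil))) (.cons 203 (.leaf 298 1622 (.cons 178 (.leaf 202 1431 (.cons 179 (.leaf 154 1239 (.cons 180 (.leaf 204 1437 (.leaf 156 1245 .nil)) .nil)) .nil)) .nil)) (.cons 203 (.cons 179 (.leaf 250 1430 (.cons 178 (.leaf 202 1431 (.leaf 154 1239 .nil)) .nil)) (.cons 178 (.leaf 202 1431 (.cons 179 (.leaf 154 1239 (.cons 180 (.leaf 204 1437 (.leaf 156 1245 .nil)) .nil)) .nil)) (.cons 202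 (.leaf 178 1431 (.cons 204 (.leaf 180 1437 (.cons 226 (.leaf 299 1623 (.cons 225 (.leaf 224 1792 (.leaf 250 1803 .nil)) .nil)) .nil)) .nil)) (.cons 179 (.leaf 250 1430 (.cons 155 (.leaf 228 1244 (.cons 130 (.leaf 154 1047 (.cons 156 (.leaf 180 1245 (.leaf 132 1053 .nil)) .nil)) .nil)) .nil)) .nil)))) (.cons 299 (.cons 324 (.leaf 300 1820 (.cons 323 (.leaf 228 1821 (.leaf 348 2012 .nil)) .nil)) (.cons 324 (.leaf 300 1820 (.cons 323 (.leaf 348 2012 (.cons 347 (.leaf 250 2007 (.cons 370 (.leaf 346 2198 (.cons 371 (.leaf 298 2199 (.leaf 394 2390 .nil)) .nil)) .nil)) .nil)) .nil)) (.cons 228 (.leaf 204 1629 (.cons 300 (.leaf 324 1820 (.cons 225 (.leaf 226 1800 (.cons 301 (.leaf 302 2195 (.cons 277 (.leaf 325 1831 (.cons 250 (.leaf 278 2000 (.cons 249 (.leaf 224 1795 (.leaf 248 1793 .nil)) .nil)) .nil)) .nil)) .nil)) .nil)) .nil)) (.cons 228 (.leaf 204 1629 (.leaf 323 1821 .nil)) .nil))))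 .nil))))
noncomputable def t15 : T := .cons 274 (.leaf 273 1985 (.cons 253 (.leaf 254 2002 (.cons 227 t14 .nil)) .nil)) (.cons 253 t13 (.cons 250 (.cons 249 (.leaf 273 1986 (.cons 224 (.leaf 225 1795 (.cons 228 (.leaf 229 1801 (.cons 204 (.leaf 180 1438 (.cons 248 (.leaf 271 1978 (.leaf 223 1787 .nil)) .nil)) .nil)) .nil)) .nil)) (.cons 226 (.cons 202 (.leaf 178 1428 (.cons 225 (.leaf 253 1803 (.cons 224 (.leaf 223 1784 (.leaf 227 1792 .nil)) .nil)) .nil)) (.cons 202 (.leaf 178 1428 (.cons 299 (.leaf 227 1623 (.leaf 323 1815 .nil)) .nil)) (.cons 225 (.leaf 253 1803 (.cons 224 (.leaf 223 1784 (.leaf 227 1792 .nil)) .nil)) (.cons 178 (.leaf 202 1428 (.cons 253 (.leaf 225 1803 (.cons 230 (.leaf 229 1809 (.cons 254 (.leaf 231 1817 (.cons 278 (.leaf 277 2000 (.leaf 279 2008 .nil)) .nil)) .nil)) .nil)) .nil)) .nil)))) (.cons 249 (.leaf 273 1986 (.cons 228 (.leaf 229 1801 (.cons 248 (.leaf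 271 1978 (.leaf 227 1793 .nil)) .nil)) .nil)) (.cons 249 (.leaf 273 1986 (.cons 224 (.leaf 225 1795 (.cons 248 (.leaf 271 1978 (.leaf 223 1787 .nil)) .nil)) .nil)) .nil)))) (.cons 227 t12 (.cons 273 (.leaf 274 1985 (.cons 250 (.leaf 249 1986 (.cons 226 (.cons 225 (.leaf 253 1803 (.cons 224 (.leaf 223 1784 (.leaf 227 1792 .nil)) .nil)) (.cons 202 (.leaf 178 1428 (.cons 299 (.leaf 227 1623 (.leaf 323 1815 .nil)) .nil)) (.cons 178 (.leaf 202 1428 (.cons 253 (.leaf 225 1803 (.cons 230 (.leaf 229 1809 (.cons 254 (.leaf 231 1817 (.cons 278 (.leaf 277 2000 (.leaf 279 2008 .nil)) .nil)) .nil)) .nil)) .nil)) .nil))) .nil)) .nil)) (.cons 273 (.leaf 274 1985 (.cons 249 (.leaf 250 1986 (.cons 296 t11 .nil)) .nil)) (.cons 274 (.leaf 273 1985 (.cons 253 (.leaf 254 2002 (.cons 250 (.cons 229 (.leaf 230 1809 (.cons 228 (.leaf 249 1801 (.cons 204 (.leaf 180 1438 (.cons 277 (.leaf 278 2000 (.leaf 301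 1639 .nil)) .nil)) .nil)) .nil)) (.cons 225 (.leaf 226 1803 (.cons 249 (.leaf 224 1795 (.cons 248 (.leaf 247 1976 (.leaf 271 1978 .nil)) .nil)) .nil)) (.cons 226 (.leaf 225 1803 (.cons 202 (.leaf 178 1428 (.cons 177 (.leaf 201 1423 (.cons 203 (.leaf 179 1429 (.cons 227 (.leaf 298 1621 (.cons 204 (.leaf 180 1437 (.cons 205 (.leaf 206 1618 (.cons 229 (.leaf 230 1616 (.cons 181 (.leaf 182 1425 (.cons 228 (.leaf 157 1254 (.cons 277 (.leaf 278 2000 (.leaf 301 1639 .nil)) .nil)) .nil)) .nil)) .nil)) .nil)) .nil)) .nil)) .nil)) .nil)) .nil)) .nil))) .nil)) .nil)) (.cons 274 (.leaf 273 1985 (.cons 253 (.leaf 254 2002 (.cons 250 (.cons 229 (.leaf 230 1809 (.cons 277 (.leaf 278 2000 (.cons 301 (.cons 300 (.leaf 324 1830 (.cons 302 (.leaf 299 2195 (.leaf 326 1836 .nil)) .nil)) (.cons 228 (.leaf 249 1801 (.leaf 325 1831 .nil)) .nil)) .nil)) .nil)) (.cons 226 (.leaf 225 1803 (.cons 202 (.leaf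 178 1428 (.leaf 299 1620 .nil)) .nil)) (.cons 229 (.leaf 230 1809 (.cons 228 (.leaf 249 1801 (.cons 204 (.leaf 180 1438 (.cons 277 (.leaf 278 2000 (.leaf 301 1639 .nil)) .nil)) .nil)) .nil)) .nil))) .nil)) .nil)) (.cons 274 (.leaf 273 1985 (.cons 253 (.leaf 254 2002 (.cons 227 t9 .nil)) .nil)) (.cons 274 (.leaf 273 1985 (.cons 253 (.leaf 254 2002 (.cons 250 (.cons 225 (.leaf 226 1803 (.cons 229 (.leaf 230 1809 (.cons 249 (.leaf 224 1795 (.leaf 228 1801 .nil)) .nil)) .nil)) (.cons 229 (.leaf 230 1809 (.cons 277 (.leaf 278 2000 (.cons 301 (.cons 300 (.leaf 324 1830 (.cons 302 (.leaf 299 2195 (.leaf 326 1836 .nil)) .nil)) (.cons 228 (.leaf 249 1801 (.leaf 325 1831 .nil)) .nil)) .nil)) .nil)) (.cons 225 (.leaf 226 1803 (.cons 249 (.leaf 224 1795 (.cons 248 (.leaf 247 1976 (.leaf 271 1978 .nil)) .nil)) .nil)) (.cons 226 (.leaf 225 1803 (.cons 299 (.leaf 323 1815 (.cons 229 (.leaf 230 1809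 (.cons 277 (.leaf 278 2000 (.cons 227 (.cons 203 (.leaf 298 1621 (.leaf 179 1430 .nil)) (.cons 228 (.leaf 204 1629 (.cons 205 (.leaf 206 1617 (.cons 157 (.leaf 181 1254 (.cons 300 (.leaf 324 1820 (.cons 301 (.leaf 302 2195 (.leaf 325 1831 .nil)) .nil)) .nil)) .nil)) .nil)) .nil)) .nil)) .nil)) .nil)) .nil)) .nil)))) .nil)) .nil)) .nil)))))))))
noncomputable def t16 : T := .cons 228 (.leaf 204 1629 (.cons 298 (.leaf 322 1814 (.cons 300 (.leaf 324 1820 (.cons 252 (.leaf 323 1821 (.cons 253 (.leaf 254 2002 (.cons 301 (.leaf 302 2195 (.cons 277 (.leaf 278 2193 (.leaf 325 1831 .nil)) .nil)) .nil)) .nil)) .nil)) .nil)) .nil)) (.cons 228 (.leaf 204 1629 (.cons 252 (.leaf 323 1821 (.cons 253 (.leaf 254 2002 (.cons 300 (.leaf 324 1820 (.cons 301 (.leaf 302 2195 (.cons 277 (.leaf 325 1831 (.cons 250 (.leaf 278 2000 (.cons 229 (.leaf 230 1809 (.leaf 249 1801 .nil)) .nil)) .nil)) .nil)) .nil))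 .nil)) .nil)) .nil)) (.cons 322 (.leaf 298 1814 (.cons 323 (.leaf 346 2006 (.cons 324 (.leaf 300 1820 (.leaf 348 2012 .nil)) .nil)) .nil)) (.cons 322 (.leaf 298 1814 (.cons 204 (.leaf 228 1629 (.cons 323 (.leaf 346 2006 (.cons 347 (.leaf 250 2007 (.cons 348 (.leaf 324 2012 (.leaf 372 2204 .nil)) .nil)) .nil)) .nil)) .nil)) (.cons 322 (.leaf 298 1814 (.cons 228 (.leaf 204 1629 (.cons 323 (.leaf 252 1821 (.leaf 346 2006 .nil)) .nil)) .nil)) (.cons 298 (.leaf 322 1814 (.cons 228 (.leaf 204 1629 (.cons 300 (.leaf 324 1820 (.cons 301 (.leaf 302 2195 (.cons 277 (.leaf 278 2193 (.cons 325 (.leaf 326 2384 (.cons 253 (.leaf 252 1831 (.cons 230 (.leaf 254 1837 (.cons 229 (.leaf 250 1810 (.leaf 206 1645 .nil)) .nil)) .nil)) .nil)) .nil)) .nil)) .nil)) .nil)) .nil)) .nil)))))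
noncomputable def t17 : T := .cons 299 (.cons 228 (.leaf 204 1629 (.cons 298 (.leaf 203 1622 (.leaf 322 1814 .nil)) .nil)) (.cons 228 (.leaf 204 1629 (.cons 252 (.leaf 323 1821 (.cons 253 (.leaf 254 2002 (.cons 300 (.leaf 324 1820 (.cons 301 (.leaf 302 2195 (.cons 277 (.leaf 325 1831 (.cons 250 (.leaf 278 2000 (.cons 229 (.leaf 230 1809 (.leaf 249 1801 .nil)) .nil)) .nil)) .nil)) .nil)) .nil)) .nil)) .nil)) (.cons 298 (.leaf 203 1622 (.leaf 322 1814 .nil)) .nil))) (.cons 299 t16 (.cons 203 (.cons 179 (.leaf 250 1430 (.cons 154 (.leaf 178 1239 (.cons 155 (.leaf 130 1047 (.cons 156 (.leaf 180 1245 (.leaf 132 1053 .nil)) .nil)) .nil)) .nil)) (.cons 178 (.leaf 202 1431 (.cons 204 (.leaf 180 1437 (.cons 299 (.leaf 228 1629 (.cons 324 (.leaf 300 1820 (.cons 323 (.leaf 348 2012 (.cons 347 (.leaf 250 2007 (.cons 346 (.leaf 322 2006 (.leaf 370 2198 .nil)) .nil)) .nil)) .nil)) .nil)) .nil))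 .nil)) (.cons 178 (.leaf 202 1431 (.cons 179 (.leaf 154 1239 (.leaf 250 1430 .nil)) .nil)) (.cons 179 (.leaf 250 1430 (.cons 180 (.leaf 204 1437 (.leaf 156 1245 .nil)) .nil)) (.cons 204 (.leaf 180 1437 (.cons 178 (.leaf 202 1431 (.cons 179 (.leaf 154 1239 (.cons 176 (.leaf 177 1408 (.cons 205 (.leaf 206 1427 (.cons 228 (.leaf 299 1629 (.cons 155 (.leaf 252 1244 (.leaf 131 1052 .nil)) .nil)) .nil)) .nil)) .nil)) .nil)) .nil)) .nil))))) (.cons 203 (.leaf 298 1622 (.cons 179 (.leaf 250 1430 (.cons 154 (.leaf 178 1239 (.cons 155 (.leaf 130 1047 (.cons 156 (.leaf 180 1245 (.leaf 132 1053 .nil)) .nil)) .nil)) .nil)) .nil)) (.cons 203 (.leaf 298 1622 (.cons 204 (.leaf 180 1437 (.cons 178 (.leaf 202 1431 (.cons 179 (.leaf 154 1239 (.cons 176 (.leaf 177 1408 (.cons 205 (.leaf 206 1427 (.cons 228 (.leaf 299 1629 (.cons 155 (.leaf 252 1244 (.leaf 131 1052 .nil)) .nil)) .nil)) .nil)) .nil)) .nil))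 .nil)) .nil)) .nil))))
noncomputable def t18 : T := .cons 273 (.leaf 252 1985 (.cons 299 (.leaf 300 2176 (.cons 247 (.leaf 248 1979 (.cons 271 (.leaf 246 1971 (.leaf 250 1977 .nil)) .nil)) .nil)) .nil)) (.cons 227 t17 (.cons 273 (.cons 299 (.leaf 300 2176 (.cons 247 (.leaf 248 1979 (.cons 271 (.leaf 246 1971 (.leaf 250 1977 .nil)) .nil)) .nil)) (.cons 299 (.leaf 300 2176 (.cons 296 (.leaf 295 2170 (.cons 248 (.leaf 247 1979 (.cons 320 (.cons 249 (.leaf 225 1797 (.leaf 344 1989 .nil)) (.cons 319 (.leaf 343 1982 (.cons 345 (.leaf 321 1988 (.cons 344 (.leaf 369 2180 (.cons 297 (.leaf 368 2181 (.leaf 298 2362 .nil)) .nil)) .nil)) .nil)) (.cons 225 (.leaf 249 1797 (.cons 201 (.leaf 224 1605 (.cons 319 (.leaf 343 1982 (.cons 321 (.leaf 345 1988 (.cons 322 (.leaf 298 2361 (.cons 346 (.leaf 323 2006 (.leaf 347 2552 .nil)) .nil)) .nil)) .nil)) .nil)) .nil)) .nil))) .nil)) .nil)) .nil)) (.cons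 271 (.leaf 250 1977 (.cons 295 (.leaf 296 2170 (.leaf 294 2162 .nil)) .nil)) .nil))) (.cons 273 (.leaf 252 1985 (.cons 271 (.leaf 250 1977 (.cons 295 (.leaf 296 2170 (.leaf 294 2162 .nil)) .nil)) .nil)) (.cons 273 (.leaf 252 1985 (.cons 299 (.leaf 300 2176 (.cons 247 (.leaf 248 1979 (.cons 271 (.leaf 246 1971 (.leaf 298 2168 .nil)) .nil)) .nil)) .nil)) .nil))))
noncomputable def t19 : T := .cons 273 (.leaf 274 1985 (.leaf 249 1986 .nil)) (.cons 253 (.cons 226 (.leaf 225 1803 (.cons 202 (.leaf 178 1428 (.cons 227 (.leaf 299 1623 (.leaf 254 1811 .nil)) .nil)) .nil)) (.cons 254 (.leaf 274 2002 (.cons 230 (.leaf 229 1809 (.leaf 231 1817 .nil)) .nil)) (.cons 226 (.leaf 225 1803 (.cons 202 (.leaf 178 1428 (.cons 227 (.leaf 299 1623 (.cons 229 (.leaf 230 1809 (.cons 228 (.leaf 249 1801 (.leaf 201 1611 .nil)) .nil)) .nil)) .nil)) .nil)) .nil))) (.cons 253 (.cons 226 (.leaf 225 1803 (.cons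 178 (.leaf 202 1428 (.cons 254 (.leaf 227 1811 (.cons 278 (.leaf 277 2000 (.leaf 279 2008 .nil)) .nil)) .nil)) .nil)) (.cons 249 (.leaf 273 1986 (.cons 230 (.leaf 229 1809 (.cons 254 (.leaf 231 1817 (.cons 278 (.leaf 277 2000 (.leaf 279 2008 .nil)) .nil)) .nil)) .nil)) (.cons 226 (.leaf 225 1803 (.cons 202 (.leaf 178 1428 (.cons 227 (.leaf 299 1623 (.leaf 254 1811 .nil)) .nil)) .nil)) (.cons 226 (.leaf 225 1803 (.cons 202 (.leaf 178 1428 (.cons 227 (.leaf 299 1623 (.cons 229 (.leaf 230 1809 (.cons 228 (.leaf 249 1801 (.leaf 201 1611 .nil)) .nil)) .nil)) .nil)) .nil)) .nil)))) (.cons 253 (.cons 226 (.leaf 225 1803 (.cons 202 (.leaf 178 1428 (.cons 227 (.leaf 299 1623 (.leaf 254 1811 .nil)) .nil)) .nil)) (.cons 254 (.leaf 274 2002 (.cons 230 (.leaf 229 1809 (.leaf 231 1817 .nil)) .nil)) (.cons 226 (.leaf 225 1803 (.cons 202 (.leaf 178 1428 (.cons 227 (.leaf 299 1623 (.cons 229 (.leaf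 230 1809 (.cons 228 (.leaf 201 1611 (.cons 180 (.leaf 204 1438 (.cons 205 (.leaf 206 1617 (.cons 181 (.leaf 157 1254 (.leaf 156 1255 .nil)) .nil)) .nil)) .nil)) .nil)) .nil)) .nil)) .nil)) .nil))) .nil)))
noncomputable def t20 : T := .cons 274 (.cons 273 (.leaf 252 1985 (.leaf 300 2176 .nil)) (.cons 323 (.leaf 226 1815 (.leaf 347 2007 .nil)) .nil)) (.cons 227 (.cons 202 (.leaf 226 1623 (.cons 203 (.leaf 178 1431 (.cons 274 (.leaf 179 1430 (.cons 273 (.leaf 252 1985 (.leaf 300 2176 .nil)) .nil)) .nil)) .nil)) (.cons 300 (.leaf 324 1820 (.cons 204 (.leaf 228 1629 (.cons 203 (.leaf 180 1437 (.cons 274 (.leaf 273 2176 (.leaf 179 1430 .nil)) .nil)) .nil)) .nil)) (.cons 202 (.leaf 226 1623 (.cons 203 (.leaf 178 1431 (.cons 204 (.leaf 180 1437 (.leaf 228 1629 .nil)) .nil)) .nil)) (.cons 226 (.leaf 202 1623 (.cons 228 (.leaf 204 1629 (.cons 229 (.leaf 230 1810 (.cons 205 (.leaf 206 1617 (.cons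 253 (.leaf 254 1808 (.cons 225 (.leaf 252 1800 (.cons 200 (.leaf 201 1603 (.cons 224 (.leaf 223 1784 (.cons 248 (.leaf 247 1786 (.cons 271 (.leaf 295 1598 (.cons 273 (.leaf 297 1604 (.leaf 274 1977 .nil)) .nil)) .nil)) .nil)) .nil)) .nil)) .nil)) .nil)) .nil)) .nil)) .nil)) .nil)))) (.cons 274 (.cons 273 (.leaf 252 1985 (.leaf 300 2176 .nil)) (.cons 323 (.leaf 347 2007 (.cons 322 (.leaf 346 2006 (.cons 252 (.leaf 228 1821 (.cons 324 (.leaf 348 2012 (.cons 300 (.leaf 227 1820 (.cons 301 (.leaf 302 2386 (.leaf 321 2377 .nil)) .nil)) .nil)) .nil)) .nil)) .nil)) (.cons 323 (.leaf 347 2007 (.cons 322 (.leaf 346 2006 (.cons 324 (.leaf 348 2012 (.cons 300 (.leaf 227 1820 (.leaf 273 2176 .nil)) .nil)) .nil)) .nil)) (.cons 273 (.leaf 252 1985 (.leaf 271 1977 .nil)) .nil)))) (.cons 323 (.leaf 226 1815 (.cons 322 (.leaf 346 2006 (.cons 324 (.leaf 348 2012 (.cons 300 (.leaf 227 1820 (.cons 301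 (.leaf 302 2386 (.leaf 321 2377 .nil)) .nil)) .nil)) .nil)) .nil)) (.cons 323 (.leaf 226 1815 (.cons 322 (.leaf 346 2006 (.cons 347 (.leaf 274 2007 (.cons 348 (.leaf 324 2012 (.leaf 372 2204 .nil)) .nil)) .nil)) .nil)) .nil))))
noncomputable def t21 : T := .cons 323 (.leaf 226 1815 (.cons 322 (.leaf 346 2006 (.cons 347 (.leaf 274 2007 (.cons 348 (.leaf 324 2012 (.leaf 372 2204 .nil)) .nil)) .nil)) .nil)) (.cons 274 (.cons 273 (.leaf 300 2176 (.leaf 271 1977 .nil)) (.cons 323 (.leaf 347 2007 (.cons 322 (.leaf 346 2006 (.cons 324 (.leaf 348 2012 (.cons 300 (.leaf 227 1820 (.cons 301 (.leaf 302 2386 (.leaf 321 2377 .nil)) .nil)) .nil)) .nil)) .nil)) (.cons 273 (.leaf 271 1977 (.cons 247 (.leaf 248 1979 (.cons 296 (.leaf 295 2170 (.cons 323 (.leaf 347 2007 (.cons 322 (.leaf 346 2006 (.cons 324 (.leaf 348 2012 (.cons 321 (.leaf 297 2371 (.cons 344 (.leaf 345 2562 (.cons 320 (.leaf 249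 1989 (.leaf 343 2554 .nil)) .nil)) .nil)) .nil)) .nil)) .nil)) .nil)) .nil)) .nil)) .nil))) (.cons 227 (.cons 202 (.leaf 226 1623 (.cons 203 (.leaf 178 1431 (.cons 274 (.leaf 179 1430 (.cons 273 (.leaf 300 2176 (.leaf 271 1977 .nil)) .nil)) .nil)) .nil)) (.cons 300 (.leaf 324 1820 (.cons 204 (.leaf 228 1629 (.cons 203 (.leaf 180 1437 (.cons 274 (.leaf 273 2176 (.leaf 179 1430 .nil)) .nil)) .nil)) .nil)) (.cons 202 (.leaf 226 1623 (.cons 203 (.leaf 178 1431 (.cons 204 (.leaf 180 1437 (.leaf 228 1629 .nil)) .nil)) .nil)) (.cons 226 (.leaf 202 1623 (.cons 228 (.leaf 204 1629 (.cons 229 (.leaf 230 1810 (.leaf 249 1802 .nil)) .nil)) .nil)) .nil)))) (.cons 323 (.leaf 226 1815 (.cons 322 (.leaf 346 2006 (.cons 324 (.leaf 348 2012 (.cons 300 (.leaf 227 1820 (.cons 301 (.leaf 302 2386 (.leaf 321 2377 .nil)) .nil)) .nil)) .nil)) .nil)) (.cons 227 (.cons 202 (.leaf 226 1623 (.cons 203 (.leaf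 178 1431 (.cons 274 (.leaf 179 1430 (.cons 273 (.leaf 300 2176 (.leaf 271 1977 .nil)) .nil)) .nil)) .nil)) (.cons 204 (.leaf 228 1629 (.cons 203 (.leaf 180 1437 (.cons 178 (.leaf 202 1431 (.cons 179 (.leaf 154 1239 (.leaf 274 1430 .nil)) .nil)) .nil)) .nil)) (.cons 228 (.leaf 204 1629 (.cons 226 (.leaf 323 1815 (.cons 229 (.leaf 230 1810 (.leaf 249 1802 .nil)) .nil)) .nil)) .nil))) .nil))))
noncomputable def t22 : T := .cons 248 (.leaf 271 1978 (.cons 227 (.leaf 228 1793 (.cons 223 (.leaf 224 1787 (.cons 247 (.leaf 274 1976 (.leaf 222 1779 .nil)) .nil)) .nil)) .nil)) (.cons 252 (.cons 225 (.leaf 224 1795 (.cons 226 (.leaf 253 1803 (.cons 178 (.leaf 202 1428 (.cons 228 (.leaf 229 1801 (.cons 299 (.leaf 323 1821 (.cons 204 (.leaf 180 1438 (.leaf 227 1629 .nil)) .nil)) .nil)) .nil)) .nil)) .nil)) (.cons 225 (.leaf 224 1795 (.cons 253 (.leaf 226 1803 (.cons 229 (.leaf 230 1809 (.cons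 254 (.leaf 274 2002 (.cons 278 (.leaf 277 2000 (.leaf 279 2008 .nil)) .nil)) .nil)) .nil)) .nil)) (.cons 228 (.leaf 229 1801 (.cons 204 (.leaf 180 1438 (.cons 299 (.leaf 227 1629 (.leaf 323 1821 .nil)) .nil)) .nil)) (.cons 225 (.leaf 224 1795 (.cons 253 (.leaf 226 1803 (.cons 254 (.leaf 274 2002 (.cons 278 (.leaf 277 2000 (.leaf 279 2008 .nil)) .nil)) .nil)) .nil)) .nil)))) (.cons 248 (.leaf 271 1978 (.cons 223 (.leaf 224 1787 (.cons 247 (.leaf 274 1976 (.leaf 222 1779 .nil)) .nil)) .nil)) (.cons 248 (.leaf 271 1978 (.cons 227 (.leaf 228 1793 (.cons 247 (.leaf 274 1976 (.leaf 226 1785 .nil)) .nil)) .nil)) (.cons 248 (.leaf 271 1978 (.cons 223 (.leaf 224 1787 (.cons 227 (.leaf 228 1793 (.cons 247 (.leaf 222 1779 (.leaf 226 1785 .nil)) .nil)) .nil)) .nil)) .nil))))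
noncomputable def t23 : T := .cons 323 (.leaf 226 1815 (.cons 322 (.leaf 346 2006 (.cons 347 (.leaf 274 2007 (.cons 348 (.leaf 324 2012 (.leaf 372 2204 .nil)) .nil)) .nil)) .nil)) (.cons 227 (.cons 226 (.leaf 202 1623 (.cons 228 (.leaf 204 1629 (.cons 229 (.leaf 230 1810 (.leaf 249 1802 .nil)) .nil)) .nil)) (.cons 228 (.leaf 204 1629 (.cons 229 (.leaf 230 1810 (.cons 249 (.leaf 248 1793 (.leaf 252 1801 .nil)) .nil)) .nil)) (.cons 226 (.leaf 202 1623 (.cons 300 (.leaf 324 1820 (.cons 273 (.leaf 274 2176 (.cons 249 (.leaf 252 1986 (.cons 248 (.leaf 271 1978 (.leaf 247 1785 .nil)) .nil)) .nil)) .nil)) .nil)) (.cons 226 (.leaf 202 1623 (.cons 228 (.leaf 204 1629 (.cons 229 (.leaf 230 1810 (.cons 205 (.leaf 206 1617 (.cons 253 (.leaf 254 1808 (.cons 225 (.leaf 252 1800 (.cons 200 (.leaf 201 1603 (.cons 224 (.leaf 223 1784 (.cons 248 (.leaf 247 1786 (.cons 271 (.leaf 295 1598 (.cons 273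 (.leaf 297 1604 (.leaf 274 1977 .nil)) .nil)) .nil)) .nil)) .nil)) .nil)) .nil)) .nil)) .nil)) .nil)) .nil)) .nil)))) (.cons 274 (.cons 273 (.leaf 252 1985 (.leaf 300 2176 .nil)) (.cons 323 (.leaf 347 2007 (.cons 322 (.leaf 346 2006 (.cons 252 (.leaf 228 1821 (.cons 324 (.leaf 348 2012 (.cons 300 (.leaf 227 1820 (.cons 301 (.leaf 302 2386 (.leaf 321 2377 .nil)) .nil)) .nil)) .nil)) .nil)) .nil)) (.cons 273 (.leaf 300 2176 (.leaf 271 1977 .nil)) (.cons 273 (.leaf 252 1985 (.leaf 271 1977 .nil)) .nil)))) (.cons 323 (.leaf 226 1815 (.cons 322 (.leaf 346 2006 (.cons 324 (.leaf 348 2012 (.cons 300 (.leaf 227 1820 (.cons 301 (.leaf 302 2386 (.leaf 321 2377 .nil)) .nil)) .nil)) .nil)) .nil)) (.cons 227 (.cons 226 (.leaf 202 1623 (.leaf 323 1815 .nil)) (.cons 228 (.leaf 204 1629 (.cons 229 (.leaf 230 1810 (.cons 249 (.leaf 248 1793 (.leaf 252 1801 .nil)) .nil)) .nil)) .nil)) .nil))))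
noncomputable def t24 : T := .cons 299 t23 (.cons 249 t22 (.cons 249 (.cons 248 (.leaf 271 1978 (.cons 227 (.leaf 228 1793 (.cons 226 (.leaf 247 1785 (.cons 202 (.leaf 178 1428 (.leaf 299 1623 .nil)) .nil)) .nil)) .nil)) (.cons 252 (.leaf 273 1986 (.cons 224 (.leaf 225 1795 (.cons 228 (.leaf 229 1801 (.cons 204 (.leaf 180 1438 (.cons 299 (.leaf 227 1629 (.leaf 323 1821 .nil)) .nil)) .nil)) .nil)) .nil)) (.cons 248 (.leaf 271 1978 (.cons 223 (.leaf 224 1787 (.cons 247 (.leaf 222 1779 (.cons 226 (.leaf 227 1785 (.cons 178 (.leaf 202 1428 (.cons 225 (.leaf 246 1777 (.cons 252 (.leaf 273 1986 (.leaf 253 1803 .nil)) .nil)) .nil)) .nil)) .nil)) .nil)) .nil)) (.cons 248 (.leaf 271 1978 (.cons 223 (.leaf 224 1787 (.cons 247 (.leaf 222 1779 (.cons 273 (.leaf 252 1986 (.cons 246 (.leaf 245 1960 (.cons 225 (.leaf 226 1777 (.cons 296 (.leaf 201 1606 (.leaf 320 1797 .nil)) .nil)) .nil)) .nil))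 .nil)) .nil)) .nil)) .nil)))) (.cons 299 t21 (.cons 299 t20 (.cons 273 (.cons 271 (.leaf 274 1977 (.cons 249 (.leaf 248 1978 (.leaf 252 1986 .nil)) .nil)) (.cons 249 (.leaf 252 1986 (.cons 271 (.leaf 248 1978 (.leaf 270 1969 .nil)) .nil)) (.cons 274 (.leaf 271 1977 (.cons 247 (.leaf 248 1979 (.cons 296 (.leaf 295 2170 (.cons 299 (.leaf 300 2176 (.cons 323 (.leaf 347 2007 (.cons 322 (.leaf 346 2006 (.cons 324 (.leaf 348 2012 (.cons 321 (.leaf 297 2371 (.cons 344 (.leaf 345 2562 (.cons 320 (.leaf 249 1989 (.leaf 343 2554 .nil)) .nil)) .nil)) .nil)) .nil)) .nil)) .nil)) .nil)) .nil)) .nil)) (.cons 274 (.leaf 252 1985 (.leaf 271 1977 .nil)) (.cons 252 (.leaf 274 1985 (.leaf 249 1986 .nil)) .nil))))) (.cons 273 (.cons 252 (.leaf 274 1985 (.leaf 249 1986 .nil)) (.cons 249 (.leaf 252 1986 (.cons 271 (.leaf 248 1978 (.leaf 270 1969 .nil)) .nil)) (.cons 271 (.leaf 274 1977 (.cons 249 (.leaf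 248 1978 (.leaf 270 1969 .nil)) .nil)) (.cons 274 (.leaf 252 1985 (.leaf 271 1977 .nil)) .nil)))) (.cons 252 t19 .nil)))))))
noncomputable def t25 : T := .cons 180 (.leaf 204 1447 (.cons 181 (.leaf 156 1255 (.cons 182 (.leaf 158 1261 (.leaf 206 1453 .nil)) .nil)) .nil)) (.cons 182 (.leaf 206 1453 (.cons 181 (.leaf 158 1261 (.cons 156 (.leaf 180 1255 (.cons 157 (.leaf 228 1254 (.leaf 132 1063 .nil)) .nil)) .nil)) .nil)) (.cons 182 (.leaf 206 1453 (.cons 181 (.leaf 158 1261 (.cons 228 (.leaf 157 1254 (.cons 301 (.leaf 325 1831 (.leaf 204 1639 .nil)) .nil)) .nil)) .nil)) (.cons 204 (.leaf 180 1447 (.cons 228 (.leaf 301 1639 (.cons 157 (.leaf 181 1254 (.cons 227 (.leaf 299 1629 (.cons 206 (.leaf 226 1617 (.leaf 207 1626 .nil)) .nil)) .nil)) .nil)) .nil)) (.cons 204 (.leaf 180 1447 (.cons 228 (.leaf 301 1639 (.cons 181 (.leaf 157 1254 (.cons 182 (.leaf 158 1261 (.cons 183 (.leaf 184 1442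 (.cons 202 (.leaf 203 1425 (.cons 226 (.leaf 178 1428 (.cons 227 (.leaf 299 1629 (.leaf 201 1611 .nil)) .nil)) .nil)) .nil)) .nil)) .nil)) .nil)) .nil)) (.cons 204 (.leaf 180 1447 (.cons 182 (.leaf 206 1453 (.cons 301 (.leaf 228 1639 (.cons 324 (.leaf 300 1830 (.cons 325 (.leaf 348 2022 (.cons 326 (.leaf 302 1836 (.leaf 350 2028 .nil)) .nil)) .nil)) .nil)) .nil)) .nil)) .nil)))))
noncomputable def t26 : T := .cons 319 (.leaf 343 1982 (.cons 224 (.leaf 295 1790 (.cons 297 (.leaf 200 1604 (.leaf 321 1796 .nil)) .nil)) .nil)) (.cons 247 (.leaf 223 1791 (.cons 246 (.leaf 245 1960 (.cons 222 (.leaf 221 1771 (.cons 269 (.leaf 270 1962 (.cons 319 (.leaf 343 1982 (.cons 295 (.leaf 224 1790 (.leaf 271 1783 .nil)) .nil)) .nil)) .nil)) .nil)) .nil)) (.cons 321 (.leaf 345 1988 (.cons 297 (.leaf 224 1796 (.cons 247 (.leaf 223 1791 (.cons 246 (.leaf 245 1960 (.cons 221 (.leaf 222 1771 (.cons 270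 (.leaf 269 1962 (.cons 271 (.leaf 298 2160 (.cons 294 (.leaf 293 2154 (.cons 322 (.leaf 346 1996 (.leaf 295 2352 .nil)) .nil)) .nil)) .nil)) .nil)) .nil)) .nil)) .nil)) .nil)) (.cons 247 (.leaf 223 1791 (.cons 246 (.leaf 245 1960 (.cons 222 (.leaf 221 1771 (.cons 269 (.leaf 270 1962 (.cons 319 (.leaf 343 1982 (.cons 295 (.leaf 271 1783 (.cons 294 (.leaf 293 2153 (.cons 321 (.leaf 345 1988 (.leaf 322 2355 .nil)) .nil)) .nil)) .nil)) .nil)) .nil)) .nil)) .nil)) (.cons 321 (.leaf 345 1988 (.cons 297 (.leaf 224 1796 (.cons 223 (.leaf 247 1791 (.cons 319 (.leaf 343 1982 (.cons 298 (.leaf 299 2362 (.leaf 318 2353 .nil)) .nil)) .nil)) .nil)) .nil)) .nil))))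
noncomputable def t27 : T := .cons 274 (.leaf 273 1985 (.cons 203 (.leaf 298 1622 (.cons 180 (.leaf 204 1437 (.cons 179 (.leaf 156 1245 (.cons 154 (.leaf 178 1239 (.cons 155 (.leaf 228 1244 (.leaf 130 1047 .nil)) .nil)) .nil)) .nil)) .nil)) .nil)) (.cons 299 (.cons 226 (.leaf 202 1623 (.cons 225 (.leaf 224 1792 (.cons 228 (.leaf 204 1629 (.leaf 253 1800 .nil)) .nil)) .nil)) (.cons 202 (.leaf 226 1623 (.cons 178 (.leaf 203 1431 (.cons 298 (.leaf 322 1814 (.cons 300 (.leaf 324 1820 (.cons 297 (.leaf 273 2179 (.cons 296 (.leaf 271 2171 (.cons 320 (.leaf 319 2362 (.leaf 321 2370 .nil)) .nil)) .nil)) .nil)) .nil)) .nil)) .nil)) (.cons 204 (.leaf 228 1629 (.cons 180 (.leaf 203 1437 (.cons 298 (.leaf 322 1814 (.cons 300 (.leaf 324 1820 (.cons 297 (.leaf 273 2179 (.cons 296 (.leaf 271 2171 (.cons 320 (.leaf 319 2362 (.leaf 321 2370 .nil)) .nil)) .nil)) .nil)) .nil)) .nil)) .nil)) .nil)))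 (.cons 299 (.cons 202 (.leaf 226 1623 (.cons 203 (.leaf 178 1431 (.cons 204 (.leaf 180 1437 (.leaf 228 1629 .nil)) .nil)) .nil)) (.cons 202 (.leaf 226 1623 (.cons 203 (.leaf 178 1431 (.cons 298 (.leaf 274 1622 (.leaf 322 1814 .nil)) .nil)) .nil)) (.cons 204 (.leaf 228 1629 (.cons 203 (.leaf 180 1437 (.cons 298 (.leaf 274 1622 (.leaf 322 1814 .nil)) .nil)) .nil)) (.cons 226 (.leaf 202 1623 (.cons 225 (.leaf 224 1792 (.cons 228 (.leaf 204 1629 (.leaf 253 1800 .nil)) .nil)) .nil)) .nil)))) (.cons 273 (.leaf 274 1985 (.cons 299 (.cons 298 (.leaf 322 1814 (.cons 297 (.leaf 300 2179 (.cons 271 (.leaf 270 2160 (.leaf 296 2171 .nil)) .nil)) .nil)) (.cons 226 (.leaf 202 1623 (.cons 225 (.leaf 224 1792 (.cons 228 (.leaf 204 1629 (.leaf 253 1800 .nil)) .nil)) .nil)) .nil)) .nil)) (.cons 274 (.leaf 273 1985 (.cons 203 (.leaf 298 1622 (.cons 178 (.leaf 202 1431 (.cons 179 (.leaf 154 1239 (.cons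 180 (.leaf 204 1437 (.leaf 156 1245 .nil)) .nil)) .nil)) .nil)) .nil)) (.cons 274 (.leaf 273 1985 (.cons 203 (.leaf 298 1622 (.cons 178 (.leaf 202 1431 (.cons 179 (.leaf 154 1239 (.cons 155 (.leaf 228 1244 (.cons 156 (.leaf 180 1245 (.leaf 132 1053 .nil)) .nil)) .nil)) .nil)) .nil)) .nil)) (.cons 274 (.leaf 273 1985 (.cons 253 (.leaf 254 2002 (.cons 226 (.cons 202 (.leaf 299 1623 (.cons 178 (.leaf 203 1431 (.leaf 154 1236 .nil)) .nil)) (.cons 225 (.leaf 224 1792 (.leaf 228 1800 .nil)) .nil)) .nil)) .nil)) .nil))))))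
noncomputable def t28 : T := .cons 250 (.cons 230 (.leaf 229 1809 (.cons 254 (.leaf 274 2002 (.leaf 231 1817 .nil)) .nil)) (.cons 226 (.leaf 225 1803 (.cons 202 (.leaf 178 1428 (.cons 227 (.leaf 299 1623 (.cons 229 (.leaf 230 1809 (.cons 228 (.leaf 249 1801 (.leaf 201 1611 .nil)) .nil)) .nil)) .nil)) .nil)) (.cons 226 (.leaf 225 1803 (.cons 202 (.leaf 178 1428 (.cons 299 (.leaf 227 1623 (.leaf 274 1620 .nil)) .nil)) .nil)) .nil))) (.cons 250 (.cons 226 (.leaf 225 1803 (.cons 202 (.leaf 178 1428 (.cons 227 (.leaf 299 1623 (.cons 229 (.leaf 230 1809 (.cons 228 (.leaf 249 1801 (.leaf 201 1611 .nil)) .nil)) .nil)) .nil)) .nil)) (.cons 229 (.leaf 230 1809 (.cons 228 (.leaf 249 1801 (.cons 204 (.leaf 180 1438 (.cons 277 (.leaf 278 2000 (.leaf 301 1639 .nil)) .nil)) .nil)) .nil)) (.cons 226 (.leaf 225 1803 (.cons 202 (.leaf 178 1428 (.cons 299 (.leaf 227 1623 (.leaf 274 1620 .nil)) .nil))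 .nil)) .nil))) (.cons 250 (.cons 229 (.leaf 230 1809 (.cons 228 (.leaf 249 1801 (.cons 204 (.leaf 180 1438 (.cons 277 (.leaf 278 2000 (.leaf 301 1639 .nil)) .nil)) .nil)) .nil)) (.cons 226 (.leaf 225 1803 (.cons 178 (.leaf 202 1428 (.cons 254 (.leaf 227 1811 (.cons 278 (.leaf 277 2000 (.leaf 279 2008 .nil)) .nil)) .nil)) .nil)) (.cons 226 (.leaf 225 1803 (.cons 202 (.leaf 178 1428 (.cons 227 (.leaf 299 1623 (.leaf 254 1811 .nil)) .nil)) .nil)) .nil))) (.cons 254 (.leaf 274 2002 (.cons 231 (.leaf 230 1817 (.cons 255 (.leaf 232 1825 (.cons 279 (.leaf 278 2008 (.leaf 280 2016 .nil)) .nil)) .nil)) .nil)) (.cons 254 (.leaf 274 2002 (.cons 227 (.leaf 226 1811 (.cons 228 (.leaf 255 1819 (.cons 204 (.leaf 180 1438 (.leaf 299 1629 .nil)) .nil)) .nil)) .nil)) .nil))))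
noncomputable def t29 : T := .cons 274 (.leaf 273 1985 (.cons 253 (.leaf 254 2002 (.cons 250 (.cons 229 (.leaf 230 1809 (.cons 277 (.leaf 278 2000 (.cons 301 (.cons 300 (.leaf 324 1830 (.cons 302 (.leaf 299 2195 (.leaf 326 1836 .nil)) .nil)) (.cons 228 (.leaf 249 1801 (.leaf 325 1831 .nil)) .nil)) .nil)) .nil)) (.cons 225 (.leaf 226 1803 (.cons 249 (.leaf 224 1795 (.cons 248 (.leaf 247 1976 (.leaf 271 1978 .nil)) .nil)) .nil)) (.cons 226 (.leaf 225 1803 (.cons 202 (.leaf 178 1428 (.leaf 299 1620 .nil)) .nil)) .nil))) .nil)) .nil)) (.cons 250 (.cons 249 (.leaf 273 1986 (.cons 224 (.leaf 225 1795 (.cons 248 (.leaf 271 1978 (.leaf 223 1787 .nil)) .nil)) .nil)) (.cons 253 (.cons 230 (.leaf 229 1809 (.cons 254 (.leaf 231 1817 (.cons 278 (.leaf 277 2000 (.leaf 279 2008 .nil)) .nil)) .nil)) (.cons 226 (.leaf 225 1803 (.cons 178 (.leaf 202 1428 (.cons 254 (.leaf 227 1811 (.cons 278 (.leaf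 277 2000 (.leaf 279 2008 .nil)) .nil)) .nil)) .nil)) (.cons 226 (.leaf 225 1803 (.cons 202 (.leaf 178 1428 (.cons 227 (.leaf 299 1623 (.leaf 254 1811 .nil)) .nil)) .nil)) (.cons 226 (.leaf 225 1803 (.cons 202 (.leaf 178 1428 (.cons 227 (.leaf 299 1623 (.cons 229 (.leaf 230 1809 (.cons 228 (.leaf 201 1611 (.cons 180 (.leaf 204 1438 (.cons 205 (.leaf 206 1617 (.cons 181 (.leaf 157 1254 (.leaf 156 1255 .nil)) .nil)) .nil)) .nil)) .nil)) .nil)) .nil)) .nil)) .nil)))) (.cons 249 (.leaf 273 1986 (.cons 228 (.leaf 229 1801 (.cons 248 (.leaf 271 1978 (.leaf 227 1793 .nil)) .nil)) .nil)) .nil))) (.cons 253 t28 (.cons 227 t27 (.cons 273 (.leaf 274 1985 (.cons 249 (.leaf 250 1986 (.cons 296 (.cons 320 (.leaf 344 1989 (.cons 225 (.leaf 201 1606 (.leaf 248 1797 .nil)) .nil)) (.cons 225 (.leaf 201 1606 (.cons 297 (.cons 224 (.leaf 200 1607 (.cons 321 (.leaf 248 1796 (.cons 345 (.leaf 369 2183 (.cons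 346 (.leaf 322 1996 (.leaf 370 2188 .nil)) .nil)) .nil)) .nil)) (.cons 298 (.leaf 322 1804 (.cons 271 (.leaf 270 2160 (.leaf 299 2171 .nil)) .nil)) (.cons 224 (.leaf 200 1607 (.cons 248 (.leaf 321 1796 (.cons 295 (.leaf 319 1790 (.cons 294 (.leaf 293 2153 (.cons 270 (.leaf 269 2155 (.cons 271 (.leaf 298 2160 (.cons 246 (.leaf 245 1963 (.cons 222 (.leaf 198 1588 (.cons 221 (.leaf 223 1768 (.leaf 247 1771 .nil)) .nil)) .nil)) .nil)) .nil)) .nil)) .nil)) .nil)) .nil)) .nil))) .nil)) (.cons 320 (.leaf 344 1989 (.cons 248 t26 .nil)) (.cons 320 (.leaf 344 1989 (.cons 225 (.leaf 201 1606 (.leaf 297 1798 .nil)) .nil)) .nil)))) .nil)) .nil)) (.cons 274 (.leaf 273 1985 (.cons 253 (.leaf 254 2002 (.cons 250 (.cons 229 (.leaf 230 1809 (.cons 228 (.leaf 249 1801 (.cons 204 (.leaf 180 1438 (.cons 277 (.leaf 278 2000 (.leaf 301 1639 .nil)) .nil)) .nil)) .nil)) (.cons 226 (.leaf 225 1803 (.cons 202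 (.leaf 178 1428 (.cons 177 (.leaf 201 1423 (.cons 203 (.leaf 179 1429 (.cons 298 (.leaf 227 1621 (.cons 277 (.leaf 278 2000 (.cons 321 (.leaf 297 1806 (.cons 322 (.leaf 346 2005 (.leaf 345 1998 .nil)) .nil)) .nil)) .nil)) .nil)) .nil)) .nil)) .nil)) (.cons 226 (.leaf 225 1803 (.cons 178 (.leaf 202 1428 (.cons 229 (.leaf 230 1809 (.cons 249 (.leaf 228 1801 (.cons 248 (.leaf 247 1976 (.leaf 271 1978 .nil)) .nil)) .nil)) .nil)) .nil)) .nil))) .nil)) .nil)) (.cons 273 (.leaf 274 1985 (.cons 250 (.leaf 249 1986 (.cons 253 (.cons 230 (.leaf 229 1809 (.cons 254 (.leaf 231 1817 (.cons 278 (.leaf 277 2000 (.leaf 279 2008 .nil)) .nil)) .nil)) (.cons 278 (.leaf 277 2000 (.cons 254 (.leaf 279 2008 (.cons 227 (.leaf 226 1811 (.cons 228 (.leaf 255 1819 (.cons 204 (.leaf 180 1438 (.leaf 299 1629 .nil)) .nil)) .nil)) .nil)) .nil)) (.cons 230 (.leaf 229 1809 (.cons 254 (.leaf 231 1817 (.cons 227 (.leaf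 226 1811 (.cons 228 (.leaf 255 1819 (.cons 204 (.leaf 180 1438 (.leaf 299 1629 .nil)) .nil)) .nil)) .nil)) .nil)) (.cons 229 (.leaf 230 1809 (.cons 277 (.leaf 278 2000 (.cons 205 t25 .nil)) .nil)) .nil)))) .nil)) .nil)) .nil))))))
noncomputable def t30 : T := .cons 227 (.leaf 203 1622 (.cons 322 (.leaf 299 1814 (.leaf 346 2005 .nil)) .nil)) (.cons 322 (.leaf 346 2005 (.cons 250 (.cons 323 (.leaf 347 2004 (.cons 226 (.leaf 299 1812 (.cons 225 (.leaf 201 1615 (.leaf 249 1807 .nil)) .nil)) .nil)) (.cons 249 (.leaf 225 1807 (.cons 248 (.leaf 247 1976 (.leaf 271 1978 .nil)) .nil)) (.cons 323 (.leaf 347 2004 (.cons 226 (.leaf 299 1812 (.cons 321 (.leaf 297 1806 (.leaf 345 1998 .nil)) .nil)) .nil)) .nil))) .nil)) (.cons 227 (.leaf 203 1622 (.cons 299 (.cons 202 (.leaf 226 1623 (.cons 324 (.leaf 300 1820 (.cons 323 (.leaf 348 2012 (.cons 347 (.leaf 250 2007 (.leaf 371 2199 .nil)) .nil)) .nil))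 .nil)) (.cons 300 (.leaf 324 1820 (.cons 228 (.leaf 204 1629 (.cons 252 (.leaf 323 1821 (.cons 253 (.leaf 254 2002 (.cons 301 (.leaf 302 2195 (.cons 277 (.leaf 278 2193 (.leaf 325 1831 .nil)) .nil)) .nil)) .nil)) .nil)) .nil)) (.cons 226 (.leaf 202 1623 (.cons 228 (.leaf 204 1629 (.cons 300 (.leaf 324 1820 (.cons 301 (.leaf 302 2195 (.cons 277 (.leaf 278 2193 (.cons 325 (.leaf 326 2384 (.cons 253 (.leaf 252 1831 (.cons 254 (.leaf 229 1808 (.leaf 230 1837 .nil)) .nil)) .nil)) .nil)) .nil)) .nil)) .nil)) .nil)) (.cons 202 (.leaf 226 1623 (.cons 228 (.leaf 204 1629 (.cons 323 (.leaf 252 1821 (.cons 347 (.leaf 250 2007 (.leaf 371 2199 .nil)) .nil)) .nil)) .nil)) .nil)))) .nil)) (.cons 322 (.leaf 346 2005 (.cons 227 (.leaf 203 1622 (.leaf 250 1813 .nil)) .nil)) .nil)))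
noncomputable def t31 : T := .cons 273 (.leaf 252 1985 (.cons 271 (.leaf 250 1977 (.cons 247 (.leaf 248 1979 (.leaf 246 1971 .nil)) .nil)) .nil)) (.cons 298 t30 (.cons 273 (.cons 299 (.leaf 300 2176 (.cons 247 (.leaf 248 1979 (.cons 271 (.leaf 246 1971 (.leaf 250 1977 .nil)) .nil)) .nil)) (.cons 299 (.leaf 300 2176 (.cons 248 (.leaf 247 1979 (.cons 227 (.cons 298 (.leaf 203 1622 (.leaf 322 1814 .nil)) (.cons 202 (.leaf 226 1623 (.cons 203 (.leaf 178 1431 (.cons 204 (.leaf 180 1437 (.leaf 228 1629 .nil)) .nil)) .nil)) (.cons 226 (.leaf 202 1623 (.cons 228 (.leaf 204 1629 (.cons 249 (.leaf 250 1793 (.leaf 225 1794 .nil)) .nil)) .nil)) .nil))) .nil)) .nil)) (.cons 271 (.leaf 250 1977 (.cons 247 (.leaf 248 1979 (.leaf 246 1971 .nil)) .nil)) (.cons 299 (.leaf 300 2176 (.cons 247 (.leaf 248 1979 (.cons 271 (.leaf 246 1971 (.leaf 298 2168 .nil)) .nil)) .nil)) (.cons 271 (.leaf 250 1977 (.cons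 299 (.leaf 300 2176 (.leaf 298 2168 .nil)) .nil)) .nil))))) (.cons 273 (.leaf 252 1985 (.cons 299 (.leaf 300 2176 (.cons 247 (.leaf 248 1979 (.cons 271 (.leaf 246 1971 (.leaf 298 2168 .nil)) .nil)) .nil)) .nil)) (.cons 273 (.leaf 252 1985 (.cons 299 (.leaf 300 2176 (.cons 248 (.leaf 247 1979 (.cons 227 (.cons 298 (.leaf 203 1622 (.leaf 322 1814 .nil)) (.cons 202 (.leaf 226 1623 (.cons 203 (.leaf 178 1431 (.cons 204 (.leaf 180 1437 (.leaf 228 1629 .nil)) .nil)) .nil)) (.cons 226 (.leaf 202 1623 (.cons 228 (.leaf 204 1629 (.cons 249 (.leaf 250 1793 (.leaf 225 1794 .nil)) .nil)) .nil)) .nil))) .nil)) .nil)) .nil)) (.cons 273 (.leaf 252 1985 (.cons 271 (.leaf 250 1977 (.cons 299 (.leaf 300 2176 (.leaf 298 2168 .nil)) .nil)) .nil)) .nil)))))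
noncomputable def t32 : T := .cons 227 (.leaf 203 1622 (.cons 322 (.leaf 299 1814 (.leaf 346 2005 .nil)) .nil)) (.cons 227 (.leaf 203 1622 (.cons 299 (.cons 204 (.leaf 228 1629 (.cons 324 (.leaf 300 1820 (.cons 323 (.leaf 348 2012 (.cons 347 (.leaf 250 2007 (.leaf 371 2199 .nil)) .nil)) .nil)) .nil)) (.cons 204 (.leaf 228 1629 (.cons 226 (.leaf 202 1623 (.cons 250 (.leaf 323 1812 (.cons 225 (.leaf 201 1615 (.cons 224 (.leaf 223 1784 (.cons 248 (.leaf 247 1786 (.cons 297 (.leaf 321 1806 (.cons 273 (.leaf 200 1604 (.cons 296 (.leaf 295 2169 (.cons 320 (.leaf 249 1797 (.leaf 319 2362 .nil)) .nil)) .nil)) .nil)) .nil)) .nil)) .nil)) .nil)) .nil)) .nil)) (.cons 300 (.leaf 324 1820 (.leaf 273 2176 .nil)) .nil))) .nil)) (.cons 322 (.leaf 346 2005 (.cons 250 (.cons 323 (.leaf 347 2004 (.cons 226 (.leaf 299 1812 (.cons 225 (.leaf 201 1615 (.leaf 249 1807 .nil)) .nil)) .nil)) (.cons 321 (.leaf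 345 1998 (.cons 226 (.leaf 297 1806 (.cons 201 (.leaf 225 1615 (.cons 202 (.leaf 178 1428 (.leaf 299 1620 .nil)) .nil)) .nil)) .nil)) (.cons 321 (.leaf 345 1998 (.cons 226 (.leaf 297 1806 (.cons 201 (.leaf 225 1615 (.cons 202 (.leaf 178 1428 (.leaf 177 1423 .nil)) .nil)) .nil)) .nil)) (.cons 323 (.leaf 347 2004 (.cons 249 (.leaf 225 1807 (.cons 248 (.leaf 247 1976 (.cons 224 (.leaf 223 1787 (.cons 321 (.leaf 345 1998 (.cons 297 (.leaf 296 1796 (.leaf 273 1799 .nil)) .nil)) .nil)) .nil)) .nil)) .nil)) (.cons 323 (.leaf 347 2004 (.cons 226 (.leaf 299 1812 (.cons 321 (.leaf 297 1806 (.leaf 345 1998 .nil)) .nil)) .nil)) .nil))))) .nil)) (.cons 322 (.leaf 346 2005 (.cons 227 (.leaf 203 1622 (.leaf 250 1813 .nil)) .nil)) .nil)))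
noncomputable def t33 : T := .cons 322 (.leaf 346 2005 (.cons 227 (.leaf 203 1622 (.leaf 299 1814 .nil)) .nil)) (.cons 227 (.leaf 203 1622 (.cons 299 (.cons 226 (.leaf 202 1623 (.cons 250 (.leaf 323 1812 (.cons 228 (.leaf 204 1629 (.cons 229 (.leaf 230 1810 (.leaf 249 1802 .nil)) .nil)) .nil)) .nil)) (.cons 324 (.leaf 300 1820 (.cons 323 (.leaf 348 2012 (.cons 347 (.leaf 250 2007 (.leaf 371 2199 .nil)) .nil)) .nil)) (.cons 226 (.leaf 202 1623 (.cons 228 (.leaf 204 1629 (.cons 300 (.leaf 324 1820 (.cons 301 (.leaf 302 2195 (.cons 277 (.leaf 278 2193 (.cons 325 (.leaf 326 2384 (.cons 253 (.leaf 252 1831 (.cons 254 (.leaf 229 1808 (.leaf 230 1837 .nil)) .nil)) .nil)) .nil)) .nil)) .nil)) .nil)) .nil)) .nil))) .nil)) (.cons 322 (.leaf 346 2005 (.cons 250 (.cons 249 (.leaf 225 1807 (.cons 321 (.leaf 345 1998 (.cons 297 (.leaf 226 1806 (.cons 296 (.leaf 295 2169 (.cons 323 (.leaf 347 2004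 (.leaf 324 2371 .nil)) .nil)) .nil)) .nil)) .nil)) (.cons 321 (.leaf 345 1998 (.cons 226 (.leaf 297 1806 (.cons 201 (.leaf 225 1615 (.cons 202 (.leaf 178 1428 (.leaf 299 1620 .nil)) .nil)) .nil)) .nil)) (.cons 249 (.leaf 225 1807 (.cons 248 (.leaf 247 1976 (.cons 224 (.leaf 223 1787 (.cons 321 (.leaf 345 1998 (.cons 296 (.leaf 297 1796 (.cons 295 (.leaf 319 1790 (.cons 323 (.leaf 347 2004 (.leaf 320 2363 .nil)) .nil)) .nil)) .nil)) .nil)) .nil)) .nil)) (.cons 225 (.leaf 249 1807 (.cons 226 (.leaf 201 1615 (.cons 323 (.leaf 299 1812 (.leaf 347 2004 .nil)) .nil)) .nil)) (.cons 323 (.leaf 347 2004 (.cons 226 (.leaf 299 1812 (.cons 321 (.leaf 297 1806 (.leaf 345 1998 .nil)) .nil)) .nil)) .nil))))) .nil)) (.cons 322 (.leaf 346 2005 (.cons 227 (.leaf 203 1622 (.leaf 250 1813 .nil)) .nil)) .nil)))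
noncomputable def t34 : T := .cons 273 (.leaf 252 1985 (.cons 299 (.leaf 300 2176 (.cons 296 (.leaf 295 2170 (.cons 248 (.leaf 247 1979 (.cons 320 (.cons 249 (.leaf 225 1797 (.leaf 344 1989 .nil)) (.cons 319 (.leaf 343 1982 (.cons 345 (.leaf 321 1988 (.cons 344 (.leaf 369 2180 (.cons 297 (.leaf 368 2181 (.leaf 298 2362 .nil)) .nil)) .nil)) .nil)) (.cons 225 (.leaf 249 1797 (.cons 201 (.leaf 224 1605 (.cons 319 (.leaf 343 1982 (.cons 321 (.leaf 345 1988 (.cons 322 (.leaf 298 2361 (.cons 346 (.leaf 323 2006 (.leaf 347 2552 .nil)) .nil)) .nil)) .nil)) .nil)) .nil)) .nil))) .nil)) .nil)) .nil)) .nil)) (.cons 298 t33 (.cons 298 t32 (.cons 273 (.leaf 252 1985 (.cons 248 (.leaf 247 1979 (.cons 296 (.leaf 295 2170 (.cons 320 (.cons 225 (.leaf 249 1797 (.cons 319 (.leaf 343 1982 (.cons 321 (.leaf 345 1988 (.cons 224 (.leaf 201 1605 (.leaf 297 1796 .nil)) .nil)) .nil)) .nil)) (.cons 321 (.leaf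 345 1988 (.cons 343 (.leaf 319 1982 (.cons 344 (.leaf 367 2174 (.cons 322 (.leaf 323 2554 (.cons 298 (.leaf 346 2005 (.cons 297 (.leaf 224 1796 (.leaf 368 2181 .nil)) .nil)) .nil)) .nil)) .nil)) .nil)) (.cons 249 (.leaf 225 1797 (.leaf 344 1989 .nil)) .nil))) .nil)) .nil)) .nil)) (.cons 273 (.leaf 252 1985 (.cons 299 (.leaf 300 2176 (.cons 296 (.leaf 295 2170 (.cons 248 (.leaf 247 1979 (.cons 320 (.cons 249 (.leaf 225 1797 (.leaf 344 1989 .nil)) (.cons 319 (.leaf 343 1982 (.cons 345 (.leaf 321 1988 (.cons 344 (.leaf 369 2180 (.cons 297 (.leaf 368 2181 (.cons 317 (.leaf 318 2536 (.cons 347 (.leaf 346 2555 (.cons 224 (.leaf 200 1604 (.cons 323 (.leaf 250 2007 (.cons 348 (.leaf 324 2012 (.leaf 372 2204 .nil)) .nil)) .nil)) .nil)) .nil)) .nil)) .nil)) .nil)) .nil)) (.cons 225 (.leaf 249 1797 (.cons 224 (.leaf 201 1605 (.cons 297 (.leaf 200 1604 (.leaf 321 1796 .nil)) .nil)) .nil)) .nil)))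 .nil)) .nil)) .nil)) .nil)) (.cons 273 (.leaf 252 1985 (.cons 299 (.leaf 300 2176 (.cons 248 (.leaf 247 1979 (.cons 227 (.cons 298 (.leaf 203 1622 (.leaf 322 1814 .nil)) (.cons 202 (.leaf 226 1623 (.cons 203 (.leaf 178 1431 (.cons 204 (.leaf 180 1437 (.leaf 228 1629 .nil)) .nil)) .nil)) (.cons 226 (.leaf 202 1623 (.cons 228 (.leaf 204 1629 (.cons 249 (.leaf 250 1793 (.leaf 225 1794 .nil)) .nil)) .nil)) .nil))) .nil)) .nil)) .nil)) (.cons 273 (.leaf 252 1985 (.cons 299 (.leaf 300 2176 (.cons 296 (.leaf 295 2170 (.cons 227 (.cons 298 (.leaf 203 1622 (.leaf 322 1814 .nil)) (.cons 202 (.leaf 226 1623 (.cons 203 (.leaf 178 1431 (.cons 204 (.leaf 180 1437 (.leaf 228 1629 .nil)) .nil)) .nil)) (.cons 202 (.leaf 226 1623 (.cons 322 (.leaf 298 1814 (.cons 204 (.leaf 228 1629 (.cons 323 (.leaf 346 2006 (.cons 324 (.leaf 348 2012 (.cons 321 (.leaf 297 2371 (.cons 344 (.leaf 345 2562 (.cons 320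 (.leaf 249 1989 (.leaf 343 2554 .nil)) .nil)) .nil)) .nil)) .nil)) .nil)) .nil)) .nil)) .nil))) .nil)) .nil)) .nil)) (.cons 273 (.leaf 252 1985 (.cons 299 (.leaf 300 2176 (.cons 296 (.leaf 295 2170 (.cons 227 (.cons 298 (.leaf 203 1622 (.leaf 322 1814 .nil)) (.cons 202 (.leaf 226 1623 (.cons 203 (.leaf 178 1431 (.cons 204 (.leaf 180 1437 (.leaf 228 1629 .nil)) .nil)) .nil)) (.cons 202 (.leaf 226 1623 (.cons 322 (.leaf 298 1814 (.cons 204 (.leaf 228 1629 (.cons 323 (.leaf 346 2006 (.cons 324 (.leaf 348 2012 (.cons 248 (.leaf 247 1979 (.cons 321 (.leaf 297 2371 (.cons 345 (.leaf 320 1988 (.leaf 344 2562 .nil)) .nil)) .nil)) .nil)) .nil)) .nil)) .nil)) .nil)) .nil))) .nil)) .nil)) .nil)) .nil)))))))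
noncomputable def t35 : T := .cons 299 (.leaf 300 2176 (.cons 296 (.leaf 295 2170 (.cons 227 (.cons 298 (.leaf 203 1622 (.leaf 322 1814 .nil)) (.cons 202 (.leaf 226 1623 (.cons 203 (.leaf 178 1431 (.cons 204 (.leaf 180 1437 (.leaf 228 1629 .nil)) .nil)) .nil)) (.cons 202 (.leaf 226 1623 (.cons 298 (.leaf 322 1814 (.leaf 271 2168 .nil)) .nil)) .nil))) .nil)) .nil)) (.cons 299 (.leaf 300 2176 (.cons 296 (.leaf 295 2170 (.cons 227 (.cons 298 (.leaf 203 1622 (.leaf 322 1814 .nil)) (.cons 202 (.leaf 226 1623 (.cons 203 (.leaf 178 1431 (.cons 204 (.leaf 180 1437 (.leaf 228 1629 .nil)) .nil)) .nil)) (.cons 202 (.leaf 226 1623 (.cons 322 (.leaf 298 1814 (.cons 204 (.leaf 228 1629 (.cons 323 (.leaf 346 2006 (.cons 324 (.leaf 348 2012 (.cons 321 (.leaf 297 2371 (.cons 344 (.leaf 345 2562 (.cons 320 (.leaf 249 1989 (.leaf 343 2554 .nil)) .nil)) .nil)) .nil)) .nil)) .nil)) .nil)) .nil)) .nil)))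 .nil)) .nil)) (.cons 271 (.leaf 250 1977 (.cons 295 (.leaf 296 2170 (.leaf 294 2162 .nil)) .nil)) (.cons 299 (.leaf 300 2176 (.cons 271 (.leaf 250 1977 (.leaf 298 2168 .nil)) .nil)) .nil)))
noncomputable def t36 : T := .cons 203 (.leaf 298 1622 (.cons 179 (.leaf 250 1430 (.cons 154 (.leaf 178 1239 (.cons 155 (.leaf 130 1047 (.cons 156 (.leaf 180 1245 (.leaf 132 1053 .nil)) .nil)) .nil)) .nil)) .nil)) (.cons 299 (.cons 202 (.leaf 226 1623 (.cons 228 (.leaf 204 1629 (.cons 323 (.leaf 252 1821 (.cons 324 (.leaf 300 1820 (.leaf 348 2012 .nil)) .nil)) .nil)) .nil)) (.cons 322 (.leaf 298 1814 (.cons 204 (.leaf 228 1629 (.cons 323 (.leaf 346 2006 (.cons 347 (.leaf 250 2007 (.cons 348 (.leaf 324 2012 (.leaf 372 2204 .nil)) .nil)) .nil)) .nil)) .nil)) (.cons 298 (.leaf 322 1814 (.cons 226 (.leaf 202 1623 (.cons 228 (.leaf 204 1629 (.cons 300 (.leaf 324 1820 (.cons 301 (.leaf 302 2195 (.cons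 277 (.leaf 278 2193 (.cons 325 (.leaf 326 2384 (.cons 253 (.leaf 252 1831 (.cons 254 (.leaf 229 1808 (.leaf 230 1837 .nil)) .nil)) .nil)) .nil)) .nil)) .nil)) .nil)) .nil)) .nil)) (.cons 322 (.leaf 298 1814 (.cons 202 (.leaf 226 1623 (.cons 323 (.leaf 346 2006 (.cons 324 (.leaf 300 1820 (.leaf 348 2012 .nil)) .nil)) .nil)) .nil)) (.cons 322 (.leaf 298 1814 (.cons 202 (.leaf 226 1623 (.cons 228 (.leaf 204 1629 (.cons 323 (.leaf 252 1821 (.leaf 346 2006 .nil)) .nil)) .nil)) .nil)) .nil))))) (.cons 299 (.cons 202 (.leaf 226 1623 (.cons 228 (.leaf 204 1629 (.cons 323 (.leaf 252 1821 (.cons 324 (.leaf 300 1820 (.leaf 348 2012 .nil)) .nil)) .nil)) .nil)) (.cons 204 (.leaf 228 1629 (.cons 180 (.leaf 203 1437 (.cons 324 (.leaf 300 1820 (.cons 323 (.leaf 348 2012 (.cons 346 (.leaf 322 2006 (.cons 347 (.leaf 250 2007 (.leaf 370 2198 .nil)) .nil)) .nil)) .nil)) .nil)) .nil)) (.cons 202 (.leaf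 226 1623 (.cons 178 (.leaf 203 1431 (.cons 324 (.leaf 300 1820 (.cons 323 (.leaf 348 2012 (.cons 346 (.leaf 322 2006 (.cons 347 (.leaf 250 2007 (.leaf 370 2198 .nil)) .nil)) .nil)) .nil)) .nil)) .nil)) (.cons 202 (.leaf 226 1623 (.cons 203 (.leaf 178 1431 (.cons 204 (.leaf 180 1437 (.leaf 228 1629 .nil)) .nil)) .nil)) .nil)))) (.cons 298 (.leaf 203 1622 (.cons 322 (.leaf 299 1814 (.leaf 346 2005 .nil)) .nil)) .nil)))
noncomputable def t37 : T := .cons 203 (.leaf 178 1431 (.cons 204 (.leaf 180 1437 (.cons 228 (.leaf 299 1629 (.cons 229 (.leaf 230 1619 (.leaf 201 1608 .nil)) .nil)) .nil)) .nil)) (.cons 299 (.leaf 226 1623 (.cons 228 (.leaf 204 1629 (.cons 323 (.leaf 252 1821 (.cons 324 (.leaf 300 1820 (.leaf 348 2012 .nil)) .nil)) .nil)) .nil)) (.cons 203 (.leaf 178 1431 (.cons 204 (.leaf 180 1437 (.cons 201 (.cons 176 (.leaf 177 1411 (.cons 228 (.leaf 200 1600 (.leaf 229 1608 .nil))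 .nil)) (.cons 176 (.leaf 177 1411 (.cons 225 (.leaf 224 1602 (.cons 205 (.leaf 226 1610 (.cons 200 (.leaf 175 1403 (.cons 128 (.leaf 152 1028 (.cons 182 (.leaf 181 1425 (.cons 206 (.leaf 183 1433 (.cons 230 (.leaf 229 1616 (.leaf 231 1624 .nil)) .nil)) .nil)) .nil)) .nil)) .nil)) .nil)) .nil)) (.cons 176 (.leaf 177 1411 (.cons 200 (.leaf 228 1600 (.leaf 175 1403 .nil)) .nil)) (.cons 176 (.leaf 177 1411 (.cons 225 (.leaf 224 1602 (.cons 205 (.leaf 226 1610 (.cons 229 (.leaf 228 1608 (.leaf 230 1616 .nil)) .nil)) .nil)) .nil)) (.cons 228 (.leaf 200 1600 (.leaf 229 1608 .nil)) .nil))))) .nil)) .nil)) (.cons 226 (.leaf 299 1623 (.cons 178 (.leaf 203 1431 (.leaf 154 1236 .nil)) .nil)) .nil)))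
noncomputable def t38 : T := .cons 203 (.cons 180 (.leaf 204 1437 (.cons 156 (.leaf 179 1245 (.cons 274 (.leaf 298 1622 (.cons 273 (.leaf 252 1985 (.cons 247 (.leaf 248 1979 (.cons 271 (.leaf 246 1971 (.cons 295 (.leaf 296 2170 (.leaf 294 2162 .nil)) .nil)) .nil)) .nil)) .nil)) .nil)) .nil)) (.cons 178 (.leaf 202 1431 (.cons 154 (.leaf 179 1239 (.cons 274 (.leaf 298 1622 (.cons 273 (.leaf 252 1985 (.cons 247 (.leaf 248 1979 (.cons 271 (.leaf 246 1971 (.cons 295 (.leaf 296 2170 (.leaf 294 2162 .nil)) .nil)) .nil)) .nil)) .nil)) .nil)) .nil)) (.cons 180 (.leaf 204 1437 (.cons 178 (.leaf 202 1431 (.cons 179 (.leaf 154 1239 (.leaf 156 1245 .nil)) .nil)) .nil)) (.cons 274 (.leaf 298 1622 (.cons 178 (.leaf 202 1431 (.cons 180 (.leaf 204 1437 (.cons 273 (.leaf 252 1985 (.cons 247 (.leaf 248 1979 (.cons 271 (.leaf 246 1971 (.cons 295 (.leaf 296 2170 (.leaf 294 2162 .nil)) .nil)) .nil)) .nil))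 .nil)) .nil)) .nil)) .nil)))) (.cons 299 (.cons 204 (.leaf 228 1629 (.cons 298 (.leaf 322 1814 (.cons 300 (.leaf 324 1820 (.cons 273 (.leaf 274 2176 (.leaf 297 2179 .nil)) .nil)) .nil)) .nil)) (.cons 228 (.leaf 204 1629 (.cons 322 (.leaf 298 1814 (.cons 323 (.leaf 252 1821 (.leaf 346 2006 .nil)) .nil)) .nil)) (.cons 300 (.leaf 324 1820 (.cons 202 (.leaf 226 1623 (.cons 273 (.leaf 274 2176 (.cons 298 (.leaf 322 1814 (.leaf 297 2179 .nil)) .nil)) .nil)) .nil)) (.cons 300 (.leaf 324 1820 (.cons 226 (.leaf 202 1623 (.cons 228 (.leaf 204 1629 (.cons 252 (.leaf 323 1821 (.cons 225 (.leaf 224 1792 (.leaf 253 1800 .nil)) .nil)) .nil)) .nil)) .nil)) .nil)))) (.cons 299 (.cons 300 (.leaf 324 1820 (.cons 226 (.leaf 202 1623 (.cons 228 (.leaf 204 1629 (.cons 252 (.leaf 323 1821 (.cons 225 (.leaf 224 1792 (.leaf 253 1800 .nil)) .nil)) .nil)) .nil)) .nil)) (.cons 322 (.leaf 298 1814 (.cons 202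 (.leaf 226 1623 (.cons 178 (.leaf 203 1431 (.cons 323 (.leaf 346 2006 (.cons 324 (.leaf 300 1820 (.leaf 348 2012 .nil)) .nil)) .nil)) .nil)) .nil)) (.cons 228 (.leaf 204 1629 (.cons 322 (.leaf 298 1814 (.cons 323 (.leaf 252 1821 (.leaf 346 2006 .nil)) .nil)) .nil)) (.cons 204 (.leaf 228 1629 (.cons 180 (.leaf 203 1437 (.cons 298 (.leaf 322 1814 (.cons 202 (.leaf 226 1623 (.cons 300 (.leaf 324 1820 (.cons 297 (.leaf 273 2179 (.cons 296 (.leaf 271 2171 (.cons 320 (.leaf 319 2362 (.leaf 321 2370 .nil)) .nil)) .nil)) .nil)) .nil)) .nil)) .nil)) .nil)) .nil)))) (.cons 274 (.cons 203 (.leaf 298 1622 (.cons 178 (.leaf 202 1431 (.cons 154 (.leaf 179 1239 (.cons 273 (.leaf 252 1985 (.cons 247 (.leaf 248 1979 (.cons 271 (.leaf 246 1971 (.cons 295 (.leaf 296 2170 (.leaf 294 2162 .nil)) .nil)) .nil)) .nil)) .nil)) .nil)) .nil)) (.cons 298 (.leaf 203 1622 (.cons 322 (.leaf 299 1814 (.leaf 346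 2005 .nil)) .nil)) (.cons 273 (.leaf 252 1985 (.cons 247 (.leaf 248 1979 (.cons 271 (.leaf 246 1971 (.cons 295 (.leaf 296 2170 (.leaf 294 2162 .nil)) .nil)) .nil)) .nil)) .nil))) (.cons 202 t37 (.cons 299 (.cons 298 (.leaf 322 1814 (.cons 203 (.leaf 274 1622 (.cons 204 (.leaf 180 1437 (.leaf 228 1629 .nil)) .nil)) .nil)) (.cons 228 (.leaf 204 1629 (.cons 323 (.leaf 252 1821 (.cons 324 (.leaf 300 1820 (.leaf 348 2012 .nil)) .nil)) .nil)) (.cons 298 (.leaf 322 1814 (.cons 203 (.leaf 274 1622 (.cons 180 (.leaf 204 1437 (.cons 156 (.leaf 179 1245 (.cons 300 (.leaf 324 1820 (.cons 297 (.leaf 273 2179 (.cons 296 (.leaf 271 2171 (.cons 320 (.leaf 319 2362 (.leaf 321 2370 .nil)) .nil)) .nil)) .nil)) .nil)) .nil)) .nil)) .nil)) (.cons 298 (.leaf 322 1814 (.cons 203 (.leaf 274 1622 (.cons 300 (.leaf 324 1820 (.cons 297 (.leaf 273 2179 (.cons 296 (.leaf 271 2171 (.cons 320 (.leaf 319 2362 (.leaf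 321 2370 .nil)) .nil)) .nil)) .nil)) .nil)) .nil)) .nil)))) (.cons 299 (.cons 298 (.leaf 322 1814 (.cons 203 (.leaf 274 1622 (.cons 204 (.leaf 180 1437 (.leaf 228 1629 .nil)) .nil)) .nil)) (.cons 202 (.leaf 226 1623 (.cons 203 (.leaf 178 1431 (.cons 204 (.leaf 180 1437 (.leaf 228 1629 .nil)) .nil)) .nil)) (.cons 298 (.leaf 322 1814 (.cons 203 (.leaf 274 1622 (.cons 300 (.leaf 324 1820 (.cons 297 (.leaf 273 2179 (.cons 296 (.leaf 271 2171 (.cons 320 (.leaf 319 2362 (.leaf 321 2370 .nil)) .nil)) .nil)) .nil)) .nil)) .nil)) (.cons 202 (.leaf 226 1623 (.cons 298 (.leaf 322 1814 (.cons 300 (.leaf 324 1820 (.cons 273 (.leaf 274 2176 (.leaf 297 2179 .nil)) .nil)) .nil)) .nil)) .nil)))) .nil))))))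
noncomputable def t39 : T := .cons 296 (.leaf 201 1606 (.cons 320 (.leaf 248 1797 (.leaf 344 1989 .nil)) .nil)) (.cons 297 (.cons 200 (.leaf 224 1607 (.cons 296 (.leaf 320 1798 (.cons 322 (.leaf 298 1804 (.cons 321 (.leaf 226 1805 (.leaf 346 1996 .nil)) .nil)) .nil)) .nil)) (.cons 200 (.leaf 224 1607 (.cons 296 (.leaf 320 1798 (.cons 322 (.leaf 298 1804 (.cons 321 (.leaf 346 1996 (.cons 345 (.leaf 248 1991 (.leaf 369 2183 .nil)) .nil)) .nil)) .nil)) .nil)) (.cons 226 (.leaf 202 1613 (.leaf 321 1805 .nil)) (.cons 200 (.leaf 224 1607 (.cons 226 (.leaf 202 1613 (.cons 298 (.leaf 322 1804 (.cons 299 (.leaf 323 1815 (.leaf 300 2179 .nil)) .nil)) .nil)) .nil)) .nil)))) (.cons 202 (.cons 226 (.leaf 178 1428 (.leaf 297 1613 .nil)) (.cons 201 (.leaf 178 1421 (.cons 176 (.leaf 200 1415 (.cons 177 (.leaf 248 1414 (.leaf 152 1223 .nil)) .nil)) .nil)) (.cons 297 (.leaf 226 1613 (.cons 200 (.leaf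 224 1607 (.cons 176 (.leaf 201 1415 (.cons 322 (.leaf 298 1804 (.cons 321 (.leaf 346 1996 (.cons 344 (.leaf 320 1990 (.cons 345 (.leaf 248 1991 (.leaf 368 2182 .nil)) .nil)) .nil)) .nil)) .nil)) .nil)) .nil)) .nil))) (.cons 201 (.leaf 296 1606 (.cons 176 (.leaf 200 1415 (.cons 202 (.leaf 178 1421 (.cons 177 (.leaf 152 1223 (.cons 226 (.leaf 297 1613 (.leaf 153 1228 .nil)) .nil)) .nil)) .nil)) .nil)) .nil)))
noncomputable def t40 : T := .cons 223 (.leaf 247 1791 (.cons 319 (.leaf 343 1982 (.cons 321 (.leaf 345 1988 (.cons 297 (.leaf 224 1796 (.cons 298 (.leaf 299 2362 (.leaf 318 2353 .nil)) .nil)) .nil)) .nil)) .nil)) (.cons 319 (.leaf 343 1982 (.cons 223 (.leaf 247 1791 (.cons 224 (.leaf 295 1790 (.cons 200 (.leaf 297 1604 (.leaf 176 1412 .nil)) .nil)) .nil)) .nil)) (.cons 321 (.leaf 345 1988 (.cons 297 (.leaf 224 1796 (.cons 223 (.leaf 247 1791 (.cons 322 (.leaf 346 1996 (.cons 295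 (.leaf 294 2352 (.leaf 323 2363 .nil)) .nil)) .nil)) .nil)) .nil)) (.cons 319 (.leaf 343 1982 (.cons 223 (.leaf 247 1791 (.cons 295 (.leaf 224 1790 (.cons 294 (.leaf 293 2153 (.cons 321 (.leaf 345 1988 (.leaf 322 2355 .nil)) .nil)) .nil)) .nil)) .nil)) (.cons 321 (.leaf 345 1988 (.cons 224 (.leaf 297 1796 (.cons 319 (.leaf 295 1790 (.leaf 343 1982 .nil)) .nil)) .nil)) (.cons 321 (.leaf 345 1988 (.cons 247 (.leaf 223 1791 (.cons 246 (.leaf 245 1960 (.cons 222 (.leaf 221 1771 (.cons 270 (.leaf 269 1962 (.cons 319 (.leaf 343 1982 (.cons 295 (.leaf 271 1783 (.leaf 294 1780 .nil)) .nil)) .nil)) .nil)) .nil)) .nil)) .nil)) .nil)))))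
noncomputable def t41 : T := .cons 224 (.leaf 200 1607 (.cons 248 (.leaf 321 1796 (.cons 202 (.leaf 226 1613 (.cons 295 (.leaf 319 1790 (.cons 294 (.leaf 293 2153 (.cons 270 (.leaf 269 2155 (.cons 271 (.leaf 298 2160 (.cons 246 (.leaf 245 1963 (.cons 222 (.leaf 198 1588 (.cons 221 (.leaf 223 1768 (.leaf 247 1771 .nil)) .nil)) .nil)) .nil)) .nil)) .nil)) .nil)) .nil)) .nil)) .nil)) (.cons 224 (.leaf 200 1607 (.cons 248 (.leaf 321 1796 (.cons 226 (.leaf 202 1613 (.cons 246 (.leaf 247 1777 (.cons 295 (.leaf 319 1790 (.cons 294 (.leaf 293 2153 (.cons 270 (.leaf 269 2155 (.cons 245 (.leaf 271 1963 (.cons 318 (.leaf 317 2346 (.leaf 221 1775 .nil)) .nil)) .nil)) .nil)) .nil)) .nil)) .nil)) .nil)) .nil)) (.cons 298 (.leaf 322 1804 (.cons 271 (.leaf 270 2160 (.leaf 299 2171 .nil)) .nil)) (.cons 224 (.leaf 200 1607 (.cons 248 (.leaf 321 1796 (.cons 226 (.leaf 202 1613 (.cons 246 (.leaf 247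 1777 (.cons 295 (.leaf 319 1790 (.cons 294 (.leaf 293 2153 (.cons 270 (.leaf 269 2155 (.cons 318 (.leaf 317 2346 (.cons 221 (.leaf 245 1775 (.cons 222 (.leaf 223 1768 (.leaf 197 1583 .nil)) .nil)) .nil)) .nil)) .nil)) .nil)) .nil)) .nil)) .nil)) .nil)) (.cons 224 (.leaf 200 1607 (.cons 248 (.leaf 321 1796 (.cons 202 (.leaf 226 1613 (.cons 295 (.leaf 319 1790 (.cons 293 (.leaf 294 2153 (.cons 298 (.leaf 322 1804 (.cons 299 (.leaf 271 2171 (.leaf 300 2179 .nil)) .nil)) .nil)) .nil)) .nil)) .nil)) .nil)) .nil))))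
noncomputable def t42 : T := .cons 250 (.leaf 252 1986 (.cons 271 (.leaf 248 1978 (.leaf 270 1969 .nil)) .nil)) (.cons 296 (.cons 320 (.leaf 344 1989 (.cons 248 (.leaf 225 1797 (.cons 223 (.leaf 247 1791 (.cons 319 (.leaf 343 1982 (.cons 321 (.leaf 345 1988 (.cons 297 (.leaf 224 1796 (.cons 298 (.leaf 299 2362 (.leaf 318 2353 .nil)) .nil)) .nil)) .nil)) .nil)) .nil)) .nil)) (.cons 225 (.leaf 201 1606 (.cons 297 t41 .nil)) (.cons 320 (.leaf 344 1989 (.cons 248 t40 .nil)) (.cons 320 (.leaf 344 1989 (.cons 225 (.leaf 201 1606 (.leaf 248 1797 .nil)) .nil)) (.cons 320 (.leaf 344 1989 (.cons 225 (.leaf 201 1606 (.leaf 297 1798 .nil)) .nil)) .nil))))) (.cons 250 (.leaf 252 1986 (.cons 271 (.leaf 270 1969 (.cons 225 (.cons 201 (.leaf 296 1606 (.cons 176 (.leaf 200 1415 (.cons 177 (.leaf 152 1223 (.cons 178 (.leaf 202 1421 (.leaf 154 1229 .nil)) .nil)) .nil)) .nil)) (.cons 224 (.cons 223 (.leaf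 226 1784 (.leaf 222 1776 .nil)) (.cons 200 (.leaf 297 1607 (.cons 176 (.leaf 201 1415 (.leaf 152 1220 .nil)) .nil)) .nil)) (.cons 297 (.cons 224 (.leaf 200 1607 (.cons 226 (.leaf 223 1784 (.leaf 202 1613 .nil)) .nil)) (.cons 200 (.leaf 224 1607 (.cons 320 (.leaf 296 1798 (.cons 321 (.leaf 344 1990 (.cons 322 (.leaf 298 1804 (.leaf 346 1996 .nil)) .nil)) .nil)) .nil)) (.cons 226 (.leaf 202 1613 (.leaf 321 1805 .nil)) .nil))) (.cons 201 (.leaf 296 1606 (.cons 178 (.leaf 202 1421 (.cons 177 (.leaf 154 1229 (.cons 152 (.leaf 176 1223 (.cons 153 (.leaf 226 1228 (.leaf 128 1031 .nil)) .nil)) .nil)) .nil)) .nil)) .nil)))) .nil)) .nil)) (.cons 250 (.leaf 252 1986 (.cons 225 t39 .nil)) .nil)))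
noncomputable def t43 : T := .cons 274 (.leaf 252 1985 (.cons 271 (.leaf 250 1977 (.cons 295 (.leaf 296 2170 (.leaf 294 2162 .nil)) .nil)) .nil)) (.cons 249 t42 (.cons 274 (.cons 271 (.leaf 250 1977 (.cons 295 (.leaf 296 2170 (.leaf 294 2162 .nil)) .nil)) (.cons 299 (.leaf 300 2176 (.cons 296 (.leaf 295 2170 (.cons 248 (.leaf 247 1979 (.cons 320 (.cons 225 (.leaf 249 1797 (.cons 201 (.leaf 224 1605 (.cons 319 (.leaf 343 1982 (.cons 321 (.leaf 345 1988 (.cons 322 (.leaf 298 2361 (.cons 346 (.leaf 323 2006 (.leaf 347 2552 .nil)) .nil)) .nil)) .nil)) .nil)) .nil)) (.cons 321 (.leaf 345 1988 (.cons 343 (.leaf 319 1982 (.cons 344 (.leaf 367 2174 (.cons 323 (.leaf 322 2554 (.cons 348 (.leaf 324 2012 (.cons 297 (.leaf 224 1796 (.leaf 368 2181 .nil)) .nil)) .nil)) .nil)) .nil)) .nil)) (.cons 249 (.leaf 225 1797 (.leaf 344 1989 .nil)) .nil))) .nil)) .nil)) .nil)) (.cons 271 (.leaf 250 1977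 (.cons 247 (.leaf 248 1979 (.leaf 246 1971 .nil)) .nil)) .nil))) (.cons 274 (.leaf 252 1985 (.cons 247 (.leaf 248 1979 (.cons 271 (.leaf 246 1971 (.cons 295 (.leaf 296 2170 (.leaf 294 2162 .nil)) .nil)) .nil)) .nil)) (.cons 274 (.leaf 252 1985 (.cons 299 (.leaf 300 2176 (.cons 296 (.leaf 295 2170 (.cons 248 (.leaf 247 1979 (.cons 320 (.cons 321 (.leaf 345 1988 (.cons 343 (.leaf 319 1982 (.cons 344 (.leaf 249 1989 (.leaf 367 2174 .nil)) .nil)) .nil)) (.cons 321 (.leaf 345 1988 (.cons 343 (.leaf 319 1982 (.cons 344 (.leaf 367 2174 (.cons 323 (.leaf 322 2554 (.cons 348 (.leaf 324 2012 (.cons 297 (.leaf 224 1796 (.leaf 368 2181 .nil)) .nil)) .nil)) .nil)) .nil)) .nil)) (.cons 249 (.leaf 225 1797 (.leaf 344 1989 .nil)) (.cons 249 (.leaf 225 1797 (.cons 319 (.leaf 343 1982 (.cons 297 (.leaf 298 2362 (.cons 321 (.leaf 224 1796 (.leaf 345 1988 .nil)) .nil)) .nil)) .nil)) .nil)))) .nil)) .nil))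 .nil)) .nil)) (.cons 274 (.leaf 252 1985 (.cons 271 (.leaf 250 1977 (.cons 247 (.leaf 248 1979 (.leaf 246 1971 .nil)) .nil)) .nil)) .nil)))))
noncomputable def t44 : T := .cons 204 (.leaf 228 1629 (.cons 180 (.leaf 203 1437 (.cons 324 (.leaf 300 1820 (.cons 323 (.leaf 348 2012 (.cons 250 (.leaf 226 1815 (.cons 274 (.leaf 347 2007 (.cons 273 (.leaf 271 1977 (.cons 296 (.leaf 295 2170 (.cons 297 (.leaf 298 2368 (.cons 248 (.leaf 247 1979 (.cons 321 (.leaf 224 1796 (.leaf 345 1997 .nil)) .nil)) .nil)) .nil)) .nil)) .nil)) .nil)) .nil)) .nil)) .nil)) .nil)) (.cons 300 (.leaf 324 1820 (.cons 204 (.leaf 228 1629 (.cons 203 (.leaf 180 1437 (.cons 274 (.leaf 298 1622 (.leaf 273 2176 .nil)) .nil)) .nil)) .nil)) (.cons 226 (.leaf 202 1623 (.cons 204 (.leaf 228 1629 (.cons 203 (.leaf 180 1437 (.cons 205 (.leaf 206 1618 (.cons 224 (.leaf 225 1601 (.cons 250 (.leaf 323 1815 (.cons 274 (.leaf 298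 1621 (.leaf 179 1430 .nil)) .nil)) .nil)) .nil)) .nil)) .nil)) .nil)) (.cons 226 (.leaf 202 1623 (.cons 250 (.leaf 323 1815 (.cons 300 (.leaf 324 1820 (.cons 273 (.leaf 274 2176 (.cons 297 (.leaf 298 2179 (.cons 249 (.leaf 321 1805 (.cons 248 (.leaf 271 1978 (.leaf 228 1793 .nil)) .nil)) .nil)) .nil)) .nil)) .nil)) .nil)) (.cons 226 (.leaf 202 1623 (.cons 250 (.leaf 323 1815 (.cons 300 (.leaf 324 1820 (.cons 273 (.leaf 274 2176 (.cons 297 (.leaf 298 2179 (.cons 249 (.leaf 321 1805 (.cons 248 (.leaf 271 1978 (.leaf 247 1785 .nil)) .nil)) .nil)) .nil)) .nil)) .nil)) .nil)) (.cons 226 (.leaf 202 1623 (.cons 204 (.leaf 228 1629 (.cons 180 (.leaf 203 1437 (.cons 323 (.leaf 250 1815 (.cons 324 (.leaf 300 1820 (.leaf 348 2012 .nil)) .nil)) .nil)) .nil)) .nil)) .nil)))))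
noncomputable def t45 : T := .cons 322 (.leaf 346 2006 (.cons 324 (.leaf 348 2012 (.cons 250 (.leaf 226 1815 (.cons 321 (.cons 300 (.leaf 320 2369 (.leaf 301 2377 .nil)) (.cons 296 (.leaf 297 2371 (.cons 295 (.leaf 320 2363 (.cons 274 (.leaf 347 2007 (.leaf 273 2170 .nil)) .nil)) .nil)) (.cons 296 (.leaf 297 2371 (.cons 300 (.leaf 301 2377 (.cons 274 (.leaf 347 2007 (.leaf 273 2176 .nil)) .nil)) .nil)) .nil))) .nil)) .nil)) .nil)) (.cons 346 (.leaf 322 2006 (.cons 347 (.leaf 370 2198 (.cons 348 (.leaf 324 2012 (.leaf 372 2204 .nil)) .nil)) .nil)) (.cons 250 (.leaf 226 1815 (.cons 274 (.leaf 347 2007 (.cons 273 (.leaf 300 2176 (.leaf 271 1977 .nil)) .nil)) .nil)) (.cons 322 (.leaf 346 2006 (.cons 324 (.leaf 348 2012 (.cons 250 (.leaf 226 1815 (.cons 321 (.cons 300 (.leaf 320 2369 (.leaf 301 2377 .nil)) (.cons 296 (.leaf 297 2371 (.cons 295 (.leaf 320 2363 (.cons 274 (.leaf 273 2170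 (.cons 345 (.leaf 344 2562 (.leaf 298 1998 .nil)) .nil)) .nil)) .nil)) (.cons 296 (.leaf 297 2371 (.cons 300 (.leaf 301 2377 (.cons 274 (.leaf 273 2176 (.cons 345 (.leaf 344 2562 (.leaf 298 1998 .nil)) .nil)) .nil)) .nil)) .nil))) .nil)) .nil)) .nil)) .nil)))
noncomputable def t46 : T := .cons 204 (.leaf 228 1629 (.cons 180 (.leaf 203 1437 (.cons 298 (.leaf 322 1814 (.cons 202 (.leaf 226 1623 (.cons 300 (.leaf 324 1820 (.cons 297 (.leaf 273 2179 (.cons 296 (.leaf 271 2171 (.cons 320 (.leaf 319 2362 (.leaf 321 2370 .nil)) .nil)) .nil)) .nil)) .nil)) .nil)) .nil)) .nil)) (.cons 226 (.leaf 202 1623 (.cons 323 (.leaf 250 1815 (.cons 324 (.leaf 300 1820 (.leaf 348 2012 .nil)) .nil)) .nil)) (.cons 298 (.leaf 322 1814 (.cons 274 (.leaf 203 1622 (.cons 324 (.leaf 300 1820 (.cons 323 (.leaf 348 2012 (.cons 347 (.leaf 250 2007 (.leaf 371 2199 .nil)) .nil)) .nil)) .nil)) .nil)) (.cons 204 (.leaf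 228 1629 (.cons 226 (.leaf 202 1623 (.cons 298 (.leaf 322 1814 (.cons 323 (.leaf 250 1815 (.cons 348 (.leaf 324 2012 (.cons 347 (.leaf 372 2204 (.cons 370 (.leaf 346 2198 (.cons 371 (.leaf 274 2199 (.leaf 394 2390 .nil)) .nil)) .nil)) .nil)) .nil)) .nil)) .nil)) .nil)) (.cons 204 (.leaf 228 1629 (.cons 180 (.leaf 203 1437 (.cons 322 (.leaf 298 1814 (.cons 323 (.leaf 346 2006 (.cons 250 (.leaf 226 1815 (.cons 274 (.leaf 347 2007 (.cons 273 (.leaf 300 2176 (.leaf 271 1977 .nil)) .nil)) .nil)) .nil)) .nil)) .nil)) .nil)) .nil))))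
noncomputable def t47 : T := .cons 227 t46 (.cons 323 t45 (.cons 227 (.cons 202 (.leaf 226 1623 (.cons 203 (.leaf 178 1431 (.cons 204 (.leaf 180 1437 (.leaf 228 1629 .nil)) .nil)) .nil)) (.cons 204 (.leaf 228 1629 (.cons 298 (.leaf 322 1814 (.cons 300 (.leaf 324 1820 (.cons 273 (.leaf 274 2176 (.leaf 297 2179 .nil)) .nil)) .nil)) .nil)) (.cons 202 (.leaf 226 1623 (.cons 203 (.leaf 178 1431 (.cons 298 (.leaf 274 1622 (.leaf 322 1814 .nil)) .nil)) .nil)) .nil))) (.cons 227 (.cons 204 (.leaf 228 1629 (.cons 226 (.leaf 202 1623 (.cons 322 (.leaf 298 1814 (.cons 323 (.leaf 250 1815 (.leaf 346 2006 .nil)) .nil)) .nil)) .nil)) (.cons 204 (.leaf 228 1629 (.cons 180 (.leaf 203 1437 (.cons 298 (.leaf 322 1814 (.cons 300 (.leaf 324 1820 (.cons 297 (.leaf 273 2179 (.cons 296 (.leaf 271 2171 (.cons 320 (.leaf 319 2362 (.leaf 321 2370 .nil)) .nil)) .nil)) .nil)) .nil)) .nil)) .nil)) (.cons 202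 (.leaf 226 1623 (.cons 178 (.leaf 203 1431 (.cons 322 (.leaf 298 1814 (.cons 323 (.leaf 346 2006 (.cons 324 (.leaf 300 1820 (.leaf 348 2012 .nil)) .nil)) .nil)) .nil)) .nil)) (.cons 226 (.leaf 202 1623 (.cons 323 (.leaf 250 1815 (.cons 324 (.leaf 300 1820 (.leaf 348 2012 .nil)) .nil)) .nil)) .nil)))) (.cons 323 (.cons 250 (.leaf 226 1815 (.cons 322 (.leaf 346 2006 (.cons 347 (.leaf 274 2007 (.cons 348 (.leaf 324 2012 (.leaf 372 2204 .nil)) .nil)) .nil)) .nil)) (.cons 250 (.leaf 226 1815 (.cons 274 (.leaf 347 2007 (.cons 273 (.leaf 300 2176 (.leaf 271 1977 .nil)) .nil)) .nil)) (.cons 346 (.leaf 322 2006 (.cons 347 (.leaf 370 2198 (.cons 348 (.leaf 324 2012 (.leaf 372 2204 .nil)) .nil)) .nil)) (.cons 226 (.leaf 250 1815 (.cons 227 (.leaf 202 1623 (.cons 324 (.leaf 300 1820 (.leaf 348 2012 .nil)) .nil)) .nil)) .nil)))) (.cons 227 (.cons 204 (.leaf 228 1629 (.cons 203 (.leaf 180 1437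 (.cons 178 (.leaf 202 1431 (.cons 179 (.leaf 154 1239 (.cons 274 (.leaf 298 1622 (.leaf 250 1430 .nil)) .nil)) .nil)) .nil)) .nil)) (.cons 226 (.leaf 202 1623 (.cons 204 (.leaf 228 1629 (.cons 180 (.leaf 203 1437 (.cons 323 (.leaf 250 1815 (.cons 346 (.leaf 322 2006 (.cons 347 (.leaf 370 2198 (.cons 348 (.leaf 324 2012 (.leaf 372 2204 .nil)) .nil)) .nil)) .nil)) .nil)) .nil)) .nil)) (.cons 298 (.leaf 322 1814 (.cons 203 (.leaf 274 1622 (.cons 204 (.leaf 180 1437 (.leaf 228 1629 .nil)) .nil)) .nil)) (.cons 298 (.leaf 322 1814 (.cons 202 (.leaf 226 1623 (.cons 203 (.leaf 178 1431 (.leaf 274 1622 .nil)) .nil)) .nil)) (.cons 226 (.leaf 202 1623 (.cons 322 (.leaf 298 1814 (.cons 323 (.leaf 250 1815 (.leaf 346 2006 .nil)) .nil)) .nil)) .nil))))) (.cons 227 t44 (.cons 227 (.cons 204 (.leaf 228 1629 (.cons 203 (.leaf 180 1437 (.cons 178 (.leaf 202 1431 (.cons 322 (.leaf 298 1814 (.cons 323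 (.leaf 346 2006 (.cons 324 (.leaf 300 1820 (.leaf 348 2012 .nil)) .nil)) .nil)) .nil)) .nil)) .nil)) (.cons 300 (.leaf 324 1820 (.cons 204 (.leaf 228 1629 (.cons 203 (.leaf 180 1437 (.cons 178 (.leaf 202 1431 (.cons 179 (.leaf 154 1239 (.cons 274 (.leaf 273 2176 (.leaf 250 1430 .nil)) .nil)) .nil)) .nil)) .nil)) .nil)) (.cons 298 (.leaf 322 1814 (.cons 203 (.leaf 274 1622 (.cons 204 (.leaf 180 1437 (.leaf 228 1629 .nil)) .nil)) .nil)) (.cons 298 (.leaf 322 1814 (.cons 274 (.leaf 203 1622 (.cons 324 (.leaf 300 1820 (.cons 323 (.leaf 348 2012 (.cons 347 (.leaf 250 2007 (.leaf 371 2199 .nil)) .nil)) .nil)) .nil)) .nil)) (.cons 300 (.leaf 324 1820 (.cons 204 (.leaf 228 1629 (.cons 273 (.leaf 274 2176 (.cons 298 (.leaf 322 1814 (.leaf 297 2179 .nil)) .nil)) .nil)) .nil)) .nil))))) (.cons 227 (.cons 202 (.leaf 226 1623 (.cons 203 (.leaf 178 1431 (.cons 204 (.leaf 180 1437 (.leaf 228 1629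 .nil)) .nil)) .nil)) (.cons 298 (.leaf 322 1814 (.cons 203 (.leaf 274 1622 (.cons 204 (.leaf 180 1437 (.leaf 228 1629 .nil)) .nil)) .nil)) (.cons 202 (.leaf 226 1623 (.cons 203 (.leaf 178 1431 (.cons 298 (.leaf 274 1622 (.leaf 322 1814 .nil)) .nil)) .nil)) (.cons 204 (.leaf 228 1629 (.cons 226 (.leaf 202 1623 (.cons 322 (.leaf 298 1814 (.cons 323 (.leaf 250 1815 (.leaf 346 2006 .nil)) .nil)) .nil)) .nil)) .nil)))) .nil))))))))
noncomputable def t48 : T := .cons 202 (.leaf 226 1613 (.cons 224 (.leaf 200 1607 (.cons 248 (.leaf 321 1796 (.cons 295 (.leaf 319 1790 (.cons 294 (.leaf 293 2153 (.cons 270 (.leaf 269 2155 (.cons 271 (.leaf 250 1969 (.leaf 298 2160 .nil)) .nil)) .nil)) .nil)) .nil)) .nil)) .nil)) (.cons 226 (.leaf 202 1613 (.cons 250 (.leaf 321 1805 (.cons 271 (.leaf 248 1978 (.leaf 270 1969 .nil)) .nil)) .nil)) (.cons 226 (.leaf 202 1613 (.cons 200 (.leaf 224 1607 (.cons 321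 (.leaf 250 1805 (.cons 322 (.leaf 298 1804 (.leaf 346 1996 .nil)) .nil)) .nil)) .nil)) (.cons 224 (.leaf 200 1607 (.cons 226 (.leaf 202 1613 (.cons 223 (.leaf 250 1784 (.cons 246 (.leaf 247 1778 (.cons 222 (.leaf 245 1770 (.cons 197 (.leaf 198 1579 (.cons 221 (.leaf 248 1768 (.leaf 196 1571 .nil)) .nil)) .nil)) .nil)) .nil)) .nil)) .nil)) (.cons 224 (.leaf 200 1607 (.cons 248 (.leaf 321 1796 (.cons 250 (.leaf 271 1978 (.leaf 223 1787 .nil)) .nil)) .nil)) (.cons 224 (.leaf 200 1607 (.cons 248 (.leaf 321 1796 (.cons 202 (.leaf 226 1613 (.cons 295 (.leaf 319 1790 (.cons 294 (.leaf 293 2153 (.cons 270 (.leaf 269 2155 (.cons 271 (.leaf 298 2160 (.cons 246 (.leaf 245 1963 (.cons 222 (.leaf 198 1588 (.cons 221 (.leaf 223 1768 (.leaf 247 1771 .nil)) .nil)) .nil)) .nil)) .nil)) .nil)) .nil)) .nil)) .nil)) .nil)) .nil)))))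
noncomputable def t49 : T := .cons 225 (.leaf 201 1606 (.cons 297 (.leaf 320 1798 (.cons 202 (.leaf 226 1613 (.cons 224 (.leaf 200 1607 (.cons 248 (.leaf 321 1796 (.cons 295 (.leaf 319 1790 (.cons 294 (.leaf 293 2153 (.cons 270 (.leaf 269 2155 (.cons 271 (.leaf 250 1969 (.leaf 298 2160 .nil)) .nil)) .nil)) .nil)) .nil)) .nil)) .nil)) .nil)) .nil)) (.cons 225 (.leaf 201 1606 (.cons 297 t48 .nil)) (.cons 320 (.leaf 344 1989 (.cons 248 (.cons 223 (.leaf 247 1791 (.cons 250 (.leaf 271 1978 (.leaf 224 1787 .nil)) .nil)) (.cons 321 (.leaf 345 1988 (.cons 224 (.leaf 297 1796 (.cons 223 (.leaf 247 1791 (.leaf 250 1787 .nil)) .nil)) .nil)) (.cons 321 (.leaf 345 1988 (.cons 224 (.leaf 297 1796 (.cons 319 (.leaf 295 1790 (.leaf 343 1982 .nil)) .nil)) .nil)) (.cons 271 (.leaf 250 1978 (.cons 223 (.leaf 247 1791 (.cons 270 (.leaf 269 1961 (.cons 245 (.leaf 246 1963 (.cons 293 (.leaf 294 2154 (.cons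 297 (.leaf 298 2160 (.cons 321 (.leaf 345 1988 (.cons 319 (.leaf 343 1982 (.cons 322 (.leaf 346 1996 (.cons 323 (.leaf 295 2363 (.leaf 324 2371 .nil)) .nil)) .nil)) .nil)) .nil)) .nil)) .nil)) .nil)) .nil)) .nil)) .nil)))) .nil)) (.cons 320 (.leaf 344 1989 (.cons 225 (.leaf 201 1606 (.leaf 297 1798 .nil)) .nil)) (.cons 320 (.leaf 344 1989 (.cons 225 (.leaf 201 1606 (.leaf 248 1797 .nil)) .nil)) .nil))))
noncomputable def t50 : T := .cons 200 (.leaf 224 1607 (.cons 202 (.leaf 226 1613 (.cons 322 (.leaf 298 1804 (.cons 321 (.leaf 346 1996 (.cons 344 (.leaf 320 1990 (.cons 345 (.leaf 248 1991 (.leaf 368 2182 .nil)) .nil)) .nil)) .nil)) .nil)) .nil)) (.cons 224 (.leaf 200 1607 (.cons 226 (.leaf 202 1613 (.cons 227 (.leaf 252 1792 (.cons 248 (.leaf 321 1799 (.leaf 228 1794 .nil)) .nil)) .nil)) .nil)) (.cons 320 (.leaf 296 1798 (.cons 202 (.leaf 226 1613 (.cons 321 (.leaf 344 1990 (.cons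 345 (.leaf 248 1991 (.cons 346 (.leaf 322 1996 (.leaf 370 2188 .nil)) .nil)) .nil)) .nil)) .nil)) (.cons 320 (.leaf 296 1798 (.cons 200 (.leaf 224 1607 (.cons 202 (.leaf 226 1613 (.cons 321 (.leaf 344 1990 (.cons 322 (.leaf 298 1804 (.leaf 346 1996 .nil)) .nil)) .nil)) .nil)) .nil)) (.cons 296 (.leaf 320 1798 (.cons 224 (.leaf 200 1607 (.cons 226 (.leaf 202 1613 (.cons 227 (.leaf 252 1792 (.cons 248 (.leaf 228 1794 (.leaf 247 1786 .nil)) .nil)) .nil)) .nil)) .nil)) (.cons 320 (.leaf 296 1798 (.cons 200 (.leaf 224 1607 (.cons 321 (.leaf 344 1990 (.cons 322 (.leaf 298 1804 (.leaf 346 1996 .nil)) .nil)) .nil)) .nil)) .nil)))))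
noncomputable def t51 : T := .cons 201 (.leaf 296 1606 (.cons 176 (.leaf 200 1415 (.cons 202 (.leaf 178 1421 (.cons 297 (.leaf 226 1613 (.cons 322 (.leaf 298 1804 (.cons 177 (.leaf 248 1414 (.leaf 152 1223 .nil)) .nil)) .nil)) .nil)) .nil)) .nil)) (.cons 297 t50 (.cons 297 (.cons 202 (.leaf 226 1613 (.cons 178 (.leaf 201 1421 (.cons 203 (.leaf 227 1431 (.cons 322 (.leaf 298 1804 (.cons 321 (.leaf 346 1996 (.cons 344 (.leaf 320 1990 (.cons 345 (.leaf 248 1991 (.leaf 368 2182 .nil)) .nil)) .nil)) .nil)) .nil)) .nil)) .nil)) (.cons 200 (.leaf 224 1607 (.cons 176 (.leaf 201 1415 (.cons 322 (.leaf 298 1804 (.cons 321 (.leaf 346 1996 (.cons 344 (.leaf 320 1990 (.cons 345 (.leaf 248 1991 (.leaf 368 2182 .nil)) .nil)) .nil)) .nil)) .nil)) .nil)) (.cons 200 (.leaf 224 1607 (.cons 201 (.leaf 176 1415 (.cons 202 (.leaf 178 1421 (.leaf 226 1613 .nil)) .nil)) .nil)) (.cons 224 (.leaf 200 1607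 (.cons 226 (.leaf 202 1613 (.cons 227 (.leaf 252 1792 (.cons 248 (.leaf 321 1799 (.leaf 228 1794 .nil)) .nil)) .nil)) .nil)) .nil)))) (.cons 201 (.leaf 296 1606 (.cons 176 (.leaf 200 1415 (.cons 177 (.leaf 248 1414 (.leaf 152 1223 .nil)) .nil)) .nil)) (.cons 201 (.leaf 296 1606 (.cons 176 (.leaf 200 1415 (.cons 177 (.leaf 152 1223 (.cons 178 (.leaf 202 1421 (.leaf 154 1229 .nil)) .nil)) .nil)) .nil)) (.cons 296 (.leaf 201 1606 (.cons 320 (.leaf 248 1797 (.leaf 344 1989 .nil)) .nil)) .nil)))))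
noncomputable def t52 : T := .cons 296 (.cons 320 (.leaf 344 1989 (.cons 225 (.leaf 201 1606 (.leaf 248 1797 .nil)) .nil)) (.cons 250 (.leaf 252 1986 (.cons 271 (.leaf 248 1978 (.leaf 270 1969 .nil)) .nil)) (.cons 320 (.leaf 344 1989 (.cons 225 (.leaf 201 1606 (.leaf 297 1798 .nil)) .nil)) .nil))) (.cons 225 t51 (.cons 296 t49 (.cons 250 (.leaf 252 1986 (.cons 271 (.leaf 270 1969 (.cons 225 (.cons 201 (.leaf 296 1606 (.cons 176 (.leaf 200 1415 (.cons 177 (.leaf 152 1223 (.cons 178 (.leaf 202 1421 (.leaf 154 1229 .nil)) .nil)) .nil)) .nil)) (.cons 297 (.cons 224 (.leaf 200 1607 (.cons 226 (.leaf 223 1784 (.leaf 202 1613 .nil)) .nil)) (.cons 200 (.leaf 224 1607 (.cons 320 (.leaf 296 1798 (.cons 321 (.leaf 344 1990 (.cons 322 (.leaf 298 1804 (.leaf 346 1996 .nil)) .nil)) .nil)) .nil)) (.cons 226 (.leaf 202 1613 (.leaf 321 1805 .nil)) .nil))) (.cons 224 (.cons 223 (.leaf 226 1784 (.leaf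 222 1776 .nil)) (.cons 200 (.leaf 297 1607 (.cons 176 (.leaf 201 1415 (.leaf 152 1220 .nil)) .nil)) .nil)) (.cons 201 (.leaf 296 1606 (.cons 178 (.leaf 202 1421 (.cons 177 (.leaf 154 1229 (.cons 152 (.leaf 176 1223 (.cons 153 (.leaf 226 1228 (.leaf 128 1031 .nil)) .nil)) .nil)) .nil)) .nil)) .nil)))) .nil)) .nil)) (.cons 250 (.leaf 252 1986 (.cons 271 (.leaf 248 1978 (.leaf 270 1969 .nil)) .nil)) .nil))))
noncomputable def t53 : T := .cons 274 (.leaf 252 1985 (.cons 295 (.leaf 296 2170 (.cons 271 (.leaf 250 1977 (.leaf 294 2162 .nil)) .nil)) .nil)) (.cons 249 t52 (.cons 274 (.cons 271 (.leaf 250 1977 (.cons 295 (.leaf 296 2170 (.leaf 294 2162 .nil)) .nil)) (.cons 248 (.leaf 247 1979 (.cons 296 (.leaf 295 2170 (.cons 320 (.cons 225 (.leaf 249 1797 (.cons 319 (.leaf 343 1982 (.cons 321 (.leaf 345 1988 (.cons 224 (.leaf 201 1605 (.leaf 297 1796 .nil)) .nil)) .nil)) .nil)) (.cons 321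 (.leaf 345 1988 (.cons 343 (.leaf 319 1982 (.cons 344 (.leaf 367 2174 (.cons 322 (.leaf 323 2554 (.cons 298 (.leaf 346 2005 (.cons 297 (.leaf 224 1796 (.leaf 368 2181 .nil)) .nil)) .nil)) .nil)) .nil)) .nil)) (.cons 249 (.leaf 225 1797 (.leaf 344 1989 .nil)) .nil))) .nil)) .nil)) (.cons 271 (.leaf 250 1977 (.cons 247 (.leaf 248 1979 (.leaf 246 1971 .nil)) .nil)) .nil))) (.cons 274 (.leaf 252 1985 (.cons 247 (.leaf 248 1979 (.cons 271 (.leaf 246 1971 (.cons 295 (.leaf 296 2170 (.leaf 294 2162 .nil)) .nil)) .nil)) .nil)) (.cons 274 (.leaf 252 1985 (.cons 248 (.leaf 247 1979 (.cons 296 (.leaf 295 2170 (.cons 320 (.cons 225 (.leaf 249 1797 (.cons 319 (.leaf 343 1982 (.cons 321 (.leaf 345 1988 (.cons 224 (.leaf 201 1605 (.leaf 297 1796 .nil)) .nil)) .nil)) .nil)) (.cons 321 (.leaf 345 1988 (.cons 343 (.leaf 319 1982 (.cons 344 (.leaf 367 2174 (.cons 322 (.leaf 323 2554 (.cons 298 (.leaf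 346 2005 (.cons 297 (.leaf 224 1796 (.leaf 368 2181 .nil)) .nil)) .nil)) .nil)) .nil)) .nil)) (.cons 249 (.leaf 225 1797 (.leaf 344 1989 .nil)) .nil))) .nil)) .nil)) .nil)) (.cons 274 (.leaf 252 1985 (.cons 271 (.leaf 250 1977 (.cons 247 (.leaf 248 1979 (.leaf 246 1971 .nil)) .nil)) .nil)) .nil)))))
noncomputable def t54 : T := .cons 250 (.leaf 226 1815 (.cons 322 (.leaf 346 2006 (.cons 347 (.leaf 274 2007 (.cons 348 (.leaf 324 2012 (.leaf 372 2204 .nil)) .nil)) .nil)) .nil)) (.cons 346 (.leaf 322 2006 (.cons 228 (.leaf 252 1821 (.cons 347 (.leaf 370 2198 (.cons 348 (.leaf 324 2012 (.leaf 372 2204 .nil)) .nil)) .nil)) .nil)) (.cons 250 (.leaf 226 1815 (.cons 228 (.leaf 252 1821 (.cons 324 (.leaf 348 2012 (.cons 347 (.leaf 274 2007 (.cons 370 (.leaf 346 2198 (.cons 371 (.leaf 394 2390 (.cons 395 (.leaf 300 2397 (.cons 396 (.leaf 372 2396 (.leaf 420 2588 .nil)) .nil)) .nil)) .nil))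 .nil)) .nil)) .nil)) .nil)) (.cons 250 (.leaf 226 1815 (.cons 228 (.leaf 252 1821 (.cons 347 (.leaf 274 2007 (.cons 348 (.leaf 324 2012 (.leaf 372 2204 .nil)) .nil)) .nil)) .nil)) (.cons 250 (.leaf 226 1815 (.cons 228 (.leaf 252 1821 (.cons 346 (.leaf 322 2006 (.cons 347 (.leaf 274 2007 (.leaf 370 2198 .nil)) .nil)) .nil)) .nil)) (.cons 322 (.leaf 346 2006 (.cons 324 (.leaf 348 2012 (.cons 250 (.leaf 226 1815 (.cons 252 (.leaf 228 1821 (.cons 321 (.cons 300 (.leaf 320 2369 (.leaf 301 2377 .nil)) (.cons 296 (.leaf 297 2371 (.cons 320 (.leaf 295 2363 (.cons 344 (.leaf 343 2554 (.leaf 345 2562 .nil)) .nil)) .nil)) (.cons 296 (.leaf 297 2371 (.cons 301 (.leaf 300 2377 (.cons 325 (.leaf 302 2385 (.cons 326 (.leaf 298 2387 (.cons 350 (.leaf 349 2576 (.leaf 351 2584 .nil)) .nil)) .nil)) .nil)) .nil)) .nil))) .nil)) .nil)) .nil)) .nil)) .nil)))))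
noncomputable def t55 : T := .cons 298 (.leaf 322 1814 (.cons 203 (.leaf 274 1622 (.cons 204 (.leaf 180 1437 (.leaf 228 1629 .nil)) .nil)) .nil)) (.cons 202 (.leaf 226 1623 (.cons 203 (.leaf 178 1431 (.cons 204 (.leaf 180 1437 (.leaf 228 1629 .nil)) .nil)) .nil)) (.cons 298 (.leaf 322 1814 (.cons 202 (.leaf 226 1623 (.cons 203 (.leaf 178 1431 (.leaf 274 1622 .nil)) .nil)) .nil)) (.cons 226 (.leaf 202 1623 (.cons 228 (.leaf 204 1629 (.cons 300 (.leaf 324 1820 (.cons 298 (.leaf 322 1814 (.cons 225 (.cons 200 (.leaf 201 1603 (.cons 252 (.leaf 224 1792 (.leaf 253 1800 .nil)) .nil)) (.cons 200 (.leaf 201 1603 (.cons 248 (.leaf 249 1794 (.cons 224 (.leaf 247 1786 (.cons 250 (.leaf 223 1784 (.cons 229 (.leaf 230 1810 (.cons 271 (.leaf 295 1598 (.cons 297 (.leaf 296 2171 (.cons 321 (.leaf 320 2370 (.leaf 274 1806 .nil)) .nil)) .nil)) .nil)) .nil)) .nil)) .nil)) .nil)) (.cons 200 (.leaf 201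 1603 (.cons 253 (.leaf 252 1800 (.cons 229 (.leaf 254 1808 (.cons 249 (.leaf 248 1794 (.leaf 250 1802 .nil)) .nil)) .nil)) .nil)) (.cons 252 (.leaf 224 1792 (.leaf 253 1800 .nil)) .nil)))) .nil)) .nil)) .nil)) .nil)) .nil)))
noncomputable def t56 : T := .cons 227 (.cons 204 (.leaf 228 1629 (.cons 202 (.leaf 226 1623 (.cons 203 (.leaf 178 1431 (.leaf 180 1437 .nil)) .nil)) .nil)) (.cons 298 (.leaf 322 1814 (.cons 274 (.leaf 203 1622 (.cons 324 (.leaf 300 1820 (.cons 323 (.leaf 348 2012 (.cons 347 (.leaf 250 2007 (.leaf 371 2199 .nil)) .nil)) .nil)) .nil)) .nil)) (.cons 202 (.leaf 226 1623 (.cons 228 (.leaf 204 1629 (.cons 323 (.leaf 252 1821 (.cons 324 (.leaf 300 1820 (.leaf 348 2012 .nil)) .nil)) .nil)) .nil)) .nil))) (.cons 227 t55 (.cons 323 t54 (.cons 227 (.cons 204 (.leaf 228 1629 (.cons 202 (.leaf 226 1623 (.cons 203 (.leaf 178 1431 (.leaf 180 1437 .nil)) .nil)) .nil)) (.cons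 228 (.leaf 204 1629 (.cons 323 (.leaf 252 1821 (.cons 324 (.leaf 300 1820 (.leaf 348 2012 .nil)) .nil)) .nil)) (.cons 226 (.leaf 202 1623 (.cons 323 (.leaf 250 1815 (.cons 324 (.leaf 300 1820 (.leaf 348 2012 .nil)) .nil)) .nil)) .nil))) (.cons 323 (.cons 228 (.leaf 252 1821 (.cons 227 (.leaf 204 1629 (.cons 324 (.leaf 300 1820 (.leaf 348 2012 .nil)) .nil)) .nil)) (.cons 322 (.leaf 346 2006 (.cons 227 (.leaf 298 1814 (.cons 228 (.leaf 204 1629 (.leaf 252 1821 .nil)) .nil)) .nil)) (.cons 322 (.leaf 346 2006 (.cons 227 (.leaf 298 1814 (.cons 324 (.leaf 300 1820 (.leaf 348 2012 .nil)) .nil)) .nil)) (.cons 228 (.leaf 252 1821 (.cons 346 (.leaf 322 2006 (.cons 347 (.leaf 370 2198 (.cons 348 (.leaf 324 2012 (.leaf 372 2204 .nil)) .nil)) .nil)) .nil)) .nil)))) (.cons 323 (.cons 226 (.leaf 250 1815 (.cons 346 (.leaf 322 2006 (.cons 347 (.leaf 370 2198 (.cons 348 (.leaf 324 2012 (.leaf 372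 2204 .nil)) .nil)) .nil)) .nil)) (.cons 226 (.leaf 250 1815 (.cons 227 (.leaf 202 1623 (.cons 324 (.leaf 300 1820 (.leaf 348 2012 .nil)) .nil)) .nil)) (.cons 226 (.leaf 250 1815 (.cons 227 (.leaf 202 1623 (.cons 322 (.leaf 298 1814 (.leaf 346 2006 .nil)) .nil)) .nil)) (.cons 322 (.leaf 346 2006 (.cons 227 (.leaf 298 1814 (.cons 324 (.leaf 300 1820 (.leaf 348 2012 .nil)) .nil)) .nil)) .nil)))) (.cons 227 (.cons 202 (.leaf 226 1623 (.cons 203 (.leaf 178 1431 (.cons 204 (.leaf 180 1437 (.leaf 228 1629 .nil)) .nil)) .nil)) (.cons 228 (.leaf 204 1629 (.cons 322 (.leaf 298 1814 (.cons 323 (.leaf 252 1821 (.leaf 346 2006 .nil)) .nil)) .nil)) (.cons 226 (.leaf 202 1623 (.cons 322 (.leaf 298 1814 (.cons 323 (.leaf 250 1815 (.leaf 346 2006 .nil)) .nil)) .nil)) .nil))) .nil))))))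
noncomputable def t57 : T := .cons 227 (.cons 298 (.leaf 322 1814 (.cons 300 (.leaf 324 1820 (.cons 297 (.leaf 273 2179 (.cons 296 (.leaf 271 2171 (.cons 320 (.leaf 319 2362 (.leaf 321 2370 .nil)) .nil)) .nil)) .nil)) .nil)) (.cons 202 (.leaf 226 1623 (.cons 203 (.leaf 178 1431 (.cons 204 (.leaf 180 1437 (.leaf 228 1629 .nil)) .nil)) .nil)) .nil)) (.cons 323 (.cons 228 (.leaf 252 1821 (.cons 346 (.leaf 322 2006 (.cons 347 (.leaf 370 2198 (.cons 348 (.leaf 324 2012 (.leaf 372 2204 .nil)) .nil)) .nil)) .nil)) (.cons 250 (.leaf 226 1815 (.cons 252 (.leaf 228 1821 (.cons 249 (.leaf 273 1986 (.cons 224 (.leaf 225 1795 (.cons 248 (.leaf 271 1978 (.leaf 223 1787 .nil)) .nil)) .nil)) .nil)) .nil)) (.cons 226 (.leaf 250 1815 (.cons 346 (.leaf 322 2006 (.cons 347 (.leaf 370 2198 (.cons 348 (.leaf 324 2012 (.leaf 372 2204 .nil)) .nil)) .nil)) .nil)) .nil))) (.cons 323 (.cons 226 (.leaf 250 1815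 (.cons 346 (.leaf 322 2006 (.cons 347 (.leaf 370 2198 (.cons 348 (.leaf 324 2012 (.leaf 372 2204 .nil)) .nil)) .nil)) .nil)) (.cons 226 (.leaf 250 1815 (.cons 227 (.leaf 202 1623 (.cons 324 (.leaf 300 1820 (.leaf 348 2012 .nil)) .nil)) .nil)) (.cons 226 (.leaf 250 1815 (.cons 227 (.leaf 202 1623 (.cons 322 (.leaf 298 1814 (.leaf 346 2006 .nil)) .nil)) .nil)) (.cons 322 (.leaf 346 2006 (.cons 227 (.leaf 298 1814 (.cons 324 (.leaf 300 1820 (.leaf 348 2012 .nil)) .nil)) .nil)) .nil)))) (.cons 227 (.cons 226 (.leaf 202 1623 (.cons 323 (.leaf 250 1815 (.cons 324 (.leaf 300 1820 (.leaf 348 2012 .nil)) .nil)) .nil)) (.cons 228 (.leaf 204 1629 (.cons 323 (.leaf 252 1821 (.cons 324 (.leaf 300 1820 (.leaf 348 2012 .nil)) .nil)) .nil)) (.cons 228 (.leaf 204 1629 (.cons 226 (.leaf 202 1623 (.cons 250 (.leaf 323 1815 (.cons 229 (.leaf 230 1810 (.leaf 249 1802 .nil)) .nil)) .nil)) .nil)) (.cons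 204 (.leaf 228 1629 (.cons 202 (.leaf 226 1623 (.cons 203 (.leaf 178 1431 (.leaf 180 1437 .nil)) .nil)) .nil)) .nil)))) (.cons 227 (.cons 228 (.leaf 204 1629 (.cons 322 (.leaf 298 1814 (.cons 323 (.leaf 252 1821 (.leaf 346 2006 .nil)) .nil)) .nil)) (.cons 226 (.leaf 202 1623 (.cons 322 (.leaf 298 1814 (.cons 323 (.leaf 250 1815 (.leaf 346 2006 .nil)) .nil)) .nil)) (.cons 204 (.leaf 228 1629 (.cons 202 (.leaf 226 1623 (.cons 203 (.leaf 178 1431 (.leaf 180 1437 .nil)) .nil)) .nil)) .nil))) (.cons 323 (.cons 228 (.leaf 252 1821 (.cons 227 (.leaf 204 1629 (.cons 324 (.leaf 300 1820 (.leaf 348 2012 .nil)) .nil)) .nil)) (.cons 228 (.leaf 252 1821 (.cons 227 (.leaf 204 1629 (.cons 322 (.leaf 298 1814 (.leaf 346 2006 .nil)) .nil)) .nil)) (.cons 322 (.leaf 346 2006 (.cons 227 (.leaf 298 1814 (.cons 324 (.leaf 300 1820 (.leaf 348 2012 .nil)) .nil)) .nil)) (.cons 228 (.leaf 252 1821 (.cons 346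 (.leaf 322 2006 (.cons 347 (.leaf 370 2198 (.cons 348 (.leaf 324 2012 (.leaf 372 2204 .nil)) .nil)) .nil)) .nil)) .nil)))) .nil)))))
noncomputable def t58 : T := .cons 274 (.leaf 273 1985 (.cons 253 (.leaf 254 2002 (.cons 227 (.cons 203 (.leaf 298 1622 (.cons 178 (.leaf 202 1431 (.cons 179 (.leaf 154 1239 (.cons 180 (.leaf 204 1437 (.leaf 156 1245 .nil)) .nil)) .nil)) .nil)) (.cons 299 (.cons 228 (.leaf 204 1629 (.leaf 323 1821 .nil)) (.cons 202 (.leaf 226 1623 (.cons 322 (.leaf 298 1814 (.cons 323 (.leaf 346 2006 (.cons 324 (.leaf 300 1820 (.leaf 348 2012 .nil)) .nil)) .nil)) .nil)) (.cons 202 (.leaf 226 1623 (.cons 228 (.leaf 204 1629 (.cons 298 (.leaf 322 1814 (.cons 300 (.leaf 324 1820 (.cons 301 (.leaf 302 2195 (.cons 277 (.leaf 325 1831 (.leaf 278 2193 .nil)) .nil)) .nil)) .nil)) .nil)) .nil)) .nil))) (.cons 226 (.cons 225 (.leaf 224 1792 (.leaf 228 1800 .nil)) (.cons 202 (.leaf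 299 1623 (.cons 178 (.leaf 203 1431 (.leaf 154 1236 .nil)) .nil)) .nil)) (.cons 298 (.leaf 203 1622 (.cons 322 (.leaf 299 1814 (.leaf 346 2005 .nil)) .nil)) .nil)))) .nil)) .nil)) (.cons 274 (.leaf 273 1985 (.cons 253 (.leaf 254 2002 (.cons 250 (.cons 225 (.leaf 226 1803 (.cons 229 (.leaf 230 1809 (.cons 249 (.leaf 224 1795 (.leaf 228 1801 .nil)) .nil)) .nil)) (.cons 229 (.leaf 230 1809 (.cons 228 (.leaf 249 1801 (.cons 204 (.leaf 180 1438 (.cons 277 (.leaf 278 2000 (.leaf 301 1639 .nil)) .nil)) .nil)) .nil)) (.cons 225 (.leaf 226 1803 (.cons 249 (.leaf 224 1795 (.cons 248 (.leaf 247 1976 (.leaf 271 1978 .nil)) .nil)) .nil)) (.cons 226 (.leaf 225 1803 (.cons 202 (.leaf 178 1428 (.cons 177 (.leaf 201 1423 (.cons 203 (.leaf 179 1429 (.cons 227 (.leaf 298 1621 (.cons 204 (.leaf 180 1437 (.cons 205 (.leaf 206 1618 (.cons 229 (.leaf 230 1616 (.cons 181 (.leaf 182 1425 (.cons 228 (.leaf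 157 1254 (.cons 277 (.leaf 278 2000 (.leaf 301 1639 .nil)) .nil)) .nil)) .nil)) .nil)) .nil)) .nil)) .nil)) .nil)) .nil)) .nil)) .nil)))) .nil)) .nil)) (.cons 273 (.leaf 274 1985 (.cons 250 (.leaf 249 1986 (.cons 226 (.cons 225 (.leaf 253 1803 (.cons 224 (.leaf 223 1784 (.leaf 227 1792 .nil)) .nil)) (.cons 202 (.leaf 178 1428 (.cons 299 (.leaf 227 1623 (.leaf 323 1815 .nil)) .nil)) (.cons 178 (.leaf 202 1428 (.cons 253 (.leaf 225 1803 (.cons 230 (.leaf 229 1809 (.cons 254 (.leaf 231 1817 (.cons 278 (.leaf 277 2000 (.leaf 279 2008 .nil)) .nil)) .nil)) .nil)) .nil)) .nil))) .nil)) .nil)) (.cons 273 (.leaf 274 1985 (.cons 299 (.cons 228 (.leaf 323 1821 (.cons 204 (.leaf 180 1438 (.leaf 227 1629 .nil)) .nil)) (.cons 249 (.leaf 250 1986 (.cons 227 (.cons 204 (.leaf 228 1629 (.cons 180 (.leaf 203 1437 (.cons 226 (.leaf 202 1623 (.cons 225 (.leaf 224 1792 (.cons 201 (.leaf 296 1606 (.cons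 176 (.leaf 200 1415 (.cons 177 (.leaf 248 1414 (.leaf 152 1223 .nil)) .nil)) .nil)) .nil)) .nil)) .nil)) .nil)) (.cons 298 (.leaf 322 1814 (.cons 300 (.leaf 324 1820 (.leaf 297 2179 .nil)) .nil)) .nil)) .nil)) (.cons 250 (.leaf 249 1986 (.cons 226 (.leaf 323 1815 (.cons 202 (.leaf 178 1428 (.leaf 227 1623 .nil)) .nil)) .nil)) (.cons 323 (.leaf 228 1821 (.cons 250 (.leaf 226 1815 (.leaf 249 1986 .nil)) .nil)) .nil)))) .nil)) (.cons 274 (.leaf 273 1985 (.cons 253 (.leaf 254 2002 (.cons 250 (.cons 226 (.leaf 225 1803 (.cons 202 (.leaf 178 1428 (.leaf 299 1620 .nil)) .nil)) (.cons 229 (.leaf 230 1809 (.cons 277 (.leaf 278 2000 (.cons 301 (.cons 300 (.leaf 324 1830 (.cons 302 (.leaf 299 2195 (.leaf 326 1836 .nil)) .nil)) (.cons 228 (.leaf 249 1801 (.leaf 325 1831 .nil)) .nil)) .nil)) .nil)) (.cons 229 (.leaf 230 1809 (.cons 228 (.leaf 249 1801 (.cons 204 (.leaf 180 1438 (.cons 277 (.leaf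 278 2000 (.leaf 301 1639 .nil)) .nil)) .nil)) .nil)) .nil))) .nil)) .nil)) (.cons 274 (.leaf 273 1985 (.cons 253 (.leaf 254 2002 (.cons 250 (.cons 229 (.leaf 230 1809 (.cons 277 (.leaf 278 2000 (.cons 301 (.cons 300 (.leaf 324 1830 (.cons 302 (.leaf 299 2195 (.leaf 326 1836 .nil)) .nil)) (.cons 228 (.leaf 249 1801 (.leaf 325 1831 .nil)) .nil)) .nil)) .nil)) (.cons 225 (.leaf 226 1803 (.cons 249 (.leaf 224 1795 (.cons 248 (.leaf 247 1976 (.leaf 271 1978 .nil)) .nil)) .nil)) (.cons 226 (.leaf 225 1803 (.cons 299 (.leaf 323 1815 (.cons 298 (.cons 227 (.leaf 203 1621 (.leaf 322 1813 .nil)) (.cons 297 (.leaf 321 1806 (.cons 296 (.leaf 295 2169 (.leaf 271 2171 .nil)) .nil)) .nil)) .nil)) .nil)) .nil))) .nil)) .nil)) .nil)))))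
noncomputable def t59 : T := .cons 323 (.leaf 228 1821 (.cons 226 (.leaf 250 1815 (.cons 346 (.leaf 322 2006 (.cons 227 (.leaf 202 1623 (.cons 324 (.leaf 300 1820 (.leaf 348 2012 .nil)) .nil)) .nil)) .nil)) .nil)) (.cons 227 (.cons 298 (.leaf 322 1814 (.cons 226 (.leaf 202 1623 (.cons 225 (.leaf 224 1792 (.cons 253 (.leaf 250 1803 (.leaf 254 1811 .nil)) .nil)) .nil)) .nil)) (.cons 298 (.leaf 322 1814 (.cons 203 (.leaf 274 1622 (.cons 178 (.leaf 202 1431 (.cons 204 (.leaf 180 1437 (.leaf 228 1629 .nil)) .nil)) .nil)) .nil)) (.cons 226 (.leaf 202 1623 (.cons 225 (.leaf 224 1792 (.cons 228 (.leaf 204 1629 (.leaf 253 1800 .nil)) .nil)) .nil)) (.cons 228 (.leaf 204 1629 (.cons 298 (.leaf 322 1814 (.cons 274 (.leaf 203 1622 (.cons 253 (.leaf 254 2002 (.cons 300 (.leaf 324 1820 (.cons 301 (.leaf 302 2195 (.cons 277 (.leaf 325 1831 (.leaf 278 2193 .nil)) .nil)) .nil)) .nil)) .nil)) .nil))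 .nil)) .nil)))) (.cons 227 (.cons 226 (.leaf 202 1623 (.cons 225 (.leaf 224 1792 (.cons 253 (.leaf 250 1803 (.leaf 254 1811 .nil)) .nil)) .nil)) (.cons 298 (.leaf 322 1814 (.cons 274 (.leaf 203 1622 (.cons 324 (.leaf 300 1820 (.cons 323 (.leaf 348 2012 (.cons 347 (.leaf 250 2007 (.leaf 371 2199 .nil)) .nil)) .nil)) .nil)) .nil)) (.cons 226 (.leaf 202 1623 (.cons 224 (.leaf 225 1792 (.cons 253 (.leaf 254 1811 (.cons 322 (.leaf 298 1814 (.cons 323 (.leaf 346 2006 (.cons 324 (.leaf 300 1820 (.leaf 348 2012 .nil)) .nil)) .nil)) .nil)) .nil)) .nil)) .nil))) (.cons 323 (.leaf 228 1821 (.cons 226 (.leaf 250 1815 (.cons 346 (.leaf 322 2006 (.cons 347 (.leaf 370 2198 (.cons 348 (.leaf 324 2012 (.leaf 372 2204 .nil)) .nil)) .nil)) .nil)) .nil)) (.cons 227 (.cons 228 (.leaf 204 1629 (.leaf 323 1821 .nil)) (.cons 226 (.leaf 202 1623 (.cons 224 (.leaf 225 1792 (.cons 253 (.leaf 254 1811 (.cons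 322 (.leaf 298 1814 (.cons 323 (.leaf 346 2006 (.cons 324 (.leaf 300 1820 (.leaf 348 2012 .nil)) .nil)) .nil)) .nil)) .nil)) .nil)) (.cons 228 (.leaf 204 1629 (.cons 298 (.leaf 322 1814 (.cons 203 (.leaf 274 1622 (.cons 178 (.leaf 202 1431 (.cons 179 (.leaf 154 1239 (.leaf 155 1244 .nil)) .nil)) .nil)) .nil)) .nil)) .nil))) (.cons 323 (.leaf 228 1821 (.cons 322 (.leaf 346 2006 (.cons 227 (.leaf 298 1814 (.cons 324 (.leaf 300 1820 (.leaf 348 2012 .nil)) .nil)) .nil)) .nil)) (.cons 323 (.leaf 228 1821 (.cons 226 (.leaf 250 1815 (.cons 227 (.leaf 202 1623 (.cons 324 (.leaf 300 1820 (.leaf 348 2012 .nil)) .nil)) .nil)) .nil)) (.cons 323 (.leaf 228 1821 (.cons 226 (.leaf 250 1815 (.cons 227 (.leaf 202 1623 (.cons 322 (.leaf 298 1814 (.leaf 346 2006 .nil)) .nil)) .nil)) .nil)) .nil)))))))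
noncomputable def t60 : T := .cons 204 (.leaf 180 1438 (.cons 227 (.leaf 299 1629 (.cons 203 (.leaf 298 1622 (.cons 155 (.leaf 179 1244 (.cons 202 (.leaf 178 1431 (.cons 201 (.leaf 200 1600 (.leaf 229 1608 .nil)) .nil)) .nil)) .nil)) .nil)) .nil)) (.cons 204 (.leaf 180 1438 (.cons 229 (.cons 230 (.leaf 231 1818 (.cons 250 (.leaf 227 1810 (.leaf 249 1801 .nil)) .nil)) (.cons 250 (.leaf 249 1801 (.cons 253 (.leaf 254 2002 (.cons 277 (.leaf 278 2000 (.leaf 301 1639 .nil)) .nil)) .nil)) (.cons 230 (.leaf 231 1818 (.cons 254 (.leaf 253 2002 (.cons 227 (.leaf 255 1816 (.cons 203 (.leaf 298 1622 (.leaf 202 1619 .nil)) .nil)) .nil)) .nil)) .nil))) .nil)) (.cons 299 (.leaf 323 1821 (.cons 253 (.leaf 254 2002 (.cons 277 (.cons 250 (.leaf 278 2000 (.cons 301 (.leaf 325 1831 (.cons 300 (.leaf 302 2195 (.cons 227 (.leaf 324 1820 (.cons 229 (.leaf 230 1809 (.leaf 249 1801 .nil)) .nil)) .nil)) .nil))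 .nil)) (.cons 301 (.leaf 325 1831 (.cons 300 (.leaf 302 2195 (.cons 229 (.leaf 324 1830 (.cons 230 (.leaf 231 1818 (.leaf 206 1645 .nil)) .nil)) .nil)) .nil)) (.cons 250 (.leaf 278 2000 (.cons 229 (.leaf 249 1801 (.leaf 230 1809 .nil)) .nil)) (.cons 301 (.leaf 325 1831 (.cons 300 (.leaf 302 2195 (.cons 298 (.leaf 278 2193 (.cons 322 (.leaf 227 1814 (.leaf 346 2005 .nil)) .nil)) .nil)) .nil)) .nil)))) .nil)) .nil)) (.cons 253 (.leaf 254 2002 (.cons 204 (.leaf 180 1438 (.cons 299 (.leaf 323 1821 (.cons 277 (.cons 301 (.leaf 325 1831 (.leaf 229 1639 .nil)) (.cons 250 (.leaf 278 2000 (.cons 229 (.leaf 249 1801 (.leaf 230 1809 .nil)) .nil)) (.cons 278 (.leaf 250 2000 (.cons 279 (.leaf 280 2019 (.cons 301 (.leaf 325 1831 (.cons 300 (.leaf 302 2201 (.leaf 298 2193 .nil)) .nil)) .nil)) .nil)) .nil))) .nil)) .nil)) .nil)) (.cons 204 (.leaf 180 1438 (.cons 299 (.leaf 227 1629 (.leaf 323 1821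 .nil)) .nil)) .nil))))
noncomputable def t61 : T := .cons 344 (.leaf 249 1989 (.cons 368 (.leaf 297 2181 (.cons 271 (.leaf 247 1983 (.leaf 295 2175 .nil)) .nil)) .nil)) (.cons 248 (.cons 223 (.leaf 247 1791 (.cons 224 (.leaf 199 1599 (.cons 319 (.leaf 295 1790 (.leaf 343 1982 .nil)) .nil)) .nil)) (.cons 223 (.leaf 247 1791 (.cons 224 (.leaf 199 1599 (.cons 297 (.leaf 200 1604 (.leaf 321 1796 .nil)) .nil)) .nil)) (.cons 321 (.leaf 345 1988 (.cons 297 (.leaf 224 1796 (.cons 319 (.leaf 343 1982 (.cons 298 (.leaf 299 2362 (.leaf 318 2353 .nil)) .nil)) .nil)) .nil)) (.cons 247 (.leaf 223 1791 (.cons 246 (.leaf 245 1960 (.cons 249 (.leaf 225 1797 (.cons 222 (.leaf 221 1771 (.cons 269 (.leaf 270 1962 (.cons 321 (.leaf 345 1988 (.cons 319 (.leaf 343 1982 (.cons 271 (.leaf 295 1783 (.cons 250 (.leaf 251 1978 (.cons 226 (.leaf 297 1805 (.leaf 227 1785 .nil)) .nil)) .nil)) .nil)) .nil)) .nil))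 .nil)) .nil)) .nil)) .nil)) .nil)))) (.cons 344 (.cons 368 (.leaf 297 2181 (.cons 271 (.leaf 247 1983 (.leaf 295 2175 .nil)) .nil)) (.cons 247 (.leaf 271 1983 (.cons 248 (.leaf 223 1791 (.cons 343 (.leaf 319 1982 (.leaf 367 2174 .nil)) .nil)) .nil)) (.cons 297 (.leaf 368 2181 (.cons 343 (.leaf 367 2174 (.cons 248 (.leaf 319 1982 (.cons 224 (.leaf 200 1604 (.leaf 321 1796 .nil)) .nil)) .nil)) .nil)) .nil))) (.cons 344 (.leaf 249 1989 (.cons 247 (.leaf 271 1983 (.cons 248 (.leaf 223 1791 (.cons 343 (.leaf 319 1982 (.leaf 367 2174 .nil)) .nil)) .nil)) .nil)) (.cons 344 (.leaf 249 1989 (.cons 297 (.leaf 368 2181 (.cons 343 (.leaf 367 2174 (.cons 248 (.leaf 319 1982 (.cons 224 (.leaf 200 1604 (.leaf 321 1796 .nil)) .nil)) .nil)) .nil)) .nil)) .nil))))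
noncomputable def t62 : T := .cons 274 (.leaf 295 2170 (.cons 299 (.leaf 300 2176 (.cons 251 (.leaf 252 1985 (.cons 271 (.leaf 250 1977 (.leaf 298 2168 .nil)) .nil)) .nil)) .nil)) (.cons 320 t61 (.cons 274 (.cons 299 (.leaf 300 2176 (.cons 251 (.leaf 252 1985 (.cons 271 (.leaf 250 1977 (.leaf 298 2168 .nil)) .nil)) .nil)) (.cons 247 (.leaf 248 1979 (.cons 251 (.leaf 252 1985 (.cons 271 (.leaf 246 1971 (.leaf 250 1977 .nil)) .nil)) .nil)) (.cons 299 (.leaf 300 2176 (.cons 247 (.leaf 248 1979 (.cons 271 (.leaf 246 1971 (.leaf 298 2168 .nil)) .nil)) .nil)) (.cons 248 (.leaf 247 1979 (.cons 299 (.leaf 300 2176 (.cons 251 (.leaf 252 1985 (.cons 227 (.cons 298 (.leaf 203 1622 (.leaf 322 1814 .nil)) (.cons 226 (.leaf 202 1623 (.cons 204 (.leaf 228 1629 (.cons 203 (.leaf 180 1437 (.cons 250 (.leaf 323 1815 (.leaf 179 1430 .nil)) .nil)) .nil)) .nil)) (.cons 202 (.leaf 226 1623 (.cons 228 (.leaf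 204 1629 (.cons 249 (.leaf 250 1793 (.cons 298 (.leaf 322 1814 (.cons 320 (.leaf 225 1797 (.leaf 344 1989 .nil)) .nil)) .nil)) .nil)) .nil)) .nil))) .nil)) .nil)) .nil)) .nil)))) (.cons 274 (.leaf 295 2170 (.cons 248 (.leaf 247 1979 (.cons 299 (.leaf 300 2176 (.cons 251 (.leaf 252 1985 (.cons 227 (.cons 298 (.leaf 203 1622 (.leaf 322 1814 .nil)) (.cons 226 (.leaf 202 1623 (.cons 204 (.leaf 228 1629 (.cons 203 (.leaf 180 1437 (.cons 250 (.leaf 323 1815 (.leaf 179 1430 .nil)) .nil)) .nil)) .nil)) (.cons 202 (.leaf 226 1623 (.cons 228 (.leaf 204 1629 (.cons 249 (.leaf 250 1793 (.cons 298 (.leaf 322 1814 (.cons 320 (.leaf 225 1797 (.leaf 344 1989 .nil)) .nil)) .nil)) .nil)) .nil)) .nil))) .nil)) .nil)) .nil)) .nil)) (.cons 274 (.leaf 295 2170 (.cons 247 (.leaf 248 1979 (.cons 251 (.leaf 252 1985 (.cons 271 (.leaf 246 1971 (.leaf 250 1977 .nil)) .nil)) .nil)) .nil)) (.cons 274 (.leaf 295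 2170 (.cons 299 (.leaf 300 2176 (.cons 247 (.leaf 248 1979 (.cons 271 (.leaf 246 1971 (.leaf 298 2168 .nil)) .nil)) .nil)) .nil)) .nil)))))
noncomputable def t63 : T := .cons 344 (.leaf 249 1989 (.cons 368 (.leaf 297 2181 (.cons 271 (.leaf 247 1983 (.leaf 295 2175 .nil)) .nil)) .nil)) (.cons 248 (.cons 247 (.leaf 223 1791 (.cons 246 (.leaf 245 1960 (.cons 249 (.leaf 225 1797 (.cons 222 (.leaf 221 1771 (.cons 270 (.leaf 269 1962 (.cons 319 (.leaf 343 1982 (.cons 295 (.leaf 224 1790 (.leaf 271 1783 .nil)) .nil)) .nil)) .nil)) .nil)) .nil)) .nil)) (.cons 321 (.leaf 345 1988 (.cons 223 (.leaf 247 1791 (.cons 224 (.leaf 199 1599 (.leaf 297 1796 .nil)) .nil)) .nil)) (.cons 321 (.leaf 345 1988 (.cons 297 (.leaf 224 1796 (.cons 319 (.leaf 343 1982 (.cons 298 (.leaf 299 2362 (.leaf 318 2353 .nil)) .nil)) .nil)) .nil)) (.cons 247 (.leaf 223 1791 (.cons 246 (.leaf 245 1960 (.cons 249 (.leaf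 225 1797 (.cons 222 (.leaf 221 1771 (.cons 270 (.leaf 269 1962 (.cons 319 (.leaf 343 1982 (.cons 295 (.leaf 271 1783 (.leaf 294 1780 .nil)) .nil)) .nil)) .nil)) .nil)) .nil)) .nil)) .nil)))) (.cons 344 (.cons 368 (.leaf 297 2181 (.cons 271 (.leaf 247 1983 (.leaf 295 2175 .nil)) .nil)) (.cons 247 (.leaf 271 1983 (.cons 248 (.leaf 223 1791 (.cons 343 (.leaf 319 1982 (.leaf 367 2174 .nil)) .nil)) .nil)) (.cons 297 (.leaf 368 2181 (.cons 345 (.leaf 369 2180 (.cons 248 (.leaf 321 1988 (.cons 223 (.leaf 247 1791 (.cons 224 (.leaf 199 1599 (.leaf 200 1604 .nil)) .nil)) .nil)) .nil)) .nil)) (.cons 297 (.leaf 368 2181 (.cons 345 (.leaf 369 2180 (.cons 321 (.leaf 248 1988 (.cons 346 (.leaf 370 2188 (.cons 319 (.leaf 318 2544 (.leaf 347 2555 .nil)) .nil)) .nil)) .nil)) .nil)) .nil)))) (.cons 344 (.leaf 249 1989 (.cons 247 (.leaf 271 1983 (.cons 248 (.leaf 223 1791 (.cons 343 (.leaf 319 1982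 (.leaf 367 2174 .nil)) .nil)) .nil)) .nil)) (.cons 344 (.leaf 249 1989 (.cons 297 (.leaf 368 2181 (.cons 345 (.leaf 369 2180 (.cons 248 (.leaf 321 1988 (.cons 223 (.leaf 247 1791 (.cons 224 (.leaf 199 1599 (.leaf 200 1604 .nil)) .nil)) .nil)) .nil)) .nil)) .nil)) (.cons 344 (.leaf 249 1989 (.cons 297 (.leaf 368 2181 (.cons 345 (.leaf 369 2180 (.cons 321 (.leaf 248 1988 (.cons 346 (.leaf 370 2188 (.cons 319 (.leaf 318 2544 (.leaf 347 2555 .nil)) .nil)) .nil)) .nil)) .nil)) .nil)) .nil)))))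
noncomputable def t64 : T := .cons 274 (.leaf 295 2170 (.cons 299 (.leaf 300 2176 (.cons 251 (.leaf 252 1985 (.cons 271 (.leaf 250 1977 (.leaf 298 2168 .nil)) .nil)) .nil)) .nil)) (.cons 320 t63 (.cons 274 (.cons 299 (.leaf 300 2176 (.cons 251 (.leaf 252 1985 (.cons 271 (.leaf 250 1977 (.leaf 298 2168 .nil)) .nil)) .nil)) (.cons 247 (.leaf 248 1979 (.cons 251 (.leaf 252 1985 (.cons 271 (.leaf 246 1971 (.leaf 250 1977 .nil)) .nil)) .nil)) (.cons 299 (.leaf 300 2176 (.cons 247 (.leaf 248 1979 (.cons 271 (.leaf 246 1971 (.leaf 298 2168 .nil)) .nil)) .nil)) (.cons 248 (.leaf 247 1979 (.cons 299 (.leaf 300 2176 (.cons 251 (.leaf 252 1985 (.cons 320 (.cons 249 (.leaf 225 1797 (.leaf 344 1989 .nil)) (.cons 319 (.leaf 343 1982 (.cons 345 (.leaf 321 1988 (.cons 344 (.leaf 369 2180 (.cons 297 (.leaf 368 2181 (.leaf 298 2362 .nil)) .nil)) .nil)) .nil)) (.cons 249 (.leaf 225 1797 (.cons 319 (.leaf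 343 1982 (.cons 321 (.leaf 345 1988 (.cons 224 (.leaf 297 1796 (.cons 200 (.leaf 176 1412 (.cons 199 (.leaf 175 1407 (.leaf 223 1599 .nil)) .nil)) .nil)) .nil)) .nil)) .nil)) .nil))) .nil)) .nil)) .nil)) .nil)))) (.cons 274 (.leaf 295 2170 (.cons 248 (.leaf 247 1979 (.cons 299 (.leaf 300 2176 (.cons 251 (.leaf 252 1985 (.cons 320 (.cons 249 (.leaf 225 1797 (.leaf 344 1989 .nil)) (.cons 319 (.leaf 343 1982 (.cons 345 (.leaf 321 1988 (.cons 344 (.leaf 369 2180 (.cons 297 (.leaf 368 2181 (.leaf 298 2362 .nil)) .nil)) .nil)) .nil)) (.cons 249 (.leaf 225 1797 (.cons 319 (.leaf 343 1982 (.cons 321 (.leaf 345 1988 (.cons 224 (.leaf 297 1796 (.cons 200 (.leaf 176 1412 (.cons 199 (.leaf 175 1407 (.leaf 223 1599 .nil)) .nil)) .nil)) .nil)) .nil)) .nil)) .nil))) .nil)) .nil)) .nil)) .nil)) (.cons 320 (.cons 344 (.leaf 249 1989 (.cons 368 (.leaf 297 2181 (.cons 271 (.leaf 247 1983 (.leaf 295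 2175 .nil)) .nil)) .nil)) (.cons 274 (.leaf 295 2170 (.cons 247 (.leaf 248 1979 (.cons 251 (.leaf 252 1985 (.cons 271 (.leaf 246 1971 (.leaf 250 1977 .nil)) .nil)) .nil)) .nil)) (.cons 344 (.leaf 249 1989 (.cons 247 (.leaf 271 1983 (.cons 248 (.leaf 274 1979 (.leaf 223 1791 .nil)) .nil)) .nil)) (.cons 344 (.leaf 249 1989 (.cons 297 (.leaf 368 2181 (.cons 345 (.leaf 369 2180 (.cons 321 (.leaf 248 1988 (.cons 346 (.leaf 370 2188 (.cons 319 (.leaf 318 2544 (.leaf 347 2555 .nil)) .nil)) .nil)) .nil)) .nil)) .nil)) .nil)))) .nil))))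
noncomputable def t65 : T := .leaf 274 2170 (.cons 294 (.leaf 293 2153 (.cons 297 (.cons 270 (.leaf 269 2155 (.cons 318 (.leaf 317 2346 (.cons 319 (.leaf 298 2354 (.cons 343 (.leaf 367 2173 (.leaf 246 1972 .nil)) .nil)) .nil)) .nil)) (.cons 318 (.leaf 317 2346 (.cons 298 (.leaf 319 2354 (.cons 299 (.leaf 271 2171 (.leaf 300 2179 .nil)) .nil)) .nil)) (.cons 270 (.leaf 269 2155 (.cons 271 (.leaf 298 2160 (.cons 246 (.leaf 245 1963 (.cons 222 (.leaf 198 1588 (.leaf 319 1780 .nil)) .nil)) .nil)) .nil)) (.cons 270 (.leaf 269 2155 (.cons 318 (.leaf 317 2346 (.cons 319 (.cons 343 (.leaf 367 2173 (.leaf 246 1972 .nil)) (.cons 224 (.leaf 248 1790 (.cons 246 (.leaf 222 1780 (.cons 245 (.leaf 271 1963 (.leaf 221 1775 .nil)) .nil)) .nil)) (.cons 343 (.leaf 367 2173 (.cons 248 (.leaf 224 1790 (.leaf 271 1981 .nil)) .nil)) .nil))) .nil)) .nil)) (.cons 270 (.leaf 269 2155 (.cons 271 (.leaf 298 2160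 (.cons 245 (.leaf 246 1963 (.cons 318 (.leaf 317 2346 (.cons 247 (.leaf 223 1782 (.leaf 342 1973 .nil)) .nil)) .nil)) .nil)) .nil)) .nil))))) .nil)) .nil)
noncomputable def t66 : T := .cons 319 (.leaf 343 1982 (.cons 247 (.leaf 223 1791 (.cons 318 (.leaf 317 2345 (.cons 271 (.leaf 344 1980 (.leaf 342 1974 .nil)) .nil)) .nil)) .nil)) (.cons 321 (.leaf 345 1988 (.cons 247 (.leaf 223 1791 (.cons 322 (.leaf 323 2363 (.cons 344 (.leaf 271 1983 (.cons 367 (.leaf 343 2174 (.cons 368 (.leaf 391 2366 (.leaf 392 2373 .nil)) .nil)) .nil)) .nil)) .nil)) .nil)) (.cons 247 (.leaf 223 1791 (.cons 344 (.leaf 271 1983 (.cons 345 (.leaf 321 1988 (.leaf 369 2180 .nil)) .nil)) .nil)) (.cons 319 (.leaf 343 1982 (.cons 317 (.leaf 318 2345 (.cons 345 (.leaf 321 1988 (.cons 344 (.leaf 369 2180 (.cons 368 (.leaf 271 2175 (.leaf 392 2367 .nil)) .nil)) .nil)) .nil)) .nil)) (.cons 343 (.leaf 319 1982 (.cons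 223 (.leaf 247 1791 (.cons 344 (.leaf 367 2174 (.cons 345 (.leaf 321 1988 (.leaf 369 2180 .nil)) .nil)) .nil)) .nil)) (.cons 319 (.leaf 343 1982 (.cons 247 (.leaf 223 1791 (.cons 318 (.leaf 317 2345 (.cons 271 (.leaf 342 1974 (.cons 246 (.leaf 222 1783 (.cons 245 (.leaf 244 1952 (.cons 269 (.leaf 270 2152 (.leaf 268 1954 .nil)) .nil)) .nil)) .nil)) .nil)) .nil)) .nil)) .nil)))))
noncomputable def t67 : T := .cons 343 (.leaf 367 2173 (.cons 248 (.leaf 224 1790 (.leaf 271 1981 .nil)) .nil)) (.cons 248 (.leaf 224 1790 (.cons 320 (.cons 321 (.leaf 345 1988 (.leaf 322 2355 .nil)) (.cons 247 (.leaf 223 1791 (.cons 271 (.leaf 344 1980 (.cons 246 (.leaf 245 1960 (.leaf 222 1783 .nil)) .nil)) .nil)) .nil)) .nil)) (.cons 343 (.leaf 367 2173 (.cons 271 (.cons 342 (.leaf 366 2166 (.cons 318 (.leaf 247 1974 (.cons 317 (.leaf 316 2337 (.cons 270 (.leaf 246 1972 (.cons 344 (.leaf 368 2172 (.leaf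 345 2539 .nil)) .nil)) .nil)) .nil)) .nil)) (.cons 342 (.leaf 366 2166 (.cons 318 (.leaf 247 1974 (.cons 317 (.leaf 316 2337 (.cons 344 (.leaf 368 2172 (.leaf 345 2539 .nil)) .nil)) .nil)) .nil)) (.cons 342 (.leaf 366 2166 (.cons 247 (.leaf 318 1974 (.cons 223 (.leaf 199 1596 (.leaf 320 1788 .nil)) .nil)) .nil)) (.cons 270 (.leaf 246 1975 (.cons 269 (.leaf 268 2144 (.cons 245 (.leaf 244 1955 (.cons 342 (.leaf 366 2166 (.leaf 318 1967 .nil)) .nil)) .nil)) .nil)) (.cons 246 (.leaf 270 1975 (.cons 247 (.leaf 222 1783 (.cons 223 (.leaf 199 1596 (.leaf 320 1788 .nil)) .nil)) .nil)) .nil))))) .nil)) (.cons 343 (.leaf 367 2173 (.cons 248 (.leaf 224 1790 (.leaf 320 1982 .nil)) .nil)) .nil)))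
noncomputable def t68 : T := .cons 273 (.leaf 274 2170 (.cons 294 (.leaf 293 2153 (.cons 297 (.cons 270 (.leaf 269 2155 (.cons 318 (.leaf 317 2346 (.cons 319 (.leaf 298 2354 (.cons 343 (.leaf 367 2173 (.leaf 246 1972 .nil)) .nil)) .nil)) .nil)) (.cons 321 (.leaf 322 2352 (.cons 345 (.leaf 248 1991 (.leaf 369 2183 .nil)) .nil)) .nil)) .nil)) .nil)) (.cons 319 (.cons 248 (.leaf 224 1790 (.cons 343 (.leaf 271 1981 (.leaf 320 1982 .nil)) .nil)) (.cons 248 (.leaf 224 1790 (.cons 320 (.cons 247 (.leaf 223 1791 (.cons 271 (.leaf 344 1980 (.cons 222 (.leaf 246 1783 (.cons 318 (.leaf 342 1974 (.cons 317 (.leaf 316 2337 (.leaf 297 2345 .nil)) .nil)) .nil)) .nil)) .nil)) (.cons 321 (.leaf 345 1988 (.cons 294 (.leaf 293 2344 (.leaf 322 2355 .nil)) .nil)) .nil)) .nil)) (.cons 343 (.leaf 367 2173 (.cons 271 (.cons 270 (.leaf 246 1975 (.cons 269 (.leaf 297 2152 (.leaf 268 2144 .nil)) .nil)) (.cons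 342 (.leaf 366 2166 (.cons 344 (.leaf 368 2172 (.cons 320 (.leaf 247 1980 (.cons 321 (.leaf 322 2546 (.leaf 341 2537 .nil)) .nil)) .nil)) .nil)) .nil)) .nil)) (.cons 343 (.leaf 367 2173 (.cons 248 (.leaf 224 1790 (.leaf 271 1981 .nil)) .nil)) (.cons 343 (.leaf 367 2173 (.cons 248 (.leaf 224 1790 (.leaf 320 1982 .nil)) .nil)) .nil))))) (.cons 273 (.leaf 274 2170 (.cons 294 (.leaf 293 2153 (.cons 319 t67 .nil)) .nil)) (.cons 273 (.leaf 274 2170 (.cons 294 (.leaf 293 2153 (.cons 297 (.cons 270 (.leaf 269 2155 (.cons 271 (.leaf 298 2160 (.cons 245 (.leaf 246 1963 (.cons 318 (.leaf 317 2346 (.cons 247 (.leaf 223 1782 (.leaf 342 1973 .nil)) .nil)) .nil)) .nil)) .nil)) (.cons 321 (.leaf 322 2352 (.cons 345 (.leaf 248 1991 (.leaf 369 2183 .nil)) .nil)) .nil)) .nil)) .nil)) (.cons 274 (.leaf 273 2170 (.cons 297 (.leaf 298 2169 (.cons 248 (.cons 320 (.cons 319 (.leaf 224 1790 (.leaf 343 1982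 .nil)) (.cons 321 (.leaf 224 1796 (.leaf 345 1988 .nil)) (.cons 319 (.leaf 343 1982 (.cons 247 (.leaf 223 1791 (.cons 318 (.leaf 317 2345 (.cons 271 (.leaf 344 1980 (.leaf 342 1974 .nil)) .nil)) .nil)) .nil)) .nil))) (.cons 320 t66 (.cons 321 (.leaf 224 1796 (.cons 345 (.leaf 320 1988 (.leaf 369 2183 .nil)) .nil)) (.cons 319 (.leaf 224 1790 (.cons 343 (.leaf 271 1981 (.leaf 320 1982 .nil)) .nil)) (.cons 319 (.leaf 224 1790 (.cons 343 (.leaf 271 1981 (.leaf 367 2173 .nil)) .nil)) .nil))))) .nil)) .nil)) (.cons 273 (.leaf 274 2170 (.cons 294 (.leaf 293 2153 (.cons 297 (.cons 317 (.leaf 318 2346 (.cons 322 (.leaf 321 2352 (.cons 298 (.leaf 323 2360 (.cons 270 (.leaf 271 2160 (.leaf 269 2155 .nil)) .nil)) .nil)) .nil)) (.cons 317 (.leaf 318 2346 (.cons 322 (.leaf 321 2352 (.cons 298 (.leaf 323 2360 (.cons 299 (.leaf 271 2171 (.leaf 300 2179 .nil)) .nil)) .nil)) .nil)) (.cons 270 (.leaf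 269 2155 (.cons 271 (.leaf 298 2160 (.cons 246 (.leaf 245 1963 (.cons 222 (.leaf 198 1588 (.leaf 319 1780 .nil)) .nil)) .nil)) .nil)) (.cons 269 (.leaf 270 2155 (.cons 318 (.leaf 317 2346 (.cons 321 (.leaf 322 2352 (.cons 345 (.leaf 369 2183 (.cons 344 (.leaf 368 2182 (.cons 346 (.leaf 370 2188 (.cons 319 (.leaf 320 2544 (.leaf 343 2547 .nil)) .nil)) .nil)) .nil)) .nil)) .nil)) .nil)) .nil)))) .nil)) .nil)) (.cons 273 t65 (.cons 274 (.leaf 273 2170 (.cons 297 (.leaf 298 2169 (.cons 321 (.cons 248 (.leaf 224 1796 (.cons 345 (.leaf 320 1988 (.leaf 369 2183 .nil)) .nil)) (.cons 294 (.leaf 322 2352 (.cons 293 (.leaf 320 2344 (.cons 317 (.leaf 316 2338 (.leaf 318 2346 .nil)) .nil)) .nil)) (.cons 224 (.leaf 248 1796 (.cons 294 (.leaf 322 2352 (.cons 317 (.leaf 318 2346 (.cons 293 (.leaf 316 2338 (.cons 268 (.leaf 269 2147 (.cons 292 (.leaf 271 2145 (.leaf 267 2139 .nil)) .nil)) .nil)) .nil))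 .nil)) .nil)) .nil))) .nil)) .nil)) (.cons 273 (.leaf 274 2170 (.cons 294 (.leaf 293 2153 (.cons 297 (.cons 317 (.leaf 318 2346 (.cons 321 (.leaf 322 2352 (.cons 248 (.leaf 224 1796 (.leaf 345 1991 .nil)) .nil)) .nil)) (.cons 318 (.leaf 317 2346 (.cons 298 (.leaf 319 2354 (.cons 299 (.leaf 271 2171 (.leaf 300 2179 .nil)) .nil)) .nil)) (.cons 321 (.leaf 322 2352 (.cons 345 (.leaf 248 1991 (.leaf 369 2183 .nil)) .nil)) .nil))) .nil)) .nil)) (.cons 273 (.leaf 274 2170 (.cons 294 (.leaf 293 2153 (.cons 297 (.cons 270 (.leaf 269 2155 (.cons 271 (.leaf 298 2160 (.cons 246 (.leaf 245 1963 (.cons 222 (.leaf 198 1588 (.leaf 319 1780 .nil)) .nil)) .nil)) .nil)) (.cons 321 (.leaf 322 2352 (.cons 345 (.leaf 248 1991 (.leaf 369 2183 .nil)) .nil)) .nil)) .nil)) .nil)) .nil)))))))))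
noncomputable def t69 : T := .cons 247 (.leaf 248 1979 (.cons 251 (.leaf 252 1985 (.cons 271 (.leaf 246 1971 (.leaf 250 1977 .nil)) .nil)) .nil)) (.cons 248 (.leaf 247 1979 (.cons 299 (.leaf 300 2176 (.cons 320 (.cons 321 (.leaf 345 1988 (.cons 224 (.leaf 297 1796 (.cons 199 (.leaf 223 1599 (.cons 343 (.leaf 319 1982 (.cons 344 (.leaf 249 1989 (.leaf 367 2174 .nil)) .nil)) .nil)) .nil)) .nil)) (.cons 321 (.leaf 345 1988 (.cons 224 (.leaf 297 1796 (.cons 199 (.leaf 223 1599 (.cons 343 (.leaf 319 1982 (.cons 344 (.leaf 367 2174 (.cons 323 (.leaf 322 2554 (.cons 347 (.leaf 250 2007 (.cons 370 (.leaf 346 2198 (.cons 371 (.leaf 298 2199 (.leaf 394 2390 .nil)) .nil)) .nil)) .nil)) .nil)) .nil)) .nil)) .nil)) .nil)) (.cons 249 (.leaf 225 1797 (.leaf 344 1989 .nil)) (.cons 249 (.leaf 225 1797 (.cons 319 (.leaf 343 1982 (.cons 321 (.leaf 345 1988 (.cons 224 (.leaf 297 1796 (.cons 200 (.leaf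 176 1412 (.cons 199 (.leaf 175 1407 (.leaf 223 1599 .nil)) .nil)) .nil)) .nil)) .nil)) .nil)) .nil)))) .nil)) .nil)) (.cons 251 (.leaf 252 1985 (.cons 271 (.leaf 250 1977 (.cons 299 (.leaf 300 2176 (.leaf 298 2168 .nil)) .nil)) .nil)) (.cons 299 (.leaf 300 2176 (.cons 247 (.leaf 248 1979 (.cons 271 (.leaf 246 1971 (.leaf 298 2168 .nil)) .nil)) .nil)) .nil)))
noncomputable def t70 : T := .cons 344 (.leaf 249 1989 (.cons 368 (.leaf 297 2181 (.cons 271 (.leaf 247 1983 (.leaf 295 2175 .nil)) .nil)) .nil)) (.cons 248 (.cons 223 (.leaf 247 1791 (.cons 224 (.leaf 199 1599 (.cons 319 (.leaf 295 1790 (.leaf 343 1982 .nil)) .nil)) .nil)) (.cons 223 (.leaf 247 1791 (.cons 224 (.leaf 199 1599 (.cons 297 (.leaf 200 1604 (.leaf 321 1796 .nil)) .nil)) .nil)) (.cons 321 (.leaf 345 1988 (.cons 224 (.leaf 297 1796 (.cons 319 (.leaf 295 1790 (.leaf 343 1982 .nil)) .nil)) .nil)) (.cons 321 (.leaf 345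 1988 (.cons 247 (.leaf 223 1791 (.cons 246 (.leaf 245 1960 (.cons 249 (.leaf 225 1797 (.cons 222 (.leaf 221 1771 (.cons 319 (.leaf 343 1982 (.cons 271 (.leaf 295 1783 (.cons 250 (.leaf 251 1978 (.cons 226 (.leaf 297 1805 (.leaf 227 1785 .nil)) .nil)) .nil)) .nil)) .nil)) .nil)) .nil)) .nil)) .nil)) .nil)))) (.cons 344 (.cons 368 (.leaf 297 2181 (.cons 271 (.leaf 247 1983 (.leaf 295 2175 .nil)) .nil)) (.cons 247 (.leaf 271 1983 (.cons 248 (.leaf 223 1791 (.cons 343 (.leaf 319 1982 (.leaf 367 2174 .nil)) .nil)) .nil)) (.cons 297 (.leaf 368 2181 (.cons 345 (.leaf 369 2180 (.cons 321 (.leaf 248 1988 (.cons 346 (.leaf 370 2188 (.cons 319 (.leaf 318 2544 (.leaf 347 2555 .nil)) .nil)) .nil)) .nil)) .nil)) .nil))) (.cons 344 (.leaf 249 1989 (.cons 247 (.leaf 271 1983 (.cons 248 (.leaf 223 1791 (.cons 343 (.leaf 319 1982 (.leaf 367 2174 .nil)) .nil)) .nil)) .nil)) (.cons 344 (.leaf 249 1989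 (.cons 297 (.leaf 368 2181 (.cons 345 (.leaf 369 2180 (.cons 321 (.leaf 248 1988 (.cons 346 (.leaf 370 2188 (.cons 319 (.leaf 318 2544 (.leaf 347 2555 .nil)) .nil)) .nil)) .nil)) .nil)) .nil)) .nil))))
noncomputable def t71 : T := .cons 320 (.cons 344 (.leaf 249 1989 (.cons 368 (.leaf 297 2181 (.cons 271 (.leaf 247 1983 (.leaf 295 2175 .nil)) .nil)) .nil)) (.cons 274 (.leaf 295 2170 (.cons 251 (.leaf 252 1985 (.cons 250 (.leaf 271 1977 (.cons 299 (.leaf 300 2176 (.cons 226 (.leaf 202 1620 (.leaf 323 1815 .nil)) .nil)) .nil)) .nil)) .nil)) (.cons 344 (.leaf 249 1989 (.cons 247 (.leaf 271 1983 (.cons 248 (.leaf 274 1979 (.leaf 223 1791 .nil)) .nil)) .nil)) (.cons 344 (.leaf 249 1989 (.cons 297 (.leaf 368 2181 (.cons 345 (.leaf 369 2180 (.cons 248 (.leaf 321 1988 (.cons 223 (.leaf 247 1791 (.cons 224 (.leaf 199 1599 (.leaf 200 1604 .nil)) .nil)) .nil)) .nil)) .nil)) .nil)) .nil)))) (.cons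 320 t70 (.cons 274 t69 (.cons 274 (.leaf 295 2170 (.cons 247 (.leaf 248 1979 (.cons 251 (.leaf 252 1985 (.cons 271 (.leaf 246 1971 (.leaf 250 1977 .nil)) .nil)) .nil)) .nil)) (.cons 274 (.leaf 295 2170 (.cons 299 (.leaf 300 2176 (.cons 251 (.leaf 252 1985 (.cons 271 (.leaf 250 1977 (.leaf 298 2168 .nil)) .nil)) .nil)) .nil)) (.cons 320 (.cons 344 (.leaf 249 1989 (.cons 368 (.leaf 297 2181 (.cons 271 (.leaf 247 1983 (.leaf 295 2175 .nil)) .nil)) .nil)) (.cons 274 (.leaf 295 2170 (.cons 247 (.leaf 248 1979 (.cons 271 (.leaf 246 1971 (.cons 299 (.leaf 300 2176 (.leaf 298 2168 .nil)) .nil)) .nil)) .nil)) (.cons 344 (.leaf 249 1989 (.cons 247 (.leaf 271 1983 (.cons 248 (.leaf 274 1979 (.leaf 223 1791 .nil)) .nil)) .nil)) (.cons 344 (.leaf 249 1989 (.cons 297 (.leaf 368 2181 (.cons 345 (.leaf 369 2180 (.cons 321 (.leaf 248 1988 (.cons 346 (.leaf 370 2188 (.cons 319 (.leaf 318 2544 (.leaf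 347 2555 .nil)) .nil)) .nil)) .nil)) .nil)) .nil)) .nil)))) (.cons 274 (.leaf 295 2170 (.cons 248 (.leaf 247 1979 (.cons 299 (.leaf 300 2176 (.cons 320 (.cons 321 (.leaf 345 1988 (.cons 224 (.leaf 297 1796 (.cons 199 (.leaf 223 1599 (.cons 343 (.leaf 319 1982 (.cons 344 (.leaf 249 1989 (.leaf 367 2174 .nil)) .nil)) .nil)) .nil)) .nil)) (.cons 321 (.leaf 345 1988 (.cons 224 (.leaf 297 1796 (.cons 199 (.leaf 223 1599 (.cons 343 (.leaf 319 1982 (.cons 344 (.leaf 367 2174 (.cons 323 (.leaf 322 2554 (.cons 347 (.leaf 250 2007 (.cons 370 (.leaf 346 2198 (.cons 371 (.leaf 298 2199 (.leaf 394 2390 .nil)) .nil)) .nil)) .nil)) .nil)) .nil)) .nil)) .nil)) .nil)) (.cons 249 (.leaf 225 1797 (.leaf 344 1989 .nil)) (.cons 249 (.leaf 225 1797 (.cons 319 (.leaf 343 1982 (.cons 321 (.leaf 345 1988 (.cons 224 (.leaf 297 1796 (.cons 200 (.leaf 176 1412 (.cons 199 (.leaf 175 1407 (.leaf 223 1599 .nil))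 .nil)) .nil)) .nil)) .nil)) .nil)) .nil)))) .nil)) .nil)) .nil)) .nil))))))
noncomputable def t72 : T := .cons 322 (.leaf 346 2005 (.cons 227 (.leaf 203 1622 (.leaf 299 1814 .nil)) .nil)) (.cons 322 (.leaf 346 2005 (.cons 250 (.cons 249 (.leaf 225 1807 (.cons 248 (.leaf 247 1976 (.leaf 271 1978 .nil)) .nil)) (.cons 323 (.leaf 347 2004 (.cons 299 (.leaf 226 1812 (.cons 324 (.leaf 348 2012 (.cons 252 (.leaf 228 1821 (.cons 253 (.leaf 254 2002 (.cons 229 (.leaf 230 1809 (.cons 277 (.leaf 278 2000 (.cons 301 (.leaf 300 1830 (.cons 302 (.leaf 325 2385 (.leaf 326 1836 .nil)) .nil)) .nil)) .nil)) .nil)) .nil)) .nil)) .nil)) .nil)) .nil)) .nil)) (.cons 227 (.leaf 203 1622 (.cons 299 (.cons 228 (.leaf 204 1629 (.cons 300 (.leaf 324 1820 (.cons 301 (.leaf 302 2195 (.cons 277 (.leaf 278 2193 (.cons 325 (.leaf 326 2384 (.cons 253 (.leaf 252 1831 (.cons 226 (.leaf 202 1623 (.cons 254 (.leaf 229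 1808 (.leaf 230 1837 .nil)) .nil)) .nil)) .nil)) .nil)) .nil)) .nil)) .nil)) (.cons 228 (.leaf 204 1629 (.cons 252 (.leaf 323 1821 (.cons 253 (.leaf 254 2002 (.cons 300 (.leaf 324 1820 (.cons 301 (.leaf 302 2195 (.cons 277 (.leaf 278 2193 (.leaf 325 1831 .nil)) .nil)) .nil)) .nil)) .nil)) .nil)) (.cons 226 (.leaf 202 1623 (.cons 323 (.leaf 250 1812 (.cons 324 (.leaf 300 1820 (.leaf 348 2012 .nil)) .nil)) .nil)) (.cons 226 (.leaf 202 1623 (.cons 250 (.leaf 323 1812 (.cons 228 (.leaf 204 1629 (.cons 229 (.leaf 230 1810 (.leaf 249 1802 .nil)) .nil)) .nil)) .nil)) .nil)))) .nil)) (.cons 322 (.leaf 346 2005 (.cons 227 (.leaf 203 1622 (.leaf 250 1813 .nil)) .nil)) .nil)))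
noncomputable def t73 : T := .leaf 274 2170 (.cons 294 (.leaf 293 2153 (.cons 297 (.cons 269 (.leaf 270 2155 (.cons 317 (.leaf 318 2346 (.cons 321 (.leaf 322 2352 (.cons 345 (.leaf 369 2183 (.cons 344 (.leaf 368 2182 (.cons 320 (.leaf 249 1989 (.cons 346 (.leaf 370 2188 (.cons 347 (.leaf 348 2563 (.leaf 319 2555 .nil)) .nil)) .nil)) .nil)) .nil)) .nil)) .nil)) .nil)) (.cons 321 (.leaf 322 2352 (.cons 317 (.leaf 318 2346 (.cons 345 (.leaf 369 2183 (.cons 344 (.leaf 368 2182 (.cons 320 (.leaf 249 1989 (.cons 247 (.leaf 271 1983 (.cons 343 (.leaf 367 2174 (.cons 342 (.leaf 341 2537 (.cons 346 (.leaf 370 2188 (.cons 347 (.leaf 348 2563 (.leaf 319 2555 .nil)) .nil)) .nil)) .nil)) .nil)) .nil)) .nil)) .nil)) .nil)) .nil)) (.cons 270 (.leaf 269 2155 (.cons 318 (.leaf 317 2346 (.cons 271 (.leaf 298 2160 (.cons 247 (.leaf 223 1782 (.leaf 342 1973 .nil)) .nil)) .nil)) .nil)) (.cons 270 (.leaf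 269 2155 (.cons 271 (.leaf 298 2160 (.cons 246 (.leaf 245 1963 (.cons 222 (.leaf 198 1588 (.leaf 319 1780 .nil)) .nil)) .nil)) .nil)) .nil)))) .nil)) .nil)
noncomputable def t74 : T := .cons 322 (.leaf 346 2005 (.cons 227 (.leaf 203 1622 (.leaf 299 1814 .nil)) .nil)) (.cons 227 (.leaf 203 1622 (.cons 299 (.cons 228 (.leaf 204 1629 (.cons 300 (.leaf 324 1820 (.cons 301 (.leaf 302 2195 (.cons 277 (.leaf 278 2193 (.cons 325 (.leaf 326 2384 (.cons 253 (.leaf 252 1831 (.cons 226 (.leaf 202 1623 (.cons 254 (.leaf 229 1808 (.leaf 230 1837 .nil)) .nil)) .nil)) .nil)) .nil)) .nil)) .nil)) .nil)) (.cons 228 (.leaf 204 1629 (.cons 252 (.leaf 323 1821 (.cons 253 (.leaf 254 2002 (.cons 300 (.leaf 324 1820 (.cons 301 (.leaf 302 2195 (.cons 277 (.leaf 278 2193 (.leaf 325 1831 .nil)) .nil)) .nil)) .nil)) .nil)) .nil)) (.cons 226 (.leaf 202 1623 (.cons 323 (.leaf 250 1812 (.cons 324 (.leaf 300 1820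 (.leaf 348 2012 .nil)) .nil)) .nil)) (.cons 226 (.leaf 202 1623 (.cons 250 (.leaf 323 1812 (.cons 228 (.leaf 204 1629 (.cons 229 (.leaf 230 1810 (.leaf 249 1802 .nil)) .nil)) .nil)) .nil)) .nil)))) .nil)) (.cons 322 (.leaf 346 2005 (.cons 250 (.cons 225 (.leaf 249 1807 (.cons 323 (.leaf 347 2004 (.cons 226 (.leaf 299 1812 (.cons 321 (.leaf 320 2363 (.leaf 345 1998 .nil)) .nil)) .nil)) .nil)) (.cons 249 (.leaf 225 1807 (.cons 248 (.leaf 247 1976 (.leaf 271 1978 .nil)) .nil)) (.cons 323 (.leaf 347 2004 (.cons 299 (.leaf 226 1812 (.cons 324 (.leaf 348 2012 (.cons 228 (.leaf 252 1821 (.cons 321 (.leaf 320 2363 (.leaf 345 1998 .nil)) .nil)) .nil)) .nil)) .nil)) .nil))) .nil)) (.cons 322 (.leaf 346 2005 (.cons 227 (.leaf 203 1622 (.leaf 250 1813 .nil)) .nil)) .nil)))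
noncomputable def t75 : T := .cons 344 (.leaf 249 1989 (.cons 271 (.leaf 247 1983 (.leaf 368 2175 .nil)) .nil)) (.cons 248 (.cons 223 (.leaf 247 1791 (.cons 225 (.leaf 249 1797 (.cons 319 (.leaf 343 1982 (.cons 321 (.leaf 345 1988 (.leaf 322 2355 .nil)) .nil)) .nil)) .nil)) (.cons 247 (.leaf 223 1791 (.cons 246 (.leaf 245 1960 (.cons 249 (.leaf 225 1797 (.cons 222 (.leaf 221 1771 (.cons 270 (.leaf 269 1962 (.cons 271 (.leaf 250 1969 (.leaf 198 1588 .nil)) .nil)) .nil)) .nil)) .nil)) .nil)) (.cons 225 (.leaf 249 1797 (.cons 319 (.leaf 343 1982 (.cons 321 (.leaf 345 1988 (.leaf 322 2355 .nil)) .nil)) .nil)) (.cons 223 (.leaf 247 1791 (.cons 319 (.leaf 343 1982 (.cons 321 (.leaf 345 1988 (.leaf 322 2355 .nil)) .nil)) .nil)) .nil)))) (.cons 344 (.leaf 249 1989 (.cons 343 (.leaf 367 2174 (.cons 248 (.leaf 319 1982 (.cons 345 (.leaf 321 1988 (.leaf 369 2180 .nil)) .nil)) .nil)) .nil)) (.cons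 344 (.cons 271 (.leaf 247 1983 (.leaf 368 2175 .nil)) (.cons 343 (.leaf 367 2174 (.cons 248 (.leaf 319 1982 (.cons 345 (.leaf 321 1988 (.leaf 369 2180 .nil)) .nil)) .nil)) .nil)) .nil)))
noncomputable def t76 : T := .cons 293 (.leaf 273 2153 (.cons 271 (.leaf 292 2145 (.cons 317 (.leaf 316 2338 (.cons 297 (.leaf 318 2346 (.cons 298 (.leaf 299 2171 (.leaf 270 2163 .nil)) .nil)) .nil)) .nil)) .nil)) (.cons 297 (.cons 317 (.leaf 318 2346 (.cons 321 (.leaf 322 2352 (.cons 345 (.leaf 369 2183 (.cons 248 (.leaf 273 1991 (.leaf 320 1988 .nil)) .nil)) .nil)) .nil)) (.cons 269 (.leaf 270 2155 (.cons 321 (.leaf 322 2352 (.cons 345 (.leaf 369 2183 (.cons 248 (.leaf 273 1991 (.leaf 320 1988 .nil)) .nil)) .nil)) .nil)) (.cons 269 (.leaf 270 2155 (.cons 318 (.leaf 317 2346 (.cons 298 (.leaf 319 2354 (.cons 299 (.leaf 271 2171 (.cons 323 (.leaf 322 2360 (.leaf 324 2368 .nil)) .nil)) .nil)) .nil))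 .nil)) (.cons 269 (.leaf 270 2155 (.cons 318 (.leaf 317 2346 (.cons 298 (.leaf 319 2354 (.cons 299 (.leaf 271 2171 (.cons 300 (.leaf 273 2179 (.cons 324 (.leaf 323 2368 (.leaf 325 2376 .nil)) .nil)) .nil)) .nil)) .nil)) .nil)) .nil)))) (.cons 293 (.leaf 273 2153 (.cons 268 (.leaf 269 2147 (.cons 317 (.leaf 316 2338 (.cons 297 (.leaf 318 2346 (.cons 321 (.leaf 320 2344 (.leaf 322 2352 .nil)) .nil)) .nil)) .nil)) .nil)) (.cons 293 (.leaf 273 2153 (.cons 268 (.leaf 269 2147 (.cons 292 (.leaf 271 2145 (.leaf 267 2139 .nil)) .nil)) .nil)) (.cons 293 (.cons 271 (.leaf 292 2145 (.cons 317 (.leaf 316 2338 (.cons 297 (.leaf 318 2346 (.cons 298 (.leaf 299 2171 (.leaf 270 2163 .nil)) .nil)) .nil)) .nil)) (.cons 268 (.leaf 269 2147 (.cons 317 (.leaf 316 2338 (.cons 297 (.leaf 318 2346 (.cons 321 (.leaf 320 2344 (.leaf 322 2352 .nil)) .nil)) .nil)) .nil)) (.cons 268 (.leaf 269 2147 (.cons 292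 (.leaf 271 2145 (.leaf 267 2139 .nil)) .nil)) .nil))) .nil))))
noncomputable def t77 : T := .cons 298 (.leaf 274 2169 (.cons 271 (.leaf 299 2171 (.leaf 270 2163 .nil)) .nil)) (.cons 294 (.cons 321 (.leaf 322 2352 (.cons 269 (.leaf 270 2155 (.cons 293 (.leaf 268 2147 (.leaf 320 2344 .nil)) .nil)) .nil)) (.cons 269 (.leaf 270 2155 (.cons 293 (.leaf 268 2147 (.cons 292 (.leaf 271 2145 (.cons 316 (.leaf 317 2338 (.leaf 315 2330 .nil)) .nil)) .nil)) .nil)) (.cons 321 (.leaf 322 2352 (.cons 293 (.leaf 320 2344 (.cons 317 (.leaf 316 2338 (.leaf 318 2346 .nil)) .nil)) .nil)) (.cons 270 (.leaf 269 2155 (.cons 318 (.leaf 317 2346 (.cons 321 (.leaf 322 2352 (.cons 345 (.leaf 369 2183 (.cons 319 (.cons 343 (.leaf 367 2173 (.leaf 246 1972 .nil)) (.cons 222 (.leaf 246 1780 (.cons 320 (.leaf 248 1988 (.leaf 346 2544 .nil)) .nil)) (.cons 343 (.leaf 367 2173 (.cons 346 (.leaf 320 2544 (.leaf 344 2547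 .nil)) .nil)) .nil))) .nil)) .nil)) .nil)) .nil)) .nil)))) (.cons 298 (.leaf 274 2169 (.cons 318 (.leaf 319 2354 (.cons 294 (.leaf 317 2346 (.cons 269 (.leaf 270 2155 (.cons 322 (.leaf 321 2352 (.leaf 323 2360 .nil)) .nil)) .nil)) .nil)) .nil)) (.cons 298 (.leaf 274 2169 (.cons 271 (.leaf 299 2171 (.cons 319 (.leaf 318 2354 (.cons 322 (.leaf 323 2360 (.cons 294 (.leaf 321 2352 (.cons 292 (.leaf 293 2145 (.cons 343 (.leaf 248 1981 (.leaf 367 2173 .nil)) .nil)) .nil)) .nil)) .nil)) .nil)) .nil)) .nil)))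
noncomputable def t78 : T := .cons 273 (.leaf 274 2170 (.cons 294 (.leaf 293 2153 (.cons 297 (.cons 270 (.leaf 269 2155 (.cons 318 (.leaf 317 2346 (.cons 321 (.leaf 322 2352 (.cons 345 (.leaf 248 1991 (.leaf 369 2183 .nil)) .nil)) .nil)) .nil)) (.cons 318 (.leaf 317 2346 (.cons 298 (.leaf 319 2354 (.cons 299 (.leaf 271 2171 (.leaf 300 2179 .nil)) .nil)) .nil)) (.cons 270 (.leaf 269 2155 (.cons 271 (.leaf 298 2160 (.cons 246 (.leaf 245 1963 (.cons 222 (.leaf 198 1588 (.leaf 319 1780 .nil)) .nil)) .nil)) .nil)) .nil))) .nil)) .nil)) (.cons 297 t77 (.cons 294 t76 (.cons 273 (.leaf 274 2170 (.cons 294 (.leaf 293 2153 (.cons 320 t75 .nil)) .nil)) (.cons 274 (.leaf 273 2170 (.cons 298 (.leaf 297 2169 (.cons 251 t74 .nil)) .nil)) (.cons 273 (.leaf 274 2170 (.cons 294 (.leaf 293 2153 (.cons 297 (.cons 269 (.leaf 270 2155 (.cons 318 (.leaf 317 2346 (.cons 298 (.leaf 319 2354 (.cons 299 (.leaf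 300 2179 (.cons 322 (.leaf 321 2352 (.leaf 323 2360 .nil)) .nil)) .nil)) .nil)) .nil)) (.cons 269 (.leaf 270 2155 (.cons 318 (.leaf 317 2346 (.cons 298 (.leaf 319 2354 (.cons 299 (.leaf 300 2179 (.cons 323 (.leaf 322 2360 (.leaf 324 2368 .nil)) .nil)) .nil)) .nil)) .nil)) (.cons 269 (.leaf 270 2155 (.cons 318 (.leaf 317 2346 (.cons 319 (.leaf 298 2354 (.cons 343 (.leaf 367 2173 (.cons 320 (.leaf 248 1982 (.cons 249 (.leaf 344 1989 (.leaf 225 1798 .nil)) .nil)) .nil)) .nil)) .nil)) .nil)) (.cons 321 (.leaf 322 2352 (.cons 345 (.leaf 248 1991 (.leaf 369 2183 .nil)) .nil)) .nil)))) .nil)) .nil)) (.cons 273 t73 (.cons 274 (.leaf 273 2170 (.cons 298 (.leaf 297 2169 (.cons 251 t72 .nil)) .nil)) (.cons 273 (.leaf 274 2170 (.cons 294 (.leaf 293 2153 (.cons 297 (.cons 270 (.leaf 269 2155 (.cons 318 (.leaf 317 2346 (.cons 271 (.leaf 298 2160 (.cons 247 (.leaf 223 1782 (.leaf 342 1973 .nil))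 .nil)) .nil)) .nil)) (.cons 318 (.leaf 317 2346 (.cons 298 (.leaf 319 2354 (.cons 299 (.leaf 271 2171 (.leaf 300 2179 .nil)) .nil)) .nil)) (.cons 318 (.leaf 317 2346 (.cons 269 (.leaf 270 2155 (.cons 319 (.leaf 298 2354 (.cons 343 (.leaf 367 2173 (.cons 320 (.leaf 248 1982 (.cons 249 (.leaf 344 1989 (.leaf 225 1798 .nil)) .nil)) .nil)) .nil)) .nil)) .nil)) (.cons 270 (.leaf 269 2155 (.cons 271 (.leaf 298 2160 (.cons 246 (.leaf 245 1963 (.cons 222 (.leaf 198 1588 (.leaf 319 1780 .nil)) .nil)) .nil)) .nil)) (.cons 270 (.leaf 269 2155 (.cons 318 (.leaf 317 2346 (.cons 271 (.cons 247 (.leaf 223 1782 (.leaf 342 1973 .nil)) (.cons 245 (.leaf 246 1963 (.cons 249 (.leaf 250 1969 (.cons 320 (.leaf 344 1989 (.leaf 225 1798 .nil)) .nil)) .nil)) .nil)) .nil)) .nil)) .nil))))) .nil)) .nil)) .nil))))))))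
noncomputable def t79 : T := .cons 344 (.leaf 249 1989 (.cons 368 (.leaf 297 2181 (.cons 271 (.leaf 247 1983 (.leaf 295 2175 .nil)) .nil)) .nil)) (.cons 248 (.cons 247 (.leaf 223 1791 (.cons 246 (.leaf 245 1960 (.cons 249 (.leaf 225 1797 (.cons 222 (.leaf 221 1771 (.cons 270 (.leaf 269 1962 (.cons 319 (.leaf 343 1982 (.cons 295 (.leaf 224 1790 (.leaf 271 1783 .nil)) .nil)) .nil)) .nil)) .nil)) .nil)) .nil)) (.cons 223 (.leaf 247 1791 (.cons 224 (.leaf 199 1599 (.cons 319 (.leaf 295 1790 (.leaf 343 1982 .nil)) .nil)) .nil)) (.cons 247 (.leaf 223 1791 (.cons 246 (.leaf 245 1960 (.cons 249 (.leaf 225 1797 (.cons 221 (.leaf 222 1771 (.cons 270 (.leaf 269 1962 (.cons 250 (.leaf 271 1969 (.cons 227 (.leaf 226 1785 (.cons 251 (.leaf 252 1986 (.leaf 228 1793 .nil)) .nil)) .nil)) .nil)) .nil)) .nil)) .nil)) .nil)) (.cons 225 (.leaf 249 1797 (.cons 319 (.leaf 343 1982 (.cons 224 (.leaf 295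 1790 (.cons 297 (.leaf 200 1604 (.leaf 321 1796 .nil)) .nil)) .nil)) .nil)) .nil)))) (.cons 344 (.cons 368 (.leaf 297 2181 (.cons 271 (.leaf 247 1983 (.leaf 295 2175 .nil)) .nil)) (.cons 247 (.leaf 271 1983 (.cons 248 (.leaf 223 1791 (.cons 343 (.leaf 319 1982 (.leaf 367 2174 .nil)) .nil)) .nil)) (.cons 297 (.leaf 368 2181 (.cons 343 (.leaf 367 2174 (.cons 248 (.leaf 319 1982 (.cons 224 (.leaf 200 1604 (.leaf 321 1796 .nil)) .nil)) .nil)) .nil)) .nil))) (.cons 344 (.leaf 249 1989 (.cons 247 (.leaf 271 1983 (.cons 248 (.leaf 223 1791 (.cons 343 (.leaf 319 1982 (.leaf 367 2174 .nil)) .nil)) .nil)) .nil)) (.cons 344 (.leaf 249 1989 (.cons 297 (.leaf 368 2181 (.cons 343 (.leaf 367 2174 (.cons 248 (.leaf 319 1982 (.cons 224 (.leaf 200 1604 (.leaf 321 1796 .nil)) .nil)) .nil)) .nil)) .nil)) .nil))))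
noncomputable def t80 : T := .cons 274 (.leaf 295 2170 (.cons 299 (.leaf 300 2176 (.cons 251 (.leaf 252 1985 (.cons 271 (.leaf 250 1977 (.leaf 298 2168 .nil)) .nil)) .nil)) .nil)) (.cons 320 t79 (.cons 274 (.cons 299 (.leaf 300 2176 (.cons 251 (.leaf 252 1985 (.cons 271 (.leaf 250 1977 (.leaf 298 2168 .nil)) .nil)) .nil)) (.cons 247 (.leaf 248 1979 (.cons 251 (.leaf 252 1985 (.cons 271 (.leaf 246 1971 (.leaf 250 1977 .nil)) .nil)) .nil)) (.cons 299 (.leaf 300 2176 (.cons 247 (.leaf 248 1979 (.cons 271 (.leaf 246 1971 (.leaf 298 2168 .nil)) .nil)) .nil)) (.cons 248 (.leaf 247 1979 (.cons 251 (.leaf 252 1985 (.cons 299 (.leaf 300 2176 (.cons 227 (.cons 202 (.leaf 226 1623 (.cons 203 (.leaf 178 1431 (.leaf 298 1622 .nil)) .nil)) (.cons 202 (.leaf 226 1623 (.cons 203 (.leaf 178 1431 (.cons 204 (.leaf 180 1437 (.leaf 228 1629 .nil)) .nil)) .nil)) (.cons 322 (.leaf 298 1814 (.cons 202 (.leaf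 226 1623 (.cons 204 (.leaf 228 1629 (.cons 323 (.leaf 346 2006 (.cons 347 (.leaf 250 2007 (.cons 348 (.leaf 324 2012 (.leaf 372 2204 .nil)) .nil)) .nil)) .nil)) .nil)) .nil)) (.cons 298 (.leaf 203 1622 (.leaf 322 1814 .nil)) .nil)))) .nil)) .nil)) .nil)) .nil)))) (.cons 274 (.leaf 295 2170 (.cons 248 (.leaf 247 1979 (.cons 251 (.leaf 252 1985 (.cons 299 (.leaf 300 2176 (.cons 227 (.cons 202 (.leaf 226 1623 (.cons 203 (.leaf 178 1431 (.leaf 298 1622 .nil)) .nil)) (.cons 202 (.leaf 226 1623 (.cons 203 (.leaf 178 1431 (.cons 204 (.leaf 180 1437 (.leaf 228 1629 .nil)) .nil)) .nil)) (.cons 322 (.leaf 298 1814 (.cons 202 (.leaf 226 1623 (.cons 204 (.leaf 228 1629 (.cons 323 (.leaf 346 2006 (.cons 347 (.leaf 250 2007 (.cons 348 (.leaf 324 2012 (.leaf 372 2204 .nil)) .nil)) .nil)) .nil)) .nil)) .nil)) (.cons 298 (.leaf 203 1622 (.leaf 322 1814 .nil)) .nil)))) .nil)) .nil)) .nil)) .nil)) (.cons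 274 (.leaf 295 2170 (.cons 299 (.leaf 300 2176 (.cons 247 (.leaf 248 1979 (.cons 271 (.leaf 246 1971 (.leaf 298 2168 .nil)) .nil)) .nil)) .nil)) .nil))))
noncomputable def t81 : T := .cons 344 (.leaf 249 1989 (.cons 247 (.leaf 271 1983 (.cons 248 (.leaf 223 1791 (.cons 345 (.leaf 321 1988 (.leaf 369 2180 .nil)) .nil)) .nil)) .nil)) (.cons 248 (.cons 249 (.leaf 225 1797 (.cons 321 (.leaf 345 1988 (.cons 224 (.leaf 297 1796 (.cons 200 (.leaf 176 1412 (.cons 175 (.leaf 199 1407 (.cons 271 (.leaf 295 1598 (.cons 250 (.leaf 251 1978 (.leaf 270 1969 .nil)) .nil)) .nil)) .nil)) .nil)) .nil)) .nil)) (.cons 247 (.leaf 223 1791 (.cons 246 (.leaf 245 1960 (.cons 249 (.leaf 225 1797 (.cons 221 (.leaf 222 1771 (.cons 270 (.leaf 269 1962 (.cons 250 (.leaf 271 1969 (.cons 227 (.leaf 226 1785 (.cons 251 (.leaf 252 1986 (.leaf 228 1793 .nil)) .nil)) .nil)) .nil)) .nil)) .nil)) .nil)) .nil)) (.cons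 321 (.leaf 345 1988 (.cons 223 (.leaf 247 1791 (.cons 224 (.leaf 199 1599 (.leaf 297 1796 .nil)) .nil)) .nil)) .nil))) (.cons 344 (.cons 247 (.leaf 271 1983 (.cons 248 (.leaf 223 1791 (.cons 345 (.leaf 321 1988 (.leaf 369 2180 .nil)) .nil)) .nil)) (.cons 297 (.leaf 368 2181 (.cons 345 (.leaf 369 2180 (.cons 248 (.leaf 321 1988 (.cons 223 (.leaf 247 1791 (.cons 224 (.leaf 199 1599 (.leaf 200 1604 .nil)) .nil)) .nil)) .nil)) .nil)) (.cons 368 (.leaf 297 2181 (.cons 271 (.leaf 247 1983 (.leaf 295 2175 .nil)) .nil)) (.cons 297 (.leaf 368 2181 (.cons 345 (.leaf 369 2180 (.cons 321 (.leaf 248 1988 (.cons 346 (.leaf 370 2188 (.cons 319 (.leaf 318 2544 (.leaf 347 2555 .nil)) .nil)) .nil)) .nil)) .nil)) .nil)))) (.cons 344 (.leaf 249 1989 (.cons 368 (.leaf 297 2181 (.cons 271 (.leaf 247 1983 (.leaf 295 2175 .nil)) .nil)) .nil)) (.cons 344 (.leaf 249 1989 (.cons 297 (.leaf 368 2181 (.cons 345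 (.leaf 369 2180 (.cons 248 (.leaf 321 1988 (.cons 223 (.leaf 247 1791 (.cons 224 (.leaf 199 1599 (.leaf 200 1604 .nil)) .nil)) .nil)) .nil)) .nil)) .nil)) (.cons 344 (.leaf 249 1989 (.cons 297 (.leaf 368 2181 (.cons 345 (.leaf 369 2180 (.cons 321 (.leaf 248 1988 (.cons 346 (.leaf 370 2188 (.cons 319 (.leaf 318 2544 (.leaf 347 2555 .nil)) .nil)) .nil)) .nil)) .nil)) .nil)) .nil)))))
noncomputable def t82 : T := .cons 274 (.leaf 295 2170 (.cons 247 (.leaf 248 1979 (.cons 251 (.leaf 252 1985 (.cons 271 (.leaf 246 1971 (.leaf 250 1977 .nil)) .nil)) .nil)) .nil)) (.cons 320 t81 (.cons 274 (.cons 247 (.leaf 248 1979 (.cons 251 (.leaf 252 1985 (.cons 271 (.leaf 246 1971 (.leaf 250 1977 .nil)) .nil)) .nil)) (.cons 299 (.leaf 300 2176 (.cons 247 (.leaf 248 1979 (.cons 271 (.leaf 246 1971 (.leaf 298 2168 .nil)) .nil)) .nil)) (.cons 299 (.leaf 300 2176 (.cons 251 (.leaf 252 1985 (.cons 271 (.leaf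 250 1977 (.leaf 298 2168 .nil)) .nil)) .nil)) (.cons 248 (.leaf 247 1979 (.cons 251 (.leaf 252 1985 (.cons 299 (.leaf 300 2176 (.cons 227 (.cons 202 (.leaf 226 1623 (.cons 203 (.leaf 178 1431 (.leaf 298 1622 .nil)) .nil)) (.cons 202 (.leaf 226 1623 (.cons 203 (.leaf 178 1431 (.cons 204 (.leaf 180 1437 (.leaf 228 1629 .nil)) .nil)) .nil)) (.cons 322 (.leaf 298 1814 (.cons 202 (.leaf 226 1623 (.cons 204 (.leaf 228 1629 (.cons 323 (.leaf 346 2006 (.cons 347 (.leaf 250 2007 (.cons 348 (.leaf 324 2012 (.leaf 372 2204 .nil)) .nil)) .nil)) .nil)) .nil)) .nil)) (.cons 298 (.leaf 203 1622 (.leaf 322 1814 .nil)) .nil)))) .nil)) .nil)) .nil)) .nil)))) (.cons 274 (.leaf 295 2170 (.cons 299 (.leaf 300 2176 (.cons 251 (.leaf 252 1985 (.cons 271 (.leaf 250 1977 (.leaf 298 2168 .nil)) .nil)) .nil)) .nil)) (.cons 274 (.leaf 295 2170 (.cons 248 (.leaf 247 1979 (.cons 251 (.leaf 252 1985 (.cons 299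 (.leaf 300 2176 (.cons 227 (.cons 202 (.leaf 226 1623 (.cons 203 (.leaf 178 1431 (.leaf 298 1622 .nil)) .nil)) (.cons 202 (.leaf 226 1623 (.cons 203 (.leaf 178 1431 (.cons 204 (.leaf 180 1437 (.leaf 228 1629 .nil)) .nil)) .nil)) (.cons 322 (.leaf 298 1814 (.cons 202 (.leaf 226 1623 (.cons 204 (.leaf 228 1629 (.cons 323 (.leaf 346 2006 (.cons 347 (.leaf 250 2007 (.cons 348 (.leaf 324 2012 (.leaf 372 2204 .nil)) .nil)) .nil)) .nil)) .nil)) .nil)) (.cons 298 (.leaf 203 1622 (.leaf 322 1814 .nil)) .nil)))) .nil)) .nil)) .nil)) .nil)) (.cons 274 (.leaf 295 2170 (.cons 299 (.leaf 300 2176 (.cons 247 (.leaf 248 1979 (.cons 271 (.leaf 246 1971 (.leaf 298 2168 .nil)) .nil)) .nil)) .nil)) .nil)))))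
noncomputable def t83 : T := .cons 248 (.leaf 247 1979 (.cons 299 (.leaf 300 2176 (.cons 320 (.cons 321 (.leaf 345 1988 (.cons 224 (.leaf 297 1796 (.cons 199 (.leaf 223 1599 (.cons 343 (.leaf 319 1982 (.cons 344 (.leaf 249 1989 (.leaf 367 2174 .nil)) .nil)) .nil)) .nil)) .nil)) (.cons 321 (.leaf 345 1988 (.cons 224 (.leaf 297 1796 (.cons 199 (.leaf 223 1599 (.cons 343 (.leaf 319 1982 (.cons 344 (.leaf 367 2174 (.cons 323 (.leaf 322 2554 (.cons 347 (.leaf 250 2007 (.cons 370 (.leaf 346 2198 (.cons 371 (.leaf 394 2390 (.cons 372 (.leaf 348 2204 (.leaf 396 2396 .nil)) .nil)) .nil)) .nil)) .nil)) .nil)) .nil)) .nil)) .nil)) .nil)) (.cons 249 (.leaf 225 1797 (.cons 319 (.leaf 343 1982 (.cons 321 (.leaf 345 1988 (.cons 224 (.leaf 297 1796 (.cons 251 (.leaf 252 1985 (.cons 250 (.leaf 271 1977 (.leaf 223 1787 .nil)) .nil)) .nil)) .nil)) .nil)) .nil)) (.cons 249 (.leaf 225 1797 (.leaf 344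 1989 .nil)) .nil)))) .nil)) .nil)) (.cons 251 (.leaf 252 1985 (.cons 250 (.leaf 271 1977 (.cons 299 (.leaf 300 2176 (.cons 226 (.leaf 202 1620 (.leaf 323 1815 .nil)) .nil)) .nil)) .nil)) (.cons 248 (.leaf 247 1979 (.cons 299 (.leaf 300 2176 (.cons 320 (.cons 321 (.leaf 345 1988 (.cons 224 (.leaf 297 1796 (.cons 199 (.leaf 223 1599 (.cons 343 (.leaf 319 1982 (.cons 344 (.leaf 249 1989 (.leaf 367 2174 .nil)) .nil)) .nil)) .nil)) .nil)) (.cons 321 (.leaf 345 1988 (.cons 224 (.leaf 297 1796 (.cons 199 (.leaf 223 1599 (.cons 343 (.leaf 319 1982 (.cons 344 (.leaf 367 2174 (.cons 323 (.leaf 322 2554 (.cons 347 (.leaf 250 2007 (.cons 370 (.leaf 346 2198 (.cons 371 (.leaf 394 2390 (.cons 372 (.leaf 348 2204 (.leaf 396 2396 .nil)) .nil)) .nil)) .nil)) .nil)) .nil)) .nil)) .nil)) .nil)) .nil)) (.cons 249 (.leaf 225 1797 (.cons 319 (.leaf 343 1982 (.cons 321 (.leaf 345 1988 (.cons 224 (.leaf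 297 1796 (.cons 200 (.leaf 176 1412 (.cons 199 (.leaf 175 1407 (.leaf 223 1599 .nil)) .nil)) .nil)) .nil)) .nil)) .nil)) (.cons 249 (.leaf 225 1797 (.leaf 344 1989 .nil)) .nil)))) .nil)) .nil)) (.cons 247 (.leaf 248 1979 (.cons 251 (.leaf 252 1985 (.cons 271 (.leaf 246 1971 (.leaf 250 1977 .nil)) .nil)) .nil)) (.cons 248 (.leaf 247 1979 (.cons 251 (.leaf 252 1985 (.cons 299 (.leaf 300 2176 (.cons 320 (.cons 249 (.leaf 225 1797 (.leaf 344 1989 .nil)) (.cons 321 (.leaf 345 1988 (.cons 343 (.leaf 319 1982 (.cons 344 (.leaf 367 2174 (.cons 297 (.leaf 224 1796 (.leaf 368 2181 .nil)) .nil)) .nil)) .nil)) (.cons 249 (.leaf 225 1797 (.cons 319 (.leaf 343 1982 (.cons 321 (.leaf 345 1988 (.cons 224 (.leaf 297 1796 (.cons 200 (.leaf 176 1412 (.cons 199 (.leaf 175 1407 (.leaf 223 1599 .nil)) .nil)) .nil)) .nil)) .nil)) .nil)) .nil))) .nil)) .nil)) .nil)) .nil))))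
noncomputable def t84 : T := .cons 223 (.leaf 247 1791 (.cons 224 (.leaf 199 1599 (.cons 319 (.leaf 295 1790 (.leaf 343 1982 .nil)) .nil)) .nil)) (.cons 249 (.leaf 225 1797 (.cons 319 (.leaf 343 1982 (.cons 224 (.leaf 295 1790 (.cons 200 (.leaf 297 1604 (.leaf 176 1412 .nil)) .nil)) .nil)) .nil)) (.cons 247 (.leaf 223 1791 (.cons 246 (.leaf 245 1960 (.cons 249 (.leaf 225 1797 (.cons 221 (.leaf 222 1771 (.cons 321 (.leaf 345 1988 (.cons 224 (.leaf 297 1796 (.cons 176 (.leaf 200 1412 (.cons 270 (.leaf 269 1962 (.cons 250 (.leaf 271 1969 (.cons 227 (.leaf 226 1785 (.cons 251 (.leaf 252 1986 (.leaf 228 1793 .nil)) .nil)) .nil)) .nil)) .nil)) .nil)) .nil)) .nil)) .nil)) .nil)) .nil)) (.cons 247 (.leaf 223 1791 (.cons 246 (.leaf 245 1960 (.cons 321 (.leaf 345 1988 (.cons 319 (.leaf 343 1982 (.cons 294 (.cons 293 (.leaf 295 2344 (.leaf 318 2347 .nil)) (.cons 293 (.leaf 318 2347 (.cons 270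 (.leaf 271 2154 (.cons 222 (.leaf 317 1774 (.cons 198 (.leaf 269 1582 (.cons 197 (.leaf 173 1391 (.leaf 221 1583 .nil)) .nil)) .nil)) .nil)) .nil)) (.cons 295 (.leaf 322 2355 (.cons 222 (.leaf 271 1783 (.leaf 270 1780 .nil)) .nil)) .nil))) .nil)) .nil)) .nil)) .nil)) .nil)))
noncomputable def t85 : T := .cons 344 (.leaf 249 1989 (.cons 247 (.leaf 271 1983 (.cons 223 (.leaf 248 1791 (.cons 367 (.leaf 343 2174 (.cons 368 (.leaf 297 2181 (.leaf 391 2366 .nil)) .nil)) .nil)) .nil)) .nil)) (.cons 248 t84 (.cons 344 (.cons 247 (.leaf 271 1983 (.cons 223 (.leaf 248 1791 (.cons 367 (.leaf 343 2174 (.cons 368 (.leaf 297 2181 (.leaf 391 2366 .nil)) .nil)) .nil)) .nil)) (.cons 247 (.leaf 271 1983 (.cons 248 (.leaf 223 1791 (.cons 343 (.leaf 319 1982 (.leaf 367 2174 .nil)) .nil)) .nil)) (.cons 368 (.leaf 297 2181 (.cons 271 (.leaf 247 1983 (.leaf 295 2175 .nil)) .nil)) (.cons 297 (.leaf 368 2181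 (.cons 343 (.leaf 367 2174 (.cons 248 (.leaf 319 1982 (.cons 224 (.leaf 200 1604 (.leaf 321 1796 .nil)) .nil)) .nil)) .nil)) .nil)))) (.cons 344 (.leaf 249 1989 (.cons 368 (.leaf 297 2181 (.cons 271 (.leaf 247 1983 (.leaf 295 2175 .nil)) .nil)) .nil)) (.cons 344 (.leaf 249 1989 (.cons 247 (.leaf 271 1983 (.cons 223 (.leaf 248 1791 (.cons 367 (.leaf 343 2174 (.cons 368 (.leaf 391 2366 (.cons 369 (.leaf 345 2180 (.leaf 393 2372 .nil)) .nil)) .nil)) .nil)) .nil)) .nil)) (.cons 344 (.leaf 249 1989 (.cons 297 (.leaf 368 2181 (.cons 343 (.leaf 367 2174 (.cons 248 (.leaf 319 1982 (.cons 224 (.leaf 200 1604 (.leaf 321 1796 .nil)) .nil)) .nil)) .nil)) .nil)) .nil)))))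
noncomputable def t86 : T := .cons 274 (.leaf 295 2170 (.cons 248 (.leaf 247 1979 (.cons 299 (.leaf 300 2176 (.cons 320 (.cons 321 (.leaf 345 1988 (.cons 224 (.leaf 297 1796 (.cons 199 (.leaf 223 1599 (.cons 343 (.leaf 319 1982 (.cons 344 (.leaf 249 1989 (.leaf 367 2174 .nil)) .nil)) .nil)) .nil)) .nil)) (.cons 321 (.leaf 345 1988 (.cons 224 (.leaf 297 1796 (.cons 199 (.leaf 223 1599 (.cons 343 (.leaf 319 1982 (.cons 344 (.leaf 367 2174 (.cons 323 (.leaf 322 2554 (.cons 347 (.leaf 250 2007 (.cons 370 (.leaf 346 2198 (.cons 371 (.leaf 394 2390 (.cons 372 (.leaf 348 2204 (.leaf 396 2396 .nil)) .nil)) .nil)) .nil)) .nil)) .nil)) .nil)) .nil)) .nil)) .nil)) (.cons 249 (.leaf 225 1797 (.cons 319 (.leaf 343 1982 (.cons 321 (.leaf 345 1988 (.cons 224 (.leaf 297 1796 (.cons 251 (.leaf 252 1985 (.cons 250 (.leaf 271 1977 (.leaf 223 1787 .nil)) .nil)) .nil)) .nil)) .nil)) .nil)) (.cons 249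 (.leaf 225 1797 (.leaf 344 1989 .nil)) .nil)))) .nil)) .nil)) .nil)) (.cons 320 t85 (.cons 274 t83 (.cons 274 (.leaf 295 2170 (.cons 251 (.leaf 252 1985 (.cons 250 (.leaf 271 1977 (.cons 299 (.leaf 300 2176 (.cons 226 (.leaf 202 1620 (.leaf 323 1815 .nil)) .nil)) .nil)) .nil)) .nil)) (.cons 274 (.leaf 295 2170 (.cons 248 (.leaf 247 1979 (.cons 299 (.leaf 300 2176 (.cons 320 (.cons 321 (.leaf 345 1988 (.cons 224 (.leaf 297 1796 (.cons 199 (.leaf 223 1599 (.cons 343 (.leaf 319 1982 (.cons 344 (.leaf 249 1989 (.leaf 367 2174 .nil)) .nil)) .nil)) .nil)) .nil)) (.cons 321 (.leaf 345 1988 (.cons 224 (.leaf 297 1796 (.cons 199 (.leaf 223 1599 (.cons 343 (.leaf 319 1982 (.cons 344 (.leaf 367 2174 (.cons 323 (.leaf 322 2554 (.cons 347 (.leaf 250 2007 (.cons 370 (.leaf 346 2198 (.cons 371 (.leaf 394 2390 (.cons 372 (.leaf 348 2204 (.leaf 396 2396 .nil)) .nil)) .nil)) .nil)) .nil)) .nil)) .nil))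 .nil)) .nil)) .nil)) (.cons 249 (.leaf 225 1797 (.cons 319 (.leaf 343 1982 (.cons 321 (.leaf 345 1988 (.cons 224 (.leaf 297 1796 (.cons 200 (.leaf 176 1412 (.cons 199 (.leaf 175 1407 (.leaf 223 1599 .nil)) .nil)) .nil)) .nil)) .nil)) .nil)) (.cons 249 (.leaf 225 1797 (.leaf 344 1989 .nil)) .nil)))) .nil)) .nil)) .nil)) (.cons 274 (.leaf 295 2170 (.cons 248 (.leaf 247 1979 (.cons 251 (.leaf 252 1985 (.cons 299 (.leaf 300 2176 (.cons 320 (.cons 249 (.leaf 225 1797 (.leaf 344 1989 .nil)) (.cons 321 (.leaf 345 1988 (.cons 343 (.leaf 319 1982 (.cons 344 (.leaf 367 2174 (.cons 297 (.leaf 224 1796 (.leaf 368 2181 .nil)) .nil)) .nil)) .nil)) (.cons 249 (.leaf 225 1797 (.cons 319 (.leaf 343 1982 (.cons 321 (.leaf 345 1988 (.cons 224 (.leaf 297 1796 (.cons 200 (.leaf 176 1412 (.cons 199 (.leaf 175 1407 (.leaf 223 1599 .nil)) .nil)) .nil)) .nil)) .nil)) .nil)) .nil))) .nil)) .nil)) .nil)) .nil))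 .nil)))))
noncomputable def t87 : T := .cons 299 (.leaf 300 2176 (.cons 251 (.leaf 252 1985 (.cons 271 (.leaf 250 1977 (.leaf 298 2168 .nil)) .nil)) .nil)) (.cons 247 (.leaf 248 1979 (.cons 251 (.leaf 252 1985 (.cons 271 (.leaf 246 1971 (.leaf 250 1977 .nil)) .nil)) .nil)) (.cons 299 (.leaf 300 2176 (.cons 247 (.leaf 248 1979 (.cons 271 (.leaf 246 1971 (.leaf 298 2168 .nil)) .nil)) .nil)) (.cons 248 (.leaf 247 1979 (.cons 251 (.leaf 252 1985 (.cons 299 (.leaf 300 2176 (.cons 227 (.cons 322 (.leaf 298 1814 (.cons 202 (.leaf 226 1623 (.cons 203 (.leaf 178 1431 (.cons 204 (.leaf 180 1437 (.leaf 228 1629 .nil)) .nil)) .nil)) .nil)) (.cons 226 (.leaf 202 1623 (.cons 204 (.leaf 228 1629 (.cons 180 (.leaf 203 1437 (.cons 323 (.leaf 250 1815 (.cons 346 (.leaf 322 2006 (.cons 347 (.leaf 370 2198 (.cons 348 (.leaf 324 2012 (.leaf 372 2204 .nil)) .nil)) .nil)) .nil)) .nil)) .nil)) .nil)) (.cons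 322 (.leaf 298 1814 (.cons 202 (.leaf 226 1623 (.cons 204 (.leaf 228 1629 (.cons 323 (.leaf 346 2006 (.cons 347 (.leaf 250 2007 (.cons 348 (.leaf 324 2012 (.leaf 372 2204 .nil)) .nil)) .nil)) .nil)) .nil)) .nil)) (.cons 298 (.leaf 203 1622 (.leaf 322 1814 .nil)) (.cons 203 (.leaf 298 1622 (.cons 202 (.leaf 178 1431 (.leaf 226 1623 .nil)) .nil)) .nil))))) .nil)) .nil)) .nil)) .nil)))
noncomputable def t88 : T := .cons 344 (.leaf 249 1989 (.cons 247 (.leaf 271 1983 (.cons 223 (.leaf 248 1791 (.cons 367 (.leaf 343 2174 (.cons 368 (.leaf 297 2181 (.leaf 391 2366 .nil)) .nil)) .nil)) .nil)) .nil)) (.cons 248 (.cons 223 (.leaf 247 1791 (.cons 224 (.leaf 199 1599 (.cons 319 (.leaf 295 1790 (.leaf 343 1982 .nil)) .nil)) .nil)) (.cons 249 (.leaf 225 1797 (.cons 319 (.leaf 343 1982 (.cons 224 (.leaf 295 1790 (.cons 200 (.leaf 297 1604 (.leaf 176 1412 .nil)) .nil)) .nil)) .nil)) (.cons 247 (.leaf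 223 1791 (.cons 246 (.leaf 245 1960 (.cons 249 (.leaf 225 1797 (.cons 221 (.leaf 222 1771 (.cons 270 (.leaf 269 1962 (.cons 250 (.leaf 271 1969 (.cons 227 (.leaf 226 1785 (.cons 251 (.leaf 252 1986 (.leaf 228 1793 .nil)) .nil)) .nil)) .nil)) .nil)) .nil)) .nil)) .nil)) .nil))) (.cons 344 (.cons 297 (.leaf 368 2181 (.cons 343 (.leaf 367 2174 (.cons 319 (.leaf 248 1982 (.cons 318 (.leaf 317 2345 (.cons 345 (.leaf 369 2180 (.leaf 346 2547 .nil)) .nil)) .nil)) .nil)) .nil)) (.cons 247 (.leaf 271 1983 (.cons 248 (.leaf 223 1791 (.cons 343 (.leaf 319 1982 (.leaf 367 2174 .nil)) .nil)) .nil)) (.cons 247 (.leaf 271 1983 (.cons 223 (.leaf 248 1791 (.cons 368 (.leaf 297 2181 (.cons 391 (.leaf 367 2366 (.cons 392 (.leaf 415 2558 (.cons 393 (.leaf 369 2372 (.leaf 417 2564 .nil)) .nil)) .nil)) .nil)) .nil)) .nil)) (.cons 247 (.leaf 271 1983 (.cons 223 (.leaf 248 1791 (.cons 368 (.leaf 297 2181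 (.cons 369 (.leaf 345 2180 (.leaf 393 2372 .nil)) .nil)) .nil)) .nil)) (.cons 368 (.leaf 297 2181 (.cons 271 (.leaf 247 1983 (.leaf 295 2175 .nil)) .nil)) .nil))))) (.cons 344 (.leaf 249 1989 (.cons 368 (.leaf 297 2181 (.cons 271 (.leaf 247 1983 (.leaf 295 2175 .nil)) .nil)) .nil)) (.cons 344 (.leaf 249 1989 (.cons 247 (.leaf 271 1983 (.cons 223 (.leaf 248 1791 (.cons 367 (.leaf 343 2174 (.cons 368 (.leaf 391 2366 (.cons 369 (.leaf 345 2180 (.leaf 393 2372 .nil)) .nil)) .nil)) .nil)) .nil)) .nil)) (.cons 344 (.leaf 249 1989 (.cons 297 (.leaf 368 2181 (.cons 343 (.leaf 367 2174 (.cons 319 (.leaf 248 1982 (.cons 318 (.leaf 317 2345 (.cons 345 (.leaf 369 2180 (.leaf 346 2547 .nil)) .nil)) .nil)) .nil)) .nil)) .nil)) .nil)))))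
noncomputable def t89 : T := .cons 274 (.leaf 295 2170 (.cons 299 (.leaf 300 2176 (.cons 251 (.leaf 252 1985 (.cons 271 (.leaf 250 1977 (.leaf 298 2168 .nil)) .nil)) .nil)) .nil)) (.cons 320 t88 (.cons 274 t87 (.cons 274 (.leaf 295 2170 (.cons 248 (.leaf 247 1979 (.cons 251 (.leaf 252 1985 (.cons 299 (.leaf 300 2176 (.cons 227 (.cons 322 (.leaf 298 1814 (.cons 202 (.leaf 226 1623 (.cons 203 (.leaf 178 1431 (.cons 204 (.leaf 180 1437 (.leaf 228 1629 .nil)) .nil)) .nil)) .nil)) (.cons 226 (.leaf 202 1623 (.cons 204 (.leaf 228 1629 (.cons 180 (.leaf 203 1437 (.cons 323 (.leaf 250 1815 (.cons 346 (.leaf 322 2006 (.cons 347 (.leaf 370 2198 (.cons 348 (.leaf 324 2012 (.leaf 372 2204 .nil)) .nil)) .nil)) .nil)) .nil)) .nil)) .nil)) (.cons 322 (.leaf 298 1814 (.cons 202 (.leaf 226 1623 (.cons 204 (.leaf 228 1629 (.cons 323 (.leaf 346 2006 (.cons 347 (.leaf 250 2007 (.cons 348 (.leaf 324 2012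 (.leaf 372 2204 .nil)) .nil)) .nil)) .nil)) .nil)) .nil)) (.cons 298 (.leaf 203 1622 (.leaf 322 1814 .nil)) (.cons 203 (.leaf 298 1622 (.cons 202 (.leaf 178 1431 (.leaf 226 1623 .nil)) .nil)) .nil))))) .nil)) .nil)) .nil)) .nil)) (.cons 274 (.leaf 295 2170 (.cons 299 (.leaf 300 2176 (.cons 247 (.leaf 248 1979 (.cons 271 (.leaf 246 1971 (.leaf 298 2168 .nil)) .nil)) .nil)) .nil)) .nil))))
noncomputable def t90 : T := .cons 247 (.leaf 248 1979 (.cons 251 (.leaf 252 1985 (.cons 271 (.leaf 246 1971 (.leaf 250 1977 .nil)) .nil)) .nil)) (.cons 299 (.leaf 300 2176 (.cons 247 (.leaf 248 1979 (.cons 271 (.leaf 246 1971 (.leaf 298 2168 .nil)) .nil)) .nil)) (.cons 299 (.leaf 300 2176 (.cons 251 (.leaf 252 1985 (.cons 271 (.leaf 250 1977 (.leaf 298 2168 .nil)) .nil)) .nil)) (.cons 248 (.leaf 247 1979 (.cons 251 (.leaf 252 1985 (.cons 299 (.leaf 300 2176 (.cons 227 (.cons 203 (.leaf 298 1622 (.cons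 202 (.leaf 178 1431 (.leaf 226 1623 .nil)) .nil)) (.cons 226 (.leaf 202 1623 (.cons 204 (.leaf 228 1629 (.cons 180 (.leaf 203 1437 (.cons 323 (.leaf 250 1815 (.cons 346 (.leaf 322 2006 (.cons 347 (.leaf 370 2198 (.cons 348 (.leaf 324 2012 (.leaf 372 2204 .nil)) .nil)) .nil)) .nil)) .nil)) .nil)) .nil)) (.cons 322 (.leaf 298 1814 (.cons 202 (.leaf 226 1623 (.cons 204 (.leaf 228 1629 (.cons 323 (.leaf 346 2006 (.cons 347 (.leaf 250 2007 (.cons 348 (.leaf 324 2012 (.leaf 372 2204 .nil)) .nil)) .nil)) .nil)) .nil)) .nil)) (.cons 298 (.leaf 203 1622 (.leaf 322 1814 .nil)) .nil)))) .nil)) .nil)) .nil)) .nil)))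
noncomputable def t91 : T := .cons 344 (.leaf 249 1989 (.cons 247 (.leaf 271 1983 (.cons 223 (.leaf 248 1791 (.cons 367 (.leaf 343 2174 (.cons 368 (.leaf 297 2181 (.leaf 391 2366 .nil)) .nil)) .nil)) .nil)) .nil)) (.cons 248 (.cons 223 (.leaf 247 1791 (.cons 224 (.leaf 199 1599 (.cons 297 (.leaf 200 1604 (.leaf 321 1796 .nil)) .nil)) .nil)) (.cons 247 (.leaf 223 1791 (.cons 246 (.leaf 245 1960 (.cons 249 (.leaf 225 1797 (.cons 221 (.leaf 222 1771 (.cons 270 (.leaf 269 1962 (.cons 250 (.leaf 271 1969 (.cons 227 (.leaf 226 1785 (.cons 251 (.leaf 252 1986 (.leaf 228 1793 .nil)) .nil)) .nil)) .nil)) .nil)) .nil)) .nil)) .nil)) (.cons 249 (.leaf 225 1797 (.cons 321 (.leaf 345 1988 (.cons 224 (.leaf 297 1796 (.cons 200 (.leaf 176 1412 (.cons 175 (.leaf 199 1407 (.cons 271 (.leaf 295 1598 (.cons 250 (.leaf 251 1978 (.leaf 270 1969 .nil)) .nil)) .nil)) .nil)) .nil)) .nil)) .nil)) .nil)))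 (.cons 344 (.cons 247 (.leaf 271 1983 (.cons 223 (.leaf 248 1791 (.cons 367 (.leaf 343 2174 (.cons 368 (.leaf 297 2181 (.leaf 391 2366 .nil)) .nil)) .nil)) .nil)) (.cons 345 (.leaf 369 2180 (.cons 247 (.leaf 271 1983 (.cons 248 (.leaf 223 1791 (.leaf 321 1988 .nil)) .nil)) .nil)) (.cons 297 (.leaf 368 2181 (.cons 343 (.leaf 367 2174 (.cons 345 (.leaf 369 2180 (.cons 321 (.leaf 248 1988 (.cons 322 (.leaf 323 2554 (.leaf 342 2545 .nil)) .nil)) .nil)) .nil)) .nil)) (.cons 247 (.leaf 271 1983 (.cons 343 (.leaf 367 2174 (.cons 368 (.leaf 297 2181 (.cons 369 (.leaf 345 2180 (.leaf 393 2372 .nil)) .nil)) .nil)) .nil)) .nil)))) (.cons 344 (.leaf 249 1989 (.cons 345 (.leaf 369 2180 (.cons 247 (.leaf 271 1983 (.cons 248 (.leaf 223 1791 (.leaf 321 1988 .nil)) .nil)) .nil)) .nil)) (.cons 344 (.leaf 249 1989 (.cons 247 (.leaf 271 1983 (.cons 343 (.leaf 367 2174 (.cons 368 (.leaf 297 2181 (.cons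 369 (.leaf 345 2180 (.leaf 393 2372 .nil)) .nil)) .nil)) .nil)) .nil)) (.cons 344 (.leaf 249 1989 (.cons 297 (.leaf 368 2181 (.cons 343 (.leaf 367 2174 (.cons 345 (.leaf 369 2180 (.cons 321 (.leaf 248 1988 (.cons 322 (.leaf 323 2554 (.leaf 342 2545 .nil)) .nil)) .nil)) .nil)) .nil)) .nil)) .nil)))))
noncomputable def t92 : T := .cons 274 (.leaf 295 2170 (.cons 247 (.leaf 248 1979 (.cons 251 (.leaf 252 1985 (.cons 271 (.leaf 246 1971 (.leaf 250 1977 .nil)) .nil)) .nil)) .nil)) (.cons 320 t91 (.cons 274 t90 (.cons 274 (.leaf 295 2170 (.cons 248 (.leaf 247 1979 (.cons 251 (.leaf 252 1985 (.cons 299 (.leaf 300 2176 (.cons 227 (.cons 203 (.leaf 298 1622 (.cons 202 (.leaf 178 1431 (.leaf 226 1623 .nil)) .nil)) (.cons 226 (.leaf 202 1623 (.cons 204 (.leaf 228 1629 (.cons 180 (.leaf 203 1437 (.cons 323 (.leaf 250 1815 (.cons 346 (.leaf 322 2006 (.cons 347 (.leaf 370 2198 (.cons 348 (.leaf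 324 2012 (.leaf 372 2204 .nil)) .nil)) .nil)) .nil)) .nil)) .nil)) .nil)) (.cons 322 (.leaf 298 1814 (.cons 202 (.leaf 226 1623 (.cons 204 (.leaf 228 1629 (.cons 323 (.leaf 346 2006 (.cons 347 (.leaf 250 2007 (.cons 348 (.leaf 324 2012 (.leaf 372 2204 .nil)) .nil)) .nil)) .nil)) .nil)) .nil)) (.cons 298 (.leaf 203 1622 (.leaf 322 1814 .nil)) .nil)))) .nil)) .nil)) .nil)) .nil)) (.cons 274 (.leaf 295 2170 (.cons 299 (.leaf 300 2176 (.cons 251 (.leaf 252 1985 (.cons 271 (.leaf 250 1977 (.leaf 298 2168 .nil)) .nil)) .nil)) .nil)) (.cons 274 (.leaf 295 2170 (.cons 299 (.leaf 300 2176 (.cons 247 (.leaf 248 1979 (.cons 271 (.leaf 246 1971 (.leaf 298 2168 .nil)) .nil)) .nil)) .nil)) .nil)))))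
noncomputable def t93 : T := .leaf 293 2153 (.cons 297 (.cons 270 (.leaf 269 2155 (.cons 271 (.leaf 298 2160 (.cons 246 (.leaf 245 1963 (.cons 222 (.leaf 198 1588 (.leaf 319 1780 .nil)) .nil)) .nil)) .nil)) (.cons 318 (.leaf 317 2346 (.cons 298 (.leaf 319 2354 (.cons 299 (.leaf 271 2171 (.leaf 300 2179 .nil)) .nil)) .nil)) (.cons 318 (.leaf 317 2346 (.cons 269 (.leaf 270 2155 (.cons 319 (.leaf 298 2354 (.cons 248 (.leaf 224 1790 (.cons 343 (.leaf 320 1982 (.leaf 367 2173 .nil)) .nil)) .nil)) .nil)) .nil)) (.cons 270 (.leaf 269 2155 (.cons 318 (.leaf 317 2346 (.cons 319 (.cons 343 (.leaf 367 2173 (.leaf 246 1972 .nil)) (.cons 224 (.leaf 248 1790 (.cons 246 (.leaf 222 1780 (.cons 245 (.leaf 271 1963 (.leaf 221 1775 .nil)) .nil)) .nil)) (.cons 343 (.leaf 367 2173 (.cons 248 (.leaf 224 1790 (.leaf 271 1981 .nil)) .nil)) .nil))) .nil)) .nil)) (.cons 270 (.leaf 269 2155 (.cons 271 (.leaf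 298 2160 (.cons 245 (.leaf 246 1963 (.cons 318 (.leaf 317 2346 (.cons 247 (.leaf 223 1782 (.leaf 342 1973 .nil)) .nil)) .nil)) .nil)) .nil)) .nil))))) .nil)
noncomputable def t94 : T := .cons 322 (.leaf 346 2005 (.cons 227 (.leaf 203 1622 (.leaf 299 1814 .nil)) .nil)) (.cons 322 (.leaf 346 2005 (.cons 250 (.cons 249 (.leaf 225 1807 (.cons 248 (.leaf 247 1976 (.leaf 271 1978 .nil)) .nil)) (.cons 323 (.leaf 347 2004 (.cons 299 (.leaf 226 1812 (.cons 324 (.leaf 348 2012 (.cons 228 (.leaf 252 1821 (.cons 321 (.leaf 345 1998 (.cons 301 (.leaf 300 2377 (.cons 325 (.leaf 326 2387 (.leaf 302 2385 .nil)) .nil)) .nil)) .nil)) .nil)) .nil)) .nil)) .nil)) .nil)) (.cons 227 (.leaf 203 1622 (.cons 299 (.cons 228 (.leaf 204 1629 (.cons 300 (.leaf 324 1820 (.cons 301 (.leaf 302 2195 (.cons 277 (.leaf 278 2193 (.cons 325 (.leaf 326 2384 (.cons 253 (.leaf 252 1831 (.cons 226 (.leaf 202 1623 (.cons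 254 (.leaf 229 1808 (.leaf 230 1837 .nil)) .nil)) .nil)) .nil)) .nil)) .nil)) .nil)) .nil)) (.cons 228 (.leaf 204 1629 (.cons 252 (.leaf 323 1821 (.cons 253 (.leaf 254 2002 (.cons 300 (.leaf 324 1820 (.cons 301 (.leaf 302 2195 (.cons 277 (.leaf 278 2193 (.leaf 325 1831 .nil)) .nil)) .nil)) .nil)) .nil)) .nil)) (.cons 226 (.leaf 202 1623 (.cons 323 (.leaf 250 1812 (.cons 324 (.leaf 300 1820 (.leaf 348 2012 .nil)) .nil)) .nil)) (.cons 226 (.leaf 202 1623 (.cons 250 (.leaf 323 1812 (.cons 228 (.leaf 204 1629 (.cons 229 (.leaf 230 1810 (.leaf 249 1802 .nil)) .nil)) .nil)) .nil)) .nil)))) .nil)) (.cons 322 (.leaf 346 2005 (.cons 227 (.leaf 203 1622 (.leaf 250 1813 .nil)) .nil)) .nil)))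
noncomputable def t95 : T := .cons 227 (.leaf 203 1622 (.cons 322 (.leaf 299 1814 (.leaf 346 2005 .nil)) .nil)) (.cons 227 (.leaf 203 1622 (.cons 299 (.cons 228 (.leaf 204 1629 (.cons 300 (.leaf 324 1820 (.cons 301 (.leaf 302 2195 (.cons 277 (.leaf 278 2193 (.cons 325 (.leaf 326 2384 (.cons 253 (.leaf 252 1831 (.cons 226 (.leaf 202 1623 (.cons 254 (.leaf 229 1808 (.leaf 230 1837 .nil)) .nil)) .nil)) .nil)) .nil)) .nil)) .nil)) .nil)) (.cons 228 (.leaf 204 1629 (.cons 252 (.leaf 323 1821 (.cons 253 (.leaf 254 2002 (.cons 300 (.leaf 324 1820 (.cons 301 (.leaf 302 2195 (.cons 277 (.leaf 278 2193 (.leaf 325 1831 .nil)) .nil)) .nil)) .nil)) .nil)) .nil)) (.cons 226 (.leaf 202 1623 (.cons 323 (.leaf 250 1812 (.cons 324 (.leaf 300 1820 (.leaf 348 2012 .nil)) .nil)) .nil)) (.cons 226 (.leaf 202 1623 (.cons 250 (.leaf 323 1812 (.cons 228 (.leaf 204 1629 (.cons 229 (.leaf 230 1810 (.leaf 249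 1802 .nil)) .nil)) .nil)) .nil)) .nil)))) .nil)) (.cons 322 (.leaf 346 2005 (.cons 250 (.cons 225 (.leaf 249 1807 (.cons 323 (.leaf 347 2004 (.cons 226 (.leaf 299 1812 (.cons 321 (.leaf 320 2363 (.leaf 345 1998 .nil)) .nil)) .nil)) .nil)) (.cons 249 (.leaf 225 1807 (.cons 248 (.leaf 247 1976 (.leaf 271 1978 .nil)) .nil)) (.cons 323 (.leaf 347 2004 (.cons 299 (.leaf 226 1812 (.cons 324 (.leaf 348 2012 (.cons 228 (.leaf 252 1821 (.cons 321 (.leaf 320 2363 (.leaf 345 1998 .nil)) .nil)) .nil)) .nil)) .nil)) .nil))) .nil)) (.cons 322 (.leaf 346 2005 (.cons 227 (.leaf 203 1622 (.leaf 250 1813 .nil)) .nil)) .nil)))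
noncomputable def t96 : T := .cons 343 (.leaf 367 2173 (.cons 271 (.leaf 248 1981 (.cons 342 (.leaf 366 2166 (.cons 247 (.leaf 318 1974 (.cons 223 (.leaf 199 1596 (.leaf 320 1788 .nil)) .nil)) .nil)) .nil)) .nil)) (.cons 248 (.leaf 224 1790 (.cons 320 (.cons 225 (.leaf 249 1797 (.cons 321 (.leaf 345 1988 (.leaf 322 2355 .nil)) .nil)) (.cons 225 (.leaf 249 1797 (.cons 247 (.leaf 223 1791 (.cons 246 (.leaf 245 1960 (.cons 222 (.leaf 271 1783 (.leaf 270 1780 .nil)) .nil)) .nil)) .nil)) (.cons 321 (.leaf 345 1988 (.leaf 322 2355 .nil)) .nil))) .nil)) (.cons 343 (.leaf 367 2173 (.cons 271 (.cons 342 (.leaf 366 2166 (.cons 247 (.leaf 318 1974 (.cons 223 (.leaf 199 1596 (.leaf 320 1788 .nil)) .nil)) .nil)) (.cons 246 (.leaf 270 1975 (.cons 247 (.leaf 222 1783 (.cons 223 (.leaf 199 1596 (.leaf 320 1788 .nil)) .nil)) .nil)) (.cons 270 (.leaf 246 1975 (.cons 249 (.leaf 250 1969 (.cons 269 (.leaf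 268 2144 (.cons 245 (.leaf 244 1955 (.cons 342 (.leaf 366 2166 (.leaf 318 1967 .nil)) .nil)) .nil)) .nil)) .nil)) .nil))) .nil)) (.cons 343 (.leaf 367 2173 (.cons 248 (.leaf 224 1790 (.leaf 320 1982 .nil)) .nil)) (.cons 343 (.leaf 367 2173 (.cons 248 (.leaf 224 1790 (.leaf 271 1981 .nil)) .nil)) .nil))))
noncomputable def t97 : T := .cons 293 (.leaf 273 2153 (.cons 271 (.leaf 292 2145 (.cons 317 (.leaf 316 2338 (.cons 297 (.leaf 318 2346 (.cons 298 (.leaf 299 2171 (.leaf 270 2163 .nil)) .nil)) .nil)) .nil)) .nil)) (.cons 297 (.cons 270 (.leaf 269 2155 (.cons 298 (.leaf 271 2163 (.cons 322 (.leaf 321 2352 (.leaf 323 2360 .nil)) .nil)) .nil)) (.cons 317 (.leaf 318 2346 (.cons 321 (.leaf 322 2352 (.cons 248 (.leaf 224 1796 (.cons 345 (.leaf 273 1991 (.leaf 320 1988 .nil)) .nil)) .nil)) .nil)) (.cons 270 (.leaf 269 2155 (.cons 271 (.leaf 298 2163 (.cons 318 (.leaf 317 2346 (.cons 342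 (.leaf 366 2165 (.leaf 247 1973 .nil)) .nil)) .nil)) .nil)) .nil))) (.cons 293 (.leaf 273 2153 (.cons 268 (.leaf 269 2147 (.cons 292 (.leaf 271 2145 (.leaf 267 2139 .nil)) .nil)) .nil)) (.cons 293 (.leaf 273 2153 (.cons 268 (.leaf 269 2147 (.cons 317 (.leaf 316 2338 (.cons 297 (.leaf 318 2346 (.cons 321 (.leaf 320 2344 (.leaf 322 2352 .nil)) .nil)) .nil)) .nil)) .nil)) (.cons 293 (.cons 271 (.leaf 292 2145 (.cons 317 (.leaf 316 2338 (.cons 297 (.leaf 318 2346 (.cons 298 (.leaf 299 2171 (.leaf 270 2163 .nil)) .nil)) .nil)) .nil)) (.cons 268 (.leaf 269 2147 (.cons 317 (.leaf 316 2338 (.cons 297 (.leaf 318 2346 (.cons 321 (.leaf 320 2344 (.leaf 322 2352 .nil)) .nil)) .nil)) .nil)) (.cons 268 (.leaf 269 2147 (.cons 292 (.leaf 271 2145 (.leaf 267 2139 .nil)) .nil)) .nil))) .nil))))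
noncomputable def t98 : T := .cons 274 (.leaf 273 2170 (.cons 297 (.leaf 298 2169 (.cons 321 (.cons 345 (.leaf 369 2183 (.cons 320 (.leaf 248 1988 (.cons 294 (.leaf 293 2344 (.leaf 322 2352 .nil)) .nil)) .nil)) (.cons 248 (.leaf 224 1796 (.cons 345 (.leaf 320 1988 (.leaf 369 2183 .nil)) .nil)) (.cons 294 (.leaf 322 2352 (.cons 269 (.leaf 270 2155 (.cons 293 (.leaf 268 2147 (.leaf 320 2344 .nil)) .nil)) .nil)) (.cons 224 (.leaf 248 1796 (.cons 294 (.leaf 322 2352 (.cons 269 (.leaf 270 2155 (.cons 293 (.leaf 268 2147 (.cons 317 (.leaf 316 2338 (.leaf 318 2346 .nil)) .nil)) .nil)) .nil)) .nil)) .nil)))) .nil)) .nil)) (.cons 319 (.cons 343 (.leaf 367 2173 (.cons 248 (.leaf 224 1790 (.leaf 271 1981 .nil)) .nil)) (.cons 343 (.leaf 367 2173 (.cons 271 (.cons 270 (.leaf 246 1975 (.cons 269 (.leaf 297 2152 (.leaf 268 2144 .nil)) .nil)) (.cons 342 (.leaf 366 2166 (.cons 247 (.leaf 318 1974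 (.cons 222 (.leaf 246 1783 (.cons 223 (.leaf 199 1596 (.leaf 320 1788 .nil)) .nil)) .nil)) .nil)) (.cons 342 (.leaf 366 2166 (.cons 247 (.leaf 318 1974 (.cons 223 (.leaf 199 1596 (.leaf 320 1788 .nil)) .nil)) .nil)) .nil))) .nil)) (.cons 248 (.leaf 224 1790 (.cons 320 (.cons 247 (.leaf 223 1791 (.cons 249 (.leaf 225 1797 (.cons 250 (.leaf 274 1976 (.cons 271 (.leaf 251 1978 (.leaf 270 1970 .nil)) .nil)) .nil)) .nil)) (.cons 321 (.leaf 345 1988 (.cons 294 (.leaf 293 2344 (.leaf 322 2355 .nil)) .nil)) .nil)) .nil)) (.cons 343 (.leaf 367 2173 (.cons 248 (.leaf 224 1790 (.leaf 320 1982 .nil)) .nil)) .nil)))) (.cons 294 t97 (.cons 273 (.leaf 274 2170 (.cons 294 (.leaf 293 2153 (.cons 319 t96 .nil)) .nil)) (.cons 274 (.leaf 273 2170 (.cons 298 (.leaf 297 2169 (.cons 251 t95 .nil)) .nil)) (.cons 273 (.leaf 274 2170 (.cons 294 (.leaf 293 2153 (.cons 297 (.cons 270 (.leaf 269 2155 (.cons 271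 (.leaf 298 2160 (.cons 246 (.leaf 245 1963 (.cons 222 (.leaf 198 1588 (.leaf 319 1780 .nil)) .nil)) .nil)) .nil)) (.cons 318 (.leaf 317 2346 (.cons 298 (.leaf 319 2354 (.cons 299 (.leaf 271 2171 (.leaf 300 2179 .nil)) .nil)) .nil)) (.cons 270 (.leaf 269 2155 (.cons 318 (.leaf 317 2346 (.cons 321 (.leaf 322 2352 (.cons 345 (.leaf 369 2183 (.cons 346 (.leaf 370 2188 (.cons 319 (.leaf 320 2544 (.cons 343 (.leaf 367 2173 (.leaf 246 1972 .nil)) .nil)) .nil)) .nil)) .nil)) .nil)) .nil)) (.cons 270 (.leaf 269 2155 (.cons 271 (.leaf 298 2160 (.cons 245 (.leaf 246 1963 (.cons 318 (.leaf 317 2346 (.cons 247 (.leaf 223 1782 (.leaf 342 1973 .nil)) .nil)) .nil)) .nil)) .nil)) .nil)))) .nil)) .nil)) (.cons 274 (.leaf 273 2170 (.cons 298 (.leaf 297 2169 (.cons 251 t94 .nil)) .nil)) (.cons 274 (.leaf 273 2170 (.cons 298 (.leaf 297 2169 (.cons 251 t72 .nil)) .nil)) (.cons 273 (.leaf 274 2170 (.cons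 294 t93 .nil)) .nil))))))))
noncomputable def t99 : T := .cons 269 (.leaf 270 2155 (.cons 318 (.leaf 317 2346 (.cons 298 (.leaf 319 2354 (.cons 299 (.leaf 271 2171 (.leaf 300 2179 .nil)) .nil)) .nil)) .nil)) (.cons 318 (.leaf 317 2346 (.cons 298 (.leaf 319 2354 (.cons 299 (.leaf 271 2171 (.leaf 300 2179 .nil)) .nil)) .nil)) (.cons 270 (.leaf 269 2155 (.cons 318 (.leaf 317 2346 (.cons 319 (.cons 343 (.leaf 367 2173 (.leaf 246 1972 .nil)) (.cons 224 (.leaf 248 1790 (.cons 246 (.leaf 222 1780 (.cons 245 (.leaf 271 1963 (.leaf 221 1775 .nil)) .nil)) .nil)) (.cons 343 (.leaf 367 2173 (.cons 248 (.leaf 224 1790 (.leaf 271 1981 .nil)) .nil)) .nil))) .nil)) .nil)) (.cons 270 (.leaf 269 2155 (.cons 271 (.leaf 298 2160 (.cons 246 (.leaf 245 1963 (.cons 222 (.leaf 198 1588 (.leaf 319 1780 .nil)) .nil)) .nil)) .nil)) (.cons 318 (.leaf 317 2346 (.cons 269 (.leaf 270 2155 (.cons 319 (.leaf 298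 2354 (.cons 248 (.leaf 224 1790 (.cons 343 (.leaf 320 1982 (.leaf 367 2173 .nil)) .nil)) .nil)) .nil)) .nil)) (.cons 270 (.leaf 269 2155 (.cons 271 (.leaf 298 2160 (.cons 245 (.leaf 246 1963 (.cons 249 (.leaf 250 1969 (.cons 320 (.leaf 344 1989 (.leaf 225 1798 .nil)) .nil)) .nil)) .nil)) .nil)) .nil)))))
noncomputable def t100 : T := .cons 322 (.leaf 346 2005 (.cons 227 (.leaf 203 1622 (.leaf 299 1814 .nil)) .nil)) (.cons 227 (.leaf 203 1622 (.cons 299 (.cons 228 (.leaf 204 1629 (.cons 300 (.leaf 324 1820 (.cons 301 (.leaf 302 2195 (.cons 277 (.leaf 278 2193 (.cons 325 (.leaf 326 2384 (.cons 253 (.leaf 252 1831 (.cons 226 (.leaf 202 1623 (.cons 254 (.leaf 229 1808 (.leaf 230 1837 .nil)) .nil)) .nil)) .nil)) .nil)) .nil)) .nil)) .nil)) (.cons 228 (.leaf 204 1629 (.cons 252 (.leaf 323 1821 (.cons 253 (.leaf 254 2002 (.cons 300 (.leaf 324 1820 (.cons 301 (.leaf 302 2195 (.cons 277 (.leaf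 278 2193 (.leaf 325 1831 .nil)) .nil)) .nil)) .nil)) .nil)) .nil)) (.cons 226 (.leaf 202 1623 (.cons 323 (.leaf 250 1812 (.cons 324 (.leaf 300 1820 (.leaf 348 2012 .nil)) .nil)) .nil)) (.cons 226 (.leaf 202 1623 (.cons 250 (.leaf 323 1812 (.cons 228 (.leaf 204 1629 (.cons 229 (.leaf 230 1810 (.leaf 249 1802 .nil)) .nil)) .nil)) .nil)) .nil)))) .nil)) (.cons 322 (.leaf 346 2005 (.cons 321 (.cons 250 (.leaf 345 1998 (.cons 323 (.leaf 320 2363 (.leaf 347 2004 .nil)) .nil)) (.cons 250 (.leaf 345 1998 (.cons 225 (.leaf 249 1807 (.cons 323 (.leaf 347 2004 (.cons 299 (.leaf 226 1812 (.cons 228 (.leaf 252 1821 (.cons 324 (.leaf 348 2012 (.cons 301 (.leaf 300 2377 (.cons 325 (.leaf 326 2387 (.leaf 302 2385 .nil)) .nil)) .nil)) .nil)) .nil)) .nil)) .nil)) .nil)) (.cons 345 (.leaf 250 1998 (.cons 369 (.leaf 393 2381 (.cons 320 (.leaf 344 2180 (.cons 319 (.leaf 294 2355 (.leaf 299 2361 .nil))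 .nil)) .nil)) .nil)) (.cons 320 (.leaf 323 2363 (.cons 319 (.leaf 294 2355 (.leaf 299 2361 .nil)) .nil)) .nil)))) .nil)) (.cons 322 (.leaf 346 2005 (.cons 227 (.leaf 203 1622 (.leaf 250 1813 .nil)) .nil)) .nil)))
noncomputable def t101 : T := .cons 322 (.leaf 346 2005 (.cons 227 (.leaf 203 1622 (.leaf 299 1814 .nil)) .nil)) (.cons 227 (.leaf 203 1622 (.cons 299 (.cons 228 (.leaf 204 1629 (.cons 300 (.leaf 324 1820 (.cons 301 (.leaf 302 2195 (.cons 277 (.leaf 278 2193 (.cons 325 (.leaf 326 2384 (.cons 253 (.leaf 252 1831 (.cons 226 (.leaf 202 1623 (.cons 254 (.leaf 229 1808 (.leaf 230 1837 .nil)) .nil)) .nil)) .nil)) .nil)) .nil)) .nil)) .nil)) (.cons 228 (.leaf 204 1629 (.cons 252 (.leaf 323 1821 (.cons 253 (.leaf 254 2002 (.cons 300 (.leaf 324 1820 (.cons 301 (.leaf 302 2195 (.cons 277 (.leaf 278 2193 (.leaf 325 1831 .nil)) .nil)) .nil)) .nil)) .nil)) .nil)) (.cons 226 (.leaf 202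 1623 (.cons 323 (.leaf 250 1812 (.cons 324 (.leaf 300 1820 (.leaf 348 2012 .nil)) .nil)) .nil)) (.cons 226 (.leaf 202 1623 (.cons 250 (.leaf 323 1812 (.cons 228 (.leaf 204 1629 (.cons 229 (.leaf 230 1810 (.leaf 249 1802 .nil)) .nil)) .nil)) .nil)) .nil)))) .nil)) (.cons 322 (.leaf 346 2005 (.cons 321 (.cons 320 (.leaf 323 2363 (.cons 319 (.leaf 299 2361 (.cons 343 (.leaf 248 1982 (.leaf 367 2173 .nil)) .nil)) .nil)) (.cons 250 (.leaf 345 1998 (.cons 225 (.leaf 249 1807 (.cons 323 (.leaf 347 2004 (.cons 299 (.leaf 226 1812 (.cons 228 (.leaf 252 1821 (.cons 324 (.leaf 348 2012 (.cons 301 (.leaf 300 2377 (.cons 325 (.leaf 326 2387 (.leaf 302 2385 .nil)) .nil)) .nil)) .nil)) .nil)) .nil)) .nil)) .nil)) (.cons 345 (.leaf 250 1998 (.cons 369 (.leaf 393 2381 (.cons 320 (.leaf 248 1988 (.leaf 344 2180 .nil)) .nil)) .nil)) .nil))) .nil)) (.cons 322 (.leaf 346 2005 (.cons 227 (.leaf 203 1622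 (.leaf 250 1813 .nil)) .nil)) .nil)))
noncomputable def t102 : T := .cons 343 (.leaf 367 2173 (.cons 271 (.leaf 248 1981 (.cons 246 (.leaf 270 1975 (.cons 344 (.leaf 368 2172 (.cons 320 (.leaf 249 1989 (.cons 321 (.leaf 322 2355 (.cons 345 (.leaf 369 2180 (.cons 318 (.leaf 317 2536 (.leaf 346 2544 .nil)) .nil)) .nil)) .nil)) .nil)) .nil)) .nil)) .nil)) (.cons 248 (.leaf 224 1790 (.cons 320 (.cons 321 (.leaf 345 1988 (.leaf 322 2355 .nil)) (.cons 249 (.leaf 225 1797 (.leaf 344 1989 .nil)) .nil)) .nil)) (.cons 343 (.leaf 367 2173 (.cons 271 (.cons 246 (.leaf 270 1975 (.cons 344 (.leaf 368 2172 (.cons 320 (.leaf 249 1989 (.cons 321 (.leaf 322 2355 (.cons 345 (.leaf 369 2180 (.cons 318 (.leaf 317 2536 (.leaf 346 2544 .nil)) .nil)) .nil)) .nil)) .nil)) .nil)) (.cons 342 (.leaf 366 2166 (.cons 344 (.leaf 368 2172 (.cons 320 (.leaf 249 1989 (.cons 321 (.leaf 322 2546 (.leaf 341 2537 .nil))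 .nil)) .nil)) .nil)) (.cons 270 (.leaf 246 1975 (.cons 249 (.leaf 250 1969 (.cons 269 (.leaf 268 2144 (.cons 245 (.leaf 244 1955 (.cons 342 (.leaf 366 2166 (.leaf 318 1967 .nil)) .nil)) .nil)) .nil)) .nil)) (.cons 270 (.leaf 246 1975 (.cons 269 (.leaf 268 2144 (.cons 245 (.leaf 244 1955 (.cons 342 (.leaf 366 2166 (.leaf 318 1967 .nil)) .nil)) .nil)) .nil)) .nil)))) .nil)) (.cons 343 (.leaf 367 2173 (.cons 248 (.leaf 224 1790 (.leaf 271 1981 .nil)) .nil)) .nil)))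
noncomputable def t103 : T := .cons 293 (.leaf 273 2153 (.cons 271 (.leaf 292 2145 (.cons 317 (.leaf 316 2338 (.cons 297 (.leaf 318 2346 (.cons 298 (.leaf 299 2171 (.leaf 270 2163 .nil)) .nil)) .nil)) .nil)) .nil)) (.cons 297 (.cons 317 (.leaf 318 2346 (.cons 321 (.leaf 322 2352 (.cons 248 (.leaf 224 1796 (.cons 345 (.leaf 273 1991 (.leaf 320 1988 .nil)) .nil)) .nil)) .nil)) (.cons 270 (.leaf 269 2155 (.cons 271 (.leaf 298 2163 (.cons 318 (.leaf 317 2346 (.cons 342 (.leaf 366 2165 (.cons 341 (.leaf 365 2158 (.cons 343 (.leaf 367 2164 (.cons 319 (.leaf 248 1981 (.leaf 246 1972 .nil)) .nil)) .nil)) .nil)) .nil)) .nil)) .nil)) (.cons 269 (.leaf 270 2155 (.cons 321 (.leaf 322 2352 (.cons 248 (.leaf 224 1796 (.cons 345 (.leaf 273 1991 (.leaf 320 1988 .nil)) .nil)) .nil)) .nil)) (.cons 270 (.leaf 269 2155 (.cons 298 (.leaf 271 2163 (.cons 322 (.leaf 321 2352 (.leaf 323 2360 .nil)) .nil))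 .nil)) .nil)))) (.cons 293 (.leaf 273 2153 (.cons 268 (.leaf 269 2147 (.cons 292 (.leaf 271 2145 (.leaf 267 2139 .nil)) .nil)) .nil)) (.cons 293 (.cons 271 (.leaf 292 2145 (.cons 317 (.leaf 316 2338 (.cons 297 (.leaf 318 2346 (.cons 298 (.leaf 299 2171 (.leaf 270 2163 .nil)) .nil)) .nil)) .nil)) (.cons 268 (.leaf 269 2147 (.cons 317 (.leaf 316 2338 (.cons 297 (.leaf 318 2346 (.cons 321 (.leaf 320 2344 (.leaf 322 2352 .nil)) .nil)) .nil)) .nil)) (.cons 268 (.leaf 269 2147 (.cons 292 (.leaf 271 2145 (.leaf 267 2139 .nil)) .nil)) .nil))) (.cons 293 (.leaf 273 2153 (.cons 268 (.leaf 269 2147 (.cons 317 (.leaf 316 2338 (.cons 297 (.leaf 318 2346 (.cons 321 (.leaf 320 2344 (.leaf 322 2352 .nil)) .nil)) .nil)) .nil)) .nil)) .nil))))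
noncomputable def t104 : T := .cons 298 (.leaf 274 2169 (.cons 318 (.leaf 319 2354 (.cons 271 (.leaf 299 2171 (.leaf 270 2163 .nil)) .nil)) .nil)) (.cons 294 (.cons 269 (.leaf 270 2155 (.cons 317 (.leaf 318 2346 (.cons 321 (.leaf 322 2352 (.cons 248 (.leaf 224 1796 (.cons 345 (.leaf 320 1988 (.leaf 369 2183 .nil)) .nil)) .nil)) .nil)) .nil)) (.cons 269 (.leaf 270 2155 (.cons 293 (.leaf 268 2147 (.cons 292 (.leaf 271 2145 (.cons 316 (.leaf 317 2338 (.leaf 315 2330 .nil)) .nil)) .nil)) .nil)) (.cons 321 (.leaf 322 2352 (.cons 293 (.leaf 320 2344 (.cons 317 (.leaf 316 2338 (.leaf 318 2346 .nil)) .nil)) .nil)) (.cons 321 (.leaf 322 2352 (.cons 269 (.leaf 270 2155 (.cons 293 (.leaf 268 2147 (.leaf 320 2344 .nil)) .nil)) .nil)) .nil)))) (.cons 298 (.leaf 274 2169 (.cons 318 (.leaf 319 2354 (.cons 294 (.leaf 317 2346 (.cons 269 (.leaf 270 2155 (.cons 322 (.leaf 321 2352 (.leaf 323 2360 .nil))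 .nil)) .nil)) .nil)) .nil)) (.cons 298 (.leaf 274 2169 (.cons 318 (.leaf 319 2354 (.cons 294 (.leaf 317 2346 (.cons 322 (.leaf 321 2352 (.leaf 323 2360 .nil)) .nil)) .nil)) .nil)) (.cons 298 (.leaf 274 2169 (.cons 271 (.leaf 299 2171 (.leaf 270 2163 .nil)) .nil)) .nil))))
noncomputable def t105 : T := .cons 322 (.leaf 346 2005 (.cons 227 (.leaf 203 1622 (.leaf 299 1814 .nil)) .nil)) (.cons 227 (.leaf 203 1622 (.cons 299 (.cons 228 (.leaf 204 1629 (.cons 300 (.leaf 324 1820 (.cons 301 (.leaf 302 2195 (.cons 277 (.leaf 278 2193 (.cons 325 (.leaf 326 2384 (.cons 253 (.leaf 252 1831 (.cons 226 (.leaf 202 1623 (.cons 254 (.leaf 229 1808 (.leaf 230 1837 .nil)) .nil)) .nil)) .nil)) .nil)) .nil)) .nil)) .nil)) (.cons 228 (.leaf 204 1629 (.cons 252 (.leaf 323 1821 (.cons 253 (.leaf 254 2002 (.cons 300 (.leaf 324 1820 (.cons 301 (.leaf 302 2195 (.cons 277 (.leaf 278 2193 (.leaf 325 1831 .nil))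 .nil)) .nil)) .nil)) .nil)) .nil)) (.cons 226 (.leaf 202 1623 (.cons 323 (.leaf 250 1812 (.cons 324 (.leaf 300 1820 (.leaf 348 2012 .nil)) .nil)) .nil)) (.cons 226 (.leaf 202 1623 (.cons 250 (.leaf 323 1812 (.cons 228 (.leaf 204 1629 (.cons 229 (.leaf 230 1810 (.leaf 249 1802 .nil)) .nil)) .nil)) .nil)) .nil)))) .nil)) (.cons 322 (.leaf 346 2005 (.cons 321 (.cons 320 (.leaf 323 2363 (.cons 319 (.leaf 294 2355 (.leaf 299 2361 .nil)) .nil)) (.cons 250 (.leaf 345 1998 (.cons 225 (.leaf 249 1807 (.cons 323 (.leaf 347 2004 (.cons 299 (.leaf 226 1812 (.cons 228 (.leaf 252 1821 (.cons 324 (.leaf 348 2012 (.cons 301 (.leaf 300 2377 (.cons 325 (.leaf 326 2387 (.leaf 302 2385 .nil)) .nil)) .nil)) .nil)) .nil)) .nil)) .nil)) .nil)) (.cons 345 (.leaf 250 1998 (.cons 369 (.leaf 393 2381 (.cons 320 (.leaf 248 1988 (.leaf 344 2180 .nil)) .nil)) .nil)) .nil))) .nil)) (.cons 322 (.leaf 346 2005 (.cons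 227 (.leaf 203 1622 (.leaf 250 1813 .nil)) .nil)) .nil)))
noncomputable def t106 : T := .cons 274 (.leaf 273 2170 (.cons 298 (.leaf 297 2169 (.cons 251 t105 .nil)) .nil)) (.cons 297 t104 (.cons 294 t103 (.cons 273 (.leaf 274 2170 (.cons 294 (.leaf 293 2153 (.cons 319 t102 .nil)) .nil)) (.cons 274 (.leaf 273 2170 (.cons 298 (.leaf 297 2169 (.cons 251 t101 .nil)) .nil)) (.cons 273 (.leaf 274 2170 (.cons 294 (.leaf 293 2153 (.cons 297 (.cons 321 (.leaf 322 2352 (.cons 248 (.leaf 224 1796 (.leaf 345 1991 .nil)) .nil)) (.cons 270 (.leaf 269 2155 (.cons 271 (.leaf 298 2160 (.cons 245 (.leaf 246 1963 (.cons 249 (.leaf 250 1969 (.cons 320 (.leaf 344 1989 (.leaf 225 1798 .nil)) .nil)) .nil)) .nil)) .nil)) .nil)) .nil)) .nil)) (.cons 273 (.leaf 274 2170 (.cons 294 (.leaf 293 2153 (.cons 297 (.cons 269 (.leaf 270 2155 (.cons 318 (.leaf 317 2346 (.cons 298 (.leaf 319 2354 (.cons 299 (.leaf 271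 2171 (.leaf 300 2179 .nil)) .nil)) .nil)) .nil)) (.cons 321 (.leaf 322 2352 (.cons 248 (.leaf 224 1796 (.leaf 345 1991 .nil)) .nil)) .nil)) .nil)) .nil)) (.cons 274 (.leaf 273 2170 (.cons 298 (.leaf 297 2169 (.cons 251 t100 .nil)) .nil)) (.cons 273 (.leaf 274 2170 (.cons 294 (.leaf 293 2153 (.cons 297 t99 .nil)) .nil)) .nil))))))))
noncomputable def t107 : T := .cons 317 (.leaf 318 2346 (.cons 321 (.leaf 322 2352 (.cons 270 (.leaf 269 2155 (.cons 271 (.leaf 298 2160 (.cons 245 (.leaf 246 1963 (.cons 249 (.leaf 250 1969 (.cons 320 (.leaf 344 1989 (.leaf 225 1798 .nil)) .nil)) .nil)) .nil)) .nil)) .nil)) .nil)) (.cons 317 (.leaf 318 2346 (.cons 321 (.leaf 322 2352 (.cons 345 (.leaf 369 2183 (.cons 344 (.leaf 368 2182 (.cons 320 (.leaf 249 1989 (.cons 247 (.leaf 271 1983 (.cons 343 (.leaf 367 2174 (.cons 342 (.leaf 341 2537 (.cons 346 (.leaf 370 2188 (.cons 347 (.leaf 348 2563 (.leaf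 319 2555 .nil)) .nil)) .nil)) .nil)) .nil)) .nil)) .nil)) .nil)) .nil)) .nil)) (.cons 270 (.leaf 269 2155 (.cons 318 (.leaf 317 2346 (.cons 271 (.leaf 298 2160 (.cons 247 (.leaf 223 1782 (.leaf 342 1973 .nil)) .nil)) .nil)) .nil)) (.cons 270 (.leaf 269 2155 (.cons 271 (.leaf 298 2160 (.cons 246 (.leaf 245 1963 (.cons 222 (.leaf 198 1588 (.leaf 319 1780 .nil)) .nil)) .nil)) .nil)) (.cons 317 (.leaf 318 2346 (.cons 321 (.leaf 322 2352 (.cons 345 (.leaf 369 2183 (.cons 269 (.leaf 270 2155 (.cons 344 (.leaf 368 2182 (.cons 320 (.leaf 249 1989 (.cons 346 (.leaf 370 2188 (.cons 347 (.leaf 348 2563 (.leaf 319 2555 .nil)) .nil)) .nil)) .nil)) .nil)) .nil)) .nil)) .nil)) .nil))))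
noncomputable def t108 : T := .cons 343 (.leaf 367 2173 (.cons 271 (.leaf 248 1981 (.cons 246 (.leaf 270 1975 (.cons 247 (.leaf 222 1783 (.cons 223 (.leaf 199 1596 (.leaf 320 1788 .nil)) .nil)) .nil)) .nil)) .nil)) (.cons 248 (.leaf 224 1790 (.cons 320 (.cons 321 (.leaf 345 1988 (.leaf 322 2355 .nil)) (.cons 249 (.leaf 225 1797 (.leaf 344 1989 .nil)) .nil)) .nil)) (.cons 343 (.leaf 367 2173 (.cons 271 (.cons 246 (.leaf 270 1975 (.cons 247 (.leaf 222 1783 (.cons 223 (.leaf 199 1596 (.leaf 320 1788 .nil)) .nil)) .nil)) (.cons 344 (.leaf 368 2172 (.cons 320 (.leaf 247 1980 (.leaf 249 1989 .nil)) .nil)) (.cons 270 (.leaf 246 1975 (.cons 249 (.leaf 250 1969 (.cons 269 (.leaf 268 2144 (.cons 344 (.leaf 320 1989 (.leaf 368 2172 .nil)) .nil)) .nil)) .nil)) (.cons 270 (.leaf 246 1975 (.cons 249 (.leaf 250 1969 (.cons 269 (.leaf 268 2144 (.cons 245 (.leaf 244 1955 (.cons 342 (.leaf 366 2166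 (.leaf 318 1967 .nil)) .nil)) .nil)) .nil)) .nil)) .nil)))) .nil)) (.cons 343 (.leaf 367 2173 (.cons 248 (.leaf 224 1790 (.leaf 271 1981 .nil)) .nil)) .nil)))
noncomputable def t109 : T := .cons 320 (.cons 247 (.leaf 223 1791 (.cons 319 (.leaf 224 1790 (.leaf 343 1982 .nil)) .nil)) (.cons 321 (.leaf 224 1796 (.leaf 345 1988 .nil)) (.cons 247 (.leaf 223 1791 (.cons 319 (.leaf 343 1982 (.cons 318 (.leaf 317 2345 (.cons 271 (.leaf 344 1980 (.leaf 342 1974 .nil)) .nil)) .nil)) .nil)) .nil))) (.cons 320 (.cons 247 (.leaf 223 1791 (.cons 319 (.leaf 343 1982 (.cons 318 (.leaf 317 2345 (.cons 271 (.leaf 344 1980 (.leaf 342 1974 .nil)) .nil)) .nil)) .nil)) (.cons 247 (.leaf 223 1791 (.cons 249 (.leaf 250 1976 (.leaf 225 1797 .nil)) .nil)) (.cons 319 (.leaf 343 1982 (.cons 317 (.leaf 318 2345 (.cons 345 (.leaf 321 1988 (.cons 225 (.leaf 249 1797 (.cons 344 (.leaf 369 2180 (.cons 368 (.leaf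 271 2175 (.leaf 392 2367 .nil)) .nil)) .nil)) .nil)) .nil)) .nil)) .nil))) (.cons 321 (.leaf 224 1796 (.cons 345 (.leaf 320 1988 (.leaf 369 2183 .nil)) .nil)) (.cons 319 (.leaf 224 1790 (.cons 343 (.leaf 271 1981 (.leaf 320 1982 .nil)) .nil)) (.cons 319 (.leaf 224 1790 (.cons 343 (.leaf 271 1981 (.leaf 367 2173 .nil)) .nil)) .nil))))
noncomputable def t110 : T := .cons 273 (.leaf 274 2170 (.cons 294 (.leaf 293 2153 (.cons 297 (.cons 321 (.leaf 322 2352 (.cons 248 (.leaf 224 1796 (.leaf 345 1991 .nil)) .nil)) (.cons 270 (.leaf 269 2155 (.cons 318 (.leaf 317 2346 (.cons 271 (.leaf 298 2160 (.cons 247 (.leaf 223 1782 (.leaf 342 1973 .nil)) .nil)) .nil)) .nil)) .nil)) .nil)) .nil)) (.cons 319 (.cons 343 (.leaf 367 2173 (.cons 271 (.leaf 248 1981 (.cons 270 (.leaf 246 1975 (.cons 269 (.leaf 297 2152 (.leaf 268 2144 .nil)) .nil)) .nil)) .nil)) (.cons 248 (.leaf 224 1790 (.cons 320 (.cons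 247 (.leaf 223 1791 (.cons 271 (.leaf 344 1980 (.cons 222 (.leaf 246 1783 (.cons 318 (.leaf 342 1974 (.cons 317 (.leaf 316 2337 (.leaf 297 2345 .nil)) .nil)) .nil)) .nil)) .nil)) (.cons 321 (.leaf 345 1988 (.cons 294 (.leaf 293 2344 (.leaf 322 2355 .nil)) .nil)) .nil)) .nil)) (.cons 343 (.leaf 367 2173 (.cons 271 (.cons 270 (.leaf 246 1975 (.cons 269 (.leaf 297 2152 (.leaf 268 2144 .nil)) .nil)) (.cons 342 (.leaf 366 2166 (.cons 344 (.leaf 368 2172 (.cons 320 (.leaf 247 1980 (.cons 321 (.leaf 322 2546 (.leaf 341 2537 .nil)) .nil)) .nil)) .nil)) .nil)) .nil)) (.cons 343 (.leaf 367 2173 (.cons 248 (.leaf 224 1790 (.leaf 320 1982 .nil)) .nil)) .nil)))) (.cons 273 (.leaf 274 2170 (.cons 294 (.leaf 293 2153 (.cons 297 (.cons 269 (.leaf 270 2155 (.cons 318 (.leaf 317 2346 (.cons 319 (.leaf 298 2354 (.cons 248 (.leaf 224 1790 (.cons 343 (.leaf 320 1982 (.leaf 367 2173 .nil)) .nil)) .nil))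 .nil)) .nil)) (.cons 321 (.leaf 322 2352 (.cons 248 (.leaf 224 1796 (.leaf 345 1991 .nil)) .nil)) (.cons 321 (.leaf 322 2352 (.cons 269 (.leaf 270 2155 (.cons 317 (.leaf 318 2346 (.cons 345 (.leaf 369 2183 (.cons 344 (.leaf 368 2182 (.cons 320 (.leaf 249 1989 (.cons 346 (.leaf 370 2188 (.cons 347 (.leaf 348 2563 (.leaf 319 2555 .nil)) .nil)) .nil)) .nil)) .nil)) .nil)) .nil)) .nil)) .nil))) .nil)) .nil)) (.cons 274 (.leaf 273 2170 (.cons 297 (.leaf 298 2169 (.cons 248 t109 .nil)) .nil)) (.cons 273 (.leaf 274 2170 (.cons 294 (.leaf 293 2153 (.cons 319 t108 .nil)) .nil)) (.cons 273 (.leaf 274 2170 (.cons 294 (.leaf 293 2153 (.cons 297 t107 .nil)) .nil)) (.cons 273 (.leaf 274 2170 (.cons 294 (.leaf 293 2153 (.cons 297 (.cons 270 (.leaf 269 2155 (.cons 318 (.leaf 317 2346 (.cons 271 (.leaf 298 2160 (.cons 247 (.leaf 223 1782 (.leaf 342 1973 .nil)) .nil)) .nil)) .nil)) (.cons 318 (.leaf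 317 2346 (.cons 319 (.leaf 298 2354 (.cons 248 (.leaf 224 1790 (.cons 343 (.leaf 271 1981 (.leaf 320 1982 .nil)) .nil)) .nil)) .nil)) (.cons 270 (.leaf 269 2155 (.cons 271 (.leaf 298 2160 (.cons 246 (.leaf 245 1963 (.cons 222 (.leaf 198 1588 (.leaf 319 1780 .nil)) .nil)) .nil)) .nil)) (.cons 318 (.leaf 317 2346 (.cons 269 (.leaf 270 2155 (.cons 319 (.leaf 298 2354 (.cons 248 (.leaf 224 1790 (.cons 343 (.leaf 320 1982 (.leaf 367 2173 .nil)) .nil)) .nil)) .nil)) .nil)) (.cons 270 (.leaf 269 2155 (.cons 318 (.leaf 317 2346 (.cons 271 (.cons 247 (.leaf 223 1782 (.leaf 342 1973 .nil)) (.cons 245 (.leaf 246 1963 (.cons 249 (.leaf 250 1969 (.cons 320 (.leaf 344 1989 (.leaf 225 1798 .nil)) .nil)) .nil)) .nil)) .nil)) .nil)) .nil))))) .nil)) .nil)) (.cons 273 (.leaf 274 2170 (.cons 294 (.leaf 293 2153 (.cons 297 (.cons 270 (.leaf 269 2155 (.cons 271 (.leaf 298 2160 (.cons 246 (.leaf 245 1963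 (.cons 222 (.leaf 198 1588 (.leaf 319 1780 .nil)) .nil)) .nil)) .nil)) (.cons 321 (.leaf 322 2352 (.cons 248 (.leaf 224 1796 (.leaf 345 1991 .nil)) .nil)) .nil)) .nil)) .nil)) .nil)))))))
noncomputable def t111 : T := .cons 320 (.cons 321 (.leaf 345 1988 (.cons 223 (.leaf 247 1791 (.cons 224 (.leaf 199 1599 (.leaf 297 1796 .nil)) .nil)) .nil)) (.cons 249 (.leaf 225 1797 (.leaf 344 1989 .nil)) .nil)) (.cons 320 (.cons 249 (.leaf 225 1797 (.leaf 344 1989 .nil)) (.cons 321 (.leaf 345 1988 (.cons 297 (.leaf 224 1796 (.cons 319 (.leaf 343 1982 (.cons 298 (.leaf 299 2362 (.leaf 318 2353 .nil)) .nil)) .nil)) .nil)) .nil)) (.cons 274 (.leaf 247 1979 (.cons 251 (.leaf 252 1985 (.cons 299 (.leaf 300 2176 (.cons 227 (.cons 298 (.leaf 203 1622 (.leaf 322 1814 .nil)) (.cons 226 (.leaf 202 1623 (.cons 204 (.leaf 228 1629 (.cons 180 (.leaf 203 1437 (.cons 323 (.leaf 250 1815 (.cons 346 (.leaf 322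 2006 (.cons 347 (.leaf 370 2198 (.cons 348 (.leaf 324 2012 (.leaf 372 2204 .nil)) .nil)) .nil)) .nil)) .nil)) .nil)) .nil)) (.cons 322 (.leaf 298 1814 (.cons 202 (.leaf 226 1623 (.cons 204 (.leaf 228 1629 (.cons 323 (.leaf 346 2006 (.cons 347 (.leaf 250 2007 (.cons 348 (.leaf 324 2012 (.leaf 372 2204 .nil)) .nil)) .nil)) .nil)) .nil)) .nil)) (.cons 203 (.leaf 298 1622 (.cons 202 (.leaf 178 1431 (.leaf 226 1623 .nil)) .nil)) .nil)))) .nil)) .nil)) .nil)) .nil))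
noncomputable def t112 : T := .cons 344 (.leaf 249 1989 (.cons 297 (.leaf 368 2181 (.cons 343 (.leaf 367 2174 (.cons 248 (.leaf 319 1982 (.cons 224 (.leaf 200 1604 (.leaf 321 1796 .nil)) .nil)) .nil)) .nil)) .nil)) (.cons 248 (.cons 247 (.leaf 223 1791 (.cons 246 (.leaf 245 1960 (.cons 249 (.leaf 225 1797 (.cons 222 (.leaf 221 1771 (.cons 270 (.leaf 269 1962 (.cons 319 (.leaf 343 1982 (.cons 321 (.leaf 345 1988 (.cons 294 (.leaf 295 1780 (.cons 293 (.leaf 318 2347 (.leaf 317 1774 .nil)) .nil)) .nil)) .nil)) .nil)) .nil)) .nil)) .nil)) .nil)) (.cons 247 (.leaf 223 1791 (.cons 246 (.leaf 245 1960 (.cons 249 (.leaf 225 1797 (.cons 222 (.leaf 221 1771 (.cons 270 (.leaf 269 1962 (.cons 319 (.leaf 343 1982 (.cons 295 (.leaf 224 1790 (.leaf 294 1780 .nil)) .nil)) .nil)) .nil)) .nil)) .nil)) .nil)) (.cons 321 (.leaf 345 1988 (.cons 223 (.leaf 247 1791 (.cons 224 (.leaf 199 1599 (.leaf 297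 1796 .nil)) .nil)) .nil)) (.cons 225 (.leaf 249 1797 (.cons 319 (.leaf 343 1982 (.cons 295 (.leaf 224 1790 (.cons 294 (.leaf 293 2153 (.cons 321 (.leaf 345 1988 (.leaf 322 2355 .nil)) .nil)) .nil)) .nil)) .nil)) .nil)))) (.cons 248 (.cons 223 (.leaf 247 1791 (.cons 319 (.leaf 343 1982 (.cons 345 (.leaf 321 1988 (.cons 344 (.leaf 369 2180 (.cons 317 (.leaf 318 2536 (.cons 346 (.leaf 347 2555 (.cons 368 (.leaf 297 2181 (.cons 391 (.leaf 367 2366 (.cons 392 (.leaf 295 2367 (.leaf 415 2558 .nil)) .nil)) .nil)) .nil)) .nil)) .nil)) .nil)) .nil)) .nil)) (.cons 223 (.leaf 247 1791 (.cons 199 (.leaf 224 1599 (.cons 343 (.leaf 319 1982 (.cons 344 (.leaf 367 2174 (.cons 368 (.leaf 297 2181 (.cons 369 (.leaf 345 2180 (.leaf 393 2372 .nil)) .nil)) .nil)) .nil)) .nil)) .nil)) (.cons 223 (.leaf 247 1791 (.cons 224 (.leaf 199 1599 (.cons 319 (.leaf 295 1790 (.leaf 343 1982 .nil)) .nil)) .nil)) (.cons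 321 (.leaf 345 1988 (.cons 223 (.leaf 247 1791 (.cons 224 (.leaf 199 1599 (.leaf 297 1796 .nil)) .nil)) .nil)) (.cons 319 (.leaf 343 1982 (.cons 295 (.leaf 224 1790 (.cons 294 (.leaf 293 2153 (.cons 321 (.leaf 345 1988 (.leaf 322 2355 .nil)) .nil)) .nil)) .nil)) .nil))))) (.cons 344 (.leaf 249 1989 (.cons 343 (.leaf 367 2174 (.cons 368 (.leaf 297 2181 (.cons 369 (.leaf 345 2180 (.leaf 393 2372 .nil)) .nil)) .nil)) .nil)) (.cons 344 (.leaf 249 1989 (.cons 343 (.leaf 367 2174 (.cons 248 (.leaf 319 1982 (.cons 345 (.leaf 321 1988 (.leaf 369 2180 .nil)) .nil)) .nil)) .nil)) (.cons 344 (.leaf 249 1989 (.cons 297 (.leaf 368 2181 (.cons 345 (.leaf 369 2180 (.cons 248 (.leaf 321 1988 (.cons 223 (.leaf 247 1791 (.cons 224 (.leaf 199 1599 (.leaf 200 1604 .nil)) .nil)) .nil)) .nil)) .nil)) .nil)) .nil)))))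
noncomputable def t113 : T := .cons 274 (.leaf 295 2170 (.cons 299 (.leaf 300 2176 (.cons 251 (.leaf 252 1985 (.cons 227 (.cons 298 (.leaf 203 1622 (.leaf 322 1814 .nil)) (.cons 202 (.leaf 226 1623 (.cons 203 (.leaf 178 1431 (.cons 204 (.leaf 180 1437 (.leaf 228 1629 .nil)) .nil)) .nil)) (.cons 202 (.leaf 226 1623 (.cons 322 (.leaf 298 1814 (.cons 204 (.leaf 228 1629 (.cons 323 (.leaf 346 2006 (.cons 324 (.leaf 348 2012 (.cons 321 (.leaf 297 2371 (.cons 344 (.leaf 345 2562 (.cons 320 (.leaf 249 1989 (.leaf 343 2554 .nil)) .nil)) .nil)) .nil)) .nil)) .nil)) .nil)) .nil)) .nil))) .nil)) .nil)) .nil)) (.cons 320 t112 (.cons 248 t111 (.cons 274 (.leaf 295 2170 (.cons 299 (.leaf 300 2176 (.cons 251 (.leaf 252 1985 (.cons 227 (.cons 298 (.leaf 203 1622 (.leaf 322 1814 .nil)) (.cons 202 (.leaf 226 1623 (.cons 203 (.leaf 178 1431 (.cons 204 (.leaf 180 1437 (.leaf 228 1629 .nil)) .nil)) .nil))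 (.cons 202 (.leaf 226 1623 (.cons 322 (.leaf 298 1814 (.cons 204 (.leaf 228 1629 (.cons 323 (.leaf 346 2006 (.cons 324 (.leaf 348 2012 (.cons 248 (.leaf 247 1979 (.cons 297 (.leaf 321 2371 (.cons 224 (.leaf 200 1604 (.cons 223 (.leaf 199 1599 (.cons 250 (.leaf 347 2007 (.leaf 249 1787 .nil)) .nil)) .nil)) .nil)) .nil)) .nil)) .nil)) .nil)) .nil)) .nil)) .nil))) .nil)) .nil)) .nil)) (.cons 274 (.leaf 295 2170 (.cons 299 (.leaf 300 2176 (.cons 251 (.leaf 252 1985 (.cons 227 (.cons 298 (.leaf 203 1622 (.leaf 322 1814 .nil)) (.cons 202 (.leaf 226 1623 (.cons 203 (.leaf 178 1431 (.cons 204 (.leaf 180 1437 (.leaf 228 1629 .nil)) .nil)) .nil)) (.cons 202 (.leaf 226 1623 (.cons 322 (.leaf 298 1814 (.cons 204 (.leaf 228 1629 (.cons 323 (.leaf 346 2006 (.cons 347 (.leaf 250 2007 (.cons 348 (.leaf 324 2012 (.leaf 372 2204 .nil)) .nil)) .nil)) .nil)) .nil)) .nil)) .nil))) .nil)) .nil)) .nil))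 (.cons 274 (.leaf 295 2170 (.cons 248 (.leaf 247 1979 (.cons 251 (.leaf 252 1985 (.cons 299 (.leaf 300 2176 (.cons 320 (.cons 249 (.leaf 225 1797 (.leaf 344 1989 .nil)) (.cons 319 (.leaf 343 1982 (.cons 345 (.leaf 321 1988 (.cons 344 (.leaf 369 2180 (.cons 297 (.leaf 368 2181 (.leaf 298 2362 .nil)) .nil)) .nil)) .nil)) (.cons 225 (.leaf 249 1797 (.cons 321 (.leaf 345 1988 (.cons 224 (.leaf 297 1796 (.cons 223 (.leaf 199 1599 (.cons 226 (.leaf 250 1784 (.cons 202 (.leaf 227 1623 (.leaf 203 1593 .nil)) .nil)) .nil)) .nil)) .nil)) .nil)) .nil))) .nil)) .nil)) .nil)) .nil)) .nil)))))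
noncomputable def t114 : T := .cons 248 (.leaf 247 1979 (.cons 251 (.leaf 252 1985 (.cons 299 (.leaf 300 2176 (.cons 227 (.cons 298 (.leaf 203 1622 (.leaf 322 1814 .nil)) (.cons 250 (.leaf 271 1977 (.cons 226 (.leaf 202 1620 (.leaf 323 1815 .nil)) .nil)) .nil)) .nil)) .nil)) .nil)) (.cons 247 (.leaf 248 1979 (.cons 271 (.leaf 246 1971 (.cons 299 (.leaf 300 2176 (.leaf 298 2168 .nil)) .nil)) .nil)) (.cons 251 (.leaf 252 1985 (.cons 271 (.leaf 250 1977 (.cons 299 (.leaf 300 2176 (.leaf 298 2168 .nil)) .nil)) .nil)) (.cons 247 (.leaf 248 1979 (.cons 251 (.leaf 252 1985 (.cons 271 (.leaf 246 1971 (.leaf 250 1977 .nil)) .nil)) .nil)) (.cons 248 (.leaf 247 1979 (.cons 251 (.leaf 252 1985 (.cons 299 (.leaf 300 2176 (.cons 227 (.cons 298 (.leaf 203 1622 (.leaf 322 1814 .nil)) (.cons 226 (.leaf 202 1623 (.cons 204 (.leaf 228 1629 (.cons 180 (.leaf 203 1437 (.cons 323 (.leaf 250 1815 (.cons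 346 (.leaf 322 2006 (.cons 347 (.leaf 370 2198 (.cons 348 (.leaf 324 2012 (.leaf 372 2204 .nil)) .nil)) .nil)) .nil)) .nil)) .nil)) .nil)) (.cons 322 (.leaf 298 1814 (.cons 202 (.leaf 226 1623 (.cons 204 (.leaf 228 1629 (.cons 323 (.leaf 346 2006 (.cons 347 (.leaf 250 2007 (.cons 348 (.leaf 324 2012 (.leaf 372 2204 .nil)) .nil)) .nil)) .nil)) .nil)) .nil)) (.cons 203 (.leaf 298 1622 (.cons 202 (.leaf 178 1431 (.leaf 226 1623 .nil)) .nil)) .nil)))) .nil)) .nil)) .nil)) .nil))))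
noncomputable def t115 : T := .cons 344 (.leaf 249 1989 (.cons 343 (.leaf 367 2174 (.cons 248 (.leaf 319 1982 (.cons 345 (.leaf 321 1988 (.leaf 369 2180 .nil)) .nil)) .nil)) .nil)) (.cons 248 (.cons 223 (.leaf 247 1791 (.cons 224 (.leaf 199 1599 (.cons 319 (.leaf 295 1790 (.leaf 343 1982 .nil)) .nil)) .nil)) (.cons 319 (.leaf 343 1982 (.cons 295 (.leaf 224 1790 (.cons 294 (.leaf 293 2153 (.cons 321 (.leaf 345 1988 (.leaf 322 2355 .nil)) .nil)) .nil)) .nil)) (.cons 247 (.leaf 223 1791 (.cons 246 (.leaf 245 1960 (.cons 249 (.leaf 225 1797 (.cons 221 (.leaf 222 1771 (.cons 270 (.leaf 269 1962 (.cons 250 (.leaf 271 1969 (.cons 227 (.leaf 226 1785 (.cons 251 (.leaf 252 1986 (.leaf 228 1793 .nil)) .nil)) .nil)) .nil)) .nil)) .nil)) .nil)) .nil)) .nil))) (.cons 344 (.cons 247 (.leaf 271 1983 (.cons 367 (.leaf 343 2174 (.cons 368 (.leaf 391 2366 (.cons 369 (.leaf 345 2180 (.leaf 393 2372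 .nil)) .nil)) .nil)) .nil)) (.cons 247 (.leaf 271 1983 (.cons 248 (.leaf 223 1791 (.cons 345 (.leaf 321 1988 (.leaf 369 2180 .nil)) .nil)) .nil)) (.cons 247 (.leaf 271 1983 (.cons 248 (.leaf 223 1791 (.cons 343 (.leaf 319 1982 (.leaf 367 2174 .nil)) .nil)) .nil)) (.cons 343 (.leaf 367 2174 (.cons 248 (.leaf 319 1982 (.cons 345 (.leaf 321 1988 (.leaf 369 2180 .nil)) .nil)) .nil)) .nil)))) (.cons 344 (.leaf 249 1989 (.cons 247 (.leaf 271 1983 (.cons 367 (.leaf 343 2174 (.cons 368 (.leaf 391 2366 (.cons 369 (.leaf 345 2180 (.leaf 393 2372 .nil)) .nil)) .nil)) .nil)) .nil)) (.cons 344 (.leaf 249 1989 (.cons 247 (.leaf 271 1983 (.cons 248 (.leaf 223 1791 (.cons 345 (.leaf 321 1988 (.leaf 369 2180 .nil)) .nil)) .nil)) .nil)) (.cons 344 (.leaf 249 1989 (.cons 247 (.leaf 271 1983 (.cons 248 (.leaf 223 1791 (.cons 343 (.leaf 319 1982 (.leaf 367 2174 .nil)) .nil)) .nil)) .nil)) .nil)))))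
noncomputable def t116 : T := .cons 274 (.leaf 295 2170 (.cons 248 (.leaf 247 1979 (.cons 251 (.leaf 252 1985 (.cons 299 (.leaf 300 2176 (.cons 227 (.cons 202 (.leaf 226 1623 (.cons 203 (.leaf 178 1431 (.leaf 298 1622 .nil)) .nil)) (.cons 202 (.leaf 226 1623 (.cons 203 (.leaf 178 1431 (.cons 204 (.leaf 180 1437 (.leaf 228 1629 .nil)) .nil)) .nil)) (.cons 298 (.leaf 322 1814 (.leaf 271 2168 .nil)) .nil))) .nil)) .nil)) .nil)) .nil)) (.cons 320 t115 (.cons 274 t114 (.cons 274 (.leaf 295 2170 (.cons 251 (.leaf 252 1985 (.cons 271 (.leaf 250 1977 (.cons 299 (.leaf 300 2176 (.leaf 298 2168 .nil)) .nil)) .nil)) .nil)) (.cons 274 (.leaf 295 2170 (.cons 248 (.leaf 247 1979 (.cons 251 (.leaf 252 1985 (.cons 299 (.leaf 300 2176 (.cons 227 (.cons 226 (.leaf 202 1623 (.cons 204 (.leaf 228 1629 (.cons 180 (.leaf 203 1437 (.cons 323 (.leaf 250 1815 (.cons 346 (.leaf 322 2006 (.cons 347 (.leaf 370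 2198 (.cons 348 (.leaf 324 2012 (.leaf 372 2204 .nil)) .nil)) .nil)) .nil)) .nil)) .nil)) .nil)) (.cons 322 (.leaf 298 1814 (.cons 202 (.leaf 226 1623 (.cons 204 (.leaf 228 1629 (.cons 323 (.leaf 346 2006 (.cons 347 (.leaf 250 2007 (.cons 348 (.leaf 324 2012 (.leaf 372 2204 .nil)) .nil)) .nil)) .nil)) .nil)) .nil)) (.cons 203 (.leaf 298 1622 (.cons 202 (.leaf 178 1431 (.leaf 226 1623 .nil)) .nil)) (.cons 298 (.leaf 203 1622 (.leaf 322 1814 .nil)) .nil)))) .nil)) .nil)) .nil)) .nil)) (.cons 274 (.leaf 295 2170 (.cons 247 (.leaf 248 1979 (.cons 271 (.leaf 246 1971 (.cons 299 (.leaf 300 2176 (.leaf 298 2168 .nil)) .nil)) .nil)) .nil)) .nil)))))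
noncomputable def t117 : T := .cons 321 (.leaf 322 2352 (.cons 318 (.leaf 317 2346 (.cons 345 (.leaf 369 2183 (.cons 344 (.leaf 368 2182 (.cons 320 (.leaf 249 1989 (.cons 271 (.leaf 247 1983 (.cons 298 (.leaf 270 2160 (.leaf 299 2171 .nil)) .nil)) .nil)) .nil)) .nil)) .nil)) .nil)) (.cons 321 (.leaf 322 2352 (.cons 318 (.leaf 317 2346 (.cons 345 (.leaf 369 2183 (.cons 344 (.leaf 368 2182 (.cons 320 (.leaf 249 1989 (.cons 271 (.leaf 247 1983 (.cons 298 (.leaf 299 2171 (.cons 342 (.leaf 366 2165 (.cons 343 (.leaf 367 2174 (.leaf 341 2537 .nil)) .nil)) .nil)) .nil)) .nil)) .nil)) .nil)) .nil)) .nil)) (.cons 270 (.leaf 269 2155 (.cons 271 (.leaf 298 2160 (.cons 245 (.leaf 246 1963 (.cons 249 (.leaf 250 1969 (.cons 318 (.leaf 317 2346 (.cons 320 (.leaf 344 1989 (.leaf 225 1798 .nil)) .nil)) .nil)) .nil)) .nil)) .nil)) (.cons 270 (.leaf 269 2155 (.cons 318 (.leaf 317 2346 (.cons 249 (.cons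 320 (.leaf 344 1989 (.leaf 225 1798 .nil)) (.cons 322 (.leaf 321 2352 (.cons 298 (.leaf 323 2360 (.leaf 225 1804 .nil)) .nil)) (.cons 321 (.leaf 322 2352 (.cons 344 (.leaf 320 1989 (.cons 345 (.leaf 369 2183 (.leaf 368 2182 .nil)) .nil)) .nil)) .nil))) .nil)) .nil)) (.cons 321 (.leaf 322 2352 (.cons 269 (.leaf 270 2155 (.cons 318 (.leaf 317 2346 (.cons 345 (.leaf 369 2183 (.cons 344 (.leaf 368 2182 (.cons 320 (.leaf 249 1989 (.cons 271 (.leaf 247 1983 (.cons 346 (.leaf 370 2188 (.cons 342 (.leaf 366 2165 (.cons 343 (.leaf 367 2174 (.leaf 341 2537 .nil)) .nil)) .nil)) .nil)) .nil)) .nil)) .nil)) .nil)) .nil)) .nil)) (.cons 270 (.leaf 269 2155 (.cons 271 (.leaf 298 2160 (.cons 245 (.leaf 246 1963 (.cons 249 (.leaf 250 1969 (.cons 320 (.leaf 344 1989 (.leaf 225 1798 .nil)) .nil)) .nil)) .nil)) .nil)) (.cons 270 (.leaf 269 2155 (.cons 271 (.leaf 298 2160 (.cons 245 (.leaf 246 1963 (.cons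 318 (.leaf 317 2346 (.cons 247 (.leaf 223 1782 (.leaf 342 1973 .nil)) .nil)) .nil)) .nil)) .nil)) .nil))))))
noncomputable def t118 : T := .cons 293 (.leaf 294 2153 (.cons 247 (.cons 223 (.leaf 199 1596 (.leaf 320 1788 .nil)) (.cons 223 (.leaf 199 1596 (.cons 200 (.leaf 224 1597 (.cons 222 (.leaf 198 1591 (.cons 319 (.leaf 246 1783 (.cons 342 (.leaf 318 1974 (.cons 343 (.leaf 367 2173 (.leaf 366 2166 .nil)) .nil)) .nil)) .nil)) .nil)) .nil)) (.cons 319 (.cons 320 (.leaf 344 1980 (.cons 222 (.leaf 246 1783 (.cons 318 (.leaf 342 1974 (.cons 317 (.leaf 316 2337 (.leaf 292 2339 .nil)) .nil)) .nil)) .nil)) (.cons 246 (.leaf 222 1783 (.cons 245 (.leaf 244 1952 (.leaf 270 1963 .nil)) .nil)) (.cons 344 (.leaf 320 1980 (.cons 343 (.leaf 367 2173 (.leaf 368 2172 .nil)) .nil)) .nil))) .nil))) .nil)) (.cons 320 (.cons 344 (.leaf 247 1983 (.leaf 249 1989 .nil)) (.cons 247 (.leaf 223 1788 (.cons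 246 (.cons 245 (.leaf 244 1952 (.leaf 270 1963 .nil)) (.cons 319 (.leaf 222 1783 (.cons 343 (.leaf 367 2173 (.leaf 270 1975 .nil)) .nil)) (.cons 319 (.leaf 222 1783 (.cons 244 (.leaf 245 1952 (.cons 342 (.leaf 318 1974 (.cons 343 (.leaf 367 2173 (.leaf 366 2166 .nil)) .nil)) .nil)) .nil)) .nil))) .nil)) (.cons 344 (.leaf 249 1989 (.leaf 368 2175 .nil)) .nil))) (.cons 270 (.cons 294 (.leaf 293 2153 (.cons 246 (.leaf 245 1963 (.cons 222 (.leaf 198 1588 (.leaf 319 1780 .nil)) .nil)) .nil)) (.cons 245 (.leaf 246 1963 (.cons 269 (.leaf 244 1955 (.leaf 268 2144 .nil)) .nil)) (.cons 293 (.leaf 294 2153 (.cons 269 (.leaf 292 2146 (.leaf 268 2144 .nil)) .nil)) .nil))) (.cons 293 (.leaf 294 2153 (.cons 247 (.cons 223 (.leaf 199 1596 (.leaf 320 1788 .nil)) (.cons 223 (.leaf 199 1596 (.cons 200 (.leaf 224 1597 (.cons 222 (.leaf 198 1591 (.cons 319 (.leaf 246 1783 (.cons 342 (.leaf 318 1974 (.cons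 343 (.leaf 367 2173 (.leaf 366 2166 .nil)) .nil)) .nil)) .nil)) .nil)) .nil)) (.cons 319 (.cons 344 (.leaf 320 1980 (.cons 343 (.leaf 367 2173 (.leaf 368 2172 .nil)) .nil)) (.cons 343 (.leaf 367 2173 (.cons 342 (.leaf 318 1974 (.leaf 366 2166 .nil)) .nil)) (.cons 320 (.leaf 344 1980 (.cons 222 (.leaf 246 1783 (.cons 318 (.leaf 342 1974 (.cons 317 (.leaf 316 2337 (.leaf 292 2339 .nil)) .nil)) .nil)) .nil)) .nil))) .nil))) .nil)) (.cons 270 (.cons 294 (.leaf 293 2153 (.cons 246 (.leaf 245 1963 (.cons 222 (.leaf 198 1588 (.cons 197 (.leaf 221 1583 (.cons 223 (.leaf 199 1589 (.cons 247 (.leaf 320 1788 (.leaf 318 1781 .nil)) .nil)) .nil)) .nil)) .nil)) .nil)) (.cons 245 (.leaf 246 1963 (.cons 269 (.leaf 244 1955 (.leaf 268 2144 .nil)) .nil)) (.cons 293 (.leaf 294 2153 (.cons 269 (.leaf 292 2146 (.leaf 268 2144 .nil)) .nil)) .nil))) (.cons 293 (.leaf 294 2153 (.cons 319 (.cons 343 (.leaf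 367 2173 (.cons 344 (.leaf 368 2172 (.cons 320 (.leaf 247 1980 (.leaf 249 1989 .nil)) .nil)) .nil)) (.cons 320 (.cons 247 (.leaf 344 1980 (.leaf 223 1788 .nil)) (.cons 247 (.leaf 223 1788 (.cons 318 (.leaf 342 1974 (.cons 317 (.leaf 316 2337 (.leaf 292 2339 .nil)) .nil)) .nil)) (.cons 344 (.leaf 249 1989 (.leaf 368 2175 .nil)) .nil))) (.cons 343 (.leaf 367 2173 (.cons 342 (.leaf 366 2166 (.cons 318 (.leaf 247 1974 (.cons 317 (.leaf 316 2337 (.cons 344 (.leaf 368 2172 (.leaf 345 2539 .nil)) .nil)) .nil)) .nil)) .nil)) (.cons 343 (.leaf 367 2173 (.cons 342 (.leaf 366 2166 (.cons 247 (.leaf 318 1974 (.cons 223 (.leaf 199 1596 (.leaf 320 1788 .nil)) .nil)) .nil)) .nil)) (.cons 343 (.leaf 367 2173 (.cons 342 (.leaf 366 2166 (.cons 344 (.leaf 368 2172 (.cons 249 (.leaf 320 1989 (.cons 270 (.leaf 250 1969 (.cons 269 (.leaf 292 2146 (.leaf 268 2144 .nil)) .nil)) .nil)) .nil)) .nil)) .nil))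 .nil))))) .nil)) .nil)))))
noncomputable def t119 : T := .cons 227 (.leaf 203 1622 (.cons 322 (.leaf 299 1814 (.leaf 346 2005 .nil)) .nil)) (.cons 227 (.leaf 203 1622 (.cons 299 (.cons 300 (.leaf 324 1820 (.cons 228 (.leaf 204 1629 (.cons 301 (.leaf 302 2195 (.cons 277 (.leaf 278 2193 (.cons 325 (.leaf 326 2384 (.cons 253 (.leaf 252 1831 (.cons 226 (.leaf 202 1623 (.cons 254 (.leaf 229 1808 (.leaf 230 1837 .nil)) .nil)) .nil)) .nil)) .nil)) .nil)) .nil)) .nil)) (.cons 228 (.leaf 204 1629 (.cons 252 (.leaf 323 1821 (.cons 253 (.leaf 254 2002 (.cons 300 (.leaf 324 1820 (.cons 301 (.leaf 302 2195 (.cons 277 (.leaf 278 2193 (.leaf 325 1831 .nil)) .nil)) .nil)) .nil)) .nil)) .nil)) (.cons 226 (.leaf 202 1623 (.cons 323 (.leaf 250 1812 (.cons 324 (.leaf 300 1820 (.leaf 348 2012 .nil)) .nil)) .nil)) (.cons 226 (.leaf 202 1623 (.cons 250 (.leaf 323 1812 (.cons 228 (.leaf 204 1629 (.cons 229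 (.leaf 230 1810 (.leaf 249 1802 .nil)) .nil)) .nil)) .nil)) .nil)))) .nil)) (.cons 322 (.leaf 346 2005 (.cons 321 (.cons 320 (.leaf 323 2363 (.cons 319 (.leaf 299 2361 (.cons 343 (.leaf 367 2173 (.leaf 342 2546 .nil)) .nil)) .nil)) (.cons 345 (.leaf 250 1998 (.cons 369 (.leaf 393 2381 (.cons 320 (.leaf 344 2180 (.cons 319 (.leaf 299 2361 (.cons 343 (.leaf 367 2173 (.leaf 342 2546 .nil)) .nil)) .nil)) .nil)) .nil)) (.cons 250 (.leaf 345 1998 (.cons 225 (.leaf 249 1807 (.cons 323 (.leaf 347 2004 (.cons 299 (.leaf 226 1812 (.cons 228 (.leaf 252 1821 (.cons 324 (.leaf 348 2012 (.cons 301 (.leaf 300 2377 (.cons 325 (.leaf 326 2387 (.leaf 302 2385 .nil)) .nil)) .nil)) .nil)) .nil)) .nil)) .nil)) .nil)) (.cons 250 (.leaf 345 1998 (.cons 323 (.leaf 320 2363 (.leaf 347 2004 .nil)) .nil)) .nil)))) .nil)) (.cons 322 (.leaf 346 2005 (.cons 227 (.leaf 203 1622 (.leaf 250 1813 .nil)) .nil)) .nil)))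
noncomputable def t120 : T := .cons 270 (.leaf 269 2155 (.cons 318 (.leaf 317 2346 (.cons 321 (.leaf 322 2352 (.cons 345 (.leaf 369 2183 (.cons 319 (.leaf 298 2354 (.cons 343 (.leaf 367 2173 (.leaf 246 1972 .nil)) .nil)) .nil)) .nil)) .nil)) .nil)) (.cons 318 (.leaf 317 2346 (.cons 298 (.leaf 319 2354 (.cons 299 (.leaf 271 2171 (.cons 322 (.leaf 321 2352 (.leaf 323 2360 .nil)) .nil)) .nil)) .nil)) (.cons 270 (.leaf 269 2155 (.cons 298 (.leaf 271 2163 (.cons 322 (.leaf 321 2352 (.leaf 323 2360 .nil)) .nil)) .nil)) (.cons 318 (.leaf 317 2346 (.cons 298 (.leaf 319 2354 (.cons 299 (.leaf 271 2171 (.cons 323 (.leaf 322 2360 (.leaf 324 2368 .nil)) .nil)) .nil)) .nil)) (.cons 318 (.leaf 317 2346 (.cons 298 (.leaf 319 2354 (.cons 299 (.leaf 271 2171 (.cons 300 (.leaf 273 2179 (.cons 324 (.leaf 323 2368 (.leaf 325 2376 .nil)) .nil)) .nil)) .nil)) .nil)) (.cons 270 (.leaf 269 2155 (.cons 318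 (.leaf 317 2346 (.cons 321 (.leaf 322 2352 (.cons 345 (.leaf 369 2183 (.cons 319 (.cons 343 (.leaf 367 2173 (.leaf 246 1972 .nil)) (.cons 222 (.leaf 246 1780 (.cons 320 (.leaf 346 2544 (.cons 342 (.leaf 341 2538 (.cons 271 (.leaf 247 1973 (.leaf 366 2165 .nil)) .nil)) .nil)) .nil)) (.cons 343 (.leaf 367 2173 (.cons 346 (.leaf 320 2544 (.leaf 344 2547 .nil)) .nil)) .nil))) .nil)) .nil)) .nil)) .nil)) .nil)))))
noncomputable def t121 : T := .cons 294 (.cons 293 (.leaf 273 2153 (.cons 269 (.leaf 268 2147 (.cons 292 (.leaf 271 2145 (.cons 316 (.leaf 317 2338 (.leaf 315 2330 .nil)) .nil)) .nil)) .nil)) (.cons 297 t120 (.cons 293 (.cons 269 (.leaf 268 2147 (.cons 292 (.leaf 271 2145 (.cons 316 (.leaf 317 2338 (.leaf 315 2330 .nil)) .nil)) .nil)) (.cons 269 (.leaf 268 2147 (.cons 297 (.leaf 270 2155 (.cons 321 (.leaf 320 2344 (.leaf 322 2352 .nil)) .nil)) .nil)) (.cons 271 (.leaf 292 2145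 (.cons 317 (.leaf 316 2338 (.cons 297 (.leaf 318 2346 (.cons 298 (.leaf 299 2171 (.leaf 270 2163 .nil)) .nil)) .nil)) .nil)) .nil))) (.cons 293 (.leaf 273 2153 (.cons 269 (.leaf 268 2147 (.cons 297 (.leaf 270 2155 (.cons 321 (.leaf 320 2344 (.leaf 322 2352 .nil)) .nil)) .nil)) .nil)) (.cons 293 (.leaf 273 2153 (.cons 271 (.leaf 292 2145 (.cons 317 (.leaf 316 2338 (.cons 297 (.leaf 318 2346 (.cons 298 (.leaf 299 2171 (.leaf 270 2163 .nil)) .nil)) .nil)) .nil)) .nil)) .nil))))) (.cons 274 (.leaf 273 2170 (.cons 298 (.leaf 297 2169 (.cons 251 t119 .nil)) .nil)) (.cons 273 (.leaf 274 2170 (.cons 271 t118 .nil)) (.cons 273 (.leaf 274 2170 (.cons 294 (.leaf 293 2153 (.cons 297 (.cons 269 (.leaf 270 2155 (.cons 322 (.leaf 321 2352 (.cons 298 (.leaf 323 2360 (.cons 299 (.leaf 271 2171 (.leaf 300 2179 .nil)) .nil)) .nil)) .nil)) (.cons 321 (.leaf 322 2352 (.cons 318 (.leaf 317 2346 (.cons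 298 (.leaf 319 2354 (.cons 299 (.leaf 271 2171 (.leaf 300 2179 .nil)) .nil)) .nil)) .nil)) (.cons 270 (.leaf 269 2155 (.cons 318 (.leaf 317 2346 (.cons 321 (.leaf 322 2352 (.cons 345 (.leaf 369 2183 (.cons 344 (.leaf 368 2182 (.cons 346 (.leaf 370 2188 (.cons 343 (.leaf 319 2547 (.cons 367 (.leaf 342 2164 (.leaf 366 2738 .nil)) .nil)) .nil)) .nil)) .nil)) .nil)) .nil)) .nil)) (.cons 269 (.leaf 270 2155 (.cons 318 (.leaf 317 2346 (.cons 298 (.leaf 319 2354 (.cons 299 (.leaf 271 2171 (.leaf 300 2179 .nil)) .nil)) .nil)) .nil)) .nil)))) .nil)) .nil)) (.cons 273 (.leaf 274 2170 (.cons 294 (.leaf 293 2153 (.cons 297 t117 .nil)) .nil)) (.cons 273 (.leaf 274 2170 (.cons 294 (.leaf 293 2153 (.cons 297 (.cons 317 (.leaf 318 2346 (.cons 322 (.leaf 321 2352 (.cons 298 (.leaf 323 2360 (.cons 270 (.leaf 271 2160 (.leaf 269 2155 .nil)) .nil)) .nil)) .nil)) (.cons 317 (.leaf 318 2346 (.cons 322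 (.leaf 321 2352 (.cons 298 (.leaf 323 2360 (.cons 299 (.leaf 271 2171 (.leaf 300 2179 .nil)) .nil)) .nil)) .nil)) (.cons 270 (.leaf 269 2155 (.cons 271 (.leaf 298 2160 (.cons 246 (.leaf 245 1963 (.cons 222 (.leaf 198 1588 (.leaf 319 1780 .nil)) .nil)) .nil)) .nil)) (.cons 269 (.leaf 270 2155 (.cons 317 (.leaf 318 2346 (.cons 321 (.leaf 322 2352 (.cons 345 (.leaf 369 2183 (.cons 344 (.leaf 368 2182 (.cons 320 (.leaf 249 1989 (.cons 346 (.leaf 370 2188 (.cons 347 (.leaf 348 2563 (.leaf 319 2555 .nil)) .nil)) .nil)) .nil)) .nil)) .nil)) .nil)) .nil)) .nil)))) .nil)) .nil)) (.cons 273 (.leaf 274 2170 (.cons 294 (.leaf 293 2153 (.cons 297 (.cons 269 (.leaf 270 2155 (.cons 322 (.leaf 321 2352 (.cons 298 (.leaf 323 2360 (.cons 299 (.leaf 271 2171 (.leaf 300 2179 .nil)) .nil)) .nil)) .nil)) (.cons 317 (.leaf 318 2346 (.cons 322 (.leaf 321 2352 (.cons 298 (.leaf 323 2360 (.cons 299 (.leaf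 271 2171 (.leaf 300 2179 .nil)) .nil)) .nil)) .nil)) (.cons 270 (.leaf 269 2155 (.cons 318 (.leaf 317 2346 (.cons 321 (.leaf 322 2352 (.cons 345 (.leaf 369 2183 (.cons 346 (.leaf 370 2188 (.cons 319 (.leaf 320 2544 (.cons 343 (.leaf 367 2173 (.leaf 246 1972 .nil)) .nil)) .nil)) .nil)) .nil)) .nil)) .nil)) (.cons 269 (.leaf 270 2155 (.cons 318 (.leaf 317 2346 (.cons 298 (.leaf 319 2354 (.cons 299 (.leaf 271 2171 (.leaf 300 2179 .nil)) .nil)) .nil)) .nil)) .nil)))) .nil)) .nil)) (.cons 273 (.leaf 274 2170 (.cons 294 (.leaf 293 2153 (.cons 297 (.cons 322 (.leaf 321 2352 (.cons 298 (.leaf 323 2360 (.cons 299 (.leaf 271 2171 (.leaf 300 2179 .nil)) .nil)) .nil)) (.cons 270 (.leaf 269 2155 (.cons 318 (.leaf 317 2346 (.cons 271 (.cons 247 (.leaf 223 1782 (.leaf 342 1973 .nil)) (.cons 245 (.leaf 246 1963 (.cons 249 (.leaf 250 1969 (.cons 320 (.leaf 344 1989 (.leaf 225 1798 .nil)) .nil)) .nil))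 .nil)) .nil)) .nil)) (.cons 322 (.leaf 321 2352 (.cons 269 (.leaf 270 2155 (.cons 298 (.leaf 323 2360 (.cons 318 (.leaf 317 2346 (.leaf 319 2354 .nil)) .nil)) .nil)) .nil)) .nil))) .nil)) .nil)) .nil)))))))
noncomputable def t122 : T := .cons 298 (.leaf 274 2169 (.cons 271 (.leaf 299 2171 (.leaf 270 2163 .nil)) .nil)) (.cons 294 (.cons 321 (.leaf 322 2352 (.cons 269 (.leaf 270 2155 (.cons 293 (.leaf 268 2147 (.leaf 320 2344 .nil)) .nil)) .nil)) (.cons 321 (.leaf 322 2352 (.cons 293 (.leaf 320 2344 (.cons 317 (.leaf 316 2338 (.leaf 318 2346 .nil)) .nil)) .nil)) (.cons 269 (.leaf 270 2155 (.cons 293 (.leaf 268 2147 (.cons 292 (.leaf 271 2145 (.cons 316 (.leaf 317 2338 (.leaf 315 2330 .nil)) .nil)) .nil)) .nil)) (.cons 270 (.leaf 269 2155 (.cons 318 (.leaf 317 2346 (.cons 321 (.leaf 322 2352 (.cons 345 (.leaf 369 2183 (.cons 319 (.cons 343 (.leaf 367 2173 (.leaf 246 1972 .nil)) (.cons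 222 (.leaf 246 1780 (.cons 320 (.leaf 346 2544 (.cons 342 (.leaf 341 2538 (.cons 271 (.leaf 247 1973 (.leaf 366 2165 .nil)) .nil)) .nil)) .nil)) (.cons 343 (.leaf 367 2173 (.cons 346 (.leaf 320 2544 (.leaf 344 2547 .nil)) .nil)) .nil))) .nil)) .nil)) .nil)) .nil)) .nil)))) (.cons 298 (.leaf 274 2169 (.cons 318 (.leaf 319 2354 (.cons 294 (.leaf 317 2346 (.cons 269 (.leaf 270 2155 (.cons 322 (.leaf 321 2352 (.leaf 323 2360 .nil)) .nil)) .nil)) .nil)) .nil)) (.cons 298 (.leaf 274 2169 (.cons 271 (.leaf 299 2171 (.cons 319 (.leaf 318 2354 (.cons 322 (.leaf 323 2360 (.cons 294 (.leaf 321 2352 (.cons 292 (.leaf 293 2145 (.cons 343 (.leaf 367 2173 (.cons 342 (.leaf 366 2166 (.cons 344 (.leaf 368 2172 (.cons 247 (.leaf 320 1980 (.cons 222 (.leaf 246 1783 (.cons 223 (.leaf 199 1596 (.leaf 198 1591 .nil)) .nil)) .nil)) .nil)) .nil)) .nil)) .nil)) .nil)) .nil)) .nil)) .nil)) .nil)) .nil)))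
noncomputable def t123 : T := .cons 247 (.leaf 271 1983 (.cons 223 (.leaf 248 1791 (.cons 369 (.leaf 345 2180 (.cons 368 (.leaf 393 2372 (.cons 297 (.leaf 273 2181 (.cons 392 (.leaf 321 2373 (.cons 319 (.leaf 295 2367 (.cons 317 (.leaf 318 2345 (.cons 343 (.leaf 367 2174 (.leaf 416 2559 .nil)) .nil)) .nil)) .nil)) .nil)) .nil)) .nil)) .nil)) .nil)) (.cons 345 (.leaf 369 2180 (.cons 247 (.leaf 271 1983 (.cons 248 (.leaf 223 1791 (.leaf 321 1988 .nil)) .nil)) .nil)) (.cons 271 (.leaf 247 1983 (.cons 295 (.leaf 368 2175 (.cons 343 (.leaf 367 2174 (.cons 248 (.leaf 319 1981 (.cons 224 (.leaf 200 1598 (.cons 199 (.leaf 223 1599 (.cons 297 (.leaf 321 1796 (.cons 270 (.leaf 269 2152 (.leaf 298 2163 .nil)) .nil)) .nil)) .nil)) .nil)) .nil)) .nil)) .nil)) (.cons 345 (.leaf 369 2180 (.cons 321 (.leaf 248 1988 (.cons 343 (.leaf 367 2174 (.cons 322 (.leaf 323 2554 (.leaf 342 2545 .nil)) .nil))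 .nil)) .nil)) (.cons 271 (.leaf 247 1983 (.cons 295 (.leaf 368 2175 (.cons 343 (.leaf 367 2174 (.cons 319 (.leaf 248 1981 (.cons 345 (.leaf 369 2180 (.cons 318 (.leaf 317 2536 (.leaf 346 2547 .nil)) .nil)) .nil)) .nil)) .nil)) .nil)) (.cons 271 (.leaf 247 1983 (.cons 343 (.leaf 367 2174 (.cons 368 (.leaf 295 2175 (.cons 369 (.leaf 345 2180 (.leaf 393 2372 .nil)) .nil)) .nil)) .nil)) .nil)))))
noncomputable def t124 : T := .cons 249 (.leaf 273 1989 (.cons 248 (.leaf 225 1797 (.cons 343 (.leaf 319 1982 (.leaf 367 2174 .nil)) .nil)) .nil)) (.cons 271 (.leaf 247 1983 (.cons 249 (.leaf 273 1989 (.cons 225 (.leaf 248 1797 (.cons 368 (.leaf 295 2175 (.cons 391 (.leaf 367 2366 (.cons 392 (.leaf 415 2558 (.cons 393 (.leaf 369 2372 (.leaf 417 2564 .nil)) .nil)) .nil)) .nil)) .nil)) .nil)) .nil)) (.cons 271 (.leaf 247 1983 (.cons 249 (.leaf 273 1989 (.cons 248 (.leaf 225 1797 (.cons 250 (.leaf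 251 1978 (.cons 269 (.leaf 270 1961 (.cons 295 (.leaf 368 2175 (.cons 319 (.leaf 224 1790 (.leaf 343 1981 .nil)) .nil)) .nil)) .nil)) .nil)) .nil)) .nil)) (.cons 271 (.leaf 247 1983 (.cons 295 (.leaf 368 2175 (.cons 343 (.leaf 367 2174 (.cons 248 (.leaf 319 1981 (.cons 224 (.leaf 200 1598 (.cons 199 (.leaf 223 1599 (.cons 225 (.leaf 249 1797 (.cons 297 (.leaf 321 1796 (.cons 270 (.leaf 269 2152 (.leaf 298 2163 .nil)) .nil)) .nil)) .nil)) .nil)) .nil)) .nil)) .nil)) .nil)) (.cons 271 (.leaf 247 1983 (.cons 295 (.leaf 368 2175 (.cons 343 (.leaf 367 2174 (.cons 248 (.leaf 319 1981 (.cons 224 (.leaf 200 1598 (.cons 199 (.leaf 223 1599 (.cons 297 (.leaf 321 1796 (.cons 270 (.leaf 269 2152 (.leaf 298 2163 .nil)) .nil)) .nil)) .nil)) .nil)) .nil)) .nil)) .nil)) (.cons 271 (.leaf 247 1983 (.cons 249 (.leaf 273 1989 (.cons 343 (.leaf 367 2174 (.cons 368 (.leaf 295 2175 (.cons 393 (.leaf 369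 2372 (.cons 392 (.leaf 417 2564 (.cons 297 (.leaf 321 2373 (.cons 269 (.leaf 270 2152 (.cons 298 (.leaf 299 2171 (.cons 415 (.leaf 391 2558 (.cons 416 (.leaf 319 2559 (.leaf 439 2750 .nil)) .nil)) .nil)) .nil)) .nil)) .nil)) .nil)) .nil)) .nil)) .nil)) .nil)) .nil)))))
noncomputable def t125 : T := .cons 343 (.leaf 367 2174 (.cons 345 (.leaf 369 2180 (.cons 342 (.cons 318 (.leaf 317 2539 (.cons 247 (.leaf 271 1983 (.cons 319 (.leaf 346 2547 (.cons 341 (.leaf 321 2537 (.leaf 340 2529 .nil)) .nil)) .nil)) .nil)) (.cons 318 (.leaf 317 2539 (.cons 247 (.leaf 271 1983 (.cons 319 (.leaf 346 2547 (.cons 341 (.leaf 340 2529 (.cons 365 (.leaf 364 2722 (.leaf 366 2730 .nil)) .nil)) .nil)) .nil)) .nil)) (.cons 321 (.leaf 341 2537 (.leaf 322 2545 .nil)) (.cons 321 (.leaf 322 2545 (.cons 247 (.leaf 271 1983 (.cons 249 (.leaf 273 1989 (.cons 318 (.leaf 317 2539 (.cons 319 (.leaf 346 2544 (.cons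 293 (.leaf 294 2347 (.cons 297 (.leaf 298 2353 (.cons 366 (.leaf 365 2730 (.cons 390 (.leaf 414 2549 (.leaf 295 2357 .nil)) .nil)) .nil)) .nil)) .nil)) .nil)) .nil)) .nil)) .nil)) .nil)))) .nil)) .nil)) (.cons 343 (.leaf 367 2174 (.cons 345 (.leaf 369 2180 (.cons 342 (.cons 321 (.leaf 341 2537 (.leaf 322 2545 .nil)) (.cons 318 (.leaf 317 2539 (.cons 249 (.leaf 273 1989 (.cons 319 (.leaf 346 2547 (.cons 341 (.leaf 340 2529 (.cons 365 (.leaf 364 2722 (.leaf 366 2730 .nil)) .nil)) .nil)) .nil)) .nil)) (.cons 321 (.leaf 322 2545 (.cons 249 (.leaf 273 1989 (.cons 318 (.leaf 317 2539 (.cons 319 (.leaf 346 2544 (.cons 293 (.leaf 294 2347 (.cons 297 (.leaf 298 2353 (.cons 366 (.leaf 365 2730 (.cons 390 (.leaf 414 2549 (.leaf 295 2357 .nil)) .nil)) .nil)) .nil)) .nil)) .nil)) .nil)) .nil)) .nil))) .nil)) .nil)) (.cons 271 (.leaf 247 1983 (.cons 368 (.leaf 295 2175 (.cons 369 (.leaf 345 2180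 (.leaf 393 2372 .nil)) .nil)) .nil)) (.cons 271 (.leaf 247 1983 (.cons 367 (.leaf 343 2174 (.cons 368 (.leaf 295 2175 (.leaf 391 2366 .nil)) .nil)) .nil)) (.cons 343 (.leaf 367 2174 (.cons 345 (.leaf 369 2180 (.cons 342 (.cons 318 (.leaf 317 2539 (.cons 247 (.leaf 271 1983 (.cons 319 (.leaf 346 2547 (.cons 341 (.leaf 321 2537 (.leaf 340 2529 .nil)) .nil)) .nil)) .nil)) (.cons 318 (.leaf 317 2539 (.cons 247 (.leaf 271 1983 (.cons 319 (.leaf 346 2547 (.cons 341 (.leaf 340 2529 (.cons 365 (.leaf 364 2722 (.leaf 366 2730 .nil)) .nil)) .nil)) .nil)) .nil)) (.cons 321 (.leaf 322 2545 (.cons 247 (.leaf 271 1983 (.cons 249 (.leaf 273 1989 (.cons 318 (.leaf 317 2539 (.cons 346 (.leaf 319 2544 (.cons 347 (.leaf 348 2563 (.cons 371 (.leaf 370 2744 (.leaf 372 2752 .nil)) .nil)) .nil)) .nil)) .nil)) .nil)) .nil)) (.cons 321 (.leaf 341 2537 (.leaf 322 2545 .nil)) .nil)))) .nil)) .nil)) .nil))))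
noncomputable def t126 : T := .cons 344 (.cons 247 (.leaf 271 1983 (.cons 223 (.leaf 248 1791 (.cons 273 (.leaf 249 1989 (.cons 367 (.leaf 343 2174 (.cons 368 (.leaf 297 2181 (.leaf 391 2366 .nil)) .nil)) .nil)) .nil)) .nil)) (.cons 271 (.leaf 247 1983 (.cons 368 (.leaf 295 2175 (.cons 369 (.leaf 345 2180 (.leaf 393 2372 .nil)) .nil)) .nil)) (.cons 345 (.leaf 369 2180 (.cons 248 (.leaf 321 1988 (.cons 249 (.leaf 225 1797 (.leaf 273 1989 .nil)) .nil)) .nil)) .nil))) (.cons 248 (.cons 321 (.leaf 345 1988 (.cons 223 (.leaf 247 1791 (.cons 224 (.leaf 199 1599 (.leaf 297 1796 .nil)) .nil)) .nil)) (.cons 319 (.leaf 343 1982 (.cons 223 (.leaf 247 1791 (.cons 224 (.leaf 199 1599 (.leaf 295 1790 .nil)) .nil)) .nil)) (.cons 319 (.leaf 343 1982 (.cons 321 (.leaf 345 1988 (.cons 297 (.leaf 224 1796 (.cons 298 (.leaf 299 2362 (.leaf 318 2353 .nil)) .nil)) .nil)) .nil)) (.cons 319 (.leaf 343 1982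 (.cons 321 (.leaf 345 1988 (.cons 249 (.leaf 225 1797 (.cons 247 (.leaf 223 1791 (.cons 322 (.cons 295 (.leaf 323 2363 (.leaf 294 2355 .nil)) (.cons 299 (.leaf 298 2361 (.cons 323 (.leaf 300 2369 (.cons 346 (.leaf 251 2006 (.leaf 347 2552 .nil)) .nil)) .nil)) (.cons 294 (.leaf 295 2355 (.cons 318 (.leaf 293 2347 (.cons 297 (.leaf 317 2345 (.leaf 298 2353 .nil)) .nil)) .nil)) .nil))) .nil)) .nil)) .nil)) .nil)) .nil)))) (.cons 344 t125 (.cons 344 (.cons 271 (.leaf 247 1983 (.cons 367 (.leaf 343 2174 (.cons 368 (.leaf 295 2175 (.leaf 391 2366 .nil)) .nil)) .nil)) (.cons 249 (.leaf 273 1989 (.cons 248 (.leaf 225 1797 (.cons 343 (.leaf 319 1982 (.leaf 367 2174 .nil)) .nil)) .nil)) (.cons 271 (.leaf 247 1983 (.cons 368 (.leaf 295 2175 (.cons 369 (.leaf 345 2180 (.leaf 393 2372 .nil)) .nil)) .nil)) .nil))) (.cons 344 (.cons 247 (.leaf 271 1983 (.cons 248 (.leaf 223 1791 (.cons 345 (.leaf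 321 1988 (.leaf 369 2180 .nil)) .nil)) .nil)) (.cons 249 (.leaf 273 1989 (.cons 248 (.leaf 225 1797 (.cons 345 (.leaf 321 1988 (.leaf 369 2180 .nil)) .nil)) .nil)) (.cons 247 (.leaf 271 1983 (.cons 248 (.leaf 223 1791 (.cons 249 (.leaf 225 1797 (.leaf 273 1989 .nil)) .nil)) .nil)) (.cons 271 (.leaf 247 1983 (.cons 368 (.leaf 295 2175 (.cons 369 (.leaf 345 2180 (.leaf 393 2372 .nil)) .nil)) .nil)) .nil)))) (.cons 344 t124 (.cons 344 (.cons 249 (.leaf 273 1989 (.cons 248 (.leaf 225 1797 (.cons 345 (.leaf 321 1988 (.leaf 369 2180 .nil)) .nil)) .nil)) (.cons 343 (.leaf 367 2174 (.cons 248 (.leaf 319 1982 (.cons 249 (.leaf 225 1797 (.leaf 273 1989 .nil)) .nil)) .nil)) (.cons 343 (.leaf 367 2174 (.cons 345 (.leaf 369 2180 (.cons 342 (.cons 321 (.leaf 248 1988 (.leaf 341 2537 .nil)) (.cons 319 (.leaf 248 1982 (.cons 318 (.leaf 317 2536 (.leaf 346 2547 .nil)) .nil)) (.cons 321 (.leaf 341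 2537 (.leaf 322 2545 .nil)) .nil))) .nil)) .nil)) (.cons 249 (.leaf 273 1989 (.cons 367 (.leaf 343 2174 (.cons 368 (.leaf 391 2366 (.cons 369 (.leaf 345 2180 (.leaf 393 2372 .nil)) .nil)) .nil)) .nil)) .nil)))) (.cons 344 t123 .nil)))))))
noncomputable def t127 : T := .cons 322 (.leaf 346 2005 (.cons 227 (.leaf 203 1622 (.leaf 299 1814 .nil)) .nil)) (.cons 322 (.leaf 346 2005 (.cons 250 (.cons 249 (.leaf 225 1807 (.cons 248 (.leaf 247 1976 (.leaf 271 1978 .nil)) .nil)) (.cons 323 (.leaf 347 2004 (.cons 299 (.leaf 226 1812 (.cons 324 (.leaf 348 2012 (.cons 228 (.leaf 252 1821 (.cons 321 (.leaf 345 1998 (.cons 301 (.leaf 300 2377 (.cons 325 (.leaf 326 2387 (.leaf 302 2385 .nil)) .nil)) .nil)) .nil)) .nil)) .nil)) .nil)) .nil)) .nil)) (.cons 227 (.leaf 203 1622 (.cons 299 (.cons 202 (.leaf 226 1623 (.cons 204 (.leaf 228 1629 (.cons 324 (.leaf 300 1820 (.cons 323 (.leaf 348 2012 (.cons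 347 (.leaf 250 2007 (.leaf 371 2199 .nil)) .nil)) .nil)) .nil)) .nil)) (.cons 228 (.leaf 204 1629 (.cons 252 (.leaf 323 1821 (.cons 253 (.leaf 254 2002 (.cons 300 (.leaf 324 1820 (.cons 301 (.leaf 302 2195 (.cons 277 (.leaf 278 2193 (.leaf 325 1831 .nil)) .nil)) .nil)) .nil)) .nil)) .nil)) (.cons 300 (.leaf 324 1820 (.cons 228 (.leaf 204 1629 (.cons 301 (.leaf 302 2195 (.cons 277 (.leaf 278 2193 (.cons 325 (.leaf 326 2384 (.cons 253 (.leaf 252 1831 (.cons 226 (.leaf 202 1623 (.cons 254 (.leaf 229 1808 (.leaf 230 1837 .nil)) .nil)) .nil)) .nil)) .nil)) .nil)) .nil)) .nil)) (.cons 226 (.leaf 202 1623 (.cons 323 (.leaf 250 1812 (.cons 324 (.leaf 300 1820 (.leaf 348 2012 .nil)) .nil)) .nil)) (.cons 226 (.leaf 202 1623 (.cons 250 (.leaf 323 1812 (.cons 228 (.leaf 204 1629 (.cons 229 (.leaf 230 1810 (.leaf 249 1802 .nil)) .nil)) .nil)) .nil)) .nil))))) .nil)) (.cons 322 (.leaf 346 2005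 (.cons 227 (.leaf 203 1622 (.leaf 250 1813 .nil)) .nil)) .nil)))
noncomputable def t128 : T := .cons 245 (.leaf 247 1960 (.cons 270 (.leaf 271 1963 (.cons 221 (.leaf 318 1775 (.cons 197 (.leaf 222 1583 (.leaf 269 1580 .nil)) .nil)) .nil)) .nil)) (.cons 270 (.cons 245 (.leaf 271 1963 (.cons 221 (.leaf 318 1775 (.cons 197 (.leaf 222 1583 (.leaf 269 1580 .nil)) .nil)) .nil)) (.cons 222 (.leaf 319 1780 (.cons 197 (.leaf 221 1583 (.cons 198 (.leaf 173 1391 (.cons 199 (.leaf 223 1589 (.leaf 175 1397 .nil)) .nil)) .nil)) .nil)) (.cons 245 (.leaf 271 1963 (.cons 221 (.leaf 318 1775 (.cons 197 (.leaf 269 1580 (.leaf 173 1388 .nil)) .nil)) .nil)) (.cons 271 (.leaf 245 1963 (.cons 269 (.leaf 249 1961 (.leaf 268 2144 .nil)) .nil)) .nil)))) (.cons 319 (.cons 343 (.leaf 271 1981 (.leaf 367 2173 .nil)) (.cons 222 (.leaf 270 1780 (.cons 247 (.leaf 271 1783 (.cons 221 (.leaf 249 1771 (.cons 220 (.leaf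 223 1760 (.leaf 219 1752 .nil)) .nil)) .nil)) .nil)) (.cons 270 (.leaf 222 1780 (.cons 343 (.leaf 367 2173 (.leaf 318 1972 .nil)) .nil)) .nil))) (.cons 247 (.leaf 245 1960 (.cons 271 (.cons 319 (.leaf 343 1981 (.leaf 222 1783 .nil)) (.cons 223 (.leaf 199 1596 (.leaf 318 1782 .nil)) .nil)) .nil)) (.cons 247 (.leaf 245 1960 (.cons 249 (.cons 221 (.leaf 222 1771 (.cons 225 (.leaf 226 1777 (.cons 270 (.leaf 269 1962 (.cons 318 (.leaf 223 1781 (.cons 317 (.leaf 341 1966 (.cons 316 (.leaf 319 2337 (.leaf 315 2329 .nil)) .nil)) .nil)) .nil)) .nil)) .nil)) (.cons 222 (.leaf 221 1771 (.cons 226 (.leaf 225 1777 (.cons 250 (.leaf 223 1779 (.leaf 227 1785 .nil)) .nil)) .nil)) (.cons 270 (.leaf 269 1962 (.cons 225 (.leaf 226 1777 (.cons 318 (.leaf 223 1781 (.cons 317 (.leaf 341 1966 (.cons 316 (.leaf 319 2337 (.leaf 315 2329 .nil)) .nil)) .nil)) .nil)) .nil)) (.cons 222 (.leaf 221 1771 (.cons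 270 (.leaf 319 1780 (.leaf 269 1962 .nil)) .nil)) .nil)))) .nil)) (.cons 245 (.leaf 247 1960 (.cons 270 (.leaf 271 1963 (.cons 221 (.leaf 318 1775 (.cons 197 (.leaf 269 1580 (.leaf 173 1388 .nil)) .nil)) .nil)) .nil)) (.cons 245 (.leaf 247 1960 (.cons 270 (.leaf 271 1963 (.cons 222 (.leaf 319 1780 (.cons 197 (.leaf 221 1583 (.cons 198 (.leaf 173 1391 (.cons 199 (.leaf 223 1589 (.leaf 175 1397 .nil)) .nil)) .nil)) .nil)) .nil)) .nil)) .nil))))))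
noncomputable def t129 : T := .cons 224 (.leaf 200 1598 (.cons 223 (.leaf 199 1599 (.cons 318 (.leaf 247 1782 (.cons 342 (.leaf 366 2165 (.cons 270 (.cons 269 (.leaf 249 1961 (.leaf 268 2144 .nil)) (.cons 246 (.leaf 245 1963 (.cons 341 (.leaf 317 1966 (.leaf 365 2158 .nil)) .nil)) .nil)) .nil)) .nil)) .nil)) .nil)) (.cons 270 (.cons 245 (.leaf 246 1963 (.cons 269 (.leaf 244 1955 (.leaf 249 1961 .nil)) .nil)) (.cons 246 (.leaf 245 1963 (.cons 222 (.leaf 198 1588 (.cons 197 (.leaf 221 1583 (.cons 223 (.leaf 199 1589 (.cons 318 (.leaf 247 1781 (.cons 249 (.leaf 250 1969 (.cons 341 (.leaf 317 1966 (.cons 342 (.leaf 366 2165 (.leaf 365 2158 .nil)) .nil)) .nil)) .nil)) .nil)) .nil)) .nil)) .nil)) (.cons 245 (.leaf 246 1963 (.cons 269 (.leaf 244 1955 (.leaf 268 2144 .nil)) .nil)) (.cons 249 (.leaf 269 1961 (.leaf 250 1969 .nil)) .nil)))) (.cons 224 (.leaf 200 1598 (.cons 223 (.leaf 199 1599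 (.cons 247 (.leaf 318 1782 (.cons 222 (.leaf 198 1591 (.cons 221 (.leaf 220 1760 (.leaf 249 1768 .nil)) .nil)) .nil)) .nil)) .nil)) (.cons 224 (.leaf 200 1598 (.cons 223 (.leaf 199 1599 (.cons 249 (.cons 250 (.leaf 251 1978 (.leaf 270 1969 .nil)) (.cons 222 (.leaf 221 1768 (.cons 270 (.leaf 269 1961 (.cons 246 (.leaf 245 1963 (.leaf 198 1588 .nil)) .nil)) .nil)) (.cons 250 (.leaf 251 1978 (.cons 222 (.leaf 221 1768 (.leaf 225 1776 .nil)) .nil)) .nil))) .nil)) .nil)) (.cons 224 (.leaf 200 1598 (.cons 270 (.cons 249 (.leaf 269 1961 (.leaf 250 1969 .nil)) (.cons 246 (.leaf 245 1963 (.cons 222 (.leaf 198 1588 (.cons 221 (.leaf 197 1583 (.cons 249 (.leaf 250 1969 (.leaf 247 1771 .nil)) .nil)) .nil)) .nil)) (.cons 245 (.leaf 246 1963 (.cons 269 (.leaf 244 1955 (.leaf 268 2144 .nil)) .nil)) .nil))) .nil)) (.cons 224 (.leaf 200 1598 (.cons 223 (.leaf 199 1599 (.cons 247 (.leaf 318 1782 (.cons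 222 (.leaf 198 1591 (.cons 221 (.leaf 220 1760 (.cons 245 (.leaf 246 1960 (.leaf 244 1762 .nil)) .nil)) .nil)) .nil)) .nil)) .nil)) .nil)))))
noncomputable def t130 : T := .cons 271 (.cons 270 (.cons 245 (.leaf 246 1963 (.cons 269 (.leaf 244 1955 (.leaf 249 1961 .nil)) .nil)) (.cons 246 (.leaf 245 1963 (.cons 222 (.leaf 198 1588 (.leaf 319 1780 .nil)) .nil)) (.cons 249 (.leaf 269 1961 (.leaf 250 1969 .nil)) .nil))) (.cons 270 (.cons 245 (.leaf 246 1963 (.cons 269 (.leaf 244 1955 (.leaf 249 1961 .nil)) .nil)) (.cons 246 (.leaf 245 1963 (.cons 222 (.leaf 198 1588 (.cons 197 (.leaf 221 1583 (.cons 223 (.leaf 199 1589 (.cons 318 (.leaf 247 1781 (.cons 249 (.leaf 250 1969 (.cons 341 (.leaf 317 1966 (.cons 342 (.leaf 366 2165 (.leaf 365 2158 .nil)) .nil)) .nil)) .nil)) .nil)) .nil)) .nil)) .nil)) (.cons 245 (.leaf 246 1963 (.cons 269 (.leaf 244 1955 (.leaf 268 2144 .nil)) .nil)) (.cons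 249 (.leaf 269 1961 (.leaf 250 1969 .nil)) .nil)))) (.cons 319 (.leaf 224 1790 (.leaf 343 1981 .nil)) .nil))) (.cons 271 t129 (.cons 246 t128 (.cons 224 (.leaf 319 1790 (.cons 200 (.cons 199 (.leaf 175 1407 (.leaf 223 1599 .nil)) (.cons 176 (.leaf 249 1412 (.cons 151 (.leaf 175 1215 (.cons 152 (.leaf 127 1023 (.cons 153 (.leaf 177 1221 (.leaf 129 1029 .nil)) .nil)) .nil)) .nil)) (.cons 176 (.leaf 249 1412 (.cons 153 (.leaf 177 1221 (.cons 152 (.leaf 129 1029 (.cons 223 (.leaf 199 1599 (.leaf 247 1214 .nil)) .nil)) .nil)) .nil)) .nil))) .nil)) (.cons 319 (.leaf 224 1790 (.cons 343 (.leaf 271 1981 (.leaf 367 2173 .nil)) .nil)) .nil))))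
noncomputable def t131 : T := .cons 293 (.leaf 273 2153 (.cons 269 (.leaf 268 2147 (.cons 292 (.leaf 271 2145 (.cons 316 (.leaf 317 2338 (.leaf 315 2330 .nil)) .nil)) .nil)) .nil)) (.cons 297 (.cons 269 (.leaf 270 2155 (.cons 321 (.leaf 322 2352 (.cons 248 (.leaf 224 1796 (.cons 345 (.leaf 273 1991 (.leaf 369 2183 .nil)) .nil)) .nil)) .nil)) (.cons 317 (.leaf 318 2346 (.cons 321 (.leaf 322 2352 (.cons 248 (.leaf 224 1796 (.cons 345 (.leaf 273 1991 (.leaf 369 2183 .nil)) .nil)) .nil)) .nil)) (.cons 269 (.leaf 270 2155 (.cons 318 (.leaf 317 2346 (.cons 298 (.leaf 319 2354 (.cons 299 (.leaf 271 2171 (.cons 323 (.leaf 322 2360 (.leaf 324 2368 .nil)) .nil)) .nil)) .nil)) .nil)) (.cons 269 (.leaf 270 2155 (.cons 318 (.leaf 317 2346 (.cons 298 (.leaf 319 2354 (.cons 299 (.leaf 271 2171 (.cons 300 (.leaf 273 2179 (.cons 324 (.leaf 323 2368 (.leaf 325 2376 .nil)) .nil)) .nil)) .nil)) .nil))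 .nil)) .nil)))) (.cons 293 (.cons 269 (.leaf 268 2147 (.cons 292 (.leaf 271 2145 (.cons 316 (.leaf 317 2338 (.leaf 315 2330 .nil)) .nil)) .nil)) (.cons 269 (.leaf 268 2147 (.cons 297 (.leaf 270 2155 (.cons 317 (.leaf 316 2338 (.leaf 318 2346 .nil)) .nil)) .nil)) (.cons 271 (.leaf 292 2145 (.cons 317 (.leaf 316 2338 (.cons 297 (.leaf 318 2346 (.cons 298 (.leaf 299 2171 (.leaf 270 2163 .nil)) .nil)) .nil)) .nil)) (.cons 268 (.leaf 269 2147 (.cons 292 (.leaf 271 2145 (.leaf 267 2139 .nil)) .nil)) .nil)))) (.cons 293 (.leaf 273 2153 (.cons 269 (.leaf 268 2147 (.cons 297 (.leaf 270 2155 (.cons 317 (.leaf 316 2338 (.leaf 318 2346 .nil)) .nil)) .nil)) .nil)) (.cons 293 (.leaf 273 2153 (.cons 271 (.leaf 292 2145 (.cons 317 (.leaf 316 2338 (.cons 297 (.leaf 318 2346 (.cons 298 (.leaf 299 2171 (.leaf 270 2163 .nil)) .nil)) .nil)) .nil)) .nil)) (.cons 293 (.leaf 273 2153 (.cons 268 (.leaf 269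 2147 (.cons 292 (.leaf 271 2145 (.leaf 267 2139 .nil)) .nil)) .nil)) .nil)))))
noncomputable def t132 : T := .cons 269 (.leaf 270 2155 (.cons 293 (.leaf 268 2147 (.cons 292 (.leaf 271 2145 (.cons 316 (.leaf 317 2338 (.leaf 315 2330 .nil)) .nil)) .nil)) .nil)) (.cons 321 (.leaf 322 2352 (.cons 248 (.leaf 224 1796 (.cons 318 (.leaf 317 2346 (.cons 369 (.leaf 345 2183 (.cons 271 (.cons 247 (.leaf 223 1782 (.cons 342 (.leaf 319 1974 (.leaf 366 2165 .nil)) .nil)) (.cons 342 (.leaf 366 2165 (.cons 343 (.leaf 319 1981 (.cons 367 (.leaf 270 2164 (.cons 292 (.leaf 293 2145 (.cons 368 (.leaf 370 2739 (.cons 341 (.leaf 344 2728 (.leaf 340 2720 .nil)) .nil)) .nil)) .nil)) .nil)) .nil)) (.cons 247 (.leaf 223 1782 (.cons 342 (.leaf 366 2165 (.leaf 270 1973 .nil)) .nil)) (.cons 247 (.leaf 223 1782 (.cons 319 (.leaf 343 1981 (.cons 246 (.leaf 222 1783 (.cons 245 (.leaf 244 1952 (.cons 221 (.leaf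 270 1775 (.leaf 220 1763 .nil)) .nil)) .nil)) .nil)) .nil)) .nil)))) .nil)) .nil)) .nil)) .nil)) (.cons 321 (.leaf 322 2352 (.cons 224 (.leaf 248 1796 (.cons 317 (.leaf 318 2346 (.cons 293 (.leaf 316 2338 (.cons 268 (.leaf 269 2147 (.cons 292 (.leaf 271 2145 (.leaf 267 2139 .nil)) .nil)) .nil)) .nil)) .nil)) .nil)) (.cons 269 (.leaf 270 2155 (.cons 321 (.leaf 322 2352 (.cons 293 (.leaf 268 2147 (.cons 248 (.leaf 224 1796 (.cons 271 (.leaf 292 2145 (.cons 319 (.leaf 343 1981 (.cons 345 (.leaf 369 2183 (.cons 247 (.cons 223 (.leaf 199 1596 (.leaf 318 1782 .nil)) (.cons 222 (.leaf 246 1783 (.cons 223 (.leaf 199 1596 (.leaf 198 1591 .nil)) .nil)) (.cons 246 (.leaf 222 1783 (.cons 318 (.leaf 342 1974 (.cons 245 (.leaf 244 1952 (.leaf 221 1772 .nil)) .nil)) .nil)) .nil))) .nil)) .nil)) .nil)) .nil)) .nil)) .nil)) .nil)) (.cons 321 (.leaf 322 2352 (.cons 224 (.leaf 248 1796 (.cons 269 (.leaf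 270 2155 (.cons 293 (.leaf 268 2147 (.cons 317 (.leaf 316 2338 (.leaf 318 2346 .nil)) .nil)) .nil)) .nil)) .nil)) (.cons 321 (.leaf 322 2352 (.cons 270 (.leaf 269 2155 (.cons 318 (.leaf 317 2346 (.cons 248 (.leaf 224 1796 (.cons 345 (.leaf 369 2183 (.cons 319 (.cons 343 (.leaf 271 1981 (.leaf 367 2173 .nil)) (.cons 246 (.leaf 222 1780 (.cons 247 (.leaf 223 1781 (.cons 271 (.leaf 342 1973 (.cons 245 (.leaf 244 1952 (.leaf 221 1775 .nil)) .nil)) .nil)) .nil)) (.cons 343 (.leaf 367 2173 (.leaf 246 1972 .nil)) .nil))) .nil)) .nil)) .nil)) .nil)) .nil)) .nil)))))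
noncomputable def t133 : T := .cons 224 (.leaf 200 1598 (.cons 270 (.cons 249 (.leaf 269 1961 (.leaf 250 1969 .nil)) (.cons 246 (.leaf 245 1963 (.cons 222 (.leaf 198 1588 (.cons 221 (.leaf 197 1583 (.cons 249 (.leaf 250 1969 (.leaf 223 1768 .nil)) .nil)) .nil)) .nil)) (.cons 245 (.leaf 246 1963 (.cons 269 (.leaf 244 1955 (.leaf 297 2152 .nil)) .nil)) .nil))) .nil)) (.cons 224 (.leaf 200 1598 (.cons 270 (.cons 249 (.leaf 269 1961 (.leaf 250 1969 .nil)) (.cons 246 (.leaf 245 1963 (.cons 222 (.leaf 198 1588 (.cons 221 (.leaf 197 1583 (.cons 249 (.leaf 250 1969 (.leaf 223 1768 .nil)) .nil)) .nil)) .nil)) (.cons 245 (.leaf 246 1963 (.cons 269 (.leaf 244 1955 (.leaf 268 2144 .nil)) .nil)) .nil))) .nil)) (.cons 224 (.leaf 200 1598 (.cons 223 (.leaf 199 1599 (.cons 247 (.leaf 318 1782 (.cons 222 (.leaf 198 1591 (.cons 221 (.leaf 220 1760 (.leaf 249 1768 .nil)) .nil)) .nil)) .nil)) .nil))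 (.cons 270 (.cons 245 (.leaf 246 1963 (.cons 269 (.leaf 244 1955 (.leaf 249 1961 .nil)) .nil)) (.cons 246 (.leaf 245 1963 (.cons 222 (.leaf 198 1588 (.cons 197 (.leaf 221 1583 (.cons 223 (.leaf 199 1589 (.cons 318 (.leaf 247 1781 (.cons 249 (.leaf 250 1969 (.cons 341 (.leaf 317 1966 (.cons 342 (.leaf 366 2165 (.leaf 365 2158 .nil)) .nil)) .nil)) .nil)) .nil)) .nil)) .nil)) .nil)) (.cons 245 (.leaf 246 1963 (.cons 269 (.leaf 244 1955 (.leaf 297 2152 .nil)) .nil)) (.cons 249 (.leaf 269 1961 (.leaf 250 1969 .nil)) .nil)))) (.cons 224 (.leaf 200 1598 (.cons 199 (.leaf 223 1599 (.cons 297 (.leaf 321 1796 (.cons 270 (.leaf 269 2152 (.leaf 298 2160 .nil)) .nil)) .nil)) .nil)) (.cons 224 (.leaf 200 1598 (.cons 297 (.leaf 321 1796 (.cons 270 (.leaf 269 2152 (.leaf 298 2160 .nil)) .nil)) .nil)) .nil)))))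
noncomputable def t134 : T := .cons 245 (.leaf 247 1960 (.cons 270 (.leaf 271 1963 (.cons 221 (.leaf 318 1775 (.cons 197 (.leaf 222 1583 (.leaf 269 1580 .nil)) .nil)) .nil)) .nil)) (.cons 247 (.leaf 245 1960 (.cons 271 (.cons 319 (.leaf 343 1981 (.leaf 222 1783 .nil)) (.cons 223 (.leaf 199 1596 (.leaf 318 1782 .nil)) .nil)) .nil)) (.cons 270 (.cons 245 (.leaf 271 1963 (.cons 221 (.leaf 318 1775 (.cons 197 (.leaf 222 1583 (.leaf 269 1580 .nil)) .nil)) .nil)) (.cons 222 (.leaf 319 1780 (.cons 197 (.leaf 221 1583 (.cons 173 (.leaf 198 1391 (.cons 199 (.leaf 223 1589 (.cons 297 (.leaf 269 2155 (.cons 321 (.leaf 345 1991 (.leaf 322 2352 .nil)) .nil)) .nil)) .nil)) .nil)) .nil)) (.cons 245 (.leaf 271 1963 (.cons 221 (.leaf 318 1775 (.cons 197 (.leaf 222 1583 (.leaf 173 1388 .nil)) .nil)) .nil)) (.cons 245 (.leaf 271 1963 (.cons 221 (.leaf 318 1775 (.cons 197 (.leaf 269 1580 (.leaf 173 1388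 .nil)) .nil)) .nil)) (.cons 271 (.leaf 245 1963 (.cons 269 (.leaf 249 1961 (.leaf 297 2152 .nil)) .nil)) .nil))))) (.cons 297 (.cons 321 (.leaf 345 1991 (.leaf 322 2352 .nil)) (.cons 269 (.leaf 270 2155 (.cons 318 (.leaf 317 2346 (.cons 298 (.leaf 319 2354 (.cons 299 (.leaf 271 2171 (.leaf 300 2179 .nil)) .nil)) .nil)) .nil)) .nil)) (.cons 247 (.leaf 245 1960 (.cons 297 (.cons 321 (.leaf 345 1991 (.leaf 322 2352 .nil)) (.cons 270 (.leaf 269 2155 (.cons 318 (.leaf 317 2346 (.leaf 223 1781 .nil)) .nil)) .nil)) .nil)) (.cons 245 (.leaf 247 1960 (.cons 270 (.leaf 271 1963 (.cons 222 (.leaf 319 1780 (.cons 197 (.leaf 221 1583 (.cons 173 (.leaf 198 1391 (.cons 223 (.leaf 199 1589 (.cons 297 (.leaf 269 2155 (.cons 321 (.leaf 345 1991 (.leaf 322 2352 .nil)) .nil)) .nil)) .nil)) .nil)) .nil)) .nil)) .nil)) .nil)))))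
noncomputable def t135 : T := .cons 271 (.cons 224 (.leaf 200 1598 (.leaf 319 1790 .nil)) (.cons 270 (.cons 245 (.leaf 246 1963 (.cons 269 (.leaf 244 1955 (.leaf 249 1961 .nil)) .nil)) (.cons 246 (.leaf 245 1963 (.cons 222 (.leaf 198 1588 (.leaf 319 1780 .nil)) .nil)) (.cons 249 (.leaf 269 1961 (.leaf 250 1969 .nil)) .nil))) (.cons 224 (.leaf 200 1598 (.cons 270 (.cons 249 (.leaf 269 1961 (.leaf 250 1969 .nil)) (.cons 246 (.leaf 245 1963 (.cons 222 (.leaf 198 1588 (.cons 221 (.leaf 197 1583 (.cons 249 (.leaf 250 1969 (.leaf 223 1768 .nil)) .nil)) .nil)) .nil)) (.cons 245 (.leaf 246 1963 (.cons 269 (.leaf 244 1955 (.leaf 297 2152 .nil)) .nil)) .nil))) .nil)) .nil))) (.cons 246 t134 (.cons 271 (.cons 224 (.leaf 200 1598 (.leaf 319 1790 .nil)) (.cons 224 (.leaf 200 1598 (.cons 270 (.cons 249 (.leaf 269 1961 (.leaf 250 1969 .nil)) (.cons 246 (.leaf 245 1963 (.cons 222 (.leaf 198 1588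 (.cons 221 (.leaf 197 1583 (.cons 249 (.leaf 250 1969 (.leaf 223 1768 .nil)) .nil)) .nil)) .nil)) (.cons 245 (.leaf 246 1963 (.cons 269 (.leaf 244 1955 (.leaf 268 2144 .nil)) .nil)) .nil))) .nil)) (.cons 270 (.cons 245 (.leaf 246 1963 (.cons 269 (.leaf 244 1955 (.leaf 249 1961 .nil)) .nil)) (.cons 246 (.leaf 245 1963 (.cons 222 (.leaf 198 1588 (.leaf 319 1780 .nil)) .nil)) (.cons 249 (.leaf 269 1961 (.leaf 250 1969 .nil)) .nil))) .nil))) (.cons 271 t133 (.cons 224 (.leaf 319 1790 (.cons 297 (.leaf 200 1604 (.leaf 321 1796 .nil)) .nil)) .nil))))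
noncomputable def t136 : T := .cons 273 (.leaf 274 2170 (.cons 294 (.leaf 293 2153 (.cons 248 t135 .nil)) .nil)) (.cons 297 (.cons 298 (.leaf 274 2169 (.cons 318 (.leaf 319 2354 (.cons 271 (.leaf 299 2171 (.leaf 270 2163 .nil)) .nil)) .nil)) (.cons 294 t132 (.cons 298 (.leaf 274 2169 (.cons 318 (.leaf 319 2354 (.cons 294 (.leaf 317 2346 (.cons 322 (.leaf 321 2352 (.leaf 323 2360 .nil)) .nil)) .nil)) .nil)) (.cons 298 (.leaf 274 2169 (.cons 271 (.leaf 299 2171 (.leaf 270 2163 .nil)) .nil)) .nil)))) (.cons 294 t131 (.cons 273 (.leaf 274 2170 (.cons 294 (.leaf 293 2153 (.cons 248 t130 .nil)) .nil)) (.cons 274 (.leaf 273 2170 (.cons 298 (.leaf 297 2169 (.cons 251 t127 .nil)) .nil)) (.cons 273 (.leaf 274 2170 (.cons 294 (.leaf 293 2153 (.cons 297 (.cons 270 (.leaf 269 2155 (.cons 318 (.leaf 317 2346 (.cons 319 (.leaf 298 2354 (.cons 343 (.leaf 367 2173 (.leaf 246 1972 .nil)) .nil)) .nil))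 .nil)) (.cons 321 (.leaf 322 2352 (.cons 248 (.leaf 224 1796 (.leaf 345 1991 .nil)) .nil)) .nil)) .nil)) .nil)) (.cons 273 (.leaf 274 2170 (.cons 294 (.leaf 293 2153 (.cons 297 (.cons 317 (.leaf 318 2346 (.cons 322 (.leaf 321 2352 (.cons 298 (.leaf 323 2360 (.cons 270 (.leaf 271 2160 (.leaf 269 2155 .nil)) .nil)) .nil)) .nil)) (.cons 317 (.leaf 318 2346 (.cons 322 (.leaf 321 2352 (.cons 298 (.leaf 323 2360 (.cons 299 (.leaf 271 2171 (.leaf 300 2179 .nil)) .nil)) .nil)) .nil)) (.cons 270 (.leaf 269 2155 (.cons 318 (.leaf 317 2346 (.cons 321 (.leaf 322 2352 (.cons 345 (.leaf 369 2183 (.cons 344 (.leaf 368 2182 (.cons 346 (.leaf 370 2188 (.cons 343 (.leaf 319 2547 (.cons 367 (.leaf 342 2164 (.leaf 366 2738 .nil)) .nil)) .nil)) .nil)) .nil)) .nil)) .nil)) .nil)) (.cons 270 (.leaf 269 2155 (.cons 271 (.leaf 298 2160 (.cons 246 (.leaf 245 1963 (.cons 222 (.leaf 198 1588 (.leaf 319 1780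 .nil)) .nil)) .nil)) .nil)) .nil)))) .nil)) .nil)) .nil))))))
noncomputable def t137 : T := .cons 343 (.leaf 367 2174 (.cons 345 (.leaf 369 2180 (.cons 342 (.cons 321 (.leaf 248 1988 (.leaf 341 2537 .nil)) (.cons 319 (.leaf 248 1982 (.cons 318 (.leaf 317 2536 (.leaf 346 2547 .nil)) .nil)) (.cons 321 (.leaf 341 2537 (.leaf 322 2545 .nil)) .nil))) .nil)) .nil)) (.cons 369 (.leaf 345 2180 (.cons 368 (.leaf 393 2372 (.cons 295 (.leaf 271 2175 (.cons 391 (.leaf 367 2366 (.cons 392 (.leaf 319 2367 (.leaf 415 2558 .nil)) .nil)) .nil)) .nil)) .nil)) (.cons 367 (.leaf 343 2174 (.cons 368 (.leaf 391 2366 (.cons 295 (.leaf 271 2175 (.cons 392 (.leaf 319 2367 (.cons 393 (.leaf 369 2372 (.leaf 417 2564 .nil)) .nil)) .nil)) .nil)) .nil)) (.cons 345 (.leaf 369 2180 (.cons 248 (.leaf 321 1988 (.cons 225 (.leaf 249 1797 (.cons 319 (.leaf 343 1982 (.cons 295 (.leaf 224 1790 (.cons 368 (.leaf 271 2175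 (.leaf 392 2367 .nil)) .nil)) .nil)) .nil)) .nil)) .nil)) (.cons 343 (.leaf 367 2174 (.cons 248 (.leaf 319 1982 (.cons 225 (.leaf 249 1797 (.cons 321 (.leaf 345 1988 (.cons 297 (.leaf 224 1796 (.cons 322 (.leaf 323 2554 (.cons 295 (.leaf 294 2352 (.cons 368 (.leaf 271 2175 (.leaf 392 2373 .nil)) .nil)) .nil)) .nil)) .nil)) .nil)) .nil)) .nil)) (.cons 345 (.leaf 369 2180 (.cons 321 (.leaf 248 1988 (.cons 343 (.leaf 367 2174 (.cons 322 (.leaf 323 2554 (.leaf 342 2545 .nil)) .nil)) .nil)) .nil)) .nil)))))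
noncomputable def t138 : T := .cons 271 (.leaf 247 1983 (.cons 367 (.leaf 343 2174 (.cons 368 (.leaf 295 2175 (.leaf 391 2366 .nil)) .nil)) .nil)) (.cons 367 (.leaf 343 2174 (.cons 368 (.leaf 391 2366 (.cons 369 (.leaf 345 2180 (.leaf 393 2372 .nil)) .nil)) .nil)) (.cons 271 (.leaf 247 1983 (.cons 368 (.leaf 295 2175 (.cons 369 (.leaf 345 2180 (.leaf 393 2372 .nil)) .nil)) .nil)) (.cons 343 (.leaf 367 2174 (.cons 345 (.leaf 369 2180 (.cons 342 (.cons 318 (.leaf 317 2539 (.cons 247 (.leaf 271 1983 (.cons 319 (.leaf 346 2547 (.cons 341 (.leaf 321 2537 (.leaf 340 2529 .nil)) .nil)) .nil)) .nil)) (.cons 318 (.leaf 317 2539 (.cons 247 (.leaf 271 1983 (.cons 319 (.leaf 346 2547 (.cons 341 (.leaf 340 2529 (.cons 365 (.leaf 364 2722 (.leaf 366 2730 .nil)) .nil)) .nil)) .nil)) .nil)) (.cons 321 (.leaf 341 2537 (.leaf 322 2545 .nil)) (.cons 322 (.leaf 321 2545 (.cons 317 (.leaf 318 2539 (.cons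 346 (.leaf 323 2553 (.cons 347 (.leaf 319 2555 (.cons 371 (.leaf 370 2744 (.leaf 372 2752 .nil)) .nil)) .nil)) .nil)) .nil)) .nil)))) .nil)) .nil)) .nil)))
noncomputable def t139 : T := .cons 248 (.cons 223 (.leaf 247 1791 (.cons 224 (.leaf 199 1599 (.cons 319 (.leaf 295 1790 (.leaf 343 1982 .nil)) .nil)) .nil)) (.cons 223 (.leaf 247 1791 (.cons 224 (.leaf 199 1599 (.cons 321 (.leaf 297 1796 (.leaf 345 1988 .nil)) .nil)) .nil)) (.cons 225 (.leaf 249 1797 (.cons 319 (.leaf 343 1982 (.cons 321 (.leaf 345 1988 (.cons 297 (.leaf 224 1796 (.cons 298 (.leaf 299 2362 (.leaf 318 2353 .nil)) .nil)) .nil)) .nil)) .nil)) (.cons 223 (.leaf 247 1791 (.cons 225 (.leaf 249 1797 (.cons 343 (.leaf 319 1982 (.cons 344 (.leaf 367 2174 (.cons 345 (.leaf 321 1988 (.leaf 369 2180 .nil)) .nil)) .nil)) .nil)) .nil)) .nil)))) (.cons 344 t138 (.cons 248 (.cons 223 (.leaf 247 1791 (.cons 224 (.leaf 199 1599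 (.cons 319 (.leaf 295 1790 (.leaf 343 1982 .nil)) .nil)) .nil)) (.cons 247 (.leaf 223 1791 (.cons 249 (.leaf 225 1797 (.cons 250 (.leaf 274 1976 (.cons 271 (.leaf 251 1978 (.leaf 270 1970 .nil)) .nil)) .nil)) .nil)) (.cons 319 (.leaf 343 1982 (.cons 321 (.leaf 345 1988 (.cons 297 (.leaf 224 1796 (.cons 298 (.leaf 299 2362 (.leaf 318 2353 .nil)) .nil)) .nil)) .nil)) .nil))) (.cons 344 (.cons 247 (.leaf 271 1983 (.cons 248 (.leaf 223 1791 (.cons 345 (.leaf 321 1988 (.leaf 369 2180 .nil)) .nil)) .nil)) (.cons 271 (.leaf 247 1983 (.cons 367 (.leaf 343 2174 (.cons 368 (.leaf 295 2175 (.leaf 391 2366 .nil)) .nil)) .nil)) (.cons 345 (.leaf 369 2180 (.cons 321 (.leaf 248 1988 (.cons 343 (.leaf 367 2174 (.cons 322 (.leaf 323 2554 (.leaf 342 2545 .nil)) .nil)) .nil)) .nil)) .nil))) (.cons 344 (.cons 343 (.leaf 367 2174 (.cons 319 (.leaf 248 1982 (.cons 345 (.leaf 369 2180 (.cons 318 (.leaf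 317 2536 (.leaf 346 2547 .nil)) .nil)) .nil)) .nil)) (.cons 271 (.leaf 247 1983 (.cons 368 (.leaf 295 2175 (.cons 369 (.leaf 345 2180 (.leaf 393 2372 .nil)) .nil)) .nil)) (.cons 271 (.leaf 247 1983 (.cons 367 (.leaf 343 2174 (.cons 368 (.leaf 295 2175 (.leaf 391 2366 .nil)) .nil)) .nil)) .nil))) (.cons 248 (.cons 223 (.leaf 247 1791 (.cons 224 (.leaf 199 1599 (.cons 321 (.leaf 297 1796 (.leaf 345 1988 .nil)) .nil)) .nil)) (.cons 225 (.leaf 249 1797 (.cons 321 (.leaf 345 1988 (.cons 224 (.leaf 297 1796 (.cons 199 (.leaf 223 1599 (.cons 200 (.leaf 175 1407 (.cons 295 (.leaf 271 1598 (.leaf 319 1790 .nil)) .nil)) .nil)) .nil)) .nil)) .nil)) (.cons 247 (.leaf 223 1791 (.cons 249 (.leaf 225 1797 (.cons 250 (.leaf 274 1976 (.cons 271 (.leaf 344 1983 (.leaf 251 1978 .nil)) .nil)) .nil)) .nil)) (.cons 225 (.leaf 249 1797 (.cons 321 (.leaf 345 1988 (.cons 224 (.leaf 297 1796 (.cons 295 (.leaf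 319 1790 (.cons 271 (.leaf 200 1598 (.cons 344 (.leaf 247 1983 (.leaf 368 2175 .nil)) .nil)) .nil)) .nil)) .nil)) .nil)) .nil)))) (.cons 248 (.cons 319 (.leaf 343 1982 (.cons 223 (.leaf 247 1791 (.cons 224 (.leaf 199 1599 (.leaf 295 1790 .nil)) .nil)) .nil)) (.cons 247 (.leaf 223 1791 (.cons 249 (.leaf 225 1797 (.cons 250 (.leaf 274 1976 (.cons 271 (.leaf 344 1983 (.leaf 251 1978 .nil)) .nil)) .nil)) .nil)) (.cons 319 (.leaf 343 1982 (.cons 249 (.leaf 225 1797 (.cons 297 (.cons 298 (.leaf 299 2362 (.cons 295 (.leaf 274 2169 (.leaf 224 1790 .nil)) .nil)) (.cons 298 (.leaf 299 2362 (.cons 318 (.leaf 295 2354 (.leaf 317 2345 .nil)) .nil)) (.cons 224 (.leaf 295 1790 (.leaf 321 1796 .nil)) (.cons 298 (.leaf 299 2362 (.cons 321 (.leaf 224 1796 (.leaf 318 2353 .nil)) .nil)) .nil)))) .nil)) .nil)) .nil))) (.cons 344 t137 (.cons 248 (.cons 225 (.leaf 249 1797 (.cons 319 (.leaf 343 1982 (.cons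 321 (.leaf 345 1988 (.cons 297 (.leaf 224 1796 (.cons 298 (.leaf 299 2362 (.leaf 318 2353 .nil)) .nil)) .nil)) .nil)) .nil)) (.cons 247 (.leaf 223 1791 (.cons 249 (.leaf 225 1797 (.cons 250 (.leaf 274 1976 (.cons 271 (.leaf 344 1983 (.leaf 251 1978 .nil)) .nil)) .nil)) .nil)) (.cons 223 (.leaf 247 1791 (.cons 224 (.leaf 199 1599 (.cons 321 (.leaf 297 1796 (.leaf 345 1988 .nil)) .nil)) .nil)) .nil))) .nil))))))))
noncomputable def t140 : T := .cons 223 (.leaf 247 1791 (.cons 249 (.leaf 225 1797 (.cons 344 (.leaf 273 1989 (.cons 345 (.leaf 321 1988 (.leaf 369 2180 .nil)) .nil)) .nil)) .nil)) (.cons 321 (.leaf 345 1988 (.cons 224 (.leaf 297 1796 (.cons 199 (.leaf 223 1599 (.cons 200 (.leaf 175 1407 (.cons 249 (.leaf 225 1797 (.cons 273 (.leaf 344 1989 (.leaf 176 1412 .nil)) .nil)) .nil)) .nil)) .nil)) .nil)) (.cons 247 (.leaf 223 1791 (.cons 271 (.leaf 344 1983 (.cons 273 (.leaf 274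 1979 (.cons 245 (.leaf 246 1960 (.cons 321 (.leaf 345 1988 (.cons 297 (.leaf 224 1796 (.cons 270 (.leaf 269 2152 (.leaf 298 2160 .nil)) .nil)) .nil)) .nil)) .nil)) .nil)) .nil)) (.cons 247 (.leaf 223 1791 (.cons 249 (.leaf 225 1797 (.cons 250 (.leaf 274 1976 (.cons 271 (.leaf 344 1983 (.leaf 251 1978 .nil)) .nil)) .nil)) .nil)) (.cons 249 (.leaf 225 1797 (.cons 273 (.leaf 344 1989 (.cons 274 (.leaf 247 1979 (.cons 251 (.leaf 252 1985 (.cons 250 (.leaf 271 1977 (.cons 299 (.leaf 300 2176 (.cons 226 (.leaf 202 1620 (.leaf 323 1815 .nil)) .nil)) .nil)) .nil)) .nil)) .nil)) .nil)) (.cons 247 (.leaf 223 1791 (.cons 249 (.leaf 225 1797 (.cons 250 (.leaf 274 1976 (.cons 271 (.leaf 251 1978 (.leaf 270 1970 .nil)) .nil)) .nil)) .nil)) .nil)))))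
noncomputable def t141 : T := .cons 247 (.leaf 271 1983 (.cons 223 (.leaf 248 1791 (.cons 273 (.leaf 249 1989 (.cons 367 (.leaf 343 2174 (.cons 368 (.leaf 297 2181 (.leaf 391 2366 .nil)) .nil)) .nil)) .nil)) .nil)) (.cons 247 (.leaf 271 1983 (.cons 248 (.leaf 223 1791 (.cons 343 (.leaf 319 1982 (.leaf 367 2174 .nil)) .nil)) .nil)) (.cons 247 (.leaf 271 1983 (.cons 223 (.leaf 248 1791 (.cons 273 (.leaf 249 1989 (.cons 368 (.leaf 297 2181 (.cons 391 (.leaf 367 2366 (.cons 392 (.leaf 415 2558 (.cons 393 (.leaf 369 2372 (.leaf 417 2564 .nil)) .nil)) .nil)) .nil)) .nil)) .nil)) .nil)) (.cons 247 (.leaf 271 1983 (.cons 223 (.leaf 248 1791 (.cons 273 (.leaf 249 1989 (.cons 368 (.leaf 297 2181 (.cons 369 (.leaf 345 2180 (.leaf 393 2372 .nil)) .nil)) .nil)) .nil)) .nil)) (.cons 273 (.leaf 249 1989 (.cons 297 (.leaf 368 2181 (.cons 343 (.leaf 367 2174 (.cons 319 (.leaf 248 1982 (.cons 318 (.leaf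 317 2345 (.cons 345 (.leaf 369 2180 (.leaf 346 2547 .nil)) .nil)) .nil)) .nil)) .nil)) .nil)) (.cons 273 (.leaf 249 1989 (.cons 247 (.leaf 271 1983 (.cons 368 (.leaf 297 2181 (.cons 369 (.leaf 345 2180 (.leaf 393 2372 .nil)) .nil)) .nil)) .nil)) .nil)))))
noncomputable def t142 : T := .cons 273 (.leaf 249 1989 (.cons 247 (.leaf 271 1983 (.cons 368 (.leaf 297 2181 (.cons 369 (.leaf 345 2180 (.leaf 393 2372 .nil)) .nil)) .nil)) .nil)) (.cons 345 (.leaf 369 2180 (.cons 343 (.leaf 367 2174 (.cons 342 (.cons 321 (.leaf 341 2537 (.leaf 322 2545 .nil)) (.cons 318 (.leaf 317 2539 (.cons 247 (.leaf 271 1983 (.cons 319 (.leaf 346 2547 (.cons 341 (.leaf 340 2529 (.cons 365 (.leaf 364 2722 (.leaf 366 2730 .nil)) .nil)) .nil)) .nil)) .nil)) (.cons 322 (.leaf 321 2545 (.cons 317 (.leaf 318 2539 (.cons 346 (.leaf 323 2553 (.cons 347 (.leaf 319 2555 (.cons 371 (.leaf 370 2744 (.leaf 372 2752 .nil))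 .nil)) .nil)) .nil)) .nil)) .nil))) .nil)) .nil)) (.cons 273 (.leaf 249 1989 (.cons 247 (.leaf 271 1983 (.cons 367 (.leaf 343 2174 (.cons 368 (.leaf 297 2181 (.leaf 391 2366 .nil)) .nil)) .nil)) .nil)) (.cons 345 (.leaf 369 2180 (.cons 343 (.leaf 367 2174 (.cons 342 (.cons 321 (.leaf 341 2537 (.leaf 322 2545 .nil)) (.cons 318 (.leaf 317 2539 (.cons 249 (.leaf 273 1989 (.cons 319 (.leaf 346 2547 (.cons 341 (.leaf 340 2529 (.cons 365 (.leaf 364 2722 (.leaf 366 2730 .nil)) .nil)) .nil)) .nil)) .nil)) (.cons 322 (.leaf 321 2545 (.cons 317 (.leaf 318 2539 (.cons 346 (.leaf 323 2553 (.cons 347 (.leaf 319 2555 (.cons 371 (.leaf 370 2744 (.leaf 372 2752 .nil)) .nil)) .nil)) .nil)) .nil)) .nil))) .nil)) .nil)) .nil)))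
noncomputable def t143 : T := .cons 248 (.cons 225 (.leaf 249 1797 (.cons 319 (.leaf 343 1982 (.cons 321 (.leaf 345 1988 (.cons 297 (.leaf 224 1796 (.cons 298 (.leaf 299 2362 (.leaf 318 2353 .nil)) .nil)) .nil)) .nil)) .nil)) (.cons 247 (.leaf 223 1791 (.cons 249 (.leaf 225 1797 (.cons 250 (.leaf 274 1976 (.cons 271 (.leaf 251 1978 (.leaf 270 1970 .nil)) .nil)) .nil)) .nil)) (.cons 223 (.leaf 247 1791 (.cons 224 (.leaf 199 1599 (.cons 297 (.leaf 321 1796 (.cons 273 (.leaf 200 1604 (.cons 319 (.leaf 343 1982 (.cons 299 (.leaf 298 2362 (.cons 274 (.leaf 300 2176 (.cons 251 (.leaf 252 1985 (.cons 250 (.leaf 271 1977 (.cons 226 (.leaf 202 1620 (.leaf 323 1815 .nil)) .nil)) .nil)) .nil)) .nil)) .nil)) .nil)) .nil)) .nil)) .nil)) .nil))) (.cons 344 t142 (.cons 248 (.cons 223 (.leaf 247 1791 (.cons 224 (.leaf 199 1599 (.cons 297 (.leaf 321 1796 (.cons 273 (.leaf 200 1604 (.cons 344 (.leaf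 249 1989 (.leaf 368 2181 .nil)) .nil)) .nil)) .nil)) .nil)) (.cons 249 (.leaf 225 1797 (.cons 343 (.leaf 319 1982 (.cons 344 (.leaf 273 1989 (.leaf 367 2174 .nil)) .nil)) .nil)) (.cons 223 (.leaf 247 1791 (.cons 224 (.leaf 199 1599 (.cons 297 (.leaf 321 1796 (.cons 273 (.leaf 200 1604 (.cons 319 (.leaf 343 1982 (.cons 299 (.leaf 298 2362 (.cons 274 (.leaf 300 2176 (.cons 251 (.leaf 252 1985 (.cons 250 (.leaf 271 1977 (.cons 226 (.leaf 202 1620 (.leaf 323 1815 .nil)) .nil)) .nil)) .nil)) .nil)) .nil)) .nil)) .nil)) .nil)) .nil)) (.cons 247 (.leaf 223 1791 (.cons 249 (.leaf 225 1797 (.cons 250 (.leaf 274 1976 (.cons 271 (.leaf 344 1983 (.leaf 251 1978 .nil)) .nil)) .nil)) .nil)) .nil)))) (.cons 248 (.cons 225 (.leaf 249 1797 (.cons 319 (.leaf 343 1982 (.cons 321 (.leaf 345 1988 (.cons 297 (.leaf 224 1796 (.cons 298 (.leaf 299 2362 (.leaf 318 2353 .nil)) .nil)) .nil)) .nil)) .nil)) (.cons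 247 (.leaf 223 1791 (.cons 249 (.leaf 225 1797 (.cons 250 (.leaf 274 1976 (.cons 271 (.leaf 344 1983 (.leaf 251 1978 .nil)) .nil)) .nil)) .nil)) (.cons 223 (.leaf 247 1791 (.cons 224 (.leaf 199 1599 (.cons 321 (.leaf 297 1796 (.leaf 345 1988 .nil)) .nil)) .nil)) .nil))) (.cons 344 (.cons 343 (.leaf 367 2174 (.cons 248 (.leaf 319 1982 (.cons 345 (.leaf 321 1988 (.leaf 369 2180 .nil)) .nil)) .nil)) (.cons 273 (.leaf 249 1989 (.cons 297 (.leaf 368 2181 (.cons 343 (.leaf 367 2174 (.cons 248 (.leaf 319 1982 (.cons 224 (.leaf 200 1604 (.leaf 321 1796 .nil)) .nil)) .nil)) .nil)) .nil)) (.cons 345 (.leaf 369 2180 (.cons 248 (.leaf 321 1988 (.cons 249 (.leaf 225 1797 (.leaf 273 1989 .nil)) .nil)) .nil)) (.cons 249 (.leaf 273 1989 (.cons 248 (.leaf 225 1797 (.cons 343 (.leaf 319 1982 (.leaf 367 2174 .nil)) .nil)) .nil)) (.cons 249 (.leaf 273 1989 (.cons 367 (.leaf 343 2174 (.cons 368 (.leaf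 391 2366 (.cons 369 (.leaf 345 2180 (.leaf 393 2372 .nil)) .nil)) .nil)) .nil)) .nil))))) (.cons 344 t141 (.cons 248 t140 (.cons 344 (.cons 247 (.leaf 271 1983 (.cons 223 (.leaf 248 1791 (.cons 369 (.leaf 345 2180 (.cons 368 (.leaf 393 2372 (.cons 297 (.leaf 273 2181 (.cons 391 (.leaf 367 2366 (.cons 392 (.leaf 321 2373 (.leaf 415 2558 .nil)) .nil)) .nil)) .nil)) .nil)) .nil)) .nil)) (.cons 343 (.leaf 367 2174 (.cons 247 (.leaf 271 1983 (.cons 248 (.leaf 223 1791 (.leaf 319 1982 .nil)) .nil)) .nil)) (.cons 345 (.leaf 369 2180 (.cons 247 (.leaf 271 1983 (.cons 248 (.leaf 223 1791 (.leaf 321 1988 .nil)) .nil)) .nil)) (.cons 345 (.leaf 369 2180 (.cons 248 (.leaf 321 1988 (.cons 343 (.leaf 319 1982 (.leaf 367 2174 .nil)) .nil)) .nil)) (.cons 369 (.leaf 345 2180 (.cons 247 (.leaf 271 1983 (.cons 343 (.leaf 367 2174 (.cons 368 (.leaf 393 2372 (.cons 297 (.leaf 273 2181 (.cons 321 (.leaf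 392 2373 (.cons 342 (.leaf 341 2728 (.cons 322 (.leaf 319 2546 (.leaf 323 2554 .nil)) .nil)) .nil)) .nil)) .nil)) .nil)) .nil)) .nil)) .nil))))) (.cons 344 (.cons 247 (.leaf 271 1983 (.cons 248 (.leaf 223 1791 (.cons 345 (.leaf 321 1988 (.leaf 369 2180 .nil)) .nil)) .nil)) (.cons 247 (.leaf 271 1983 (.cons 248 (.leaf 223 1791 (.cons 343 (.leaf 319 1982 (.leaf 367 2174 .nil)) .nil)) .nil)) (.cons 343 (.leaf 367 2174 (.cons 248 (.leaf 319 1982 (.cons 345 (.leaf 321 1988 (.leaf 369 2180 .nil)) .nil)) .nil)) (.cons 247 (.leaf 271 1983 (.cons 249 (.leaf 273 1989 (.cons 367 (.leaf 343 2174 (.cons 368 (.leaf 391 2366 (.cons 369 (.leaf 345 2180 (.leaf 393 2372 .nil)) .nil)) .nil)) .nil)) .nil)) .nil)))) .nil))))))))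
noncomputable def t144 : T := .cons 225 (.leaf 249 1797 (.cons 321 (.leaf 345 1988 (.cons 224 (.leaf 297 1796 (.cons 199 (.leaf 223 1599 (.cons 200 (.leaf 175 1407 (.cons 295 (.leaf 271 1598 (.leaf 319 1790 .nil)) .nil)) .nil)) .nil)) .nil)) .nil)) (.cons 247 (.leaf 223 1791 (.cons 246 (.leaf 245 1960 (.cons 249 (.leaf 225 1797 (.cons 222 (.leaf 221 1771 (.cons 270 (.leaf 269 1962 (.cons 319 (.leaf 343 1982 (.cons 295 (.leaf 224 1790 (.leaf 271 1783 .nil)) .nil)) .nil)) .nil)) .nil)) .nil)) .nil)) (.cons 223 (.leaf 247 1791 (.cons 224 (.leaf 199 1599 (.cons 319 (.leaf 295 1790 (.leaf 343 1982 .nil)) .nil)) .nil)) (.cons 247 (.leaf 223 1791 (.cons 246 (.leaf 245 1960 (.cons 249 (.leaf 225 1797 (.cons 221 (.leaf 222 1771 (.cons 321 (.leaf 345 1988 (.cons 224 (.leaf 297 1796 (.cons 176 (.leaf 200 1412 (.cons 270 (.leaf 269 1962 (.cons 250 (.leaf 271 1969 (.cons 227 (.leaf 226 1785 (.cons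 251 (.leaf 252 1986 (.leaf 228 1793 .nil)) .nil)) .nil)) .nil)) .nil)) .nil)) .nil)) .nil)) .nil)) .nil)) .nil)) (.cons 225 (.leaf 249 1797 (.cons 319 (.leaf 343 1982 (.cons 295 (.leaf 224 1790 (.cons 294 (.leaf 293 2153 (.cons 321 (.leaf 345 1988 (.leaf 322 2355 .nil)) .nil)) .nil)) .nil)) .nil)) (.cons 247 (.leaf 223 1791 (.cons 246 (.leaf 245 1960 (.cons 321 (.leaf 345 1988 (.cons 319 (.leaf 343 1982 (.cons 295 (.cons 294 (.leaf 293 2344 (.leaf 322 2355 .nil)) (.cons 222 (.leaf 271 1783 (.cons 322 (.leaf 323 2363 (.cons 298 (.leaf 299 2361 (.cons 297 (.leaf 318 2353 (.cons 346 (.leaf 249 1996 (.leaf 370 2191 .nil)) .nil)) .nil)) .nil)) .nil)) (.cons 293 (.leaf 294 2344 (.cons 271 (.leaf 222 1783 (.cons 249 (.leaf 225 1797 (.cons 270 (.leaf 269 1961 (.leaf 250 1969 .nil)) .nil)) .nil)) .nil)) .nil))) .nil)) .nil)) .nil)) .nil)) .nil)))))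
noncomputable def t145 : T := .cons 344 (.leaf 249 1989 (.cons 247 (.leaf 271 1983 (.cons 368 (.leaf 297 2181 (.cons 369 (.leaf 345 2180 (.leaf 393 2372 .nil)) .nil)) .nil)) .nil)) (.cons 248 t144 (.cons 344 (.cons 247 (.leaf 271 1983 (.cons 368 (.leaf 297 2181 (.cons 369 (.leaf 345 2180 (.leaf 393 2372 .nil)) .nil)) .nil)) (.cons 247 (.leaf 271 1983 (.cons 248 (.leaf 223 1791 (.cons 343 (.leaf 319 1982 (.leaf 367 2174 .nil)) .nil)) .nil)) (.cons 297 (.leaf 368 2181 (.cons 345 (.leaf 369 2180 (.cons 248 (.leaf 321 1988 (.cons 223 (.leaf 247 1791 (.cons 224 (.leaf 199 1599 (.leaf 200 1604 .nil)) .nil)) .nil)) .nil)) .nil)) (.cons 297 (.leaf 368 2181 (.cons 345 (.leaf 369 2180 (.cons 321 (.leaf 248 1988 (.cons 346 (.leaf 370 2188 (.cons 319 (.leaf 318 2544 (.leaf 347 2555 .nil)) .nil)) .nil)) .nil)) .nil)) .nil)))) (.cons 344 (.leaf 249 1989 (.cons 247 (.leaf 271 1983 (.cons 248 (.leaf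 223 1791 (.cons 343 (.leaf 319 1982 (.leaf 367 2174 .nil)) .nil)) .nil)) .nil)) (.cons 344 (.leaf 249 1989 (.cons 297 (.leaf 368 2181 (.cons 345 (.leaf 369 2180 (.cons 248 (.leaf 321 1988 (.cons 223 (.leaf 247 1791 (.cons 224 (.leaf 199 1599 (.leaf 200 1604 .nil)) .nil)) .nil)) .nil)) .nil)) .nil)) (.cons 344 (.leaf 249 1989 (.cons 297 (.leaf 368 2181 (.cons 345 (.leaf 369 2180 (.cons 321 (.leaf 248 1988 (.cons 346 (.leaf 370 2188 (.cons 319 (.leaf 318 2544 (.leaf 347 2555 .nil)) .nil)) .nil)) .nil)) .nil)) .nil)) .nil)))))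
noncomputable def t146 : T := .cons 274 (.leaf 295 2170 (.cons 248 (.leaf 247 1979 (.cons 251 (.leaf 252 1985 (.cons 299 (.leaf 300 2176 (.cons 227 (.cons 202 (.leaf 226 1623 (.cons 203 (.leaf 178 1431 (.leaf 298 1622 .nil)) .nil)) (.cons 202 (.leaf 226 1623 (.cons 203 (.leaf 178 1431 (.cons 204 (.leaf 180 1437 (.leaf 228 1629 .nil)) .nil)) .nil)) (.cons 202 (.leaf 226 1623 (.cons 228 (.leaf 204 1629 (.cons 249 (.leaf 250 1793 (.cons 298 (.leaf 322 1814 (.leaf 271 2168 .nil)) .nil)) .nil)) .nil)) (.cons 298 (.leaf 203 1622 (.leaf 322 1814 .nil)) .nil)))) .nil)) .nil)) .nil)) .nil)) (.cons 320 t145 (.cons 274 (.cons 299 (.leaf 300 2176 (.cons 251 (.leaf 252 1985 (.cons 271 (.leaf 250 1977 (.leaf 298 2168 .nil)) .nil)) .nil)) (.cons 247 (.leaf 248 1979 (.cons 251 (.leaf 252 1985 (.cons 271 (.leaf 246 1971 (.leaf 250 1977 .nil)) .nil)) .nil)) (.cons 299 (.leaf 300 2176 (.cons 247 (.leaf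 248 1979 (.cons 271 (.leaf 246 1971 (.leaf 298 2168 .nil)) .nil)) .nil)) (.cons 248 (.leaf 247 1979 (.cons 251 (.leaf 252 1985 (.cons 299 (.leaf 300 2176 (.cons 227 (.cons 202 (.leaf 226 1623 (.cons 203 (.leaf 178 1431 (.leaf 298 1622 .nil)) .nil)) (.cons 202 (.leaf 226 1623 (.cons 203 (.leaf 178 1431 (.cons 204 (.leaf 180 1437 (.leaf 228 1629 .nil)) .nil)) .nil)) (.cons 202 (.leaf 226 1623 (.cons 228 (.leaf 204 1629 (.cons 249 (.leaf 250 1793 (.cons 298 (.leaf 322 1814 (.cons 320 (.leaf 225 1797 (.leaf 344 1989 .nil)) .nil)) .nil)) .nil)) .nil)) (.cons 298 (.leaf 203 1622 (.leaf 322 1814 .nil)) .nil)))) .nil)) .nil)) .nil)) .nil)))) (.cons 274 (.leaf 295 2170 (.cons 299 (.leaf 300 2176 (.cons 251 (.leaf 252 1985 (.cons 271 (.leaf 250 1977 (.leaf 298 2168 .nil)) .nil)) .nil)) .nil)) (.cons 274 (.leaf 295 2170 (.cons 248 (.leaf 247 1979 (.cons 251 (.leaf 252 1985 (.cons 299 (.leaf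 300 2176 (.cons 227 (.cons 202 (.leaf 226 1623 (.cons 203 (.leaf 178 1431 (.leaf 298 1622 .nil)) .nil)) (.cons 202 (.leaf 226 1623 (.cons 203 (.leaf 178 1431 (.cons 204 (.leaf 180 1437 (.leaf 228 1629 .nil)) .nil)) .nil)) (.cons 202 (.leaf 226 1623 (.cons 228 (.leaf 204 1629 (.cons 249 (.leaf 250 1793 (.cons 298 (.leaf 322 1814 (.cons 320 (.leaf 225 1797 (.leaf 344 1989 .nil)) .nil)) .nil)) .nil)) .nil)) (.cons 298 (.leaf 203 1622 (.leaf 322 1814 .nil)) .nil)))) .nil)) .nil)) .nil)) .nil)) (.cons 274 (.leaf 295 2170 (.cons 248 (.leaf 247 1979 (.cons 251 (.leaf 252 1985 (.cons 250 (.leaf 271 1977 (.cons 297 (.cons 321 (.leaf 224 1796 (.leaf 345 1997 .nil)) (.cons 202 (.leaf 226 1614 (.cons 224 (.leaf 200 1604 (.cons 223 (.leaf 199 1599 (.leaf 249 1787 .nil)) .nil)) .nil)) (.cons 321 (.leaf 345 1997 (.cons 226 (.leaf 202 1614 (.leaf 249 1805 .nil)) .nil)) .nil))) .nil)) .nil)) .nil))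 .nil)) (.cons 274 (.leaf 295 2170 (.cons 299 (.leaf 300 2176 (.cons 247 (.leaf 248 1979 (.cons 271 (.leaf 246 1971 (.leaf 298 2168 .nil)) .nil)) .nil)) .nil)) .nil))))))
noncomputable def top0 : T := .cons 252 (.cons 274 (.leaf 273 1985 (.cons 228 t60 .nil)) (.cons 250 (.cons 249 (.leaf 273 1986 (.cons 228 (.leaf 229 1801 (.cons 248 (.leaf 271 1978 (.leaf 227 1793 .nil)) .nil)) .nil)) (.cons 226 (.cons 202 (.leaf 178 1428 (.cons 225 (.leaf 253 1803 (.cons 224 (.leaf 223 1784 (.leaf 227 1792 .nil)) .nil)) .nil)) (.cons 202 (.leaf 178 1428 (.cons 299 (.leaf 227 1623 (.leaf 323 1815 .nil)) .nil)) (.cons 225 (.leaf 253 1803 (.cons 224 (.leaf 223 1784 (.leaf 227 1792 .nil)) .nil)) (.cons 178 (.leaf 202 1428 (.cons 253 (.leaf 225 1803 (.cons 230 (.leaf 229 1809 (.cons 254 (.leaf 231 1817 (.cons 278 (.leaf 277 2000 (.leaf 279 2008 .nil)) .nil)) .nil)) .nil)) .nil)) .nil)))) (.cons 249 (.leaf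 273 1986 (.cons 224 (.leaf 225 1795 (.cons 248 (.leaf 271 1978 (.leaf 223 1787 .nil)) .nil)) .nil)) .nil))) (.cons 299 t59 t58))) (.cons 299 t57 (.cons 299 t56 (.cons 273 t53 (.cons 299 t47 (.cons 273 t43 (.cons 227 (.cons 299 (.cons 202 (.leaf 226 1623 (.cons 178 (.leaf 203 1431 (.cons 228 (.leaf 204 1629 (.cons 322 (.leaf 298 1814 (.cons 323 (.leaf 252 1821 (.leaf 346 2006 .nil)) .nil)) .nil)) .nil)) .nil)) (.cons 202 (.leaf 226 1623 (.cons 203 (.leaf 178 1431 (.cons 204 (.leaf 180 1437 (.leaf 228 1629 .nil)) .nil)) .nil)) (.cons 202 (.leaf 226 1623 (.cons 203 (.leaf 178 1431 (.cons 298 (.leaf 274 1622 (.leaf 322 1814 .nil)) .nil)) .nil)) (.cons 298 (.leaf 322 1814 (.cons 203 (.leaf 274 1622 (.cons 204 (.leaf 180 1437 (.leaf 228 1629 .nil)) .nil)) .nil)) (.cons 202 (.leaf 226 1623 (.cons 204 (.leaf 228 1629 (.cons 298 (.leaf 322 1814 (.cons 300 (.leaf 324 1820 (.cons 297 (.leaf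 273 2179 (.cons 296 (.leaf 271 2171 (.cons 320 (.leaf 319 2362 (.leaf 321 2370 .nil)) .nil)) .nil)) .nil)) .nil)) .nil)) .nil)) .nil))))) t38) (.cons 274 (.cons 273 (.leaf 252 1985 (.cons 271 (.leaf 250 1977 (.cons 295 (.leaf 296 2170 (.leaf 294 2162 .nil)) .nil)) .nil)) (.cons 227 t36 (.cons 273 t35 (.cons 273 (.leaf 252 1985 (.cons 299 (.leaf 300 2176 (.cons 271 (.leaf 298 2168 (.cons 295 (.leaf 296 2170 (.leaf 294 2162 .nil)) .nil)) .nil)) .nil)) .nil)))) (.cons 274 t34 (.cons 274 t31 (.cons 252 t29 (.cons 250 t24 (.cons 274 t18 (.cons 252 t15 (.cons 274 t8 (.cons 274 t6 (.cons 252 t4 .nil))))))))))))))))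
noncomputable def top1 : T := .cons 273 t146 (.cons 320 (.cons 344 (.cons 247 (.leaf 271 1983 (.cons 223 (.leaf 248 1791 (.cons 367 (.leaf 343 2174 (.cons 368 (.leaf 391 2366 (.cons 369 (.leaf 345 2180 (.leaf 393 2372 .nil)) .nil)) .nil)) .nil)) .nil)) (.cons 247 (.leaf 271 1983 (.cons 273 (.leaf 249 1989 (.cons 248 (.leaf 274 1979 (.leaf 223 1791 .nil)) .nil)) .nil)) (.cons 345 (.leaf 369 2180 (.cons 248 (.leaf 321 1988 (.cons 249 (.leaf 225 1797 (.leaf 273 1989 .nil)) .nil)) .nil)) (.cons 273 (.leaf 249 1989 (.cons 247 (.leaf 271 1983 (.cons 368 (.leaf 297 2181 (.cons 369 (.leaf 345 2180 (.leaf 393 2372 .nil)) .nil)) .nil)) .nil)) .nil)))) t143) (.cons 320 t139 (.cons 295 t136 (.cons 320 t126 (.cons 295 (.cons 273 (.leaf 274 2170 (.cons 294 (.leaf 293 2153 (.cons 297 (.cons 322 (.leaf 321 2352 (.cons 298 (.leaf 323 2360 (.cons 299 (.leaf 271 2171 (.leaf 300 2179 .nil)) .nil)) .nil))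 (.cons 270 (.leaf 269 2155 (.cons 318 (.leaf 317 2346 (.cons 271 (.leaf 298 2160 (.cons 247 (.leaf 223 1782 (.leaf 342 1973 .nil)) .nil)) .nil)) .nil)) (.cons 270 (.leaf 269 2155 (.cons 318 (.leaf 317 2346 (.cons 321 (.leaf 322 2352 (.cons 345 (.leaf 369 2183 (.cons 344 (.leaf 368 2182 (.cons 346 (.leaf 370 2188 (.cons 343 (.leaf 319 2547 (.cons 367 (.leaf 320 2174 (.leaf 342 2164 .nil)) .nil)) .nil)) .nil)) .nil)) .nil)) .nil)) .nil)) .nil))) .nil)) .nil)) (.cons 297 t122 t121)) (.cons 273 t116 (.cons 273 t113 (.cons 295 t110 (.cons 295 t106 (.cons 295 t98 (.cons 273 t92 (.cons 273 t89 (.cons 273 t86 (.cons 273 t82 (.cons 273 t80 (.cons 295 t78 (.cons 273 t71 (.cons 295 (t68) (.cons 273 t64 (.cons 273 t62 .nil))))))))))))))))))))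

end Vale.Agent.P062.PB.N5D9
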